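import Crest.Prelude.Def_PlanarFPP

/-!
# R151, block A (helper565): shifts, blocks of columns, independence, i.i.d. stages
-/

set_option autoImplicit false

open MeasureTheory ProbabilityTheory Filter Topology
open Crest.ProbabilityR.FirstPassage
open scoped ENNReal

namespace Crest.Agent.R151.A

/-! ## translations of the environment -/

/-- translate of an unordered pair -/
def eShift (z : ℤ × ℤ) (e : Sym2 (ℤ × ℤ)) : Sym2 (ℤ × ℤ) := e.map (fun x => x + z)

lemma eShift_injective (z : ℤ × ℤ) : Function.Injective (eShift z) :=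
  Sym2.map.injective (add_left_injective z)

@[simp] lemma eShift_mk (z x y : ℤ × ℤ) : eShift z s(x, y) = s(x + z, y + z) := rfl

lemma eShift_eShift (z w : ℤ × ℤ) (e : Sym2 (ℤ × ℤ)) :
    eShift z (eShift w e) = eShift (w + z) e := by
  induction e with
  | _ x y => simp [add_assoc]

@[simp] lemma eShift_zero (e : Sym2 (ℤ × ℤ)) : eShift 0 e = e := by
  induction e with
  | _ x y => simp

/-- the environment seen from `z` -/
def shift (z : ℤ × ℤ) (t : Environment) : Environment := fun e => t (eShift z e)

lemma shift_apply (z : ℤ × ℤ) (t : Environment) (e : Sym2 (ℤ × ℤ)) :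
    shift z t e = t (eShift z e) := rfl

lemma shift_shift (z w : ℤ × ℤ) (t : Environment) : shift z (shift w t) = shift (z + w) t := by
  funext e
  simp [shift, eShift_eShift]

@[simp] lemma shift_zero (t : Environment) : shift 0 t = t := by
  funext e
  simp [shift]

@[fun_prop] lemma measurable_shift (z : ℤ × ℤ) : Measurable (shift z) :=
  measurable_pi_lambda _ fun _ => measurable_pi_apply _

lemma mp_shift (G : Measure ℝ) [IsProbabilityMeasure G] (z : ℤ × ℤ) :
    MeasurePreserving (shift z) (iidLaw G) (iidLaw G) :=
  ⟨measurable_shift z,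
    Measure.map_infinitePi_infinitePi_of_inj (P := fun _ : Sym2 (ℤ × ℤ) => G)
      (eShift_injective z)⟩

instance (G : Measure ℝ) [IsProbabilityMeasure G] : IsProbabilityMeasure (iidLaw G) := by
  unfold iidLaw
  infer_instance

/-! ## functions depending on a set of edges -/

/-- the `σ`-algebra of the edges in `S` -/
@[instance_reducible] def sig (S : Set (Sym2 (ℤ × ℤ))) : MeasurableSpace Environment :=
  ⨆ e ∈ S, MeasurableSpace.comap (fun t : Environment => t e) inferInstance

lemma indep_sig (G : Measure ℝ) [IsProbabilityMeasure G] {S T : Set (Sym2 (ℤ × ℤ))}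
    (h : Disjoint S T) : Indep (sig S) (sig T) (iidLaw G) := by
  have h1 : iIndepFun (fun (e : Sym2 (ℤ × ℤ)) (t : Environment) => t e) (iidLaw G) :=
    iIndepFun_infinitePi (X := fun _ (x : ℝ) => x) (fun _ => measurable_id)
  exact indep_iSup_of_disjoint (fun e => (measurable_pi_apply e).comap_le) h1 h

lemma comap_le_sig {α : Type*} [MeasurableSpace α] {f : Environment → α}
    {S : Set (Sym2 (ℤ × ℤ))} (hf : Measurable f) (hS : DependsOn f S) :
    MeasurableSpace.comap f inferInstance ≤ sig S := by
  classical
  let r : Environment → Environment := fun t e => if e ∈ S then t e else 0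
  have hr : @Measurable _ _ (sig S) _ r := by
    refine @measurable_pi_lambda _ _ _ (sig S) _ _ fun e => ?_
    by_cases he : e ∈ S
    · simp only [r, he, if_true]
      refine Measurable.mono (comap_measurable (fun t : Environment => t e)) ?_ le_rfl
      exact le_iSup₂_of_le e he le_rfl
    · simp only [r, he, if_false]
      exact @measurable_const _ _ _ (sig S) 0
  have hfr : f = f ∘ r := by
    funext t
    refine hS fun e he => ?_
    simp [r, he]
  rw [hfr]
  exact Measurable.comap_le (hf.comp hr)

/-- functions depending on disjoint sets of edges are independent -/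
lemma indepFun_of_dependsOn (G : Measure ℝ) [IsProbabilityMeasure G] {α β : Type*}
    [MeasurableSpace α] [MeasurableSpace β] {f : Environment → α} {g : Environment → β}
    {S T : Set (Sym2 (ℤ × ℤ))} (hf : Measurable f) (hg : Measurable g)
    (hfS : DependsOn f S) (hgT : DependsOn g T) (hST : Disjoint S T) :
    IndepFun f g (iidLaw G) := by
  rw [IndepFun_iff_Indep]
  exact indep_of_indep_of_le_left (indep_of_indep_of_le_right (indep_sig G hST)
    (comap_le_sig hg hgT)) (comap_le_sig hf hfS)

/-! ## columns -/

/-- the left abscissa of a pair -/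
def eX : Sym2 (ℤ × ℤ) → ℤ := Sym2.lift ⟨fun x y => min x.1 y.1, fun _ _ => min_comm _ _⟩

@[simp] lemma eX_mk (x y : ℤ × ℤ) : eX s(x, y) = min x.1 y.1 := rfl

lemma eX_eShift (z : ℤ × ℤ) (e : Sym2 (ℤ × ℤ)) : eX (eShift z e) = eX e + z.1 := by
  induction e with
  | _ x y => simp [min_add_add_right]

/-- the pairs with left abscissa in `[a, b)` -/
def block (a b : ℤ) : Set (Sym2 (ℤ × ℤ)) := {e | a ≤ eX e ∧ eX e < b}

lemma block_mono {a b a' b' : ℤ} (h : a' ≤ a) (h' : b ≤ b') : block a b ⊆ block a' b' :=
  fun _ he => ⟨h.trans he.1, he.2.trans_le h'⟩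

lemma block_disjoint {a b c d : ℤ} (h : b ≤ c) : Disjoint (block a b) (block c d) := by
  rw [Set.disjoint_left]
  rintro e ⟨_, h1⟩ ⟨h2, _⟩
  omega

lemma dependsOn_comp_shift {α : Type*} {f : Environment → α} {a b : ℤ}
    (hf : DependsOn f (block a b)) (z : ℤ × ℤ) :
    DependsOn (fun t => f (shift z t)) (block (a + z.1) (b + z.1)) := by
  intro t t' htt
  refine hf fun e he => ?_
  refine htt _ ?_
  simp only [block, Set.mem_ofPred_eq, eX_eShift] at he ⊢
  omega

end Crest.Agent.R151.A
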