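import Crest.Agent.R151.A565a

/-!
# R151, block A (helper565): i.i.d. stages

A stage of width `L` is a displacement `d : Environment → ℤ` depending only on the columns
`[0, L)`. Starting at height `0`, the heights `H k` are obtained by applying the stage to the
environment seen from `(k L, H k)`. For any function `φ` depending on the columns `[0, L)` the
values `Z φ k = φ (shift (k L, H k))` are pairwise independent and identically distributed.
-/

set_option autoImplicit false

open MeasureTheory ProbabilityTheory Filter Topology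
open Crest.ProbabilityR.FirstPassage
open scoped ENNReal

namespace Crest.Agent.R151.A

section Stage

variable (L : ℤ) (d : Environment → ℤ)

/-- the heights of the stage process -/
def hgt : ℕ → Environment → ℤ
  | 0, _ => 0
  | k + 1, t => hgt k t + d (shift ((k : ℤ) * L, hgt k t) t)

@[simp] lemma hgt_zero (t : Environment) : hgt L d 0 t = 0 := rfl

lemma hgt_succ (k : ℕ) (t : Environment) :
    hgt L d (k + 1) t = hgt L d k t + d (shift ((k : ℤ) * L, hgt L d k t) t) := rfl

/-- the `k`-th value of the observable `φ` along the stage process -/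
def stg {α : Type*} (φ : Environment → α) (k : ℕ) (t : Environment) : α :=
  φ (shift ((k : ℤ) * L, hgt L d k t) t)

variable {L d}

lemma measurable_eval_int {α : Type*} [MeasurableSpace α] {g : ℤ → Environment → α}
    (hg : ∀ h, Measurable (g h)) {H : Environment → ℤ} (hH : Measurable H) :
    Measurable (fun t => g (H t) t) := by
  have h1 : Measurable (fun p : ℤ × Environment => g p.1 p.2) :=
    measurable_from_prod_countable_right hg
  exact h1.comp (hH.prodMk measurable_id)

lemma measurable_hgt (hd : Measurable d) (k : ℕ) : Measurable (hgt L d k) := by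
  induction k with
  | zero => exact measurable_const
  | succ k ih =>
    refine ih.add ?_
    exact measurable_eval_int (g := fun h t => d (shift ((k : ℤ) * L, h) t))
      (fun h => hd.comp (measurable_shift _)) ih

lemma measurable_stg {α : Type*} [MeasurableSpace α] {φ : Environment → α}
    (hd : Measurable d) (hφ : Measurable φ) (k : ℕ) : Measurable (stg L d φ k) :=
  measurable_eval_int (g := fun h t => φ (shift ((k : ℤ) * L, h) t))
    (fun _ => hφ.comp (measurable_shift _)) (measurable_hgt hd k)

lemma dependsOn_stg_aux {α : Type*} {φ : Environment → α} (hL : 0 ≤ L)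
    (hφ : DependsOn φ (block 0 L)) {k : ℕ}
    (hH : DependsOn (hgt L d k) (block 0 (k * L))) :
    DependsOn (stg L d φ k) (block 0 ((k + 1 : ℕ) * L)) := by
  intro t t' htt
  have hle : (k : ℤ) * L ≤ ((k + 1 : ℕ) : ℤ) * L := by push_cast; nlinarith
  have h1 : hgt L d k t = hgt L d k t' :=
    hH fun e he => htt e (block_mono le_rfl hle he)
  unfold stg
  rw [← h1]
  refine dependsOn_comp_shift hφ _ fun e he => htt e ?_
  refine block_mono ?_ ?_ he
  · simp only [zero_add]; positivity
  · simp only; push_cast; nlinarith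

lemma dependsOn_hgt (hL : 0 ≤ L) (hd : DependsOn d (block 0 L)) (k : ℕ) :
    DependsOn (hgt L d k) (block 0 (k * L)) := by
  induction k with
  | zero => intro t t' _; rfl
  | succ k ih =>
    intro t t' htt
    have hle : (k : ℤ) * L ≤ ((k + 1 : ℕ) : ℤ) * L := by push_cast; nlinarith
    have h1 : hgt L d k t = hgt L d k t' := ih fun e he => htt e (block_mono le_rfl hle he)
    have h2 := dependsOn_stg_aux hL hd ih htt
    unfold stg at h2
    rw [hgt_succ, hgt_succ, h2, h1]

lemma dependsOn_stg {α : Type*} {φ : Environment → α} (hL : 0 ≤ L)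
    (hd : DependsOn d (block 0 L)) (hφ : DependsOn φ (block 0 L)) (k : ℕ) :
    DependsOn (stg L d φ k) (block 0 ((k + 1 : ℕ) * L)) :=
  dependsOn_stg_aux hL hφ (dependsOn_hgt hL hd k)

/-- the pairs with nonnegative left abscissa -/
def half : Set (Sym2 (ℤ × ℤ)) := {e | 0 ≤ eX e}

lemma block_subset_half {a b : ℤ} (ha : 0 ≤ a) : block a b ⊆ half := fun _ he => ha.trans he.1

lemma dependsOn_comp_shift_half {α : Type*} {f : Environment → α} (hf : DependsOn f half)
    (z : ℤ × ℤ) : DependsOn (fun t => f (shift z t)) {e | z.1 ≤ eX e} := by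
  intro t t' htt
  refine hf fun e he => ?_
  refine htt _ ?_
  simp only [half, Set.mem_ofPred_eq, eX_eShift] at he ⊢
  omega

/-- the basic factorisation: an event of the first `k` stages and the `k`-th stage; the
observable `φ` of the `k`-th stage may depend on the whole half plane to the right -/
lemma measure_inter_stg (G : Measure ℝ) [IsProbabilityMeasure G] {α β : Type*}
    [MeasurableSpace α] [MeasurableSpace β] {φ : Environment → α} {ψ : Environment → β}
    (hL : 0 ≤ L) (hd : DependsOn d (block 0 L)) (hdm : Measurable d)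
    (hφ : DependsOn φ half) (hφm : Measurable φ) (k : ℕ)
    (hψ : DependsOn ψ (block 0 (k * L))) (hψm : Measurable ψ)
    {A : Set β} (hA : MeasurableSet A) {B : Set α} (hB : MeasurableSet B) :
    iidLaw G (ψ ⁻¹' A ∩ (stg L d φ k) ⁻¹' B) = iidLaw G (ψ ⁻¹' A) * iidLaw G (φ ⁻¹' B) := by
  have hH := dependsOn_hgt (L := L) (d := d) hL hd k
  have hHm := measurable_hgt (L := L) hdm k
  -- split according to the height
  have hsplit : ∀ C : Set Environment, MeasurableSet C →
      iidLaw G C = ∑' h : ℤ, iidLaw G (C ∩ (hgt L d k) ⁻¹' {h}) := by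
    intro C hC
    rw [← measure_iUnion]
    · congr 1
      ext t
      simp
    · intro i j hij
      rw [Function.onFun, Set.disjoint_left]
      rintro t ⟨_, h1⟩ ⟨_, h2⟩
      exact hij (h1.symm.trans h2)
    · intro h
      exact hC.inter (hHm (measurableSet_singleton h))
  have hψA : MeasurableSet (ψ ⁻¹' A) := hψm hA
  rw [hsplit _ (hψA.inter (measurable_stg hdm hφm k hB)), hsplit _ hψA, ← ENNReal.tsum_mul_right]
  refine tsum_congr fun h => ?_
  -- on `H = h`
  have e1 : ψ ⁻¹' A ∩ (stg L d φ k) ⁻¹' B ∩ (hgt L d k) ⁻¹' {h} =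
      (fun t => (ψ t, hgt L d k t)) ⁻¹' (A ×ˢ {h}) ∩
        (fun t => φ (shift ((k : ℤ) * L, h) t)) ⁻¹' B := by
    ext t
    simp only [Set.mem_inter_iff, Set.mem_preimage, Set.mem_singleton_iff, Set.mem_prod, stg]
    constructor
    · rintro ⟨⟨h1, h2⟩, h3⟩
      rw [h3] at h2
      exact ⟨⟨h1, h3⟩, h2⟩
    · rintro ⟨⟨h1, h3⟩, h2⟩
      rw [← h3] at h2
      exact ⟨⟨h1, h2⟩, h3⟩
  have e2 : ψ ⁻¹' A ∩ (hgt L d k) ⁻¹' {h} =
      (fun t => (ψ t, hgt L d k t)) ⁻¹' (A ×ˢ {h}) := by
    ext t; simp [Set.mem_prod]
  have hdep : DependsOn (fun t => (ψ t, hgt L d k t)) (block 0 (k * L)) := by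
    intro t t' htt
    exact Prod.ext (hψ htt) (hH htt)
  have hdep2 : DependsOn (fun t => φ (shift ((k : ℤ) * L, h) t)) {e | (k : ℤ) * L ≤ eX e} :=
    dependsOn_comp_shift_half hφ ((k : ℤ) * L, h)
  have hdisj : Disjoint (block 0 ((k : ℤ) * L)) {e | (k : ℤ) * L ≤ eX e} := by
    rw [Set.disjoint_left]
    rintro e ⟨_, h1⟩ h2
    exact absurd h1 (not_lt.2 h2)
  have hind := indepFun_of_dependsOn G (hψm.prodMk hHm) (hφm.comp (measurable_shift _)) hdep
    hdep2 hdisj
  rw [indepFun_iff_measure_inter_preimage_eq_mul] at hind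
  rw [e1, e2]
  have h3 := hind (A ×ˢ {h}) B (hA.prod (measurableSet_singleton h)) hB
  rw [Function.comp_def] at h3
  rw [h3]
  congr 1
  have h4 := (mp_shift G ((k : ℤ) * L, h)).measure_preimage (hφm hB).nullMeasurableSet
  rw [← h4]
  rfl

lemma identDistrib_stg (G : Measure ℝ) [IsProbabilityMeasure G] {α : Type*}
    [MeasurableSpace α] {φ : Environment → α}
    (hL : 0 ≤ L) (hd : DependsOn d (block 0 L)) (hdm : Measurable d)
    (hφ : DependsOn φ half) (hφm : Measurable φ) (k : ℕ) :
    IdentDistrib (stg L d φ k) φ (iidLaw G) (iidLaw G) := by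
  refine ⟨(measurable_stg hdm hφm k).aemeasurable, hφm.aemeasurable, ?_⟩
  ext B hB
  rw [Measure.map_apply (measurable_stg hdm hφm k) hB, Measure.map_apply hφm hB]
  have h := measure_inter_stg (ψ := fun _ : Environment => ()) G hL hd hdm hφ hφm k
    (fun _ _ _ => rfl) measurable_const (MeasurableSet.univ) hB
  simpa using h

lemma indepFun_stg_lt (G : Measure ℝ) [IsProbabilityMeasure G] {α : Type*}
    [MeasurableSpace α] {φ : Environment → α}
    (hL : 0 ≤ L) (hd : DependsOn d (block 0 L)) (hdm : Measurable d)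
    (hφ : DependsOn φ (block 0 L)) (hφm : Measurable φ) {i k : ℕ} (hik : i < k) :
    IndepFun (stg L d φ i) (stg L d φ k) (iidLaw G) := by
  rw [indepFun_iff_measure_inter_preimage_eq_mul]
  intro s t hs ht
  have hdep : DependsOn (stg L d φ i) (block 0 (k * L)) := by
    have h1 := dependsOn_stg hL hd hφ i
    refine h1.mono (block_mono le_rfl ?_)
    have : ((i + 1 : ℕ) : ℤ) ≤ k := by exact_mod_cast hik
    exact mul_le_mul_of_nonneg_right this hL
  have hφ' := hφ.mono (block_subset_half le_rfl)
  rw [measure_inter_stg G hL hd hdm hφ' hφm k hdep (measurable_stg hdm hφm i) hs ht]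
  congr 1
  have := (identDistrib_stg G hL hd hdm hφ' hφm k).map_eq
  rw [← Measure.map_apply (measurable_stg hdm hφm k) ht, this, Measure.map_apply hφm ht]

lemma pairwise_indepFun_stg (G : Measure ℝ) [IsProbabilityMeasure G] {α : Type*}
    [MeasurableSpace α] {φ : Environment → α}
    (hL : 0 ≤ L) (hd : DependsOn d (block 0 L)) (hdm : Measurable d)
    (hφ : DependsOn φ (block 0 L)) (hφm : Measurable φ) :
    Pairwise (Function.onFun (fun f g => IndepFun f g (iidLaw G)) (stg L d φ)) := by
  intro i j hij
  rcases lt_or_gt_of_ne hij with h | h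
  · exact indepFun_stg_lt G hL hd hdm hφ hφm h
  · exact (indepFun_stg_lt G hL hd hdm hφ hφm h).symm

/-- the strong law for an integrable observable along the stage process -/
lemma strong_law_stg (G : Measure ℝ) [IsProbabilityMeasure G] {φ : Environment → ℝ}
    (hL : 0 ≤ L) (hd : DependsOn d (block 0 L)) (hdm : Measurable d)
    (hφ : DependsOn φ (block 0 L)) (hφm : Measurable φ) (hφi : Integrable φ (iidLaw G)) :
    ∀ᵐ t ∂(iidLaw G), Tendsto (fun n : ℕ => (∑ i ∈ Finset.range n, stg L d φ i t) / n) atTop
      (𝓝 (∫ t, φ t ∂(iidLaw G))) := by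
  have hid := fun k =>
    identDistrib_stg G hL hd hdm (hφ.mono (block_subset_half le_rfl)) hφm k
  have h0 : Integrable (stg L d φ 0) (iidLaw G) := (hid 0).integrable_iff.mpr hφi
  have h1 := strong_law_ae_real (stg L d φ) h0 (pairwise_indepFun_stg G hL hd hdm hφ hφm)
    (fun i => (hid i).trans (hid 0).symm)
  rw [(hid 0).integral_eq] at h1
  exact h1

lemma hgt_eq_sum (n : ℕ) (t : Environment) :
    (hgt L d n t : ℝ) = ∑ i ∈ Finset.range n, stg L d (fun t => (d t : ℝ)) i t := by
  induction n with
  | zero => simp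
  | succ n ih =>
    rw [Finset.sum_range_succ, ← ih, hgt_succ]
    push_cast
    rfl

end Stage

end Crest.Agent.R151.A
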