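import Crest.Agent.R151.K0

/-!
# R151/K1a — the law: invariance, moments, L-shaped paths (owner helper507)

`G` is a probability law on `ℝ` with no mass on the negative numbers.
-/

set_option autoImplicit false

open MeasureTheory Filter ProbabilityTheory
open Crest.ProbabilityR.FirstPassage

namespace Crest.Agent.R151.K

variable {G : Measure ℝ} [IsProbabilityMeasure G]

instance : IsProbabilityMeasure (iidLaw G) := by unfold iidLaw; infer_instance

lemma ae_Nn (h0 : G (Set.Iio 0) = 0) : ∀ᵐ t ∂(iidLaw G), Nn t := by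
  unfold Nn
  rw [ae_all_iff]
  intro e
  have h1 : ∀ᵐ x ∂G, 0 ≤ x := by
    rw [ae_iff]
    simpa [not_le] using (show G {a | a < 0} = 0 from h0)
  have h2 : (iidLaw G).map (fun t => t e) = G := by
    unfold iidLaw
    exact Measure.infinitePi_map_eval (fun _ => G) e
  rw [← h2] at h1
  exact ae_of_ae_map (measurable_pi_apply e).aemeasurable h1

lemma mp_eval (e : Sym2 (ℤ × ℤ)) : MeasurePreserving (fun t : Environment => t e) (iidLaw G) G := by
  unfold iidLaw
  exact measurePreserving_eval_infinitePi (fun _ => G) e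

/-- The action of a lattice automorphism on environments. -/
def act (φ : squareLattice ≃g squareLattice) (t : Environment) : Environment :=
  fun e => t (Sym2.map φ e)

lemma pt_act (t : Environment) (φ : squareLattice ≃g squareLattice) (x y : ℤ × ℤ) :
    passageTime (act φ t) x y = passageTime t (φ x) (φ y) := pt_iso t φ x y

lemma mp_act (φ : squareLattice ≃g squareLattice) :
    MeasurePreserving (act φ) (iidLaw G) (iidLaw G) := by
  refine ⟨?_, ?_⟩
  · unfold act
    exact measurable_pi_lambda _ fun e => measurable_pi_apply _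
  · have := Measure.map_infinitePi_infinitePi_of_inj (P := fun _ : Sym2 (ℤ × ℤ) => G)
      (f := Sym2.map φ) (Sym2.map.injective φ.injective)
    unfold iidLaw
    exact this

/-- Translation by `z` as a lattice automorphism. -/
def tr (z : ℤ × ℤ) : squareLattice ≃g squareLattice where
  toEquiv := Equiv.addRight z
  map_rel_iff' := by
    intro a b
    simp only [squareLattice, SimpleGraph.fromRel_adj, Equiv.coe_addRight, Prod.fst_add,
      Prod.snd_add, ne_eq, add_left_inj]
    constructor
    · rintro ⟨h1, h2⟩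
      exact ⟨h1, by omega⟩
    · rintro ⟨h1, h2⟩
      exact ⟨h1, by omega⟩

@[simp] lemma tr_apply (z x : ℤ × ℤ) : tr z x = x + z := rfl

/-- Swapping the coordinates. -/
def sw : squareLattice ≃g squareLattice where
  toEquiv := Equiv.prodComm ℤ ℤ
  map_rel_iff' := by
    intro a b
    obtain ⟨a1, a2⟩ := a
    obtain ⟨b1, b2⟩ := b
    simp only [squareLattice, SimpleGraph.fromRel_adj, Equiv.prodComm_apply, Prod.swap_prod_mk,
      ne_eq, Prod.mk.injEq]
    constructor
    · rintro ⟨h1, h2⟩
      exact ⟨by tauto, by omega⟩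
    · rintro ⟨h1, h2⟩
      exact ⟨by tauto, by omega⟩

@[simp] lemma sw_apply (x : ℤ × ℤ) : sw x = (x.2, x.1) := rfl

/-- Negating the first coordinate. -/
def ng : squareLattice ≃g squareLattice where
  toEquiv := Equiv.prodCongr (Equiv.neg ℤ) (Equiv.refl ℤ)
  map_rel_iff' := by
    intro a b
    obtain ⟨a1, a2⟩ := a
    obtain ⟨b1, b2⟩ := b
    simp only [squareLattice, SimpleGraph.fromRel_adj, Equiv.prodCongr_apply, Prod.map_apply,
      Equiv.neg_apply, Equiv.refl_apply, ne_eq, Prod.mk.injEq, neg_inj]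
    constructor
    · rintro ⟨h1, h2⟩
      exact ⟨by tauto, by omega⟩
    · rintro ⟨h1, h2⟩
      exact ⟨by tauto, by omega⟩

@[simp] lemma ng_apply (x : ℤ × ℤ) : ng x = (-x.1, x.2) := rfl

/-- Invariance of the law of the passage times. -/
lemma integral_pt_iso {E : Type*} [NormedAddCommGroup E] [NormedSpace ℝ E]
    (φ : squareLattice ≃g squareLattice) (F : Environment → E)
    (hF : AEStronglyMeasurable F (iidLaw G)) :
    ∫ t, F (act φ t) ∂(iidLaw G) = ∫ t, F t ∂(iidLaw G) := by
  have h := (mp_act (G := G) φ)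
  conv_rhs => rw [← h.map_eq]
  rw [integral_map h.measurable.aemeasurable (by rw [h.map_eq]; exact hF)]

/-! ### L-shaped paths -/

/-- The `ℓ¹` length. -/
def n1 (x : ℤ × ℤ) : ℕ := x.1.natAbs + x.2.natAbs

lemma n1_neg (x : ℤ × ℤ) : n1 (-x) = n1 x := by simp [n1]

lemma n1_add_le (x y : ℤ × ℤ) : n1 (x + y) ≤ n1 x + n1 y := by
  simp only [n1, Prod.fst_add, Prod.snd_add]
  omega

lemma eH_inj (b : ℤ) {a a' : ℤ} (h : eH a b = eH a' b) : a = a' := by
  simp only [eH, Sym2.eq_iff, Prod.mk.injEq] at h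
  omega

lemma eV_inj (a : ℤ) {b b' : ℤ} (h : eV a b = eV a b') : b = b' := by
  simp only [eV, Sym2.eq_iff, Prod.mk.injEq] at h
  omega

lemma eH_ne_eV (a b c d : ℤ) : eH a b ≠ eV c d := by
  intro h
  simp only [eH, eV, Sym2.eq_iff, Prod.mk.injEq] at h
  omega

lemma exists_row (a b c : ℤ) : ∃ F : Finset (Sym2 (ℤ × ℤ)), F.card ≤ (c - a).natAbs ∧
    (∀ e ∈ F, ∃ i, e = eH i b) ∧
    ∀ t, Nn t → passageTime t (a, b) (c, b) ≤ ∑ e ∈ F, t e := by
  classical
  have key : ∀ a c : ℤ, a ≤ c → ∃ F : Finset (Sym2 (ℤ × ℤ)), F.card ≤ (c - a).natAbs ∧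
      (∀ e ∈ F, ∃ i, e = eH i b) ∧
      ∀ t, Nn t → passageTime t (a, b) (c, b) ≤ ∑ e ∈ F, t e := by
    intro a c h
    refine ⟨(Finset.range (c - a).toNat).image fun i : ℕ => eH (a + i) b, ?_, ?_, ?_⟩
    · refine Finset.card_image_le.trans ?_
      rw [Finset.card_range]; omega
    · intro e he
      obtain ⟨i, -, rfl⟩ := Finset.mem_image.1 he
      exact ⟨_, rfl⟩
    · intro t ht
      rw [Finset.sum_image]
      · have := pt_row ht a b (c - a).toNat
        rwa [Int.toNat_of_nonneg (by omega), add_sub_cancel] at this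
      · intro i _ j _ hij
        have := eH_inj b hij
        omega
  rcases le_total a c with h | h
  · exact key a c h
  · obtain ⟨F, h1, h2, h3⟩ := key c a h
    refine ⟨F, by omega, h2, fun t ht => ?_⟩
    rw [pt_symm ht]
    exact h3 t ht

lemma exists_col (a b d : ℤ) : ∃ F : Finset (Sym2 (ℤ × ℤ)), F.card ≤ (d - b).natAbs ∧
    (∀ e ∈ F, ∃ i, e = eV a i) ∧
    ∀ t, Nn t → passageTime t (a, b) (a, d) ≤ ∑ e ∈ F, t e := by
  classical
  have key : ∀ b d : ℤ, b ≤ d → ∃ F : Finset (Sym2 (ℤ × ℤ)), F.card ≤ (d - b).natAbs ∧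
      (∀ e ∈ F, ∃ i, e = eV a i) ∧
      ∀ t, Nn t → passageTime t (a, b) (a, d) ≤ ∑ e ∈ F, t e := by
    intro b d h
    refine ⟨(Finset.range (d - b).toNat).image fun i : ℕ => eV a (b + i), ?_, ?_, ?_⟩
    · refine Finset.card_image_le.trans ?_
      rw [Finset.card_range]; omega
    · intro e he
      obtain ⟨i, -, rfl⟩ := Finset.mem_image.1 he
      exact ⟨_, rfl⟩
    · intro t ht
      rw [Finset.sum_image]
      · have := pt_col ht a b (d - b).toNat
        rwa [Int.toNat_of_nonneg (by omega), add_sub_cancel] at this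
      · intro i _ j _ hij
        have := eV_inj a hij
        omega
  rcases le_total b d with h | h
  · exact key b d h
  · obtain ⟨F, h1, h2, h3⟩ := key d b h
    refine ⟨F, by omega, h2, fun t ht => ?_⟩
    rw [pt_symm ht]
    exact h3 t ht

/-- A set of at most `|y - x|₁` edges whose total weight bounds the passage time. -/
lemma exists_path_edges (x y : ℤ × ℤ) : ∃ F : Finset (Sym2 (ℤ × ℤ)), F.card ≤ n1 (y - x) ∧
    ∀ t, Nn t → passageTime t x y ≤ ∑ e ∈ F, t e := by
  classical
  obtain ⟨a, b⟩ := x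
  obtain ⟨c, d⟩ := y
  obtain ⟨F1, h1, h2, h3⟩ := exists_row a b c
  obtain ⟨F2, h4, h5, h6⟩ := exists_col c b d
  refine ⟨F1 ∪ F2, ?_, ?_⟩
  · refine (Finset.card_union_le _ _).trans ?_
    simp only [n1, Prod.mk_sub_mk]
    omega
  · intro t ht
    rw [Finset.sum_union]
    · exact (pt_triangle ht _ (c, b) _).trans (add_le_add (h3 t ht) (h6 t ht))
    · rw [Finset.disjoint_left]
      intro e he he'
      obtain ⟨i, rfl⟩ := h2 e he
      obtain ⟨j, hj⟩ := h5 _ he'
      exact eH_ne_eV _ _ _ _ hj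

/-! ### Moments -/

lemma indep_edges : iIndepFun (fun (e : Sym2 (ℤ × ℤ)) (t : Environment) => t e) (iidLaw G) := by
  unfold iidLaw
  exact iIndepFun_infinitePi (P := fun _ : Sym2 (ℤ × ℤ) => G) (X := fun _ x => x)
    (fun _ => measurable_id)

variable {lam : ℝ}

lemma integrable_exp_edge (hexp : Integrable (fun x => Real.exp (lam * x)) G) (e : Sym2 (ℤ × ℤ)) :
    Integrable (fun t : Environment => Real.exp (lam * t e)) (iidLaw G) :=
  (mp_eval (G := G) e).integrable_comp_of_integrable hexp

/-- exponential moment of a sum of weights -/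
lemma exp_sum (hexp : Integrable (fun x => Real.exp (lam * x)) G) (F : Finset (Sym2 (ℤ × ℤ))) :
    Integrable (fun t : Environment => Real.exp (lam * ∑ e ∈ F, t e)) (iidLaw G) ∧
    ∫ t, Real.exp (lam * ∑ e ∈ F, t e) ∂(iidLaw G)
      = (∫ x, Real.exp (lam * x) ∂G) ^ F.card := by
  have hind := indep_edges (G := G)
  constructor
  · have := hind.integrable_exp_mul_sum (t := lam) (s := F) (fun i => measurable_pi_apply i)
      (fun i _ => integrable_exp_edge hexp i)
    simpa [Finset.sum_apply] using this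
  · have h1 := hind.mgf_sum (t := lam) (fun i => measurable_pi_apply i) F
    simp only [mgf, Finset.sum_apply] at h1
    rw [h1]
    have : ∀ e : Sym2 (ℤ × ℤ), ∫ t, Real.exp (lam * t e) ∂(iidLaw G)
        = ∫ x, Real.exp (lam * x) ∂G := by
      intro e
      have h2 := (mp_eval (G := G) e)
      conv_rhs => rw [← h2.map_eq]
      rw [integral_map h2.measurable.aemeasurable (by rw [h2.map_eq]; exact hexp.1)]
    simp [this]

end Crest.Agent.R151.K
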