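import Crest.Agent.R151.A565c

/-!
# R151, block A (helper565): random selection and the free search `AStar`

`AStar G p q C` is the form fixed with helper792 (posts 9811). It is proved here from
* `GapUp G p q C`: mean costs of crossing a gap, ending at a fixed height;
* `LocK G`: the local cost of reaching a vertex has a finite second moment.
-/

set_option autoImplicit false

open MeasureTheory ProbabilityTheory Filter Topology
open Crest.ProbabilityR.FirstPassage
open Crest.Agent.R151.K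
open scoped ENNReal

namespace Crest.Agent.R151.A

/-! ## random selection -/

section Sel

variable {Ω : Type*} [MeasurableSpace Ω] {P : Measure Ω}

lemma lintegral_sel {f : ℕ → Ω → ℝ≥0∞} (hf : ∀ h, Measurable (f h)) {I : Ω → ℕ}
    (hI : Measurable I) :
    ∫⁻ ω, f (I ω) ω ∂P = ∑' h, ∫⁻ ω, (I ⁻¹' {h}).indicator (f h) ω ∂P := by
  rw [← lintegral_tsum]
  · refine lintegral_congr fun ω => ?_
    rw [tsum_eq_single (I ω)]
    · simp
    · intro h hh
      rw [Set.indicator_of_notMem]
      simpa using hh.symm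
  · intro h
    exact ((hf h).indicator (hI (measurableSet_singleton h))).aemeasurable

lemma measurable_sel {α : Type*} [MeasurableSpace α] {X : ℕ → Ω → α} (hX : ∀ h, Measurable (X h))
    {I : Ω → ℕ} (hI : Measurable I) : Measurable (fun ω => X (I ω) ω) := by
  have h1 : Measurable (fun p : ℕ × Ω => X p.1 p.2) := measurable_from_prod_countable_right hX
  exact h1.comp (hI.prodMk measurable_id)

/-- an independent selection -/
lemma sel_indep [IsProbabilityMeasure P] {X : ℕ → Ω → ℝ} (hX : ∀ h, Measurable (X h))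
    (hX0 : ∀ h, ∀ᵐ ω ∂P, 0 ≤ X h ω) (hXi : ∀ h, Integrable (X h) P) {I : Ω → ℕ}
    (hI : Measurable I) (hind : ∀ h, IndepFun (X h) I P) {F : ℕ → ℝ}
    (hF : ∀ h, ∫ ω, X h ω ∂P ≤ F h) (hFi : Integrable (fun ω => F (I ω)) P) :
    Integrable (fun ω => X (I ω) ω) P ∧ ∫ ω, X (I ω) ω ∂P ≤ ∫ ω, F (I ω) ∂P := by
  have hF0 : ∀ h, 0 ≤ F h := fun h => (integral_nonneg_of_ae (hX0 h)).trans (hF h)
  have hsel0 : ∀ᵐ ω ∂P, 0 ≤ X (I ω) ω := by
    filter_upwards [ae_all_iff.2 hX0] with ω h using h _
  have hm : Measurable (fun ω => X (I ω) ω) := measurable_sel hX hI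
  have key : ∫⁻ ω, ENNReal.ofReal (X (I ω) ω) ∂P ≤ ∫⁻ ω, ENNReal.ofReal (F (I ω)) ∂P := by
    rw [lintegral_sel (f := fun h ω => ENNReal.ofReal (X h ω)) (fun h => (hX h).ennreal_ofReal) hI,
      lintegral_sel (f := fun h _ => ENNReal.ofReal (F h)) (fun h => measurable_const) hI]
    refine ENNReal.tsum_le_tsum fun h => ?_
    have hS : MeasurableSet (I ⁻¹' {h}) := hI (measurableSet_singleton h)
    have e1 : ∫⁻ ω, (I ⁻¹' {h}).indicator (fun ω => ENNReal.ofReal (X h ω)) ω ∂P =
        P (I ⁻¹' {h}) * ∫⁻ ω, ENNReal.ofReal (X h ω) ∂P := by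
      have h1 : ∀ ω, (I ⁻¹' {h}).indicator (fun ω => ENNReal.ofReal (X h ω)) ω =
          ((({h} : Set ℕ).indicator (fun _ => (1 : ℝ≥0∞))) ∘ I) ω *
            (ENNReal.ofReal ∘ (X h)) ω := by
        intro ω
        by_cases hω : I ω = h
        · simp [Set.indicator, hω]
        · simp [Set.indicator, hω]
      simp_rw [h1]
      have h2 : IndepFun ((({h} : Set ℕ).indicator (fun _ => (1 : ℝ≥0∞))) ∘ I)
          (ENNReal.ofReal ∘ (X h)) P :=
        (hind h).symm.comp (measurable_const.indicator (measurableSet_singleton h))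
          ENNReal.measurable_ofReal
      have h4 := lintegral_mul_eq_lintegral_mul_lintegral_of_indepFun
        ((measurable_const.indicator (measurableSet_singleton h)).comp hI)
        (ENNReal.measurable_ofReal.comp (hX h)) h2
      refine (Eq.trans ?_ h4).trans ?_
      · rfl
      congr 1
      have h3 : ∀ ω, ((({h} : Set ℕ).indicator (fun _ => (1 : ℝ≥0∞))) ∘ I) ω =
          (I ⁻¹' {h}).indicator (fun _ => (1 : ℝ≥0∞)) ω := by
        intro ω
        by_cases hω : I ω = h <;> simp [Set.indicator, hω]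
      simp_rw [h3]
      rw [lintegral_indicator hS]
      simp
    rw [e1, lintegral_indicator hS, setLIntegral_const, mul_comm]
    gcongr
    rw [← ofReal_integral_eq_lintegral_ofReal (hXi h) (hX0 h)]
    exact ENNReal.ofReal_le_ofReal (hF h)
  have hFin : ∫⁻ ω, ENNReal.ofReal (F (I ω)) ∂P < ⊤ := by
    have := hFi.lintegral_lt_top
    exact this
  have hint : Integrable (fun ω => X (I ω) ω) P := by
    refine ⟨hm.aestronglyMeasurable, ?_⟩
    rw [hasFiniteIntegral_iff_ofReal hsel0]
    exact key.trans_lt hFin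
  refine ⟨hint, ?_⟩
  rw [integral_eq_lintegral_of_nonneg_ae hsel0 hm.aestronglyMeasurable,
    integral_eq_lintegral_of_nonneg_ae (ae_of_all _ fun ω => hF0 _) hFi.aestronglyMeasurable]
  exact ENNReal.toReal_mono hFin.ne key

/-- an arbitrary selection among identically distributed variables with second moment -/
lemma sel_dep [IsProbabilityMeasure P] {X : ℕ → Ω → ℝ} {Y : Ω → ℝ} (hX : ∀ h, Measurable (X h))
    (hX0 : ∀ h, ∀ᵐ ω ∂P, 0 ≤ X h ω) (hid : ∀ h, IdentDistrib (X h) Y P P)
    (hY2 : Integrable (fun ω => Y ω ^ 2) P) (hY : Integrable Y P) {I : Ω → ℕ}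
    (hI : Measurable I) (hIi : Integrable (fun ω => (I ω : ℝ)) P) {η : ℝ} (hη : 0 < η) :
    Integrable (fun ω => X (I ω) ω) P ∧ ∫ ω, X (I ω) ω ∂P ≤
      η * ∫ ω, (I ω : ℝ) ∂P + ∫ ω, (Y ω ^ 2 / η + Y ω) ∂P := by
  have hsel0 : ∀ᵐ ω ∂P, 0 ≤ X (I ω) ω := by
    filter_upwards [ae_all_iff.2 hX0] with ω h using h _
  have hY0 : ∀ᵐ ω ∂P, 0 ≤ Y ω := (hid 0).ae_mem_snd (t := Set.Ici (0:ℝ)) measurableSet_Ici (hX0 0)
  have hm : Measurable (fun ω => X (I ω) ω) := measurable_sel hX hI
  have hZi : Integrable (fun ω => Y ω ^ 2 / η + Y ω) P := (hY2.div_const η).add hY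
  have hZ0 : ∀ᵐ ω ∂P, 0 ≤ Y ω ^ 2 / η + Y ω := by
    filter_upwards [hY0] with ω h
    positivity
  have hRi : Integrable (fun ω => η * (I ω : ℝ)) P := hIi.const_mul η
  -- the key estimate
  have k1 : ∫⁻ ω, ENNReal.ofReal (X (I ω) ω) ∂P ≤
      ∫⁻ ω, ENNReal.ofReal (η * (I ω : ℝ)) ∂P +
        ∫⁻ ω, ENNReal.ofReal (Y ω ^ 2 / η + Y ω) ∂P := by
    calc ∫⁻ ω, ENNReal.ofReal (X (I ω) ω) ∂P
        ≤ ∫⁻ ω, (ENNReal.ofReal (η * (I ω : ℝ)) +
            ∑' h : ℕ, ENNReal.ofReal (X h ω - η * h)) ∂P := by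
          refine lintegral_mono fun ω => ?_
          calc ENNReal.ofReal (X (I ω) ω)
              ≤ ENNReal.ofReal (η * (I ω : ℝ) + (X (I ω) ω - η * (I ω : ℝ))) := by
                apply ENNReal.ofReal_le_ofReal; linarith
            _ ≤ ENNReal.ofReal (η * (I ω : ℝ)) + ENNReal.ofReal (X (I ω) ω - η * (I ω : ℝ)) :=
                ENNReal.ofReal_add_le
            _ ≤ _ := by
                gcongr
                exact ENNReal.le_tsum (f := fun h : ℕ => ENNReal.ofReal (X h ω - η * h)) (I ω)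
      _ = ∫⁻ ω, ENNReal.ofReal (η * (I ω : ℝ)) ∂P +
            ∑' h : ℕ, ∫⁻ ω, ENNReal.ofReal (X h ω - η * h) ∂P := by
          rw [lintegral_add_left (by fun_prop), lintegral_tsum]
          intro h
          exact ((hX h).sub_const _).ennreal_ofReal.aemeasurable
      _ = ∫⁻ ω, ENNReal.ofReal (η * (I ω : ℝ)) ∂P +
            ∑' h : ℕ, ∫⁻ ω, ENNReal.ofReal (Y ω - η * h) ∂P := by
          congr 1
          refine tsum_congr fun h => ?_
          have := (hid h).comp (u := fun x : ℝ => ENNReal.ofReal (x - η * h)) (by fun_prop)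
          exact this.lintegral_eq
      _ = ∫⁻ ω, ENNReal.ofReal (η * (I ω : ℝ)) ∂P +
            ∫⁻ ω, ∑' h : ℕ, ENNReal.ofReal (Y ω - η * h) ∂P := by
          rw [lintegral_tsum]
          intro h
          have : AEMeasurable Y P := hY.aemeasurable
          fun_prop
      _ ≤ _ := by
          refine add_le_add le_rfl (lintegral_mono_ae ?_)
          filter_upwards [hY0] with ω hω
          rw [tsum_eq_sum (s := Finset.range ⌈Y ω / η⌉₊)]
          · calc ∑ h ∈ Finset.range ⌈Y ω / η⌉₊, ENNReal.ofReal (Y ω - η * h)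
                ≤ ∑ h ∈ Finset.range ⌈Y ω / η⌉₊, ENNReal.ofReal (Y ω) := by
                  refine Finset.sum_le_sum fun h _ => ENNReal.ofReal_le_ofReal ?_
                  have : 0 ≤ η * h := by positivity
                  linarith
              _ = ENNReal.ofReal (⌈Y ω / η⌉₊ * Y ω) := by
                  rw [Finset.sum_const, Finset.card_range, nsmul_eq_mul,
                    ENNReal.ofReal_mul (by positivity), ENNReal.ofReal_natCast]
              _ ≤ _ := by
                  refine ENNReal.ofReal_le_ofReal ?_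
                  have h1 := (Nat.ceil_lt_add_one (show 0 ≤ Y ω / η by positivity)).le
                  calc (⌈Y ω / η⌉₊ : ℝ) * Y ω ≤ (Y ω / η + 1) * Y ω := by gcongr
                    _ = _ := by ring
          · intro h hh
            rw [Finset.mem_range, not_lt, Nat.ceil_le, div_le_iff₀ hη] at hh
            rw [ENNReal.ofReal_eq_zero]
            linarith
  have hFin : ∫⁻ ω, ENNReal.ofReal (η * (I ω : ℝ)) ∂P +
        ∫⁻ ω, ENNReal.ofReal (Y ω ^ 2 / η + Y ω) ∂P < ⊤ :=
    ENNReal.add_lt_top.2 ⟨hRi.lintegral_lt_top, hZi.lintegral_lt_top⟩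
  have hint : Integrable (fun ω => X (I ω) ω) P := by
    refine ⟨hm.aestronglyMeasurable, ?_⟩
    rw [hasFiniteIntegral_iff_ofReal hsel0]
    exact k1.trans_lt hFin
  refine ⟨hint, ?_⟩
  rw [← integral_const_mul, integral_eq_lintegral_of_nonneg_ae hsel0 hm.aestronglyMeasurable,
    integral_eq_lintegral_of_nonneg_ae (ae_of_all _ fun ω => by positivity)
      hRi.aestronglyMeasurable,
    integral_eq_lintegral_of_nonneg_ae hZ0 hZi.aestronglyMeasurable,
    ← ENNReal.toReal_add hRi.lintegral_lt_top.ne hZi.lintegral_lt_top.ne]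
  exact ENNReal.toReal_mono hFin.ne k1

end Sel

end Crest.Agent.R151.A
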