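import Crest.Agent.R151.A565d

/-!
# R151, block A (helper565): the free search `AStar`, from gap crossings
-/

set_option autoImplicit false

open MeasureTheory ProbabilityTheory Filter Topology
open Crest.ProbabilityR.FirstPassage
open Crest.Agent.R151.K
open scoped ENNReal

namespace Crest.Agent.R151.A

/-- the free search (form fixed with helper792, post 9811) -/
def AStar (G : Measure ℝ) (p q C : ℝ) : Prop :=
  ∀ ε > 0, ∃ W0 : ℝ, ∀ n : ℤ, 1 ≤ n → ∀ W : ℝ, W0 ≤ W →
    ∀ (i j : Environment → ℤ) (c : Environment → ℝ), Measurable i → Measurable j → Measurable c →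
    DependsOn i (block 0 n) → DependsOn j (block 0 n) → DependsOn c (block 0 n) →
    Integrable (fun t => (i t : ℝ)) (iidLaw G) → Integrable (fun t => (j t : ℝ)) (iidLaw G) →
    Integrable c (iidLaw G) → (∀ᵐ t ∂(iidLaw G), 0 ≤ i t) →
    (∀ᵐ t ∂(iidLaw G), ∃ w : squareLattice.Walk (0, i t) (n, j t),
      (∀ e ∈ w.edges, e ∈ block 0 n) ∧ walkCost t w ≤ c t) →
    -(ε * W) - C * ∫ t, (if W < (i t : ℝ) then (i t : ℝ) else 0) ∂(iidLaw G) ≤
      ∫ t, (c t - (p * n + q * ((j t : ℝ) - (i t : ℝ)))) ∂(iidLaw G)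

/-- crossing a gap: mean cost at most `ρ(displacement) + ε W` for the end heights `b0 + h`,
`0 ≤ h ≤ W`, and at most `ρ(displacement) + ε W + C h` for all `h ≥ 0` -/
def GapUp (G : Measure ℝ) (p q C : ℝ) : Prop :=
  ∀ ε > 0, ∃ W0 : ℝ, ∀ W : ℝ, W0 ≤ W → ∃ (g b0 : ℤ) (X : ℕ → Environment → ℝ), 8 ≤ g ∧
    (∀ h, Measurable (X h)) ∧ (∀ h, DependsOn (X h) (block 0 g)) ∧
    (∀ h, Integrable (X h) (iidLaw G)) ∧
    (∀ h : ℕ, ∀ᵐ t ∂(iidLaw G), passageTime t (0, 0) (g - 4, b0 + h) ≤ X h t) ∧
    ∀ h : ℕ, ∫ t, X h t ∂(iidLaw G) ≤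
      p * g + q * (b0 + h) + ε * W + C * (if W < (h : ℝ) then (h : ℝ) else 0)

/-- the local cost has a second moment -/
def LocK (G : Measure ℝ) : Prop :=
  ∃ κ : Environment → ℝ, Measurable κ ∧ DependsOn κ {e | -8 ≤ eX e} ∧
    Integrable (fun t => κ t ^ 2) (iidLaw G) ∧
    ∀ᵐ t ∂(iidLaw G), passageTime t (-4, 0) (0, 0) ≤ κ t

variable {G : Measure ℝ} [IsProbabilityMeasure G]

lemma integral_lin {f g : Environment → ℝ} (hf : Integrable f (iidLaw G))
    (hg : Integrable g (iidLaw G)) (a b c : ℝ) :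
    Integrable (fun t => a + b * f t + c * g t) (iidLaw G) ∧
    ∫ t, (a + b * f t + c * g t) ∂(iidLaw G) =
      a + b * ∫ t, f t ∂(iidLaw G) + c * ∫ t, g t ∂(iidLaw G) := by
  have h1 : Integrable (fun t => a + b * f t) (iidLaw G) :=
    (integrable_const a).add (hf.const_mul b)
  have h2 : Integrable (fun t => c * g t) (iidLaw G) := hg.const_mul c
  refine ⟨h1.add h2, ?_⟩
  rw [integral_add h1 h2, integral_add (integrable_const a) (hf.const_mul b),
    integral_const_mul, integral_const_mul]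
  simp

theorem aStar_of_gapUp (h0 : G (Set.Iio 0) = 0)
    (hH : Integrable (fun t => passageTime t (0, 0) (1, 0)) (iidLaw G))
    (hV : Integrable (fun t => passageTime t (0, 0) (0, 1)) (iidLaw G))
    {p q C : ℝ} (hρ : ∀ x : ℤ × ℤ, 0 ≤ x.1 →
      p * x.1 + q * x.2 ≤ ∫ t, passageTime t (0, 0) x ∂(iidLaw G))
    (hgap : GapUp G p q C) (hloc : LocK G) : AStar G p q (C + 1) := by
  obtain ⟨κ, hκm, hκd, hκ2, hκ⟩ := hloc
  have hκ0 : ∀ᵐ t ∂(iidLaw G), 0 ≤ κ t := by
    filter_upwards [hκ, ae_Nn h0] with t h1 h2 using (pt_nonneg h2 _ _).trans h1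
  have hκi : Integrable κ (iidLaw G) := by
    have := (memLp_two_iff_integrable_sq hκm.aestronglyMeasurable).2 hκ2
    exact this.integrable (by norm_num)
  intro ε hε
  set η : ℝ := min (ε / 4) 1 with hη
  have hη0 : 0 < η := by positivity
  have hη1 : η ≤ 1 := min_le_right _ _
  have hη4 : η ≤ ε / 4 := min_le_left _ _
  obtain ⟨W1, hW1⟩ := hgap η hη0
  set Kη : ℝ := ∫ t, (κ t ^ 2 / η + κ t) ∂(iidLaw G) with hKη
  refine ⟨max W1 (max 0 (Kη / η)), ?_⟩
  intro n hn W hW i j c him hjm hcm hid hjd hcd hii hji hci hi0 hwalk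
  have hWW1 : W1 ≤ W := (le_max_left _ _).trans hW
  have hW0 : 0 ≤ W := (le_max_left _ _).trans ((le_max_right _ _).trans hW)
  have hWK : Kη / η ≤ W := (le_max_right _ _).trans ((le_max_right _ _).trans hW)
  obtain ⟨g, b0, X, hg, hXm, hXd, hXi, hXle, hXF⟩ := hW1 W hWW1
  set z0 : ℤ × ℤ := (g, b0) with hz0
  -- the selected index, as a natural number
  set I : Environment → ℕ := fun t => (i (shift z0 t)).toNat with hI
  have hIm : Measurable I := (measurable_from_top (f := Int.toNat)).comp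
    (him.comp (measurable_shift z0))
  have hq := (mp_shift G z0).quasiMeasurePreserving
  have hIeq : ∀ᵐ t ∂(iidLaw G), ((I t : ℕ) : ℤ) = i (shift z0 t) := by
    filter_upwards [hq.ae hi0] with t ht
    simp only [hI]
    exact Int.toNat_of_nonneg ht
  have hIeqR : ∀ᵐ t ∂(iidLaw G), (I t : ℝ) = (i (shift z0 t) : ℝ) := by
    filter_upwards [hIeq] with t ht
    rw [← ht]; simp
  have hdI : DependsOn I (block g (g + n)) := by
    have h1 := dependsOn_comp_shift hid z0
    intro t t' htt
    have : i (shift z0 t) = i (shift z0 t') := by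
      refine h1 fun e he => htt e ?_
      simpa [hz0, add_comm] using he
    simp only [hI, this]
  have hshi : Integrable (fun t => (i (shift z0 t) : ℝ)) (iidLaw G) :=
    (mp_shift G z0).integrable_comp_of_integrable hii
  have hIi : Integrable (fun t => (I t : ℝ)) (iidLaw G) :=
    hshi.congr (hIeqR.mono fun t ht => ht.symm)
  -- transfer of integrals
  have tr1 : ∫ t, (I t : ℝ) ∂(iidLaw G) = ∫ t, (i t : ℝ) ∂(iidLaw G) := by
    rw [integral_congr_ae hIeqR]
    exact integral_shift z0 (F := fun t => (i t : ℝ)) hii.aestronglyMeasurable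
  have hindm : Measurable (fun x : ℝ => if W < x then x else 0) :=
    Measurable.ite measurableSet_Ioi measurable_id measurable_const
  have hii' : Integrable (fun t => if W < (i t : ℝ) then (i t : ℝ) else 0) (iidLaw G) := by
    refine hii.mono (hindm.comp (by fun_prop)).aestronglyMeasurable (ae_of_all _ fun t => ?_)
    split_ifs
    · exact le_rfl
    · simp
  have tr2 : ∫ t, (if W < (I t : ℝ) then (I t : ℝ) else 0) ∂(iidLaw G) =
      ∫ t, (if W < (i t : ℝ) then (i t : ℝ) else 0) ∂(iidLaw G) := by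
    have h1 : (fun t => if W < (I t : ℝ) then (I t : ℝ) else 0) =ᵐ[iidLaw G]
        fun t => if W < (i (shift z0 t) : ℝ) then (i (shift z0 t) : ℝ) else 0 := by
      filter_upwards [hIeqR] with t ht
      rw [ht]
    rw [integral_congr_ae h1]
    exact integral_shift z0 (F := fun t => if W < (i t : ℝ) then (i t : ℝ) else 0)
      hii'.aestronglyMeasurable
  -- the three pieces of the cost
  have hX0 : ∀ h, ∀ᵐ t ∂(iidLaw G), 0 ≤ X h t := by
    intro h
    filter_upwards [hXle h, ae_Nn h0] with t h1 h2 using (pt_nonneg h2 _ _).trans h1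
  set F : ℕ → ℝ := fun h => p * g + q * (b0 + h) + η * W + C * (if W < (h : ℝ) then (h : ℝ) else 0)
    with hF
  have hIi' : Integrable (fun t => if W < (I t : ℝ) then (I t : ℝ) else 0) (iidLaw G) := by
    refine hIi.mono (hindm.comp (by fun_prop)).aestronglyMeasurable (ae_of_all _ fun t => ?_)
    split_ifs
    · exact le_rfl
    · simp
  have hFeq : (fun t => F (I t)) = fun t => (p * g + q * b0 + η * W) + q * (I t : ℝ) +
      C * (if W < (I t : ℝ) then (I t : ℝ) else 0) := by
    funext t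
    simp only [hF]
    ring
  obtain ⟨hFi, hFint0⟩ := integral_lin hIi hIi' (p * g + q * b0 + η * W) q C
  rw [← hFeq] at hFi
  have hA := sel_indep hXm hX0 hXi hIm (fun h => indepFun_of_dependsOn G (hXm h) hIm (hXd h) hdI
    (block_disjoint le_rfl)) hXF hFi
  obtain ⟨hA1, hA2⟩ := hA
  have hFint : ∫ t, F (I t) ∂(iidLaw G) = p * g + q * (b0 + ∫ t, (i t : ℝ) ∂(iidLaw G)) + η * W
      + C * ∫ t, (if W < (i t : ℝ) then (i t : ℝ) else 0) ∂(iidLaw G) := by
    rw [hFeq, hFint0, tr1, tr2]
    ring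
  -- local costs
  set Z : ℕ → Environment → ℝ := fun h t => κ (shift (g, b0 + h) t) with hZ
  have hZm : ∀ h, Measurable (Z h) := fun h => hκm.comp (measurable_shift _)
  have hZid : ∀ h, IdentDistrib (Z h) κ (iidLaw G) (iidLaw G) := fun h =>
    ⟨(hZm h).aemeasurable, hκm.aemeasurable, by
      have h1 := (mp_shift G (g, b0 + (h : ℤ))).map_eq
      conv_rhs => rw [← h1]
      rw [Measure.map_map hκm (measurable_shift _)]
      rfl⟩
  have hZ0 : ∀ h, ∀ᵐ t ∂(iidLaw G), 0 ≤ Z h t := fun h =>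
    (mp_shift G (g, b0 + (h : ℤ))).quasiMeasurePreserving.ae hκ0
  obtain ⟨hB1, hB2⟩ := sel_dep hZm hZ0 hZid hκ2 hκi hIm hIi hη0
  -- the slab cost
  have hC1 : Integrable (fun t => c (shift z0 t)) (iidLaw G) :=
    (mp_shift G z0).integrable_comp_of_integrable hci
  have hC2 : ∫ t, c (shift z0 t) ∂(iidLaw G) = ∫ t, c t ∂(iidLaw G) :=
    integral_shift z0 hci.aestronglyMeasurable
  -- the stage
  set ct : Environment → ℝ := fun t => X (I t) t + Z (I t) t + c (shift z0 t) with hct
  set d : Environment → ℤ := fun t => b0 + j (shift z0 t) with hd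
  have hgn : 0 ≤ g + n := by omega
  have hdd : DependsOn d (block 0 (g + n)) := by
    have h1 := dependsOn_comp_shift hjd z0
    intro t t' htt
    have : j (shift z0 t) = j (shift z0 t') := by
      refine h1 fun e he => htt e ?_
      simp only [hz0, block, Set.mem_ofPred_eq] at he ⊢
      omega
    simp only [hd, this]
  have hdm : Measurable d := measurable_const.add (hjm.comp (measurable_shift _))
  have hctd : DependsOn ct half := by
    intro t t' htt
    have hI' : I t = I t' := hdI fun e he => htt e (block_subset_half (by omega) he)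
    have h1 : X (I t) t = X (I t') t' := by
      rw [hI']
      exact hXd _ fun e he => htt e (block_subset_half le_rfl he)
    have h2 : Z (I t) t = Z (I t') t' := by
      rw [hI']
      simp only [hZ]
      refine hκd fun e he => htt _ ?_
      simp only [half, Set.mem_ofPred_eq, eX_eShift] at he ⊢
      omega
    have h3 : c (shift z0 t) = c (shift z0 t') := by
      refine hcd fun e he => htt _ ?_
      simp only [half, block, hz0, Set.mem_ofPred_eq, eX_eShift] at he ⊢
      omega
    simp only [hct, h1, h2, h3]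
  have hctm : Measurable ct :=
    ((measurable_sel hXm hIm).add (measurable_sel hZm hIm)).add (hcm.comp (measurable_shift _))
  have hcti : Integrable ct (iidLaw G) := (hA1.add hB1).add hC1
  have hdi : Integrable (fun t => (d t : ℝ)) (iidLaw G) := by
    simp only [hd]
    push_cast
    exact (integrable_const _).add ((mp_shift G z0).integrable_comp_of_integrable hji)
  have hdint : ∫ t, (d t : ℝ) ∂(iidLaw G) = b0 + ∫ t, (j t : ℝ) ∂(iidLaw G) := by
    simp only [hd]
    push_cast
    have h1 : Integrable (fun t => (j (shift z0 t) : ℝ)) (iidLaw G) :=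
      (mp_shift G z0).integrable_comp_of_integrable hji
    have h2 := integral_shift z0 (F := fun t => (j t : ℝ)) hji.aestronglyMeasurable
    rw [integral_add (integrable_const _) h1, h2]
    simp
  have hle : ∀ᵐ t ∂(iidLaw G), passageTime t (0, 0) (g + n, d t) ≤ ct t := by
    have e1 : ∀ᵐ t ∂(iidLaw G), ∀ z : ℤ × ℤ,
        passageTime (shift z t) (-4, 0) (0, 0) ≤ κ (shift z t) := by
      rw [ae_all_iff]
      intro z
      exact (mp_shift G z).quasiMeasurePreserving.ae hκ
    filter_upwards [e1, ae_Nn h0, hIeq, hq.ae hwalk, ae_all_iff.2 hXle] with t a1 a2 a3 a4 a5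
    obtain ⟨w, -, hw⟩ := a4
    have b1 := a5 (I t)
    have b2 := a1 (g, b0 + (I t : ℤ))
    rw [pt_shift] at b2
    have b3 := (pt_le (Nn_shift a2 z0) w).trans hw
    rw [pt_shift, ← a3] at b3
    simp only [hz0, Prod.mk_add_mk, zero_add] at b2 b3
    have b4 := pt_triangle a2 (0, 0) (g - 4, b0 + (I t : ℤ)) (g, b0 + (I t : ℤ))
    have b5 := pt_triangle a2 (0, 0) (g, b0 + (I t : ℤ)) (g + n, d t)
    rw [show (-4 : ℤ) + g = g - 4 by ring] at b2
    rw [show (I t : ℤ) + b0 = b0 + (I t : ℤ) by ring, show n + g = g + n by ring,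
      show j (shift (g, b0) t) + b0 = b0 + j (shift (g, b0) t) by ring] at b3
    simp only [hct, hZ, hd, hz0] at b5 ⊢
    linarith
  have hmain := stage_principle h0 hH hV hρ hgn hdd hdm hctd hctm hdi hcti hle
  have hctint : ∫ t, ct t ∂(iidLaw G) = ∫ t, X (I t) t ∂(iidLaw G) +
      ∫ t, Z (I t) t ∂(iidLaw G) + ∫ t, c t ∂(iidLaw G) := by
    have hAB : Integrable (fun t => X (I t) t + Z (I t) t) (iidLaw G) := hA1.add hB1
    simp only [hct]
    rw [integral_add hAB hC1, integral_add hA1 hB1, hC2]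
  -- the mean of the index
  have hEi : ∫ t, (i t : ℝ) ∂(iidLaw G) ≤
      W + ∫ t, (if W < (i t : ℝ) then (i t : ℝ) else 0) ∂(iidLaw G) := by
    have h1 : ∫ t, (i t : ℝ) ∂(iidLaw G) ≤
        ∫ t, (W + if W < (i t : ℝ) then (i t : ℝ) else 0) ∂(iidLaw G) := by
      refine integral_mono hii ((integrable_const _).add hii') fun t => ?_
      simp only
      split_ifs with h
      · linarith
      · linarith
    rw [integral_add (integrable_const _) hii'] at h1
    simpa using h1
  have hS0 : 0 ≤ ∫ t, (if W < (i t : ℝ) then (i t : ℝ) else 0) ∂(iidLaw G) := by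
    refine integral_nonneg fun t => ?_
    simp only [Pi.zero_apply]
    split_ifs with h
    · linarith
    · exact le_rfl
  have hfin : ∫ t, (c t - (p * n + q * ((j t : ℝ) - (i t : ℝ)))) ∂(iidLaw G) =
      ∫ t, c t ∂(iidLaw G) - (p * n + q * (∫ t, (j t : ℝ) ∂(iidLaw G) -
        ∫ t, (i t : ℝ) ∂(iidLaw G))) := by
    have e1 := (integral_lin hji hii (p * n) q (-q)).1
    have e2 := (integral_lin hji hii (p * n) q (-q)).2
    have e3 : (fun t => c t - (p * n + q * ((j t : ℝ) - (i t : ℝ)))) =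
        fun t => c t - (p * n + q * (j t : ℝ) + -q * (i t : ℝ)) := by
      funext t; ring
    rw [e3, integral_sub hci e1, e2]
    ring
  rw [hfin]
  rw [hctint, hdint] at hmain
  rw [hFint] at hA2
  rw [tr1] at hB2
  push_cast at hmain
  have hKW : Kη ≤ η * W := by
    rw [div_le_iff₀ hη0] at hWK
    linarith
  have hB3 : ∫ t, Z (I t) t ∂(iidLaw G) ≤ η * ∫ t, (i t : ℝ) ∂(iidLaw G) + Kη := hB2
  have hηi : η * ∫ t, (i t : ℝ) ∂(iidLaw G) ≤
      η * (W + ∫ t, (if W < (i t : ℝ) then (i t : ℝ) else 0) ∂(iidLaw G)) :=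
    mul_le_mul_of_nonneg_left hEi hη0.le
  have hηS : η * ∫ t, (if W < (i t : ℝ) then (i t : ℝ) else 0) ∂(iidLaw G) ≤
      1 * ∫ t, (if W < (i t : ℝ) then (i t : ℝ) else 0) ∂(iidLaw G) :=
    mul_le_mul_of_nonneg_right hη1 hS0
  have hηW : η * W ≤ ε / 4 * W := mul_le_mul_of_nonneg_right hη4 hW0
  have hεW : 0 ≤ ε * W := by positivity
  generalize ∫ t, (if W < (i t : ℝ) then (i t : ℝ) else 0) ∂(iidLaw G) = S at *
  generalize ∫ t, (i t : ℝ) ∂(iidLaw G) = Ei at *
  generalize ∫ t, (j t : ℝ) ∂(iidLaw G) = Ej at *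
  generalize ∫ t, c t ∂(iidLaw G) = Ec at *
  linarith

end Crest.Agent.R151.A
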