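import Crest.Agent.R151.K1a

/-!
# R151/K1b — moments of passage times, `L¹` convergence (owner helper507)
-/

set_option autoImplicit false

open MeasureTheory Filter ProbabilityTheory
open Crest.ProbabilityR.FirstPassage

namespace Crest.Agent.R151.K

variable {G : Measure ℝ} [IsProbabilityMeasure G] {lam : ℝ}

lemma ae_nonneg (h0 : G (Set.Iio 0) = 0) : ∀ᵐ x ∂G, 0 ≤ x := by
  rw [ae_iff]
  simpa [not_le] using (show G {a | a < 0} = 0 from h0)

lemma one_le_M (h0 : G (Set.Iio 0) = 0) (hlam : 0 < lam)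
    (hexp : Integrable (fun x => Real.exp (lam * x)) G) :
    1 ≤ ∫ x, Real.exp (lam * x) ∂G := by
  have h1 : ∫ _ : ℝ, (1 : ℝ) ∂G = 1 := by simp
  rw [← h1]
  refine integral_mono_ae (integrable_const _) hexp ?_
  filter_upwards [ae_nonneg h0] with x hx
  exact Real.one_le_exp (by positivity)

lemma integrable_sq (h0 : G (Set.Iio 0) = 0) (hlam : 0 < lam)
    (hexp : Integrable (fun x => Real.exp (lam * x)) G) :
    Integrable (fun x : ℝ => x ^ 2) G := by
  refine (hexp.const_mul (2 / lam ^ 2)).mono' (by fun_prop) ?_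
  filter_upwards [ae_nonneg h0] with x hx
  have h := Real.quadratic_le_exp_of_nonneg (mul_nonneg hlam.le hx)
  rw [Real.norm_eq_abs, abs_of_nonneg (sq_nonneg x), div_mul_eq_mul_div, le_div_iff₀ (by positivity)]
  nlinarith [mul_nonneg hlam.le hx]

lemma integrable_edge_sq (h2 : Integrable (fun x : ℝ => x ^ 2) G) (e : Sym2 (ℤ × ℤ)) :
    Integrable (fun t : Environment => t e ^ 2) (iidLaw G) :=
  (mp_eval (G := G) e).integrable_comp_of_integrable h2

lemma integral_edge_sq (h2 : Integrable (fun x : ℝ => x ^ 2) G) (e : Sym2 (ℤ × ℤ)) :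
    ∫ t, t e ^ 2 ∂(iidLaw G) = ∫ x, x ^ 2 ∂G := by
  have h := (mp_eval (G := G) e)
  conv_rhs => rw [← h.map_eq]
  rw [integral_map h.measurable.aemeasurable (by rw [h.map_eq]; exact h2.1)]

/-- Second moment of a passage time. -/
lemma pt_sq (h0 : G (Set.Iio 0) = 0) (h2 : Integrable (fun x : ℝ => x ^ 2) G) (x y : ℤ × ℤ) :
    Integrable (fun t => passageTime t x y ^ 2) (iidLaw G) ∧
    ∫ t, passageTime t x y ^ 2 ∂(iidLaw G) ≤ (n1 (y - x) : ℝ) ^ 2 * ∫ z, z ^ 2 ∂G := by
  obtain ⟨F, hF, hle⟩ := exists_path_edges x y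
  have hb : ∀ᵐ t ∂(iidLaw G), passageTime t x y ^ 2 ≤ (F.card : ℝ) * ∑ e ∈ F, t e ^ 2 := by
    filter_upwards [ae_Nn (G := G) h0] with t ht
    calc passageTime t x y ^ 2 ≤ (∑ e ∈ F, t e) ^ 2 := by
          have := hle t ht
          have := pt_nonneg ht x y
          gcongr
      _ ≤ (F.card : ℝ) * ∑ e ∈ F, t e ^ 2 := sq_sum_le_card_mul_sum_sq
  have hint : Integrable (fun t : Environment => (F.card : ℝ) * ∑ e ∈ F, t e ^ 2) (iidLaw G) :=
    (integrable_finsetSum _ fun e _ => integrable_edge_sq h2 e).const_mul _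
  have hi : Integrable (fun t => passageTime t x y ^ 2) (iidLaw G) := by
    refine hint.mono' ((measurable_pt x y).pow_const 2).aestronglyMeasurable ?_
    filter_upwards [hb] with t ht
    rwa [Real.norm_eq_abs, abs_of_nonneg (sq_nonneg _)]
  refine ⟨hi, (integral_mono_ae hi hint hb).trans ?_⟩
  rw [integral_const_mul, integral_finsetSum _ fun e _ => integrable_edge_sq h2 e]
  simp only [integral_edge_sq h2, Finset.sum_const, nsmul_eq_mul]
  rw [← mul_assoc, ← sq]
  have : (0 : ℝ) ≤ ∫ z, z ^ 2 ∂G := integral_nonneg fun z => sq_nonneg z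
  have : (F.card : ℝ) ≤ n1 (y - x) := by exact_mod_cast hF
  gcongr

lemma integrable_pt (h0 : G (Set.Iio 0) = 0) (h2 : Integrable (fun x : ℝ => x ^ 2) G)
    (x y : ℤ × ℤ) : Integrable (fun t => passageTime t x y) (iidLaw G) := by
  have h := (pt_sq h0 h2 x y).1
  have hm : MemLp (fun t => passageTime t x y) 2 (iidLaw G) :=
    (memLp_two_iff_integrable_sq (measurable_pt x y).aestronglyMeasurable).2 h
  exact hm.integrable (by norm_num)

lemma integrable_id_of_sq (h2 : Integrable (fun x : ℝ => x ^ 2) G) :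
    Integrable (fun x : ℝ => x) G := by
  have hm : MemLp (fun x : ℝ => x) 2 G :=
    (memLp_two_iff_integrable_sq measurable_id.aestronglyMeasurable).2 h2
  exact hm.integrable (by norm_num)

/-- First moment of a passage time. -/
lemma integral_pt_le (h0 : G (Set.Iio 0) = 0) (h2 : Integrable (fun x : ℝ => x ^ 2) G)
    (x y : ℤ × ℤ) :
    ∫ t, passageTime t x y ∂(iidLaw G) ≤ (n1 (y - x) : ℝ) * ∫ z, z ∂G := by
  obtain ⟨F, hF, hle⟩ := exists_path_edges x y
  have h1 := integrable_id_of_sq h2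
  have hie : ∀ e : Sym2 (ℤ × ℤ), Integrable (fun t : Environment => t e) (iidLaw G) :=
    fun e => (mp_eval (G := G) e).integrable_comp_of_integrable h1
  have hint : Integrable (fun t : Environment => ∑ e ∈ F, t e) (iidLaw G) :=
    integrable_finsetSum _ fun e _ => hie e
  refine (integral_mono_ae (integrable_pt h0 h2 x y) hint ?_).trans ?_
  · filter_upwards [ae_Nn (G := G) h0] with t ht using hle t ht
  · rw [integral_finsetSum _ fun e _ => hie e]
    have : ∀ e : Sym2 (ℤ × ℤ), ∫ t : Environment, t e ∂(iidLaw G) = ∫ z, z ∂G := by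
      intro e
      have h := (mp_eval (G := G) e)
      conv_rhs => rw [← h.map_eq]
      rw [integral_map h.measurable.aemeasurable (by rw [h.map_eq]; exact h1.1)]
    simp only [this, Finset.sum_const, nsmul_eq_mul]
    have h3 : (0 : ℝ) ≤ ∫ z, z ∂G := integral_nonneg_of_ae (ae_nonneg h0)
    have h4 : (F.card : ℝ) ≤ n1 (y - x) := by exact_mod_cast hF
    gcongr

/-- Exponential moment of a passage time. -/
lemma exp_pt (h0 : G (Set.Iio 0) = 0) (hlam : 0 < lam)
    (hexp : Integrable (fun x => Real.exp (lam * x)) G) (x y : ℤ × ℤ) :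
    Integrable (fun t => Real.exp (lam * passageTime t x y)) (iidLaw G) ∧
    ∫ t, Real.exp (lam * passageTime t x y) ∂(iidLaw G)
      ≤ (∫ z, Real.exp (lam * z) ∂G) ^ (n1 (y - x)) := by
  obtain ⟨F, hF, hle⟩ := exists_path_edges x y
  obtain ⟨hi, he⟩ := exp_sum hexp F
  have hb : ∀ᵐ t ∂(iidLaw G), Real.exp (lam * passageTime t x y)
      ≤ Real.exp (lam * ∑ e ∈ F, t e) := by
    filter_upwards [ae_Nn (G := G) h0] with t ht
    have := hle t ht
    gcongr
  have hi2 : Integrable (fun t => Real.exp (lam * passageTime t x y)) (iidLaw G) := by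
    refine hi.mono' ((measurable_pt x y).const_mul lam).exp.aestronglyMeasurable ?_
    filter_upwards [hb] with t ht
    rwa [Real.norm_eq_abs, abs_of_nonneg (Real.exp_nonneg _)]
  refine ⟨hi2, (integral_mono_ae hi2 hi hb).trans ?_⟩
  rw [he]
  exact pow_le_pow_right₀ (one_le_M h0 hlam hexp) hF

/-! ### `L¹` convergence from a.s. convergence and an `L²` bound -/

lemma tendsto_integral_abs {Ω : Type*} [MeasurableSpace Ω] {P : Measure Ω} [IsProbabilityMeasure P]
    {Y : ℝ → Ω → ℝ} {C : ℝ} (hm : ∀ s, Measurable (Y s))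
    (hi : ∀ s, 1 ≤ s → Integrable (fun ω => Y s ω ^ 2) P)
    (hC : ∀ s, 1 ≤ s → ∫ ω, Y s ω ^ 2 ∂P ≤ C)
    (hae : ∀ᵐ ω ∂P, Tendsto (fun s => Y s ω) atTop (nhds 0)) :
    Tendsto (fun s => ∫ ω, |Y s ω| ∂P) atTop (nhds 0) := by
  have hC0 : 0 ≤ C := (integral_nonneg fun ω => sq_nonneg _).trans (hC 1 le_rfl)
  rw [Metric.tendsto_atTop]
  intro ε hε
  obtain ⟨K, hK1, hK⟩ : ∃ K : ℝ, 1 ≤ K ∧ C / K < ε / 2 := by
    refine ⟨2 * (C + 1) / ε + 1, ?_, ?_⟩
    · have : 0 ≤ 2 * (C + 1) / ε := by positivity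
      linarith
    · have h1 : 0 < 2 * (C + 1) / ε + 1 := by positivity
      rw [div_lt_iff₀ h1]
      have : ε / 2 * (2 * (C + 1) / ε + 1) = (C + 1) + ε / 2 := by
        field_simp
      rw [this]; linarith
  have hK0 : 0 < K := by linarith
  have hdct : Tendsto (fun s => ∫ ω, min |Y s ω| K ∂P) atTop (nhds (∫ _, (0 : ℝ) ∂P)) := by
    refine tendsto_integral_filter_of_dominated_convergence (fun _ => K) ?_ ?_ ?_ ?_
    · filter_upwards with s
      exact ((continuous_abs.measurable.comp (hm s)).min measurable_const).aestronglyMeasurable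
    · filter_upwards with s
      filter_upwards with ω
      rw [Real.norm_eq_abs, abs_of_nonneg (le_min (abs_nonneg _) hK0.le)]
      exact min_le_right _ _
    · exact integrable_const _
    · filter_upwards [hae] with ω hω
      have h1 : Tendsto (fun s => |Y s ω|) atTop (nhds 0) := by
        simpa using hω.abs
      have h2 : Tendsto (fun s => min |Y s ω| K) atTop (nhds (min 0 K)) :=
        h1.min tendsto_const_nhds
      rwa [min_eq_left hK0.le] at h2
  rw [integral_zero, Metric.tendsto_atTop] at hdct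
  obtain ⟨s0, hs0⟩ := hdct (ε / 2) (by positivity)
  refine ⟨max s0 1, fun s hs => ?_⟩
  have h1 : 1 ≤ s := (le_max_right _ _).trans hs
  have h2 := hs0 s ((le_max_left _ _).trans hs)
  rw [Real.dist_eq, sub_zero] at h2 ⊢
  have hnn : 0 ≤ ∫ ω, |Y s ω| ∂P := integral_nonneg fun ω => abs_nonneg _
  have hmin0 : 0 ≤ ∫ ω, min |Y s ω| K ∂P :=
    integral_nonneg fun ω => le_min (abs_nonneg _) hK0.le
  rw [abs_of_nonneg hmin0] at h2
  rw [abs_of_nonneg hnn]
  have hpt : ∀ ω, |Y s ω| ≤ min |Y s ω| K + Y s ω ^ 2 / K := by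
    intro ω
    rcases le_total |Y s ω| K with h | h
    · rw [min_eq_left h]
      have : 0 ≤ Y s ω ^ 2 / K := by positivity
      linarith
    · rw [min_eq_right h]
      have : |Y s ω| ≤ Y s ω ^ 2 / K := by
        rw [le_div_iff₀ hK0, ← sq_abs, sq]
        exact mul_le_mul_of_nonneg_left h (abs_nonneg _)
      linarith
  have hiY : Integrable (fun ω => |Y s ω|) P := by
    have hmem : MemLp (Y s) 2 P :=
      (memLp_two_iff_integrable_sq (hm s).aestronglyMeasurable).2 (hi s h1)
    exact (hmem.integrable (by norm_num)).abs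
  have himin : Integrable (fun ω => min |Y s ω| K) P := by
    refine hiY.mono' ((continuous_abs.measurable.comp (hm s)).min
      measurable_const).aestronglyMeasurable ?_
    filter_upwards with ω
    rw [Real.norm_eq_abs, abs_of_nonneg (le_min (abs_nonneg _) hK0.le)]
    exact min_le_left _ _
  calc ∫ ω, |Y s ω| ∂P ≤ ∫ ω, (min |Y s ω| K + Y s ω ^ 2 / K) ∂P :=
        integral_mono hiY (himin.add ((hi s h1).div_const K)) hpt
    _ = ∫ ω, min |Y s ω| K ∂P + (∫ ω, Y s ω ^ 2 ∂P) / K := by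
        rw [integral_add himin ((hi s h1).div_const K), integral_div]
    _ ≤ ∫ ω, min |Y s ω| K ∂P + C / K := by
        have := hC s h1
        gcongr
    _ < ε := by linarith

end Crest.Agent.R151.K
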