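import Mathlib
import Crest.Prelude.Def_PlanarFPP

/-!
# R151, block MOM (helper51): moments for the general law of S0213, part A

`mom G k p = ∫ (min of k independent weights)^p`, tail bound `G (Ioi s) ≤ C s^(-1/2)`, and the
`k` disjoint paths bound under `iidLaw G`.
-/

set_option autoImplicit false

open MeasureTheory ProbabilityTheory
open scoped ENNReal
open Crest.ProbabilityR.FirstPassage

namespace Crest.Agent.R151.M51

/-- the `p`-th moment of the minimum of `k` independent weights -/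
noncomputable def mom (G : Measure ℝ) (k : ℕ) (p : ℝ) : ℝ≥0∞ :=
  ∫⁻ x, (⨅ i, ENNReal.ofReal (x i)) ^ p ∂(Measure.pi fun _ : Fin k => G)

lemma measurable_min (k : ℕ) : Measurable fun x : Fin k → ℝ => ⨅ i, ENNReal.ofReal (x i) :=
  Measurable.iInf fun i => (measurable_pi_apply i).ennreal_ofReal

/-- the moment hypothesis of S0213 in the form `mom G 4 2 < ⊤` -/
theorem mom_four_two {G : Measure ℝ} [IsProbabilityMeasure G] (hG : G (Set.Iio 0) = 0)
    (hmom : ∫⁻ x, ENNReal.ofReal ((⨅ i, x i) ^ 2) ∂(Measure.pi fun _ : Fin 4 => G) < ⊤) :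
    mom G 4 2 < ⊤ := by
  have hae : ∀ᵐ x ∂(Measure.pi fun _ : Fin 4 => G), ∀ i, 0 ≤ x i := by
    rw [ae_all_iff]
    intro i
    have h1 : ∀ᵐ y ∂G, (0:ℝ) ≤ y := by
      rw [ae_iff]
      simp only [not_le]
      exact hG
    exact (Measure.tendsto_eval_ae_ae (μ := fun _ : Fin 4 => G) (i := i)).eventually h1
  have : mom G 4 2 = ∫⁻ x, ENNReal.ofReal ((⨅ i, x i) ^ 2) ∂(Measure.pi fun _ : Fin 4 => G) := by
    unfold mom
    apply lintegral_congr_ae
    filter_upwards [hae] with x hx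
    obtain ⟨j, hj⟩ := exists_eq_ciInf_of_finite (f := x)
    have h2 : (⨅ i, ENNReal.ofReal (x i)) = ENNReal.ofReal (⨅ i, x i) := by
      apply le_antisymm
      · rw [← hj]; exact iInf_le _ j
      · apply le_iInf
        intro i
        apply ENNReal.ofReal_le_ofReal
        exact ciInf_le (Set.finite_range x).bddBelow i
    rw [h2, ENNReal.rpow_two, ENNReal.ofReal_pow]
    rw [← hj]; exact hx j
  rw [this]; exact hmom

lemma pi_Ioi (G : Measure ℝ) [IsProbabilityMeasure G] (k : ℕ) [NeZero k] {s : ℝ} (hs : 0 ≤ s) :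
    (Measure.pi fun _ : Fin k => G) {x | ENNReal.ofReal s < ⨅ i, ENNReal.ofReal (x i)}
      = G (Set.Ioi s) ^ k := by
  have : {x : Fin k → ℝ | ENNReal.ofReal s < ⨅ i, ENNReal.ofReal (x i)}
      = Set.pi Set.univ fun _ => Set.Ioi s := by
    ext x
    simp only [Set.mem_ofPred_eq, Set.mem_pi, Set.mem_univ, true_imp_iff, Set.mem_Ioi]
    constructor
    · intro h i
      have h1 : ENNReal.ofReal s < ENNReal.ofReal (x i) := lt_of_lt_of_le h (iInf_le _ i)
      exact (ENNReal.ofReal_lt_ofReal_iff_of_nonneg hs).1 h1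
    · intro h
      obtain ⟨j, hj⟩ := exists_eq_ciInf_of_finite (f := fun i => ENNReal.ofReal (x i))
      rw [← hj]
      exact (ENNReal.ofReal_lt_ofReal_iff_of_nonneg hs).2 (h j)
  rw [this, Measure.pi_pi]
  simp

/-- Markov: `G(s,∞)^k s^p ≤ mom G k p` -/
theorem tail_mul_le (G : Measure ℝ) [IsProbabilityMeasure G] (k : ℕ) [NeZero k] {p : ℝ}
    (hp : 0 < p) {s : ℝ} (hs : 0 ≤ s) :
    ENNReal.ofReal (s ^ p) * G (Set.Ioi s) ^ k ≤ mom G k p := by
  rw [← pi_Ioi G k hs]
  have h := mul_meas_ge_le_lintegral₀ (μ := Measure.pi fun _ : Fin k => G)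
    (f := fun x => (⨅ i, ENNReal.ofReal (x i)) ^ p)
    (((measurable_min k).pow_const p).aemeasurable) (ENNReal.ofReal (s ^ p))
  refine le_trans (mul_le_mul' le_rfl (measure_mono ?_)) h
  intro x hx
  simp only [Set.mem_ofPred_eq] at hx ⊢
  rw [← ENNReal.ofReal_rpow_of_nonneg hs hp.le]
  exact ENNReal.rpow_le_rpow hx.le hp.le

/-- the tail bound `G(s,∞) ≤ C s^(-1/2)` under the moment hypothesis of S0213 -/
theorem tail_le {G : Measure ℝ} [IsProbabilityMeasure G] (h : mom G 4 2 < ⊤) :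
    ∃ C : ℝ, 0 < C ∧ ∀ s : ℝ, 0 < s → G (Set.Ioi s) ≤ ENNReal.ofReal (C * s ^ (-(1/2) : ℝ)) := by
  refine ⟨((mom G 4 2).toReal + 1) ^ (1/4 : ℝ), by positivity, ?_⟩
  intro s hs
  have h1 := tail_mul_le G 4 (p := 2) (by norm_num) hs.le
  set g : ℝ := (G (Set.Ioi s)).toReal with hg
  have hgG : G (Set.Ioi s) = ENNReal.ofReal g := (ENNReal.ofReal_toReal (measure_ne_top _ _)).symm
  have hg0 : 0 ≤ g := ENNReal.toReal_nonneg
  have h2 : s ^ (2:ℝ) * g ^ 4 ≤ (mom G 4 2).toReal := by
    have h3 := ENNReal.toReal_mono h.ne h1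
    rw [ENNReal.toReal_mul, ENNReal.toReal_ofReal (by positivity), ENNReal.toReal_pow] at h3
    exact h3
  rw [hgG]
  apply ENNReal.ofReal_le_ofReal
  have h4 : (s ^ (1/2 : ℝ) * g) ^ 4 ≤ (mom G 4 2).toReal + 1 := by
    have : (s ^ (1/2 : ℝ) * g) ^ 4 = s ^ (2:ℝ) * g ^ 4 := by
      rw [mul_pow, ← Real.rpow_natCast (s ^ (1/2:ℝ)) 4, ← Real.rpow_mul hs.le]
      norm_num
    rw [this]; linarith
  have h5 : s ^ (1/2 : ℝ) * g ≤ ((mom G 4 2).toReal + 1) ^ (1/4 : ℝ) := by
    have h6 : ((s ^ (1/2 : ℝ) * g) ^ 4) ^ (1/4 : ℝ) ≤ ((mom G 4 2).toReal + 1) ^ (1/4 : ℝ) :=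
      Real.rpow_le_rpow (by positivity) h4 (by norm_num)
    have h7 : ((s ^ (1/2 : ℝ) * g) ^ 4) ^ (1/4 : ℝ) = s ^ (1/2 : ℝ) * g := by
      rw [← Real.rpow_natCast (s ^ (1/2:ℝ) * g) 4, ← Real.rpow_mul (by positivity)]
      norm_num
    rwa [h7] at h6
  have h8 : s ^ (1/2 : ℝ) * s ^ (-(1/2) : ℝ) = 1 := by
    rw [← Real.rpow_add hs]; norm_num
  calc g = (s ^ (1/2 : ℝ) * g) * s ^ (-(1/2) : ℝ) := by
        rw [mul_right_comm, h8, one_mul]
    _ ≤ _ := by gcongr

lemma dyadic_bound {p : ℝ} (hp : 0 < p) (y : ℝ≥0∞) (hy : y ≠ ⊤) :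
    y ^ p ≤ 1 + ∑' n : ℕ, Set.indicator {z : ℝ≥0∞ | ENNReal.ofReal ((2:ℝ) ^ n) < z}
      (fun _ => ENNReal.ofReal (((2:ℝ) ^ (n + 1)) ^ p)) y := by
  by_cases h1 : y ≤ 1
  · exact le_trans (ENNReal.rpow_le_one h1 hp.le) le_self_add
  · push Not at h1
    set r := y.toReal with hr
    have hyr : y = ENNReal.ofReal r := (ENNReal.ofReal_toReal hy).symm
    have hr1 : 1 < r := by
      rw [hyr] at h1
      rw [← ENNReal.ofReal_one] at h1
      exact (ENNReal.ofReal_lt_ofReal_iff_of_nonneg (by norm_num)).1 h1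
    have hex : ∃ n : ℕ, r ≤ (2:ℝ) ^ n := by
      obtain ⟨n, hn⟩ := pow_unbounded_of_one_lt r (by norm_num : (1:ℝ) < 2)
      exact ⟨n, hn.le⟩
    classical
    set N := Nat.find hex with hN
    have hN1 : r ≤ 2 ^ N := Nat.find_spec hex
    have hN0 : N ≠ 0 := by
      intro h0
      rw [h0, pow_zero] at hN1
      linarith
    obtain ⟨M, hM⟩ := Nat.exists_eq_succ_of_ne_zero hN0
    have hM1 : 2 ^ M < r := by
      have := Nat.find_min hex (show M < Nat.find hex by rw [← hN, hM]; omega)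
      push Not at this
      exact this
    calc y ^ p ≤ ENNReal.ofReal (((2:ℝ) ^ (M + 1)) ^ p) := by
          rw [hyr, ENNReal.ofReal_rpow_of_nonneg (by linarith) hp.le]
          apply ENNReal.ofReal_le_ofReal
          apply Real.rpow_le_rpow (by linarith) _ hp.le
          rw [hM] at hN1; exact hN1
      _ = Set.indicator {z : ℝ≥0∞ | ENNReal.ofReal ((2:ℝ) ^ M) < z}
            (fun _ => ENNReal.ofReal (((2:ℝ) ^ (M + 1)) ^ p)) y := by
          rw [Set.indicator_of_mem]
          simp only [Set.mem_ofPred_eq]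
          rw [hyr]
          exact (ENNReal.ofReal_lt_ofReal_iff_of_nonneg (by positivity)).2 hM1
      _ ≤ ∑' n : ℕ, Set.indicator {z : ℝ≥0∞ | ENNReal.ofReal ((2:ℝ) ^ n) < z}
            (fun _ => ENNReal.ofReal (((2:ℝ) ^ (n + 1)) ^ p)) y :=
          ENNReal.le_tsum M
      _ ≤ _ := le_add_self

/-- moments of the minimum of `k` weights from a power tail -/
theorem mom_lt_top_of_tail {G : Measure ℝ} [IsProbabilityMeasure G] {k : ℕ} [NeZero k]
    {p a C : ℝ} (hp : 0 < p) (hpk : p < a * k) (hC : 0 < C)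
    (htail : ∀ s : ℝ, 0 < s → G (Set.Ioi s) ≤ ENNReal.ofReal (C * s ^ (-a))) :
    mom G k p < ⊤ := by
  have hb : mom G k p ≤ 1 + ∑' n : ℕ, ENNReal.ofReal (((2:ℝ) ^ (n + 1)) ^ p) *
      G (Set.Ioi ((2:ℝ) ^ n)) ^ k := by
    unfold mom
    calc ∫⁻ x, (⨅ i, ENNReal.ofReal (x i)) ^ p ∂(Measure.pi fun _ : Fin k => G)
        ≤ ∫⁻ x, (1 + ∑' n : ℕ, Set.indicator {z : ℝ≥0∞ | ENNReal.ofReal ((2:ℝ) ^ n) < z}
            (fun _ => ENNReal.ofReal (((2:ℝ) ^ (n + 1)) ^ p)) (⨅ i, ENNReal.ofReal (x i)))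
            ∂(Measure.pi fun _ : Fin k => G) := by
          apply lintegral_mono
          intro x
          apply dyadic_bound hp
          obtain ⟨j, hj⟩ := exists_eq_ciInf_of_finite (f := fun i => ENNReal.ofReal (x i))
          rw [← hj]
          exact ENNReal.ofReal_ne_top
      _ = 1 + ∑' n : ℕ, ENNReal.ofReal (((2:ℝ) ^ (n + 1)) ^ p) *
            G (Set.Ioi ((2:ℝ) ^ n)) ^ k := by
          rw [lintegral_add_left measurable_const, lintegral_const, measure_univ, mul_one,
            lintegral_tsum]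
          · congr 1
            congr 1
            ext n
            rw [← pi_Ioi G k (by positivity : (0:ℝ) ≤ 2 ^ n), ← lintegral_indicator_const]
            · rfl
            · exact (measurable_min k) measurableSet_Ioi
          · intro n
            apply Measurable.aemeasurable
            exact (measurable_const.indicator measurableSet_Ioi).comp (measurable_min k)
  refine lt_of_le_of_lt hb ?_
  rw [ENNReal.add_lt_top]
  refine ⟨ENNReal.one_lt_top, ?_⟩
  -- compare with a geometric series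
  set q : ℝ := (2:ℝ) ^ (p - a * k) with hq
  have hq0 : 0 < q := by positivity
  have hq1 : q < 1 := Real.rpow_lt_one_of_one_lt_of_neg (by norm_num) (by linarith)
  have hterm : ∀ n : ℕ, ENNReal.ofReal (((2:ℝ) ^ (n + 1)) ^ p) * G (Set.Ioi ((2:ℝ) ^ n)) ^ k
      ≤ ENNReal.ofReal ((2:ℝ) ^ p * C ^ k * q ^ n) := by
    intro n
    have h1 := htail ((2:ℝ) ^ n) (by positivity)
    have h2 : ENNReal.ofReal (((2:ℝ) ^ (n + 1)) ^ p) * G (Set.Ioi ((2:ℝ) ^ n)) ^ k
        ≤ ENNReal.ofReal (((2:ℝ) ^ (n + 1)) ^ p) *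
          ENNReal.ofReal (C * ((2:ℝ) ^ n) ^ (-a)) ^ k := by gcongr
    refine h2.trans (le_of_eq ?_)
    rw [← ENNReal.ofReal_pow (by positivity), ← ENNReal.ofReal_mul (by positivity)]
    congr 1
    have e1 : ((2:ℝ) ^ (n + 1)) ^ p = (2:ℝ) ^ p * (2:ℝ) ^ ((n:ℝ) * p) := by
      rw [← Real.rpow_natCast, ← Real.rpow_mul (by norm_num), ← Real.rpow_add (by norm_num)]
      congr 1
      push_cast; ring
    have e2 : (((2:ℝ) ^ n) ^ (-a)) ^ k = (2:ℝ) ^ (-(a * k * n)) := by
      rw [← Real.rpow_natCast (2:ℝ) n, ← Real.rpow_mul (by norm_num),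
        ← Real.rpow_natCast _ k, ← Real.rpow_mul (by norm_num)]
      congr 1; ring
    have e3 : q ^ n = (2:ℝ) ^ ((n:ℝ) * p) * (2:ℝ) ^ (-(a * k * n)) := by
      rw [hq, ← Real.rpow_natCast, ← Real.rpow_mul (by norm_num), ← Real.rpow_add (by norm_num)]
      congr 1; ring
    rw [mul_pow, e1, e2, e3]; ring
  calc ∑' n : ℕ, ENNReal.ofReal (((2:ℝ) ^ (n + 1)) ^ p) * G (Set.Ioi ((2:ℝ) ^ n)) ^ k
      ≤ ∑' n : ℕ, ENNReal.ofReal ((2:ℝ) ^ p * C ^ k * q ^ n) := ENNReal.tsum_le_tsum hterm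
    _ = ENNReal.ofReal (∑' n : ℕ, (2:ℝ) ^ p * C ^ k * q ^ n) := by
        rw [ENNReal.ofReal_tsum_of_nonneg]
        · intro n; positivity
        · exact (summable_geometric_of_lt_one hq0.le hq1).mul_left _
    _ < ⊤ := ENNReal.ofReal_lt_top

/-- `E min_k^p < ∞` for `0 < p < k/2` under the moment hypothesis of S0213 -/
theorem mom_lt_top {G : Measure ℝ} [IsProbabilityMeasure G] (h : mom G 4 2 < ⊤) {k : ℕ} [NeZero k]
    {p : ℝ} (hp : 0 < p) (hpk : p < k / 2) : mom G k p < ⊤ := by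
  obtain ⟨C, hC, ht⟩ := tail_le h
  refine mom_lt_top_of_tail (a := 1/2) hp (by linarith) hC ?_
  intro s hs
  simpa using ht s hs

/-- `k` distinct coordinates of an environment of law `iidLaw G` are i.i.d. -/
theorem map_coords (G : Measure ℝ) [IsProbabilityMeasure G] {k : ℕ}
    {e : Fin k → Sym2 (ℤ × ℤ)} (he : Function.Injective e) :
    (iidLaw G).map (fun t j => t (e j)) = Measure.pi fun _ : Fin k => G := by
  have h0 : iIndepFun (fun (i : Sym2 (ℤ × ℤ)) (t : Environment) => t i) (iidLaw G) :=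
    iIndepFun_infinitePi (P := fun _ : Sym2 (ℤ × ℤ) => G) (X := fun _ x => x)
      (fun _ => measurable_id)
  have h1 : iIndepFun (fun (j : Fin k) (t : Environment) => t (e j)) (iidLaw G) :=
    h0.precomp he
  have : IsProbabilityMeasure (iidLaw G) := by unfold iidLaw; infer_instance
  rw [iIndepFun_iff_map_fun_eq_pi_map (fun j => (measurable_pi_apply (e j)).aemeasurable)] at h1
  rw [h1]
  congr 1
  ext1 j
  exact (measurePreserving_eval_infinitePi (fun _ : Sym2 (ℤ × ℤ) => G) (e j)).map_eq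

lemma lintegral_min_coords (G : Measure ℝ) [IsProbabilityMeasure G] {k : ℕ} (p : ℝ)
    {e : Fin k → Sym2 (ℤ × ℤ)} (he : Function.Injective e) :
    ∫⁻ t, (⨅ j, ENNReal.ofReal (t (e j))) ^ p ∂(iidLaw G) = mom G k p := by
  unfold mom
  rw [← map_coords G he, lintegral_map]
  · exact (measurable_min k).pow_const p
  · exact measurable_pi_iff.2 fun j => measurable_pi_apply (e j)

lemma ofReal_sum_list_le (t : Sym2 (ℤ × ℤ) → ℝ) (l : List (Sym2 (ℤ × ℤ))) (B : ℝ≥0∞)
    (hB : ∀ e ∈ l, ENNReal.ofReal (t e) ≤ B) :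
    ENNReal.ofReal ((l.map t).sum) ≤ l.length * B := by
  induction l with
  | nil => simp
  | cons a l ih =>
    simp only [List.map_cons, List.sum_cons, List.length_cons, Nat.cast_add, Nat.cast_one]
    refine (ENNReal.ofReal_add_le).trans ?_
    rw [add_mul, one_mul, add_comm]
    exact add_le_add (ih fun e he => hB e (List.mem_cons_of_mem _ he))
      (hB a List.mem_cons_self)

/-- **k disjoint paths**: the minimum of the costs of `k` pairwise disjoint lists of at most `m`
edges has a finite `p`-th moment as soon as `mom G k p < ⊤`. -/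
theorem lintegral_min_lists_le (G : Measure ℝ) [IsProbabilityMeasure G] {k : ℕ} [NeZero k]
    {p : ℝ} (hp : 0 < p) (m : ℕ) (S : Fin k → List (Sym2 (ℤ × ℤ)))
    (hS : ∀ i j, i ≠ j → (S i).Disjoint (S j)) (hm : ∀ j, (S j).length ≤ m) :
    ∫⁻ t, (⨅ j, ENNReal.ofReal (((S j).map t).sum)) ^ p ∂(iidLaw G)
      ≤ (m:ℝ≥0∞) ^ p * (m:ℝ≥0∞) ^ k * mom G k p := by
  classical
  by_cases hne : ∃ j, S j = []
  · obtain ⟨j, hj⟩ := hne
    have : ∀ t : Environment, (⨅ j, ENNReal.ofReal (((S j).map t).sum)) ^ p = 0 := by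
      intro t
      have h0 : (⨅ j, ENNReal.ofReal (((S j).map t).sum)) = 0 := by
        apply le_antisymm _ (zero_le)
        refine (iInf_le _ j).trans ?_
        simp [hj]
      rw [h0, ENNReal.zero_rpow_of_pos hp]
    simp only [this, lintegral_zero, zero_le]
  · push Not at hne
    have key : ∀ t : Environment, (⨅ j, ENNReal.ofReal (((S j).map t).sum)) ^ p ≤
        ∑ φ : (j : Fin k) → Fin (S j).length,
          (m:ℝ≥0∞) ^ p * (⨅ j, ENNReal.ofReal (t ((S j).get (φ j)))) ^ p := by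
      intro t
      have hmax : ∀ j, ∃ a : Fin (S j).length,
          ∀ b, ENNReal.ofReal (t ((S j).get b)) ≤ ENNReal.ofReal (t ((S j).get a)) := by
        intro j
        have : Nonempty (Fin (S j).length) := by
          rw [← Fin.pos_iff_nonempty]
          exact List.length_pos_iff.2 (hne j)
        exact Finite.exists_max (fun a => ENNReal.ofReal (t ((S j).get a)))
      choose φ hφ using hmax
      have h1 : ∀ j, ENNReal.ofReal (((S j).map t).sum) ≤
          (m:ℝ≥0∞) * ENNReal.ofReal (t ((S j).get (φ j))) := by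
        intro j
        refine (ofReal_sum_list_le t (S j) (ENNReal.ofReal (t ((S j).get (φ j)))) ?_).trans ?_
        · intro e he
          obtain ⟨b, hb⟩ := List.get_of_mem he
          rw [← hb]; exact hφ j b
        · gcongr; exact hm j
      have h2 : (⨅ j, ENNReal.ofReal (((S j).map t).sum)) ≤
          (m:ℝ≥0∞) * ⨅ j, ENNReal.ofReal (t ((S j).get (φ j))) := by
        obtain ⟨j, hj⟩ := exists_eq_ciInf_of_finite
          (f := fun j => ENNReal.ofReal (t ((S j).get (φ j))))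
        rw [← hj]
        exact (iInf_le _ j).trans (h1 j)
      calc (⨅ j, ENNReal.ofReal (((S j).map t).sum)) ^ p
          ≤ ((m:ℝ≥0∞) * ⨅ j, ENNReal.ofReal (t ((S j).get (φ j)))) ^ p :=
            ENNReal.rpow_le_rpow h2 hp.le
        _ = (m:ℝ≥0∞) ^ p * (⨅ j, ENNReal.ofReal (t ((S j).get (φ j)))) ^ p :=
            ENNReal.mul_rpow_of_nonneg _ _ hp.le
        _ ≤ _ := Finset.single_le_sum
            (f := fun φ : (j : Fin k) → Fin (S j).length =>
              (m:ℝ≥0∞) ^ p * (⨅ j, ENNReal.ofReal (t ((S j).get (φ j)))) ^ p)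
            (fun _ _ => zero_le) (Finset.mem_univ φ)
    calc ∫⁻ t, (⨅ j, ENNReal.ofReal (((S j).map t).sum)) ^ p ∂(iidLaw G)
        ≤ ∫⁻ t, ∑ φ : (j : Fin k) → Fin (S j).length,
          (m:ℝ≥0∞) ^ p * (⨅ j, ENNReal.ofReal (t ((S j).get (φ j)))) ^ p ∂(iidLaw G) :=
          lintegral_mono key
      _ = ∑ φ : (j : Fin k) → Fin (S j).length, (m:ℝ≥0∞) ^ p * mom G k p := by
          rw [lintegral_finsetSum]
          · apply Finset.sum_congr rfl
            intro φ _
            rw [lintegral_const_mul]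
            · rw [lintegral_min_coords G p]
              intro i j hij
              by_contra hne'
              exact hS i j hne' (List.get_mem _ _) (by
                have : (S i).get (φ i) = (S j).get (φ j) := hij
                rw [this]; exact List.get_mem _ _)
            · apply Measurable.pow_const
              exact Measurable.iInf fun j => (measurable_pi_apply _).ennreal_ofReal
          · intro φ _
            apply Measurable.const_mul
            apply Measurable.pow_const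
            exact Measurable.iInf fun j => (measurable_pi_apply _).ennreal_ofReal
      _ = (Fintype.card ((j : Fin k) → Fin (S j).length) : ℝ≥0∞) * ((m:ℝ≥0∞) ^ p * mom G k p) := by
          rw [Finset.sum_const, Finset.card_univ, nsmul_eq_mul]
      _ ≤ ((m:ℝ≥0∞) ^ k) * ((m:ℝ≥0∞) ^ p * mom G k p) := by
          gcongr
          rw [Fintype.card_pi]
          simp only [Fintype.card_fin]
          have : ∏ j : Fin k, (S j).length ≤ m ^ k := by
            calc ∏ j : Fin k, (S j).length ≤ ∏ _j : Fin k, m :=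
                  Finset.prod_le_prod' fun j _ => hm j
              _ = m ^ k := by simp
          exact_mod_cast this
      _ = _ := by ring

end Crest.Agent.R151.M51
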