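import Mathlib
import Crest.Agent.R151.K1a
import Crest.Agent.R151.M51A

/-!
# R151, block MOM (helper51), part B: explicit edge-disjoint walks between neighbours
-/

set_option autoImplicit false

open MeasureTheory ProbabilityTheory
open scoped ENNReal
open Crest.ProbabilityR.FirstPassage
open Crest.Agent.R151.K

namespace Crest.Agent.R151.M51

lemma adj_iff {a b c d : ℤ} : squareLattice.Adj (a, b) (c, d) ↔
    (a = c ∧ (d = b + 1 ∨ b = d + 1)) ∨ (b = d ∧ (c = a + 1 ∨ a = c + 1)) := by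
  rw [squareLattice, SimpleGraph.fromRel_adj]
  constructor
  · rintro ⟨-, h⟩
    rcases h with (h | h) | (h | h) <;> simp only at h <;> omega
  · intro h
    refine ⟨?_, ?_⟩
    · intro h'
      rw [Prod.mk.injEq] at h'
      omega
    · simp only
      omega

/-- direct walk -/
def wH0 (a b : ℤ) : squareLattice.Walk (a, b) (a + 1, b) :=
  .cons (adj_right a b) .nil

/-- above -/
def wHU (a b : ℤ) : squareLattice.Walk (a, b) (a + 1, b) :=
  .cons (v := (a, b + 1)) (adj_iff.2 (by omega)) <|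
  .cons (v := (a + 1, b + 1)) (adj_iff.2 (by omega)) <|
  .cons (adj_iff.2 (by omega)) .nil

/-- below -/
def wHD (a b : ℤ) : squareLattice.Walk (a, b) (a + 1, b) :=
  .cons (v := (a, b - 1)) (adj_iff.2 (by omega)) <|
  .cons (v := (a + 1, b - 1)) (adj_iff.2 (by omega)) <|
  .cons (adj_iff.2 (by omega)) .nil

/-- far above -/
def wHU2 (a b : ℤ) : squareLattice.Walk (a, b) (a + 1, b) :=
  .cons (v := (a - 1, b)) (adj_iff.2 (by omega)) <|
  .cons (v := (a - 1, b + 1)) (adj_iff.2 (by omega)) <|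
  .cons (v := (a - 1, b + 2)) (adj_iff.2 (by omega)) <|
  .cons (v := (a, b + 2)) (adj_iff.2 (by omega)) <|
  .cons (v := (a + 1, b + 2)) (adj_iff.2 (by omega)) <|
  .cons (v := (a + 2, b + 2)) (adj_iff.2 (by omega)) <|
  .cons (v := (a + 2, b + 1)) (adj_iff.2 (by omega)) <|
  .cons (v := (a + 2, b)) (adj_iff.2 (by omega)) <|
  .cons (adj_iff.2 (by omega)) .nil

/-- far below -/
def wHD2 (a b : ℤ) : squareLattice.Walk (a, b) (a + 1, b) :=
  .cons (v := (a - 1, b)) (adj_iff.2 (by omega)) <|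
  .cons (v := (a - 1, b - 1)) (adj_iff.2 (by omega)) <|
  .cons (v := (a - 1, b - 2)) (adj_iff.2 (by omega)) <|
  .cons (v := (a, b - 2)) (adj_iff.2 (by omega)) <|
  .cons (v := (a + 1, b - 2)) (adj_iff.2 (by omega)) <|
  .cons (v := (a + 2, b - 2)) (adj_iff.2 (by omega)) <|
  .cons (v := (a + 2, b - 1)) (adj_iff.2 (by omega)) <|
  .cons (v := (a + 2, b)) (adj_iff.2 (by omega)) <|
  .cons (adj_iff.2 (by omega)) .nil

/-- the mirror image (swap of the coordinates) of a walk -/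
def wsw {x y : ℤ × ℤ} (w : squareLattice.Walk x y) :
    squareLattice.Walk (x.2, x.1) (y.2, y.1) :=
  w.map sw.toHom

/-- four edge-disjoint walks from `(a,b)` to `(a+1,b)` -/
def w4 (a b : ℤ) : Fin 4 → squareLattice.Walk (a, b) (a + 1, b) :=
  ![wH0 a b, wHU a b, wHD a b, wHU2 a b]

/-- three edge-disjoint walks in the strip `b ≤ y ≤ b + 2` -/
def w3U (a b : ℤ) : Fin 3 → squareLattice.Walk (a, b) (a + 1, b) :=
  ![wH0 a b, wHU a b, wHU2 a b]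

/-- three edge-disjoint walks in the strip `b - 2 ≤ y ≤ b` -/
def w3D (a b : ℤ) : Fin 3 → squareLattice.Walk (a, b) (a + 1, b) :=
  ![wH0 a b, wHD a b, wHD2 a b]

/-- three edge-disjoint walks in the box `a ≤ x ≤ a + 1`, `b - 1 ≤ y ≤ b + 1` -/
def w3M (a b : ℤ) : Fin 3 → squareLattice.Walk (a, b) (a + 1, b) :=
  ![wH0 a b, wHU a b, wHD a b]

lemma w4_disj (a b : ℤ) : ∀ i j, i ≠ j → (w4 a b i).edges.Disjoint (w4 a b j).edges := by
  intro i j hij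
  fin_cases i <;> fin_cases j <;>
    first
      | exact absurd rfl hij
      | (simp [w4, wH0, wHU, wHD, wHU2, List.Disjoint]
         try omega)

lemma w3U_disj (a b : ℤ) : ∀ i j, i ≠ j → (w3U a b i).edges.Disjoint (w3U a b j).edges := by
  intro i j hij
  fin_cases i <;> fin_cases j <;>
    first
      | exact absurd rfl hij
      | (simp [w3U, wH0, wHU, wHU2, List.Disjoint]
         try omega)

lemma w3D_disj (a b : ℤ) : ∀ i j, i ≠ j → (w3D a b i).edges.Disjoint (w3D a b j).edges := by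
  intro i j hij
  fin_cases i <;> fin_cases j <;>
    first
      | exact absurd rfl hij
      | (simp [w3D, wH0, wHD, wHD2, List.Disjoint]
         try omega)

lemma w3M_disj (a b : ℤ) : ∀ i j, i ≠ j → (w3M a b i).edges.Disjoint (w3M a b j).edges := by
  intro i j hij
  fin_cases i <;> fin_cases j <;>
    first
      | exact absurd rfl hij
      | (simp [w3M, wH0, wHU, wHD, List.Disjoint]
         try omega)

lemma w4_supp (a b : ℤ) (i : Fin 4) : ∀ z ∈ (w4 a b i).support,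
    (a - 1 ≤ z.1 ∧ z.1 ≤ a + 2) ∧ (b - 1 ≤ z.2 ∧ z.2 ≤ b + 2) := by
  rintro ⟨z1, z2⟩ hz
  fin_cases i <;> simp [w4, wH0, wHU, wHD, wHU2] at hz ⊢ <;> omega

lemma w3U_supp (a b : ℤ) (i : Fin 3) : ∀ z ∈ (w3U a b i).support,
    (a - 1 ≤ z.1 ∧ z.1 ≤ a + 2) ∧ (b ≤ z.2 ∧ z.2 ≤ b + 2) := by
  rintro ⟨z1, z2⟩ hz
  fin_cases i <;> simp [w3U, wH0, wHU, wHU2] at hz ⊢ <;> omega

lemma w3D_supp (a b : ℤ) (i : Fin 3) : ∀ z ∈ (w3D a b i).support,
    (a - 1 ≤ z.1 ∧ z.1 ≤ a + 2) ∧ (b - 2 ≤ z.2 ∧ z.2 ≤ b) := by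
  rintro ⟨z1, z2⟩ hz
  fin_cases i <;> simp [w3D, wH0, wHD, wHD2] at hz ⊢ <;> omega

lemma w3M_supp (a b : ℤ) (i : Fin 3) : ∀ z ∈ (w3M a b i).support,
    (a ≤ z.1 ∧ z.1 ≤ a + 1) ∧ (b - 1 ≤ z.2 ∧ z.2 ≤ b + 1) := by
  rintro ⟨z1, z2⟩ hz
  fin_cases i <;> simp [w3M, wH0, wHU, wHD] at hz ⊢ <;> omega

lemma w4_len (a b : ℤ) (i : Fin 4) : (w4 a b i).length ≤ 9 := by
  fin_cases i <;> simp [w4, wH0, wHU, wHD, wHU2]

lemma w3U_len (a b : ℤ) (i : Fin 3) : (w3U a b i).length ≤ 9 := by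
  fin_cases i <;> simp [w3U, wH0, wHU, wHU2]

lemma w3D_len (a b : ℤ) (i : Fin 3) : (w3D a b i).length ≤ 9 := by
  fin_cases i <;> simp [w3D, wH0, wHD, wHD2]

lemma w3M_len (a b : ℤ) (i : Fin 3) : (w3M a b i).length ≤ 9 := by
  fin_cases i <;> simp [w3M, wH0, wHU, wHD]

/-- `k` edge-disjoint walks of length at most `9` from `x` to `y` inside the region `R` -/
def HasDetours (k : ℕ) (x y : ℤ × ℤ) (R : Set (ℤ × ℤ)) : Prop :=
  ∃ W : Fin k → squareLattice.Walk x y,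
    (∀ i j, i ≠ j → (W i).edges.Disjoint (W j).edges) ∧ (∀ i, (W i).length ≤ 9) ∧
      ∀ i, ∀ z ∈ (W i).support, z ∈ R

lemma HasDetours.mono {k : ℕ} {x y : ℤ × ℤ} {R R' : Set (ℤ × ℤ)} (h : HasDetours k x y R)
    (hR : R ⊆ R') : HasDetours k x y R' := by
  obtain ⟨W, h1, h2, h3⟩ := h
  exact ⟨W, h1, h2, fun i z hz => hR (h3 i z hz)⟩

lemma HasDetours.symm {k : ℕ} {x y : ℤ × ℤ} {R : Set (ℤ × ℤ)} (h : HasDetours k x y R) :
    HasDetours k y x R := by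
  obtain ⟨W, h1, h2, h3⟩ := h
  refine ⟨fun i => (W i).reverse, ?_, ?_, ?_⟩
  · intro i j hij e he he'
    rw [SimpleGraph.Walk.edges_reverse, List.mem_reverse] at he he'
    exact h1 i j hij he he'
  · intro i; rw [SimpleGraph.Walk.length_reverse]; exact h2 i
  · intro i z hz
    rw [SimpleGraph.Walk.support_reverse, List.mem_reverse] at hz
    exact h3 i z hz

lemma HasDetours.map {k : ℕ} {x y : ℤ × ℤ} {R : Set (ℤ × ℤ)} (h : HasDetours k x y R)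
    (φ : squareLattice ≃g squareLattice) : HasDetours k (φ x) (φ y) (φ '' R) := by
  obtain ⟨W, h1, h2, h3⟩ := h
  refine ⟨fun i => (W i).map φ.toHom, ?_, ?_, ?_⟩
  · intro i j hij e he he'
    simp only [SimpleGraph.Walk.edges_map, List.mem_map] at he he'
    obtain ⟨f, hf, hfe⟩ := he
    obtain ⟨g, hg, hge⟩ := he'
    have : f = g := by
      apply Sym2.map.injective (f := φ.toHom) φ.injective
      rw [hfe]; exact hge.symm
    exact h1 i j hij hf (this ▸ hg)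
  · intro i; rw [SimpleGraph.Walk.length_map]; exact h2 i
  · intro i z hz
    rw [SimpleGraph.Walk.support_map, List.mem_map] at hz
    obtain ⟨z', hz', rfl⟩ := hz
    exact ⟨z', h3 i z' hz', rfl⟩

/-- the neighbours of a lattice point -/
lemma adj_cases {x y : ℤ × ℤ} (h : squareLattice.Adj x y) :
    y = (x.1 + 1, x.2) ∨ x = (y.1 + 1, y.2) ∨ y = (x.1, x.2 + 1) ∨ x = (y.1, y.2 + 1) := by
  obtain ⟨a, b⟩ := x
  obtain ⟨c, d⟩ := y
  rw [adj_iff] at h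
  simp only [Prod.mk.injEq]
  omega

/-- sup-norm box of radius `r` around `x` -/
def sbox (x : ℤ × ℤ) (r : ℤ) : Set (ℤ × ℤ) :=
  {z | |z.1 - x.1| ≤ r ∧ |z.2 - x.2| ≤ r}

/-- full plane: `4` detours -/
theorem detours_full {x y : ℤ × ℤ} (h : squareLattice.Adj x y) : HasDetours 4 x y (sbox x 3) := by
  have key : ∀ a b : ℤ, HasDetours 4 (a, b) (a + 1, b)
      {z | (a - 1 ≤ z.1 ∧ z.1 ≤ a + 2) ∧ (b - 1 ≤ z.2 ∧ z.2 ≤ b + 2)} :=
    fun a b => ⟨w4 a b, w4_disj a b, w4_len a b, w4_supp a b⟩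
  rcases adj_cases h with h | h | h | h
  · rw [h]
    refine (key x.1 x.2).mono ?_
    rintro ⟨z1, z2⟩ hz
    simp only [Set.mem_ofPred_eq, sbox, abs_le] at hz ⊢
    omega
  · rw [h]
    refine (key y.1 y.2).symm.mono ?_
    rintro ⟨z1, z2⟩ hz
    simp only [Set.mem_ofPred_eq, sbox, abs_le] at hz ⊢
    omega
  · rw [h]
    refine ((key x.2 x.1).map sw).mono ?_
    rintro _ ⟨⟨z1, z2⟩, hz, rfl⟩
    simp only [Set.mem_ofPred_eq, sbox, abs_le, sw_apply] at hz ⊢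
    omega
  · rw [h]
    refine ((key y.2 y.1).map sw).symm.mono ?_
    rintro _ ⟨⟨z1, z2⟩, hz, rfl⟩
    simp only [Set.mem_ofPred_eq, sbox, abs_le, sw_apply] at hz ⊢
    omega

/-- horizontal strips / half-planes `{z | z.2 ∈ B}`, `B` order connected with three
consecutive elements around each of its points: `3` detours -/
theorem detours_row {B : Set ℤ}
    (hB : ∀ b ∈ B, (b - 1 ∈ B ∧ b + 1 ∈ B) ∨ (b + 1 ∈ B ∧ b + 2 ∈ B) ∨ (b - 1 ∈ B ∧ b - 2 ∈ B))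
    {x y : ℤ × ℤ} (h : squareLattice.Adj x y) (hx : x.2 ∈ B) (hy : y.2 ∈ B) :
    HasDetours 3 x y (sbox x 3 ∩ {z | z.2 ∈ B}) := by
  have keyH : ∀ a b : ℤ, b ∈ B → HasDetours 3 (a, b) (a + 1, b)
      {z | ((a - 1 ≤ z.1 ∧ z.1 ≤ a + 2) ∧ (b - 2 ≤ z.2 ∧ z.2 ≤ b + 2)) ∧ z.2 ∈ B} := by
    intro a b hb
    rcases hB b hb with h | h | h
    · refine HasDetours.mono ⟨w3M a b, w3M_disj a b, w3M_len a b, w3M_supp a b⟩ ?_
      rintro ⟨z1, z2⟩ hz
      change (a ≤ z1 ∧ z1 ≤ a + 1) ∧ (b - 1 ≤ z2 ∧ z2 ≤ b + 1) at hz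
      refine ⟨by simp only; omega, ?_⟩
      have : z2 = b - 1 ∨ z2 = b ∨ z2 = b + 1 := by omega
      rcases this with h' | h' | h' <;> simp only [h'] <;> tauto
    · refine HasDetours.mono ⟨w3U a b, w3U_disj a b, w3U_len a b, w3U_supp a b⟩ ?_
      rintro ⟨z1, z2⟩ hz
      change (a - 1 ≤ z1 ∧ z1 ≤ a + 2) ∧ (b ≤ z2 ∧ z2 ≤ b + 2) at hz
      refine ⟨by simp only; omega, ?_⟩
      have : z2 = b ∨ z2 = b + 1 ∨ z2 = b + 2 := by omega
      rcases this with h' | h' | h' <;> simp only [h'] <;> tauto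
    · refine HasDetours.mono ⟨w3D a b, w3D_disj a b, w3D_len a b, w3D_supp a b⟩ ?_
      rintro ⟨z1, z2⟩ hz
      change (a - 1 ≤ z1 ∧ z1 ≤ a + 2) ∧ (b - 2 ≤ z2 ∧ z2 ≤ b) at hz
      refine ⟨by simp only; omega, ?_⟩
      have : z2 = b ∨ z2 = b - 1 ∨ z2 = b - 2 := by omega
      rcases this with h' | h' | h' <;> simp only [h'] <;> tauto
  have keyV : ∀ a b : ℤ, b ∈ B → b + 1 ∈ B → HasDetours 3 (a, b) (a, b + 1)
      {z | ((a - 1 ≤ z.1 ∧ z.1 ≤ a + 1) ∧ (b ≤ z.2 ∧ z.2 ≤ b + 1)) ∧ z.2 ∈ B} := by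
    intro a b hb hb'
    have h0 : HasDetours 3 (b, a) (b + 1, a)
      {z | (b ≤ z.1 ∧ z.1 ≤ b + 1) ∧ (a - 1 ≤ z.2 ∧ z.2 ≤ a + 1)} :=
      ⟨w3M b a, w3M_disj b a, w3M_len b a, w3M_supp b a⟩
    refine (h0.map sw).mono ?_
    rintro _ ⟨⟨z1, z2⟩, hz, rfl⟩
    change (b ≤ z1 ∧ z1 ≤ b + 1) ∧ (a - 1 ≤ z2 ∧ z2 ≤ a + 1) at hz
    simp only [sw_apply]
    refine ⟨by simp only; omega, ?_⟩
    have : z1 = b ∨ z1 = b + 1 := by omega
    rcases this with h' | h' <;> simp only [h'] <;> assumption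
  rcases adj_cases h with h | h | h | h
  · rw [h]
    refine (keyH x.1 x.2 hx).mono ?_
    rintro ⟨z1, z2⟩ ⟨hz, hz'⟩
    refine ⟨?_, hz'⟩
    simp only [sbox, Set.mem_ofPred_eq, abs_le] at hz ⊢
    omega
  · rw [h]
    refine (keyH y.1 y.2 hy).symm.mono ?_
    rintro ⟨z1, z2⟩ ⟨hz, hz'⟩
    refine ⟨?_, hz'⟩
    simp only [sbox, Set.mem_ofPred_eq, abs_le] at hz ⊢
    omega
  · rw [h]
    refine (keyV x.1 x.2 hx (by rw [h] at hy; exact hy)).mono ?_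
    rintro ⟨z1, z2⟩ ⟨hz, hz'⟩
    refine ⟨?_, hz'⟩
    simp only [sbox, Set.mem_ofPred_eq, abs_le] at hz ⊢
    omega
  · rw [h]
    refine (keyV y.1 y.2 hy (by rw [h] at hx; exact hx)).symm.mono ?_
    rintro ⟨z1, z2⟩ ⟨hz, hz'⟩
    refine ⟨?_, hz'⟩
    simp only [sbox, Set.mem_ofPred_eq, abs_le] at hz ⊢
    omega

/-- vertical strips / half-planes `{z | z.1 ∈ A}`: `3` detours -/
theorem detours_col {A : Set ℤ}
    (hA : ∀ b ∈ A, (b - 1 ∈ A ∧ b + 1 ∈ A) ∨ (b + 1 ∈ A ∧ b + 2 ∈ A) ∨ (b - 1 ∈ A ∧ b - 2 ∈ A))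
    {x y : ℤ × ℤ} (h : squareLattice.Adj x y) (hx : x.1 ∈ A) (hy : y.1 ∈ A) :
    HasDetours 3 x y (sbox x 3 ∩ {z | z.1 ∈ A}) := by
  have h1 : squareLattice.Adj (sw x) (sw y) := sw.map_adj_iff.2 h
  have h2 := (detours_row hA h1 hx hy).map sw
  have e1 : sw (sw x) = x := rfl
  have e2 : sw (sw y) = y := rfl
  rw [e1, e2] at h2
  refine h2.mono ?_
  rintro _ ⟨⟨z1, z2⟩, ⟨hz, hz'⟩, rfl⟩
  refine ⟨?_, hz'⟩
  simp only [sbox, Set.mem_ofPred_eq, sw_apply] at hz ⊢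
  exact ⟨hz.2, hz.1⟩

/-- moment bound from detours: `f` is dominated by the cost of every walk inside `R` -/
theorem lintegral_le_of_detours (G : Measure ℝ) [IsProbabilityMeasure G] {k : ℕ} [NeZero k]
    {p : ℝ} (hp : 0 < p) {x y : ℤ × ℤ} {R : Set (ℤ × ℤ)} (h : HasDetours k x y R)
    {f : Environment → ℝ}
    (hf : ∀ᵐ t ∂(iidLaw G), ∀ w : squareLattice.Walk x y, (∀ z ∈ w.support, z ∈ R) →
      f t ≤ walkCost t w) :
    ∫⁻ t, ENNReal.ofReal (f t) ^ p ∂(iidLaw G)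
      ≤ (9:ℝ≥0∞) ^ p * (9:ℝ≥0∞) ^ k * mom G k p := by
  obtain ⟨W, h1, h2, h3⟩ := h
  have h4 := lintegral_min_lists_le G hp 9 (fun i => (W i).edges) h1
    (fun i => by rw [SimpleGraph.Walk.length_edges]; exact h2 i)
  refine le_trans ?_ h4
  apply lintegral_mono_ae
  filter_upwards [hf] with t ht
  apply ENNReal.rpow_le_rpow _ hp.le
  apply le_iInf
  intro i
  apply ENNReal.ofReal_le_ofReal
  exact ht (W i) (h3 i)

end Crest.Agent.R151.M51
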