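import Mathlib
import Crest.Agent.R151.K1b
import Crest.Agent.R151.M51B

/-!
# R151, block MOM (helper51), part C: `L^p` bounds for (restricted) passage times, general law
-/

set_option autoImplicit false

open MeasureTheory ProbabilityTheory
open scoped ENNReal
open Crest.ProbabilityR.FirstPassage
open Crest.Agent.R151.K

namespace Crest.Agent.R151.M51

/-- a random distance-like function on the region `R`, dominated by the cost of the walks
inside `R`: satisfied by `passageTime` (`R = univ`) and by all restricted passage times. -/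
structure IsDist (G : Measure ℝ) (R : Set (ℤ × ℤ)) (D : Environment → ℤ × ℤ → ℤ × ℤ → ℝ) :
    Prop where
  meas : ∀ x y, AEStronglyMeasurable (fun t => D t x y) (iidLaw G)
  nonneg : ∀ᵐ t ∂(iidLaw G), ∀ x ∈ R, ∀ y ∈ R, 0 ≤ D t x y
  tri : ∀ᵐ t ∂(iidLaw G), ∀ x ∈ R, ∀ y ∈ R, ∀ z ∈ R, D t x z ≤ D t x y + D t y z
  dom : ∀ᵐ t ∂(iidLaw G), ∀ x y, ∀ w : squareLattice.Walk x y, (∀ z ∈ w.support, z ∈ R) →
    D t x y ≤ walkCost t w

lemma isDist_pt {G : Measure ℝ} [IsProbabilityMeasure G] (h0 : G (Set.Iio 0) = 0) :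
    IsDist G Set.univ passageTime where
  meas x y := (measurable_pt x y).aestronglyMeasurable
  nonneg := by
    filter_upwards [ae_Nn h0] with t ht x _ y _
    exact pt_nonneg ht x y
  tri := by
    filter_upwards [ae_Nn h0] with t ht x _ y _ z _
    exact pt_triangle ht x y z
  dom := by
    filter_upwards [ae_Nn h0] with t ht x y w _
    exact pt_le ht w

/-- every pair of neighbours in `R` has `k` detours of length `≤ 9` inside `R` -/
def GoodRegion (k : ℕ) (R : Set (ℤ × ℤ)) : Prop :=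
  ∀ x ∈ R, ∀ y ∈ R, squareLattice.Adj x y → HasDetours k x y R

lemma goodRegion_univ : GoodRegion 4 Set.univ :=
  fun _ _ _ _ h => (detours_full h).mono (Set.subset_univ _)

/-- three consecutive elements around every point -/
def Thick (B : Set ℤ) : Prop :=
  ∀ b ∈ B, (b - 1 ∈ B ∧ b + 1 ∈ B) ∨ (b + 1 ∈ B ∧ b + 2 ∈ B) ∨ (b - 1 ∈ B ∧ b - 2 ∈ B)

lemma goodRegion_row {B : Set ℤ} (hB : Thick B) : GoodRegion 3 {z : ℤ × ℤ | z.2 ∈ B} :=
  fun _ hx _ hy h => (detours_row hB h hx hy).mono Set.inter_subset_right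

lemma goodRegion_col {A : Set ℤ} (hA : Thick A) : GoodRegion 3 {z : ℤ × ℤ | z.1 ∈ A} :=
  fun _ hx _ hy h => (detours_col hA h hx hy).mono Set.inter_subset_right

lemma thick_univ : Thick Set.univ := fun _ _ => Or.inl ⟨trivial, trivial⟩

lemma thick_Ici (a : ℤ) : Thick (Set.Ici a) := by
  intro b hb
  refine Or.inr (Or.inl ⟨?_, ?_⟩) <;> simp only [Set.mem_Ici] at hb ⊢ <;> omega

lemma thick_Iic (a : ℤ) : Thick (Set.Iic a) := by
  intro b hb
  refine Or.inr (Or.inr ⟨?_, ?_⟩) <;> simp only [Set.mem_Iic] at hb ⊢ <;> omega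

lemma thick_Icc {a c : ℤ} (h : a + 2 ≤ c) : Thick (Set.Icc a c) := by
  intro b hb
  simp only [Set.mem_Icc] at hb ⊢
  omega

/-- the constant of the bounds below -/
noncomputable def mC (G : Measure ℝ) (k : ℕ) (p : ℝ) : ℝ≥0∞ :=
  ((9:ℝ≥0∞) ^ p * (9:ℝ≥0∞) ^ k * mom G k p) ^ (1 / p)

lemma mC_lt_top {G : Measure ℝ} {k : ℕ} {p : ℝ} (hp : 0 < p) (h : mom G k p < ⊤) :
    mC G k p < ⊤ := by
  unfold mC
  apply ENNReal.rpow_lt_top_of_nonneg (by positivity)
  apply ne_of_lt
  refine ENNReal.mul_lt_top (ENNReal.mul_lt_top ?_ ?_) h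
  · exact ENNReal.rpow_lt_top_of_nonneg hp.le (by norm_num)
  · exact ENNReal.pow_lt_top (by norm_num)

variable {G : Measure ℝ} [IsProbabilityMeasure G] {k : ℕ} [NeZero k] {p : ℝ}
  {R : Set (ℤ × ℤ)} {D : Environment → ℤ × ℤ → ℤ × ℤ → ℝ}

lemma eLpNorm_adj (hp : 0 < p) (hD : IsDist G R D) (hR : GoodRegion k R) {x y : ℤ × ℤ}
    (hx : x ∈ R) (hy : y ∈ R) (h : squareLattice.Adj x y) :
    eLpNorm (fun t => D t x y) (ENNReal.ofReal p) (iidLaw G) ≤ mC G k p := by
  have h1 := lintegral_le_of_detours G hp (hR x hx y hy h) (f := fun t => D t x y) (by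
    filter_upwards [hD.dom] with t ht w hw
    exact ht x y w hw)
  rw [eLpNorm_eq_lintegral_rpow_enorm_toReal (by simpa using hp) ENNReal.ofReal_ne_top,
    ENNReal.toReal_ofReal hp.le]
  unfold mC
  apply ENNReal.rpow_le_rpow _ (by positivity)
  refine le_trans (le_of_eq ?_) h1
  apply lintegral_congr_ae
  filter_upwards [hD.nonneg] with t ht
  rw [Real.enorm_eq_ofReal (ht x hx y hy)]

/-- `‖D x y‖_p ≤ C (length of a walk from x to y inside R)` -/
theorem eLpNorm_walk (hp : 1 ≤ p) (hD : IsDist G R D) (hR : GoodRegion k R) {x y : ℤ × ℤ}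
    (w : squareLattice.Walk x y) (hw : ∀ z ∈ w.support, z ∈ R) (hw0 : x ≠ y ∨ 0 < w.length) :
    eLpNorm (fun t => D t x y) (ENNReal.ofReal p) (iidLaw G) ≤ w.length * mC G k p := by
  have hp0 : 0 < p := by linarith
  have main : ∀ (n : ℕ) (x y : ℤ × ℤ) (w : squareLattice.Walk x y), w.length = n + 1 →
      (∀ z ∈ w.support, z ∈ R) →
      eLpNorm (fun t => D t x y) (ENNReal.ofReal p) (iidLaw G) ≤ (n + 1 : ℕ) * mC G k p := by
    intro n
    induction n with
    | zero =>
      intro x y w hn hw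
      cases w with
      | nil => simp at hn
      | cons h w' =>
        cases w' with
        | nil =>
          rw [zero_add, Nat.cast_one, one_mul]
          exact eLpNorm_adj hp0 hD hR (hw _ (by simp)) (hw _ (by simp)) h
        | cons h' w'' => simp at hn
    | succ n ih =>
      intro x y w hn hw
      cases w with
      | nil => simp at hn
      | @cons _ v _ h w' =>
        have hx : x ∈ R := hw _ (by simp)
        have hv : v ∈ R := hw _ (by simp)
        have hy : y ∈ R := hw _ (by simp)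
        have h1 := ih v y w' (by simpa using hn) (fun z hz => hw z (by simp [hz]))
        have h2 := eLpNorm_adj hp0 hD hR hx hv h
        calc eLpNorm (fun t => D t x y) (ENNReal.ofReal p) (iidLaw G)
            ≤ eLpNorm ((fun t => D t x v) + (fun t => D t v y)) (ENNReal.ofReal p) (iidLaw G) := by
              apply eLpNorm_mono_ae
              filter_upwards [hD.nonneg, hD.tri] with t ht ht'
              rw [Real.norm_of_nonneg (ht x hx y hy), Pi.add_apply]
              exact (ht' x hx v hv y hy).trans (le_abs_self _)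
          _ ≤ eLpNorm (fun t => D t x v) (ENNReal.ofReal p) (iidLaw G) +
              eLpNorm (fun t => D t v y) (ENNReal.ofReal p) (iidLaw G) :=
              eLpNorm_add_le (hD.meas x v) (hD.meas v y) (by
                rw [← ENNReal.ofReal_one]; exact ENNReal.ofReal_le_ofReal hp)
          _ ≤ mC G k p + (n + 1 : ℕ) * mC G k p := add_le_add h2 h1
          _ = _ := by push_cast; ring
  obtain ⟨n, hn⟩ : ∃ n, w.length = n + 1 := by
    cases w with
    | nil => simp at hw0
    | cons h w' => exact ⟨w'.length, by simp⟩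
  rw [hn]
  exact main n x y w hn hw

/-- L-shaped walks -/
lemma exists_walk_row (a b c : ℤ) : ∃ w : squareLattice.Walk (a, b) (c, b),
    w.length = (c - a).natAbs ∧ ∀ z ∈ w.support, z.2 = b ∧ min a c ≤ z.1 ∧ z.1 ≤ max a c := by
  have key : ∀ n : ℕ, ∀ a : ℤ, ∃ w : squareLattice.Walk (a, b) (a + n, b),
      w.length = n ∧ ∀ z ∈ w.support, z.2 = b ∧ a ≤ z.1 ∧ z.1 ≤ a + n := by
    intro n
    induction n with
    | zero =>
      intro a
      refine ⟨(SimpleGraph.Walk.nil : squareLattice.Walk (a, b) (a, b)).copy rfl (by simp), ?_, ?_⟩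
      · simp
      · intro z hz
        simp only [SimpleGraph.Walk.support_copy, SimpleGraph.Walk.support_nil,
          List.mem_singleton] at hz
        subst hz; simp
    | succ n ih =>
      intro a
      obtain ⟨w, hw, hs⟩ := ih (a + 1)
      refine ⟨(SimpleGraph.Walk.cons (adj_right a b) w).copy rfl (by
        rw [Prod.mk.injEq]; push_cast; constructor <;> [ring; rfl]), ?_, ?_⟩
      · simp [hw]
      · intro z hz
        simp only [SimpleGraph.Walk.support_copy, SimpleGraph.Walk.support_cons,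
          List.mem_cons] at hz
        rcases hz with rfl | hz
        · simp; omega
        · have := hs z hz
          push_cast
          omega
  rcases le_total a c with h | h
  · obtain ⟨w, hw, hs⟩ := key (c - a).toNat a
    have e : a + ((c - a).toNat : ℤ) = c := by omega
    refine ⟨w.copy rfl (by rw [e]), ?_, ?_⟩
    · simp only [SimpleGraph.Walk.length_copy, hw]; omega
    · intro z hz
      simp only [SimpleGraph.Walk.support_copy] at hz
      have := hs z hz
      omega
  · obtain ⟨w, hw, hs⟩ := key (a - c).toNat c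
    have e : c + ((a - c).toNat : ℤ) = a := by omega
    refine ⟨(w.copy rfl (by rw [e])).reverse, ?_, ?_⟩
    · simp only [SimpleGraph.Walk.length_reverse, SimpleGraph.Walk.length_copy, hw]; omega
    · intro z hz
      simp only [SimpleGraph.Walk.support_reverse, List.mem_reverse,
        SimpleGraph.Walk.support_copy] at hz
      have := hs z hz
      omega

lemma exists_walk_col (a b d : ℤ) : ∃ w : squareLattice.Walk (a, b) (a, d),
    w.length = (d - b).natAbs ∧ ∀ z ∈ w.support, z.1 = a ∧ min b d ≤ z.2 ∧ z.2 ≤ max b d := by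
  obtain ⟨w, hw, hs⟩ := exists_walk_row b a d
  have e1 : sw.toHom (b, a) = (a, b) := rfl
  have e2 : sw.toHom (d, a) = (a, d) := rfl
  refine ⟨(w.map sw.toHom).copy e1 e2, by
    rw [SimpleGraph.Walk.length_copy, SimpleGraph.Walk.length_map]; exact hw, ?_⟩
  intro z hz
  rw [SimpleGraph.Walk.support_copy, SimpleGraph.Walk.support_map, List.mem_map] at hz
  obtain ⟨z', hz', rfl⟩ := hz
  exact hs z' hz'

/-- a walk of length `|y - x|_1` inside every product of order connected sets -/
lemma exists_walk_prod {A B : Set ℤ} (hA : A.OrdConnected) (hB : B.OrdConnected)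
    {x y : ℤ × ℤ} (hx : x.1 ∈ A ∧ x.2 ∈ B) (hy : y.1 ∈ A ∧ y.2 ∈ B) :
    ∃ w : squareLattice.Walk x y, w.length = n1 (y - x) ∧
      ∀ z ∈ w.support, z.1 ∈ A ∧ z.2 ∈ B := by
  obtain ⟨w, hw, hs⟩ := exists_walk_row x.1 x.2 y.1
  obtain ⟨w', hw', hs'⟩ := exists_walk_col y.1 x.2 y.2
  refine ⟨w.append w', ?_, ?_⟩
  · rw [SimpleGraph.Walk.length_append, hw, hw', n1]; rfl
  · intro z hz
    rw [SimpleGraph.Walk.mem_support_append_iff] at hz
    rcases hz with hz | hz
    · obtain ⟨h1, h2, h3⟩ := hs z hz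
      refine ⟨?_, by rw [h1]; exact hx.2⟩
      rcases le_total x.1 y.1 with h | h
      · exact hA.out hx.1 hy.1 ⟨by omega, by omega⟩
      · exact hA.out hy.1 hx.1 ⟨by omega, by omega⟩
    · obtain ⟨h1, h2, h3⟩ := hs' z hz
      refine ⟨by rw [h1]; exact hy.1, ?_⟩
      rcases le_total x.2 y.2 with h | h
      · exact hB.out hx.2 hy.2 ⟨by omega, by omega⟩
      · exact hB.out hy.2 hx.2 ⟨by omega, by omega⟩

omit [NeZero k] in
lemma n1_pos {x y : ℤ × ℤ} (h : x ≠ y) : 0 < n1 (y - x) := by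
  rcases Nat.eq_zero_or_pos (n1 (y - x)) with h0 | h0
  · exfalso
    apply h
    simp only [n1, Prod.fst_sub, Prod.snd_sub] at h0
    ext <;> omega
  · exact h0

/-- `L^p` bound in a half-plane or strip with horizontal boundary -/
theorem eLpNorm_row (hp : 1 ≤ p) {B : Set ℤ} (hB : Thick B) (hB' : B.OrdConnected)
    (hD : IsDist G {z : ℤ × ℤ | z.2 ∈ B} D) {x y : ℤ × ℤ} (hx : x.2 ∈ B) (hy : y.2 ∈ B)
    (hxy : x ≠ y) :
    eLpNorm (fun t => D t x y) (ENNReal.ofReal p) (iidLaw G) ≤ n1 (y - x) * mC G 3 p := by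
  obtain ⟨w, hw, hs⟩ := exists_walk_prod (A := Set.univ) Set.ordConnected_univ hB'
    (x := x) (y := y) ⟨trivial, hx⟩ ⟨trivial, hy⟩
  rw [← hw]
  exact eLpNorm_walk hp hD (goodRegion_row hB) w (fun z hz => (hs z hz).2) (Or.inl hxy)

/-- `L^p` bound in a half-plane or strip with vertical boundary -/
theorem eLpNorm_col (hp : 1 ≤ p) {A : Set ℤ} (hA : Thick A) (hA' : A.OrdConnected)
    (hD : IsDist G {z : ℤ × ℤ | z.1 ∈ A} D) {x y : ℤ × ℤ} (hx : x.1 ∈ A) (hy : y.1 ∈ A)
    (hxy : x ≠ y) :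
    eLpNorm (fun t => D t x y) (ENNReal.ofReal p) (iidLaw G) ≤ n1 (y - x) * mC G 3 p := by
  obtain ⟨w, hw, hs⟩ := exists_walk_prod (B := Set.univ) hA' Set.ordConnected_univ
    (x := x) (y := y) ⟨hx, trivial⟩ ⟨hy, trivial⟩
  rw [← hw]
  exact eLpNorm_walk hp hD (goodRegion_col hA) w (fun z hz => (hs z hz).1) (Or.inl hxy)

/-- `L^p` bound in the full plane (`p = 2`, `k = 4`) -/
theorem eLpNorm_full (hp : 1 ≤ p) (hD : IsDist G Set.univ D) {x y : ℤ × ℤ} (hxy : x ≠ y) :
    eLpNorm (fun t => D t x y) (ENNReal.ofReal p) (iidLaw G) ≤ n1 (y - x) * mC G 4 p := by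
  obtain ⟨w, hw, hs⟩ := exists_walk_prod (A := Set.univ) (B := Set.univ)
    Set.ordConnected_univ Set.ordConnected_univ (x := x) (y := y)
    ⟨trivial, trivial⟩ ⟨trivial, trivial⟩
  rw [← hw]
  exact eLpNorm_walk hp hD goodRegion_univ w (fun z _ => trivial) (Or.inl hxy)

/-! ### The passage time of the full plane under the moment hypothesis of S0213 -/

/-- the law of S0213: `hG` and the moment hypothesis -/
structure Law213 (G : Measure ℝ) : Prop where
  h0 : G (Set.Iio 0) = 0
  mom : ∫⁻ x, ENNReal.ofReal ((⨅ i, x i) ^ 2) ∂(Measure.pi fun _ : Fin 4 => G) < ⊤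

theorem memLp_pt (hG : Law213 G) (x y : ℤ × ℤ) :
    MemLp (fun t => passageTime t x y) 2 (iidLaw G) := by
  refine ⟨(measurable_pt x y).aestronglyMeasurable, ?_⟩
  rcases eq_or_ne x y with rfl | hxy
  · have : (fun t => passageTime t x x) =ᵐ[iidLaw G] 0 := by
      filter_upwards [ae_Nn hG.h0] with t ht
      rw [pt_self ht]; rfl
    rw [eLpNorm_congr_ae this]; simp
  · have h := eLpNorm_full (p := 2) (by norm_num) (isDist_pt hG.h0) hxy
    have e : ENNReal.ofReal 2 = 2 := by simp
    rw [e] at h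
    refine lt_of_le_of_lt h (ENNReal.mul_lt_top (ENNReal.natCast_lt_top _) ?_)
    exact mC_lt_top (by norm_num) (mom_four_two hG.h0 hG.mom)

theorem integrable_pt' (hG : Law213 G) (x y : ℤ × ℤ) :
    Integrable (fun t => passageTime t x y) (iidLaw G) := by
  have : IsProbabilityMeasure (iidLaw G) := by unfold iidLaw; infer_instance
  exact (memLp_pt hG x y).integrable (by norm_num)

/-- `E T(x,y)^2 ≤ C |y - x|_1^2` -/
theorem exists_integral_sq_le (hG : Law213 G) : ∃ C : ℝ, 0 ≤ C ∧ ∀ x y : ℤ × ℤ,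
    ∫ t, passageTime t x y ^ 2 ∂(iidLaw G) ≤ C * (n1 (y - x) : ℝ) ^ 2 := by
  refine ⟨(mC G 4 2).toReal ^ 2, by positivity, ?_⟩
  intro x y
  rcases eq_or_ne x y with rfl | hxy
  · have : (fun t => passageTime t x x ^ 2) =ᵐ[iidLaw G] 0 := by
      filter_upwards [ae_Nn hG.h0] with t ht
      rw [pt_self ht]; simp
    rw [integral_congr_ae this]
    simp [n1]
  · have h := eLpNorm_full (p := 2) (by norm_num) (isDist_pt hG.h0) hxy
    have e : ENNReal.ofReal 2 = 2 := by simp
    rw [e] at h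
    have hm := memLp_pt hG x y
    have h1 : ∫ t, passageTime t x y ^ 2 ∂(iidLaw G) =
        ((eLpNorm (fun t => passageTime t x y) 2 (iidLaw G)).toReal) ^ 2 := by
      have h2 := hm.eLpNorm_eq_integral_rpow_norm (by norm_num) (by norm_num)
      rw [h2]
      simp only [ENNReal.toReal_ofNat, Real.rpow_ofNat, Real.norm_eq_abs, sq_abs]
      have hnn : 0 ≤ ∫ t, passageTime t x y ^ 2 ∂(iidLaw G) := integral_nonneg fun _ => sq_nonneg _
      rw [ENNReal.toReal_ofReal (by positivity), ← Real.rpow_natCast, ← Real.rpow_mul hnn]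
      norm_num
    rw [h1, ← mul_pow]
    have h3 : (eLpNorm (fun t => passageTime t x y) 2 (iidLaw G)).toReal ≤
        (mC G 4 2).toReal * n1 (y - x) := by
      have hfin : (n1 (y - x) : ℝ≥0∞) * mC G 4 2 ≠ ⊤ :=
        (ENNReal.mul_lt_top (ENNReal.natCast_lt_top _)
          (mC_lt_top (by norm_num) (mom_four_two hG.h0 hG.mom))).ne
      have := ENNReal.toReal_mono hfin h
      rw [ENNReal.toReal_mul, ENNReal.toReal_natCast] at this
      linarith
    exact pow_le_pow_left₀ ENNReal.toReal_nonneg h3 2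

end Crest.Agent.R151.M51
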