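import Crest.Agent.R151.A565e
import Crest.Agent.R151.K4a
import Crest.Agent.R151.M51C

/-!
# R151, block A (helper565): mean passage times in vertical slabs, general law
-/

set_option autoImplicit false

open MeasureTheory ProbabilityTheory Filter Topology
open Crest.ProbabilityR.FirstPassage
open Crest.Agent.R151.K Crest.Agent.R151.M51
open scoped ENNReal

namespace Crest.Agent.R151.A

/-- the slab `a ≤ x ≤ b` -/
def sl (a b : ℤ) : Set (ℤ × ℤ) := {z | z.1 ∈ Set.Icc a b}

lemma mem_sl {a b : ℤ} {z : ℤ × ℤ} : z ∈ sl a b ↔ a ≤ z.1 ∧ z.1 ≤ b := Iff.rfl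

lemma sl_mono {a b a' b' : ℤ} (ha : a' ≤ a) (hb : b ≤ b') : sl a b ⊆ sl a' b' :=
  fun _ hz => ⟨ha.trans hz.1, hz.2.trans hb⟩

lemma conn_sl {a b : ℤ} {x y : ℤ × ℤ} (hx : x ∈ sl a b) (hy : y ∈ sl a b) :
    Conn (sl a b) x y := by
  obtain ⟨w, -, hs⟩ := exists_walk_prod (A := Set.Icc a b) (B := Set.univ)
    Set.ordConnected_Icc Set.ordConnected_univ ⟨hx, trivial⟩ ⟨hy, trivial⟩
  exact ⟨w, fun z hz => (hs z hz).1⟩

variable {G : Measure ℝ} [IsProbabilityMeasure G]

lemma isDist_sl (h0 : G (Set.Iio 0) = 0) (a b : ℤ) :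
    IsDist G (sl a b) (fun t x y => pR t (sl a b) x y) where
  meas x y := (measurable_pR _ x y).aestronglyMeasurable
  nonneg := by
    filter_upwards [ae_Nn h0] with t ht x _ y _
    exact pR_nonneg ht _ _ _
  tri := by
    filter_upwards [ae_Nn h0] with t ht x hx y hy z hz
    exact pR_triangle ht (conn_sl hx hy) (conn_sl hy hz)
  dom := by
    filter_upwards [ae_Nn h0] with t ht x y w hw
    exact pR_le ht w hw

/-- mean passage time in the slab -/
noncomputable def eD (G : Measure ℝ) (a b : ℤ) (x y : ℤ × ℤ) : ℝ :=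
  ∫ t, pR t (sl a b) x y ∂(iidLaw G)

/-- the constant -/
noncomputable def C1 (G : Measure ℝ) : ℝ := (mC G 3 1).toReal

omit [IsProbabilityMeasure G] in
lemma C1_nonneg : 0 ≤ C1 G := ENNReal.toReal_nonneg

lemma sl_bound (hG : Law213 G) {a b : ℤ} (hab : a + 2 ≤ b) {x y : ℤ × ℤ} (hx : x ∈ sl a b)
    (hy : y ∈ sl a b) :
    Integrable (fun t => pR t (sl a b) x y) (iidLaw G) ∧ eD G a b x y ≤ n1 (y - x) * C1 G := by
  have hfin : mC G 3 1 < ⊤ :=
    mC_lt_top (by norm_num) (mom_lt_top (mom_four_two hG.h0 hG.mom) (by norm_num) (by norm_num))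
  rcases eq_or_ne x y with rfl | hxy
  · have h1 : (fun t => pR t (sl a b) x x) =ᵐ[iidLaw G] fun _ => 0 := by
      filter_upwards [ae_Nn hG.h0] with t ht using pR_self ht hx
    refine ⟨(integrable_zero _ _ _).congr h1.symm, ?_⟩
    unfold eD
    rw [integral_congr_ae h1]
    simp [n1]
  · have h1 := eLpNorm_col (p := 1) le_rfl (thick_Icc hab) Set.ordConnected_Icc
      (isDist_sl hG.h0 a b) hx hy hxy
    rw [ENNReal.ofReal_one] at h1
    have hfin2 : (n1 (y - x) : ℝ≥0∞) * mC G 3 1 < ⊤ :=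
      ENNReal.mul_lt_top (ENNReal.natCast_lt_top _) hfin
    have hi : Integrable (fun t => pR t (sl a b) x y) (iidLaw G) :=
      memLp_one_iff_integrable.1 ⟨(measurable_pR _ x y).aestronglyMeasurable, h1.trans_lt hfin2⟩
    refine ⟨hi, ?_⟩
    rw [eLpNorm_one_eq_lintegral_enorm] at h1
    have h2 := ENNReal.toReal_mono hfin2.ne h1
    rw [ENNReal.toReal_mul, ENNReal.toReal_natCast] at h2
    refine le_trans ?_ h2
    unfold eD
    rw [← integral_norm_eq_lintegral_enorm hi.aestronglyMeasurable]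
    exact integral_mono hi hi.norm fun t => le_abs_self _

lemma integrable_sl (hG : Law213 G) {a b : ℤ} (hab : a + 2 ≤ b) {x y : ℤ × ℤ} (hx : x ∈ sl a b)
    (hy : y ∈ sl a b) : Integrable (fun t => pR t (sl a b) x y) (iidLaw G) :=
  (sl_bound hG hab hx hy).1

lemma eD_le_n1 (hG : Law213 G) {a b : ℤ} (hab : a + 2 ≤ b) {x y : ℤ × ℤ} (hx : x ∈ sl a b)
    (hy : y ∈ sl a b) : eD G a b x y ≤ n1 (y - x) * C1 G := (sl_bound hG hab hx hy).2

lemma eD_nonneg (h0 : G (Set.Iio 0) = 0) (a b : ℤ) (x y : ℤ × ℤ) : 0 ≤ eD G a b x y := by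
  refine integral_nonneg_of_ae ?_
  filter_upwards [ae_Nn h0] with t ht using pR_nonneg ht _ _ _

lemma eD_tri (hG : Law213 G) {a b : ℤ} (hab : a + 2 ≤ b) {x y z : ℤ × ℤ} (hx : x ∈ sl a b)
    (hy : y ∈ sl a b) (hz : z ∈ sl a b) : eD G a b x z ≤ eD G a b x y + eD G a b y z := by
  unfold eD
  rw [← integral_add (integrable_sl hG hab hx hy) (integrable_sl hG hab hy hz)]
  refine integral_mono_ae (integrable_sl hG hab hx hz)
    ((integrable_sl hG hab hx hy).add (integrable_sl hG hab hy hz)) ?_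
  filter_upwards [ae_Nn hG.h0] with t ht
  exact pR_triangle ht (conn_sl hx hy) (conn_sl hy hz)

lemma eD_mono (hG : Law213 G) {a b a' b' : ℤ} (hab : a + 2 ≤ b) (ha : a' ≤ a) (hb : b ≤ b')
    {x y : ℤ × ℤ} (hx : x ∈ sl a b) (hy : y ∈ sl a b) : eD G a' b' x y ≤ eD G a b x y := by
  unfold eD
  refine integral_mono_ae (integrable_sl hG (by omega) (sl_mono ha hb hx) (sl_mono ha hb hy))
    (integrable_sl hG hab hx hy) ?_
  filter_upwards [ae_Nn hG.h0] with t ht
  exact pR_anti ht (sl_mono ha hb) (conn_sl hx hy)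

lemma eD_shift (a b : ℤ) (x y z : ℤ × ℤ) :
    eD G (a + z.1) (b + z.1) (x + z) (y + z) = eD G a b x y := by
  unfold eD
  have h1 := integral_shift (G := G) z (measurable_pR (sl a b) x y).aestronglyMeasurable
  rw [← h1]
  congr 1
  funext t
  have h2 := pR_tr t z (sl (a + z.1) (b + z.1)) x y
  rw [← h2]
  have h3 : (fun u : ℤ × ℤ => u + z) ⁻¹' sl (a + z.1) (b + z.1) = sl a b := by
    ext u
    simp [sl]
  rw [h3]
  rfl

/-- the slab passage times decrease to the passage time when the slab grows -/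
lemma eD_tendsto (hG : Law213 G) {b : ℤ} (hb : 0 ≤ b) {x y : ℤ × ℤ} (hx : x ∈ sl 0 b)
    (hy : y ∈ sl 0 b) :
    Tendsto (fun R : ℕ => eD G (-((R : ℤ) + 1)) (b + (R + 1)) x y) atTop
      (𝓝 (∫ t, passageTime t x y ∂(iidLaw G))) := by
  have hin : ∀ R : ℕ, sl 0 b ⊆ sl (-((R : ℤ) + 1)) (b + (R + 1)) := fun R =>
    sl_mono (by omega) (by omega)
  unfold eD
  refine tendsto_integral_of_dominated_convergence
    (fun t => pR t (sl (-1) (b + 1)) x y)
    (fun R => (measurable_pR _ x y).aestronglyMeasurable)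
    (integrable_sl hG (by omega) (sl_mono (by omega) (by omega) hx)
      (sl_mono (by omega) (by omega) hy)) ?_ ?_
  · intro R
    filter_upwards [ae_Nn hG.h0] with t ht
    rw [Real.norm_of_nonneg (pR_nonneg ht _ _ _)]
    exact pR_anti ht (sl_mono (by omega) (by omega))
      (conn_sl (sl_mono (by omega) (by omega) hx) (sl_mono (by omega) (by omega) hy))
  · filter_upwards [ae_Nn hG.h0] with t ht
    rw [Metric.tendsto_atTop]
    intro ε hε
    obtain ⟨w, hw⟩ := exists_walk_lt t x y (show passageTime t x y < passageTime t x y + ε by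
      linarith)
    obtain ⟨N, hN⟩ : ∃ N : ℕ, ∀ z ∈ w.support, z.1.natAbs ≤ N := by
      refine ⟨w.support.toFinset.sup (fun z => z.1.natAbs), fun z hz => ?_⟩
      exact Finset.le_sup (f := fun z : ℤ × ℤ => z.1.natAbs) (List.mem_toFinset.2 hz)
    refine ⟨N, fun R hR => ?_⟩
    have h1 : pR t (sl (-((R : ℤ) + 1)) (b + (R + 1))) x y ≤ walkCost t w := by
      refine pR_le ht w fun z hz => ?_
      have := hN z hz
      constructor <;> omega
    have h2 : passageTime t x y ≤ pR t (sl (-((R : ℤ) + 1)) (b + (R + 1))) x y :=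
      pt_le_pR ht (conn_sl (hin R hx) (hin R hy))
    rw [Real.dist_eq, abs_of_nonneg (by linarith)]
    linarith

end Crest.Agent.R151.A
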