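import Crest.Agent.R151.A565g

/-!
# R151, block A (helper565): gap crossings and the free search, general law
-/

set_option autoImplicit false

open MeasureTheory ProbabilityTheory Filter Topology
open Crest.ProbabilityR.FirstPassage
open Crest.Agent.R151.K Crest.Agent.R151.M51
open scoped ENNReal

namespace Crest.Agent.R151.A

variable {G : Measure ℝ} [IsProbabilityMeasure G]

/-- **the gap estimate** -/
theorem gapUp (hG : Law213 G) {φ : ℝ → ℝ} (hφ : ∀ s : ℝ,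
      Tendsto (fun n : ℕ => (∫ t, passageTime t (0, 0) ((n : ℤ), ⌊n * s⌋) ∂(iidLaw G)) / n)
      atTop (𝓝 (φ s))) {s p q : ℝ} (hs : φ s = p + q * s)
    (hq : ∀ ε > 0, ∃ δ > 0, φ (s + δ) ≤ p + q * (s + δ) + ε * δ) :
    GapUp G p q (C1 G + |q|) := by
  intro ε hε
  obtain ⟨δ, hδ, hqδ⟩ := hq (ε / 4) (by positivity)
  have hε2 : 0 < ε * δ / 8 := by positivity
  obtain ⟨A, hA0, hA⟩ := strip_dir hG (hφ s) hε2
  obtain ⟨B, hB0, hB⟩ := strip_dir hG (hφ (s + δ)) hε2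
  set C := C1 G with hC
  have hC0 : 0 ≤ C := C1_nonneg
  -- the constant
  set D : ℝ := A + B + C * (4 * |s| + δ + 3) + |q| * (1 + 4 * |s| + δ) + 4 * |p| + 9 * (ε * δ / 8)
    with hD
  have hD0 : 0 ≤ D := by positivity
  refine ⟨max 0 (D / (ε / 2)), fun W hW => ?_⟩
  have hW0 : 0 ≤ W := (le_max_left _ _).trans hW
  have hWD : D ≤ W * (ε / 2) := by
    have := (le_max_right _ _).trans hW
    rwa [div_le_iff₀ (by positivity)] at this
  set g' : ℕ := ⌈W / δ⌉₊ + 8 with hg'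
  set g : ℤ := (g' : ℤ) with hg
  set b0 : ℤ := ⌊(g : ℝ) * s⌋ with hb0
  have hg8 : (8 : ℤ) ≤ g := by rw [hg, hg']; push_cast; linarith [Int.natCast_nonneg ⌈W / δ⌉₊]
  have hgW : (g : ℝ) ≤ W / δ + 9 := by
    have := (Nat.ceil_lt_add_one (show 0 ≤ W / δ by positivity)).le
    rw [hg, hg']; push_cast; linarith
  have hgW2 : W / δ + 8 ≤ (g : ℝ) := by
    have := Nat.le_ceil (W / δ)
    rw [hg, hg']; push_cast; linarith
  have hsl0 : ((0 : ℤ), (0 : ℤ)) ∈ sl 0 (g - 1) := ⟨le_rfl, by simp; omega⟩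
  have hend : ∀ h : ℕ, (g - 4, b0 + (h : ℤ)) ∈ sl 0 (g - 1) := fun h =>
    ⟨by simp; omega, by simp⟩
  have hab : (0 : ℤ) + 2 ≤ g - 1 := by omega
  -- the estimate for small heights
  have small : ∀ h : ℕ, (h : ℝ) ≤ W →
      eD G 0 (g - 1) (0, 0) (g - 4, b0 + (h : ℤ)) ≤ p * g + q * (b0 + h) + ε * W := by
    intro h hh
    set m2 : ℕ := ⌊(h : ℝ) / δ⌋₊ with hm2
    have hm2a : (m2 : ℝ) * δ ≤ h := by
      have := Nat.floor_le (show 0 ≤ (h : ℝ) / δ by positivity)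
      rwa [le_div_iff₀ hδ] at this
    have hm2b : (h : ℝ) ≤ m2 * δ + δ := by
      have := (Nat.lt_floor_add_one ((h : ℝ) / δ)).le
      rw [div_le_iff₀ hδ] at this
      linarith
    have hm2g : m2 + 8 ≤ g' := by
      have h1 : m2 ≤ ⌊W / δ⌋₊ := Nat.floor_le_floor (by gcongr)
      have h2 : ⌊W / δ⌋₊ ≤ ⌈W / δ⌉₊ := Nat.floor_le_ceil _
      omega
    set m1 : ℕ := g' - 4 - m2 with hm1
    have hm12 : (m1 : ℤ) + m2 = g - 4 := by omega
    have hm12r : (m1 : ℝ) + m2 = g - 4 := by exact_mod_cast hm12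
    set x1 : ℤ × ℤ := (0, 0) + ((m1 : ℤ), ⌊(m1 : ℝ) * s⌋) with hx1
    set x2 : ℤ × ℤ := x1 + ((m2 : ℤ), ⌊(m2 : ℝ) * (s + δ)⌋) with hx2
    have hx1s : x1 ∈ sl 0 (g - 1) := by
      constructor <;> simp only [hx1, Prod.fst_add] <;> omega
    have hx2s : x2 ∈ sl 0 (g - 1) := by
      constructor <;> simp only [hx2, hx1, Prod.fst_add] <;> omega
    have q1 := hA m1 0 (g - 1) hab (0, 0) le_rfl (by simp; omega)
    have q2 := hB m2 0 (g - 1) hab x1 hx1s.1 (by simp only [hx1, Prod.fst_add]; omega)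
    have q3 := eD_le_n1 hG hab hx2s (hend h)
    have e3 : (g - 4, b0 + (h : ℤ)) - x2 =
        (0, b0 + (h : ℤ) - ⌊(m1 : ℝ) * s⌋ - ⌊(m2 : ℝ) * (s + δ)⌋) := by
      ext
      · simp only [hx2, hx1, Prod.fst_sub, Prod.fst_add]; omega
      · simp only [hx2, hx1, Prod.snd_sub, Prod.snd_add]; ring
    have q4 : (n1 ((g - 4, b0 + (h : ℤ)) - x2) : ℝ) ≤ 4 * |s| + δ + 3 := by
      rw [e3]
      have e4 : (n1 ((0 : ℤ), b0 + (h : ℤ) - ⌊(m1 : ℝ) * s⌋ - ⌊(m2 : ℝ) * (s + δ)⌋) : ℝ) =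
          |(b0 : ℝ) + h - ⌊(m1 : ℝ) * s⌋ - ⌊(m2 : ℝ) * (s + δ)⌋| := by
        simp [n1, Nat.cast_natAbs]
      rw [e4]
      have f1 := Int.floor_le ((g : ℝ) * s)
      have f2 := Int.lt_floor_add_one ((g : ℝ) * s)
      have f3 := Int.floor_le ((m1 : ℝ) * s)
      have f4 := Int.lt_floor_add_one ((m1 : ℝ) * s)
      have f5 := Int.floor_le ((m2 : ℝ) * (s + δ))
      have f6 := Int.lt_floor_add_one ((m2 : ℝ) * (s + δ))
      rw [← hb0] at f1 f2
      have f7 : (g : ℝ) * s = m1 * s + m2 * s + 4 * s := by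
        have : (g : ℝ) = m1 + m2 + 4 := by linarith
        rw [this]; ring
      have f8 := neg_abs_le s
      have f9 := le_abs_self s
      rw [abs_le]
      constructor <;> linarith
    have t1 := eD_tri hG hab hsl0 hx1s hx2s
    have t2 := eD_tri hG hab hsl0 hx2s (hend h)
    have q5 : (n1 ((g - 4, b0 + (h : ℤ)) - x2) : ℝ) * C ≤ (4 * |s| + δ + 3) * C :=
      mul_le_mul_of_nonneg_right q4 hC0
    have q6 : (m2 : ℝ) * φ (s + δ) ≤ m2 * (p + q * (s + δ) + ε / 4 * δ) := by gcongr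
    have q7 : ε / 4 * (m2 * δ) ≤ ε / 4 * W := by
      have : (m2 : ℝ) * δ ≤ W := hm2a.trans hh
      gcongr
    have q8 : (g : ℝ) * (ε * δ / 8) ≤ ε * W / 8 + 9 * (ε * δ / 8) := by
      have : (g : ℝ) * (ε * δ / 8) ≤ (W / δ + 9) * (ε * δ / 8) := by gcongr
      refine this.trans (le_of_eq ?_)
      field_simp
    have q9 : q * (s * (g - 4) + δ * m2) - |q| * (1 + 4 * |s| + δ) ≤ q * (b0 + h) := by
      have f1 := Int.floor_le ((g : ℝ) * s)
      have f2 := Int.lt_floor_add_one ((g : ℝ) * s)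
      rw [← hb0] at f1 f2
      have r1 : |(b0 : ℝ) + h - (s * (g - 4) + δ * m2)| ≤ 1 + 4 * |s| + δ := by
        have f8 := neg_abs_le s
        have f9 := le_abs_self s
        rw [abs_le]
        constructor <;> linarith
      have r2 : |q * ((b0 : ℝ) + h - (s * (g - 4) + δ * m2))| ≤ |q| * (1 + 4 * |s| + δ) := by
        rw [abs_mul]; gcongr
      have r3 := neg_abs_le (q * ((b0 : ℝ) + h - (s * (g - 4) + δ * m2)))
      linarith
    have q10 : -(4 * |p|) ≤ 4 * p := by linarith [neg_abs_le p]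
    have hg4 : (g : ℝ) - 4 = m1 + m2 := by linarith
    have e5 : (m1 : ℝ) * (φ s + ε * δ / 8) + m2 * (φ (s + δ) + ε * δ / 8) =
        m1 * φ s + m2 * φ (s + δ) + (g - 4) * (ε * δ / 8) := by rw [hg4]; ring
    have e6 : (m1 : ℝ) * φ s + m2 * (p + q * (s + δ) + ε / 4 * δ) =
        p * (g - 4) + q * (s * (g - 4) + δ * m2) + ε / 4 * (m2 * δ) := by rw [hs, hg4]; ring
    have hεδ : 0 < ε * δ := by positivity
    linarith
  refine ⟨g, b0, fun h t => pR t (sl 0 (g - 1)) (0, 0) (g - 4, b0 + (h : ℤ)), hg8,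
    fun h => measurable_pR _ _ _, ?_, fun h => integrable_sl hG hab hsl0 (hend h), ?_, ?_⟩
  · intro h t t' htt
    refine pR_congr (fun x hx y hy => htt _ ?_) _ _
    rw [mem_sl] at hx hy
    simp only [block, Set.mem_ofPred_eq, eX_mk]
    omega
  · intro h
    filter_upwards [ae_Nn hG.h0] with t ht
    exact pt_le_pR ht (conn_sl hsl0 (hend h))
  · intro h
    by_cases hh : W < (h : ℝ)
    · simp only [hh, if_true]
      set h' : ℕ := ⌊W⌋₊ with hh'
      have a1 : (h' : ℝ) ≤ W := Nat.floor_le hW0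
      have a2 := small h' a1
      have a3 := eD_tri hG hab hsl0 (hend h') (hend h)
      have a4 := eD_le_n1 hG hab (hend h') (hend h)
      have a5 : (n1 ((g - 4, b0 + (h : ℤ)) - (g - 4, b0 + (h' : ℤ))) : ℝ) = |(h : ℝ) - h'| := by
        simp [n1, Nat.cast_natAbs]
      have a6 : (h' : ℝ) ≤ h := a1.trans hh.le
      have a7 : |(h : ℝ) - h'| ≤ h := by
        rw [abs_of_nonneg (by linarith)]
        linarith [(Nat.cast_nonneg h' : (0 : ℝ) ≤ h')]
      rw [a5] at a4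
      have a8 : |(h : ℝ) - h'| * C ≤ h * C := mul_le_mul_of_nonneg_right a7 hC0
      have a9 : q * ((b0 : ℝ) + h') ≤ q * (b0 + h) + |q| * h := by
        have r2 : |q * ((h' : ℝ) - h)| ≤ |q| * h := by
          rw [abs_mul, abs_sub_comm]; gcongr
        have := le_abs_self (q * ((h' : ℝ) - h))
        linarith
      have a10 : ∫ t, pR t (sl 0 (g - 1)) (0, 0) (g - 4, b0 + (h : ℤ)) ∂(iidLaw G) =
        eD G 0 (g - 1) (0, 0) (g - 4, b0 + (h : ℤ)) := rfl
      rw [a10]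
      linarith
    · simp only [hh, if_false, mul_zero, add_zero]
      exact small h (not_lt.1 hh)

end Crest.Agent.R151.A
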