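import Crest.Agent.R151.A565h

/-!
# R151, block A (helper565): local costs; the free search for every law of S0213
-/

set_option autoImplicit false

open MeasureTheory ProbabilityTheory Filter Topology
open Crest.ProbabilityR.FirstPassage
open Crest.Agent.R151.K Crest.Agent.R151.M51
open scoped ENNReal

namespace Crest.Agent.R151.A

variable {G : Measure ℝ} [IsProbabilityMeasure G]

lemma locK_step (hG : Law213 G) {x y : ℤ × ℤ} (h : squareLattice.Adj x y) :
    MemLp (fun t => pR t (sbox x 3) x y) 2 (iidLaw G) := by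
  refine ⟨(measurable_pR _ x y).aestronglyMeasurable, ?_⟩
  have h1 := lintegral_le_of_detours G (p := 2) (by norm_num) (detours_full h)
    (f := fun t => pR t (sbox x 3) x y) (by
      filter_upwards [ae_Nn hG.h0] with t ht w hw
      exact pR_le ht w hw)
  have h2 : (9:ℝ≥0∞) ^ (2:ℝ) * (9:ℝ≥0∞) ^ 4 * mom G 4 2 < ⊤ := by
    refine ENNReal.mul_lt_top (ENNReal.mul_lt_top ?_ ?_) (mom_four_two hG.h0 hG.mom)
    · exact ENNReal.rpow_lt_top_of_nonneg (by norm_num) (by norm_num)
    · exact ENNReal.pow_lt_top (by norm_num)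
  rw [eLpNorm_eq_lintegral_rpow_enorm_toReal (by norm_num) (by norm_num)]
  refine ENNReal.rpow_lt_top_of_nonneg (by positivity) (ne_of_lt ?_)
  refine lt_of_le_of_lt ?_ h2
  refine le_trans (le_of_eq ?_) h1
  refine lintegral_congr_ae ?_
  filter_upwards [ae_Nn hG.h0] with t ht
  rw [Real.enorm_eq_ofReal (pR_nonneg ht _ _ _)]
  simp

theorem locK (hG : Law213 G) : LocK G := by
  set f : ℕ → Environment → ℝ := fun k t =>
    pR t (sbox ((k : ℤ) - 4, 0) 3) ((k : ℤ) - 4, 0) ((k : ℤ) - 3, 0) with hf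
  have hadj : ∀ k : ℕ, squareLattice.Adj ((k : ℤ) - 4, (0 : ℤ)) ((k : ℤ) - 3, 0) := by
    intro k
    have := adj_right ((k : ℤ) - 4) 0
    rwa [show (k : ℤ) - 4 + 1 = k - 3 by ring] at this
  have hL : ∀ k, MemLp (f k) 2 (iidLaw G) := fun k => locK_step hG (hadj k)
  refine ⟨fun t => ∑ k ∈ Finset.range 4, f k t, ?_, ?_, ?_, ?_⟩
  · exact Finset.measurable_fun_sum _ fun k _ => measurable_pR _ _ _
  · intro t t' htt
    refine Finset.sum_congr rfl fun k hk => ?_
    refine pR_congr (fun x hx y hy => htt _ ?_) _ _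
    simp only [sbox, Set.mem_ofPred_eq, abs_le] at hx hy
    simp only [Set.mem_ofPred_eq, eX_mk]
    omega
  · have h1 : MemLp (fun t => ∑ k ∈ Finset.range 4, f k t) 2 (iidLaw G) :=
      memLp_finsetSum _ fun k _ => hL k
    exact h1.integrable_sq
  · filter_upwards [ae_Nn hG.h0] with t ht
    have hc : ∀ k : ℕ, passageTime t ((k : ℤ) - 4, 0) ((k : ℤ) - 3, 0) ≤ f k t := by
      intro k
      refine pt_le_pR ht (Conn.adj (hadj k) ?_ ?_)
      · simp [sbox]
      · simp only [sbox, Set.mem_ofPred_eq, abs_le]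
        constructor <;> constructor <;> omega
    have h0 := hc 0
    have h1 := hc 1
    have h2 := hc 2
    have h3 := hc 3
    norm_num at h0 h1 h2 h3
    have t1 := pt_triangle ht (-4, 0) (-3, 0) (0, 0)
    have t2 := pt_triangle ht (-3, 0) (-2, 0) (0, 0)
    have t3 := pt_triangle ht (-2, 0) (-1, 0) (0, 0)
    simp only [Finset.sum_range_succ, Finset.sum_range_zero, zero_add]
    linarith

/-- **free search, every law of S0213.** `φ s = μ(1, s)` -/
theorem aStar (hG : Law213 G) {φ : ℝ → ℝ} (hφ : ∀ s : ℝ,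
      Tendsto (fun n : ℕ => (∫ t, passageTime t (0, 0) ((n : ℤ), ⌊n * s⌋) ∂(iidLaw G)) / n)
      atTop (𝓝 (φ s))) {s p q : ℝ} (hρ : ∀ x : ℤ × ℤ, 0 ≤ x.1 →
      p * x.1 + q * x.2 ≤ ∫ t, passageTime t (0, 0) x ∂(iidLaw G))
    (hs : φ s = p + q * s) (hq : ∀ ε > 0, ∃ δ > 0, φ (s + δ) ≤ p + q * (s + δ) + ε * δ) :
    AStar G p q (C1 G + |q| + 1) :=
  aStar_of_gapUp hG.h0 (integrable_pt' hG _ _) (integrable_pt' hG _ _) hρ
    (gapUp hG hφ hs hq) (locK hG)

end Crest.Agent.R151.A
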