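import Crest.Agent.R151.K9a

/-!
# R151/K9b — the `L¹` time constant is a norm (owner helper507)
-/

set_option autoImplicit false

open MeasureTheory Filter ProbabilityTheory
open Crest.ProbabilityR.FirstPassage

namespace Crest.Agent.R151.K

variable {G : Measure ℝ} [IsProbabilityMeasure G] {m : ℝ} {μ : ℝ × ℝ → ℝ}

namespace Mom

variable (hM : Mom G m) (hμ : IsTC1 G μ)

include hM hμ

/-- Convergence of the means. -/
lemma ET_tendsto (v : ℝ × ℝ) :
    Tendsto (fun s : ℝ => ET G (fl v s) / s) atTop (nhds (μ v)) := by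
  rw [tendsto_iff_norm_sub_tendsto_zero]
  refine squeeze_zero (fun s => norm_nonneg _) (fun s => ?_) (hμ v)
  have hI1 : Integrable (fun t => passageTime t 0 (fl v s) / s) (iidLaw G) :=
    (hM.int 0 (fl v s)).div_const s
  have : ET G (fl v s) / s - μ v = ∫ t, (passageTime t 0 (fl v s) / s - μ v) ∂(iidLaw G) := by
    rw [integral_sub hI1 (integrable_const _), integral_div]
    simp [ET]
  rw [this]
  exact norm_integral_le_integral_norm _

/-- Points at bounded distance of `s v` may be used. -/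
lemma ET_tendsto' (v : ℝ × ℝ) (x : ℝ → ℤ × ℤ) (c : ℕ) (hx : ∀ s, n1 (x s - fl v s) ≤ c) :
    Tendsto (fun s : ℝ => ET G (x s) / s) atTop (nhds (μ v)) := by
  have h1 := hM.ET_tendsto hμ v
  have h3 : Tendsto (fun s : ℝ => ET G (x s) / s - ET G (fl v s) / s) atTop (nhds 0) := by
    have h4 : Tendsto (fun s : ℝ => (m * c) / s) atTop (nhds 0) :=
      tendsto_const_nhds.div_atTop tendsto_id
    refine squeeze_zero_norm' ?_ h4
    filter_upwards [eventually_gt_atTop 0] with s hs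
    rw [← sub_div, norm_div, Real.norm_eq_abs, Real.norm_eq_abs, abs_of_pos hs]
    have h5 := hM.abs_ET_sub_le (x s) (fl v s)
    have h6 := hM.nonneg
    have h7 : (n1 (x s - fl v s) : ℝ) ≤ c := by exact_mod_cast hx s
    gcongr
    exact h5.trans (by gcongr)
  have := h3.add h1
  simpa using this

/-- Natural multiples. -/
lemma ET_tendsto_nat (v : ℝ × ℝ) :
    Tendsto (fun n : ℕ => ET G (fl v n) / n) atTop (nhds (μ v)) :=
  (hM.ET_tendsto hμ v).comp tendsto_natCast_atTop_atTop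

lemma mu_nonneg (v : ℝ × ℝ) : 0 ≤ μ v := by
  refine ge_of_tendsto (hM.ET_tendsto hμ v) ?_
  filter_upwards [eventually_ge_atTop 0] with s hs
  exact div_nonneg (ET_nonneg hM.h0 _) hs

lemma mu_zero : μ 0 = 0 := by
  have h1 := hM.ET_tendsto hμ 0
  have h3 : ∀ s : ℝ, ET G (fl 0 s) / s = 0 := by
    intro s
    have : fl 0 s = 0 := by simp [fl]
    rw [this, ET_zero hM.h0, zero_div]
  simp only [h3] at h1
  exact (tendsto_nhds_unique h1 tendsto_const_nhds)

lemma mu_smul {c : ℝ} (hc : 0 ≤ c) (v : ℝ × ℝ) : μ (c • v) = c * μ v := by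
  rcases hc.eq_or_lt with rfl | hc
  · rw [zero_smul, zero_mul]; exact hM.mu_zero hμ
  have h1 := hM.ET_tendsto hμ (c • v)
  have h3 := ((hM.ET_tendsto hμ v).comp (tendsto_id.const_mul_atTop hc)).const_mul c
  refine tendsto_nhds_unique h1 (h3.congr fun s => ?_)
  simp only [Function.comp_apply, id, fl_smul]
  rcases eq_or_ne s 0 with rfl | hs
  · simp
  · field_simp

lemma mu_add_le (v w : ℝ × ℝ) : μ (v + w) ≤ μ v + μ w := by
  have h1 := hM.ET_tendsto hμ (v + w)
  have h3 := (hM.ET_tendsto hμ v).add (hM.ET_tendsto' hμ w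
    (fun s => fl (v + w) s - fl v s) 2 (n1_fl_sub_le v w))
  refine le_of_tendsto_of_tendsto h1 h3 ?_
  filter_upwards [eventually_gt_atTop 0] with s hs
  rw [← add_div]
  gcongr
  have := hM.ET_add_le (fl v s) (fl (v + w) s - fl v s)
  rwa [add_sub_cancel] at this

lemma mu_neg (v : ℝ × ℝ) : μ (-v) = μ v := by
  have h1 := hM.ET_tendsto hμ v
  have h3 := hM.ET_tendsto' hμ (-v) (fun s => -fl v s) 2 (fun s => by
    have := n1_fl_neg_le v s
    rwa [← neg_sub, n1_neg] at this)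
  simp only [ET_neg hM.h0] at h3
  exact tendsto_nhds_unique h3 h1

lemma mu_le (v : ℝ × ℝ) : μ v ≤ m * l1 v := by
  have h1 := hM.ET_tendsto hμ v
  have h4 : Tendsto (fun s : ℝ => m * l1 v + (2 * m) / s) atTop
      (nhds (m * l1 v + 0)) :=
    tendsto_const_nhds.add (tendsto_const_nhds.div_atTop tendsto_id)
  rw [add_zero] at h4
  refine le_of_tendsto_of_tendsto h1 h4 ?_
  filter_upwards [eventually_gt_atTop 0] with s hs
  have h5 := hM.ET_le (fl v s)
  have h6 := hM.nonneg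
  have h7 : (n1 (fl v s) : ℝ) ≤ s * l1 v + 2 := by
    rw [← l1_toR]
    simp only [l1, toR, fl]
    have h1 := abs_floor_le (s * v.1)
    have h2 := abs_floor_le (s * v.2)
    rw [abs_mul, abs_of_pos hs] at h1 h2
    nlinarith
  rw [div_le_iff₀ hs]
  calc ET G (fl v s) ≤ m * (n1 (fl v s) : ℝ) := h5
    _ ≤ m * (s * l1 v + 2) := by gcongr
    _ = _ := by field_simp

lemma abs_mu_sub_le (v w : ℝ × ℝ) : |μ v - μ w| ≤ m * l1 (v - w) := by
  have h1 := hM.mu_add_le hμ (v - w) w
  have h3 := hM.mu_add_le hμ (w - v) v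
  rw [sub_add_cancel] at h1 h3
  have h4 := hM.mu_le hμ (v - w)
  have h5 : μ (w - v) = μ (v - w) := by rw [← neg_sub, hM.mu_neg hμ]
  rw [abs_le]
  constructor <;> linarith

lemma mu_le_ET (x : ℤ × ℤ) : μ (toR x) ≤ ET G x := by
  have h1 := hM.ET_tendsto_nat hμ (toR x)
  refine le_of_tendsto h1 ?_
  filter_upwards [eventually_gt_atTop 0] with k hk
  rw [fl_natCast, div_le_iff₀ (by exact_mod_cast hk), mul_comm]
  exact hM.ET_nsmul_le x k

lemma mu_swap (v : ℝ × ℝ) : μ (v.2, v.1) = μ v := by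
  have h1 := hM.ET_tendsto hμ v
  have h3 := hM.ET_tendsto hμ (v.2, v.1)
  have h4 : ∀ x : ℤ × ℤ, ET G (x.2, x.1) = ET G x := by
    intro x
    have h := integral_pt_iso (G := G) sw (fun t => passageTime t 0 x)
      (measurable_pt _ _).aestronglyMeasurable
    simp only [pt_act, sw_apply] at h
    exact h
  refine tendsto_nhds_unique h3 (h1.congr fun s => ?_)
  rw [← h4]
  rfl

lemma mu_neg_fst (v : ℝ × ℝ) : μ (-v.1, v.2) = μ v := by
  have h1 := hM.ET_tendsto hμ v
  have h4 : ∀ x : ℤ × ℤ, ET G (-x.1, x.2) = ET G x := by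
    intro x
    have h := integral_pt_iso (G := G) ng (fun t => passageTime t 0 x)
      (measurable_pt _ _).aestronglyMeasurable
    simp only [pt_act, ng_apply, Prod.fst_zero, Prod.snd_zero, neg_zero] at h
    exact h
  have h3 := hM.ET_tendsto' hμ (-v.1, v.2) (fun s => (-(fl v s).1, (fl v s).2)) 2 (fun s => by
    have := n1_fl_neg_le v s
    rw [← neg_sub, n1_neg] at this
    simp only [n1, fl, Prod.fst_neg, Prod.snd_neg, Prod.fst_sub, Prod.snd_sub] at this ⊢
    omega)
  simp only [h4] at h3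
  exact tendsto_nhds_unique h3 h1

/-- the constant is unique -/
lemma tc_unique {μ' : ℝ × ℝ → ℝ} (hμ' : IsTC1 G μ') : μ = μ' := by
  funext v
  exact tendsto_nhds_unique (hM.ET_tendsto hμ v) (hM.ET_tendsto hμ' v)

omit hμ in
/-- Linear lower bound for the means. -/
theorem exists_ET_ge (hz : G {0} = 0) :
    ∃ c : ℝ, 0 < c ∧ ∀ x : ℤ × ℤ, c * n1 x ≤ ET G x := by
  obtain ⟨c, hc, hb⟩ := prob_Bad_le (G := G) hM.h0 hz
  refine ⟨c / 2, by positivity, fun x => ?_⟩
  rcases Nat.eq_zero_or_pos (n1 x) with hx | hx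
  · rw [hx]; simpa using ET_nonneg hM.h0 x
  have hb1 := hb (n1 x) 0
  have hhalf : ((1 : ℝ) / 2) ^ (n1 x) ≤ 1 / 2 := by
    calc ((1 : ℝ) / 2) ^ (n1 x) ≤ (1 / 2) ^ 1 :=
          pow_le_pow_of_le_one (by norm_num) (by norm_num) hx
      _ = 1 / 2 := by norm_num
  have hm := measurableSet_Bad c (n1 x) 0
  have hcompl : 1 / 2 ≤ (iidLaw G).real (Bad c (n1 x) 0)ᶜ := by
    rw [probReal_compl_eq_one_sub hm]
    linarith
  have h3 : ∫ t, (Bad c (n1 x) 0)ᶜ.indicator (fun _ => c * (n1 x : ℝ)) t ∂(iidLaw G)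
      ≤ ET G x := by
    unfold ET
    refine integral_mono_ae ((integrable_const _).indicator hm.compl) (hM.int _ _) ?_
    filter_upwards [ae_Nn (G := G) hM.h0] with t ht
    by_cases htb : t ∈ Bad c (n1 x) 0
    · simp only [Set.indicator, Set.mem_compl_iff, htb, not_true_eq_false, if_false]
      exact pt_nonneg ht _ _
    · simp only [Set.indicator, Set.mem_compl_iff, htb, not_false_eq_true, if_true]
      exact pt_ge_of_not_Bad ht htb (by rw [sub_zero])
  rw [integral_indicator hm.compl, setIntegral_const, smul_eq_mul] at h3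
  have h4 : (0 : ℝ) ≤ c * n1 x := by positivity
  nlinarith

/-- `μ v ≥ c |v|₁`. -/
theorem exists_mu_ge (hz : G {0} = 0) : ∃ c : ℝ, 0 < c ∧ ∀ v : ℝ × ℝ, c * l1 v ≤ μ v := by
  obtain ⟨c, hc, hE⟩ := hM.exists_ET_ge hz
  refine ⟨c, hc, fun v => ?_⟩
  have h1 := hM.ET_tendsto hμ v
  have h4 : Tendsto (fun s : ℝ => c * l1 v - (2 * c) / s) atTop (nhds (c * l1 v - 0)) :=
    tendsto_const_nhds.sub (tendsto_const_nhds.div_atTop tendsto_id)
  rw [sub_zero] at h4
  refine le_of_tendsto_of_tendsto h4 h1 ?_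
  filter_upwards [eventually_gt_atTop 0] with s hs
  rw [le_div_iff₀ hs]
  refine le_trans ?_ (hE (fl v s))
  have h5 : s * l1 v ≤ (n1 (fl v s) : ℝ) + 2 := by
    rw [← l1_toR]
    have h6 := l1_fl v s
    have h7 := l1_add_le (s • v - toR (fl v s)) (toR (fl v s))
    rw [sub_add_cancel] at h7
    have h8 : l1 (s • v) = s * l1 v := by
      simp only [l1, Prod.smul_fst, Prod.smul_snd, smul_eq_mul, abs_mul, abs_of_pos hs]
      ring
    linarith
  have h9 : (c * l1 v - 2 * c / s) * s = c * (s * l1 v - 2) := by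
    field_simp
  rw [h9]
  exact mul_le_mul_of_nonneg_left (by linarith) hc.le

/-- The `L¹` time constant is a norm. -/
theorem normLike (hz : G {0} = 0) : B710.NormLike μ := by
  obtain ⟨c, hc, hlow⟩ := hM.exists_mu_ge hμ hz
  have hm := hM.nonneg
  refine ⟨fun s v hs => hM.mu_smul hμ hs v, hM.mu_neg hμ, hM.mu_add_le hμ,
    ⟨c, hc, hlow⟩, ⟨m + 1, by linarith, fun v => ?_⟩⟩
  refine (hM.mu_le hμ v).trans ?_
  have := l1_nonneg v
  change m * l1 v ≤ (m + 1) * l1 v
  nlinarith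

end Mom

end Crest.Agent.R151.K
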