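import Crest.Agent.R151.B710

/-!
# R151, block N (helper792): corner data from non-differentiability
-/

set_option autoImplicit false

open Filter Topology Set

namespace Crest.Agent.R151.N

open Crest.Agent.R151.B710

/-- corner data of `μ` at `(1, s)`: the two extreme supporting functionals are
`p0 x + q0 y ± a (y - s x)`. -/
structure Corner (μ : ℝ × ℝ → ℝ) (s p0 q0 a : ℝ) : Prop where
  a_pos : 0 < a
  s_le : |s| ≤ 1
  tight : μ (1, s) = p0 + q0 * s
  lower : ∀ x y : ℝ, p0 * x + q0 * y + a * |y - s * x| ≤ μ (x, y)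
  right : Tendsto (fun d : ℝ => (μ (1, s + d) - (p0 + q0 * (s + d) + a * d)) / d) (𝓝[>] 0) (𝓝 0)
  left : Tendsto (fun d : ℝ => (μ (1, s - d) - (p0 + q0 * (s - d) + a * d)) / d) (𝓝[>] 0) (𝓝 0)

namespace Corner

variable {μ : ℝ × ℝ → ℝ} {s p0 q0 a : ℝ}

/-- the reflected corner -/
lemma reflect (h : Corner μ s p0 q0 a) :
    Corner (fun v => μ (v.1, -v.2)) (-s) p0 (-q0) a where
  a_pos := h.a_pos
  s_le := by rw [abs_neg]; exact h.s_le
  tight := by simpa using h.tight
  lower x y := by
    have := h.lower x (-y)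
    have h2 : |(-y) - s * x| = |y - (-s) * x| := by
      rw [← abs_neg]; ring_nf
    rw [h2] at this
    simpa using this
  right := by
    refine h.left.congr fun d => ?_
    have h1 : -(-s + d) = s - d := by ring
    simp only [h1]
    ring
  left := by
    refine h.right.congr fun d => ?_
    have h1 : -(-s - d) = s + d := by ring
    simp only [h1]
    ring

/-- if `μ` is symmetric the reflected corner is a corner of `μ` itself -/
lemma reflect' (h : Corner μ s p0 q0 a) (hr : ∀ v : ℝ × ℝ, μ (v.1, -v.2) = μ v) :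
    Corner μ (-s) p0 (-q0) a := by
  have := h.reflect
  have h2 : (fun v : ℝ × ℝ => μ (v.1, -v.2)) = μ := funext hr
  rwa [h2] at this

/-- the upper extreme functional is below `μ` -/
lemma upper_le (h : Corner μ s p0 q0 a) (x y : ℝ) :
    (p0 - a * s) * x + (q0 + a) * y ≤ μ (x, y) := by
  refine le_trans ?_ (h.lower x y)
  have := mul_le_mul_of_nonneg_left (le_abs_self (y - s * x)) h.a_pos.le
  nlinarith

/-- the lower extreme functional is below `μ` -/
lemma lower_le (h : Corner μ s p0 q0 a) (x y : ℝ) :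
    (p0 + a * s) * x + (q0 - a) * y ≤ μ (x, y) := by
  refine le_trans ?_ (h.lower x y)
  have := mul_le_mul_of_nonneg_left (neg_abs_le (y - s * x)) h.a_pos.le
  nlinarith [this, neg_abs_le (y - s * x), mul_nonneg h.a_pos.le (abs_nonneg (y - s * x))]

end Corner

variable {μ : ℝ × ℝ → ℝ}

lemma convexOn_slice (h : NormLike μ) : ConvexOn ℝ univ (fun y : ℝ => μ (1, y)) := by
  refine ⟨convex_univ, fun a _ b _ s t hs ht hst => ?_⟩
  have := h.convexOn.2 (mem_univ ((1 : ℝ), a)) (mem_univ ((1 : ℝ), b)) hs ht hst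
  convert this using 2
  ext <;> simp [hst]

lemma differentiableAt_of_slice (h : NormLike μ) {s : ℝ}
    (hd : DifferentiableAt ℝ (fun y : ℝ => μ (1, y)) s) : DifferentiableAt ℝ μ (1, s) := by
  have h1 : DifferentiableAt ℝ (fun v : ℝ × ℝ => v.1 * μ (1, v.2 / v.1)) (1, s) := by
    have h2 : DifferentiableAt ℝ (fun v : ℝ × ℝ => v.2 / v.1) (1, s) := by
      have h4 : DifferentiableAt ℝ (fun v : ℝ × ℝ => v.1⁻¹) (1, s) :=
        DifferentiableAt.comp (g := fun x : ℝ => x⁻¹) ((1, s) : ℝ × ℝ)
          (differentiableAt_inv (by norm_num)) differentiableAt_fst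
      have h5 : DifferentiableAt ℝ (fun v : ℝ × ℝ => v.2) (1, s) := differentiableAt_snd
      have h6 := h5.mul h4
      have h7 : (fun v : ℝ × ℝ => v.2 / v.1) = (fun v : ℝ × ℝ => v.2) * fun v => v.1⁻¹ := by
        funext v; simp [div_eq_mul_inv]
      rw [h7]
      exact h6
    have h3 : DifferentiableAt ℝ (fun y : ℝ => μ (1, y)) ((fun v : ℝ × ℝ => v.2 / v.1) (1, s)) := by
      simpa using hd
    have h7 := DifferentiableAt.comp ((1, s) : ℝ × ℝ) h3 h2
    have h8 : DifferentiableAt ℝ (fun v : ℝ × ℝ => v.1) (1, s) := differentiableAt_fst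
    exact h8.mul h7
  refine h1.congr_of_eventuallyEq ?_
  have h4 : ∀ᶠ v : ℝ × ℝ in 𝓝 (1, s), 0 < v.1 :=
    (continuous_fst.tendsto ((1 : ℝ), s)).eventually (lt_mem_nhds (by norm_num))
  filter_upwards [h4] with v hv
  have h5 := h.smul v.1 (1, v.2 / v.1) hv.le
  rw [← h5]
  congr 1
  ext
  · simp
  · simp; field_simp

lemma differentiableAt_smul (h : NormLike μ) {c : ℝ} (hc : 0 < c) {v : ℝ × ℝ}
    (hd : DifferentiableAt ℝ μ v) : DifferentiableAt ℝ μ (c • v) := by
  have h1 : μ = fun w : ℝ × ℝ => c * μ (c⁻¹ • w) := by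
    funext w
    rw [h.smul _ _ (inv_nonneg.2 hc.le)]
    field_simp
  rw [h1]
  refine DifferentiableAt.const_mul ?_ c
  have h2 : DifferentiableAt ℝ (fun w : ℝ × ℝ => c⁻¹ • w) (c • v) :=
    differentiableAt_id.const_smul c⁻¹
  have h3 : DifferentiableAt ℝ μ ((fun w : ℝ × ℝ => c⁻¹ • w) (c • v)) := by
    simpa [smul_smul, inv_mul_cancel₀ hc.ne'] using hd
  exact h3.comp _ h2

lemma differentiableAt_neg' (h : NormLike μ) {v : ℝ × ℝ}
    (hd : DifferentiableAt ℝ μ v) : DifferentiableAt ℝ μ (-v) := by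
  have h1 : μ = fun w : ℝ × ℝ => μ (-w) := by
    funext w; rw [h.neg]
  rw [h1]
  have h2 : DifferentiableAt ℝ (fun w : ℝ × ℝ => -w) (-v) := differentiableAt_id.neg
  have h3 : DifferentiableAt ℝ μ ((fun w : ℝ × ℝ => -w) (-v)) := by simpa using hd
  exact h3.comp _ h2

lemma differentiableAt_swap (hs : ∀ v : ℝ × ℝ, μ (v.2, v.1) = μ v) {v : ℝ × ℝ}
    (hd : DifferentiableAt ℝ μ v) : DifferentiableAt ℝ μ (v.2, v.1) := by
  have h1 : μ = fun w : ℝ × ℝ => μ (w.2, w.1) := by
    funext w; rw [hs]
  rw [h1]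
  have h2 : DifferentiableAt ℝ (fun w : ℝ × ℝ => (w.2, w.1)) (v.2, v.1) :=
    differentiableAt_snd.prodMk differentiableAt_fst
  have h3 : DifferentiableAt ℝ μ ((fun w : ℝ × ℝ => (w.2, w.1)) (v.2, v.1)) := by simpa using hd
  exact DifferentiableAt.comp ((v.2, v.1) : ℝ × ℝ) h3 h2

/-- corner data at a non-differentiability point of the slice -/
theorem corner_of_slice (h : NormLike μ) {s : ℝ} (hs : |s| ≤ 1)
    (hnd : ¬ DifferentiableAt ℝ (fun y : ℝ => μ (1, y)) s) :
    ∃ p0 q0 a, Corner μ s p0 q0 a := by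
  set g : ℝ → ℝ := fun y => μ (1, y) with hg
  have hconv : ConvexOn ℝ univ g := convexOn_slice h
  have hint : s ∈ interior (univ : Set ℝ) := by simp
  set qp := derivWithin g (Ioi s) s with hqp
  set qm := derivWithin g (Iio s) s with hqm
  have hp : HasDerivWithinAt g qp (Ioi s) s := hconv.hasDerivWithinAt_rightDeriv_of_mem_interior hint
  have hm : HasDerivWithinAt g qm (Iio s) s := hconv.hasDerivWithinAt_leftDeriv_of_mem_interior hint
  have hle : qm ≤ qp := hconv.leftDeriv_le_rightDeriv_of_mem_interior hint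
  have hlt : qm < qp := by
    refine lt_of_le_of_ne hle fun heq => hnd ?_
    rw [heq] at hm
    have h1 : HasDerivWithinAt g qp (Ici s) s := hasDerivWithinAt_Ioi_iff_Ici.1 hp
    have h2 : HasDerivWithinAt g qp (Iic s) s := hasDerivWithinAt_Iio_iff_Iic.1 hm
    have h3 := h2.union h1
    rw [Iic_union_Ici, hasDerivWithinAt_univ] at h3
    exact h3.differentiableAt
  -- supporting lines of the slice
  have hsp : ∀ y, g s + qp * (y - s) ≤ g y := by
    intro y
    rcases lt_trichotomy s y with hy | hy | hy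
    · have := hconv.rightDeriv_le_slope_of_mem_interior hint (mem_univ y) hy
      rw [slope_def_field, le_div_iff₀ (by linarith)] at this
      linarith
    · rw [hy]; simp
    · have := hconv.slope_le_leftDeriv_of_mem_interior (mem_univ y) hint hy
      rw [slope_def_field, div_le_iff₀ (by linarith)] at this
      nlinarith
  have hsm : ∀ y, g s + qm * (y - s) ≤ g y := by
    intro y
    rcases lt_trichotomy s y with hy | hy | hy
    · have := hconv.rightDeriv_le_slope_of_mem_interior hint (mem_univ y) hy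
      rw [slope_def_field, le_div_iff₀ (by linarith)] at this
      nlinarith
    · rw [hy]; simp
    · have := hconv.slope_le_leftDeriv_of_mem_interior (mem_univ y) hint hy
      rw [slope_def_field, div_le_iff₀ (by linarith)] at this
      linarith
  -- a supporting line of the slice is a supporting functional
  have hext : ∀ q : ℝ, (∀ y, g s + q * (y - s) ≤ g y) → ∀ x y : ℝ,
      (g s - q * s) * x + q * y ≤ μ (x, y) := by
    intro q hq
    have hpos : ∀ x y : ℝ, 0 < x → (g s - q * s) * x + q * y ≤ μ (x, y) := by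
      intro x y hx
      have h1 := h.smul x (1, y / x) hx.le
      have h2 : x • ((1 : ℝ), y / x) = (x, y) := by
        ext
        · simp
        · simp; field_simp
      rw [h2] at h1
      rw [h1]
      have h3 := mul_le_mul_of_nonneg_left (hq (y / x)) hx.le
      have h4 : x * (g s + q * (y / x - s)) = (g s - q * s) * x + q * y := by
        field_simp; ring
      rw [h4] at h3
      exact h3
    intro x y
    set K : ℝ := |x| + 1 with hK
    have hKx : 0 < K + x := by
      have := neg_abs_le x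
      linarith
    have h1 := hpos (K + x) (K * s + y) hKx
    have h2 := h.add (K • ((1 : ℝ), s)) (x, y)
    have h3 : K • ((1 : ℝ), s) + (x, y) = (K + x, K * s + y) := by
      ext <;> simp
    rw [h3, h.smul K _ (by positivity)] at h2
    have h4 : μ (1, s) = g s := rfl
    rw [h4] at h2
    nlinarith
  refine ⟨g s - (qp + qm) / 2 * s, (qp + qm) / 2, (qp - qm) / 2, by linarith, hs, ?_, ?_, ?_, ?_⟩
  · change g s = _
    ring
  · intro x y
    have h1 := hext qp hsp x y
    have h2 := hext qm hsm x y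
    rcases le_total 0 (y - s * x) with h3 | h3
    · rw [abs_of_nonneg h3]
      refine le_trans (le_of_eq ?_) h1
      ring
    · rw [abs_of_nonpos h3]
      refine le_trans (le_of_eq ?_) h2
      ring
  · have h1 := (hasDerivWithinAt_iff_tendsto_slope' self_notMem_Ioi).1 hp
    have h2 : Tendsto (fun d : ℝ => s + d) (𝓝[>] 0) (𝓝[>] s) := by
      refine tendsto_nhdsWithin_iff.2 ⟨?_, ?_⟩
      · have : Tendsto (fun d : ℝ => s + d) (𝓝 0) (𝓝 (s + 0)) :=
          (continuous_const.add continuous_id).tendsto 0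
        rw [add_zero] at this
        exact this.mono_left nhdsWithin_le_nhds
      · filter_upwards [self_mem_nhdsWithin] with d hd
        simp only [mem_Ioi] at hd ⊢
        linarith
    have h3 := (h1.comp h2).sub_const qp
    rw [sub_self] at h3
    refine h3.congr' ?_
    filter_upwards [self_mem_nhdsWithin] with d hd
    simp only [mem_Ioi] at hd
    simp only [Function.comp_apply, slope_def_field]
    change (g (s + d) - g s) / (s + d - s) - qp = (g (s + d) - _) / d
    rw [add_sub_cancel_left]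
    field_simp
    ring
  · have h1 := (hasDerivWithinAt_iff_tendsto_slope' self_notMem_Iio).1 hm
    have h2 : Tendsto (fun d : ℝ => s - d) (𝓝[>] 0) (𝓝[<] s) := by
      refine tendsto_nhdsWithin_iff.2 ⟨?_, ?_⟩
      · have : Tendsto (fun d : ℝ => s - d) (𝓝 0) (𝓝 (s - 0)) :=
          (continuous_const.sub continuous_id).tendsto 0
        rw [sub_zero] at this
        exact this.mono_left nhdsWithin_le_nhds
      · filter_upwards [self_mem_nhdsWithin] with d hd
        simp only [mem_Ioi, mem_Iio] at hd ⊢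
        linarith
    have h3 := ((h1.comp h2).sub_const qm).neg
    rw [sub_self, neg_zero] at h3
    refine h3.congr' ?_
    filter_upwards [self_mem_nhdsWithin] with d hd
    simp only [mem_Ioi] at hd
    simp only [Function.comp_apply, slope_def_field]
    change -((g (s - d) - g s) / (s - d - s) - qm) = (g (s - d) - _) / d
    have h4 : s - d - s = -d := by ring
    rw [h4]
    field_simp
    ring

/-- CORNER REDUCTION: a norm with the lattice symmetries which is not differentiable somewhere off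
the origin has a corner at some `(1, s)`, `|s| ≤ 1`. -/
theorem exists_corner (h : NormLike μ) (hswap : ∀ v : ℝ × ℝ, μ (v.2, v.1) = μ v)
    (hnd : ∃ v : ℝ × ℝ, v ≠ 0 ∧ ¬ DifferentiableAt ℝ μ v) :
    ∃ s p0 q0 a, Corner μ s p0 q0 a := by
  -- reduce to `|v.2| ≤ |v.1|`
  obtain ⟨v, hv, hvd, hv12⟩ : ∃ v : ℝ × ℝ, v ≠ 0 ∧ ¬ DifferentiableAt ℝ μ v ∧ |v.2| ≤ |v.1| := by
    obtain ⟨v, hv, hvd⟩ := hnd
    rcases le_total |v.2| |v.1| with h1 | h1
    · exact ⟨v, hv, hvd, h1⟩
    · refine ⟨(v.2, v.1), ?_, ?_, h1⟩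
      · intro h2
        apply hv
        rw [Prod.ext_iff] at h2 ⊢
        exact ⟨h2.2, h2.1⟩
      · intro h2
        exact hvd (by simpa using differentiableAt_swap hswap h2)
  have hv1 : v.1 ≠ 0 := by
    intro h0
    rw [h0, abs_zero] at hv12
    exact hv (Prod.ext h0 (abs_eq_zero.1 (le_antisymm hv12 (abs_nonneg _))))
  -- reduce to `0 < v.1`
  obtain ⟨v, hvd, hv12, hv1⟩ : ∃ v : ℝ × ℝ, ¬ DifferentiableAt ℝ μ v ∧ |v.2| ≤ |v.1| ∧ 0 < v.1 := by
    rcases lt_or_gt_of_ne hv1 with h1 | h1
    · refine ⟨-v, ?_, by simpa using hv12, by simpa using h1⟩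
      intro h2
      exact hvd (by simpa using differentiableAt_neg' h h2)
    · exact ⟨v, hvd, hv12, h1⟩
  have hs : |v.2 / v.1| ≤ 1 := by
    rw [abs_div, div_le_one (abs_pos.2 hv1.ne')]
    exact hv12
  refine ⟨v.2 / v.1, corner_of_slice h hs fun hd => hvd ?_⟩
  have h1 := differentiableAt_smul h hv1 (differentiableAt_of_slice h hd)
  have h2 : v.1 • ((1 : ℝ), v.2 / v.1) = v := by
    ext
    · simp
    · simp; field_simp
  rwa [h2] at h1

/-- no corner at any `(1, s)`, `|s| ≤ 1`, implies differentiability off the origin -/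
theorem differentiableAt_of_noCorner (h : NormLike μ) (hswap : ∀ v : ℝ × ℝ, μ (v.2, v.1) = μ v)
    (hno : ∀ s p0 q0 a, ¬ Corner μ s p0 q0 a) (v : ℝ × ℝ) (hv : v ≠ 0) :
    DifferentiableAt ℝ μ v := by
  by_contra hcon
  obtain ⟨s, p0, q0, a, hc⟩ := exists_corner h hswap ⟨v, hv, hcon⟩
  exact hno s p0 q0 a hc

end Crest.Agent.R151.N
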