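import Mathlib

/-!
R151, S0214 part 2, section 12 (module M): weighted union bound over marked rows.

A configuration is `c : Fin n → Option (ℤ × τ)`: `none` = row not marked, `some (g, m)` = row marked
with position `g` and mark `m`. `tv x c` = total variation of the positions of the marked rows,
started at `x`.
-/

set_option autoImplicit false

namespace Crest.Agent.R151.W

open MeasureTheory Finset

variable {τ : Type*}

/-- total variation of the positions of the marked rows, started from `x` -/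
noncomputable def tv : (n : ℕ) → ℤ → (Fin n → Option (ℤ × τ)) → ℝ
  | 0, _, _ => 0
  | n + 1, x, c => (c 0).elim (tv n x (Fin.tail c))
      fun gm => |((gm.1 - x : ℤ) : ℝ)| + tv n gm.1 (Fin.tail c)

theorem tv_nonneg : ∀ (n : ℕ) (x : ℤ) (c : Fin n → Option (ℤ × τ)), 0 ≤ tv n x c
  | 0, _, _ => le_rfl
  | n + 1, x, c => by
    unfold tv
    rcases c 0 with _ | ⟨g, m⟩
    · exact tv_nonneg n x _
    · exact add_nonneg (abs_nonneg _) (tv_nonneg n g _)

/-- geometric sum over integers -/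
theorem sum_exp_abs_le {lam : ℝ} (hl : 0 < lam) (x : ℤ) (Gr : Finset ℤ) :
    ∑ g ∈ Gr, Real.exp (-lam * |((g - x : ℤ) : ℝ)|) ≤ 2 / (1 - Real.exp (-lam)) := by
  have hr0 : 0 ≤ Real.exp (-lam) := (Real.exp_pos _).le
  have hr1 : Real.exp (-lam) < 1 := by rw [Real.exp_lt_one_iff]; linarith
  have e : ∀ g : ℤ, Real.exp (-lam * |((g - x : ℤ) : ℝ)|) = Real.exp (-lam) ^ (g - x).natAbs := by
    intro g
    have h : |((g - x : ℤ) : ℝ)| = ((g - x).natAbs : ℝ) := by
      rw [← Int.cast_abs, Int.abs_eq_natAbs, Int.cast_natCast]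
    rw [← Real.exp_nat_mul, h, mul_comm]
  simp_rw [e]
  have key : ∀ (S : Finset ℤ), (∀ g ∈ S, ∀ g' ∈ S, (g - x).natAbs = (g' - x).natAbs → g = g') →
      ∑ g ∈ S, Real.exp (-lam) ^ (g - x).natAbs ≤ 1 / (1 - Real.exp (-lam)) := by
    intro S hS
    rw [← Finset.sum_image (f := fun d : ℕ => Real.exp (-lam) ^ d) (g := fun g : ℤ => (g - x).natAbs)
      (by intro a ha b hb h; exact hS a ha b hb h)]
    rw [one_div, ← tsum_geometric_of_lt_one hr0 hr1]
    exact (summable_geometric_of_lt_one hr0 hr1).sum_le_tsum _ (fun _ _ => by positivity)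
  rw [← Finset.sum_filter_add_sum_filter_not Gr (fun g => x ≤ g)]
  have h1 := key (Gr.filter fun g => x ≤ g) (by
    intro g hg g' hg' h
    simp only [Finset.mem_filter] at hg hg'
    omega)
  have h2 := key (Gr.filter fun g => ¬ x ≤ g) (by
    intro g hg g' hg' h
    simp only [Finset.mem_filter, not_le] at hg hg'
    omega)
  calc _ ≤ 1 / (1 - Real.exp (-lam)) + 1 / (1 - Real.exp (-lam)) := add_le_add h1 h2
    _ = 2 / (1 - Real.exp (-lam)) := by ring

section count

variable [Fintype τ]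

/-- configurations with positions in a finite set -/
abbrev Cfg (τ : Type*) (Gr : Finset ℤ) (n : ℕ) : Type _ := Fin n → Option (Gr × τ)

/-- forget the restriction of the positions -/
def Cfg.toFun {Gr : Finset ℤ} {n : ℕ} (c : Cfg τ Gr n) : Fin n → Option (ℤ × τ) :=
  fun k => (c k).map fun gm => (gm.1.1, gm.2)

/-- multiplicative weight of a configuration -/
def wt (z : τ → ℝ) {n : ℕ} (c : Fin n → Option (ℤ × τ)) : ℝ :=
  ∏ k, (c k).elim 1 fun gm => z gm.2

omit [Fintype τ] in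
theorem wt_nonneg {z : τ → ℝ} (hz : ∀ m, 0 ≤ z m) {n : ℕ} (c : Fin n → Option (ℤ × τ)) :
    0 ≤ wt z c := by
  refine Finset.prod_nonneg fun k _ => ?_
  rcases c k with _ | ⟨g, m⟩
  · exact zero_le_one
  · exact hz m

theorem sum_wt_exp_le {lam : ℝ} (hl : 0 < lam) {z : τ → ℝ} (hz : ∀ m, 0 ≤ z m) (Gr : Finset ℤ)
    (n : ℕ) : ∀ x : ℤ, ∑ c : Cfg τ Gr n, wt z c.toFun * Real.exp (-lam * tv n x c.toFun) ≤
      (1 + 2 / (1 - Real.exp (-lam)) * ∑ m, z m) ^ n := by
  have hC : 0 ≤ 2 / (1 - Real.exp (-lam)) := by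
    have : Real.exp (-lam) < 1 := by rw [Real.exp_lt_one_iff]; linarith
    apply div_nonneg <;> linarith
  have hZ : 0 ≤ ∑ m, z m := Finset.sum_nonneg fun m _ => hz m
  have hb : 0 ≤ 1 + 2 / (1 - Real.exp (-lam)) * ∑ m, z m := by positivity
  induction n with
  | zero => intro x; simp [wt, tv]
  | succ n ih =>
    intro x
    rw [← (Fin.consEquiv (fun _ : Fin (n + 1) => Option (Gr × τ))).sum_comp, Fintype.sum_prod_type,
      Fintype.sum_option]
    have e0 : ∀ c' : Cfg τ Gr n, Cfg.toFun (τ := τ) (Gr := Gr) (n := n + 1)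
        ((Fin.consEquiv (fun _ : Fin (n + 1) => Option (Gr × τ))) (none, c')) =
        (Fin.cons none c'.toFun : Fin (n + 1) → Option (ℤ × τ)) := by
      intro c'; funext k
      refine Fin.cases ?_ (fun j => ?_) k <;> simp [Cfg.toFun, Fin.consEquiv]
    have e1 : ∀ (gm : Gr × τ) (c' : Cfg τ Gr n), Cfg.toFun (τ := τ) (Gr := Gr) (n := n + 1)
        ((Fin.consEquiv (fun _ : Fin (n + 1) => Option (Gr × τ))) (some gm, c')) =
        (Fin.cons (some (gm.1.1, gm.2)) c'.toFun : Fin (n + 1) → Option (ℤ × τ)) := by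
      intro gm c'; funext k
      refine Fin.cases ?_ (fun j => ?_) k <;> simp [Cfg.toFun, Fin.consEquiv]
    simp_rw [e0, e1]
    have w0 : ∀ c' : Fin n → Option (ℤ × τ),
        wt z (Fin.cons none c' : Fin (n + 1) → Option (ℤ × τ)) = wt z c' := by
      intro c'; simp [wt, Fin.prod_univ_succ]
    have w1 : ∀ (gm : ℤ × τ) (c' : Fin n → Option (ℤ × τ)),
        wt z (Fin.cons (some gm) c' : Fin (n + 1) → Option (ℤ × τ)) = z gm.2 * wt z c' := by
      intro gm c'; simp [wt, Fin.prod_univ_succ]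
    have t0 : ∀ c' : Fin n → Option (ℤ × τ),
        tv (n + 1) x (Fin.cons none c' : Fin (n + 1) → Option (ℤ × τ)) = tv n x c' := by
      intro c'; simp [tv]
    have t1 : ∀ (gm : ℤ × τ) (c' : Fin n → Option (ℤ × τ)),
        tv (n + 1) x (Fin.cons (some gm) c' : Fin (n + 1) → Option (ℤ × τ)) =
          |((gm.1 - x : ℤ) : ℝ)| + tv n gm.1 c' := by
      intro gm c'; simp [tv]
    simp_rw [w0, w1, t0, t1]
    have h1 : ∀ gm : Gr × τ, ∑ c' : Cfg τ Gr n, z gm.2 * wt z c'.toFun *
        Real.exp (-lam * (|((gm.1.1 - x : ℤ) : ℝ)| + tv n gm.1.1 c'.toFun)) ≤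
        z gm.2 * Real.exp (-lam * |((gm.1.1 - x : ℤ) : ℝ)|) *
          (1 + 2 / (1 - Real.exp (-lam)) * ∑ m, z m) ^ n := by
      intro gm
      have : ∀ c' : Cfg τ Gr n, z gm.2 * wt z c'.toFun *
          Real.exp (-lam * (|((gm.1.1 - x : ℤ) : ℝ)| + tv n gm.1.1 c'.toFun)) =
          z gm.2 * Real.exp (-lam * |((gm.1.1 - x : ℤ) : ℝ)|) *
            (wt z c'.toFun * Real.exp (-lam * tv n gm.1.1 c'.toFun)) := by
        intro c'; rw [mul_add, Real.exp_add]; ring
      simp_rw [this]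
      rw [← Finset.mul_sum]
      exact mul_le_mul_of_nonneg_left (ih _) (mul_nonneg (hz _) (Real.exp_pos _).le)
    have h2 : ∑ gm : Gr × τ, z gm.2 * Real.exp (-lam * |((gm.1.1 - x : ℤ) : ℝ)|) ≤
        2 / (1 - Real.exp (-lam)) * ∑ m, z m := by
      rw [Fintype.sum_prod_type]
      have : ∀ g : Gr, ∑ m : τ, z (g, m).2 * Real.exp (-lam * |(((g, m).1.1 - x : ℤ) : ℝ)|) =
          Real.exp (-lam * |((g.1 - x : ℤ) : ℝ)|) * ∑ m, z m := by
        intro g; rw [Finset.mul_sum]; exact Finset.sum_congr rfl fun m _ => by ring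
      simp_rw [this]
      rw [← Finset.sum_mul]
      refine mul_le_mul_of_nonneg_right ?_ hZ
      have h3 := sum_exp_abs_le hl x Gr
      rwa [← Finset.sum_coe_sort] at h3
    calc _ ≤ (1 + 2 / (1 - Real.exp (-lam)) * ∑ m, z m) ^ n +
          ∑ gm : Gr × τ, z gm.2 * Real.exp (-lam * |((gm.1.1 - x : ℤ) : ℝ)|) *
            (1 + 2 / (1 - Real.exp (-lam)) * ∑ m, z m) ^ n :=
          add_le_add (ih x) (Finset.sum_le_sum fun gm _ => h1 gm)
      _ ≤ (1 + 2 / (1 - Real.exp (-lam)) * ∑ m, z m) ^ n +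
          (2 / (1 - Real.exp (-lam)) * ∑ m, z m) *
            (1 + 2 / (1 - Real.exp (-lam)) * ∑ m, z m) ^ n := by
          rw [← Finset.sum_mul]
          exact add_le_add_right (mul_le_mul_of_nonneg_right h2 (pow_nonneg hb _)) _
      _ = _ := by ring

/-- **Weighted union bound.** `E k g m` = the event that position `g` of row `k` is bad with mark
`m`; joint probabilities over distinct rows are at most the product of the `π m`. The probability
that there is a marked configuration, all of whose events hold, with `tv ≤ D + a * Σ w` and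
`Σ w ≥ A₀`, is small. -/
theorem union_bound {Ω : Type*} [MeasurableSpace Ω] (μ : Measure Ω) {n : ℕ}
    (E : Fin n → ℤ → τ → Set Ω) {π w : τ → ℝ} (hπ : ∀ m, 0 ≤ π m) (Gr : Finset ℤ)
    (hE : ∀ c : Fin n → Option (ℤ × τ),
      μ (⋂ k, (c k).elim Set.univ fun gm => E k gm.1 gm.2) ≤ ENNReal.ofReal (wt π c))
    {lam β D a A₀ : ℝ} (hl : 0 < lam) (hβ : 0 ≤ β) (x : ℤ) :
    μ {ω | ∃ c : Cfg τ Gr n, (∀ k, ∀ gm ∈ c.toFun k, ω ∈ E k gm.1 gm.2) ∧
        tv n x c.toFun ≤ D + a * ∑ k, (c.toFun k).elim 0 (fun gm => w gm.2) ∧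
        A₀ ≤ ∑ k, (c.toFun k).elim 0 (fun gm => w gm.2)} ≤
      ENNReal.ofReal (Real.exp (lam * D - β * A₀) *
        (1 + 2 / (1 - Real.exp (-lam)) *
          ∑ m, π m * Real.exp ((lam * a + β) * w m)) ^ n) := by
  classical
  set P : Cfg τ Gr n → Prop := fun c =>
    tv n x c.toFun ≤ D + a * ∑ k, (c.toFun k).elim 0 (fun gm => w gm.2) ∧
        A₀ ≤ ∑ k, (c.toFun k).elim 0 (fun gm => w gm.2) with hP
  have hsub : {ω | ∃ c : Cfg τ Gr n, (∀ k, ∀ gm ∈ c.toFun k, ω ∈ E k gm.1 gm.2) ∧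
        tv n x c.toFun ≤ D + a * ∑ k, (c.toFun k).elim 0 (fun gm => w gm.2) ∧
        A₀ ≤ ∑ k, (c.toFun k).elim 0 (fun gm => w gm.2)} ⊆
      ⋃ c ∈ (Finset.univ.filter P : Finset (Cfg τ Gr n)),
        ⋂ k, (c.toFun k).elim Set.univ fun gm => E k gm.1 gm.2 := by
    rintro ω ⟨c, h1, h2⟩
    simp only [Set.mem_iUnion]
    refine ⟨c, by simp [hP]; exact h2, ?_⟩
    simp only [Set.mem_iInter]
    intro k
    have := h1 k
    rcases h : c.toFun k with _ | gm
    · trivial
    · exact this gm h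
  refine (measure_mono hsub).trans ((measure_biUnion_finset_le _ _).trans ?_)
  refine (Finset.sum_le_sum fun c _ => hE c.toFun).trans ?_
  rw [← ENNReal.ofReal_sum_of_nonneg fun c _ => wt_nonneg hπ _]
  refine ENNReal.ofReal_le_ofReal ?_
  set z : τ → ℝ := fun m => π m * Real.exp ((lam * a + β) * w m) with hz
  have hz0 : ∀ m, 0 ≤ z m := fun m => mul_nonneg (hπ m) (Real.exp_pos _).le
  have hwz : ∀ c : Fin n → Option (ℤ × τ), wt z c =
      wt π c * Real.exp ((lam * a + β) * ∑ k, (c k).elim 0 (fun gm => w gm.2)) := by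
    intro c
    rw [Finset.mul_sum, Real.exp_sum, wt, wt, ← Finset.prod_mul_distrib]
    refine Finset.prod_congr rfl fun k _ => ?_
    rcases c k with _ | gm
    · simp
    · simp [hz]
  calc ∑ c ∈ Finset.univ.filter P, wt π c.toFun
      ≤ ∑ c ∈ Finset.univ.filter P, Real.exp (lam * D - β * A₀) *
        (wt z c.toFun * Real.exp (-lam * tv n x c.toFun)) := by
        refine Finset.sum_le_sum fun c hc => ?_
        have hc' := (Finset.mem_filter.1 hc).2
        rw [hwz]
        set s := ∑ k, (c.toFun k).elim 0 (fun gm => w gm.2) with hs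
        have e : Real.exp (lam * D - β * A₀) *
          (wt π c.toFun * Real.exp ((lam * a + β) * s) * Real.exp (-lam * tv n x c.toFun)) =
          wt π c.toFun * Real.exp (lam * (D + a * s - tv n x c.toFun) + β * (s - A₀)) := by
          rw [mul_comm (Real.exp _), mul_assoc, mul_assoc, ← Real.exp_add, ← Real.exp_add]
          congr 2; ring
        rw [e]
        refine le_mul_of_one_le_right (wt_nonneg hπ _) (Real.one_le_exp ?_)
        have h1 : 0 ≤ D + a * s - tv n x c.toFun := by linarith [hc'.1]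
        have h2 : 0 ≤ s - A₀ := by linarith [hc'.2]
        positivity
    _ ≤ ∑ c : Cfg τ Gr n, Real.exp (lam * D - β * A₀) *
        (wt z c.toFun * Real.exp (-lam * tv n x c.toFun)) :=
        Finset.sum_le_sum_of_subset_of_nonneg (Finset.subset_univ _) fun c _ _ =>
          mul_nonneg (Real.exp_pos _).le (mul_nonneg (wt_nonneg hz0 _) (Real.exp_pos _).le)
    _ = Real.exp (lam * D - β * A₀) *
        ∑ c : Cfg τ Gr n, wt z c.toFun * Real.exp (-lam * tv n x c.toFun) := by
        rw [Finset.mul_sum]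
    _ ≤ _ := mul_le_mul_of_nonneg_left (sum_wt_exp_le hl hz0 Gr n x) (Real.exp_pos _).le

end count

end Crest.Agent.R151.W
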