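import Mathlib
import Crest.Agent.R151.W3a

/-!
R151: counting integer skeletons and the hysteresis lemma (for part 1, step (5)).
-/

set_option autoImplicit false

namespace Crest.Agent.R151.W

open Finset

/-- number of integer sequences of bounded total variation -/
theorem card_sum_abs_le {ι : Type*} [Fintype ι] (S : Finset (ι → ℤ)) {K l : ℝ}
    (hl : 0 < l) (hS : ∀ d ∈ S, ∑ i, |((d i : ℤ) : ℝ)| ≤ K) :
    (S.card : ℝ) ≤ Real.exp (l * K) * (2 / (1 - Real.exp (-l))) ^ Fintype.card ι := by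
  classical
  set Gr : Finset ℤ := S.biUnion fun d => Finset.univ.image d with hGr
  have hsub : S ⊆ Fintype.piFinset fun _ : ι => Gr := by
    intro d hd
    rw [Fintype.mem_piFinset]
    intro i
    exact Finset.mem_biUnion.2 ⟨d, hd, Finset.mem_image_of_mem _ (Finset.mem_univ i)⟩
  calc (S.card : ℝ) = ∑ d ∈ S, (1 : ℝ) := by simp
    _ ≤ ∑ d ∈ S, Real.exp (l * K) * ∏ i, Real.exp (-l * |((d i : ℤ) : ℝ)|) := by
        refine Finset.sum_le_sum fun d hd => ?_
        rw [← Real.exp_sum, ← Real.exp_add, ← Finset.mul_sum]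
        refine Real.one_le_exp ?_
        have := mul_le_mul_of_nonneg_left (hS d hd) hl.le
        linarith
    _ ≤ ∑ d ∈ Fintype.piFinset fun _ : ι => Gr,
          Real.exp (l * K) * ∏ i, Real.exp (-l * |((d i : ℤ) : ℝ)|) :=
        Finset.sum_le_sum_of_subset_of_nonneg hsub fun d _ _ =>
          mul_nonneg (Real.exp_pos _).le (Finset.prod_nonneg fun i _ => (Real.exp_pos _).le)
    _ = Real.exp (l * K) * ∏ _i : ι, ∑ g ∈ Gr, Real.exp (-l * |((g : ℤ) : ℝ)|) := by
        rw [← Finset.mul_sum, Finset.prod_univ_sum]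
    _ ≤ Real.exp (l * K) * ∏ _i : ι, 2 / (1 - Real.exp (-l)) := by
        refine mul_le_mul_of_nonneg_left (Finset.prod_le_prod (fun i _ =>
          Finset.sum_nonneg fun g _ => (Real.exp_pos _).le) fun i _ => ?_) (Real.exp_pos _).le
        have := sum_exp_abs_le hl 0 Gr
        simpa using this
    _ = _ := by rw [Finset.prod_const, Finset.card_univ]

/-- The same with the sharp base `(1 + e^{-l}) / (1 - e^{-l})`. -/
theorem sum_exp_abs_le' {l : ℝ} (hl : 0 < l) (Gr : Finset ℤ) :
    ∑ g ∈ Gr, Real.exp (-l * |((g : ℤ) : ℝ)|) ≤ (1 + Real.exp (-l)) / (1 - Real.exp (-l)) := by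
  have hr0 : 0 ≤ Real.exp (-l) := (Real.exp_pos _).le
  have hr1 : Real.exp (-l) < 1 := by rw [Real.exp_lt_one_iff]; linarith
  have e : ∀ g : ℤ, Real.exp (-l * |((g : ℤ) : ℝ)|) = Real.exp (-l) ^ g.natAbs := by
    intro g
    have h : |((g : ℤ) : ℝ)| = (g.natAbs : ℝ) := by
      rw [← Int.cast_abs, Int.abs_eq_natAbs, Int.cast_natCast]
    rw [← Real.exp_nat_mul, h, mul_comm]
  simp_rw [e]
  rw [← Finset.sum_filter_add_sum_filter_not Gr (fun g => 0 ≤ g)]
  have h1 : ∑ g ∈ Gr.filter (fun g => 0 ≤ g), Real.exp (-l) ^ g.natAbs ≤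
      1 / (1 - Real.exp (-l)) := by
    rw [← Finset.sum_image (f := fun d : ℕ => Real.exp (-l) ^ d) (g := fun g : ℤ => g.natAbs)
      (by
        intro a ha b hb h
        simp only [Finset.coe_filter, Set.mem_ofPred_eq] at ha hb
        dsimp only at h
        omega)]
    rw [one_div, ← tsum_geometric_of_lt_one hr0 hr1]
    exact (summable_geometric_of_lt_one hr0 hr1).sum_le_tsum _ (fun _ _ => by positivity)
  have h2 : ∑ g ∈ Gr.filter (fun g => ¬ 0 ≤ g), Real.exp (-l) ^ g.natAbs ≤
      Real.exp (-l) * (1 / (1 - Real.exp (-l))) := by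
    have : ∀ g ∈ Gr.filter (fun g => ¬ 0 ≤ g), Real.exp (-l) ^ g.natAbs =
        Real.exp (-l) * Real.exp (-l) ^ (g.natAbs - 1) := by
      intro g hg
      simp only [Finset.mem_filter, not_le] at hg
      have : g.natAbs = (g.natAbs - 1) + 1 := by omega
      conv_lhs => rw [this, pow_succ']
    rw [Finset.sum_congr rfl this, ← Finset.mul_sum]
    refine mul_le_mul_of_nonneg_left ?_ hr0
    rw [← Finset.sum_image (f := fun d : ℕ => Real.exp (-l) ^ d)
      (g := fun g : ℤ => g.natAbs - 1)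
      (by
        intro a ha b hb h
        simp only [Finset.coe_filter, Set.mem_ofPred_eq] at ha hb
        dsimp only at h
        omega)]
    rw [one_div, ← tsum_geometric_of_lt_one hr0 hr1]
    exact (summable_geometric_of_lt_one hr0 hr1).sum_le_tsum _ (fun _ _ => by positivity)
  calc _ ≤ 1 / (1 - Real.exp (-l)) + Real.exp (-l) * (1 / (1 - Real.exp (-l))) := add_le_add h1 h2
    _ = _ := by ring

theorem card_sum_abs_le' {ι : Type*} [Fintype ι] (S : Finset (ι → ℤ)) {K l : ℝ}
    (hl : 0 < l) (hS : ∀ d ∈ S, ∑ i, |((d i : ℤ) : ℝ)| ≤ K) :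
    (S.card : ℝ) ≤ Real.exp (l * K) *
      ((1 + Real.exp (-l)) / (1 - Real.exp (-l))) ^ Fintype.card ι := by
  classical
  set Gr : Finset ℤ := S.biUnion fun d => Finset.univ.image d with hGr
  have hsub : S ⊆ Fintype.piFinset fun _ : ι => Gr := by
    intro d hd
    rw [Fintype.mem_piFinset]
    intro i
    exact Finset.mem_biUnion.2 ⟨d, hd, Finset.mem_image_of_mem _ (Finset.mem_univ i)⟩
  calc (S.card : ℝ) = ∑ d ∈ S, (1 : ℝ) := by simp
    _ ≤ ∑ d ∈ S, Real.exp (l * K) * ∏ i, Real.exp (-l * |((d i : ℤ) : ℝ)|) := by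
        refine Finset.sum_le_sum fun d hd => ?_
        rw [← Real.exp_sum, ← Real.exp_add, ← Finset.mul_sum]
        refine Real.one_le_exp ?_
        have := mul_le_mul_of_nonneg_left (hS d hd) hl.le
        linarith
    _ ≤ ∑ d ∈ Fintype.piFinset fun _ : ι => Gr,
          Real.exp (l * K) * ∏ i, Real.exp (-l * |((d i : ℤ) : ℝ)|) :=
        Finset.sum_le_sum_of_subset_of_nonneg hsub fun d _ _ =>
          mul_nonneg (Real.exp_pos _).le (Finset.prod_nonneg fun i _ => (Real.exp_pos _).le)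
    _ = Real.exp (l * K) * ∏ _i : ι, ∑ g ∈ Gr, Real.exp (-l * |((g : ℤ) : ℝ)|) := by
        rw [← Finset.mul_sum, Finset.prod_univ_sum]
    _ ≤ Real.exp (l * K) * ∏ _i : ι, (1 + Real.exp (-l)) / (1 - Real.exp (-l)) := by
        refine mul_le_mul_of_nonneg_left (Finset.prod_le_prod (fun i _ =>
          Finset.sum_nonneg fun g _ => (Real.exp_pos _).le) fun i _ => ?_) (Real.exp_pos _).le
        exact sum_exp_abs_le' hl Gr
    _ = _ := by rw [Finset.prod_const, Finset.card_univ]

/-- the integer skeletons of total variation at most `K` form a finite set -/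
theorem finite_sum_abs_le (ι : Type*) [Fintype ι] (K : ℝ) :
    {d : ι → ℤ | ∑ i, |((d i : ℤ) : ℝ)| ≤ K}.Finite := by
  classical
  refine (Set.Finite.pi' fun _ : ι => Set.finite_Icc (-⌈|K|⌉) ⌈|K|⌉).subset ?_
  intro d hd i
  have h1 : |((d i : ℤ) : ℝ)| ≤ K :=
    (Finset.single_le_sum (f := fun i => |((d i : ℤ) : ℝ)|) (fun i _ => abs_nonneg _)
      (Finset.mem_univ i)).trans hd
  have h2 : |((d i : ℤ) : ℝ)| ≤ ⌈|K|⌉ := h1.trans ((le_abs_self K).trans (Int.le_ceil _))
  rw [abs_le] at h2
  constructor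
  · exact_mod_cast h2.1
  · exact_mod_cast h2.2

/-- the hysteresis follower -/
noncomputable def hyst (x : ℕ → ℝ) : ℕ → ℤ
  | 0 => 0
  | k + 1 => if |x (k + 1) - (hyst x k : ℝ)| ≤ 1 then hyst x k else round (x (k + 1))

/-- **Hysteresis lemma.** A real sequence starting at `0` is followed within distance `1` by an
integer sequence whose total variation is at most three times that of the real one. -/
theorem exists_hysteresis (x : ℕ → ℝ) (hx : x 0 = 0) :
    ∃ r : ℕ → ℤ, r 0 = 0 ∧ (∀ k, |x k - r k| ≤ 1) ∧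
      ∀ n, ∑ k ∈ range n, |((r (k + 1) - r k : ℤ) : ℝ)| ≤
        3 * ∑ k ∈ range n, |x (k + 1) - x k| := by
  set r : ℕ → ℤ := hyst x with hr
  have hr0 : r 0 = 0 := rfl
  have hrs : ∀ k, r (k + 1) = if |x (k + 1) - (r k : ℝ)| ≤ 1 then r k else round (x (k + 1)) :=
    fun k => rfl
  have h1 : ∀ k, |x k - r k| ≤ 1 := by
    intro k
    cases k with
    | zero => rw [hr0, hx]; simp
    | succ k =>
      rw [hrs]
      split_ifs with h
      · exact h
      · have := abs_sub_round (x (k + 1)); linarith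
  refine ⟨r, hr0, h1, fun n => ?_⟩
  have key : ∀ n, ∑ k ∈ range n, |((r (k + 1) - r k : ℤ) : ℝ)| + 3 * max (|x n - r n| - 1 / 2) 0 ≤
      3 * ∑ k ∈ range n, |x (k + 1) - x k| := by
    intro n
    induction n with
    | zero => simp [hr0, hx]
    | succ n ih =>
      rw [Finset.sum_range_succ, Finset.sum_range_succ (fun k => |x (k + 1) - x k|)]
      have hD : |x (n + 1) - r n| ≤ |x n - r n| + |x (n + 1) - x n| := by
        calc |x (n + 1) - r n| = |(x n - r n) + (x (n + 1) - x n)| := by ring_nf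
          _ ≤ _ := abs_add_le _ _
      have hm0 : |x n - r n| - 1 / 2 ≤ max (|x n - r n| - 1 / 2) 0 := le_max_left _ _
      have hm1 : 0 ≤ max (|x n - (r n : ℝ)| - 1 / 2) 0 := le_max_right _ _
      have ht := abs_nonneg (x (n + 1) - x n)
      by_cases h : |x (n + 1) - (r n : ℝ)| ≤ 1
      · have e : r (n + 1) = r n := by rw [hrs, if_pos h]
        rw [e]
        simp only [sub_self, Int.cast_zero, abs_zero, add_zero]
        have : max (|x (n + 1) - (r n : ℝ)| - 1 / 2) 0 ≤
            max (|x n - (r n : ℝ)| - 1 / 2) 0 + |x (n + 1) - x n| :=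
          max_le (by linarith) (by linarith)
        linarith
      · have e : r (n + 1) = round (x (n + 1)) := by rw [hrs, if_neg h]
        rw [e]
        push Not at h
        have h2 := abs_sub_round (x (n + 1))
        have h3 : max (|x (n + 1) - (round (x (n + 1)) : ℝ)| - 1 / 2) 0 = 0 :=
          max_eq_right (by linarith)
        have h4 : |((round (x (n + 1)) - r n : ℤ) : ℝ)| ≤ |x (n + 1) - r n| + 1 / 2 := by
          push_cast
          calc |(round (x (n + 1)) : ℝ) - r n| =
              |(x (n + 1) - r n) - (x (n + 1) - round (x (n + 1)))| := by ring_nf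
            _ ≤ |x (n + 1) - r n| + |x (n + 1) - round (x (n + 1))| := abs_sub _ _
            _ ≤ _ := by linarith
        rw [h3]
        linarith
  have := key n
  have h2 : 0 ≤ max (|x n - (r n : ℝ)| - 1 / 2) 0 := le_max_right _ _
  linarith

end Crest.Agent.R151.W
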