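import Crest.Agent.R151.X684a
import Crest.Agent.R151.W4

/-!
# R151, block X (helper684), part c: union bound over skeletons for independent blocks
-/

set_option autoImplicit false

open MeasureTheory ProbabilityTheory Filter Topology
open Crest.ProbabilityR.FirstPassage
open Crest.Agent.R151.A (shift eShift block sig eX)

namespace Crest.Agent.R151.X

variable (G : Measure ℝ) [IsProbabilityMeasure G]

/-- number of the events `F 0, …, F (M-1)` that occur -/
noncomputable def cnt (F : ℕ → Set Environment) (M : ℕ) (t : Environment) : ℝ :=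
  ∑ k ∈ Finset.range M, (F k).indicator (fun _ => (1 : ℝ)) t

lemma measurable_cnt {S : ℕ → Set (Sym2 (ℤ × ℤ))} {F : ℕ → Set Environment}
    (hF : ∀ k, MeasurableSet[sig (S k)] (F k)) (M : ℕ) :
    Measurable[sig (⋃ j ∈ Finset.range M, S j)] (cnt F M) := by
  unfold cnt
  refine Finset.measurable_fun_sum _ fun k hk => ?_
  have h1 : MeasurableSet[sig (⋃ j ∈ Finset.range M, S j)] (F k) :=
    sig_mono (Set.subset_biUnion_of_mem (u := fun j => S j) (by simpa using hk)) _ (hF k)
  exact (@measurable_const _ _ _ (sig (⋃ j ∈ Finset.range M, S j)) (1 : ℝ)).indicator h1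

lemma exp_neg_indicator (E : Set Environment) (t : Environment) :
    Real.exp (-(E.indicator (fun _ => (1 : ℝ)) t)) =
      1 - (1 - Real.exp (-1)) * E.indicator (fun _ => (1 : ℝ)) t := by
  by_cases h : t ∈ E
  · simp [Set.indicator_of_mem h]
  · simp [Set.indicator_of_notMem h]

lemma cnt_nonneg (F : ℕ → Set Environment) (M : ℕ) (t : Environment) : 0 ≤ cnt F M t :=
  Finset.sum_nonneg fun k _ => Set.indicator_nonneg (fun _ _ => zero_le_one) t

lemma integral_exp_cnt {S : ℕ → Set (Sym2 (ℤ × ℤ))} {F : ℕ → Set Environment}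
    (hF : ∀ k, MeasurableSet[sig (S k)] (F k))
    (hdis : ∀ M : ℕ, Disjoint (⋃ j ∈ Finset.range M, S j) (S M)) {c : ℝ} (hc1 : c ≤ 1)
    (hc : ∀ k, c ≤ (iidLaw G).real (F k)) (M : ℕ) :
    ∫ t, Real.exp (-cnt F M t) ∂(iidLaw G) ≤ (1 - (1 - Real.exp (-1)) * c) ^ M := by
  have hθ0 : 0 < 1 - Real.exp (-1) := by
    have : Real.exp (-1) < 1 := by rw [Real.exp_lt_one_iff]; norm_num
    linarith
  have hθ1 : 1 - Real.exp (-1) < 1 := by linarith [Real.exp_pos (-1)]
  induction M with
  | zero => simp [cnt]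
  | succ M ih =>
    have h1 : ∀ t, Real.exp (-cnt F (M + 1) t) = Real.exp (-cnt F M t) *
        Real.exp (-((F M).indicator (fun _ => (1 : ℝ)) t)) := by
      intro t
      rw [← Real.exp_add]
      congr 1
      unfold cnt
      rw [Finset.sum_range_succ]
      ring
    have hm1 : Measurable[sig (⋃ j ∈ Finset.range M, S j)] fun t => Real.exp (-cnt F M t) :=
      Real.measurable_exp.comp (measurable_cnt hF M).neg
    have hm2 : Measurable[sig (S M)] fun t : Environment =>
        Real.exp (-((F M).indicator (fun _ => (1 : ℝ)) t)) :=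
      Real.measurable_exp.comp
        ((@measurable_const _ _ _ (sig (S M)) (1 : ℝ)).indicator (hF M)).neg
    have hind : IndepFun (fun t => Real.exp (-cnt F M t))
        (fun t => Real.exp (-((F M).indicator (fun _ => (1 : ℝ)) t))) (iidLaw G) := by
      rw [IndepFun_iff_Indep]
      exact indep_of_indep_of_le_left (indep_of_indep_of_le_right (A.indep_sig G (hdis M))
        hm2.comap_le) hm1.comap_le
    simp_rw [h1]
    rw [hind.integral_fun_mul_eq_mul_integral
      ((hm1.mono (sig_le _) le_rfl).aestronglyMeasurable)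
      ((hm2.mono (sig_le _) le_rfl).aestronglyMeasurable)]
    have h2 : ∫ t, Real.exp (-((F M).indicator (fun _ => (1 : ℝ)) t)) ∂(iidLaw G) =
        1 - (1 - Real.exp (-1)) * (iidLaw G).real (F M) := by
      simp_rw [exp_neg_indicator]
      have hFM : MeasurableSet (F M) := sig_le _ _ (hF M)
      rw [integral_sub (integrable_const _)
        (((integrable_const (1 : ℝ)).indicator hFM).const_mul _), integral_const_mul,
        integral_indicator_const _ hFM]
      simp
    rw [h2, pow_succ]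
    have h3 : 1 - (1 - Real.exp (-1)) * (iidLaw G).real (F M) ≤ 1 - (1 - Real.exp (-1)) * c := by
      have := mul_le_mul_of_nonneg_left (hc M) hθ0.le
      linarith
    have h4 : 0 ≤ 1 - (1 - Real.exp (-1)) * (iidLaw G).real (F M) := by
      have h5 : (iidLaw G).real (F M) ≤ 1 := measureReal_le_one
      nlinarith
    have h5 : 0 ≤ ∫ t, Real.exp (-cnt F M t) ∂(iidLaw G) :=
      integral_nonneg fun t => (Real.exp_pos _).le
    exact mul_le_mul ih h3 h4 (h5.trans ih)

/-- Chernoff bound for the number of occurring events among independent ones -/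
lemma prob_cnt_le {S : ℕ → Set (Sym2 (ℤ × ℤ))} {F : ℕ → Set Environment}
    (hF : ∀ k, MeasurableSet[sig (S k)] (F k))
    (hdis : ∀ M : ℕ, Disjoint (⋃ j ∈ Finset.range M, S j) (S M)) {c : ℝ} (hc1 : c ≤ 1)
    (hc : ∀ k, c ≤ (iidLaw G).real (F k)) (M : ℕ) (K : ℝ) :
    (iidLaw G).real {t | cnt F M t ≤ K} ≤
      Real.exp K * (1 - (1 - Real.exp (-1)) * c) ^ M := by
  have hm : Measurable (cnt F M) := (measurable_cnt hF M).mono (sig_le _) le_rfl
  have hint : Integrable (fun t => Real.exp (-cnt F M t)) (iidLaw G) := by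
    refine Integrable.of_bound (Real.measurable_exp.comp hm.neg).aestronglyMeasurable 1 ?_
    refine Eventually.of_forall fun t => ?_
    rw [Real.norm_eq_abs, abs_of_pos (Real.exp_pos _), Real.exp_le_one_iff]
    linarith [cnt_nonneg F M t]
  have h1 : Real.exp (-K) * (iidLaw G).real {t | cnt F M t ≤ K} ≤
      ∫ t, Real.exp (-cnt F M t) ∂(iidLaw G) := by
    have h2 := mul_meas_ge_le_integral_of_nonneg (μ := iidLaw G)
      (f := fun t => Real.exp (-cnt F M t))
      (Eventually.of_forall fun t => (Real.exp_pos _).le) hint (Real.exp (-K))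
    refine le_trans (le_of_eq ?_) h2
    congr 2
    ext t
    simp only [Set.mem_ofPred_eq, Real.exp_le_exp, neg_le_neg_iff]
  have h2 := integral_exp_cnt G hF hdis hc1 hc M
  have h3 : (iidLaw G).real {t | cnt F M t ≤ K} =
      Real.exp K * (Real.exp (-K) * (iidLaw G).real {t | cnt F M t ≤ K}) := by
    rw [← mul_assoc, ← Real.exp_add]
    simp
  rw [h3]
  exact mul_le_mul_of_nonneg_left (h1.trans h2) (Real.exp_pos _).le

/-- the event that some skeleton of small variation has few failing blocks -/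
def SkelEv (F : ℕ → ℤ → Set Environment) (M : ℕ) (V K : ℝ) : Set Environment :=
  {t | ∃ r : ℕ → ℤ, r 0 = 0 ∧ ∑ k ∈ Finset.range M, |((r (k + 1) - r k : ℤ) : ℝ)| ≤ V ∧
    cnt (fun k => F k (r (k + 1))) M t ≤ K}

/-- the union bound over skeletons -/
lemma prob_skel_le {S : ℕ → Set (Sym2 (ℤ × ℤ))} {F : ℕ → ℤ → Set Environment}
    (hF : ∀ k r, MeasurableSet[sig (S k)] (F k r))
    (hdis : ∀ M : ℕ, Disjoint (⋃ j ∈ Finset.range M, S j) (S M)) {c : ℝ} (hc1 : c ≤ 1)
    (hc : ∀ k r, c ≤ (iidLaw G).real (F k r)) (M : ℕ) {V K l : ℝ} (hl : 0 < l) :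
    (iidLaw G).real (SkelEv F M V K) ≤
      Real.exp (l * V) * ((1 + Real.exp (-l)) / (1 - Real.exp (-l))) ^ M *
        (Real.exp K * (1 - (1 - Real.exp (-1)) * c) ^ M) := by
  classical
  set D : Finset (Fin M → ℤ) := (W.finite_sum_abs_le (Fin M) V).toFinset with hD
  -- the skeleton with increments `d`
  set R : (Fin M → ℤ) → ℕ → ℤ := fun d k =>
    ∑ j : Fin M, if (j : ℕ) < k then d j else 0 with hR
  have hsub : SkelEv F M V K ⊆
      ⋃ d ∈ D, {t | cnt (fun k => F k (R d (k + 1))) M t ≤ K} := by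
    rintro t ⟨r, h0, h1, h2⟩
    set d : Fin M → ℤ := fun j => r (j + 1) - r j with hd
    have hRd : ∀ k ≤ M, R d k = r k := by
      intro k hk
      have h3 : R d k = ∑ j ∈ Finset.range M, if j < k then (r (j + 1) - r j) else 0 := by
        simp only [hR, hd]
        exact Fin.sum_univ_eq_sum_range (fun j => if j < k then (r (j + 1) - r j) else 0) M
      rw [h3, ← Finset.sum_filter]
      have h4 : (Finset.range M).filter (fun j => j < k) = Finset.range k := by
        ext j; simp only [Finset.mem_filter, Finset.mem_range]; omega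
      rw [h4, Finset.sum_range_sub, h0, sub_zero]
    have hdD : d ∈ D := by
      rw [hD, Set.Finite.mem_toFinset]
      show ∑ i, |((d i : ℤ) : ℝ)| ≤ V
      have h3 : ∑ i : Fin M, |((d i : ℤ) : ℝ)| =
          ∑ k ∈ Finset.range M, |((r (k + 1) - r k : ℤ) : ℝ)| :=
        Fin.sum_univ_eq_sum_range (fun k => |((r (k + 1) - r k : ℤ) : ℝ)|) M
      rw [h3]
      exact h1
    simp only [Set.mem_iUnion]
    refine ⟨d, hdD, ?_⟩
    have h5 : cnt (fun k => F k (R d (k + 1))) M t = cnt (fun k => F k (r (k + 1))) M t := by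
      unfold cnt
      refine Finset.sum_congr rfl fun k hk => ?_
      show (F k (R d (k + 1))).indicator _ t = (F k (r (k + 1))).indicator _ t
      rw [hRd (k + 1) (by have := Finset.mem_range.1 hk; omega)]
    simp only [Set.mem_ofPred_eq, h5]
    exact h2
  have hcard := W.card_sum_abs_le' D (K := V) hl (by
    intro d hd
    rw [hD, Set.Finite.mem_toFinset] at hd
    exact hd)
  rw [Fintype.card_fin] at hcard
  have h1 : (iidLaw G).real (SkelEv F M V K) ≤
      ∑ d ∈ D, (iidLaw G).real {t | cnt (fun k => F k (R d (k + 1))) M t ≤ K} :=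
    (measureReal_mono hsub (measure_ne_top _ _)).trans (measureReal_biUnion_finset_le _ _)
  have h2 : ∑ d ∈ D, (iidLaw G).real {t | cnt (fun k => F k (R d (k + 1))) M t ≤ K} ≤
      ∑ _d ∈ D, Real.exp K * (1 - (1 - Real.exp (-1)) * c) ^ M :=
    Finset.sum_le_sum fun d _ =>
      prob_cnt_le G (fun k => hF k (R d (k + 1))) hdis hc1 (fun k => hc k _) M K
  rw [Finset.sum_const, nsmul_eq_mul] at h2
  refine (h1.trans h2).trans ?_
  have hθ0 : 0 < 1 - Real.exp (-1) := by
    have : Real.exp (-1) < 1 := by rw [Real.exp_lt_one_iff]; norm_num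
    linarith
  have hθ1 : 1 - Real.exp (-1) < 1 := by linarith [Real.exp_pos (-1)]
  have h3 : 0 ≤ 1 - (1 - Real.exp (-1)) * c := by nlinarith
  exact mul_le_mul_of_nonneg_right hcard (by positivity)

/-- choice of the constants in the union bound -/
lemma exists_nu {c : ℝ} (hc0 : 0 < c) (hc1 : c ≤ 1) :
    ∃ ν > 0, ν ≤ 1 ∧ ∃ M0 : ℕ, ∀ M : ℕ, M0 ≤ M → ∃ l > 0,
      Real.exp (l * (ν * M)) * ((1 + Real.exp (-l)) / (1 - Real.exp (-l))) ^ M *
        (Real.exp (ν * M) * (1 - (1 - Real.exp (-1)) * c) ^ M) ≤ 1 / 4 := by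
  have hθ0 : 0 < 1 - Real.exp (-1) := by
    have : Real.exp (-1) < 1 := by rw [Real.exp_lt_one_iff]; norm_num
    linarith
  have hθ1 : 1 - Real.exp (-1) < 1 := by linarith [Real.exp_pos (-1)]
  set q : ℝ := 1 - (1 - Real.exp (-1)) * c with hq
  have hq1 : q < 1 := by have : 0 < (1 - Real.exp (-1)) * c := by positivity
                         linarith
  have hq0 : 0 < q := by
    have : (1 - Real.exp (-1)) * c ≤ (1 - Real.exp (-1)) * 1 :=
      mul_le_mul_of_nonneg_left hc1 hθ0.le
    linarith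
  -- choose l with (1+e^-l)/(1-e^-l) * q < 1
  have hlim : Tendsto (fun l : ℝ => (1 + Real.exp (-l)) / (1 - Real.exp (-l)) * q) atTop
      (𝓝 ((1 + 0) / (1 - 0) * q)) := by
    have h1 : Tendsto (fun l : ℝ => Real.exp (-l)) atTop (𝓝 0) :=
      Real.tendsto_exp_neg_atTop_nhds_zero
    exact ((h1.const_add 1).div (h1.const_sub 1) (by norm_num)).mul_const q
  have hev : ∀ᶠ l : ℝ in atTop, (1 + Real.exp (-l)) / (1 - Real.exp (-l)) * q < (1 + q) / 2 := by
    refine hlim.eventually_lt_const ?_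
    norm_num
    linarith
  obtain ⟨l, hl1, hl2⟩ := (hev.and (eventually_gt_atTop 0)).exists
  set A : ℝ := (1 + Real.exp (-l)) / (1 - Real.exp (-l)) with hA
  have hA0 : 0 < A := by
    have : Real.exp (-l) < 1 := by rw [Real.exp_lt_one_iff]; linarith
    rw [hA]
    exact div_pos (by positivity) (by linarith)
  -- choose ν
  have hlim2 : Tendsto (fun ν : ℝ => Real.exp (l * ν + ν) * ((1 + q) / 2)) (𝓝[>] 0)
      (𝓝 (Real.exp (l * 0 + 0) * ((1 + q) / 2))) := by
    have : Continuous fun ν : ℝ => Real.exp (l * ν + ν) * ((1 + q) / 2) := by fun_prop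
    exact this.continuousAt.tendsto.mono_left nhdsWithin_le_nhds
  have hev2 : ∀ᶠ ν : ℝ in 𝓝[>] 0, Real.exp (l * ν + ν) * ((1 + q) / 2) < 1 := by
    refine hlim2.eventually_lt_const ?_
    simp only [mul_zero, add_zero, Real.exp_zero, one_mul]
    linarith
  obtain ⟨ν, hν1, hν2, hν3⟩ := ((hev2.and (Ioo_mem_nhdsGT (show (0 : ℝ) < 1 by norm_num)))).exists
  set ρ : ℝ := Real.exp (l * ν + ν) * (A * q) with hρ
  have hρ1 : ρ < 1 := by
    refine lt_of_le_of_lt ?_ hν1
    exact mul_le_mul_of_nonneg_left hl1.le (Real.exp_pos _).le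
  have hρ0 : 0 ≤ ρ := by positivity
  obtain ⟨M0, hM0⟩ := exists_pow_lt_of_lt_one (show (0 : ℝ) < 1 / 4 by norm_num) hρ1
  refine ⟨ν, hν2, hν3.le, M0, fun M hM => ⟨l, hl2, ?_⟩⟩
  have h1 : Real.exp (l * (ν * M)) * A ^ M * (Real.exp (ν * M) * q ^ M) = ρ ^ M := by
    rw [hρ, mul_pow, mul_pow, ← Real.exp_nat_mul]
    have : Real.exp (M * (l * ν + ν)) = Real.exp (l * (ν * M)) * Real.exp (ν * M) := by
      rw [← Real.exp_add]; congr 1; ring
    rw [this]
    ring
  rw [h1]
  exact (pow_le_pow_of_le_one hρ0 hρ1.le hM).trans hM0.le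

end Crest.Agent.R151.X
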