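import Crest.Agent.R151.X684b
import Crest.Agent.R151.X684c

/-!
# R151, block X (helper684), part d: from a long good path to a typical good block
-/

set_option autoImplicit false

open MeasureTheory ProbabilityTheory Filter Topology
open Crest.ProbabilityR.FirstPassage
open Crest.Agent.R151.A (shift eShift block sig eX)
open Crest.Agent.R151.K (Nn)

namespace Crest.Agent.R151.X

lemma Cr_start_mem {S : Set (Sym2 (ℤ × ℤ))} {x y : ℤ × ℤ} {c : ℝ} {t : Environment}
    (h : Cr S x y c t) (hxy : x ≠ y) : ∃ e ∈ S, x ∈ e := by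
  obtain ⟨w, h1, -⟩ := h
  cases w with
  | nil => exact absurd rfl hxy
  | @cons _ b _ hadj p => exact ⟨s(x, b), h1 _ (by simp), Sym2.mem_mk_left _ _⟩

lemma Cr_end_mem {S : Set (Sym2 (ℤ × ℤ))} {x y : ℤ × ℤ} {c : ℝ} {t : Environment}
    (h : Cr S x y c t) (hxy : x ≠ y) : ∃ e ∈ S, y ∈ e :=
  Cr_start_mem h.symm (Ne.symm hxy)

lemma le_of_Cr {S : Set (Sym2 (ℤ × ℤ))} {x y : ℤ × ℤ} {c : ℝ} {t : Environment} (ht : Nn t)
    (h : Cr S x y c t) : passageTime t x y ≤ c := by
  obtain ⟨w, -, h2⟩ := h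
  exact (K.pt_le ht w).trans h2

lemma ht_col (s : ℝ) (k z z' : ℤ) : ht s (k, z') - ht s (k, z) = (z' : ℝ) - z := by
  simp only [ht]; ring

lemma lin_col (α β : ℝ) (k z z' : ℤ) :
    lin α β (k, z') - lin α β (k, z) = β * ((z' : ℝ) - z) := by
  simp only [lin]; ring

/-- crossings of the block of columns `[p, q)` near height `u` with small energy -/
def Blk (s α β u w L v : ℝ) (p q : ℤ) : Set Environment :=
  {t | ∃ x y : ℤ, |ht s (p, x) - u| ≤ L ∧ |ht s (q, y) - u| ≤ L ∧
    CrE α β (sl s u w p q) (p, x) (q, y) v t}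

/-- some crossing of the block with energy below the hard wall -/
def HWbad (s α β a u w δ : ℝ) (p q : ℤ) : Set Environment :=
  {t | ∃ x y : ℤ, CrE α β (sl s u w p q) (p, x) (q, y)
    (a * |ht s (q, y) - ht s (p, x)| - δ) t}

/-- the columns `0, …, N` are regular -/
def ColOK (s β a' u w δ : ℝ) (N : ℕ) : Set Environment :=
  {t | ∀ k : ℤ, 0 ≤ k → k ≤ N → ∀ z z' : ℤ, |ht s (k, z) - u| ≤ w → |ht s (k, z') - u| ≤ w →
    β * ((z' : ℝ) - z) + a' * |(z' : ℝ) - z| - δ ≤ passageTime t (k, z) (k, z')}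

/-- good point-to-point crossings -/
def Apt (s α β u w v : ℝ) (n : ℕ) : Set Environment :=
  {t | CrE α β (sl s u w 0 n) (0, ⌊u⌋) (n, ⌊u + s * n⌋) v t}

lemma measurableSet_and_const {m0 : MeasurableSpace Environment} (P Q : Prop)
    {R : Environment → Prop} (hR : MeasurableSet[m0] {t | R t}) :
    MeasurableSet[m0] {t | P ∧ Q ∧ R t} := by
  by_cases h : P ∧ Q
  · have : {t : Environment | P ∧ Q ∧ R t} = {t | R t} := by
      ext t
      simp only [Set.mem_ofPred_eq]
      tauto
    rw [this]; exact hR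
  · have : {t : Environment | P ∧ Q ∧ R t} = ∅ := by
      ext t
      simp only [Set.mem_ofPred_eq, Set.mem_empty_iff_false, iff_false]
      tauto
    rw [this]; exact @MeasurableSet.empty _ m0

lemma measurableSet_Blk (s α β u w L v : ℝ) (p q : ℤ) :
    MeasurableSet[sig (block p q)] (Blk s α β u w L v p q) := by
  have : Blk s α β u w L v p q = ⋃ x : ℤ, ⋃ y : ℤ,
      {t | |ht s (p, x) - u| ≤ L ∧ |ht s (q, y) - u| ≤ L ∧
        CrE α β (sl s u w p q) (p, x) (q, y) v t} := by
    ext t; simp [Blk]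
  rw [this]
  refine MeasurableSet.iUnion fun x => MeasurableSet.iUnion fun y => ?_
  exact measurableSet_and_const _ _ (sig_mono Set.inter_subset_left _
    (measurableSet_CrE α β _ _ _ _))

lemma Blk_shift (s α β u w L v : ℝ) (p q : ℤ) (z : ℤ × ℤ) :
    shift z ⁻¹' (Blk s α β u w L v p q) =
      Blk s α β (u + ht s z) w L v (p + z.1) (q + z.1) := by
  ext t
  obtain ⟨z1, z2⟩ := z
  simp only [Set.mem_preimage, Blk, Set.mem_ofPred_eq]
  constructor
  · rintro ⟨x, y, h1, h2, h3⟩
    refine ⟨x + z2, y + z2, ?_, ?_, ?_⟩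
    · have h4 : ht s (p + z1, x + z2) = ht s (p, x) + ht s (z1, z2) := ht_add s (p, x) (z1, z2)
      have h5 : ht s (p + z1, x + z2) - (u + ht s (z1, z2)) = ht s (p, x) - u := by
        rw [h4]; ring
      rw [h5]; exact h1
    · have h4 : ht s (q + z1, y + z2) = ht s (q, y) + ht s (z1, z2) := ht_add s (q, y) (z1, z2)
      have h5 : ht s (q + z1, y + z2) - (u + ht s (z1, z2)) = ht s (q, y) - u := by
        rw [h4]; ring
      rw [h5]; exact h2
    · exact (CrE_shift α β (z1, z2) (mem_sl_shift (z1, z2) s u w p q) (p, x) (q, y) v t).1 h3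
  · rintro ⟨x, y, h1, h2, h3⟩
    refine ⟨x - z2, y - z2, ?_, ?_, ?_⟩
    · have h4 : ht s (p + z1, x) = ht s (p, x - z2) + ht s (z1, z2) := by
        rw [← ht_add]
        congr 1
        ext <;> simp
      have h5 : ht s (p + z1, x) - (u + ht s (z1, z2)) = ht s (p, x - z2) - u := by
        rw [h4]; ring
      rw [h5] at h1; exact h1
    · have h4 : ht s (q + z1, y) = ht s (q, y - z2) + ht s (z1, z2) := by
        rw [← ht_add]
        congr 1
        ext <;> simp
      have h5 : ht s (q + z1, y) - (u + ht s (z1, z2)) = ht s (q, y - z2) - u := by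
        rw [h4]; ring
      rw [h5] at h2; exact h2
    · refine (CrE_shift α β (z1, z2) (mem_sl_shift (z1, z2) s u w p q) (p, x - z2) (q, y - z2)
        v t).2 ?_
      have e1 : ((p, x - z2) + (z1, z2) : ℤ × ℤ) = (p + z1, x) := by ext <;> simp
      have e2 : ((q, y - z2) + (z1, z2) : ℤ × ℤ) = (q + z1, y) := by ext <;> simp
      rw [e1, e2]
      exact h3

lemma prob_Blk_shift (G : Measure ℝ) [IsProbabilityMeasure G] (s α β u w L v : ℝ) (p q : ℤ)
    (z : ℤ × ℤ) :
    (iidLaw G).real (Blk s α β (u + ht s z) w L v (p + z.1) (q + z.1)) =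
      (iidLaw G).real (Blk s α β u w L v p q) := by
  rw [← Blk_shift]
  simp only [Measure.real]
  rw [(A.mp_shift G z).measure_preimage
    (sig_le _ _ (measurableSet_Blk s α β u w L v p q)).nullMeasurableSet]

/-- in a good block near the reference height the failure indicator vanishes -/
lemma mem_Blk_of_cross {s α β u w Λ : ℝ} {p q : ℤ} {x y : ℤ × ℤ} {t : Environment} {c ρ : ℝ}
    (hx : x.1 = p) (hy : y.1 = q)
    (hc : Cr (sl s u w p q) x y c t) (h1 : |ht s x - u - ρ| ≤ Λ) (h2 : |ht s y - ht s x| ≤ Λ)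
    (h3 : c - (lin α β y - lin α β x) ≤ Λ) (hρ : |ρ| ≤ 2 * w) :
    t ∈ Blk s α β (u + ρ) (3 * w) (2 * Λ) Λ p q := by
  obtain ⟨x1, x2⟩ := x
  obtain ⟨y1, y2⟩ := y
  simp only at hx hy
  subst hx hy
  refine ⟨x2, y2, ?_, ?_, ?_⟩
  · rw [abs_le] at h1 ⊢
    have h4 : 0 ≤ Λ := (abs_nonneg _).trans h2
    constructor <;> linarith
  · rw [abs_le] at h1 h2 ⊢
    constructor <;> linarith
  · refine hc.mono (sl_mono ?_ le_rfl le_rfl) (by linarith)
    have : |u - (u + ρ)| = |ρ| := by rw [show u - (u + ρ) = -ρ by ring, abs_neg]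
    rw [this]
    linarith

/-- the deterministic part of the renormalisation -/
lemma skel_of_path {s α β a u W e δ Λ ν : ℝ} {M m : ℕ} {t : Environment} {yend : ℤ × ℤ} {v : ℝ}
    (hNn : Nn t) (ha : 0 < a) (hm : 1 ≤ m) (hM : 1 ≤ M) (he : 1 ≤ e) (hW : 1 ≤ W)
    (hδ : δ = e / 100) (hv : v ≤ M * e) (hΛW : Λ ≤ W) (hν : 0 < ν)
    (hΛ : (3 / ν * (2 + 3 / a)) * e ≤ Λ)
    (hy1 : yend.1 = M * m) (hyW : |ht s yend - u| ≤ W)
    (hpath : CrE α β (sl s u W 0 (M * m)) (0, ⌊u⌋) yend v t)
    (hHW : ∀ k < M, t ∉ HWbad s α β a u W δ (k * m) ((k + 1 : ℕ) * m))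
    (hcol : t ∈ ColOK s β (a / 2) u W δ (M * m)) :
    t ∈ SkelEv (fun k r => (Blk s α β (u + r * Λ) (3 * W) (2 * Λ) Λ (k * m)
      ((k + 1 : ℕ) * m))ᶜ) M (ν * M) (ν * M) := by
  obtain ⟨w, hw1, hw2⟩ := hpath
  have hMm : (0 : ℤ) ≤ M * m := by positivity
  obtain ⟨X, Z, c, l, hZ0, hZ1, hX1, hl, hc, hlM, hsum⟩ :=
    chain t (sl s u W 0 (M * m)) m M 0 w rfl (by rw [hy1]; simp) hw1
  have hΛ0 : 0 < Λ := lt_of_lt_of_le (by positivity) hΛ
  -- membership in the tube
  have hstart : |ht s (0, ⌊u⌋) - u| ≤ W := by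
    have h1 : ht s (0, ⌊u⌋) = (⌊u⌋ : ℝ) := by simp [ht]
    rw [h1, abs_le]
    constructor
    · linarith [Int.lt_floor_add_one u]
    · linarith [Int.floor_le u]
  have hne : ∀ k < M, X k ≠ Z (k + 1) := by
    intro k hk h
    have h1 := hX1 k hk
    have h2 := hZ1 (k + 1) (by omega)
    rw [h, h2] at h1
    have h3 : ((k + 1 : ℕ) : ℤ) * m = k * m := by linarith
    push_cast at h3
    have : (m : ℤ) = 0 := by linarith
    omega
  have hXtube : ∀ k < M, |ht s (X k) - u| ≤ W := by
    intro k hk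
    obtain ⟨e, he, hxe⟩ := Cr_start_mem (hc k hk) (hne k hk)
    exact he.1.2 _ hxe
  have hZtube : ∀ k ≤ M, |ht s (Z k) - u| ≤ W := by
    intro k hk
    rcases k with _ | k
    · rw [hZ0]; exact hstart
    · obtain ⟨e, he, hxe⟩ := Cr_end_mem (hc k (by omega)) (hne k (by omega))
      exact he.1.2 _ hxe
  -- lateral pieces
  have hcolXZ : ∀ (k : ℕ) (p q : ℤ × ℤ), k ≤ M → p.1 = k * m → q.1 = k * m →
      |ht s p - u| ≤ W → |ht s q - u| ≤ W →
      lin α β q - lin α β p + a / 2 * |ht s q - ht s p| - δ ≤ passageTime t p q := by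
    intro k p q hk hp hq hpW hqW
    obtain ⟨p1, p2⟩ := p
    obtain ⟨q1, q2⟩ := q
    simp only at hp hq
    subst hp hq
    have h1 := hcol (k * m) (by positivity) (by push_cast; nlinarith) p2 q2 hpW hqW
    rw [ht_col, lin_col]
    exact h1
  have hl' : ∀ k < M, lin α β (X k) - lin α β (Z k) + a / 2 * |ht s (X k) - ht s (Z k)| - δ
      ≤ l k := by
    intro k hk
    refine (hcolXZ k (Z k) (X k) hk.le ?_ ?_ (hZtube k hk.le) (hXtube k hk)).trans
      (le_of_Cr hNn (hl k hk))
    · simpa using hZ1 k hk.le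
    · simpa using hX1 k hk
  have hlM' : lin α β yend - lin α β (Z M) - δ ≤ l M := by
    have h1 := (hcolXZ M (Z M) yend le_rfl (by simpa using hZ1 M le_rfl) hy1
      (hZtube M le_rfl) hyW).trans (le_of_Cr hNn hlM)
    have h2 : 0 ≤ a / 2 * |ht s yend - ht s (Z M)| := by positivity
    linarith
  -- crossings
  have hcr : ∀ k < M, Cr (sl s u W (k * m) ((k + 1 : ℕ) * m)) (X k) (Z (k + 1)) (c k) t := by
    intro k hk
    refine (hc k hk).mono ?_ le_rfl
    rintro e ⟨he1, he2⟩
    exact ⟨by simpa using he2, he1.2⟩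
  have hc'' : ∀ k < M, lin α β (Z (k + 1)) - lin α β (X k) +
      a * |ht s (Z (k + 1)) - ht s (X k)| - δ ≤ c k := by
    intro k hk
    by_contra hcon
    push Not at hcon
    refine hHW k hk ⟨(X k).2, (Z (k + 1)).2, ?_⟩
    have h1 : ((k : ℤ) * m, (X k).2) = X k := by
      have := hX1 k hk
      ext
      · simp only; rw [this]; ring
      · rfl
    have h2 : (((k + 1 : ℕ) : ℤ) * m, (Z (k + 1)).2) = Z (k + 1) := by
      have := hZ1 (k + 1) (by omega)
      ext
      · simp only; rw [this]; ring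
      · rfl
    rw [h1, h2]
    exact (hcr k hk).mono le_rfl (by linarith)
  have hc' : ∀ k < M, lin α β (Z (k + 1)) - lin α β (X k) +
      a / 2 * |ht s (Z (k + 1)) - ht s (X k)| - δ ≤ c k := by
    intro k hk
    have h1 := hc'' k hk
    have h2 : 0 ≤ a / 2 * |ht s (Z (k + 1)) - ht s (X k)| := by positivity
    linarith
  have htot : walkCost t w ≤ lin α β yend - lin α β (Z 0) + v := by rw [hZ0]; exact hw2
  obtain ⟨hTV, hpos⟩ := chain_energy (s := s) hsum htot hl' hc' hlM'
  have hpos' := hpos (by positivity)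
  -- numerical bounds
  have hMe : (M : ℝ) ≥ 1 := by exact_mod_cast hM
  have hb : v + (2 * M + 1) * δ ≤ 2 * (M * e) := by
    rw [hδ]; nlinarith
  have hb' : v + (2 * M + 1) * δ ≤ 3 / 2 * (M * e) := by
    rw [hδ]; nlinarith
  have hTV' : ∑ k ∈ Finset.range M,
      (|ht s (X k) - ht s (Z k)| + |ht s (Z (k + 1)) - ht s (X k)|) ≤ 3 / a * (M * e) := by
    have h1 := hTV.trans hb'
    rw [div_mul_eq_mul_div, le_div_iff₀ ha]
    nlinarith
  -- the scaled entrance heights
  set y : ℕ → ℝ := fun k => Nat.casesOn k 0 fun k => (ht s (X k) - u) / Λ with hy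
  obtain ⟨r, hr0, hr1, hr2⟩ := Crest.Agent.R151.W.exists_hysteresis y rfl
  refine ⟨r, hr0, ?_, ?_⟩
  · refine (hr2 M).trans ?_
    have h1 : ∀ n ≤ M, Λ * ∑ k ∈ Finset.range n, |y (k + 1) - y k| ≤ |ht s (Z 0) - u| +
        ∑ k ∈ Finset.range n,
          (|ht s (X k) - ht s (Z k)| + |ht s (Z (k + 1)) - ht s (X k)|) := by
      intro n hn
      -- stronger form: keep the last crossing
      have key : ∀ n ≤ M, Λ * ∑ k ∈ Finset.range n, |y (k + 1) - y k| +
          |ht s (Z n) - u - Λ * y n| ≤ |ht s (Z 0) - u| +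
        ∑ k ∈ Finset.range n,
          (|ht s (X k) - ht s (Z k)| + |ht s (Z (k + 1)) - ht s (X k)|) := by
        intro n
        induction n with
        | zero =>
          intro _
          simp [hy]
        | succ n ih =>
          intro hn
          have h2 := ih (by omega)
          rw [Finset.sum_range_succ, Finset.sum_range_succ, mul_add]
          have h3 : y (n + 1) = (ht s (X n) - u) / Λ := rfl
          have h4 : Λ * y (n + 1) = ht s (X n) - u := by
            rw [h3]; field_simp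
          have h5 : Λ * |y (n + 1) - y n| = |Λ * y (n + 1) - Λ * y n| := by
            rw [← mul_sub, abs_mul, abs_of_pos hΛ0]
          rw [h5, h4]
          have h6 : |ht s (X n) - u - Λ * y n| ≤
              |ht s (X n) - ht s (Z n)| + |ht s (Z n) - u - Λ * y n| := by
            have : ht s (X n) - u - Λ * y n =
              (ht s (X n) - ht s (Z n)) + (ht s (Z n) - u - Λ * y n) := by ring
            rw [this]
            exact abs_add_le _ _
          have h7 : |ht s (Z (n + 1)) - u - (ht s (X n) - u)| =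
              |ht s (Z (n + 1)) - ht s (X n)| := by congr 1; ring
          rw [h7]
          linarith
      have := key n hn
      linarith [abs_nonneg (ht s (Z n) - u - Λ * y n)]
    have h2 := h1 M le_rfl
    have h3 : |ht s (Z 0) - u| ≤ 1 := by
      rw [hZ0]
      have h1 : ht s (0, ⌊u⌋) = (⌊u⌋ : ℝ) := by simp [ht]
      rw [h1, abs_le]
      constructor
      · linarith [Int.lt_floor_add_one u]
      · linarith [Int.floor_le u]
    have h4 : Λ * ∑ k ∈ Finset.range M, |y (k + 1) - y k| ≤ 1 + 3 / a * (M * e) := by linarith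
    have h5 : Λ * (3 * ∑ k ∈ Finset.range M, |y (k + 1) - y k|) ≤ Λ * (ν * M) := by
      have h6 : 3 * (1 + 3 / a * (M * e)) ≤ ν * M * ((3 / ν * (2 + 3 / a)) * e) := by
        have h7 : ν * M * ((3 / ν * (2 + 3 / a)) * e) = 3 * (2 + 3 / a) * (M * e) := by
          field_simp
        rw [h7]
        have h8 : 1 ≤ (M : ℝ) * e := by nlinarith
        nlinarith [mul_pos (div_pos (by norm_num : (0:ℝ) < 3) ha) (lt_of_lt_of_le one_pos h8)]
      have h7 : ν * M * ((3 / ν * (2 + 3 / a)) * e) ≤ ν * M * Λ :=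
        mul_le_mul_of_nonneg_left hΛ (by positivity)
      calc Λ * (3 * ∑ k ∈ Finset.range M, |y (k + 1) - y k|)
          = 3 * (Λ * ∑ k ∈ Finset.range M, |y (k + 1) - y k|) := by ring
        _ ≤ 3 * (1 + 3 / a * (M * e)) := by linarith
        _ ≤ ν * M * Λ := h6.trans h7
        _ = Λ * (ν * M) := by ring
    exact le_of_mul_le_mul_left h5 hΛ0
  · -- number of failing blocks
    have h1 : ∀ k ∈ Finset.range M,
        ((Blk s α β (u + (r (k + 1) : ℤ) * Λ) (3 * W) (2 * Λ) Λ (k * m)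
          ((k + 1 : ℕ) * m))ᶜ).indicator (fun _ => (1 : ℝ)) t ≤
        ((c k - (lin α β (Z (k + 1)) - lin α β (X k)) + δ) +
          (|ht s (X k) - ht s (Z k)| + |ht s (Z (k + 1)) - ht s (X k)|)) / Λ := by
      intro k hk
      have hk' := Finset.mem_range.1 hk
      have hE0 : 0 ≤ c k - (lin α β (Z (k + 1)) - lin α β (X k)) + δ := by
        have h2 := hc'' k hk'
        have h3 : 0 ≤ a * |ht s (Z (k + 1)) - ht s (X k)| := by positivity
        linarith
      have hδ0 : 0 ≤ δ := by rw [hδ]; positivity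
      by_cases hmem : t ∈ Blk s α β (u + (r (k + 1) : ℤ) * Λ) (3 * W) (2 * Λ) Λ (k * m)
          ((k + 1 : ℕ) * m)
      · rw [Set.indicator_of_notMem (by simpa using hmem)]
        exact div_nonneg (add_nonneg hE0 (by positivity)) hΛ0.le
      · rw [Set.indicator_of_mem (by simpa using hmem), le_div_iff₀ hΛ0, one_mul]
        by_contra hcon
        push Not at hcon
        apply hmem
        have hA : |ht s (Z (k + 1)) - ht s (X k)| ≤ Λ := by
          have := abs_nonneg (ht s (X k) - ht s (Z k))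
          linarith
        have hB : c k - (lin α β (Z (k + 1)) - lin α β (X k)) ≤ Λ := by
          have := abs_nonneg (ht s (X k) - ht s (Z k))
          have := abs_nonneg (ht s (Z (k + 1)) - ht s (X k))
          linarith
        have h2 := hr1 (k + 1)
        have h3 : y (k + 1) = (ht s (X k) - u) / Λ := rfl
        have h4 : |ht s (X k) - u - (r (k + 1) : ℤ) * Λ| ≤ Λ := by
          have h5 : ht s (X k) - u - (r (k + 1) : ℤ) * Λ = Λ * (y (k + 1) - r (k + 1)) := by
            rw [h3]; field_simp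
          rw [h5, abs_mul, abs_of_pos hΛ0]
          nlinarith
        refine mem_Blk_of_cross ?_ ?_ (hcr k hk') h4 hA hB ?_
        · simpa using hX1 k hk'
        · simpa using hZ1 (k + 1) (by omega)
        · have h6 := hXtube k hk'
          rw [abs_le] at h4 h6 ⊢
          constructor <;> linarith
    unfold cnt
    refine (Finset.sum_le_sum h1).trans ?_
    rw [← Finset.sum_div, Finset.sum_add_distrib, div_le_iff₀ hΛ0]
    have h2 : 2 * (M * e) + 3 / a * (M * e) ≤ ν * M * ((3 / ν * (2 + 3 / a)) * e) := by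
      have h7 : ν * M * ((3 / ν * (2 + 3 / a)) * e) = 3 * (2 + 3 / a) * (M * e) := by
        field_simp
      rw [h7]
      have h8 : 0 ≤ (M : ℝ) * e := by positivity
      have h9 : 0 ≤ 3 / a * (M * e) := by positivity
      nlinarith
    have h7 : ν * M * ((3 / ν * (2 + 3 / a)) * e) ≤ ν * M * Λ :=
      mul_le_mul_of_nonneg_left hΛ (by positivity)
    linarith [hpos'.trans hb]

end Crest.Agent.R151.X
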