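import Crest.Agent.R151.N3
import Crest.Agent.R151.N4
import Crest.Agent.R151.X684d
import Crest.Agent.R151.V10

/-!
# R151, block N (helper792): the hard wall in helper684's normal form; the anti-concentration field
-/

set_option autoImplicit false

open MeasureTheory ProbabilityTheory Filter Topology
open Crest.ProbabilityR.FirstPassage
open Crest.Agent.R151.A (shift eShift block sig eX)
open Crest.Agent.R151.K (n1)
open Crest.Agent.R151.X (Cr CrE sl ht lin Apt Blk HWbad)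
open scoped ENNReal

namespace Crest.Agent.R151.N

/-- the hard wall for `HWbad` -/
theorem prob_HWbad_le (G : Measure ℝ) [IsProbabilityMeasure G] {α β a s C C' : ℝ}
    (h : AStar G (α - a * s) (β + a) C) (h' : AStar G (α + a * s) (-(β - a)) C')
    {η : ℝ} (hη : 0 < η) {e : ℝ} (he : 0 < e) :
    ∃ b0 : ℝ, ∀ b : ℝ, b0 ≤ b → ∀ p q : ℤ, p < q → ∀ u : ℝ,
      (iidLaw G).real (HWbad s α β a u b (η * b) p q) ≤ e := by
  obtain ⟨b0, hb0⟩ := hard_wall G (s := s) h h' (half_pos hη) he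
  refine ⟨max 1 b0, fun b hb p q hpq u => ?_⟩
  have hb1 : 1 ≤ b := (le_max_left _ _).trans hb
  obtain ⟨n, rfl⟩ : ∃ n, q = p + n := ⟨q - p, by ring⟩
  have hn : 1 ≤ n := by omega
  have h1 := hb0 b ((le_max_right _ _).trans hb) p n hn u
  refine ENNReal.toReal_le_of_le_ofReal he.le ((measure_mono ?_).trans h1)
  rintro t ⟨x, y, w, hw1, hw2⟩
  refine ⟨x, y, w, hw1, hw2.trans_lt ?_⟩
  simp only [ht, lin]
  push_cast
  have h3 : (y : ℝ) - s * (↑p + ↑n) - (x - s * p) = (y : ℝ) - x - s * n := by ring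
  rw [h3]
  nlinarith

/-! ### finite slabs -/

/-- the lattice edges of the slab of columns `[0, n)` inside the tube, as a finite set -/
lemma exists_slab_finset {s u b : ℝ} (hb : 1 ≤ b) (n : ℕ) :
    ∃ S : Finset (Sym2 (ℤ × ℤ)), (S.card : ℝ) ≤ 6 * n * b ∧ (∀ e ∈ S, e ∈ sl s u b 0 n) ∧
      ∀ e ∈ squareLattice.edgeSet, e ∈ sl s u b 0 n → e ∈ S := by
  classical
  let V : Finset (Sigma fun _ : ℤ => ℤ) := (Finset.Ico (0 : ℤ) n).sigma
    fun x => Finset.Icc ⌈s * x + u - b⌉ ⌊s * x + u + b⌋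
  let f : (Sigma fun _ : ℤ => ℤ) × Bool → Sym2 (ℤ × ℤ) := fun z =>
    if z.2 then s((z.1.1, z.1.2), (z.1.1 + 1, z.1.2)) else s((z.1.1, z.1.2), (z.1.1, z.1.2 + 1))
  refine ⟨((V ×ˢ Finset.univ).image f).filter (· ∈ sl s u b 0 n), ?_, ?_, ?_⟩
  · have h1 : (((V ×ˢ Finset.univ).image f).filter (· ∈ sl s u b 0 n)).card ≤
        V.card * 2 := by
      refine (Finset.card_filter_le _ _).trans (Finset.card_image_le.trans ?_)
      rw [Finset.card_product]
      simp
    have h2 : (V.card : ℝ) ≤ n * (2 * b + 1) := by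
      simp only [V, Finset.card_sigma]
      push_cast
      have h3 : ∀ x ∈ Finset.Ico (0 : ℤ) n,
          ((Finset.Icc ⌈s * x + u - b⌉ ⌊s * x + u + b⌋).card : ℝ) ≤ 2 * b + 1 := by
        intro x _
        rw [Int.card_Icc]
        have h4 := Int.le_ceil (s * x + u - b)
        have h5 := Int.floor_le (s * x + u + b)
        have h6 : (((⌊s * x + u + b⌋ + 1 - ⌈s * x + u - b⌉).toNat : ℤ) : ℝ) ≤ 2 * b + 1 := by
          rw [Int.toNat_eq_max]
          push_cast
          exact max_le (by linarith) (by linarith)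
        exact_mod_cast h6
      refine (Finset.sum_le_sum h3).trans (le_of_eq ?_)
      rw [Finset.sum_const, Int.card_Ico]
      simp
      ring
    calc ((((V ×ˢ Finset.univ).image f).filter (· ∈ sl s u b 0 n)).card : ℝ)
        ≤ (V.card : ℝ) * 2 := by exact_mod_cast h1
      _ ≤ n * (2 * b + 1) * 2 := by gcongr
      _ ≤ 6 * n * b := by
          have : (0 : ℝ) ≤ n := Nat.cast_nonneg n
          nlinarith
  · intro e he
    exact (Finset.mem_filter.1 he).2
  · intro e he hs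
    rw [Finset.mem_filter]
    refine ⟨?_, hs⟩
    rw [Finset.mem_image]
    have hmem : ∀ x y : ℤ, 0 ≤ x → x < n → |ht s (x, y) - u| ≤ b → (⟨x, y⟩ : Sigma fun _ : ℤ => ℤ) ∈ V := by
      intro x y h0 h1 h2
      simp only [V, Finset.mem_sigma, Finset.mem_Ico, Finset.mem_Icc]
      refine ⟨⟨h0, h1⟩, ?_, ?_⟩
      · rw [Int.ceil_le]
        simp only [ht] at h2
        rw [abs_le] at h2
        linarith [h2.1]
      · rw [Int.le_floor]
        simp only [ht] at h2
        rw [abs_le] at h2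
        linarith [h2.2]
    induction e with
    | _ x y =>
      rw [SimpleGraph.mem_edgeSet, squareLattice, SimpleGraph.fromRel_adj] at he
      obtain ⟨x1, x2⟩ := x
      obtain ⟨y1, y2⟩ := y
      have ht' := X.mem_tube.1 hs.2
      have hbl := hs.1
      simp only [block, Set.mem_ofPred_eq, A.eX_mk] at hbl
      simp only at he
      rcases he.2 with (⟨h1, h2⟩ | ⟨h1, h2⟩) | (⟨h1, h2⟩ | ⟨h1, h2⟩)
      · subst h1 h2
        rw [min_self] at hbl
        exact ⟨(⟨x1, x2⟩, false), by simpa using hmem x1 x2 hbl.1 hbl.2 ht'.1, by simp [f]⟩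
      · subst h1 h2
        rw [min_eq_left (by omega)] at hbl
        exact ⟨(⟨x1, x2⟩, true), by simpa using hmem x1 x2 hbl.1 hbl.2 ht'.1, by simp [f]⟩
      · subst h1 h2
        rw [min_self] at hbl
        exact ⟨(⟨y1, y2⟩, false), by simpa using hmem y1 y2 hbl.1 hbl.2 ht'.2, by simp [f]⟩
      · subst h1 h2
        rw [min_eq_right (by omega)] at hbl
        exact ⟨(⟨y1, y2⟩, true), by simpa using hmem y1 y2 hbl.1 hbl.2 ht'.2, by simp [f]⟩

/-! ### the field `ac` of `X.Inputs` -/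

/-- the anti-concentration field of `X.Inputs` -/
theorem inputs_ac (G : Measure ℝ) [IsProbabilityMeasure G] [NullSingletonClass G]
    (h0 : G (Set.Iio 0) = 0) (s α β : ℝ) :
    ∃ c > 0, ∃ C : ℝ, ∀ n : ℕ, 1 ≤ n → ∀ w : ℝ, 1 ≤ w → ∀ u v h : ℝ, 0 < h → h ≤ 1 →
      (iidLaw G).real (Apt s α β u w v n) ≤
        (iidLaw G).real (Apt s α β u w (v - c * h * Real.sqrt (n / w)) n) + C * h +
          C * Real.sqrt (w / n) / h := by
  obtain ⟨c, hc, C, hC, hAC⟩ := V.AC (G := G) h0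
  refine ⟨c / 3, by positivity, 3 * C, fun n hn w hw u v h hh0 hh1 => ?_⟩
  obtain ⟨F, hF1, -, hF3⟩ := exists_slab_finset (s := s) (u := u) hw n
  have hn0 : (0 : ℝ) < n := by exact_mod_cast hn
  have hn1 : (1 : ℝ) ≤ n := by exact_mod_cast hn
  have hw0 : 0 < w := by linarith
  set S : Set (Sym2 (ℤ × ℤ)) := sl s u w 0 n ∩ squareLattice.edgeSet with hS
  have hSF : S ⊆ (F : Set (Sym2 (ℤ × ℤ))) := fun e he => hF3 e he.2 he.1
  set N : ℕ := ⌊9 * n * w⌋₊ with hN
  have hN1 : F.card ≤ N := by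
    rw [hN]
    refine Nat.le_floor (hF1.trans ?_)
    nlinarith [mul_pos hn0 hw0]
  have hN2 : (N : ℝ) ≤ 9 * n * w := Nat.floor_le (by positivity)
  have hN3 : (1 : ℝ) ≤ N := by
    have : 1 ≤ N := by
      rw [hN]
      refine Nat.le_floor ?_
      push_cast
      nlinarith [mul_le_mul hn1 hw zero_le_one hn0.le]
    exact_mod_cast this
  have hN0 : (0 : ℝ) < N := by linarith
  have hsq0 : 0 < √(N : ℝ) := Real.sqrt_pos.2 hN0
  set A : Set (ℤ × ℤ) := {(0, ⌊u⌋)} with hA
  set B : Set (ℤ × ℤ) := {((n : ℤ), ⌊u + s * n⌋)} with hB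
  have hlen : ∀ x ∈ A, ∀ y ∈ B, n ≤ n1 (y - x) := by
    intro x hx y hy
    rw [hA, Set.mem_singleton_iff] at hx
    rw [hB, Set.mem_singleton_iff] at hy
    rw [hx, hy]
    simp only [n1, Prod.mk_sub_mk]
    omega
  have key := hAC S F hSF n N hn hN1 A B hlen h hh0 hh1 (lin α β) v
  have hev : ∀ v' : ℝ, V.EX S A B (lin α β) v' = Apt s α β u w v' n := by
    intro v'
    ext t
    constructor
    · rintro ⟨x, hx, y, hy, W, hW1, hW2⟩
      rw [hA, Set.mem_singleton_iff] at hx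
      rw [hB, Set.mem_singleton_iff] at hy
      subst hx hy
      exact ⟨W, fun e he => (hW1 e he).1, hW2⟩
    · rintro ⟨W, hW1, hW2⟩
      exact ⟨_, rfl, _, rfl, W, fun e he => ⟨hW1 e he, W.edges_subset_edgeSet he⟩, hW2⟩
  rw [hev, hev] at key
  have h9 : √(9 * n * w) = 3 * √(n * w) := by
    rw [show (9 : ℝ) * n * w = 3 ^ 2 * (n * w) by ring, Real.sqrt_mul (by norm_num),
      Real.sqrt_sq (by norm_num)]
  have hsqN : √(N : ℝ) ≤ 3 * √(n * w) := by
    rw [← h9]; exact Real.sqrt_le_sqrt hN2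
  have hnw0 : 0 < √((n : ℝ) * w) := Real.sqrt_pos.2 (by positivity)
  have e1 : √((n : ℝ) / w) = n / √((n : ℝ) * w) := by
    rw [eq_div_iff hnw0.ne', ← Real.sqrt_mul (by positivity),
      show (n : ℝ) / w * (n * w) = n ^ 2 by field_simp, Real.sqrt_sq hn0.le]
  have e2 : √(w / (n : ℝ)) = √((n : ℝ) * w) / n := by
    rw [eq_div_iff hn0.ne']
    nth_rewrite 2 [← Real.sqrt_sq hn0.le]
    rw [← Real.sqrt_mul (by positivity)]
    congr 1
    field_simp
  refine key.trans ?_
  have h1 : c / 3 * h * √((n : ℝ) / w) ≤ c * h * n / √(N : ℝ) := by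
    rw [e1, le_div_iff₀ hsq0]
    calc c / 3 * h * (n / √((n : ℝ) * w)) * √(N : ℝ)
        ≤ c / 3 * h * (n / √((n : ℝ) * w)) * (3 * √(n * w)) := by gcongr
      _ = c * h * n := by field_simp
  have h2 : C * √(N : ℝ) / (h * n) ≤ 3 * C * √(w / (n : ℝ)) / h := by
    rw [e2]
    calc C * √(N : ℝ) / (h * n) ≤ C * (3 * √(n * w)) / (h * n) := by gcongr
      _ = _ := by field_simp
  have h3 : C * h ≤ 3 * C * h := by nlinarith [mul_pos hC hh0]
  have h4 : (iidLaw G).real (Apt s α β u w (v - c * h * n / √(N : ℝ)) n) ≤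
      (iidLaw G).real (Apt s α β u w (v - c / 3 * h * √((n : ℝ) / w)) n) := by
    refine measureReal_mono ?_
    intro t ht1
    exact ht1.mono le_rfl (by linarith)
  linarith

end Crest.Agent.R151.N
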