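import Crest.Agent.R151.A565i
import Crest.Agent.R151.K9b
import Crest.Agent.R151.N5

/-!
# R151, block A (helper565): free search and hard wall at a corner of the time constant
-/

set_option autoImplicit false

open MeasureTheory ProbabilityTheory Filter Topology
open Crest.ProbabilityR.FirstPassage
open Crest.Agent.R151.K Crest.Agent.R151.M51
open scoped ENNReal

namespace Crest.Agent.R151.A

variable {G : Measure ℝ} [IsProbabilityMeasure G] {m : ℝ} {μ : ℝ × ℝ → ℝ} {s p0 q0 a : ℝ}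

/-- free search at a corner, upper side -/
theorem aStar_corner (hG : Law213 G) (hM : Mom G m) (hμ : IsTC1 G μ)
    (hc : N.Corner μ s p0 q0 a) :
    N.AStar G (p0 - a * s) (q0 + a) (C1 G + |q0 + a| + 1) := by
  have h1 : AStar G (p0 - a * s) (q0 + a) (C1 G + |q0 + a| + 1) := by
    refine aStar hG (φ := fun s => μ (1, s)) (s := s) ?_ ?_ ?_ ?_
    · intro s'
      have := hM.ET_tendsto_nat hμ (1, s')
      simp only [ET, fl, mul_one, Int.floor_natCast] at this
      exact this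
    · intro x _
      have h2 := hM.mu_le_ET hμ x
      have h3 := hc.upper_le x.1 x.2
      exact h3.trans h2
    · rw [hc.tight]; ring
    · intro ε hε
      have h2 := hc.right
      have h3 : ∀ᶠ d in 𝓝[>] (0 : ℝ), (μ (1, s + d) - (p0 + q0 * (s + d) + a * d)) / d < ε :=
        h2.eventually_lt_const hε
      have h4 : ∀ᶠ d in 𝓝[>] (0 : ℝ), 0 < d := eventually_mem_nhdsWithin
      obtain ⟨d, h5, h6⟩ := (h3.and h4).exists
      refine ⟨d, h6, ?_⟩
      rw [div_lt_iff₀ h6] at h5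
      linarith
  exact h1

/-- free search at a corner, lower side (reflected) -/
theorem aStar_corner_neg (hG : Law213 G) (hM : Mom G m) (hμ : IsTC1 G μ)
    (hc : N.Corner μ s p0 q0 a) :
    N.AStar G (p0 + a * s) (-(q0 - a)) (C1 G + |(-q0) + a| + 1) := by
  have hr : ∀ v : ℝ × ℝ, μ (v.1, -v.2) = μ v := by
    intro v
    have h1 := hM.mu_neg hμ (v.1, -v.2)
    have h2 := hM.mu_neg_fst hμ (v.1, v.2)
    simp only [Prod.neg_mk, neg_neg] at h1
    rw [← h1, h2]
  have h := aStar_corner hG hM hμ (hc.reflect' hr)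
  have e1 : p0 - a * -s = p0 + a * s := by ring
  have e2 : -q0 + a = -(q0 - a) := by ring
  rw [e1] at h
  rw [e2] at h ⊢
  exact h

/-- the hard wall at a corner -/
theorem hard_wall_corner (hG : Law213 G) (hM : Mom G m) (hμ : IsTC1 G μ)
    (hc : N.Corner μ s p0 q0 a) {η : ℝ} (hη : 0 < η) {e : ℝ} (he : 0 < e) :
    ∃ b0 : ℝ, ∀ b : ℝ, b0 ≤ b → ∀ x0 n : ℤ, 1 ≤ n → ∀ u : ℝ,
      iidLaw G (N.badF (fun d => p0 * n + q0 * d + a * |(d : ℝ) - s * n| - η * b) s u b x0 n) ≤
        ENNReal.ofReal e :=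
  N.hard_wall G (aStar_corner hG hM hμ hc) (aStar_corner_neg hG hM hμ hc) hη he

/-- the hard wall at a corner, for helper684's `HWbad` -/
theorem prob_HWbad_corner (hG : Law213 G) (hM : Mom G m) (hμ : IsTC1 G μ)
    (hc : N.Corner μ s p0 q0 a) {η : ℝ} (hη : 0 < η) {e : ℝ} (he : 0 < e) :
    ∃ b0 : ℝ, ∀ b : ℝ, b0 ≤ b → ∀ p q : ℤ, p < q → ∀ u : ℝ,
      (iidLaw G).real (X.HWbad s p0 q0 a u b (η * b) p q) ≤ e :=
  N.prob_HWbad_le G (aStar_corner hG hM hμ hc) (aStar_corner_neg hG hM hμ hc) hη he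

/-- a law with a second moment is a law of S0213 -/
theorem law213_of_sq (h0 : G (Set.Iio 0) = 0) (h2 : Integrable (fun x : ℝ => x ^ 2) G) :
    Law213 G where
  h0 := h0
  mom := by
    have hae : ∀ᵐ x ∂(Measure.pi fun _ : Fin 4 => G), ∀ i, 0 ≤ x i := by
      rw [ae_all_iff]
      intro i
      have h1 : ∀ᵐ y ∂G, (0:ℝ) ≤ y := by
        rw [ae_iff]
        simp only [not_le]
        exact h0
      exact (Measure.tendsto_eval_ae_ae (μ := fun _ : Fin 4 => G) (i := i)).eventually h1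
    have hle : ∫⁻ x, ENNReal.ofReal ((⨅ i, x i) ^ 2) ∂(Measure.pi fun _ : Fin 4 => G) ≤
        ∫⁻ x, ENNReal.ofReal ((x 0) ^ 2) ∂(Measure.pi fun _ : Fin 4 => G) := by
      refine lintegral_mono_ae ?_
      filter_upwards [hae] with x hx
      refine ENNReal.ofReal_le_ofReal ?_
      have h3 : 0 ≤ ⨅ i, x i := Real.iInf_nonneg hx
      have h4 : ⨅ i, x i ≤ x 0 := ciInf_le (Set.finite_range x).bddBelow 0
      exact pow_le_pow_left₀ h3 h4 2
    refine hle.trans_lt ?_
    have h3 : ∫⁻ x, ENNReal.ofReal ((x 0) ^ 2) ∂(Measure.pi fun _ : Fin 4 => G) =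
        ∫⁻ y, ENNReal.ofReal (y ^ 2) ∂G := by
      have h4 := (measurePreserving_eval (fun _ : Fin 4 => G) 0)
      have h5 := h4.lintegral_comp (f := fun y : ℝ => ENNReal.ofReal (y ^ 2)) (by fun_prop)
      exact h5
    rw [h3]
    exact h2.lintegral_lt_top

end Crest.Agent.R151.A
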