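import Crest.Agent.R151.K9c

/-!
# R151/K9d — the uniform shape theorem for the law of S0213 (owner helper507)
-/

set_option autoImplicit false
set_option linter.unusedSectionVars false

open MeasureTheory Filter ProbabilityTheory
open Crest.ProbabilityR.FirstPassage

namespace Crest.Agent.R151.K

variable {G : Measure ℝ} [IsProbabilityMeasure G] {m : ℝ} {μ : ℝ × ℝ → ℝ}

lemma gp_mem_box {K n : ℕ} (hK : 0 < K) {j : ℤ × ℤ} (hj : j ∈ box K) : gp K n j ∈ box n := by
  rw [mem_box] at hj ⊢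
  have hKR : (0 : ℝ) < K := by exact_mod_cast hK
  have hn : (0 : ℝ) ≤ n := Nat.cast_nonneg n
  have key : ∀ a : ℤ, -(K : ℤ) ≤ a → a ≤ K → -(n : ℤ) ≤ ⌊(n : ℝ) * ((a : ℝ) / K)⌋ ∧
      ⌊(n : ℝ) * ((a : ℝ) / K)⌋ ≤ n := by
    intro a h1 h2
    have h1' : -(K : ℝ) ≤ a := by exact_mod_cast h1
    have h2' : (a : ℝ) ≤ K := by exact_mod_cast h2
    have h3 : (a : ℝ) / K ≤ 1 := by rw [div_le_one hKR]; exact h2'
    have h4 : -1 ≤ (a : ℝ) / K := by rw [le_div_iff₀ hKR]; linarith
    constructor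
    · rw [Int.le_floor]
      push_cast
      nlinarith
    · have h5 : (n : ℝ) * ((a : ℝ) / K) ≤ n := by nlinarith
      have h6 := (Int.floor_le ((n : ℝ) * ((a : ℝ) / K))).trans h5
      exact_mod_cast h6
  exact ⟨key _ hj.1.1 hj.1.2, key _ hj.2.1 hj.2.2⟩

namespace Mom

variable (hM : Mom G m) (hμ : IsTC1 G μ)
include hM hμ

lemma pairErr_le (v w : ℝ × ℝ) {s : ℝ} (hs : 0 < s) (x : ℤ × ℤ)
    (hx : x = fl (v + w) s - fl v s) :
    ∫ t, |passageTime t 0 x - μ (toR x)| ∂(iidLaw G) ≤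
      s * (∫ t, |passageTime t 0 (fl w s) / s - μ w| ∂(iidLaw G)) + 6 * m := by
  have hm := hM.nonneg
  have hclose : n1 (x - fl w s) ≤ 2 := by rw [hx]; exact n1_fl_sub_le v w s
  have hI1 : Integrable (fun t => |passageTime t 0 (fl w s) / s - μ w|) (iidLaw G) :=
    (((hM.int 0 (fl w s)).div_const s).sub (integrable_const _)).abs
  have hI2 : Integrable (fun t => passageTime t x (fl w s)) (iidLaw G) := hM.int _ _
  have hI3 : Integrable (fun t => |passageTime t 0 x - μ (toR x)|) (iidLaw G) :=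
    ((hM.int 0 x).sub (integrable_const _)).abs
  have hc : |s * μ w - μ (toR x)| ≤ 4 * m := by
    rw [← hM.mu_smul hμ hs.le]
    refine (hM.abs_mu_sub_le hμ _ _).trans ?_
    have h1 : l1 (s • w - toR x) ≤ 4 := by
      have h3 : s • w - toR x = (s • w - toR (fl w s)) + toR (fl w s - x) := by
        rw [toR_sub]; abel
      rw [h3]
      refine (l1_add_le _ _).trans ?_
      rw [l1_toR]
      have h4 : n1 (fl w s - x) ≤ 2 := by rwa [← neg_sub, n1_neg]
      have h5 : (n1 (fl w s - x) : ℝ) ≤ 2 := by exact_mod_cast h4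
      linarith [l1_fl w s]
    nlinarith
  have hb : ∀ᵐ t ∂(iidLaw G), |passageTime t 0 x - μ (toR x)| ≤
      s * |passageTime t 0 (fl w s) / s - μ w| + passageTime t x (fl w s) + 4 * m := by
    filter_upwards [ae_Nn (G := G) hM.h0] with t ht
    have e1 : s * |passageTime t 0 (fl w s) / s - μ w| = |passageTime t 0 (fl w s) - s * μ w| := by
      rw [← abs_of_pos hs, ← abs_mul, abs_of_pos hs]
      congr 1
      field_simp
    rw [e1]
    have t1 := pt_triangle ht 0 x (fl w s)
    have t2 := pt_triangle ht 0 (fl w s) x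
    rw [pt_symm ht (fl w s) x] at t2
    have e2 : |passageTime t 0 x - passageTime t 0 (fl w s)| ≤ passageTime t x (fl w s) := by
      rw [abs_le]; constructor <;> linarith
    calc |passageTime t 0 x - μ (toR x)|
        = |(passageTime t 0 x - passageTime t 0 (fl w s)) +
            (passageTime t 0 (fl w s) - s * μ w) + (s * μ w - μ (toR x))| := by congr 1; ring
      _ ≤ |passageTime t 0 x - passageTime t 0 (fl w s)| +
            |passageTime t 0 (fl w s) - s * μ w| + |s * μ w - μ (toR x)| := abs_add_three _ _ _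
      _ ≤ _ := by linarith
  refine (integral_mono_ae hI3 (((hI1.const_mul s).add hI2).add (integrable_const _)) hb).trans ?_
  have e9 := integral_add3 (4 * m) (hI1.const_mul s) hI2
  refine e9.le.trans ?_
  rw [integral_const_mul]
  have h6 := hM.pt_le x (fl w s)
  have h4 : n1 (fl w s - x) ≤ 2 := by rwa [← neg_sub, n1_neg]
  have h5 : (n1 (fl w s - x) : ℝ) ≤ 2 := by exact_mod_cast h4
  nlinarith

lemma pairErr_tendsto (K : ℕ) (p : (ℤ × ℤ) × (ℤ × ℤ)) :
    Tendsto (fun n : ℕ => (∫ t, pairErr μ K n p t ∂(iidLaw G)) / n) atTop (nhds 0) := by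
  set v : ℝ × ℝ := ((p.1.1 : ℝ) / K, (p.1.2 : ℝ) / K) with hv
  set w : ℝ × ℝ := ((p.2.1 : ℝ) / K, (p.2.2 : ℝ) / K) - v with hw
  have hvw : v + w = ((p.2.1 : ℝ) / K, (p.2.2 : ℝ) / K) := by rw [hw]; abel
  have h1 := (hμ w).comp tendsto_natCast_atTop_atTop
  have h3 : Tendsto (fun n : ℕ => (6 * m) / (n : ℝ)) atTop (nhds 0) :=
    tendsto_const_div_atTop_nhds_zero_nat _
  have h4 := h1.add h3
  rw [add_zero] at h4
  refine squeeze_zero' ?_ ?_ h4
  · filter_upwards with n
    exact div_nonneg (integral_nonneg fun t => abs_nonneg _) (Nat.cast_nonneg _)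
  · filter_upwards [eventually_gt_atTop 0] with n hn
    have hn' : (0 : ℝ) < n := by exact_mod_cast hn
    have h5 : ∫ t, pairErr μ K n p t ∂(iidLaw G)
        = ∫ t, |passageTime t 0 (gp K n p.2 - gp K n p.1)
            - μ (toR (gp K n p.2 - gp K n p.1))| ∂(iidLaw G) := by
      unfold pairErr
      exact integral_comp_pt (G := G) (fun r => |r - μ (toR (gp K n p.2 - gp K n p.1))|)
        ((measurable_id.sub_const _).abs) _ _
    have h6 := hM.pairErr_le hμ v w hn' (gp K n p.2 - gp K n p.1) (by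
      rw [hvw]; rfl)
    rw [h5, div_le_iff₀ hn']
    refine h6.trans (le_of_eq ?_)
    simp only [Function.comp_apply]
    field_simp

/-- **Uniform shape theorem** (dominated form). -/
theorem uniform_shape_dom (hL : LocCtl G) {ε : ℝ} (hε : 0 < ε) :
    ∃ n0 : ℕ, ∀ n ≥ n0, ∃ D : Environment → ℝ, Integrable D (iidLaw G) ∧
      ∫ t, D t ∂(iidLaw G) ≤ ε * n ∧
      ∀ t, Nn t → ∀ x ∈ box n, ∀ y ∈ box n,
        |passageTime t x y - μ (toR (y - x))| ≤ D t := by
  have hm := hM.nonneg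
  obtain ⟨A, hA, hLA⟩ := hL (ε / 8) (by positivity)
  set c : ℝ := 2 * A + 2 * m with hc
  have hc0 : 0 ≤ c := by positivity
  obtain ⟨K, hK0, hK⟩ : ∃ K : ℕ, 0 < K ∧ 8 * c / K ≤ ε := by
    obtain ⟨K, hK⟩ := exists_nat_gt (8 * c / ε)
    refine ⟨K + 1, Nat.succ_pos _, ?_⟩
    rw [div_le_iff₀ (by positivity)]
    rw [div_lt_iff₀ hε] at hK
    push_cast
    nlinarith
  have hKR : (0 : ℝ) < K := by exact_mod_cast hK0
  -- the remainder
  have hrem : Tendsto (fun n : ℕ => (∑ p ∈ box K ×ˢ box K, ∫ t, pairErr μ K n p t ∂(iidLaw G)) / n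
      + (2 * c) / n) atTop (nhds 0) := by
    have e1 : Tendsto (fun n : ℕ => (∑ p ∈ box K ×ˢ box K,
        ∫ t, pairErr μ K n p t ∂(iidLaw G)) / n) atTop (nhds 0) := by
      have := tendsto_finsetSum (box K ×ˢ box K) fun p _ => hM.pairErr_tendsto hμ K p
      simpa [Finset.sum_div] using this
    have e2 : Tendsto (fun n : ℕ => (2 * c) / (n : ℝ)) atTop (nhds 0) :=
      tendsto_const_div_atTop_nhds_zero_nat _
    simpa using e1.add e2
  have hev := (hrem.eventually_le_const (show (0 : ℝ) < ε / 4 by positivity))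
  rw [eventually_atTop] at hev
  obtain ⟨n1', hn1'⟩ := hev
  refine ⟨max n1' 1, fun n hn => ?_⟩
  have hn1 : n1' ≤ n := (le_max_left _ _).trans hn
  have hnpos : 0 < n := (le_max_right _ _).trans hn
  have hnR : (0 : ℝ) < n := by exact_mod_cast hnpos
  set L : ℕ := 2 * (n / K + 1) with hL
  obtain ⟨E, hE1, hE2, hE3⟩ := hLA n hnpos
  have hp : ∀ p, Integrable (pairErr μ K n p) (iidLaw G) := fun p =>
    ((hM.int _ _).sub (integrable_const _)).abs
  have hsum : Integrable (fun t => ∑ p ∈ box K ×ˢ box K, pairErr μ K n p t) (iidLaw G) :=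
    integrable_finsetSum _ fun p _ => hp p
  refine ⟨fun t => ∑ p ∈ box K ×ˢ box K, pairErr μ K n p t + 2 * E t + c * L, ?_, ?_, ?_⟩
  · exact (hsum.add (hE1.const_mul 2)).add (integrable_const _)
  · refine (integral_add3 (c * L) hsum (hE1.const_mul 2)).le.trans ?_
    rw [integral_finsetSum _ fun p _ => hp p, integral_const_mul]
    have h5 := hn1' n hn1
    rw [← add_div, div_le_iff₀ hnR] at h5
    have hLR : (L : ℝ) ≤ 2 * n / K + 2 := by
      rw [hL]
      push_cast
      rw [mul_div_assoc]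
      have h9 : ((n / K : ℕ) : ℝ) ≤ (n : ℝ) / K := Nat.cast_div_le
      linarith
    have h6 : c * (2 * n / K + 2) ≤ ε / 4 * n + 2 * c := by
      have h7 : 8 * c ≤ ε * K := by rwa [div_le_iff₀ hKR] at hK
      have h8 : c * (2 * n / K) ≤ ε / 4 * n := by
        rw [mul_div_assoc', div_le_iff₀ hKR]
        nlinarith
      linarith
    have h8 : c * L ≤ c * (2 * n / K + 2) := by gcongr
    have h9 : 0 ≤ ε * n := by positivity
    linarith
  · intro t ht x hx y hy
    set zx := gp K n (gi K n x) with hzx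
    set zy := gp K n (gi K n y) with hzy
    have b4 : (n1 (zy - y) : ℝ) ≤ L := by exact_mod_cast gp_gi_close hK0 hnpos y
    have b5 : (n1 (zx - x) : ℝ) ≤ L := by exact_mod_cast gp_gi_close hK0 hnpos x
    have a1 : passageTime t x zx ≤ A * L + E t := by
      have := hE3 t ht x hx zx (gp_mem_box hK0 (gi_mem hnpos hx))
      have := mul_le_mul_of_nonneg_left b5 hA
      linarith
    have a2 : passageTime t y zy ≤ A * L + E t := by
      have := hE3 t ht y hy zy (gp_mem_box hK0 (gi_mem hnpos hy))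
      have := mul_le_mul_of_nonneg_left b4 hA
      linarith
    have a3 : pairErr μ K n (gi K n x, gi K n y) t ≤ ∑ p ∈ box K ×ˢ box K, pairErr μ K n p t := by
      refine Finset.single_le_sum (f := fun p => pairErr μ K n p t)
        (fun p _ => abs_nonneg _) ?_
      rw [Finset.mem_product]
      exact ⟨gi_mem hnpos hx, gi_mem hnpos hy⟩
    have a4 : |passageTime t x y - passageTime t zx zy|
        ≤ passageTime t x zx + passageTime t y zy := by
      have t1 := pt_triangle ht x zx y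
      have t2 := pt_triangle ht zx zy y
      have t3 := pt_triangle ht zx x zy
      have t4 := pt_triangle ht x y zy
      rw [pt_symm ht zy y] at t2
      rw [pt_symm ht zx x] at t3
      rw [abs_le]; constructor <;> linarith
    have a5 : |μ (toR (zy - zx)) - μ (toR (y - x))| ≤ 2 * (m * L) := by
      refine (hM.abs_mu_sub_le hμ _ _).trans ?_
      have b1 : toR (zy - zx) - toR (y - x) = toR (zy - y) + -toR (zx - x) := by
        simp only [toR_sub]; abel
      rw [b1]
      have b2 := l1_add_le (toR (zy - y)) (-toR (zx - x))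
      have b3 : l1 (-toR (zx - x)) = l1 (toR (zx - x)) := by simp [l1]
      rw [b3, l1_toR, l1_toR] at b2
      nlinarith
    have a6 : pairErr μ K n (gi K n x, gi K n y) t
        = |passageTime t zx zy - μ (toR (zy - zx))| := rfl
    calc |passageTime t x y - μ (toR (y - x))|
        = |(passageTime t x y - passageTime t zx zy) + (passageTime t zx zy - μ (toR (zy - zx)))
            + (μ (toR (zy - zx)) - μ (toR (y - x)))| := by congr 1; ring
      _ ≤ |passageTime t x y - passageTime t zx zy| + |passageTime t zx zy - μ (toR (zy - zx))|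
            + |μ (toR (zy - zx)) - μ (toR (y - x))| := abs_add_three _ _ _
      _ ≤ _ := by
        rw [← a6]
        have : c * (L : ℝ) = 2 * (A * L) + 2 * (m * L) := by rw [hc]; ring
        linarith

/-- **Uniform shape theorem**: `E sup_{x, y ∈ box n} |T(x,y) - μ(y-x)| ≤ ε n`. -/
theorem uniform_shape (hL : LocCtl G) {ε : ℝ} (hε : 0 < ε) :
    ∃ n0 : ℕ, ∀ n ≥ n0, Integrable (dev μ n) (iidLaw G) ∧
      ∫ t, dev μ n t ∂(iidLaw G) ≤ ε * n := by
  obtain ⟨n0, hn0⟩ := hM.uniform_shape_dom hμ hL hε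
  refine ⟨n0, fun n hn => ?_⟩
  obtain ⟨D, hD1, hD2, hD3⟩ := hn0 n hn
  have hle : ∀ᵐ t ∂(iidLaw G), dev μ n t ≤ D t := by
    filter_upwards [ae_Nn (G := G) hM.h0] with t ht
    refine Finset.sup'_le _ _ fun p hp => ?_
    rw [Finset.mem_product] at hp
    exact hD3 t ht p.1 hp.1 p.2 hp.2
  have hi : Integrable (dev μ n) (iidLaw G) := by
    refine hD1.mono' (measurable_dev μ n).aestronglyMeasurable ?_
    filter_upwards [hle] with t ht
    rwa [Real.norm_eq_abs, abs_of_nonneg (dev_nonneg μ n t)]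
  exact ⟨hi, (integral_mono_ae hi hD1 hle).trans hD2⟩

/-- Probability form. -/
theorem uniform_shape_prob (hL : LocCtl G) {ε : ℝ} (hε : 0 < ε) :
    ∃ n0 : ℕ, ∀ n ≥ n0, (iidLaw G).real {t | ε * n ≤ dev μ n t} ≤ ε := by
  obtain ⟨n0, hn0⟩ := hM.uniform_shape hμ hL (ε := ε ^ 2) (by positivity)
  refine ⟨max n0 1, fun n hn => ?_⟩
  obtain ⟨h1, h2⟩ := hn0 n ((le_max_left _ _).trans hn)
  have hn1 : 0 < n := (le_max_right _ _).trans hn
  have hn' : (0 : ℝ) < n := by exact_mod_cast hn1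
  have h3 := mul_meas_ge_le_integral_of_nonneg
    (Filter.Eventually.of_forall fun t => dev_nonneg μ n t) h1 (ε * n)
  have h4 : ε * n * (iidLaw G).real {t | ε * n ≤ dev μ n t} ≤ ε ^ 2 * n := h3.trans h2
  have h5 : (0 : ℝ) < ε * n := by positivity
  have h6 : ε * n * (iidLaw G).real {t | ε * n ≤ dev μ n t} ≤ ε * n * ε := by
    calc _ ≤ ε ^ 2 * n := h4
      _ = ε * n * ε := by ring
  exact le_of_mul_le_mul_left h6 h5

end Mom

/-! ### Laws with a second moment satisfy the hypothesis of S0213 -/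

theorem law213_of_sq (h0 : G (Set.Iio 0) = 0) (h2 : Integrable (fun x : ℝ => x ^ 2) G) :
    M51.Law213 G := by
  refine ⟨h0, ?_⟩
  have hae : ∀ᵐ x ∂(Measure.pi fun _ : Fin 4 => G), ∀ i, 0 ≤ x i := by
    rw [ae_all_iff]
    intro i
    exact (Measure.tendsto_eval_ae_ae (μ := fun _ : Fin 4 => G) (i := i)).eventually (ae_nonneg h0)
  have h1 : ∫⁻ x, ENNReal.ofReal ((⨅ i, x i) ^ 2) ∂(Measure.pi fun _ : Fin 4 => G) ≤
      ∫⁻ x, ENNReal.ofReal (x 0 ^ 2) ∂(Measure.pi fun _ : Fin 4 => G) := by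
    refine lintegral_mono_ae ?_
    filter_upwards [hae] with x hx
    apply ENNReal.ofReal_le_ofReal
    have h3 : (⨅ i, x i) ≤ x 0 := ciInf_le (Set.finite_range x).bddBelow 0
    have h4 : 0 ≤ ⨅ i, x i := Real.iInf_nonneg hx
    exact pow_le_pow_left₀ h4 h3 2
  refine lt_of_le_of_lt h1 ?_
  have hmp := measurePreserving_eval (fun _ : Fin 4 => G) (0 : Fin 4)
  have h3 : ∫⁻ x, ENNReal.ofReal (x 0 ^ 2) ∂(Measure.pi fun _ : Fin 4 => G) =
      ∫⁻ y, ENNReal.ofReal (y ^ 2) ∂G :=
    hmp.lintegral_comp (f := fun y : ℝ => ENNReal.ofReal (y ^ 2)) (by fun_prop)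
  rw [h3, ← hasFiniteIntegral_iff_ofReal (Filter.Eventually.of_forall fun y => sq_nonneg y)]
  exact h2.2

theorem law213_gamma {κ r : ℝ} (hκ : 0 < κ) (hr : 0 < r) : M51.Law213 (gammaMeasure κ r) := by
  have : IsProbabilityMeasure (gammaMeasure κ r) := isProbabilityMeasure_gammaMeasure hκ hr
  exact law213_of_sq (gamma_Iio κ r)
    (integrable_sq (gamma_Iio κ r) (half_pos hr) (gamma_exp hκ hr))

/-- Everything for the law of S0213: moments, local control, existence of the time constant. -/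
theorem law213_all (hG : M51.Law213 G) : ∃ (m : ℝ) (μ : ℝ × ℝ → ℝ), Mom G m ∧ IsTC1 G μ ∧
    LocCtl G := by
  obtain ⟨m, hM⟩ := mom_of_law213 hG
  obtain ⟨μ, hμ⟩ := hM.exists_tc
  exact ⟨m, μ, hM, hμ, locCtl_of_law213 hG⟩

end Crest.Agent.R151.K
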