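import Crest.Agent.R151.Q5c

/-!
# R151 / S0214 part 2, Q5d — the boxes contain a path with small backtracking (owner helper777)
-/

set_option autoImplicit false

open MeasureTheory Filter ProbabilityTheory Topology
open Crest.ProbabilityR.FirstPassage
open Crest.Agent.R151.K

namespace Crest.Agent.R151.Q

open B710 (FlatData)
open SimpleGraph (Walk)

variable {μ : ℝ × ℝ → ℝ}

lemma abs_al_le (F : FlatData μ) (v : ℝ × ℝ) : |F.al v| ≤ ‖F.al‖ * ‖v‖ := F.al.le_opNorm v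

lemma abs_be_le (F : FlatData μ) (v : ℝ × ℝ) : |F.be v| ≤ ‖F.be‖ * ‖v‖ := F.be.le_opNorm v

/-- a unit step on which a nonzero functional is positive -/
lemma exists_step (f : ℝ × ℝ →L[ℝ] ℝ) (hf : f ≠ 0) :
    ∃ e : ℤ × ℤ, (∀ z, squareLattice.Adj z (z + e)) ∧ 0 < f (toR e) ∧ ‖toR e‖ ≤ 1 := by
  have adjR : ∀ z : ℤ × ℤ, squareLattice.Adj z (z + (1, 0)) := by
    intro z
    have := adj_right z.1 z.2
    have e : z + (1, 0) = (z.1 + 1, z.2) := by ext <;> simp
    rw [e]; exact this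
  have adjL : ∀ z : ℤ × ℤ, squareLattice.Adj z (z + (-1, 0)) := by
    intro z
    have := (adj_right (z.1 - 1) z.2).symm
    simp only [sub_add_cancel] at this
    have e : z + (-1, 0) = (z.1 - 1, z.2) := by ext <;> simp <;> ring
    rw [e]; exact this
  have adjU : ∀ z : ℤ × ℤ, squareLattice.Adj z (z + (0, 1)) := by
    intro z
    have := adj_up z.1 z.2
    have e : z + (0, 1) = (z.1, z.2 + 1) := by ext <;> simp
    rw [e]; exact this
  have adjD : ∀ z : ℤ × ℤ, squareLattice.Adj z (z + (0, -1)) := by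
    intro z
    have := (adj_up z.1 (z.2 - 1)).symm
    simp only [sub_add_cancel] at this
    have e : z + (0, -1) = (z.1, z.2 - 1) := by ext <;> simp <;> ring
    rw [e]; exact this
  have hn : ∀ x y : ℤ, |x| ≤ 1 → |y| ≤ 1 → ‖toR (x, y)‖ ≤ 1 := by
    intro x y hx hy
    unfold toR
    rw [Prod.norm_def]
    refine max_le ?_ ?_
    · show ‖(x : ℝ)‖ ≤ 1
      rw [Real.norm_eq_abs]; exact_mod_cast hx
    · show ‖(y : ℝ)‖ ≤ 1
      rw [Real.norm_eq_abs]; exact_mod_cast hy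
  have hdec : ∀ v : ℝ × ℝ, f v = v.1 * f (1, 0) + v.2 * f (0, 1) := by
    intro v
    have : v = v.1 • ((1 : ℝ), (0 : ℝ)) + v.2 • ((0 : ℝ), (1 : ℝ)) := by ext <;> simp
    conv_lhs => rw [this]
    simp only [map_add, map_smul, smul_eq_mul]
  by_cases h1 : f (1, 0) = 0
  · have h2 : f (0, 1) ≠ 0 := by
      intro h2
      apply hf
      ext v
      · simpa using h1
      · simpa using h2
    rcases lt_or_gt_of_ne h2 with h | h
    · refine ⟨(0, -1), adjD, ?_, hn _ _ (by norm_num) (by norm_num)⟩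
      rw [hdec]; simp [toR, h1]; linarith
    · refine ⟨(0, 1), adjU, ?_, hn _ _ (by norm_num) (by norm_num)⟩
      rw [hdec]; simp [toR, h1]; linarith
  · rcases lt_or_gt_of_ne h1 with h | h
    · refine ⟨(-1, 0), adjL, ?_, hn _ _ (by norm_num) (by norm_num)⟩
      rw [hdec]; simp [toR]; linarith
    · refine ⟨(1, 0), adjR, ?_, hn _ _ (by norm_num) (by norm_num)⟩
      rw [hdec]; simp [toR]; linarith

lemma bt_append {h : ℤ × ℤ → ℝ} {κ m : ℝ} {x y z : ℤ × ℤ} {w : squareLattice.Walk x y}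
    {w' : squareLattice.Walk y z} (h1 : bt h κ w.support) (h2 : bt h κ w'.support)
    (h3 : ∀ u ∈ w.support, h u ≤ m + κ / 2) (h4 : ∀ v ∈ w'.support, m ≤ h v + κ / 2) :
    bt h κ (w.append w').support := by
  unfold bt at *
  rw [SimpleGraph.Walk.support_append, List.pairwise_append]
  refine ⟨h1, h2.sublist (List.tail_sublist _), ?_⟩
  intro u hu v hv
  have := h3 u hu
  have := h4 v (List.mem_of_mem_tail hv)
  linarith

lemma norm_le_of_coord (F : FlatData μ) (v : ℝ × ℝ) :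
    ‖v‖ ≤ |F.al v| * ‖F.a‖ + |F.be v| * ‖F.b‖ := by
  conv_lhs => rw [← F.decomp v]
  refine (norm_add_le _ _).trans ?_
  rw [norm_smul, norm_smul, Real.norm_eq_abs, Real.norm_eq_abs]

/-- position of the next node -/
lemma norm_nxt (F : FlatData μ) (n0 : ℝ) (θ : ℝ × ℝ) :
    ‖toR (nxt F n0 θ) + θ - n0 • F.a‖ ≤ 1 / 2 := by
  have := norm_pos_nr (θ - n0 • F.a)
  unfold pos at this
  rw [← add_sub_assoc] at this
  exact this

lemma abs_al_nxt (F : FlatData μ) (n0 : ℝ) (θ : ℝ × ℝ) :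
    |F.al (pos θ (nxt F n0 θ)) - n0| ≤ ‖F.al‖ / 2 := by
  have h := norm_nxt F n0 θ
  have h2 := abs_al_le F (toR (nxt F n0 θ) + θ - n0 • F.a)
  rw [map_sub, map_smul, F.al_a, smul_eq_mul, mul_one] at h2
  unfold pos
  refine h2.trans ?_
  have := mul_le_mul_of_nonneg_left h (norm_nonneg F.al)
  linarith

lemma abs_be_nxt (F : FlatData μ) (n0 : ℝ) (θ : ℝ × ℝ) :
    |F.be (pos θ (nxt F n0 θ))| ≤ ‖F.be‖ / 2 := by
  have h := norm_nxt F n0 θ
  have h2 := abs_be_le F (toR (nxt F n0 θ) + θ - n0 • F.a)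
  rw [map_sub, map_smul, F.be_a, smul_eq_mul, mul_zero, sub_zero] at h2
  unfold pos
  refine h2.trans ?_
  have := mul_le_mul_of_nonneg_left h (norm_nonneg F.be)
  linarith

/-- every vertex satisfying the constraints is in the bounding box -/
lemma mem_box_bxN (F : FlatData μ) {w n0 : ℝ} {θ : ℝ × ℝ} (hθ : ‖θ‖ ≤ 1 / 2) {z : ℤ × ℤ}
    (h1 : |F.be (pos θ z)| ≤ w / 2) (h2 : F.al (pos θ 0) ≤ F.al (pos θ z))
    (h3 : F.al (pos θ z) ≤ F.al (pos θ (nxt F n0 θ))) : z ∈ box (bxN F w n0) := by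
  have ha := abs_al_nxt F n0 θ
  have hb : |F.al (pos θ 0)| ≤ ‖F.al‖ / 2 := by
    have := abs_al_le F (pos θ 0)
    have e : pos θ 0 = θ := by unfold pos; rw [toR_zero, zero_add]
    rw [e] at this ⊢
    have := mul_le_mul_of_nonneg_left hθ (norm_nonneg F.al)
    linarith
  have hN : 0 ≤ ‖F.al‖ := norm_nonneg _
  have hal : |F.al (pos θ z)| ≤ |n0| + ‖F.al‖ := by
    rw [abs_le] at ha hb ⊢
    have := le_abs_self n0
    have := neg_abs_le n0
    constructor <;> linarith [ha.1, ha.2, hb.1, hb.2]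
  have hbe : |F.be (pos θ z)| ≤ |w| + 1 := by
    have := le_abs_self w
    have := abs_nonneg w
    linarith
  have hpos := norm_le_of_coord F (pos θ z)
  have h4 : ‖pos θ z‖ ≤ (|n0| + ‖F.al‖ + 1) * ‖F.a‖ + (|w| + 1) * ‖F.b‖ := by
    refine hpos.trans (add_le_add ?_ ?_)
    · exact mul_le_mul_of_nonneg_right (by linarith) (norm_nonneg _)
    · exact mul_le_mul_of_nonneg_right hbe (norm_nonneg _)
  have h5 : ‖toR z‖ ≤ (bxN F w n0 : ℝ) := by
    have e : toR z = pos θ z - θ := by unfold pos; abel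
    rw [e]
    refine (norm_sub_le _ _).trans ?_
    unfold bxN
    push_cast
    have := Nat.le_ceil ((|n0| + ‖F.al‖ + 1) * ‖F.a‖ + (|w| + 1) * ‖F.b‖)
    linarith
  have h6 : |(z.1 : ℝ)| ≤ bxN F w n0 := (norm_fst_le (toR z)).trans h5
  have h7 : |(z.2 : ℝ)| ≤ bxN F w n0 := (norm_snd_le (toR z)).trans h5
  rw [mem_box]
  rw [abs_le] at h6 h7
  refine ⟨⟨?_, ?_⟩, ⟨?_, ?_⟩⟩
  · exact_mod_cast h6.1
  · exact_mod_cast h6.2
  · exact_mod_cast h7.1
  · exact_mod_cast h7.2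

lemma mem_Qbox (F : FlatData μ) {w n0 : ℝ} {θ : ℝ × ℝ} (hθ : ‖θ‖ ≤ 1 / 2) {z : ℤ × ℤ} :
    z ∈ Qbox F w n0 θ ↔ z = nxt F n0 θ ∨ (|F.be (pos θ z)| ≤ w / 2 ∧
      F.al (pos θ 0) ≤ F.al (pos θ z) ∧ F.al (pos θ z) < F.al (pos θ (nxt F n0 θ))) := by
  unfold Qbox
  rw [Finset.mem_insert, Finset.mem_filter]
  constructor
  · rintro (h | ⟨-, h⟩)
    · exact Or.inl h
    · exact Or.inr h
  · rintro (h | h)
    · exact Or.inl h
    · exact Or.inr ⟨mem_box_bxN F hθ h.1 h.2.1 h.2.2.le, h⟩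

lemma al_ne_zero (F : FlatData μ) : (F.al : ℝ × ℝ →L[ℝ] ℝ) ≠ 0 := by
  intro h
  have := F.al_a
  rw [h] at this
  simp at this

/-- **the boxes contain a walk with small backtracking** -/
theorem exists_box_walk (F : FlatData μ) : ∃ w0 n00 : ℝ, ∀ w ≥ w0, ∀ n0 ≥ n00,
    ∀ θ : ℝ × ℝ, ‖θ‖ ≤ 1 / 2 → ∃ W : squareLattice.Walk 0 (nxt F n0 θ),
      (∀ z ∈ W.support, z ∈ Qbox F w n0 θ) ∧ bt (hgt F) (3 * ‖F.al‖) W.support := by
  obtain ⟨f, hadj, hf, hfn⟩ := exists_step F.al (al_ne_zero F)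
  set cf := F.al (toR f) with hcf
  obtain ⟨K, hK⟩ := exists_nat_gt (3 / 2 * ‖F.al‖ / cf)
  have hKc : 3 / 2 * ‖F.al‖ < K * cf := by rwa [div_lt_iff₀ hf] at hK
  have hN : 0 ≤ ‖F.al‖ := norm_nonneg _
  have hM : 0 ≤ ‖F.be‖ := norm_nonneg _
  have hK0 : (0 : ℝ) ≤ K := Nat.cast_nonneg K
  refine ⟨2 * (‖F.be‖ * (K + 4)), 2 * (K * cf) + 2 * ‖F.al‖ + 1, ?_⟩
  intro w hw n0 hn0 θ hθ
  set nx := nxt F n0 θ with hnx
  have hposnx := abs_al_nxt F n0 θ
  have hbenx := abs_be_nxt F n0 θ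
  rw [← hnx] at hposnx hbenx
  have hθa : |F.al θ| ≤ ‖F.al‖ / 2 := by
    refine (abs_al_le F θ).trans ?_
    have := mul_le_mul_of_nonneg_left hθ hN
    linarith
  have hθb : |F.be θ| ≤ ‖F.be‖ / 2 := by
    refine (abs_be_le F θ).trans ?_
    have := mul_le_mul_of_nonneg_left hθ hM
    linarith
  have hpa : ∀ z, F.al (pos θ z) = F.al (toR z) + F.al θ := fun z => by unfold pos; rw [map_add]
  have hpb : ∀ z, F.be (pos θ z) = F.be (toR z) + F.be θ := fun z => by unfold pos; rw [map_add]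
  rw [hpa] at hposnx
  rw [hpb] at hbenx
  rw [abs_le] at hposnx hbenx hθa hθb
  -- the coordinates of `f`
  have hbf : |F.be (toR f)| ≤ ‖F.be‖ := by
    refine (abs_be_le F _).trans ?_
    have := mul_le_mul_of_nonneg_left hfn hM
    linarith
  rw [abs_le] at hbf
  have hsm : ∀ i : ℕ, toR (i • f) = (i : ℝ) • toR f := by
    intro i; unfold toR; refine Prod.ext ?_ ?_ <;> simp
  have hadd : ∀ x y : ℤ × ℤ, toR (x + y) = toR x + toR y := by
    intro x y; unfold toR; refine Prod.ext ?_ ?_ <;> simp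
  have hsub : ∀ x y : ℤ × ℤ, toR (x - y) = toR x - toR y := by
    intro x y; unfold toR; refine Prod.ext ?_ ?_ <;> simp
  set P : ℤ × ℤ := K • f with hP
  set Q : ℤ × ℤ := nx - K • f with hQ
  have haP : F.al (toR P) = K * cf := by rw [hP, hsm, map_smul, smul_eq_mul]
  have haQ : F.al (toR Q) = F.al (toR nx) - K * cf := by
    rw [hQ, hsub, hsm, map_sub, map_smul, smul_eq_mul]
  have hbP : F.be (toR P) = K * F.be (toR f) := by rw [hP, hsm, map_smul, smul_eq_mul]
  have hbQ : F.be (toR Q) = F.be (toR nx) - K * F.be (toR f) := by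
    rw [hQ, hsub, hsm, map_sub, map_smul, smul_eq_mul]
  have hPQ : F.al (toR P) ≤ F.al (toR Q) := by rw [haP, haQ]; linarith [hposnx.1, hθa.2]
  -- the three walks
  obtain ⟨W1, a1, b1⟩ := exists_straight 0 f hadj K
  obtain ⟨W2, a2, b2⟩ := exists_staircase P Q
  obtain ⟨W3, a3, b3⟩ := exists_straight Q f hadj K
  have e1 : (0 : ℤ × ℤ) + K • f = P := by rw [zero_add]
  have e3 : Q + K • f = nx := by rw [hQ, sub_add_cancel]
  -- heights
  have H1 : ∀ u ∈ W1.support, 0 ≤ hgt F u ∧ hgt F u ≤ K * cf ∧ |F.be (toR u)| ≤ K * ‖F.be‖ := by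
    intro u hu
    obtain ⟨i, hi, rfl⟩ := a1 u hu
    have hi' : (i : ℝ) ≤ K := by exact_mod_cast hi
    unfold hgt
    rw [zero_add, hsm, map_smul, map_smul, smul_eq_mul, smul_eq_mul, ← hcf]
    refine ⟨by positivity, mul_le_mul_of_nonneg_right hi' hf.le, ?_⟩
    rw [abs_mul, abs_of_nonneg (Nat.cast_nonneg i)]
    exact mul_le_mul hi' (abs_le.2 hbf) (abs_nonneg _) hK0
  have hsg : ∀ s : ℝ, F.al (sgm (toR P) (toR Q) s) =
      F.al (toR P) + s * (F.al (toR Q) - F.al (toR P)) := by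
    intro s; unfold sgm; rw [map_add, map_smul, map_sub, smul_eq_mul]
  have hsgb : ∀ s : ℝ, F.be (sgm (toR P) (toR Q) s) =
      F.be (toR P) + s * (F.be (toR Q) - F.be (toR P)) := by
    intro s; unfold sgm; rw [map_add, map_smul, map_sub, smul_eq_mul]
  have hnear : ∀ (u : ℤ × ℤ) (s : ℝ), ‖toR u - sgm (toR P) (toR Q) s‖ ≤ 3 / 2 →
      |hgt F u - F.al (sgm (toR P) (toR Q) s)| ≤ 3 / 2 * ‖F.al‖ ∧
      |F.be (toR u) - F.be (sgm (toR P) (toR Q) s)| ≤ 3 / 2 * ‖F.be‖ := by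
    intro u s h
    unfold hgt
    rw [← map_sub, ← map_sub]
    refine ⟨(abs_al_le F _).trans ?_, (abs_be_le F _).trans ?_⟩
    · have := mul_le_mul_of_nonneg_left h hN; linarith
    · have := mul_le_mul_of_nonneg_left h hM; linarith
  have H2 : ∀ u ∈ W2.support, F.al (toR P) - 3 / 2 * ‖F.al‖ ≤ hgt F u ∧
      hgt F u ≤ F.al (toR Q) + 3 / 2 * ‖F.al‖ ∧ |F.be (toR u)| ≤ ‖F.be‖ * (K + 3) := by
    intro u hu
    obtain ⟨s, hs0, hs1, hs⟩ := a2 u hu
    obtain ⟨h1, h2⟩ := hnear u s hs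
    rw [abs_le] at h1 h2
    rw [hsg] at h1
    rw [hsgb] at h2
    have c1 : 0 ≤ s * (F.al (toR Q) - F.al (toR P)) := mul_nonneg hs0 (by linarith)
    have c2 : s * (F.al (toR Q) - F.al (toR P)) ≤ F.al (toR Q) - F.al (toR P) :=
      mul_le_of_le_one_left (by linarith) hs1
    refine ⟨by linarith [h1.1], by linarith [h1.2], ?_⟩
    have d1 : |F.be (toR P)| ≤ K * ‖F.be‖ := by
      rw [hbP, abs_mul, abs_of_nonneg hK0]
      exact mul_le_mul_of_nonneg_left (abs_le.2 hbf) hK0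
    have d2 : |F.be (toR Q)| ≤ (K + 1) * ‖F.be‖ := by
      rw [hbQ]
      have : |F.be (toR nx)| ≤ ‖F.be‖ := by
        rw [abs_le]; constructor <;> linarith [hbenx.1, hbenx.2, hθb.1, hθb.2]
      have e : |K * F.be (toR f)| ≤ K * ‖F.be‖ := by
        rw [abs_mul, abs_of_nonneg hK0]
        exact mul_le_mul_of_nonneg_left (abs_le.2 hbf) hK0
      have := abs_sub (F.be (toR nx)) (K * F.be (toR f))
      linarith
    have d3 : |F.be (toR P) + s * (F.be (toR Q) - F.be (toR P))| ≤ (K + 1) * ‖F.be‖ := by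
      have e : F.be (toR P) + s * (F.be (toR Q) - F.be (toR P)) =
          (1 - s) * F.be (toR P) + s * F.be (toR Q) := by ring
      rw [e]
      refine (abs_add_le _ _).trans ?_
      rw [abs_mul, abs_mul, abs_of_nonneg hs0, abs_of_nonneg (by linarith : (0 : ℝ) ≤ 1 - s)]
      have f1 := mul_le_mul_of_nonneg_left d1 (by linarith : (0 : ℝ) ≤ 1 - s)
      have f2 := mul_le_mul_of_nonneg_left d2 hs0
      nlinarith
    rw [abs_le] at d3 ⊢
    constructor <;> nlinarith [d3.1, d3.2, h2.1, h2.2]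
  have H3 : ∀ u ∈ W3.support, F.al (toR Q) ≤ hgt F u ∧
      (u = nx ∨ hgt F u < F.al (toR nx)) ∧ |F.be (toR u)| ≤ ‖F.be‖ * (K + 3) := by
    intro u hu
    obtain ⟨i, hi, rfl⟩ := a3 u hu
    have hi' : (i : ℝ) ≤ K := by exact_mod_cast hi
    have e : toR (Q + i • f) = toR Q + (i : ℝ) • toR f := by rw [hadd, hsm]
    have ea : hgt F (Q + i • f) = F.al (toR Q) + i * cf := by
      unfold hgt; rw [e, map_add, map_smul, smul_eq_mul]
    have eb : F.be (toR (Q + i • f)) = F.be (toR nx) - (K - i) * F.be (toR f) := by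
      rw [e, map_add, map_smul, smul_eq_mul, hbQ]; ring
    refine ⟨?_, ?_, ?_⟩
    · rw [ea]; have : (0 : ℝ) ≤ i * cf := by positivity
      linarith
    · rcases hi.lt_or_eq with h | h
      · right
        rw [ea, haQ]
        have : (i : ℝ) < K := by exact_mod_cast h
        nlinarith
      · left; rw [h, e3]
    · rw [eb]
      have : |F.be (toR nx)| ≤ ‖F.be‖ := by
        rw [abs_le]; constructor <;> linarith [hbenx.1, hbenx.2, hθb.1, hθb.2]
      have e : |(K - i) * F.be (toR f)| ≤ K * ‖F.be‖ := by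
        rw [abs_mul, abs_of_nonneg (by linarith : (0 : ℝ) ≤ K - i)]
        exact mul_le_mul (by linarith [Nat.cast_nonneg (α := ℝ) i]) (abs_le.2 hbf) (abs_nonneg _) hK0
      have := abs_sub (F.be (toR nx)) ((K - i) * F.be (toR f))
      linarith
  -- the walk
  refine ⟨((W1.copy rfl e1).append W2).append (W3.copy rfl e3), ?_, ?_⟩
  · have hmem : ∀ z : ℤ × ℤ, |F.be (toR z)| ≤ ‖F.be‖ * (K + 3) → 0 ≤ hgt F z →
        (z = nx ∨ hgt F z < F.al (toR nx)) → z ∈ Qbox F w n0 θ := by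
      intro z hb h0 h1
      rw [mem_Qbox F hθ]
      rcases h1 with h1 | h1
      · exact Or.inl h1
      · right
        rw [hpb, hpa, hpa, hpa, toR_zero, map_zero]
        unfold hgt at h0 h1
        refine ⟨?_, by linarith, by rw [← hnx]; linarith⟩
        rw [abs_le] at hb ⊢
        constructor <;> nlinarith [hb.1, hb.2, hθb.1, hθb.2]
    intro z hz
    rw [SimpleGraph.Walk.mem_support_append_iff, SimpleGraph.Walk.mem_support_append_iff,
      SimpleGraph.Walk.support_copy, SimpleGraph.Walk.support_copy] at hz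
    rcases hz with (hz | hz) | hz
    · obtain ⟨h1, h2, h3⟩ := H1 z hz
      refine hmem z ?_ h1 (Or.inr ?_)
      · nlinarith
      · linarith [hposnx.1, hθa.2]
    · obtain ⟨h1, h2, h3⟩ := H2 z hz
      refine hmem z h3 (by rw [haP] at h1; linarith) (Or.inr (by rw [haQ] at h2; linarith))
    · obtain ⟨h1, h2, h3⟩ := H3 z hz
      refine hmem z h3 (by rw [haP] at hPQ; linarith [mul_nonneg hK0 hf.le]) h2
  · have B1 : bt (hgt F) (3 * ‖F.al‖) (W1.copy rfl e1).support := by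
      rw [SimpleGraph.Walk.support_copy]
      refine b1.imp ?_
      rintro u v ⟨i, j, hij, hj, rfl, rfl⟩
      have hij' : (i : ℝ) ≤ j := by exact_mod_cast hij
      unfold hgt
      rw [zero_add, zero_add, hsm, hsm, map_smul, map_smul, smul_eq_mul, smul_eq_mul, ← hcf]
      nlinarith
    have B2 : bt (hgt F) (3 * ‖F.al‖) W2.support := by
      refine b2.imp ?_
      rintro u v ⟨s, s', h0, hs, h1, hu, hv⟩
      have c1 := (hnear u s hu).1
      have c2 := (hnear v s' hv).1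
      rw [hsg] at c1 c2
      rw [abs_le] at c1 c2
      have : s * (F.al (toR Q) - F.al (toR P)) ≤ s' * (F.al (toR Q) - F.al (toR P)) :=
        mul_le_mul_of_nonneg_right hs (by linarith)
      linarith [c1.2, c2.1]
    have B3 : bt (hgt F) (3 * ‖F.al‖) (W3.copy rfl e3).support := by
      rw [SimpleGraph.Walk.support_copy]
      refine b3.imp ?_
      rintro u v ⟨i, j, hij, hj, rfl, rfl⟩
      have hij' : (i : ℝ) ≤ j := by exact_mod_cast hij
      unfold hgt
      rw [hadd, hadd, hsm, hsm, map_add, map_add, map_smul, map_smul, smul_eq_mul, smul_eq_mul,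
        ← hcf]
      nlinarith
    refine bt_append (m := F.al (toR Q)) (bt_append (m := F.al (toR P)) B1 B2 ?_ ?_) B3 ?_ ?_
    · intro u hu
      rw [SimpleGraph.Walk.support_copy] at hu
      have := (H1 u hu).2.1
      rw [haP]; linarith
    · intro v hv
      have := (H2 v hv).1
      linarith
    · intro u hu
      rw [SimpleGraph.Walk.mem_support_append_iff, SimpleGraph.Walk.support_copy] at hu
      rcases hu with hu | hu
      · have := (H1 u hu).2.1
        rw [haP] at hPQ; linarith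
      · have := (H2 u hu).2.1
        linarith
    · intro v hv
      rw [SimpleGraph.Walk.support_copy] at hv
      have := (H3 v hv).1
      linarith

theorem pathsBT_nonempty (F : FlatData μ) : ∃ w0 n00 : ℝ, ∀ w ≥ w0, ∀ n0 ≥ n00,
    ∀ κ ≥ 3 * ‖F.al‖, ∀ θ : ℝ × ℝ, ‖θ‖ ≤ 1 / 2 →
      (pathsBT (Qbox F w n0 θ) 0 (nxt F n0 θ) (hgt F) κ).Nonempty := by
  obtain ⟨w0, n00, h⟩ := exists_box_walk F
  refine ⟨w0, n00, fun w hw n0 hn0 κ hκ θ hθ => ?_⟩
  obtain ⟨W, h1, h2⟩ := h w hw n0 hn0 θ hθ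
  refine ⟨_, bypass_mem_pathsBT W h1 (h2.imp ?_)⟩
  intro a b hab
  linarith

end Crest.Agent.R151.Q
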