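import Crest.Agent.R151.G338h
import Crest.Agent.R151.K9d
import Crest.Agent.R151.Q5d

/-!
# R151 / S0214 part 2, block R6 — law of the deviation `devB`, gap costs (helper565)

`inv_devB`, `measurable_devB`, `mp_nr_shift`, `devB_prob`, `devB_mean` : law of 338's `devB`.
`Shape.hp_ge` : excess of a piece of highway; `psi_le_gp` : the normalised gap cost `gp` is at
least `ψ (displacement) - 4 D`; `gap_cost` : falls cost a positive fraction of their length, with
any ratio `K` between height and fall.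
-/

set_option autoImplicit false
set_option linter.unusedSectionVars false

open MeasureTheory Filter ProbabilityTheory Topology
open Crest.ProbabilityR.FirstPassage

namespace Crest.Agent.R151.R6

open K R78 B710 Q

variable {μ : ℝ × ℝ → ℝ}

/-! ### The deviation seen from the base point -/

lemma devB_nonneg (n : ℕ) (θ : ℝ × ℝ) (t : Environment) : 0 ≤ devB μ n θ t := dev_nonneg _ _ _

lemma act_tr_tr (a b : ℤ × ℤ) (t : Environment) : act (tr (a - b)) (act (tr b) t) = act (tr a) t := by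
  funext e
  unfold act
  congr 1
  rw [Sym2.map_map]
  congr 1
  funext x
  simp only [Function.comp_apply, tr_apply]
  abel

lemma inv_devB (n : ℕ) : Inv (devB μ n) := by
  intro m θ t
  unfold devB
  rw [nr_add, act_tr_tr]

lemma measurable_devB (n : ℕ) : Measurable (Function.uncurry (devB μ n)) := by
  have h : Measurable fun q : (ℝ × ℝ) × Environment => act (tr (nr q.1)) q.2 :=
    measurable_act_tr.comp ((measurable_nr.comp measurable_fst).prodMk measurable_snd)
  exact (measurable_dev μ n).comp h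

lemma le_devB {n : ℕ} {θ : ℝ × ℝ} (t : Environment) {x y : ℤ × ℤ} (hx : x - nr θ ∈ box n)
    (hy : y - nr θ ∈ box n) : |passageTime t x y - μ (toR (y - x))| ≤ devB μ n θ t := by
  have h := le_dev μ (act (tr (nr θ)) t) hx hy
  rw [pt_act] at h
  simp only [tr_apply, sub_add_cancel, sub_sub_sub_cancel_right] at h
  exact h

/-- vertices near the base point are in the box -/
lemma mem_box_nr {θ : ℝ × ℝ} {z : ℤ × ℤ} {R : ℝ} (h : ‖pos θ z‖ ≤ R) {n : ℕ}
    (hn : R + 1 ≤ n) : z - nr θ ∈ box n := by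
  have h0 := norm_pos_nr θ
  have e : toR (z - nr θ) = pos θ z - pos θ (nr θ) := by
    unfold pos; rw [toR_sub]; abel
  have h1 : ‖toR (z - nr θ)‖ ≤ R + 1 / 2 := by
    rw [e]; exact (norm_sub_le _ _).trans (by linarith)
  have ha : |((z - nr θ).1 : ℝ)| ≤ R + 1 / 2 := (norm_fst_le (toR (z - nr θ))).trans h1
  have hb : |((z - nr θ).2 : ℝ)| ≤ R + 1 / 2 := (norm_snd_le (toR (z - nr θ))).trans h1
  rw [abs_le] at ha hb
  rw [mem_box]
  have e1 : ((z - nr θ).1 : ℝ) ≤ n := by linarith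
  have e2 : -(n : ℝ) ≤ (z - nr θ).1 := by linarith
  have e3 : ((z - nr θ).2 : ℝ) ≤ n := by linarith
  have e4 : -(n : ℝ) ≤ (z - nr θ).2 := by linarith
  refine ⟨⟨?_, ?_⟩, ⟨?_, ?_⟩⟩
  · exact_mod_cast e2
  · exact_mod_cast e1
  · exact_mod_cast e4
  · exact_mod_cast e3

/-- the constant relating coordinates in the basis `(a, b)` to the norm -/
noncomputable def Cab (F : FlatData μ) : ℝ := ‖F.a‖ + ‖F.b‖

lemma Cab_nonneg (F : FlatData μ) : 0 ≤ Cab F := by unfold Cab; positivity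

lemma mem_box_nr' (F : FlatData μ) {θ : ℝ × ℝ} {z : ℤ × ℤ} {R : ℝ}
    (h1 : |F.al (pos θ z)| ≤ R) (h2 : |F.be (pos θ z)| ≤ R) {n : ℕ}
    (hn : Cab F * R + 1 ≤ n) : z - nr θ ∈ box n := by
  refine mem_box_nr (R := Cab F * R) ?_ hn
  refine (norm_le_of_coord F _).trans ?_
  unfold Cab
  have h3 := norm_nonneg F.a
  have h4 := norm_nonneg F.b
  nlinarith

section prob

variable {G : Measure ℝ} [IsProbabilityMeasure G] {m : ℝ}

lemma mp_nr : MeasurePreserving (fun p : (ℝ × ℝ) × Environment => act (tr (nr p.1)) p.2) (P0 G)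
    (iidLaw G) := by
  have h : MeasurePreserving (fun p : (ℝ × ℝ) × Environment => (p.1, act (tr (nr p.1)) p.2))
      (P0 G) (P0 G) := by
    unfold P0
    refine MeasurePreserving.skew_product (g := fun (x : ℝ × ℝ) (t : Environment) =>
      act (tr (nr x)) t) (MeasurePreserving.id UU2) ?_ ?_
    · exact measurable_act_tr.comp ((measurable_nr.comp measurable_fst).prodMk measurable_snd)
    · exact ae_of_all _ fun x => (mp_act (G := G) _).map_eq
  have h2 : MeasurePreserving Prod.snd (P0 G) (iidLaw G) := by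
    unfold P0; exact measurePreserving_snd
  exact h2.comp h

lemma mp_nr_shift (v : ℝ × ℝ) : MeasurePreserving
    (fun p : (ℝ × ℝ) × Environment => act (tr (nr (p.1 + v))) p.2) (P0 G) (iidLaw G) := by
  have h := (mp_nr (G := G)).comp (mp_S (G := G) v)
  have e : (fun p : (ℝ × ℝ) × Environment => act (tr (nr (p.1 + v))) p.2) =
      (fun p : (ℝ × ℝ) × Environment => act (tr (nr p.1)) p.2) ∘ S v := by
    funext p
    simp only [Function.comp_apply, S]
    rw [frac2_eq, nr_add, act_tr_tr]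
  rw [e]
  exact h

theorem devB_prob (hM : Mom G m) (hμ : IsTC1 G μ) (hL : LocCtl G) {ε : ℝ} (hε : 0 < ε) :
    ∃ n0 : ℕ, ∀ n ≥ n0, ∀ v : ℝ × ℝ,
      (P0 G).real {p | ε * n ≤ devB μ n (p.1 + v) p.2} ≤ ε := by
  obtain ⟨n0, hn0⟩ := hM.uniform_shape_prob hμ hL hε
  refine ⟨n0, fun n hn v => ?_⟩
  have h := (mp_nr_shift (G := G) v).measureReal_preimage
    (measurableSet_le measurable_const (measurable_dev μ n)).nullMeasurableSet
      (s := {t | ε * n ≤ dev μ n t})
  refine le_trans (le_of_eq ?_) (hn0 n hn)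
  rw [← h]
  rfl

theorem devB_mean (hM : Mom G m) (hμ : IsTC1 G μ) (hL : LocCtl G) {ε : ℝ} (hε : 0 < ε) :
    ∃ n0 : ℕ, ∀ n ≥ n0, ∀ v : ℝ × ℝ,
      Integrable (fun p : (ℝ × ℝ) × Environment => devB μ n (p.1 + v) p.2) (P0 G) ∧
      ∫ p, devB μ n (p.1 + v) p.2 ∂(P0 G) ≤ ε * n := by
  obtain ⟨n0, hn0⟩ := hM.uniform_shape hμ hL hε
  refine ⟨n0, fun n hn v => ?_⟩
  obtain ⟨hi, hle⟩ := hn0 n hn
  refine ⟨(mp_nr_shift (G := G) v).integrable_comp_of_integrable hi, ?_⟩
  have h := mp_integral (mp_nr_shift (G := G) v) hi.aestronglyMeasurable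
  exact h.le.trans hle

end prob

/-! ### Deterministic lower bound for the gap costs -/

/-- the shape theorem holds in `S` with error `D` -/
def Shape (μ : ℝ × ℝ → ℝ) (t : Environment) (D : ℝ) (S : Set (ℤ × ℤ)) : Prop :=
  ∀ x ∈ S, ∀ y ∈ S, |passageTime t x y - μ (toR (y - x))| ≤ D

variable (F : FlatData μ) {t : Environment} {D : ℝ} {S : Set (ℤ × ℤ)}

lemma phi_sub (x y : ℤ × ℤ) : phi F y - phi F x = F.ρ (toR (y - x)) := by
  unfold phi; rw [toR_sub, map_sub]

lemma Shape.ptY_ge (hS : Shape μ t D S) {x y : ℤ × ℤ} (hx : x ∈ S) (hy : y ∈ S) :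
    F.ψ (toR (y - x)) - D ≤ ptY t (phi F) x y := by
  have h := (abs_le.1 (hS x hx y hy)).1
  unfold ptY FlatData.ψ
  rw [phi_sub]; linarith

lemma Shape.ptY_le (hS : Shape μ t D S) {x y : ℤ × ℤ} (hx : x ∈ S) (hy : y ∈ S) :
    ptY t (phi F) x y ≤ F.ψ (toR (y - x)) + D := by
  have h := (abs_le.1 (hS x hx y hy)).2
  unfold ptY FlatData.ψ
  rw [phi_sub]; linarith

/-- excess of a piece of highway -/
lemma Shape.hp_ge (hS : Shape μ t D S) (ht : Nn t) {H : ℤ → V} (hH : IsHwy H) {i j : ℤ}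
    (hij : i ≤ j) (hi : H i ∈ S) (hj : H j ∈ S) :
    F.ψ (toR (H j - H i)) - D ≤ hp t (phi F) H j - hp t (phi F) H i := by
  have h1 := hS.ptY_ge F hi hj
  have h2 := hH.pt_le ht hij
  unfold ptY at h1
  unfold hp
  linarith

/-- **lower bound for the gap cost**: `ψ` of the displacement minus four times the error -/
theorem psi_le_gp (hN : NormLike μ) (hS : Shape μ t D S) (ht : Nn t) {U L : ℤ → V}
    (hU : IsHwy U) (hL : IsHwy L) {a w z b : ℤ} (ha : a ≤ w) (hb : z ≤ b) (hUa : U a ∈ S)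
    (hUw : U w ∈ S) (hLz : L z ∈ S) (hLb : L b ∈ S) (h1 : 0 ≤ F.al (toR (L b - U a)))
    (h2 : 0 ≤ F.be (toR (L b - U a))) :
    F.ψ (toR (L z - U w)) - 4 * D ≤ gp t U L a b w z := by
  rw [gp_eq t (phi F)]
  have e1 := hS.ptY_ge F hUw hLz
  have e2 := hS.hp_ge F ht hU ha hUa hUw
  have e3 := hS.hp_ge F ht hL hb hLz hLb
  have e4 := hS.ptY_le F hUa hLb
  have e5 := F.ψ_cone hN h1 h2
  have e6 := F.ψ_nonneg (toR (U w - U a))
  have e7 := F.ψ_nonneg (toR (L b - L z))
  unfold ptY at e1 e4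
  linarith

/-- falls cost a positive fraction of their length -/
lemma psi_fall (hN : NormLike μ) {K : ℝ} (hK : 0 ≤ K) : ∃ c : ℝ, 0 < c ∧
    ∀ v : ℝ × ℝ, F.al v ≤ 0 → |F.be v| ≤ K * (-F.al v) → c * (-F.al v) ≤ F.ψ v := by
  set M : ℝ := ‖F.a‖ + K * ‖F.b‖ with hM
  have hM0 : 0 ≤ M := by positivity
  obtain ⟨c, hc, h⟩ := F.ψ_lower_al hN (δ := 1 / (M + 1)) (by positivity)
  have hal : 0 ≤ ‖F.al‖ := norm_nonneg _
  refine ⟨c / (‖F.al‖ + 1), by positivity, fun v h1 h2 => ?_⟩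
  have hn : ‖v‖ ≤ M * (-F.al v) := by
    refine (norm_le_of_coord F v).trans ?_
    rw [abs_of_nonpos h1, hM]
    have := norm_nonneg F.b
    nlinarith
  have h3 : F.al v ≤ -(1 / (M + 1) * ‖v‖) := by
    have h4 : 1 / (M + 1) * ‖v‖ ≤ -F.al v := by
      rw [one_div, inv_mul_le_iff₀ (by positivity)]
      nlinarith
    linarith
  have h5 := h v h3
  have h6 : -F.al v ≤ ‖F.al‖ * ‖v‖ := (neg_le_abs _).trans (abs_al_le F v)
  have h7 : -F.al v ≤ (‖F.al‖ + 1) * ‖v‖ := by
    have := norm_nonneg v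
    nlinarith
  calc c / (‖F.al‖ + 1) * (-F.al v) ≤ c / (‖F.al‖ + 1) * ((‖F.al‖ + 1) * ‖v‖) :=
        mul_le_mul_of_nonneg_left h7 (by positivity)
    _ = c * ‖v‖ := by field_simp
    _ ≤ F.ψ v := h5

/-- **gap costs**: if the error in the shape theorem is at most `c δ`, every fall of length at least
`δ` between two highways, with a difference of heights at most `K` times the fall, costs at least
`c` times its length -/
theorem gap_cost (hN : NormLike μ) {K : ℝ} (hK : 0 ≤ K) : ∃ c : ℝ, 0 < c ∧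
    ∀ {t : Environment} {D δ : ℝ} {S : Set (ℤ × ℤ)}, Shape μ t D S → Nn t → D ≤ c * δ →
      ∀ {U L : ℤ → V}, IsHwy U → IsHwy L → ∀ {a w z b : ℤ}, a ≤ w → z ≤ b → U a ∈ S → U w ∈ S →
        L z ∈ S → L b ∈ S → 0 ≤ F.al (toR (L b - U a)) → 0 ≤ F.be (toR (L b - U a)) →
        δ ≤ F.al (toR (U w - L z)) → |F.be (toR (U w - L z))| ≤ K * F.al (toR (U w - L z)) →
        0 ≤ F.al (toR (U w - L z)) →
        c * F.al (toR (U w - L z)) ≤ gp t U L a b w z := by
  obtain ⟨c, hc, h⟩ := psi_fall F hN hK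
  refine ⟨c / 5, by positivity, ?_⟩
  intro t D δ S hS ht hD U L hU hL a w z b ha hb hUa hUw hLz hLb h1 h2 h3 h4 h5
  have e1 := psi_le_gp F hN hS ht hU hL ha hb hUa hUw hLz hLb h1 h2
  have ev : toR (L z - U w) = -toR (U w - L z) := by
    rw [toR_sub, toR_sub, neg_sub]
  have e2 := h (toR (L z - U w)) (by rw [ev, map_neg]; linarith)
    (by rw [ev, map_neg, map_neg, abs_neg, neg_neg]; exact h4)
  rw [ev, map_neg, neg_neg, ← ev] at e2
  nlinarith

end Crest.Agent.R151.R6
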