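import Crest.Agent.R151.Pl5
import Crest.Agent.R151.K4a

/-!
# R151, planarity toolkit, part 6: switching inequalities for restricted passage times
-/

set_option autoImplicit false

open Crest.ProbabilityR.FirstPassage

namespace Crest.Agent.R151.Pl

open K

/-- two walks in a vertical strip from the left column to the right column with (weakly)
interchanged end points meet -/
theorem vstrip_cross {lo hi : ℤ} {a b c d : Pt} (α : squareLattice.Walk a d)
    (β : squareLattice.Walk b c)
    (hα : ∀ x ∈ α.support, lo ≤ x.1 ∧ x.1 ≤ hi) (hβ : ∀ x ∈ β.support, lo ≤ x.1 ∧ x.1 ≤ hi)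
    (ha : a.1 = lo) (hb : b.1 = lo) (hd : d.1 = hi) (hc : c.1 = hi)
    (hab : a.2 ≤ b.2) (hcd : c.2 ≤ d.2) : ∃ x, x ∈ α.support ∧ x ∈ β.support := by
  by_contra hno
  push Not at hno
  have ext : ∀ {p q : Pt}, p.1 = q.1 → p.2 = q.2 → p = q := fun h1 h2 => Prod.ext h1 h2
  have nab : a.2 ≠ b.2 := fun h => hno a α.start_mem_support
    (by rw [ext (ha.trans hb.symm) h]; exact β.start_mem_support)
  have ncd : c.2 ≠ d.2 := fun h => hno d α.end_mem_support
    (by rw [← ext (hc.trans hd.symm) h]; exact β.end_mem_support)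
  have e3 : lo ≤ hi := by
    have := hα a α.start_mem_support; omega
  obtain ⟨x, h1, h2⟩ := ray_theorem α β .lf .rt .lf .rt
    (fun x hx h => hno a α.start_mem_support (by
      have e : x = a := ext (le_antisymm h.2 (by rw [ha]; exact (hβ x hx).1)) h.1
      rwa [← e]))
    (fun x hx h => hno d α.end_mem_support (by
      have e : x = d := ext (le_antisymm (by rw [hd]; exact (hβ x hx).2) h.2) h.1
      rwa [← e]))
    (fun x hx h => hno x hx (by
      have e : x = b := ext (le_antisymm h.2 (by rw [hb]; exact (hα x hx).1)) h.1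
      rw [e]; exact β.start_mem_support))
    (fun x hx h => hno x hx (by
      have e : x = c := ext (le_antisymm (by rw [hc]; exact (hα x hx).2) h.2) h.1
      rw [e]; exact β.end_mem_support))
    (fun x h h' => nab (h.1.symm.trans h'.1))
    (fun x h h' => hno a α.start_mem_support (by
      have e1 : x.1 ≤ lo := h.2.trans ha.le
      have e2 : hi ≤ x.1 := hc.symm.le.trans h'.2
      have e : a = c := ext (by omega) (h.1.symm.trans h'.1)
      rw [e]; exact β.end_mem_support))
    (fun x h h' => hno d α.end_mem_support (by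
      have e1 : x.1 ≤ lo := h'.2.trans hb.le
      have e2 : hi ≤ x.1 := hd.symm.le.trans h.2
      have e : d = b := ext (by omega) (h.1.symm.trans h'.1)
      rw [e]; exact β.start_mem_support))
    (fun x h h' => ncd (h'.1.symm.trans h.1))
    (by
      rw [ind_pos (P := prec .lf a .lf b) (Or.inr ⟨rfl, by simp only [co]; omega⟩),
        ind_pos (P := prec .rt d .rt c) (Or.inr ⟨rfl, by simp only [co]; omega⟩),
        ind_pos (P := prec .lf a .rt c) (Or.inl (by simp [rk])),
        ind_neg (P := prec .rt d .lf b) (by simp only [prec, rk, co]; omega)]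
      norm_num)
  exact hno x h1 h2

/-- THE SWITCHING INEQUALITY -/
theorem pR_switch {t : Environment} (ht : Nn t) {R R' : Set Pt} {a b c d : Pt}
    (hmeet : ∀ (α : squareLattice.Walk a d) (β : squareLattice.Walk b c),
      (∀ z ∈ α.support, z ∈ R) → (∀ z ∈ β.support, z ∈ R') →
      ∃ x, x ∈ α.support ∧ x ∈ β.support)
    (h1 : Conn R a d) (h2 : Conn R' b c) :
    pR t (R ∪ R') a c + pR t (R ∪ R') b d ≤ pR t R a d + pR t R' b c := by
  classical
  refine le_of_forall_pos_le_add fun ε hε => ?_
  obtain ⟨α, hα, hα'⟩ := exists_walk_lt_pR h1 (show pR t R a d < pR t R a d + ε / 2 by linarith)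
  obtain ⟨β, hβ, hβ'⟩ := exists_walk_lt_pR h2 (show pR t R' b c < pR t R' b c + ε / 2 by linarith)
  obtain ⟨x, hxα, hxβ⟩ := hmeet α β hα hβ
  have eα := walkCost_append (t := t) (α.takeUntil x hxα) (α.dropUntil x hxα)
  have eβ := walkCost_append (t := t) (β.takeUntil x hxβ) (β.dropUntil x hxβ)
  rw [SimpleGraph.Walk.take_spec] at eα eβ
  have m1 : pR t (R ∪ R') a c ≤ walkCost t ((α.takeUntil x hxα).append (β.dropUntil x hxβ)) :=
    pR_le ht _ (fun z hz => by
      rw [SimpleGraph.Walk.mem_support_append_iff] at hz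
      rcases hz with hz | hz
      · exact Or.inl (hα z (SimpleGraph.Walk.support_takeUntil_subset_support _ _ hz))
      · exact Or.inr (hβ z (SimpleGraph.Walk.support_dropUntil_subset_support _ _ hz)))
  have m2 : pR t (R ∪ R') b d ≤ walkCost t ((β.takeUntil x hxβ).append (α.dropUntil x hxα)) :=
    pR_le ht _ (fun z hz => by
      rw [SimpleGraph.Walk.mem_support_append_iff] at hz
      rcases hz with hz | hz
      · exact Or.inr (hβ z (SimpleGraph.Walk.support_takeUntil_subset_support _ _ hz))
      · exact Or.inl (hα z (SimpleGraph.Walk.support_dropUntil_subset_support _ _ hz)))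
  rw [walkCost_append] at m1 m2
  linarith

theorem pR_switch_same {t : Environment} (ht : Nn t) {R : Set Pt} {a b c d : Pt}
    (hmeet : ∀ (α : squareLattice.Walk a d) (β : squareLattice.Walk b c),
      (∀ z ∈ α.support, z ∈ R) → (∀ z ∈ β.support, z ∈ R) →
      ∃ x, x ∈ α.support ∧ x ∈ β.support)
    (h1 : Conn R a d) (h2 : Conn R b c) :
    pR t R a c + pR t R b d ≤ pR t R a d + pR t R b c := by
  have := pR_switch ht (R := R) (R' := R) hmeet h1 h2
  rwa [Set.union_self] at this

/-- horizontal strip: `a, b` on the bottom row, `c, d` on the top row, `a` left of `b` and `c` left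
of `d`: the crossed pairing costs at least as much as the parallel one; `R` is any subset of the
strip -/
theorem strip_switch {t : Environment} (ht : Nn t) {R : Set Pt} {lo hi : ℤ}
    (hR : ∀ z ∈ R, lo ≤ z.2 ∧ z.2 ≤ hi) {a b c d : Pt}
    (ha : a.2 = lo) (hb : b.2 = lo) (hd : d.2 = hi) (hc : c.2 = hi)
    (hab : a.1 ≤ b.1) (hcd : c.1 ≤ d.1) (h1 : Conn R a d) (h2 : Conn R b c) :
    pR t R a c + pR t R b d ≤ pR t R a d + pR t R b c :=
  pR_switch_same ht (fun α β hα hβ => strip_cross α β (fun x hx => hR x (hα x hx))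
    (fun x hx => hR x (hβ x hx)) ha hb hd hc hab hcd) h1 h2

/-- vertical strip -/
theorem vstrip_switch {t : Environment} (ht : Nn t) {R : Set Pt} {lo hi : ℤ}
    (hR : ∀ z ∈ R, lo ≤ z.1 ∧ z.1 ≤ hi) {a b c d : Pt}
    (ha : a.1 = lo) (hb : b.1 = lo) (hd : d.1 = hi) (hc : c.1 = hi)
    (hab : a.2 ≤ b.2) (hcd : c.2 ≤ d.2) (h1 : Conn R a d) (h2 : Conn R b c) :
    pR t R a c + pR t R b d ≤ pR t R a d + pR t R b c :=
  pR_switch_same ht (fun α β hα hβ => vstrip_cross α β (fun x hx => hR x (hα x hx))
    (fun x hx => hR x (hβ x hx)) ha hb hd hc hab hcd) h1 h2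

/-- upper half-plane, all four points on the boundary, `a ≤ b ≤ d ≤ c` -/
theorem half_switch {t : Environment} (ht : Nn t) {R : Set Pt} {lo : ℤ}
    (hR : ∀ z ∈ R, lo ≤ z.2) {a b c d : Pt}
    (ha : a.2 = lo) (hb : b.2 = lo) (hd : d.2 = lo) (hc : c.2 = lo)
    (hab : a.1 ≤ b.1) (hbd : b.1 ≤ d.1) (hdc : d.1 ≤ c.1) (h1 : Conn R a d) (h2 : Conn R b c) :
    pR t R a c + pR t R b d ≤ pR t R a d + pR t R b c :=
  pR_switch_same ht (fun α β hα hβ => half_cross α β (fun x hx => hR x (hα x hx))
    (fun x hx => hR x (hβ x hx)) ha hb hd hc hab hbd hdc) h1 h2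

end Crest.Agent.R151.Pl
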