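import Crest.Agent.R151.K2b

/-!
# R151 / S0214 part 2, module C1 (rate): walks and skeletons (helper710)
-/

set_option autoImplicit false

open MeasureTheory Filter ProbabilityTheory
open Crest.ProbabilityR.FirstPassage

namespace Crest.Agent.R151.C710

open Crest.Agent.R151.K

lemma n1_adj {x y : ℤ × ℤ} (h : squareLattice.Adj x y) (z : ℤ × ℤ) :
    n1 (y - z) ≤ n1 (x - z) + 1 := by
  unfold squareLattice at h
  rw [SimpleGraph.fromRel_adj] at h
  obtain ⟨_, h⟩ := h
  simp only [n1, Prod.fst_sub, Prod.snd_sub]
  rcases h with (⟨h1, h2⟩ | ⟨h1, h2⟩) | (⟨h1, h2⟩ | ⟨h1, h2⟩) <;> omega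

/-- discrete intermediate values along a walk -/
lemma exists_mem_support_n1 {x y : ℤ × ℤ} (w : squareLattice.Walk x y) (z : ℤ × ℤ) (k : ℕ)
    (h1 : n1 (x - z) ≤ k) (h2 : k ≤ n1 (y - z)) : ∃ v ∈ w.support, n1 (v - z) = k := by
  induction w with
  | @nil a => exact ⟨a, by simp, by omega⟩
  | @cons a b c hab p ih =>
    by_cases hk : n1 (a - z) = k
    · exact ⟨a, by simp, hk⟩
    · have h3 := n1_adj hab z
      obtain ⟨v, hv, hvk⟩ := ih (by omega) h2
      exact ⟨v, by simp [hv], hvk⟩

/-- the end part of a walk also contains intermediate values, for any vertex of the support -/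
lemma exists_mem_support_n1' {x y : ℤ × ℤ} (w : squareLattice.Walk x y) (z : ℤ × ℤ) (k : ℕ)
    (h1 : n1 (x - z) ≤ k) {v : ℤ × ℤ} (hv : v ∈ w.support) (h2 : k ≤ n1 (v - z)) :
    ∃ v' ∈ w.support, n1 (v' - z) = k := by
  obtain ⟨v', hv', h3⟩ := exists_mem_support_n1 (w.takeUntil v hv) z k h1 h2
  exact ⟨v', SimpleGraph.Walk.support_takeUntil_subset_support w hv hv', h3⟩

lemma walkCost_take_le {t : Environment} (ht : Nn t) {x y v : ℤ × ℤ} (w : squareLattice.Walk x y)
    (hv : v ∈ w.support) : walkCost t (w.takeUntil v hv) ≤ walkCost t w := by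
  have h1 := congrArg (walkCost t) (w.take_spec hv)
  rw [walkCost_append] at h1
  have := walkCost_nonneg ht (w.dropUntil v hv)
  linarith

/-- passage times to the vertices of a walk -/
lemma pt_le_of_mem {t : Environment} (ht : Nn t) {x y v : ℤ × ℤ} (w : squareLattice.Walk x y)
    (hv : v ∈ w.support) : passageTime t x v ≤ walkCost t w :=
  (pt_le ht _).trans (walkCost_take_le ht w hv)

/-- **Skeleton** of a walk with steps of size `r`. -/
theorem exists_skeleton {t : Environment} (ht : Nn t) {r : ℕ} (hr : 1 ≤ r) {x y : ℤ × ℤ}
    (w : squareLattice.Walk x y) :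
    ∃ m : ℕ, ∃ p : ℕ → ℤ × ℤ, p 0 = x ∧ p m = y ∧ (∀ i, i ≤ m → p i ∈ w.support) ∧
      (∀ i, i < m → n1 (p (i + 1) - p i) ≤ r) ∧ (∀ i, i + 1 < m → n1 (p (i + 1) - p i) = r) ∧
      ∑ i ∈ Finset.range m, passageTime t (p i) (p (i + 1)) ≤ walkCost t w := by
  induction hn : w.length using Nat.strong_induction_on generalizing x w with
  | _ n ih =>
    by_cases hlt : n1 (y - x) < r
    · refine ⟨1, fun i => if i = 0 then x else y, by simp, by simp, ?_, ?_, ?_, ?_⟩
      · intro i hi
        by_cases h0 : i = 0
        · simp [h0]
        · simp [h0]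
      · intro i hi
        have : i = 0 := by omega
        subst this
        simp only [zero_add, one_ne_zero, if_false, if_true]
        exact hlt.le
      · intro i hi
        omega
      · simp only [Finset.sum_range_one, zero_add, one_ne_zero, if_false, if_true]
        exact pt_le ht w
    · push Not at hlt
      obtain ⟨v, hv, hvr⟩ := exists_mem_support_n1 w x r (by simp [n1]) hlt
      have hspec := w.take_spec hv
      have hvx : v ≠ x := by
        rintro rfl
        rw [sub_self] at hvr
        simp [n1] at hvr
        omega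
      have hlen : (w.takeUntil v hv).length + (w.dropUntil v hv).length = w.length := by
        rw [← SimpleGraph.Walk.length_append, hspec]
      have hlen1 : 0 < (w.takeUntil v hv).length := by
        rw [Nat.pos_iff_ne_zero]
        intro h0
        exact hvx (SimpleGraph.Walk.eq_of_length_eq_zero h0).symm
      obtain ⟨m, p, hp0, hpm, hps, hp1, hp2, hp3⟩ :=
        ih (w.dropUntil v hv).length (by omega) (w.dropUntil v hv) rfl
      refine ⟨m + 1, fun i => if i = 0 then x else p (i - 1), by simp, by simp [hpm], ?_, ?_, ?_, ?_⟩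
      · intro i hi
        by_cases h0 : i = 0
        · simp [h0]
        · simp only [h0, if_false]
          exact SimpleGraph.Walk.support_dropUntil_subset_support w hv (hps (i - 1) (by omega))
      · intro i hi
        by_cases h0 : i = 0
        · subst h0
          simp only [zero_add, one_ne_zero, if_false, if_true, Nat.sub_self, hp0]
          exact hvr.le
        · have e1 : i + 1 - 1 = (i - 1) + 1 := by omega
          simp only [h0, Nat.succ_ne_zero, if_false, e1]
          exact hp1 (i - 1) (by omega)
      · intro i hi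
        by_cases h0 : i = 0
        · subst h0
          simp only [zero_add, one_ne_zero, if_false, if_true, Nat.sub_self, hp0]
          exact hvr
        · have e1 : i + 1 - 1 = (i - 1) + 1 := by omega
          simp only [h0, Nat.succ_ne_zero, if_false, e1]
          exact hp2 (i - 1) (by omega)
      · rw [Finset.sum_range_succ']
        simp only [Nat.succ_ne_zero, if_false, if_true, Nat.add_sub_cancel, zero_add, hp0]
        have h1 := congrArg (walkCost t) hspec
        rw [walkCost_append] at h1
        have h2 := pt_le ht (w.takeUntil v hv)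
        have h3 : ∑ x ∈ Finset.range m, passageTime t (p x) (p (x + 1))
            ≤ walkCost t (w.dropUntil v hv) := hp3
        linarith

end Crest.Agent.R151.C710
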