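import Crest.Agent.R151.K9e
import Crest.Agent.R151.C710d
import Crest.Agent.R151.B469a

/-!
# R151, block BUS (c2) (helper565): upper shape bound in tall strips, uniformly in two points

`HALF μ t` : the two-point upper shape bound in the upper half plane.
`strip_of_half` : it holds in the strip `St 0 ((K + 1) * n)` for the points of the box of radius
`n`; `US` : probability form.
-/

set_option autoImplicit false
set_option linter.unusedSectionVars false

open MeasureTheory Filter ProbabilityTheory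
open Crest.ProbabilityR.FirstPassage

namespace Crest.Agent.R151.BUS

open Crest.Agent.R151.K

variable {μ : ℝ × ℝ → ℝ} {t : Environment}

/-- two-point upper shape bound in the upper half plane -/
def HALF (μ : ℝ × ℝ → ℝ) (t : Environment) : Prop :=
  ∀ e : ℝ, 0 < e → ∀ᶠ n : ℕ in atTop, ∀ x ∈ box n, ∀ y ∈ box n, 0 ≤ x.2 → 0 ≤ y.2 →
    pR t Hp x y ≤ μ (toR (y - x)) + e * n

/-- a walk of small cost stays in a box -/
lemma stay_in_box {c : ℝ} (hlow : ∀ v : ℝ × ℝ, c * l1 v ≤ μ v) (ht : Nn t) {n K : ℕ}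
    {x y : ℤ × ℤ} (hx : x ∈ box n) (w : squareLattice.Walk x y)
    (hw : walkCost t w + dev μ ((K + 1) * n) t < c * (K * n : ℕ)) :
    ∀ z ∈ w.support, z ∈ box ((K + 1) * n) := by
  intro z hz
  by_contra hcon
  have h1 : K * n ≤ n1 (z - x) := by
    rw [mem_box] at hcon hx
    push_cast at hcon
    simp only [n1, Prod.fst_sub, Prod.snd_sub]
    zify
    rcases not_and_or.1 hcon with h | h
    · rcases not_and_or.1 h with h | h
      · have := abs_nonneg (z.2 - x.2)
        rw [abs_of_nonpos (show z.1 - x.1 ≤ 0 by nlinarith)]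
        nlinarith
      · have := abs_nonneg (z.2 - x.2)
        rw [abs_of_nonneg (show 0 ≤ z.1 - x.1 by nlinarith)]
        nlinarith
    · rcases not_and_or.1 h with h | h
      · have := abs_nonneg (z.1 - x.1)
        rw [abs_of_nonpos (show z.2 - x.2 ≤ 0 by nlinarith)]
        nlinarith
      · have := abs_nonneg (z.1 - x.1)
        rw [abs_of_nonneg (show 0 ≤ z.2 - x.2 by nlinarith)]
        nlinarith
  obtain ⟨v, hv, hvk⟩ := C710.exists_mem_support_n1' w x (K * n) (by simp [n1]) hz h1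
  have h2 : v ∈ box ((K + 1) * n) := by
    rw [mem_box] at hx ⊢
    simp only [n1, Prod.fst_sub, Prod.snd_sub] at hvk
    push_cast
    have e1 : |v.1 - x.1| + |v.2 - x.2| = (K : ℤ) * n := by
      have := congrArg (Nat.cast : ℕ → ℤ) hvk
      push_cast at this
      simpa using this
    have a1 := abs_le.1 (show |v.1 - x.1| ≤ (K : ℤ) * n by linarith [abs_nonneg (v.2 - x.2)])
    have a2 := abs_le.1 (show |v.2 - x.2| ≤ (K : ℤ) * n by linarith [abs_nonneg (v.1 - x.1)])
    have e2 : ((K : ℤ) + 1) * n = K * n + n := by ring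
    rw [e2]
    constructor
    · constructor <;> linarith [a1.1, a1.2, hx.1.1, hx.1.2]
    · constructor <;> linarith [a2.1, a2.2, hx.2.1, hx.2.2]
  have hx' : x ∈ box ((K + 1) * n) := by
    rw [mem_box] at hx ⊢
    push_cast
    have : (0 : ℤ) ≤ K * n := by positivity
    constructor
    · constructor <;> nlinarith [hx.1.1, hx.1.2]
    · constructor <;> nlinarith [hx.2.1, hx.2.2]
  have h3 := C710.pt_le_of_mem ht w hv
  have h4 := le_dev μ t hx' h2
  have h5 := hlow (toR (v - x))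
  rw [l1_toR, hvk] at h5
  have h6 := (abs_le.1 h4).1
  linarith

/-- from the half plane to a strip -/
theorem strip_of_half {c m : ℝ} (hc : 0 < c) (hlow : ∀ v : ℝ × ℝ, c * l1 v ≤ μ v)
    (hup : ∀ v : ℝ × ℝ, μ v ≤ m * l1 v) (hm : 0 ≤ m) : ∃ K0 : ℕ, ∀ K ≥ K0,
    ∀ {t : Environment} {e : ℝ} {n : ℕ}, Nn t → e ≤ 1 → dev μ ((K + 1) * n) t ≤ n →
      ∀ x ∈ box n, ∀ y ∈ box n, 0 ≤ x.2 → 0 ≤ y.2 →
      pR t Hp x y ≤ μ (toR (y - x)) + e * n →
      pR t (St 0 ((K + 1) * n : ℕ)) x y ≤ μ (toR (y - x)) + e * n := by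
  obtain ⟨K0, hK0⟩ := exists_nat_gt ((4 * m + 3) / c)
  refine ⟨K0, ?_⟩
  intro K hK t e n ht he hdev x hx y hy hx2 hy2 h
  have hKR : (4 * m + 3) < c * K := by
    rw [div_lt_iff₀ hc] at hK0
    have : (K0 : ℝ) ≤ K := by exact_mod_cast hK
    nlinarith
  rcases Nat.eq_zero_or_pos n with hn | hn
  · subst hn
    have e1 : x = y := by
      rw [mem_box] at hx hy
      push_cast at hx hy
      exact Prod.ext (by omega) (by omega)
    subst e1
    have h0 : pR t (St 0 ((K + 1) * 0 : ℕ)) x x = 0 := by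
      refine pR_self ht ?_
      rw [mem_St]
      rw [mem_box] at hx
      push_cast at hx ⊢
      omega
    have h1 : pR t Hp x x = 0 := pR_self ht (by rw [mem_Hp]; exact hx2)
    rw [h0, ← h1]; exact h
  have hnR : (1 : ℝ) ≤ n := by exact_mod_cast hn
  refine le_of_forall_pos_le_add fun δ hδ => ?_
  -- a near optimal walk
  have hcn : Conn Hp x y := conn_Hp (mem_Hp.2 hx2) (mem_Hp.2 hy2)
  obtain ⟨w, hw1, hw2⟩ := exists_walk_lt_pR (t := t) hcn
    (show pR t Hp x y < pR t Hp x y + min δ 1 by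
      have : 0 < min δ 1 := lt_min hδ one_pos
      linarith)
  have hmu : μ (toR (y - x)) ≤ 4 * m * n := by
    refine (hup _).trans ?_
    rw [l1_toR]
    have h1 : n1 (y - x) ≤ 4 * n := n1_le_of_box hx hy
    have h2 : (n1 (y - x) : ℝ) ≤ 4 * n := by exact_mod_cast h1
    nlinarith
  have hstay := stay_in_box (K := K) hlow ht hx w (by
    push_cast
    have h1 : min δ 1 ≤ 1 := min_le_right _ _
    have h2 : e * n ≤ n := by nlinarith
    have h3 : c * (K * n) = (c * K) * n := by ring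
    rw [h3]
    nlinarith)
  have hin : ∀ z ∈ w.support, z ∈ St 0 ((K + 1) * n : ℕ) := by
    intro z hz
    have h1 := hstay z hz
    rw [mem_box] at h1
    rw [mem_St]
    exact ⟨mem_Hp.1 (hw1 z hz), h1.2.2⟩
  refine (pR_le ht w hin).trans ?_
  have : min δ 1 ≤ δ := min_le_left _ _
  linarith

/-- deterministic conclusion: the uniform bound in tall strips holds eventually -/
theorem strip_eventually {c m : ℝ} (hc : 0 < c) (hlow : ∀ v : ℝ × ℝ, c * l1 v ≤ μ v)
    (hup : ∀ v : ℝ × ℝ, μ v ≤ m * l1 v) (hm : 0 ≤ m) : ∃ K0 : ℕ, ∀ K ≥ K0,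
    ∀ {t : Environment}, Nn t → (∀ e : ℝ, 0 < e → ∀ᶠ n : ℕ in atTop, dev μ n t ≤ e * n) →
      HALF μ t → ∀ e : ℝ, 0 < e → ∀ᶠ n : ℕ in atTop,
      ∀ x ∈ box n, ∀ y ∈ box n, 0 ≤ x.2 → 0 ≤ y.2 →
      pR t (St 0 ((K + 1) * n : ℕ)) x y ≤ μ (toR (y - x)) + e * n := by
  obtain ⟨K0, hK0⟩ := strip_of_half hc hlow hup hm
  refine ⟨K0, ?_⟩
  intro K hK t ht hdev hH e he
  have h1 := hH (min e 1) (lt_min he one_pos)
  have hK1 : Tendsto (fun n : ℕ => (K + 1) * n) atTop atTop :=
    tendsto_atTop_mono (fun n => Nat.le_mul_of_pos_left n (Nat.succ_pos K)) tendsto_id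
  have h2 := hK1.eventually (hdev (1 / (K + 1)) (by positivity))
  filter_upwards [h1, h2] with n hn1 hn2 x hx y hy hx2 hy2
  have h3 := hK0 K hK ht (min_le_right e 1) (n := n) (by
    refine hn2.trans (le_of_eq ?_)
    push_cast
    field_simp) x hx y hy hx2 hy2 (hn1 x hx y hy hx2 hy2)
  refine h3.trans ?_
  have : min e 1 * (n : ℝ) ≤ e * n := mul_le_mul_of_nonneg_right (min_le_left _ _) (Nat.cast_nonneg _)
  linarith

/-- the bad event for the uniform bound in tall strips -/
def badUS (μ : ℝ × ℝ → ℝ) (C L : ℕ) (e : ℝ) (n : ℕ) : Set Environment :=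
  {t | ∃ x ∈ box (C * n), ∃ y ∈ box (C * n), 0 ≤ x.2 ∧ 0 ≤ y.2 ∧
    μ (toR (y - x)) + e * n < pR t (St 0 (L * n : ℕ)) x y}

lemma measurableSet_badUS (C L : ℕ) (e : ℝ) (n : ℕ) : MeasurableSet (badUS μ C L e n) := by
  have : badUS μ C L e n = ⋃ x ∈ (box (C * n) : Finset (ℤ × ℤ)), ⋃ y ∈ (box (C * n) : Finset (ℤ × ℤ)),
      {t | 0 ≤ x.2 ∧ 0 ≤ y.2 ∧ μ (toR (y - x)) + e * n < pR t (St 0 (L * n : ℕ)) x y} := by
    ext t
    simp only [badUS, Set.mem_ofPred_eq, Set.mem_iUnion, exists_prop]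
  rw [this]
  refine Finset.measurableSet_biUnion _ fun x _ => Finset.measurableSet_biUnion _ fun y _ => ?_
  by_cases h : 0 ≤ x.2 ∧ 0 ≤ y.2
  · have e1 : {t | 0 ≤ x.2 ∧ 0 ≤ y.2 ∧ μ (toR (y - x)) + e * n < pR t (St 0 (L * n : ℕ)) x y} =
        {t | μ (toR (y - x)) + e * n < pR t (St 0 (L * n : ℕ)) x y} := by
      ext t
      simp only [Set.mem_ofPred_eq]
      tauto
    rw [e1]
    exact measurableSet_lt measurable_const (measurable_pR _ _ _)
  · have e1 : {t : Environment | 0 ≤ x.2 ∧ 0 ≤ y.2 ∧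
        μ (toR (y - x)) + e * n < pR t (St 0 (L * n : ℕ)) x y} = ∅ := by
      ext t
      simp only [Set.mem_ofPred_eq, Set.mem_empty_iff_false, iff_false]
      tauto
    rw [e1]
    exact MeasurableSet.empty

/-- almost sure eventual statements give convergence of probabilities to zero -/
lemma tendsto_real_zero_of_ae {Ω : Type*} [MeasurableSpace Ω] {P : Measure Ω}
    [IsProbabilityMeasure P] {B : ℕ → Set Ω} (hB : ∀ n, MeasurableSet (B n))
    (h : ∀ᵐ ω ∂P, ∀ᶠ n in atTop, ω ∉ B n) : Tendsto (fun n => P.real (B n)) atTop (nhds 0) := by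
  have h1 : Tendsto (fun n => ∫ ω, (B n).indicator (fun _ => (1 : ℝ)) ω ∂P) atTop
      (nhds (∫ _ω, (0 : ℝ) ∂P)) := by
    refine tendsto_integral_of_dominated_convergence (fun _ => 1)
      (fun n => (measurable_const.indicator (hB n)).aestronglyMeasurable)
      (integrable_const 1) (fun n => ?_) ?_
    · refine Eventually.of_forall fun ω => ?_
      rw [Real.norm_eq_abs]
      by_cases hω : ω ∈ B n
      · simp [hω]
      · simp [hω]
    · filter_upwards [h] with ω hω
      refine tendsto_const_nhds.congr' ?_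
      filter_upwards [hω] with n hn
      rw [Set.indicator_of_notMem hn]
  simp only [integral_zero] at h1
  refine h1.congr fun n => ?_
  rw [integral_indicator (hB n)]
  simp

end Crest.Agent.R151.BUS
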