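import Crest.Agent.R151.D411a

/-!
# R151 / S0213, B411c1: the function `φ s = μ (s, 1)` and the excess lemma (c1)

For a smooth norm `μ` (`D411.SmoothNorm`): `ph μ s = μ (s, 1)`, `ph1 μ = deriv (ph μ)`.

* `ph` is differentiable and convex, `ph1` is monotone, continuous, bounded by `μ (1, 0)`, odd and
  takes every value of `(-μ (1,0), μ (1,0))`;
* `ph1_lt_iff`: `|ph1 μ s| < μ (1, 0) ↔ μ (1, 0) * |s| < μ (s, 1)`;
* `contact_iff`: `(x, 1)` is in the facet of `(s, 1)` iff `ph1 μ x = ph1 μ s`;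
* `exists_bracket`;
* `excess_pos` (c1).
-/

set_option autoImplicit false

namespace Crest.Agent.R151.BUS

open Filter Topology Set
open Crest.Agent.R151.B710 Crest.Agent.R151.D411

/-- the profile of the norm on the line of height one -/
def ph (μ : ℝ × ℝ → ℝ) (s : ℝ) : ℝ := μ (s, 1)

/-- the derivative of the profile -/
noncomputable def ph1 (μ : ℝ × ℝ → ℝ) : ℝ → ℝ := deriv (ph μ)

variable {μ : ℝ × ℝ → ℝ} (h : SmoothNorm μ)
include h

theorem differentiable_ph : Differentiable ℝ (ph μ) := by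
  intro s
  have h1 : DifferentiableAt ℝ μ (s, 1) := h.diff _ (by simp)
  have h2 : DifferentiableAt ℝ (fun x : ℝ => ((x, 1) : ℝ × ℝ)) s := by fun_prop
  exact h1.comp s h2

theorem hasDerivAt_ph (s : ℝ) : HasDerivAt (ph μ) (ph1 μ s) s :=
  (differentiable_ph h s).hasDerivAt

theorem continuous_ph : Continuous (ph μ) := (differentiable_ph h).continuous

omit h in
/-- the gradient of `μ` at `(s, 1)` -/
theorem fderiv_eq (h : SmoothNorm μ) (s : ℝ) :
    fderiv ℝ μ (s, 1) = lfun (ph1 μ s) (ph μ s - ph1 μ s * s) := by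
  have h1 : DifferentiableAt ℝ μ (s, 1) := h.diff _ (by simp)
  have e1 : fderiv ℝ μ (s, 1) (1, 0) = ph1 μ s := by
    have h2 : HasDerivAt (fun x : ℝ => ((x, 1) : ℝ × ℝ)) (1, 0) s :=
      (hasDerivAt_id s).prodMk (hasDerivAt_const s (1 : ℝ))
    have h3 := h1.hasFDerivAt.comp_hasDerivAt s h2
    exact h3.unique (hasDerivAt_ph h s)
  have e2 : fderiv ℝ μ (s, 1) (s, 1) = ph μ s := h.norm.fderiv_self h1
  have e3 : fderiv ℝ μ (s, 1) (0, 1) = ph μ s - ph1 μ s * s := by
    have : ((0, 1) : ℝ × ℝ) = (s, 1) - s • ((1, 0) : ℝ × ℝ) := by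
      ext <;> simp
    rw [this, map_sub, map_smul, e1, e2, smul_eq_mul]
    ring
  apply ContinuousLinearMap.ext
  intro v
  have : v = v.1 • ((1, 0) : ℝ × ℝ) + v.2 • ((0, 1) : ℝ × ℝ) := by
    ext <;> simp
  conv_lhs => rw [this]
  rw [map_add, map_smul, map_smul, e1, e3, lfun_apply]
  simp only [smul_eq_mul]
  ring

/-- the supporting functional at `(s, 1)` -/
theorem lfun_le (s : ℝ) (v : ℝ × ℝ) : lfun (ph1 μ s) (ph μ s - ph1 μ s * s) v ≤ μ v := by
  rw [← fderiv_eq h s]
  exact h.norm.fderiv_le (h.diff _ (by simp)) v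

omit h in
theorem lfun_self (s : ℝ) : lfun (ph1 μ s) (ph μ s - ph1 μ s * s) (s, 1) = μ (s, 1) := by
  rw [lfun_apply]
  simp only [ph]
  ring

/-- gradient inequality -/
theorem grad_le (x y : ℝ) : ph μ x + ph1 μ x * (y - x) ≤ ph μ y := by
  have := lfun_le h x (y, 1)
  rw [lfun_apply] at this
  simp only [mul_one] at this
  have e : ph μ y = μ (y, 1) := rfl
  rw [e]
  linarith

theorem convexOn_ph : ConvexOn ℝ univ (ph μ) := by
  refine ⟨convex_univ, fun x _ y _ a b ha hb hab => ?_⟩
  simp only [smul_eq_mul, ph]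
  have e : ((a * x + b * y, 1) : ℝ × ℝ) = a • ((x, 1) : ℝ × ℝ) + b • ((y, 1) : ℝ × ℝ) := by
    ext
    · simp
    · simp [hab]
  rw [e]
  calc μ _ ≤ μ (a • ((x, 1) : ℝ × ℝ)) + μ (b • ((y, 1) : ℝ × ℝ)) := h.norm.add _ _
    _ = a * μ (x, 1) + b * μ (y, 1) := by rw [h.norm.smul _ _ ha, h.norm.smul _ _ hb]

theorem monotone_ph1 : Monotone (ph1 μ) := by
  intro x y hxy
  rcases hxy.eq_or_lt with rfl | hlt
  · exact le_rfl
  · have h1 := grad_le h x y
    have h2 := grad_le h y x
    have h3 : ph1 μ x * (y - x) ≤ ph1 μ y * (y - x) := by linarith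
    exact le_of_mul_le_mul_right h3 (by linarith)

theorem darboux_ph1 {a b m : ℝ} (hab : a ≤ b) (hma : ph1 μ a < m) (hmb : m < ph1 μ b) :
    ∃ c, a < c ∧ c < b ∧ ph1 μ c = m := by
  obtain ⟨c, hc, hc'⟩ := exists_hasDerivWithinAt_eq_of_gt_of_lt (f := ph μ) (f' := ph1 μ) hab
    (fun x _ => (hasDerivAt_ph h x).hasDerivWithinAt) hma hmb
  exact ⟨c, hc.1, hc.2, hc'⟩

theorem continuous_ph1 : Continuous (ph1 μ) := by
  rw [Metric.continuous_iff]
  intro s ε hε
  -- right side
  have hr : ∃ c > s, ph1 μ c < ph1 μ s + ε := by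
    by_cases h1 : ph1 μ (s + 1) < ph1 μ s + ε
    · exact ⟨s + 1, by linarith, h1⟩
    · push Not at h1
      obtain ⟨c, hc1, -, hc2⟩ := darboux_ph1 h (a := s) (b := s + 1) (m := ph1 μ s + ε / 2)
        (by linarith) (by linarith) (by linarith)
      exact ⟨c, hc1, by rw [hc2]; linarith⟩
  have hl : ∃ c < s, ph1 μ s - ε < ph1 μ c := by
    by_cases h1 : ph1 μ s - ε < ph1 μ (s - 1)
    · exact ⟨s - 1, by linarith, h1⟩
    · push Not at h1
      obtain ⟨c, -, hc1, hc2⟩ := darboux_ph1 h (a := s - 1) (b := s) (m := ph1 μ s - ε / 2)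
        (by linarith) (by linarith) (by linarith)
      exact ⟨c, hc1, by rw [hc2]; linarith⟩
  obtain ⟨c, hc, hc'⟩ := hr
  obtain ⟨d, hd, hd'⟩ := hl
  refine ⟨min (c - s) (s - d), lt_min (by linarith) (by linarith), fun x hx => ?_⟩
  rw [Real.dist_eq, abs_lt] at hx ⊢
  have h1 := lt_of_lt_of_le hx.2 (min_le_left _ _)
  have h2 := hx.1
  have h3 := min_le_right (c - s) (s - d)
  have h4 := monotone_ph1 h (show x ≤ c by linarith)
  have h5 := monotone_ph1 h (show d ≤ x by linarith)
  constructor <;> linarith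

theorem abs_ph_sub_le (x y : ℝ) : |ph μ x - ph μ y| ≤ μ (1, 0) * |x - y| := by
  have h1 := h.norm.abs_sub_le (x, 1) (y, 1)
  have e : ((x, 1) - (y, 1) : ℝ × ℝ) = (x - y, 0) := by ext <;> simp
  have e2 : μ (x - y, 0) = μ (1, 0) * |x - y| := by
    have e3 : ((|x - y|, |(0 : ℝ)|) : ℝ × ℝ) = |x - y| • ((1, 0) : ℝ × ℝ) := by ext <;> simp
    have := h.abs_eq (x - y, 0)
    simp only at this
    rw [← this, e3, h.norm.smul _ _ (abs_nonneg _), mul_comm]
  rw [e, e2] at h1
  exact h1

theorem abs_ph1_le (s : ℝ) : |ph1 μ s| ≤ μ (1, 0) := by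
  have h1 := grad_le h s (s + 1)
  have h2 := grad_le h s (s - 1)
  have h3 := abs_ph_sub_le h (s + 1) s
  have h4 := abs_ph_sub_le h (s - 1) s
  rw [abs_le] at h3 h4 ⊢
  have e1 : |s + 1 - s| = 1 := by simp
  have e2 : |s - 1 - s| = 1 := by
    have : s - 1 - s = -1 := by ring
    rw [this]; simp
  rw [e1] at h3
  rw [e2] at h4
  constructor <;> linarith [h3.2, h4.2]

/-- the facet of `(s, 1)` does not meet the horizontal axis iff `|φ' s| < μ (1, 0)` -/
theorem ph1_lt_iff (s : ℝ) : |ph1 μ s| < μ (1, 0) ↔ μ (1, 0) * |s| < μ (s, 1) := by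
  have hax : ∀ (σ : ℝ), |σ| = 1 → ∀ w, lfun (σ * μ (1, 0)) 0 w ≤ μ w := by
    intro σ hσ w
    rw [lfun_apply]
    have h1 := h.axis_le w
    have h2 : σ * w.1 ≤ |w.1| := by
      rw [← one_mul |w.1|, ← hσ, ← abs_mul]
      exact le_abs_self _
    have h3 := h.norm.nonneg (1, 0)
    nlinarith
  constructor
  · intro hlt
    by_contra hcon
    push Not at hcon
    have heq : μ (s, 1) = μ (1, 0) * |s| := by
      apply le_antisymm hcon
      have := h.axis_le (s, 1)
      simpa using this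
    obtain ⟨σ, hσ, hσs⟩ : ∃ σ : ℝ, |σ| = 1 ∧ |s| = σ * s := by
      rcases abs_cases s with ⟨e, -⟩ | ⟨e, -⟩
      · exact ⟨1, by simp, by rw [e, one_mul]⟩
      · exact ⟨-1, by simp, by rw [e, neg_one_mul]⟩
    have e := grad_unique (h.diff (s, 1) (by simp)) (lfun_le h s) (hax σ hσ) (lfun_self s)
      (by rw [lfun_apply, heq, hσs]; simp only; ring)
    have := (lfun_inj e).1
    rw [this, abs_mul, hσ, one_mul] at hlt
    exact absurd hlt (not_lt.2 (le_abs_self _))
  · intro hlt
    by_contra hcon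
    push Not at hcon
    have heq := le_antisymm (abs_ph1_le h s) hcon
    obtain ⟨σ, hσ, hσs⟩ : ∃ σ : ℝ, |σ| = 1 ∧ |ph1 μ s| = σ * ph1 μ s := by
      rcases abs_cases (ph1 μ s) with ⟨e, -⟩ | ⟨e, -⟩
      · exact ⟨1, by simp, by rw [e, one_mul]⟩
      · exact ⟨-1, by simp, by rw [e, neg_one_mul]⟩
    have hσ2 : σ * σ = 1 := by
      have := abs_mul_abs_self σ
      rw [hσ] at this
      linarith
    have hμσ : μ (σ, 0) = μ (1, 0) := by
      have := h.abs_eq (σ, 0)
      simp only [hσ, abs_zero] at this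
      exact this.symm
    -- the functional at `s` touches at `(σ, 0)`
    have htouch : lfun (ph1 μ s) (ph μ s - ph1 μ s * s) (σ, 0) = μ (σ, 0) := by
      rw [lfun_apply, hμσ, ← heq, hσs]
      ring
    have htouch' : lfun (σ * μ (1, 0)) 0 (σ, 0) = μ (σ, 0) := by
      rw [lfun_apply, hμσ]
      simp only
      linear_combination μ (1, 0) * hσ2
    have hne : ((σ, 0) : ℝ × ℝ) ≠ 0 := by
      intro h0
      have := congrArg Prod.fst h0
      simp only [Prod.fst_zero] at this
      rw [this] at hσ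
      simp at hσ
    have e := grad_unique (h.diff (σ, 0) hne) (lfun_le h s) (hax σ hσ) htouch htouch'
    obtain ⟨e1, e2⟩ := lfun_inj e
    have : ph μ s = σ * μ (1, 0) * s := by rw [← e1]; linarith
    have h5 : μ (s, 1) = σ * μ (1, 0) * s := this
    have h6 : σ * s ≤ |s| := by
      rw [← one_mul |s|, ← hσ, ← abs_mul]
      exact le_abs_self _
    have h7 := h.norm.nonneg (1, 0)
    nlinarith

/-- `(x, 1)` is in the facet of `(s, 1)` iff the derivatives agree -/
theorem contact_iff (s x : ℝ) : μ (x, 1) = μ (s, 1) + ph1 μ s * (x - s) ↔ ph1 μ x = ph1 μ s := by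
  constructor
  · intro hc
    have e := grad_unique (h.diff (x, 1) (by simp)) (lfun_le h x) (lfun_le h s) (lfun_self x)
      (by rw [lfun_apply, hc]; simp only [ph]; ring)
    exact (lfun_inj e).1
  · intro hc
    have h1 := grad_le h s x
    have h2 := grad_le h x s
    rw [hc] at h2
    apply le_antisymm
    · change ph μ x ≤ ph μ s + _
      linarith
    · exact h1

theorem ph_neg (s : ℝ) : ph μ (-s) = ph μ s := h.refl s 1

theorem ph1_neg (s : ℝ) : ph1 μ (-s) = -ph1 μ s := by
  have h1 : HasDerivAt (fun x => ph μ (-x)) (-ph1 μ (-s)) s := by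
    have := (hasDerivAt_ph h (-s)).comp s (hasDerivAt_neg s)
    simpa [Function.comp_def] using this
  have h2 : (fun x => ph μ (-x)) = ph μ := funext (ph_neg h)
  rw [h2] at h1
  have := h1.unique (hasDerivAt_ph h s)
  linarith

/-- every slope of modulus less than `μ (1, 0)` is attained -/
theorem exists_ph1_eq {p : ℝ} (hp : |p| < μ (1, 0)) : ∃ s, ph1 μ s = p := by
  set m1 := μ (1, 0) with hm1
  have hg : Continuous fun x => ph μ x - p * x := (continuous_ph h).sub (continuous_const.mul continuous_id)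
  have hlow : ∀ x, (m1 - |p|) * |x| ≤ ph μ x - p * x := by
    intro x
    have h1 := h.axis_le (x, 1)
    simp only at h1
    have h2 : p * x ≤ |p| * |x| := by rw [← abs_mul]; exact le_abs_self _
    change m1 * |x| ≤ ph μ x at h1
    linarith
  obtain ⟨s, hs⟩ : ∃ s, ∀ x, ph μ s - p * s ≤ ph μ x - p * x := by
    set R : ℝ := (ph μ 0 + 1) / (m1 - |p|) with hR
    have hd : 0 < m1 - |p| := by linarith
    have hph0 : 0 ≤ ph μ 0 := h.norm.nonneg _
    have hR0 : 0 ≤ R := by positivity
    obtain ⟨s, hs1, hs2⟩ := (isCompact_Icc (a := -R) (b := R)).exists_isMinOn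
      ⟨0, by constructor <;> linarith⟩ hg.continuousOn
    refine ⟨s, fun x => ?_⟩
    by_cases hx : x ∈ Icc (-R) R
    · exact hs2 hx
    · have h0 : ph μ s - p * s ≤ ph μ 0 - p * 0 := hs2 (by constructor <;> linarith)
      have h1 : R < |x| := by
        by_contra hc
        push Not at hc
        exact hx (abs_le.1 hc)
      have h2 := hlow x
      have h3 : (m1 - |p|) * R < (m1 - |p|) * |x| := mul_lt_mul_of_pos_left h1 hd
      have h4 : (m1 - |p|) * R = ph μ 0 + 1 := by
        rw [hR]; field_simp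
      linarith
  refine ⟨s, ?_⟩
  have hmin : IsLocalMin (fun x => ph μ x - p * x) s := Filter.Eventually.of_forall hs
  have hd : HasDerivAt (fun x => ph μ x - p * x) (ph1 μ s - p) s := by
    have h1 := (hasDerivAt_ph h s).fun_sub ((hasDerivAt_id' s).const_mul p)
    simpa using h1
  have := hmin.hasDerivAt_eq_zero hd
  linarith

/-- the directions with a slope in the open interval form an open set -/
theorem isOpen_dir : IsOpen {s | |ph1 μ s| < μ (1, 0)} :=
  isOpen_lt (continuous_ph1 h).abs continuous_const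

theorem exists_bracket {s : ℝ} (hs : |ph1 μ s| < μ (1, 0)) {ε : ℝ} (hε : 0 < ε) :
    ∃ s1 s2, s1 < s ∧ s < s2 ∧ |ph1 μ s1| < μ (1, 0) ∧ |ph1 μ s2| < μ (1, 0) ∧
      ph1 μ s - ε < ph1 μ s1 ∧ ph1 μ s1 < ph1 μ s ∧ ph1 μ s < ph1 μ s2 ∧
      ph1 μ s2 < ph1 μ s + ε := by
  rw [abs_lt] at hs
  set p := ph1 μ s with hp
  set m1 := μ (1, 0) with hm1
  set δ := min ε (min (p + m1) (m1 - p)) / 2 with hδ
  have h0 : 0 < min ε (min (p + m1) (m1 - p)) :=
    lt_min hε (lt_min (by linarith) (by linarith))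
  have h1 : 0 < δ := by positivity
  have h2 : δ < ε := by
    have := min_le_left ε (min (p + m1) (m1 - p))
    linarith
  have h3 : δ < p + m1 := by
    have := (min_le_right ε (min (p + m1) (m1 - p))).trans (min_le_left _ _)
    linarith
  have h4 : δ < m1 - p := by
    have := (min_le_right ε (min (p + m1) (m1 - p))).trans (min_le_right _ _)
    linarith
  have a1 : |p - δ| < m1 := by rw [abs_lt]; constructor <;> linarith
  have a2 : |p + δ| < m1 := by rw [abs_lt]; constructor <;> linarith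
  obtain ⟨s1, hs1⟩ := exists_ph1_eq h a1
  obtain ⟨s2, hs2⟩ := exists_ph1_eq h a2
  refine ⟨s1, s2, ?_, ?_, by rw [hs1]; exact a1, by rw [hs2]; exact a2, by linarith, by linarith,
    by linarith, by linarith⟩
  · by_contra hc
    push Not at hc
    have := monotone_ph1 h hc
    linarith
  · by_contra hc
    push Not at hc
    have := monotone_ph1 h hc
    linarith

/-- strict monotonicity of derivatives gives points outside the facet -/
theorem contact_ne {s x : ℝ} (hx : ph1 μ x ≠ ph1 μ s) :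
    μ (x, 1) ≠ μ (s, 1) + ph1 μ s * (x - s) := fun hc => hx ((contact_iff h s x).1 hc)

/-- **(c1)** The excess of a detour through a point that is not seen in a direction of the facet
is bounded below. -/
theorem excess_pos {s s1 s2 : ℝ} (hp : |ph1 μ s| < μ (1, 0)) (h1 : s1 < s) (h2 : s < s2)
    (hn1 : μ (s1, 1) ≠ μ (s, 1) + ph1 μ s * (s1 - s))
    (hn2 : μ (s2, 1) ≠ μ (s, 1) + ph1 μ s * (s2 - s)) :
    ∃ η > 0, ∃ C0 > 0, |s1| ≤ C0 ∧ |s2| ≤ C0 ∧ ∀ C ≥ C0, ∀ q : ℝ × ℝ,
      ((|q.1| = C ∧ 0 ≤ q.2 ∧ q.2 ≤ 1) ∨ (q.2 = 1 ∧ |q.1| ≤ C ∧ (q.1 ≤ s1 ∨ s2 ≤ q.1))) →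
        η ≤ μ q + μ (s, 1) - μ (q + (s, 1)) := by
  set p := ph1 μ s with hpd
  set C0 : ℝ := max 1 (max |s1| |s2|) with hC0
  have hC01 : 1 ≤ C0 := le_max_left _ _
  have hC02 : |s1| ≤ C0 := (le_max_left _ _).trans (le_max_right _ _)
  have hC03 : |s2| ≤ C0 := (le_max_right _ _).trans (le_max_right _ _)
  set f : ℝ × ℝ → ℝ := fun q => μ q + μ (s, 1) - μ (q + (s, 1)) with hf
  have hμc := h.norm.continuous
  have hfc : Continuous f := by
    simp only [hf]
    fun_prop
  set K1 : Set (ℝ × ℝ) := {q | |q.1| = C0 ∧ 0 ≤ q.2 ∧ q.2 ≤ 1} with hK1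
  set K2 : Set (ℝ × ℝ) := {q | q.2 = 1 ∧ |q.1| ≤ C0 ∧ (q.1 ≤ s1 ∨ s2 ≤ q.1)} with hK2
  -- outside the facet
  have out : ∀ x, x ≤ s1 ∨ s2 ≤ x → μ (x, 1) ≠ μ (s, 1) + p * (x - s) := by
    intro x hx hc
    have hx' := (contact_iff h s x).1 hc
    rcases hx with hx | hx
    · have a := monotone_ph1 h hx
      have b := monotone_ph1 h h1.le
      exact hn1 ((contact_iff h s s1).2 (le_antisymm b (by rw [← hx']; exact a)))
    · have a := monotone_ph1 h hx
      have b := monotone_ph1 h h2.le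
      exact hn2 ((contact_iff h s s2).2 (le_antisymm (by rw [← hx']; exact a) b))
  have hpos : ∀ q ∈ K1 ∪ K2, 0 < f q := by
    intro q hq
    have hq0 : q ≠ 0 := by
      rintro rfl
      rcases hq with ⟨a, -, -⟩ | ⟨a, -, -⟩
      · simp at a; linarith
      · simp at a
    have hnn : 0 ≤ f q := by
      have := h.norm.add q (s, 1)
      simp only [hf]; linarith
    rcases hnn.eq_or_lt with h0 | h0
    · exfalso
      -- the gradient at `q + (s, 1)` touches at both points
      have hs1 : ((s, 1) : ℝ × ℝ) ≠ 0 := by simp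
      have hsum : μ q + μ (s, 1) = μ (q + (s, 1)) := by
        simp only [hf] at h0; linarith
      have hqs : q + (s, 1) ≠ 0 := by
        intro h5
        rw [h5, h.norm.zero] at hsum
        have := h.norm.pos hq0
        have := h.norm.pos hs1
        linarith
      set ρ := fderiv ℝ μ (q + (s, 1)) with hρ
      have hρle : ∀ v, ρ v ≤ μ v := fun v => h.norm.fderiv_le (h.diff _ hqs) v
      have hρ1 : ρ q + ρ (s, 1) = μ (q + (s, 1)) := by
        rw [← map_add, hρ, h.norm.fderiv_self (h.diff _ hqs)]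
      have hu1 : ρ q = μ q := by
        apply le_antisymm (hρle q)
        have := hρle (s, 1)
        linarith
      have hw1 : ρ (s, 1) = μ (s, 1) := by
        apply le_antisymm (hρle _)
        have := hρle q
        linarith
      have e : ρ = lfun p (ph μ s - p * s) :=
        grad_unique (h.diff _ hs1) hρle (lfun_le h s) hw1 (lfun_self s)
      rw [e, lfun_apply] at hu1
      -- the height of `q`
      have hq2 : 0 ≤ q.2 := by
        rcases hq with ⟨-, a, -⟩ | ⟨a, -, -⟩
        · exact a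
        · rw [a]; exact zero_le_one
      rcases hq2.eq_or_lt with h5 | h5
      · -- horizontal
        rcases hq with ⟨a, -, -⟩ | ⟨a, -, -⟩
        · rw [← h5] at hu1
          have h6 : μ q = μ (1, 0) * |q.1| := by
            have e3 : ((|q.1|, |q.2|) : ℝ × ℝ) = |q.1| • ((1, 0) : ℝ × ℝ) := by
              ext <;> simp [← h5]
            rw [← h.abs_eq q, e3, h.norm.smul _ _ (abs_nonneg _), mul_comm]
          rw [h6, a] at hu1
          have h7 : p * q.1 ≤ |p| * C0 := by
            rw [← a, ← abs_mul]; exact le_abs_self _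
          have h8 : |p| * C0 < μ (1, 0) * C0 := mul_lt_mul_of_pos_right hp (by linarith)
          linarith
        · rw [a] at h5; linarith
      · set x := q.1 / q.2 with hx
        have hqx : q = q.2 • ((x, 1) : ℝ × ℝ) := by
          ext
          · simp only [Prod.smul_fst, smul_eq_mul, hx]; field_simp
          · simp
        have h6 : μ q = q.2 * μ (x, 1) := by
          conv_lhs => rw [hqx]
          exact h.norm.smul _ _ hq2
        have h7 : q.1 = q.2 * x := by rw [hx]; field_simp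
        rw [h6, h7] at hu1
        have h8 : μ (x, 1) = μ (s, 1) + p * (x - s) := by
          have : q.2 * μ (x, 1) = q.2 * (μ (s, 1) + p * (x - s)) := by
            rw [← hu1]; simp only [ph]; ring
          exact mul_left_cancel₀ h5.ne' this
        refine out x ?_ h8
        rcases hq with ⟨a, -, b⟩ | ⟨a, -, b⟩
        · have h9 : C0 ≤ |x| := by
            rw [hx, abs_div, a, abs_of_pos h5, le_div_iff₀ h5]
            nlinarith
          rcases abs_cases x with ⟨e5, -⟩ | ⟨e5, -⟩
          · right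
            have := le_abs_self s2
            linarith
          · left
            have := neg_abs_le s1
            linarith
        · rw [a, div_one] at hx
          rw [hx]; exact b
    · exact h0
  -- compactness
  have hKc : IsCompact (K1 ∪ K2) := by
    have c1 : IsClosed K1 := by
      have e1 : IsClosed {q : ℝ × ℝ | |q.1| = C0} := isClosed_eq (by fun_prop) continuous_const
      have e2 : IsClosed {q : ℝ × ℝ | 0 ≤ q.2} := isClosed_le continuous_const continuous_snd
      have e3 : IsClosed {q : ℝ × ℝ | q.2 ≤ 1} := isClosed_le continuous_snd continuous_const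
      exact e1.inter (e2.inter e3)
    have c2 : IsClosed K2 := by
      have e1 : IsClosed {q : ℝ × ℝ | q.2 = 1} := isClosed_eq continuous_snd continuous_const
      have e2 : IsClosed {q : ℝ × ℝ | |q.1| ≤ C0} := isClosed_le (by fun_prop) continuous_const
      have e3 : IsClosed {q : ℝ × ℝ | q.1 ≤ s1} := isClosed_le continuous_fst continuous_const
      have e4 : IsClosed {q : ℝ × ℝ | s2 ≤ q.1} := isClosed_le continuous_const continuous_fst
      exact e1.inter (e2.inter (e3.union e4))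
    refine Metric.isCompact_of_isClosed_isBounded (c1.union c2) ?_
    refine (Metric.isBounded_closedBall (x := (0 : ℝ × ℝ)) (r := C0)).subset ?_
    intro q hq
    rw [mem_closedBall_zero_iff]
    have a1 : |q.1| ≤ C0 := by
      rcases hq with ⟨a, -, -⟩ | ⟨-, a, -⟩
      · exact a.le
      · exact a
    have a2 : |q.2| ≤ C0 := by
      rcases hq with ⟨-, a, b⟩ | ⟨a, -, -⟩
      · rw [abs_of_nonneg a]; linarith
      · rw [a, abs_one]; exact hC01
    exact max_le a1 a2
  have hne : (K1 ∪ K2).Nonempty := ⟨(C0, 0), Or.inl ⟨abs_of_nonneg (by linarith), le_rfl, zero_le_one⟩⟩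
  obtain ⟨q0, hq0, hmin⟩ := hKc.exists_isMinOn hne hfc.continuousOn
  refine ⟨f q0, hpos q0 hq0, C0, by linarith, hC02, hC03, fun C hC q hq => ?_⟩
  -- scaling
  have scale : ∀ (r : ℝ), 1 ≤ r → ∀ q, f q ≤ f (r • q) := by
    intro r hr q
    have e : r • q + (s, 1) = (r - 1) • q + (q + (s, 1)) := by
      rw [sub_smul, one_smul]; abel
    have h3 : μ (r • q + (s, 1)) ≤ (r - 1) * μ q + μ (q + (s, 1)) := by
      rw [e]
      refine (h.norm.add _ _).trans ?_
      rw [h.norm.smul _ _ (by linarith)]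
    simp only [hf]
    rw [h.norm.smul _ _ (by linarith)]
    linarith
  have side : ∀ q : ℝ × ℝ, C0 ≤ |q.1| → 0 ≤ q.2 → q.2 ≤ 1 → f q0 ≤ f q := by
    intro q ha hb hc
    set r := |q.1| / C0 with hr
    have hC0p : 0 < C0 := by linarith
    have hr1 : 1 ≤ r := by rw [hr, le_div_iff₀ hC0p]; linarith
    have hr0 : 0 < r := by linarith
    have hq' : q = r • (r⁻¹ • q) := by
      rw [smul_smul, mul_inv_cancel₀ hr0.ne', one_smul]
    have hmem : r⁻¹ • q ∈ K1 ∪ K2 := by
      left
      refine ⟨?_, ?_, ?_⟩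
      · simp only [Prod.smul_fst, smul_eq_mul, abs_mul, abs_inv, abs_of_pos hr0]
        rw [hr]
        have : |q.1| ≠ 0 := by
          have : 0 < |q.1| := by linarith
          exact this.ne'
        field_simp
      · simp only [Prod.smul_snd, smul_eq_mul]; positivity
      · simp only [Prod.smul_snd, smul_eq_mul]
        rw [inv_mul_le_iff₀ hr0]
        linarith
    calc f q0 ≤ f (r⁻¹ • q) := hmin hmem
      _ ≤ f (r • (r⁻¹ • q)) := scale r hr1 _
      _ = f q := by rw [← hq']
  change f q0 ≤ f q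
  rcases hq with ⟨a, b, c⟩ | ⟨a, b, c⟩
  · exact side q (by rw [a]; exact hC) b c
  · rcases le_total |q.1| C0 with h3 | h3
    · exact hmin (Or.inr ⟨a, h3, c⟩)
    · exact side q h3 (by rw [a]; exact zero_le_one) a.le

end Crest.Agent.R151.BUS
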