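import Crest.Agent.R151.B469a

/-!
# R151, block BUS (helper469), part b: means of the strip times, convexity, slopes
-/

set_option autoImplicit false
set_option linter.unusedSectionVars false

open MeasureTheory Filter ProbabilityTheory
open Crest.ProbabilityR.FirstPassage
open Crest.Agent.R151.K

namespace Crest.Agent.R151.BUS

variable {G : Measure ℝ} [IsProbabilityMeasure G] {m : ℝ} {μ : ℝ × ℝ → ℝ}

/-- the hypotheses on the law -/
structure Inp (G : Measure ℝ) [IsProbabilityMeasure G] (m : ℝ) (μ : ℝ × ℝ → ℝ) : Prop where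
  law : M51.Law213 G
  hz : G {0} = 0
  mom : Mom G m
  tc : IsTC1 G μ

/-- mean of the strip time -/
noncomputable def Phi (G : Measure ℝ) (N w : ℤ) : ℝ := ∫ t, f t N w 0 ∂(iidLaw G)

/-- slope of the mean strip time -/
noncomputable def sg (G : Measure ℝ) (N w : ℤ) : ℝ := Phi G N (w + 1) - Phi G N w

namespace Inp

variable (H : Inp G m μ)
include H

lemma nn : ∀ᵐ t ∂(iidLaw G), Nn t := ae_Nn (G := G) H.mom.h0

lemma norm : B710.NormLike μ := H.mom.normLike H.tc H.hz

lemma regMom {a b : ℤ} (hab : a + 2 ≤ b) : RegMom G (St a b) (cM G) :=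
  regMom_row H.law (M51.thick_Icc hab) Set.ordConnected_Icc

lemma regMomH : RegMom G Hp (cM G) :=
  regMom_row H.law (M51.thick_Ici 0) Set.ordConnected_Ici

lemma int_f {N : ℤ} (hN : 2 ≤ N) (z x : ℤ) : Integrable (fun t => f t N z x) (iidLaw G) :=
  (H.regMom (by omega)).int _ (zero_mem_St (by omega)) _ (top_mem_St (by omega))

lemma int_D {N : ℤ} (hN : 2 ≤ N) (z x : ℤ) : Integrable (fun t => D t N z x) (iidLaw G) :=
  (H.int_f hN z (x + 1)).sub (H.int_f hN z x)

end Inp

lemma preimage_St (a b c d : ℤ) : (fun u : ℤ × ℤ => u + (c, d)) ⁻¹' St a b = St (a - d) (b - d) := by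
  ext u
  rw [Set.mem_preimage, mem_St, mem_St]
  simp only [Prod.snd_add]
  omega

lemma f_shift (t : Environment) (N z x a : ℤ) :
    f (act (tr (a, 0)) t) N z x = f t N (z + a) (x + a) := by
  have := pR_tr t (a, 0) (St 0 N) (x, 0) (z, N)
  rw [preimage_St, sub_zero, sub_zero] at this
  unfold f
  rw [this]
  simp

lemma D_shift (t : Environment) (N z x a : ℤ) :
    D (act (tr (a, 0)) t) N z x = D t N (z + a) (x + a) := by
  unfold D
  rw [f_shift, f_shift]
  congr 2
  ring

lemma measurable_f (N z x : ℤ) : Measurable fun t : Environment => f t N z x :=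
  measurable_pR _ _ _

lemma measurable_D (N z x : ℤ) : Measurable fun t : Environment => D t N z x :=
  (measurable_f N z (x + 1)).sub (measurable_f N z x)

lemma integral_f (N z x : ℤ) : ∫ t, f t N z x ∂(iidLaw G) = Phi G N (z - x) := by
  have h := integral_pt_iso (G := G) (tr (x, 0)) (fun t => f t N (z - x) 0)
    (measurable_f _ _ _).aestronglyMeasurable
  simp only [f_shift, sub_add_cancel, zero_add] at h
  exact h

lemma integral_D_comp {E : Type*} [NormedAddCommGroup E] [NormedSpace ℝ E] (F : ℝ → E)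
    (hF : StronglyMeasurable F) (N z x a : ℤ) :
    ∫ t, F (D t N (z + a) (x + a)) ∂(iidLaw G) = ∫ t, F (D t N z x) ∂(iidLaw G) := by
  have h := integral_pt_iso (G := G) (tr (a, 0)) (fun t => F (D t N z x))
    (hF.comp_measurable (measurable_D _ _ _)).aestronglyMeasurable
  simp only [D_shift] at h
  exact h

namespace Inp

variable (H : Inp G m μ)
include H

lemma integral_D {N : ℤ} (hN : 2 ≤ N) (z x : ℤ) :
    ∫ t, D t N z x ∂(iidLaw G) = -sg G N (z - x - 1) := by
  unfold D
  rw [integral_sub (H.int_f hN _ _) (H.int_f hN _ _), integral_f, integral_f]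
  unfold sg
  rw [show z - (x + 1) = z - x - 1 by ring, show z - x - 1 + 1 = z - x by ring]
  ring

/-- convexity of the mean -/
lemma sg_mono_succ {N : ℤ} (hN : 2 ≤ N) (w : ℤ) : sg G N (w - 1) ≤ sg G N w := by
  have h1 : ∫ t, (f t N w 0 + f t N (w + 1) 1) ∂(iidLaw G) ≤
      ∫ t, (f t N (w + 1) 0 + f t N w 1) ∂(iidLaw G) := by
    refine integral_mono_ae ((H.int_f hN _ _).add (H.int_f hN _ _))
      ((H.int_f hN _ _).add (H.int_f hN _ _)) ?_
    filter_upwards [H.nn] with t ht
    exact f_monge ht (by omega) (by omega) (by omega)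
  rw [integral_add (H.int_f hN _ _) (H.int_f hN _ _),
    integral_add (H.int_f hN _ _) (H.int_f hN _ _), integral_f, integral_f, integral_f,
    integral_f] at h1
  unfold sg
  rw [sub_add_cancel]
  simp only [sub_zero, add_sub_cancel_right] at h1
  linarith

lemma sg_mono {N : ℤ} (hN : 2 ≤ N) : Monotone (sg G N) := by
  refine monotone_int_of_le_succ fun w => ?_
  have := H.sg_mono_succ hN (w + 1)
  rwa [add_sub_cancel_right] at this

/-- `E |D_z - D_w|` -/
lemma integral_abs_D_sub {N : ℤ} (hN : 2 ≤ N) {z w : ℤ} (hzw : z ≤ w) (x : ℤ) :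
    ∫ t, |D t N z x - D t N w x| ∂(iidLaw G) = sg G N (w - x - 1) - sg G N (z - x - 1) := by
  have h1 : ∫ t, |D t N z x - D t N w x| ∂(iidLaw G) =
      ∫ t, (D t N z x - D t N w x) ∂(iidLaw G) := by
    refine integral_congr_ae ?_
    filter_upwards [H.nn] with t ht
    rw [abs_of_nonneg]
    linarith [D_anti ht (show 0 ≤ N by omega) hzw (x := x)]
  rw [h1, integral_sub (H.int_D hN _ _) (H.int_D hN _ _), H.integral_D hN, H.integral_D hN]
  ring

lemma mu_le_Phi {N : ℤ} (hN : 2 ≤ N) (w : ℤ) : μ ((w : ℝ), (N : ℝ)) ≤ Phi G N w := by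
  have h1 := H.mom.mu_le_ET H.tc (w, N)
  refine (le_trans (le_of_eq rfl) h1).trans ?_
  refine integral_mono_ae (H.mom.int _ _) (H.int_f hN _ _) ?_
  filter_upwards [H.nn] with t ht
  exact pt_le_pR ht (conn_St (zero_mem_St (by omega)) (top_mem_St (by omega)))

/-- the upper shape bound in strips -/
lemma Phi_le {ε : ℝ} (hε : 0 < ε) (C : ℕ) : ∃ g0 : ℕ, ∀ g : ℕ, g0 ≤ g → ∀ h : ℤ,
    |h| ≤ C * g → Phi G g h ≤ μ ((h : ℝ), (g : ℝ)) + ε * g := by
  obtain ⟨g0, hg0⟩ := H.mom.slab_upper H.tc H.hz H.law hε C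
  refine ⟨g0, fun g hg h hh => ?_⟩
  have h1 := (hg0 g hg h hh).2
  have h2 := integral_pR_act (G := G) sw (slab 0 g) (0, 0) (h, g)
  have h3 : (sw ⁻¹' slab 0 g : Set (ℤ × ℤ)) = St 0 g := by
    ext u
    rw [Set.mem_preimage, mem_St]
    exact Iff.rfl
  rw [h3] at h2
  have h4 : Phi G g h = ∫ t, pR t (slab 0 g) (0, 0) (g, h) ∂(iidLaw G) := h2
  rw [h4]
  refine h1.trans_eq ?_
  have := H.mom.mu_swap H.tc ((g : ℝ), (h : ℝ))
  simp only at this
  rw [this]

/-- `μ` near a multiple of a direction -/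
lemma abs_mu_sub (a b : ℝ) {N : ℝ} (hN : 0 ≤ N) :
    |μ (a, N) - N * μ (b, 1)| ≤ m * |a - b * N| := by
  have h1 : N * μ (b, 1) = μ (b * N, N) := by
    rw [← H.mom.mu_smul H.tc hN]
    congr 1
    ext <;> simp [mul_comm]
  rw [h1]
  refine (H.mom.abs_mu_sub_le H.tc _ _).trans_eq ?_
  simp [l1]

/-- two-sided bound on the mean, near a direction -/
lemma Phi_near {ε : ℝ} (hε : 0 < ε) (C : ℕ) : ∃ g0 : ℕ, 2 ≤ g0 ∧ ∀ N : ℕ, g0 ≤ N → ∀ w : ℤ,
    |w| ≤ C * N → ∀ b : ℝ, |Phi G N w - N * μ (b, 1)| ≤ ε * N + m * |w - b * N| := by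
  obtain ⟨g0, hg0⟩ := H.Phi_le hε C
  refine ⟨g0 + 2, by omega, fun N hN w hw b => ?_⟩
  have h1 := hg0 N (by omega) w hw
  have h2 := H.mu_le_Phi (N := N) (by omega) w
  have h3 := H.abs_mu_sub w b (N := N) (Nat.cast_nonneg N)
  rw [Int.cast_natCast] at h2
  rw [abs_le] at h3 ⊢
  have : 0 ≤ ε * N := by positivity
  constructor <;> linarith

lemma sg_mul_le {N : ℤ} (hN : 2 ≤ N) (w : ℤ) (L : ℕ) :
    L * sg G N w ≤ Phi G N (w + L) - Phi G N w := by
  induction L with
  | zero => simp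
  | succ L ih =>
    have h1 := H.sg_mono hN (show w ≤ w + L by omega)
    have h2 : Phi G N (w + (L + 1 : ℕ)) = sg G N (w + L) + Phi G N (w + L) := by
      unfold sg
      push_cast
      rw [← add_assoc]
      ring
    rw [h2]
    push_cast
    linarith

lemma le_sg_mul {N : ℤ} (hN : 2 ≤ N) (w : ℤ) (L : ℕ) :
    Phi G N w - Phi G N (w - L) ≤ L * sg G N w := by
  induction L with
  | zero => simp
  | succ L ih =>
    have h1 := H.sg_mono hN (show w - L - 1 ≤ w by omega)
    have h2 : Phi G N (w - L) = sg G N (w - L - 1) + Phi G N (w - (L + 1 : ℕ)) := by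
      unfold sg
      push_cast
      rw [show w - (L : ℤ) - 1 + 1 = w - L by ring, show w - ((L : ℤ) + 1) = w - L - 1 by ring]
      ring
    rw [h2] at ih
    push_cast at ih ⊢
    linarith

set_option maxHeartbeats 800000 in
/-- convergence of the slopes of the mean strip times -/
theorem sg_tendsto {s p : ℝ} (hd : HasDerivAt (fun s : ℝ => μ (s, 1)) p s) (k : ℤ) :
    Tendsto (fun N : ℕ => sg G N (⌊s * N⌋ + k)) atTop (nhds p) := by
  rw [Metric.tendsto_atTop]
  intro ε hε
  have hm := H.mom.nonneg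
  have hd' := (hasDerivAt_iff_isLittleO_nhds_zero.1 hd).def (show 0 < ε / 8 by positivity)
  rw [Metric.eventually_nhds_iff] at hd'
  obtain ⟨r, hr, hd'⟩ := hd'
  set h : ℝ := min (r / 2) 1 with hh
  have hh0 : 0 < h := by positivity
  have hhr : h < r := by
    have : h ≤ r / 2 := min_le_left _ _
    linarith
  have hh1 : h ≤ 1 := min_le_right _ _
  have e1 := hd' (y := h) (by simpa [abs_of_pos hh0] using hhr)
  have e2 := hd' (y := -h) (by simpa [abs_of_pos hh0] using hhr)
  simp only [norm_neg, Real.norm_eq_abs, abs_of_pos hh0, smul_eq_mul] at e1 e2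
  rw [abs_le] at e1 e2
  obtain ⟨C, hC⟩ : ∃ C : ℕ, |s| + |(k : ℝ)| + 4 ≤ C := exists_nat_ge _
  obtain ⟨g0, hg2, hg0⟩ := H.Phi_near (show 0 < ε * h / 16 by positivity) C
  set c0 : ℝ := m * (2 * |(k : ℝ)| + 3) + |p| + ε with hc0
  have hc0' : 0 ≤ c0 := by positivity
  obtain ⟨n1, hn1⟩ : ∃ n1 : ℕ, (c0 * 4 / ε + 2) / h ≤ n1 := exists_nat_ge _
  refine ⟨g0 + n1 + 1, fun N hN => ?_⟩
  have hNpos : (0 : ℝ) < N := by exact_mod_cast (by omega : 0 < N)
  have hN1 : (1 : ℝ) ≤ N := by exact_mod_cast (by omega : 1 ≤ N)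
  have hNn : (c0 * 4 / ε + 2) ≤ h * N := by
    have h1 : (n1 : ℝ) ≤ N := by exact_mod_cast (by omega : n1 ≤ N)
    have := hn1.trans h1
    rw [div_le_iff₀ hh0] at this
    linarith
  set w : ℤ := ⌊s * N⌋ + k with hw
  set L : ℕ := ⌊h * N⌋₊ with hL
  have hL1 : (L : ℝ) ≤ h * N := Nat.floor_le (by positivity)
  have hL2 : h * N < L + 1 := Nat.lt_floor_add_one _
  have hLbig : c0 * 4 / ε + 1 ≤ L := by linarith
  have hLpos : (0 : ℝ) < L := by
    have : 0 ≤ c0 * 4 / ε := by positivity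
    linarith
  have f1 := Int.floor_le (s * N)
  have f2 := Int.lt_floor_add_one (s * N)
  have hwr : (w : ℝ) = ⌊s * N⌋ + k := by rw [hw]; push_cast; ring
  have hk1 := neg_abs_le (k : ℝ)
  have hk2 := le_abs_self (k : ℝ)
  have hs1 : |s * N| = |s| * N := by rw [abs_mul, abs_of_pos hNpos]
  have hCN : |s| * N + |(k : ℝ)| * N + 4 * N ≤ C * N := by
    have e := mul_le_mul_of_nonneg_right hC hNpos.le
    linarith
  have hkN : |(k : ℝ)| ≤ |(k : ℝ)| * N := le_mul_of_one_le_right (abs_nonneg _) hN1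
  have hsl := neg_abs_le (s * N)
  have hsu := le_abs_self (s * N)
  have hLN : (L : ℝ) ≤ N := by
    have e := mul_le_mul_of_nonneg_right hh1 hNpos.le
    linarith
  -- the three means
  have hbd : ∀ (i : ℤ), |(i : ℝ)| ≤ N → |w + i| ≤ (C : ℤ) * N := by
    intro i hi
    have : |((w + i : ℤ) : ℝ)| ≤ C * N := by
      push_cast
      rw [hwr, abs_le]
      rw [abs_le] at hi
      constructor <;> linarith
    exact_mod_cast this
  have a0 := hg0 N (by omega) w (by simpa using hbd 0 (by simp)) s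
  have a1 := hg0 N (by omega) (w + L) (hbd L (by
    simpa using hLN)) (s + h)
  have a2 := hg0 N (by omega) (w - L) (by
    rw [sub_eq_add_neg]
    exact hbd (-L) (by push_cast; rw [abs_neg]; simpa using hLN)) (s - h)
  have b0 : |(w : ℝ) - s * N| ≤ |(k : ℝ)| + 1 := by
    rw [hwr, abs_le]
    constructor <;> linarith
  have b1 : |((w + L : ℤ) : ℝ) - (s + h) * N| ≤ |(k : ℝ)| + 2 := by
    push_cast
    rw [hwr, abs_le]
    constructor <;> linarith
  have b2 : |((w - L : ℤ) : ℝ) - (s - h) * N| ≤ |(k : ℝ)| + 2 := by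
    push_cast
    rw [hwr, abs_le]
    constructor <;> linarith
  have b0' := mul_le_mul_of_nonneg_left b0 hm
  have b1' := mul_le_mul_of_nonneg_left b1 hm
  have b2' := mul_le_mul_of_nonneg_left b2 hm
  rw [abs_le] at a0 a1 a2
  have s1 := H.sg_mul_le (N := N) (by omega) w L
  have s2 := H.le_sg_mul (N := N) (by omega) w L
  rw [← sub_eq_add_neg s h] at e2
  have e1' : N * (μ (s + h, 1) - μ (s, 1)) ≤ N * (h * p + ε / 8 * h) :=
    mul_le_mul_of_nonneg_left (by linarith [e1.2]) hNpos.le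
  have e2' : N * (μ (s - h, 1) - μ (s, 1)) ≤ N * (-(h * p) + ε / 8 * h) :=
    mul_le_mul_of_nonneg_left (by linarith [e2.2]) hNpos.le
  have hp1 : N * (h * p) ≤ L * p + |p| := by
    have : (h * N - L) * p ≤ |p| := by
      calc (h * N - L) * p ≤ |(h * N - L) * p| := le_abs_self _
        _ = |h * N - L| * |p| := abs_mul _ _
        _ ≤ 1 * |p| := by
          refine mul_le_mul_of_nonneg_right ?_ (abs_nonneg _)
          rw [abs_le]; constructor <;> linarith
        _ = |p| := one_mul _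
    have e : (N : ℝ) * (h * p) = (h * N - L) * p + L * p := by ring
    rw [e]
    linarith
  have hp2 : L * p - |p| ≤ N * (h * p) := by
    have : -((h * N - L) * p) ≤ |p| := by
      calc -((h * N - L) * p) ≤ |(h * N - L) * p| := neg_le_abs _
        _ = |h * N - L| * |p| := abs_mul _ _
        _ ≤ 1 * |p| := by
          refine mul_le_mul_of_nonneg_right ?_ (abs_nonneg _)
          rw [abs_le]; constructor <;> linarith
        _ = |p| := one_mul _
    have e : (N : ℝ) * (h * p) = (h * N - L) * p + L * p := by ring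
    rw [e]
    linarith
  have hc : c0 ≤ ε / 4 * L := by
    have : c0 * 4 / ε ≤ L := by linarith
    rw [div_le_iff₀ hε] at this
    linarith
  have hcL : N * (ε / 8 * h) ≤ ε / 8 * L + ε / 8 := by
    have e := mul_le_mul_of_nonneg_left hL2.le (show 0 ≤ ε / 8 by positivity)
    linarith
  have hcL2 : 2 * (ε * h / 16 * N) ≤ ε / 8 * L + ε / 8 := by
    have e := mul_le_mul_of_nonneg_left hL2.le (show 0 ≤ ε / 8 by positivity)
    linarith
  have u1 : L * sg G N w ≤ L * p + 3 / 4 * ε * L := by linarith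
  have u2 : L * p - 3 / 4 * ε * L ≤ L * sg G N w := by linarith
  have v1 : sg G N w ≤ p + 3 / 4 * ε := by
    refine le_of_mul_le_mul_left ?_ hLpos
    linarith
  have v2 : p - 3 / 4 * ε ≤ sg G N w := by
    refine le_of_mul_le_mul_left ?_ hLpos
    linarith
  rw [Real.dist_eq, abs_lt]
  constructor <;> linarith

end Inp

end Crest.Agent.R151.BUS
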