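import Crest.Agent.R151.B469b

/-!
# R151, block BUS (helper469), part c: the excess of `μ` outside a facet (analysis)
-/

set_option autoImplicit false
set_option linter.unusedSectionVars false

open Filter

namespace Crest.Agent.R151.BUS

variable {μ : ℝ × ℝ → ℝ}

section

variable (hμ : B710.NormLike μ)
include hμ

/-- if `μ(u)+μ(v) = μ(u+v)` then `μ` is linear on the cone of `u, v` -/
lemma cone_linear {u v : ℝ × ℝ} (h : μ u + μ v = μ (u + v)) {a b : ℝ} (ha : 0 ≤ a)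
    (hb : 0 ≤ b) : μ (a • u + b • v) = a * μ u + b * μ v := by
  refine le_antisymm ?_ ?_
  · refine (hμ.add _ _).trans_eq ?_
    rw [hμ.smul _ _ ha, hμ.smul _ _ hb]
  · set l := max a b with hl
    have h1 : a ≤ l := le_max_left _ _
    have h2 : b ≤ l := le_max_right _ _
    have h3 : l • (u + v) = (a • u + b • v) + ((l - a) • u + (l - b) • v) := by
      rw [smul_add, sub_smul, sub_smul]
      abel
    have h4 := hμ.add (a • u + b • v) ((l - a) • u + (l - b) • v)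
    have h5 := hμ.add ((l - a) • u) ((l - b) • v)
    rw [← h3, hμ.smul _ _ (ha.trans h1), ← h] at h4
    rw [hμ.smul _ _ (by linarith), hμ.smul _ _ (by linarith)] at h5
    linarith

/-- positivity of the excess to the right of the facet -/
lemma excess_posR {s p s2 : ℝ} (hd : HasDerivAt (fun x : ℝ => μ (x, 1)) p s) (hs : s < s2)
    (hne : μ (s2, 1) ≠ μ (s, 1) + p * (s2 - s)) {q : ℝ × ℝ} (hq : s2 * q.2 ≤ q.1) (hq' : 0 < q.1 - s * q.2) :
    0 < μ q + μ (s, 1) - μ (q + (s, 1)) := by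
  by_contra hcon
  have h0 : μ q + μ (s, 1) = μ (q + (s, 1)) := le_antisymm (by linarith) (hμ.add _ _)
  -- affine on `[s, s2]`
  set β := (s2 - s) / (q.1 - s * q.2) with hβ
  set α := 1 - β * q.2 with hα
  have hβ0 : 0 ≤ β := div_nonneg (by linarith) hq'.le
  have hβ1 : β * (q.1 - s * q.2) = s2 - s := by
    rw [hβ]; field_simp
  have hα0 : 0 ≤ α := by
    have : β * q.2 ≤ 1 := by
      rw [hβ, div_mul_eq_mul_div, div_le_one hq']
      nlinarith
    linarith
  have haff : ∀ r : ℝ, 0 ≤ r → r ≤ 1 →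
      μ (s + r * (s2 - s), 1) = (r * β) * μ q + (1 - r + r * α) * μ (s, 1) := by
    intro r hr0 hr1
    rw [← cone_linear hμ h0 (a := r * β) (b := 1 - r + r * α) (by positivity) (by nlinarith)]
    congr 1
    ext
    · simp only [Prod.fst_add, Prod.smul_fst, smul_eq_mul]
      rw [hα]
      linear_combination (-r) * hβ1
    · simp only [Prod.snd_add, Prod.smul_snd, smul_eq_mul]
      rw [hα]
      ring
  have h2 := haff 1 zero_le_one le_rfl
  have haff' : ∀ r : ℝ, 0 ≤ r → r ≤ 1 →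
      μ (s + r * (s2 - s), 1) - μ (s, 1) = r * (μ (s2, 1) - μ (s, 1)) := by
    intro r hr0 hr1
    rw [haff r hr0 hr1]
    rw [show s + 1 * (s2 - s) = s2 by ring] at h2
    rw [h2]
    ring
  -- the derivative
  have hd2 : Tendsto (fun r : ℝ => (μ (s + r * (s2 - s), 1) - μ (s, 1)) / (r * (s2 - s)))
      (nhdsWithin 0 (Set.Ioi 0)) (nhds p) := by
    have h3 := hasDerivAt_iff_tendsto_slope_zero.1 hd
    have h4 : Tendsto (fun r : ℝ => r * (s2 - s)) (nhdsWithin 0 (Set.Ioi 0))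
        (nhdsWithin 0 {0}ᶜ) := by
      refine tendsto_nhdsWithin_iff.2 ⟨?_, ?_⟩
      · have : Tendsto (fun r : ℝ => r * (s2 - s)) (nhds 0) (nhds (0 * (s2 - s))) :=
          tendsto_id.mul_const _
        rw [zero_mul] at this
        exact this.mono_left nhdsWithin_le_nhds
      · filter_upwards [self_mem_nhdsWithin] with r hr
        have hr' : 0 < r := hr
        have : 0 < r * (s2 - s) := mul_pos hr' (by linarith)
        exact this.ne'
    refine (h3.comp h4).congr fun r => ?_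
    simp only [Function.comp, smul_eq_mul]
    rw [div_eq_inv_mul]
  have hd3 : Tendsto (fun r : ℝ => (μ (s + r * (s2 - s), 1) - μ (s, 1)) / (r * (s2 - s)))
      (nhdsWithin 0 (Set.Ioi 0)) (nhds ((μ (s2, 1) - μ (s, 1)) / (s2 - s))) := by
    refine tendsto_const_nhds.congr' ?_
    filter_upwards [Ioc_mem_nhdsGT (show (0 : ℝ) < 1 by norm_num)] with r hr
    rw [haff' r hr.1.le hr.2]
    have : r ≠ 0 := hr.1.ne'
    have : s2 - s ≠ 0 := by linarith
    field_simp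
  have h5 := tendsto_nhds_unique hd2 hd3
  rw [eq_div_iff (by linarith)] at h5
  exact hne (by linarith)

/-- **uniform excess to the right of the facet** on the top side and on the right side -/
theorem excess_right {s p s2 : ℝ} (hd : HasDerivAt (fun x : ℝ => μ (x, 1)) p s) (hs : s < s2)
    (hne : μ (s2, 1) ≠ μ (s, 1) + p * (s2 - s)) {C : ℝ} (hC : |s| < C) (hC2 : |s2| ≤ C) :
    ∃ η > 0, ∀ q : ℝ × ℝ, (q.2 = 1 ∧ s2 ≤ q.1 ∧ q.1 ≤ C) ∨ (q.1 = C ∧ 0 ≤ q.2 ∧ q.2 ≤ 1) →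
      η ≤ μ q + μ (s, 1) - μ (q + (s, 1)) := by
  set K : Set (ℝ × ℝ) := (Set.Icc s2 C ×ˢ {1}) ∪ ({C} ×ˢ Set.Icc 0 1) with hK
  have hKc : IsCompact K := (isCompact_Icc.prod isCompact_singleton).union
    (isCompact_singleton.prod isCompact_Icc)
  have hKn : K.Nonempty := ⟨(C, 1), Or.inr ⟨rfl, by simp⟩⟩
  have hcont := hμ.continuous
  have hE : ContinuousOn (fun q : ℝ × ℝ => μ q + μ (s, 1) - μ (q + (s, 1))) K := by
    apply Continuous.continuousOn
    fun_prop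
  obtain ⟨q0, hq0, hmin⟩ := hKc.exists_isMinOn hKn hE
  have hpos : ∀ q ∈ K, 0 < μ q + μ (s, 1) - μ (q + (s, 1)) := by
    rintro q (⟨h1, h2⟩ | ⟨h1, h2⟩)
    · have h2' : q.2 = 1 := h2
      refine excess_posR hμ hd hs hne (by rw [h2']; linarith [h1.1]) ?_
      rw [h2']
      linarith [h1.1]
    · have h1' : q.1 = C := h1
      have hs' := abs_lt.1 hC
      have hs2' := abs_le.1 hC2
      refine excess_posR hμ hd hs hne ?_ ?_
      · rw [h1']
        rcases le_total 0 s2 with h | h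
        · nlinarith [h2.1, h2.2]
        · have : s2 * q.2 ≤ 0 := mul_nonpos_of_nonpos_of_nonneg h h2.1
          have := (abs_nonneg s).trans_lt hC
          linarith
      · rw [h1']
        rcases le_total 0 s with h | h
        · nlinarith [h2.1, h2.2]
        · have : s * q.2 ≤ 0 := mul_nonpos_of_nonpos_of_nonneg h h2.1
          have := (abs_nonneg s).trans_lt hC
          linarith
  refine ⟨_, hpos q0 hq0, fun q hq => hmin ?_⟩
  rcases hq with ⟨h1, h2, h3⟩ | ⟨h1, h2, h3⟩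
  · exact Or.inl ⟨⟨h2, h3⟩, h1⟩
  · exact Or.inr ⟨h1, ⟨h2, h3⟩⟩

/-- homogeneous form -/
theorem excess_right' {s p s2 : ℝ} (hd : HasDerivAt (fun x : ℝ => μ (x, 1)) p s) (hs : s < s2)
    (hne : μ (s2, 1) ≠ μ (s, 1) + p * (s2 - s)) {C : ℝ} (hC : |s| < C) (hC2 : |s2| ≤ C) :
    ∃ η > 0, ∀ N > 0, ∀ q : ℝ × ℝ, (q.2 = N ∧ s2 * N ≤ q.1 ∧ q.1 ≤ C * N) ∨
      (q.1 = C * N ∧ 0 ≤ q.2 ∧ q.2 ≤ N) →
      η * N ≤ μ q + N * μ (s, 1) - μ (q + (s * N, N)) := by
  obtain ⟨η, hη, h⟩ := excess_right hμ hd hs hne hC hC2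
  refine ⟨η, hη, fun N hN q hq => ?_⟩
  have h1 := h (N⁻¹ • q) (by
    simp only [Prod.smul_fst, Prod.smul_snd, smul_eq_mul]
    rcases hq with ⟨h1, h2, h3⟩ | ⟨h1, h2, h3⟩
    · left
      refine ⟨by rw [h1]; field_simp, ?_, ?_⟩
      · rw [inv_mul_eq_div, le_div_iff₀ hN]; exact h2
      · rw [inv_mul_eq_div, div_le_iff₀ hN]; exact h3
    · right
      refine ⟨by rw [h1]; field_simp, by positivity, ?_⟩
      rw [inv_mul_eq_div, div_le_one hN]; exact h3)
  have h2 : μ (N⁻¹ • q) = N⁻¹ * μ q := hμ.smul _ _ (by positivity)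
  have h3 : μ (N⁻¹ • q + (s, 1)) = N⁻¹ * μ (q + (s * N, N)) := by
    rw [← hμ.smul _ _ (by positivity), smul_add]
    congr 2
    ext <;> simp <;> field_simp
  rw [h2, h3] at h1
  have h4 := mul_le_mul_of_nonneg_right h1 hN.le
  refine h4.trans_eq ?_
  field_simp

omit hμ in
lemma normLike_reflect (hμ : B710.NormLike μ) :
    B710.NormLike (fun v : ℝ × ℝ => μ (-v.1, v.2)) := by
  refine ⟨?_, ?_, ?_, ?_, ?_⟩
  · intro r v hr
    simp only [Prod.smul_fst, Prod.smul_snd, smul_eq_mul]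
    rw [← hμ.smul r _ hr]
    congr 1
    ext <;> simp
  · intro v
    simp only [Prod.fst_neg, Prod.snd_neg]
    rw [← hμ.neg]
    congr 1
    ext <;> simp
  · intro u v
    refine (le_of_eq ?_).trans (hμ.add (-u.1, u.2) (-v.1, v.2))
    congr 1
    ext
    · simp; ring
    · simp
  · obtain ⟨c, hc, h⟩ := hμ.lower
    exact ⟨c, hc, fun v => by simpa using h (-v.1, v.2)⟩
  · obtain ⟨c, hc, h⟩ := hμ.upper
    exact ⟨c, hc, fun v => by simpa using h (-v.1, v.2)⟩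

omit hμ in
lemma hasDerivAt_reflect {s p : ℝ} (hd : HasDerivAt (fun x : ℝ => μ (x, 1)) p s) :
    HasDerivAt (fun x : ℝ => (fun v : ℝ × ℝ => μ (-v.1, v.2)) (x, 1)) (-p) (-s) := by
  have h : HasDerivAt (fun x : ℝ => μ (x, 1)) p (- -s) := by rwa [neg_neg]
  have := h.comp (-s) (hasDerivAt_neg (-s))
  simpa [Function.comp_def] using this

/-- homogeneous form, left of the facet -/
theorem excess_left' {s p s1 : ℝ} (hd : HasDerivAt (fun x : ℝ => μ (x, 1)) p s) (hs : s1 < s)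
    (hne : μ (s1, 1) ≠ μ (s, 1) + p * (s1 - s)) {C : ℝ} (hC : |s| < C) (hC2 : |s1| ≤ C) :
    ∃ η > 0, ∀ N > 0, ∀ q : ℝ × ℝ, (q.2 = N ∧ q.1 ≤ s1 * N ∧ -(C * N) ≤ q.1) ∨
      (q.1 = -(C * N) ∧ 0 ≤ q.2 ∧ q.2 ≤ N) →
      η * N ≤ μ q + N * μ (s, 1) - μ (q + (s * N, N)) := by
  obtain ⟨η, hη, h⟩ := excess_right' (normLike_reflect hμ) (hasDerivAt_reflect hd)
    (s2 := -s1) (by linarith) (by
      simp only [neg_neg]
      intro h
      exact hne (by linarith)) (C := C) (by rwa [abs_neg]) (by rwa [abs_neg])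
  refine ⟨η, hη, fun N hN q hq => ?_⟩
  have := h N hN (-q.1, q.2) (by
    simp only
    rcases hq with ⟨h1, h2, h3⟩ | ⟨h1, h2, h3⟩
    · exact Or.inl ⟨h1, by linarith, by linarith⟩
    · exact Or.inr ⟨by linarith, h2, h3⟩)
  simp only [neg_neg] at this
  refine this.trans_eq ?_
  congr 2
  ext
  · simp; ring
  · simp

/-- **the excess outside the sector**, both sides -/
theorem excess_out {s p s1 s2 : ℝ} (hd : HasDerivAt (fun x : ℝ => μ (x, 1)) p s) (hs1 : s1 < s)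
    (hs2 : s < s2) (hne1 : μ (s1, 1) ≠ μ (s, 1) + p * (s1 - s))
    (hne2 : μ (s2, 1) ≠ μ (s, 1) + p * (s2 - s)) {C : ℝ} (hC : |s| < C) (hC1 : |s1| ≤ C)
    (hC2 : |s2| ≤ C) :
    ∃ η > 0, ∀ N > 0, ∀ q : ℝ × ℝ, (q.2 = N ∧ (q.1 ≤ s1 * N ∨ s2 * N ≤ q.1) ∧ |q.1| ≤ C * N) ∨
      (|q.1| = C * N ∧ 0 ≤ q.2 ∧ q.2 ≤ N) →
      η * N ≤ μ q + N * μ (s, 1) - μ (q + (s * N, N)) := by
  obtain ⟨η1, hη1, h1⟩ := excess_left' hμ hd hs1 hne1 hC hC1
  obtain ⟨η2, hη2, h2⟩ := excess_right' hμ hd hs2 hne2 hC hC2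
  refine ⟨min η1 η2, lt_min hη1 hη2, fun N hN q hq => ?_⟩
  have m1 : min η1 η2 * N ≤ η1 * N := mul_le_mul_of_nonneg_right (min_le_left _ _) hN.le
  have m2 : min η1 η2 * N ≤ η2 * N := mul_le_mul_of_nonneg_right (min_le_right _ _) hN.le
  rcases hq with ⟨a1, a2 | a2, a3⟩ | ⟨a1, a2, a3⟩
  · exact m1.trans (h1 N hN q (Or.inl ⟨a1, a2, (abs_le.1 a3).1⟩))
  · exact m2.trans (h2 N hN q (Or.inl ⟨a1, a2, (abs_le.1 a3).2⟩))
  · rcases abs_choice q.1 with h | h
    · exact m2.trans (h2 N hN q (Or.inr ⟨by rw [← h, a1], a2, a3⟩))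
    · exact m1.trans (h1 N hN q (Or.inr ⟨by linarith, a2, a3⟩))

/-- convexity on the line `y = 1` -/
lemma convexOn_line : ConvexOn ℝ Set.univ (fun x : ℝ => μ (x, 1)) := by
  refine ⟨convex_univ, fun u _ v _ a b ha hb hab => ?_⟩
  have h1 := hμ.convexOn.2 (Set.mem_univ ((u, 1) : ℝ × ℝ)) (Set.mem_univ ((v, 1) : ℝ × ℝ)) ha hb
    hab
  simp only [Prod.smul_mk, smul_eq_mul, Prod.mk_add_mk, mul_one, hab] at h1 ⊢
  exact h1

lemma tangent_le {s p : ℝ} (hd : HasDerivAt (fun x : ℝ => μ (x, 1)) p s) (x : ℝ) :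
    μ (s, 1) + p * (x - s) ≤ μ (x, 1) := by
  have hc := convexOn_line hμ
  rcases lt_trichotomy s x with h | h | h
  · have := hc.le_slope_of_hasDerivAt (Set.mem_univ _) (Set.mem_univ _) h hd
    rw [slope_def_field, le_div_iff₀ (by linarith)] at this
    linarith
  · rw [h]; simp
  · have := hc.slope_le_of_hasDerivAt (Set.mem_univ _) (Set.mem_univ _) h hd
    rw [slope_def_field, div_le_iff₀ (by linarith)] at this
    linarith

lemma deriv_mono {s p s' p' : ℝ} (hd : HasDerivAt (fun x : ℝ => μ (x, 1)) p s)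
    (hd' : HasDerivAt (fun x : ℝ => μ (x, 1)) p' s') (h : s ≤ s') : p ≤ p' := by
  rcases h.eq_or_lt with rfl | h
  · exact (hd.unique hd').le
  · have h1 := tangent_le hμ hd s'
    have h2 := tangent_le hμ hd' s
    nlinarith

/-- points on the facet have the same derivative -/
lemma deriv_eq_of_affine {s p s' p' : ℝ} (hd : HasDerivAt (fun x : ℝ => μ (x, 1)) p s)
    (hd' : HasDerivAt (fun x : ℝ => μ (x, 1)) p' s') (h : μ (s', 1) = μ (s, 1) + p * (s' - s)) :
    p' = p := by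
  have hmin : IsLocalMin (fun x : ℝ => μ (x, 1) - (μ (s, 1) + p * (x - s))) s' := by
    refine Filter.Eventually.of_forall fun x => ?_
    have := tangent_le hμ hd x
    simp only
    rw [h]
    linarith
  have hd2 : HasDerivAt (fun x : ℝ => μ (x, 1) - (μ (s, 1) + p * (x - s))) (p' - p) s' := by
    have h1 : HasDerivAt (fun x : ℝ => μ (s, 1) + p * (x - s)) p s' := by
      have := ((hasDerivAt_id s').sub_const s).const_mul p |>.const_add (μ (s, 1))
      simpa using this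
    exact hd'.sub h1
  have := hmin.hasDerivAt_eq_zero hd2
  linarith

/-- a direction slightly to the right, outside the facet -/
theorem exists_right (hdiff : ∀ x : ℝ, DifferentiableAt ℝ (fun x : ℝ => μ (x, 1)) x) {s p : ℝ}
    (hd : HasDerivAt (fun x : ℝ => μ (x, 1)) p s) (hp : p < μ (1, 0)) {ε : ℝ} (hε : 0 < ε) :
    ∃ s2 p2 : ℝ, s < s2 ∧ HasDerivAt (fun x : ℝ => μ (x, 1)) p2 s2 ∧ p < p2 ∧ p2 < p + ε ∧
      p2 < μ (1, 0) ∧ μ (s2, 1) ≠ μ (s, 1) + p * (s2 - s) := by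
  set φ : ℝ → ℝ := fun x : ℝ => μ (x, 1) with hφ
  -- a point far to the right, above the tangent
  obtain ⟨x1, hx1, hx2⟩ : ∃ x1 > s, μ (s, 1) + p * (x1 - s) < φ x1 := by
    obtain ⟨x1, hx1⟩ : ∃ x1 : ℝ, max (s + 1) (max 1 ((|μ (s, 1) - p * s + μ (0, 1)| + 1) /
      (μ (1, 0) - p))) < x1 := exists_gt _
    have a1 : s + 1 < x1 := (le_max_left _ _).trans_lt hx1
    have a2 : 1 < x1 := ((le_max_left _ _).trans (le_max_right _ _)).trans_lt hx1
    have a3 : (|μ (s, 1) - p * s + μ (0, 1)| + 1) / (μ (1, 0) - p) < x1 :=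
      ((le_max_right _ _).trans (le_max_right _ _)).trans_lt hx1
    rw [div_lt_iff₀ (by linarith)] at a3
    refine ⟨x1, by linarith, ?_⟩
    have h1 : x1 * μ (1, 0) ≤ φ x1 + μ (0, 1) := by
      have h2 := hμ.add (x1, 1) (-((0 : ℝ), (1 : ℝ)))
      rw [hμ.neg] at h2
      have h3 : ((x1, 1) : ℝ × ℝ) + -((0 : ℝ), (1 : ℝ)) = x1 • ((1 : ℝ), (0 : ℝ)) := by
        ext <;> simp
      rw [h3, hμ.smul _ _ (by linarith)] at h2
      exact h2
    have h2 := le_abs_self (μ (s, 1) - p * s + μ (0, 1))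
    nlinarith
  obtain ⟨ξ, hξ, hξ2⟩ := exists_hasDerivAt_eq_slope φ (deriv φ) hx1
    (fun x _ => (hdiff x).continuousAt.continuousWithinAt) (fun x _ => (hdiff x).hasDerivAt)
  have hξp : p < deriv φ ξ := by
    rw [hξ2, lt_div_iff₀ (by linarith)]
    linarith
  obtain ⟨m0, hm0, hm1⟩ := exists_between (lt_min (lt_min hξp (show p < p + ε by linarith)) hp)
  have hds : deriv φ s = p := hd.deriv
  obtain ⟨s2, hs2, hs2'⟩ := exists_hasDerivWithinAt_eq_of_gt_of_lt (f := φ) (f' := deriv φ)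
    hξ.1.le (fun x _ => (hdiff x).hasDerivAt.hasDerivWithinAt) (m := m0) (by rw [hds]; exact hm0)
    (hm1.trans_le ((min_le_left _ _).trans (min_le_left _ _)))
  have hd2 : HasDerivAt φ m0 s2 := by rw [← hs2']; exact (hdiff s2).hasDerivAt
  refine ⟨s2, m0, hs2.1, hd2, hm0, hm1.trans_le ((min_le_left _ _).trans (min_le_right _ _)),
    hm1.trans_le (min_le_right _ _), fun h => ?_⟩
  have := deriv_eq_of_affine hμ hd hd2 h
  linarith

/-- a direction slightly to the left, outside the facet -/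
theorem exists_left (hdiff : ∀ x : ℝ, DifferentiableAt ℝ (fun x : ℝ => μ (x, 1)) x) {s p : ℝ}
    (hd : HasDerivAt (fun x : ℝ => μ (x, 1)) p s) (hp : -μ (1, 0) < p) {ε : ℝ} (hε : 0 < ε) :
    ∃ s1 p1 : ℝ, s1 < s ∧ HasDerivAt (fun x : ℝ => μ (x, 1)) p1 s1 ∧ p1 < p ∧ p - ε < p1 ∧
      -μ (1, 0) < p1 ∧ μ (s1, 1) ≠ μ (s, 1) + p * (s1 - s) := by
  have h10 : μ (-1, 0) = μ (1, 0) := by
    rw [← hμ.neg]
    congr 1
    ext <;> simp
  obtain ⟨s2, p2, h1, h2, h3, h4, h4', h5⟩ := exists_right (normLike_reflect hμ) (fun x => by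
      have := (hasDerivAt_reflect (hdiff (-x)).hasDerivAt).differentiableAt
      rwa [neg_neg] at this) (hasDerivAt_reflect hd) (by
      simp only
      rw [h10]; linarith) hε
  refine ⟨-s2, -p2, by linarith, ?_, by linarith, by linarith, ?_, ?_⟩
  · have := hasDerivAt_reflect (μ := fun v : ℝ × ℝ => μ (-v.1, v.2)) h2
    simpa using this
  · simp only [h10] at h4'
    linarith
  · intro h
    apply h5
    simp only [neg_neg]
    rw [h]
    ring

end

end Crest.Agent.R151.BUS
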