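import Crest.Agent.R151.B469c

/-!
# R151, block BUS (helper469), part d: Hopf-Lax at the first visit of a line, squeeze,
cells on the boundary of a box (deterministic)
-/

set_option autoImplicit false
set_option linter.unusedSectionVars false

open MeasureTheory Filter ProbabilityTheory
open Crest.ProbabilityR.FirstPassage
open Crest.Agent.R151.K

namespace Crest.Agent.R151.BUS

variable {t : Environment}

/-! ### Hopf-Lax -/

lemma hl_le (ht : Nn t) {N : ℤ} (hN : 0 ≤ N) {R : Set (ℤ × ℤ)} (hR : St 0 N ⊆ R)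
    (x w : ℤ) {b : ℤ × ℤ} (hb : Conn R (w, N) b) :
    pR t R (x, 0) b ≤ f t N w x + pR t R (w, N) b := by
  have hc : Conn (St 0 N) (x, 0) (w, N) := conn_St (zero_mem_St hN) (top_mem_St hN)
  have h1 := pR_triangle ht (hc.mono hR) hb
  have h2 := pR_anti ht hR hc
  unfold f
  linarith

/-- the first visit of the line `N` by a near-optimal walk -/
lemma exists_near (ht : Nn t) {N : ℤ} (hN : 0 ≤ N) {R : Set (ℤ × ℤ)}
    (hR : R ⊆ Hp) (x : ℤ) {b : ℤ × ℤ} (hb : Conn R (x, 0) b) (hbN : N ≤ b.2) {ε : ℝ}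
    (hε : 0 < ε) :
    ∃ w, f t N w x + pR t R (w, N) b < pR t R (x, 0) b + ε := by
  obtain ⟨γ, hγ, h1⟩ := exists_walk_lt_pR (t := t) (c := pR t R (x, 0) b + ε) hb (by linarith)
  obtain ⟨w, α, ρ, h2, h3, h4, h5⟩ := exists_first_hit N γ hN hbN
  refine ⟨w, ?_⟩
  have h6 : f t N w x ≤ walkCost t α := pR_le ht α fun u hu => by
    rw [mem_St]
    exact ⟨mem_Hp.1 (hR (hγ u (h3 u hu))), h2 u hu⟩
  have h7 : pR t R (w, N) b ≤ walkCost t ρ := pR_le ht ρ fun u hu => hγ u (h4 u hu)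
  have h8 := h5 t
  linarith

/-- **squeeze**: if all the near-optimal first visits are in `[z1, z2]`, the increment is
between the increments for the targets `z1, z2`. -/
lemma squeeze (ht : Nn t) {N : ℤ} (hN : 0 ≤ N) {R : Set (ℤ × ℤ)} (hR0 : St 0 N ⊆ R)
    (hR : R ⊆ Hp) (hRc : ∀ x ∈ R, ∀ y ∈ R, Conn R x y) {b : ℤ × ℤ} (hb : b ∈ R)
    (hbN : N ≤ b.2) {x z1 z2 : ℤ}
    (h0 : ∀ w, f t N w x + pR t R (w, N) b < pR t R (x, 0) b + 1 → z1 ≤ w)
    (h1 : ∀ w, f t N w (x + 1) + pR t R (w, N) b < pR t R (x + 1, 0) b + 1 → w ≤ z2) :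
    D t N z2 x ≤ pR t R (x + 1, 0) b - pR t R (x, 0) b ∧
      pR t R (x + 1, 0) b - pR t R (x, 0) b ≤ D t N z1 x := by
  have hxR : ∀ y : ℤ, ((y, 0) : ℤ × ℤ) ∈ R := fun y => hR0 (zero_mem_St hN)
  have hwR : ∀ w : ℤ, ((w, N) : ℤ × ℤ) ∈ R := fun y => hR0 (top_mem_St hN)
  constructor
  · refine le_of_forall_pos_lt_add fun ε hε => ?_
    obtain ⟨w, hw⟩ := exists_near ht hN hR (x + 1) (hRc _ (hxR _) _ hb) hbN
      (lt_min hε one_pos)
    have a1 := h1 w (hw.trans_le (by linarith [min_le_right ε 1]))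
    have a2 := hl_le ht hN hR0 x w (hRc _ (hwR w) _ hb)
    have a3 := D_anti ht hN a1 (x := x)
    have a4 := min_le_left ε 1
    unfold D at a3 ⊢
    linarith
  · refine le_of_forall_pos_lt_add fun ε hε => ?_
    obtain ⟨w, hw⟩ := exists_near ht hN hR x (hRc _ (hxR _) _ hb) hbN
      (lt_min hε one_pos)
    have a1 := h0 w (hw.trans_le (by linarith [min_le_right ε 1]))
    have a2 := hl_le ht hN hR0 (x + 1) w (hRc _ (hwR w) _ hb)
    have a3 := D_anti ht hN a1 (x := x)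
    have a4 := min_le_left ε 1
    unfold D at a3 ⊢
    linarith

/-! ### cells -/

/-- the cell of `L` points with corner `c` and direction `e` is visited by a near-geodesic
`x → b` -/
def Vis (t : Environment) (R : Set (ℤ × ℤ)) (x b c e : ℤ × ℤ) (L : ℕ) : Prop :=
  ∃ i ≤ L, pR t R x (c + i • e) + pR t R (c + i • e) b ≤ pR t R x b + 2

/-- length of the cell -/
noncomputable def lenC (t : Environment) (R : Set (ℤ × ℤ)) (c e : ℤ × ℤ) (L : ℕ) : ℝ :=
  ∑ i ∈ Finset.range L, pR t R (c + i • e) (c + (i + 1) • e)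

lemma lenC_nonneg (ht : Nn t) (R : Set (ℤ × ℤ)) (c e : ℤ × ℤ) (L : ℕ) : 0 ≤ lenC t R c e L :=
  Finset.sum_nonneg fun _ _ => pR_nonneg ht _ _ _

lemma pR_cell_le (ht : Nn t) {R : Set (ℤ × ℤ)} (hRc : ∀ x ∈ R, ∀ y ∈ R, Conn R x y)
    {c e : ℤ × ℤ} {L : ℕ} (hc : ∀ i ≤ L, c + i • e ∈ R) {i : ℕ} (hi : i ≤ L) :
    pR t R c (c + i • e) ≤ lenC t R c e L := by
  have h1 := (pR_chain (R := R) ht (fun i => c + i • e) i (hc 0 (Nat.zero_le _)) (fun j hj =>
    hRc _ (hc j (by omega)) _ (hc (j + 1) (by omega)))).2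
  simp only [zero_smul, add_zero] at h1
  refine h1.trans ?_
  refine Finset.sum_le_sum_of_subset_of_nonneg ?_ fun _ _ _ => pR_nonneg ht _ _ _
  intro j hj
  rw [Finset.mem_range] at hj ⊢
  omega

/-- on a visited cell the corner is nearly on a geodesic -/
lemma Vis.corner (ht : Nn t) {R : Set (ℤ × ℤ)} (hRc : ∀ x ∈ R, ∀ y ∈ R, Conn R x y)
    {x b c e : ℤ × ℤ} {L : ℕ} (hx : x ∈ R) (hb : b ∈ R) (hc : ∀ i ≤ L, c + i • e ∈ R)
    (h : Vis t R x b c e L) :
    pR t R x c + pR t R c b ≤ pR t R x b + 2 + 2 * lenC t R c e L := by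
  obtain ⟨i, hi, h⟩ := h
  have hc0 : c ∈ R := by simpa using hc 0 (Nat.zero_le _)
  have h1 := pR_cell_le ht hRc hc hi
  have h2 := pR_triangle ht (hRc _ hx _ (hc i hi)) (hRc _ (hc i hi) _ hc0)
  have h3 := pR_triangle ht (hRc _ hc0 _ (hc i hi)) (hRc _ (hc i hi) _ hb)
  rw [pR_symm ht R (c + i • e) c] at h2
  linarith

/-- the defect of the shift -/
noncomputable def defect (t : Environment) (R : Set (ℤ × ℤ)) (c v b : ℤ × ℤ) : ℝ :=
  pR t R c (c + v) + pR t R (c + v) b - pR t R c b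

lemma defect_nonneg (ht : Nn t) {R : Set (ℤ × ℤ)} (hRc : ∀ x ∈ R, ∀ y ∈ R, Conn R x y)
    {c v b : ℤ × ℤ} (hc : c ∈ R) (hcv : c + v ∈ R) (hb : b ∈ R) : 0 ≤ defect t R c v b := by
  have := pR_triangle ht (hRc _ hc _ hcv) (hRc _ hcv _ hb)
  unfold defect
  linarith

/-- **the basic inequality** -/
lemma Vis.le_defect (ht : Nn t) {R : Set (ℤ × ℤ)} (hRc : ∀ x ∈ R, ∀ y ∈ R, Conn R x y)
    {x b c e v : ℤ × ℤ} {L : ℕ} (hx : x ∈ R) (hb : b ∈ R) (hcv : c + v ∈ R)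
    (hc : ∀ i ≤ L, c + i • e ∈ R) (h : Vis t R x b c e L) :
    passageTime t x c + passageTime t c (c + v) - pR t R x (c + v) ≤
      defect t R c v b + 2 * lenC t R c e L + 2 := by
  have hc0 : c ∈ R := by simpa using hc 0 (Nat.zero_le _)
  have h1 := h.corner ht hRc hx hb hc
  have h2 := pR_triangle ht (hRc _ hx _ hcv) (hRc _ hcv _ hb)
  have h3 := pt_le_pR ht (hRc _ hx _ hc0)
  have h4 := pt_le_pR ht (hRc _ hc0 _ hcv)
  unfold defect
  linarith

/-! ### the boundary of the box -/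

/-- a walk crosses every column between its ends -/
lemma exists_col {a b : ℤ × ℤ} (γ : squareLattice.Walk a b) {W : ℤ}
    (h : (a.1 ≤ W ∧ W ≤ b.1) ∨ (b.1 ≤ W ∧ W ≤ a.1)) : ∃ u ∈ γ.support, u.1 = W := by
  induction γ with
  | @nil a => exact ⟨a, by simp, by omega⟩
  | @cons a a' b hab γ ih =>
    by_cases haW : a.1 = W
    · exact ⟨a, by simp, haW⟩
    · have h' : (a'.1 ≤ W ∧ W ≤ b.1) ∨ (b.1 ≤ W ∧ W ≤ a'.1) := by
        have := M51.adj_iff.1 hab
        omega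
      obtain ⟨u, hu, hu'⟩ := ih h'
      exact ⟨u, by
        rw [SimpleGraph.Walk.support_cons, List.mem_cons]
        exact Or.inr hu, hu'⟩

/-- the cells on the top side (outside `(z1, z2)`) and on the two sides of the box
`[-W, W] × [0, N]` -/
def cells (z1 z2 W N : ℤ) (L J : ℕ) : Finset ((ℤ × ℤ) × (ℤ × ℤ)) :=
  (((Finset.range (J + 1)).filter fun j : ℕ => z2 + j * L ≤ W).image
      fun j : ℕ => (((z2 + j * L, N) : ℤ × ℤ), ((1, 0) : ℤ × ℤ))) ∪
  (((Finset.range (J + 1)).filter fun j : ℕ => -W ≤ z1 - j * L).image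
      fun j : ℕ => (((z1 - j * L, N) : ℤ × ℤ), ((-1, 0) : ℤ × ℤ))) ∪
  ((((Finset.range (J + 1)).filter fun j : ℕ => ((j * L : ℕ) : ℤ) ≤ N).image
      fun j : ℕ => (((W, j * L) : ℤ × ℤ), ((0, 1) : ℤ × ℤ))) ∪
  (((Finset.range (J + 1)).filter fun j : ℕ => ((j * L : ℕ) : ℤ) ≤ N).image
      fun j : ℕ => (((-W, j * L) : ℤ × ℤ), ((0, 1) : ℤ × ℤ))))

lemma card_cells_le (z1 z2 W N : ℤ) (L J : ℕ) : (cells z1 z2 W N L J).card ≤ 4 * (J + 1) := by
  have h : ∀ (p : ℕ → Prop) [DecidablePred p] (g : ℕ → (ℤ × ℤ) × (ℤ × ℤ)),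
      (((Finset.range (J + 1)).filter p).image g).card ≤ J + 1 := by
    intro p _ g
    refine Finset.card_image_le.trans ((Finset.card_filter_le _ _).trans ?_)
    rw [Finset.card_range]
  unfold cells
  refine (Finset.card_union_le _ _).trans ?_
  have h1 := Finset.card_union_le
    (((Finset.range (J + 1)).filter fun j : ℕ => z2 + j * L ≤ W).image
      fun j : ℕ => (((z2 + j * L, N) : ℤ × ℤ), ((1, 0) : ℤ × ℤ)))
    (((Finset.range (J + 1)).filter fun j : ℕ => -W ≤ z1 - j * L).image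
      fun j : ℕ => (((z1 - j * L, N) : ℤ × ℤ), ((-1, 0) : ℤ × ℤ)))
  have h2 := Finset.card_union_le
    (((Finset.range (J + 1)).filter fun j : ℕ => ((j * L : ℕ) : ℤ) ≤ N).image
      fun j : ℕ => (((W, j * L) : ℤ × ℤ), ((0, 1) : ℤ × ℤ)))
    (((Finset.range (J + 1)).filter fun j : ℕ => ((j * L : ℕ) : ℤ) ≤ N).image
      fun j : ℕ => (((-W, j * L) : ℤ × ℤ), ((0, 1) : ℤ × ℤ)))
  have a1 := h (fun j : ℕ => z2 + j * L ≤ W)
    (fun j : ℕ => (((z2 + j * L, N) : ℤ × ℤ), ((1, 0) : ℤ × ℤ)))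
  have a2 := h (fun j : ℕ => -W ≤ z1 - j * L)
    (fun j : ℕ => (((z1 - j * L, N) : ℤ × ℤ), ((-1, 0) : ℤ × ℤ)))
  have a3 := h (fun j : ℕ => ((j * L : ℕ) : ℤ) ≤ N)
    (fun j : ℕ => (((W, j * L) : ℤ × ℤ), ((0, 1) : ℤ × ℤ)))
  have a4 := h (fun j : ℕ => ((j * L : ℕ) : ℤ) ≤ N)
    (fun j : ℕ => (((-W, j * L) : ℤ × ℤ), ((0, 1) : ℤ × ℤ)))
  omega

lemma cells_geom {z1 z2 W N : ℤ} {L J : ℕ} (hz1 : z1 ≤ W) (hz2 : -W ≤ z2)
    (hW : 0 ≤ W) {c : (ℤ × ℤ) × (ℤ × ℤ)} (hc : c ∈ cells z1 z2 W N L J) :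
    (c.1.2 = N ∧ (c.1.1 ≤ z1 ∨ z2 ≤ c.1.1) ∧ |c.1.1| ≤ W) ∨
      (|c.1.1| = W ∧ 0 ≤ c.1.2 ∧ c.1.2 ≤ N) := by
  simp only [cells, Finset.mem_union, Finset.mem_image, Finset.mem_filter, Finset.mem_range] at hc
  rcases hc with (⟨j, ⟨-, h⟩, rfl⟩ | ⟨j, ⟨-, h⟩, rfl⟩) | (⟨j, ⟨-, h⟩, rfl⟩ | ⟨j, ⟨-, h⟩, rfl⟩)
  · left
    have : (0 : ℤ) ≤ j * L := by positivity
    refine ⟨rfl, Or.inr (by simp only; omega), ?_⟩
    simp only
    rw [abs_le]
    constructor <;> omega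
  · left
    have : (0 : ℤ) ≤ j * L := by positivity
    refine ⟨rfl, Or.inl (by simp only; omega), ?_⟩
    simp only
    rw [abs_le]
    constructor <;> omega
  · right
    push_cast at h
    exact ⟨abs_of_nonneg hW, by positivity, h⟩
  · right
    push_cast at h
    refine ⟨?_, by positivity, h⟩
    simp only [abs_neg]
    exact abs_of_nonneg hW

lemma cells_mem {z1 z2 W N : ℤ} {L J : ℕ} (hN : 0 ≤ N)
    {c : (ℤ × ℤ) × (ℤ × ℤ)} (hc : c ∈ cells z1 z2 W N L J) (i : ℕ) (hi : i ≤ L) :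
    c.1 + i • c.2 ∈ St 0 (N + L) := by
  simp only [cells, Finset.mem_union, Finset.mem_image, Finset.mem_filter, Finset.mem_range] at hc
  rw [mem_St]
  rcases hc with (⟨j, ⟨-, h⟩, rfl⟩ | ⟨j, ⟨-, h⟩, rfl⟩) | (⟨j, ⟨-, h⟩, rfl⟩ | ⟨j, ⟨-, h⟩, rfl⟩)
  · simp only [Prod.snd_add, Prod.smul_mk, smul_zero, add_zero]
    omega
  · simp only [Prod.snd_add, Prod.smul_mk, smul_zero, add_zero]
    omega
  · simp only [Prod.snd_add, Prod.smul_mk, nsmul_eq_mul, mul_one]
    push_cast at h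
    have : (0 : ℤ) ≤ j * L := by positivity
    omega
  · simp only [Prod.snd_add, Prod.smul_mk, nsmul_eq_mul, mul_one]
    push_cast at h
    have : (0 : ℤ) ≤ j * L := by positivity
    omega

lemma cells_unit {z1 z2 W N : ℤ} {L J : ℕ} {c : (ℤ × ℤ) × (ℤ × ℤ)}
    (hc : c ∈ cells z1 z2 W N L J) : n1 c.2 = 1 := by
  simp only [cells, Finset.mem_union, Finset.mem_image, Finset.mem_filter, Finset.mem_range] at hc
  rcases hc with (⟨j, ⟨-, h⟩, rfl⟩ | ⟨j, ⟨-, h⟩, rfl⟩) | (⟨j, ⟨-, h⟩, rfl⟩ | ⟨j, ⟨-, h⟩, rfl⟩) <;>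
    simp [n1]

/-- **covering**: a near-geodesic that leaves the good window visits a cell -/
lemma covering (ht : Nn t) {M N : ℤ} (hN : 0 ≤ N) (hNM : N ≤ M) {x : ℤ} {b : ℤ × ℤ}
    (hb : b ∈ St 0 M) {z1 z2 W : ℤ} {L J : ℕ} (hL : 0 < L) (hx : |x| ≤ W)
    (hJ : 2 * W ≤ J * L) (hJN : N ≤ J * L) (hz1 : -W ≤ z1 ∧ z1 ≤ W)
    (hz2 : -W ≤ z2 ∧ z2 ≤ W) {w : ℤ}
    (hw : w ≤ z1 ∨ z2 ≤ w)
    (h : f t N w x + pR t (St 0 M) (w, N) b ≤ pR t (St 0 M) (x, 0) b + 1) :
    ∃ c ∈ cells z1 z2 W N L J, Vis t (St 0 M) (x, 0) b c.1 c.2 L := by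
  have hRc : ∀ x ∈ St 0 M, ∀ y ∈ St 0 M, Conn (St 0 M) x y := fun x hx y hy => conn_St hx hy
  have hsub : St 0 N ⊆ St 0 M := St_subset le_rfl hNM
  have hxR : ((x, 0) : ℤ × ℤ) ∈ St 0 M := zero_mem_St (by omega)
  have hwR : ((w, N) : ℤ × ℤ) ∈ St 0 M := hsub (top_mem_St hN)
  have hxa := abs_le.1 hx
  have hW : 0 ≤ W := (abs_nonneg x).trans hx
  have hL' : (0 : ℤ) < L := by exact_mod_cast hL
  by_cases hwW : |w| ≤ W
  · have hwa := abs_le.1 hwW
    have h1 : pR t (St 0 M) (x, 0) (w, N) ≤ f t N w x :=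
      pR_anti ht hsub (conn_St (zero_mem_St hN) (top_mem_St hN))
    rcases hw with hw | hw
    · have e1 : (0 : ℤ) ≤ z1 - w := by omega
      have e2 := Int.emod_add_mul_ediv (z1 - w) L
      have e3 := Int.emod_nonneg (z1 - w) hL'.ne'
      have e4 := Int.emod_lt_of_pos (z1 - w) hL'
      have e5 : 0 ≤ (z1 - w) / L := Int.ediv_nonneg e1 hL'.le
      obtain ⟨j, hj⟩ := Int.eq_ofNat_of_zero_le e5
      obtain ⟨i, hi⟩ := Int.eq_ofNat_of_zero_le e3
      rw [hj, hi] at e2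
      rw [hi] at e4
      have hjJ : j ≤ J := by
        by_contra hcon
        have : (J : ℤ) + 1 ≤ j := by exact_mod_cast (by omega : J + 1 ≤ j)
        have h7 := mul_le_mul_of_nonneg_left this hL'.le
        have h8 : (L : ℤ) * J = J * L := mul_comm _ _
        rw [mul_add] at h7
        omega
      refine ⟨((z1 - j * L, N), (-1, 0)), ?_, i, by omega, ?_⟩
      · simp only [cells, Finset.mem_union, Finset.mem_image, Finset.mem_filter,
          Finset.mem_range]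
        refine Or.inl (Or.inr ⟨j, ⟨by omega, ?_⟩, rfl⟩)
        have : (L : ℤ) * j = j * L := mul_comm _ _
        omega
      · have e6 : ((z1 - j * L, N) : ℤ × ℤ) + i • ((-1, 0) : ℤ × ℤ) = (w, N) := by
          have : (L : ℤ) * j = j * L := mul_comm _ _
          ext
          · simp only [Prod.fst_add, Prod.smul_mk, nsmul_eq_mul]
            omega
          · simp only [Prod.snd_add, Prod.smul_mk, smul_zero, add_zero]
        simp only
        rw [e6]
        linarith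
    · have e1 : (0 : ℤ) ≤ w - z2 := by omega
      have e2 := Int.emod_add_mul_ediv (w - z2) L
      have e3 := Int.emod_nonneg (w - z2) hL'.ne'
      have e4 := Int.emod_lt_of_pos (w - z2) hL'
      have e5 : 0 ≤ (w - z2) / L := Int.ediv_nonneg e1 hL'.le
      obtain ⟨j, hj⟩ := Int.eq_ofNat_of_zero_le e5
      obtain ⟨i, hi⟩ := Int.eq_ofNat_of_zero_le e3
      rw [hj, hi] at e2
      rw [hi] at e4
      have hjJ : j ≤ J := by
        by_contra hcon
        have : (J : ℤ) + 1 ≤ j := by exact_mod_cast (by omega : J + 1 ≤ j)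
        have h7 := mul_le_mul_of_nonneg_left this hL'.le
        have h8 : (L : ℤ) * J = J * L := mul_comm _ _
        rw [mul_add] at h7
        omega
      refine ⟨((z2 + j * L, N), (1, 0)), ?_, i, by omega, ?_⟩
      · simp only [cells, Finset.mem_union, Finset.mem_image, Finset.mem_filter,
          Finset.mem_range]
        refine Or.inl (Or.inl ⟨j, ⟨by omega, ?_⟩, rfl⟩)
        have : (L : ℤ) * j = j * L := mul_comm _ _
        omega
      · have e6 : ((z2 + j * L, N) : ℤ × ℤ) + i • ((1, 0) : ℤ × ℤ) = (w, N) := by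
          have : (L : ℤ) * j = j * L := mul_comm _ _
          ext
          · simp only [Prod.fst_add, Prod.smul_mk, nsmul_eq_mul, mul_one]
            omega
          · simp only [Prod.snd_add, Prod.smul_mk, smul_zero, add_zero]
        simp only
        rw [e6]
        linarith
  · obtain ⟨α, hα, hα2⟩ := exists_walk_lt_pR (t := t) (c := f t N w x + 1)
      (conn_St (zero_mem_St hN) (top_mem_St hN) : Conn (St 0 N) (x, 0) (w, N)) (by
        unfold f; linarith)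
    have key : ∀ V : ℤ, (V = W ∨ V = -W) → ((x ≤ V ∧ V ≤ w) ∨ (w ≤ V ∧ V ≤ x)) →
        ∃ c ∈ cells z1 z2 W N L J, Vis t (St 0 M) (x, 0) b c.1 c.2 L := by
      intro V hV hV'
      obtain ⟨u, hu, hu1⟩ := exists_col α (W := V) hV'
      have hu2 := mem_St.1 (hα u hu)
      have h1 := pR_through ht α (fun z hz => hsub (hα z hz)) hu
      have huR := hsub (hα u hu)
      have h2 := pR_triangle ht (hRc _ huR _ hwR) (hRc _ hwR _ hb)
      have h3 : pR t (St 0 M) (x, 0) u + pR t (St 0 M) u b ≤ pR t (St 0 M) (x, 0) b + 2 := by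
        linarith
      have e2 := Int.emod_add_mul_ediv u.2 L
      have e3 := Int.emod_nonneg u.2 hL'.ne'
      have e4 := Int.emod_lt_of_pos u.2 hL'
      have e5 : 0 ≤ u.2 / L := Int.ediv_nonneg hu2.1 hL'.le
      obtain ⟨j, hj⟩ := Int.eq_ofNat_of_zero_le e5
      obtain ⟨i, hi⟩ := Int.eq_ofNat_of_zero_le e3
      rw [hj, hi] at e2
      rw [hi] at e4
      have hjJ : j ≤ J := by
        by_contra hcon
        have : (J : ℤ) + 1 ≤ j := by exact_mod_cast (by omega : J + 1 ≤ j)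
        have h7 := mul_le_mul_of_nonneg_left this hL'.le
        have h8 : (L : ℤ) * J = J * L := mul_comm _ _
        rw [mul_add] at h7
        omega
      have hjN : ((j * L : ℕ) : ℤ) ≤ N := by
        push_cast
        have : (L : ℤ) * j = j * L := mul_comm _ _
        omega
      refine ⟨((V, j * L), (0, 1)), ?_, i, by omega, ?_⟩
      · simp only [cells, Finset.mem_union, Finset.mem_image, Finset.mem_filter,
          Finset.mem_range]
        rcases hV with rfl | rfl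
        · exact Or.inr (Or.inl ⟨j, ⟨by omega, hjN⟩, rfl⟩)
        · exact Or.inr (Or.inr ⟨j, ⟨by omega, hjN⟩, rfl⟩)
      · have e6 : ((V, j * L) : ℤ × ℤ) + i • ((0, 1) : ℤ × ℤ) = u := by
          have : (L : ℤ) * j = j * L := mul_comm _ _
          ext
          · simp only [Prod.fst_add, Prod.smul_mk, smul_zero, add_zero]
            omega
          · simp only [Prod.snd_add, Prod.smul_mk, nsmul_eq_mul, mul_one]
            omega
        simp only
        rw [e6]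
        exact h3
    rcases lt_or_ge W w with hWw | hWw
    · exact key W (Or.inl rfl) (Or.inl ⟨hxa.2, hWw.le⟩)
    · have : w < -W := by
        by_contra hcon
        exact hwW (abs_le.2 ⟨by omega, hWw⟩)
      exact key (-W) (Or.inr rfl) (Or.inr ⟨this.le, hxa.1⟩)

end Crest.Agent.R151.BUS
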