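import Crest.Agent.R151.B469d

/-!
# R151, block BUS (helper469), part e: Cesàro bounds for the mean defect
-/

set_option autoImplicit false
set_option linter.unusedSectionVars false

open MeasureTheory Filter ProbabilityTheory
open Crest.ProbabilityR.FirstPassage
open Crest.Agent.R151.K

namespace Crest.Agent.R151.BUS

/-! ### Cesàro limsup -/

/-- the Cesàro limsup of `a` is at most `δ` -/
def CL (a : ℕ → ℝ) (δ : ℝ) : Prop :=
  ∀ ε > 0, ∃ J0 : ℕ, ∀ J ≥ J0, ∑ M ∈ Finset.range J, a M ≤ (δ + ε) * J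

namespace CL

variable {a b : ℕ → ℝ} {δ δ' : ℝ}

lemma add (ha : CL a δ) (hb : CL b δ') : CL (fun M => a M + b M) (δ + δ') := by
  intro ε hε
  obtain ⟨J1, h1⟩ := ha (ε / 2) (half_pos hε)
  obtain ⟨J2, h2⟩ := hb (ε / 2) (half_pos hε)
  refine ⟨max J1 J2, fun J hJ => ?_⟩
  rw [Finset.sum_add_distrib]
  have e1 := h1 J ((le_max_left _ _).trans hJ)
  have e2 := h2 J ((le_max_right _ _).trans hJ)
  calc _ ≤ (δ + ε / 2) * J + (δ' + ε / 2) * J := add_le_add e1 e2
    _ = _ := by ring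

lemma const_mul (ha : CL a δ) {c : ℝ} (hc : 0 ≤ c) : CL (fun M => c * a M) (c * δ) := by
  intro ε hε
  obtain ⟨J1, h1⟩ := ha (ε / (c + 1)) (by positivity)
  refine ⟨J1, fun J hJ => ?_⟩
  rw [← Finset.mul_sum]
  refine (mul_le_mul_of_nonneg_left (h1 J hJ) hc).trans ?_
  rw [← mul_assoc]
  refine mul_le_mul_of_nonneg_right ?_ (Nat.cast_nonneg J)
  rw [mul_add]
  have : c * (ε / (c + 1)) ≤ ε := by
    rw [mul_div_assoc', div_le_iff₀ (by positivity)]
    nlinarith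
  linarith

lemma mono (ha : CL a δ) (h : ∃ M0, ∀ M ≥ M0, b M ≤ a M) : CL b δ := by
  obtain ⟨M0, hM0⟩ := h
  intro ε hε
  obtain ⟨J1, h1⟩ := ha (ε / 2) (half_pos hε)
  set K : ℝ := ∑ M ∈ Finset.range M0, |b M - a M| with hK
  obtain ⟨J2, h2⟩ := exists_nat_ge (K / (ε / 2))
  refine ⟨max J1 J2, fun J hJ => ?_⟩
  have e1 := h1 J ((le_max_left _ _).trans hJ)
  have e3 : ∑ M ∈ Finset.range J, (b M - a M) ≤ K := by
    have : ∀ J : ℕ, ∑ M ∈ Finset.range J, (b M - a M) ≤ K := by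
      intro J
      have h3 : ∑ M ∈ Finset.range J, (b M - a M) ≤
          ∑ M ∈ (Finset.range J).filter (fun M => M < M0), (b M - a M) := by
        rw [← Finset.sum_filter_add_sum_filter_not (Finset.range J) (fun M => M < M0)]
        have : ∑ M ∈ (Finset.range J).filter (fun M => ¬ M < M0), (b M - a M) ≤ 0 := by
          refine Finset.sum_nonpos fun M hM => ?_
          rw [Finset.mem_filter] at hM
          linarith [hM0 M (not_lt.1 hM.2)]
        linarith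
      refine h3.trans ?_
      refine (Finset.sum_le_sum fun M _ => le_abs_self (b M - a M)).trans ?_
      refine Finset.sum_le_sum_of_subset_of_nonneg ?_ fun _ _ _ => abs_nonneg _
      intro M hM
      rw [Finset.mem_filter] at hM
      rw [Finset.mem_range]
      exact hM.2
    exact this J
  rw [Finset.sum_sub_distrib] at e3
  have e4 : K ≤ ε / 2 * J := by
    have h5 : (J2 : ℝ) ≤ J := by exact_mod_cast (le_max_right _ _).trans hJ
    have := h2.trans h5
    rwa [div_le_iff₀ (half_pos hε), mul_comm] at this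
  calc _ ≤ (δ + ε / 2) * J + ε / 2 * J := by linarith
    _ = _ := by ring

lemma of_const (c : ℝ) : CL (fun _ => c) c := by
  intro ε hε
  refine ⟨0, fun J _ => ?_⟩
  rw [Finset.sum_const, Finset.card_range, nsmul_eq_mul]
  have : 0 ≤ ε * J := by positivity
  linarith

lemma weaken (ha : CL a δ) (h : δ ≤ δ') : CL a δ' := by
  intro ε hε
  obtain ⟨J1, h1⟩ := ha ε hε
  refine ⟨J1, fun J hJ => (h1 J hJ).trans ?_⟩
  gcongr

lemma sum {ι : Type*} (S : Finset ι) {a : ι → ℕ → ℝ} {δ : ι → ℝ}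
    (h : ∀ i ∈ S, CL (a i) (δ i)) : CL (fun M => ∑ i ∈ S, a i M) (∑ i ∈ S, δ i) := by
  classical
  induction S using Finset.induction_on with
  | empty => simpa using of_const 0
  | insert i S hi ih =>
    have h1 := h i (Finset.mem_insert_self _ _)
    have h2 := ih fun j hj => h j (Finset.mem_insert_of_mem hj)
    simp only [Finset.sum_insert hi]
    exact h1.add h2

/-- a good index, arbitrarily large -/
lemma exists_le (ha : CL a δ) {ε : ℝ} (hε : 0 < ε) (M0 : ℕ) : ∃ M ≥ M0, a M ≤ δ + ε := by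
  by_contra hcon
  push Not at hcon
  have h1 : CL (fun _ => δ + ε) δ := ha.mono ⟨M0, fun M hM => (hcon M hM).le⟩
  obtain ⟨J0, h2⟩ := h1 (ε / 2) (half_pos hε)
  have h3 := h2 (J0 + 1) (Nat.le_succ _)
  rw [Finset.sum_const, Finset.card_range, nsmul_eq_mul] at h3
  have h4 : (0 : ℝ) < ((J0 + 1 : ℕ) : ℝ) := by positivity
  nlinarith

/-- telescoping -/
lemma telescope {A : ℕ → ℝ} {φ C : ℝ} (hφ : 0 ≤ φ) {M0 : ℕ} (h : ∀ M ≥ M0, φ * M - C ≤ A M)
    (N : ℕ) : CL (fun M => A (M - N) - A M) (-(N * φ)) := by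
  intro ε hε
  set K : ℝ := N * |A 0| + N * |C| + N * (N * φ) with hK
  obtain ⟨J2, h2⟩ := exists_nat_ge (K / ε)
  refine ⟨M0 + N + J2, fun J hJ => ?_⟩
  obtain ⟨J', rfl⟩ : ∃ J', J = J' + N := ⟨J - N, by omega⟩
  have e1 : ∑ M ∈ Finset.range (J' + N), A (M - N) =
      N * A 0 + ∑ x ∈ Finset.range J', A x := by
    rw [add_comm J' N, Finset.sum_range_add]
    congr 1
    · rw [Finset.sum_congr rfl (g := fun _ => A 0), Finset.sum_const, Finset.card_range,
        nsmul_eq_mul]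
      intro x hx
      rw [Finset.mem_range] at hx
      rw [show x - N = 0 by omega]
    · refine Finset.sum_congr rfl fun x _ => ?_
      rw [show N + x - N = x by omega]
  have e2 : ∑ M ∈ Finset.range (J' + N), A M = ∑ x ∈ Finset.range J', A x +
      ∑ x ∈ Finset.range N, A (J' + x) := Finset.sum_range_add _ _ _
  have e3 : N * (φ * J' - C) ≤ ∑ x ∈ Finset.range N, A (J' + x) := by
    have : ∑ x ∈ Finset.range N, (φ * J' - C) ≤ ∑ x ∈ Finset.range N, A (J' + x) := by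
      refine Finset.sum_le_sum fun x _ => ?_
      refine le_trans ?_ (h (J' + x) (by omega))
      push_cast
      have : 0 ≤ φ * x := by positivity
      linarith
    rwa [Finset.sum_const, Finset.card_range, nsmul_eq_mul] at this
  rw [Finset.sum_sub_distrib, e1, e2]
  have h3 : K ≤ ε * (J' + N : ℕ) := by
    have h5 : (J2 : ℝ) ≤ (J' + N : ℕ) := by exact_mod_cast (by omega : J2 ≤ J' + N)
    have := h2.trans h5
    rwa [div_le_iff₀ hε, mul_comm] at this
  have h4 : (N : ℝ) * A 0 ≤ N * |A 0| := by gcongr; exact le_abs_self _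
  have h5 : (N : ℝ) * C ≤ N * |C| := by gcongr; exact le_abs_self _
  have h6 : (-(N * φ) + ε) * ((J' + N : ℕ) : ℝ) =
      ε * (J' + N : ℕ) - N * (φ * J') - N * (N * φ) := by push_cast; ring
  rw [h6]
  have h7 : (N : ℝ) * (φ * J' - C) = N * (φ * J') - N * C := by ring
  linarith

end CL

/-! ### the mean defect -/

/-- the far target -/
noncomputable def tgt (s : ℝ) (k : ℤ) (M : ℕ) : ℤ × ℤ := (⌊s * M⌋ + k, M)

/-- the shift -/
noncomputable def vN (s : ℝ) (N : ℕ) : ℤ × ℤ := (⌊s * N⌋, N)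

lemma tgt_mem (s : ℝ) (k : ℤ) (M : ℕ) : tgt s k M ∈ St 0 M := by
  rw [mem_St]; simp [tgt]

variable {G : Measure ℝ} [IsProbabilityMeasure G] {m : ℝ} {μ : ℝ × ℝ → ℝ}

/-- mean time from `c` to the far target -/
noncomputable def A (G : Measure ℝ) (s : ℝ) (k : ℤ) (c : ℤ × ℤ) (M : ℕ) : ℝ :=
  ∫ t, pR t (St 0 M) c (tgt s k M) ∂(iidLaw G)

lemma floor_sub_near (s : ℝ) {M N : ℕ} (h : N ≤ M) (k : ℤ) :
    n1 (tgt s k M - vN s N - tgt s k (M - N)) ≤ 1 := by
  have h1 := Int.floor_le (s * M)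
  have h2 := Int.lt_floor_add_one (s * M)
  have h3 := Int.floor_le (s * N)
  have h4 := Int.lt_floor_add_one (s * N)
  have h5 := Int.floor_le (s * (M - N : ℕ))
  have h6 := Int.lt_floor_add_one (s * (M - N : ℕ))
  have h7 : ((M - N : ℕ) : ℝ) = M - N := by rw [Nat.cast_sub h]
  rw [h7] at h5 h6
  have e1 : (-1 : ℝ) < ⌊s * M⌋ - ⌊s * N⌋ - ⌊s * ((M : ℝ) - N)⌋ := by linarith
  have e2 : ((⌊s * M⌋ - ⌊s * N⌋ - ⌊s * ((M : ℝ) - N)⌋ : ℤ) : ℝ) < 2 := by
    push_cast; linarith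
  have e1' : (-1 : ℤ) < ⌊s * M⌋ - ⌊s * N⌋ - ⌊s * ((M : ℝ) - N)⌋ := by exact_mod_cast e1
  have e2' : ⌊s * M⌋ - ⌊s * N⌋ - ⌊s * ((M : ℝ) - N)⌋ < (2 : ℤ) := by exact_mod_cast e2
  simp only [n1, tgt, vN, Prod.fst_sub, Prod.snd_sub, h7]
  have : (((M - N : ℕ) : ℕ) : ℤ) = (M : ℤ) - N := by rw [Nat.cast_sub h]
  rw [this]
  omega

namespace Inp

variable (H : Inp G m μ)
include H

lemma phi_nonneg (s : ℝ) : 0 ≤ μ (s, 1) := H.mom.mu_nonneg H.tc _

lemma A_ge (s : ℝ) (k : ℤ) {c : ℤ × ℤ} {M : ℕ} (hM : 2 ≤ M) (hc : c ∈ St 0 M) :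
    μ (s, 1) * M - m * (|(k : ℝ)| + 1 + n1 c) ≤ A G s k c M := by
  have h1 := H.mom.mu_le_ET H.tc (tgt s k M - c)
  have h2 : ET G (tgt s k M - c) = ∫ t, passageTime t c (tgt s k M) ∂(iidLaw G) := by
    rw [integral_pt]
  have h3 : ∫ t, passageTime t c (tgt s k M) ∂(iidLaw G) ≤ A G s k c M := by
    refine integral_mono_ae (H.mom.int _ _)
      ((H.regMom (by omega)).int _ hc _ (tgt_mem s k M)) ?_
    filter_upwards [H.nn] with t ht
    exact pt_le_pR ht (conn_St hc (tgt_mem s k M))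
  have h4 : |μ (toR (tgt s k M - c)) - μ (s * M, M)| ≤ m * (|(k : ℝ)| + 1 + n1 c) := by
    refine (H.mom.abs_mu_sub_le H.tc _ _).trans ?_
    refine mul_le_mul_of_nonneg_left ?_ H.mom.nonneg
    simp only [l1, toR, tgt, Prod.fst_sub, Prod.snd_sub, n1]
    push_cast
    have f1 := Int.floor_le (s * M)
    have f2 := Int.lt_floor_add_one (s * M)
    have e1 : |(⌊s * M⌋ : ℝ) + k - c.1 - s * M| ≤ 1 + |(k : ℝ)| + |(c.1 : ℝ)| := by
      have := neg_abs_le (k : ℝ)
      have := le_abs_self (k : ℝ)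
      have := neg_abs_le (c.1 : ℝ)
      have := le_abs_self (c.1 : ℝ)
      rw [abs_le]
      constructor <;> linarith
    have e2 : |(M : ℝ) - c.2 - M| = |(c.2 : ℝ)| := by
      rw [show (M : ℝ) - c.2 - M = -c.2 by ring, abs_neg]
    rw [e2, Nat.cast_natAbs, Nat.cast_natAbs]
    push_cast
    linarith
  have h5 : μ (s * M, M) = μ (s, 1) * M := by
    have := H.mom.mu_smul H.tc (Nat.cast_nonneg M) (s, 1)
    rw [mul_comm (μ (s, 1)), ← this]
    congr 1
    ext <;> simp [mul_comm]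
  rw [abs_le, h5] at h4
  linarith

/-- the mean time of one step of length `N` -/
lemma step_le (s : ℝ) {c : ℤ × ℤ} {M N : ℕ} (hN : 2 ≤ N) (hc : 0 ≤ c.2)
    (hM : c.2 + N ≤ M) :
    ∫ t, pR t (St 0 M) c (c + vN s N) ∂(iidLaw G) ≤ Phi G N ⌊s * N⌋ := by
  have h1 := integral_pR_act (G := G) (tr c) (St c.2 (c.2 + N)) (0, 0) (vN s N)
  have h2 : (⇑(tr c) ⁻¹' St c.2 (c.2 + N) : Set (ℤ × ℤ)) = St 0 N := by
    have := preimage_St c.2 (c.2 + N) c.1 c.2
    rw [sub_self, add_sub_cancel_left] at this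
    exact this
  rw [h2] at h1
  simp only [tr_apply] at h1
  have h3 : ((0, 0) : ℤ × ℤ) + c = c := zero_add c
  rw [h3, add_comm (vN s N) c] at h1
  have h4 : Phi G N ⌊s * N⌋ = ∫ t, pR t (St c.2 (c.2 + N)) c (c + vN s N) ∂(iidLaw G) := h1
  rw [h4]
  have m1 : c ∈ St c.2 (c.2 + N) := by rw [mem_St]; omega
  have m2 : c + vN s N ∈ St c.2 (c.2 + N) := by
    rw [mem_St]
    simp only [vN, Prod.snd_add]
    omega
  have hsub : St c.2 (c.2 + N) ⊆ St 0 M := St_subset hc hM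
  refine integral_mono_ae ((H.regMom (by omega)).int _ (hsub m1) _ (hsub m2))
    ((H.regMom (by omega)).int _ m1 _ m2) ?_
  filter_upwards [H.nn] with t ht
  exact pR_anti ht hsub (conn_St m1 m2)

/-- after a step of length `N` -/
lemma after_le (s : ℝ) (k : ℤ) {c : ℤ × ℤ} {M N : ℕ} (hc : 0 ≤ c.2)
    (hM : c.2 + N ≤ M) (hMN : N + 2 ≤ M) :
    ∫ t, pR t (St 0 M) (c + vN s N) (tgt s k M) ∂(iidLaw G) ≤ A G s k c (M - N) + cM G := by
  have m1 : c + vN s N ∈ St N M := by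
    rw [mem_St]
    simp only [vN, Prod.snd_add]
    omega
  have m2 : tgt s k M ∈ St N M := by
    rw [mem_St]
    simp only [tgt]
    omega
  have hsub : St N M ⊆ St 0 M := St_subset (by omega) le_rfl
  have hMN' : ((M - N : ℕ) : ℤ) = (M : ℤ) - N := by rw [Nat.cast_sub (by omega)]
  have h1 : ∫ t, pR t (St 0 M) (c + vN s N) (tgt s k M) ∂(iidLaw G) ≤
      ∫ t, pR t (St N M) (c + vN s N) (tgt s k M) ∂(iidLaw G) := by
    refine integral_mono_ae ((H.regMom (by omega)).int _ (hsub m1) _ (hsub m2))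
      ((H.regMom (by omega)).int _ m1 _ m2) ?_
    filter_upwards [H.nn] with t ht
    exact pR_anti ht hsub (conn_St m1 m2)
  have h2 := integral_pR_act (G := G) (tr (vN s N)) (St N M) c (tgt s k M - vN s N)
  have h3 : (⇑(tr (vN s N)) ⁻¹' St N M : Set (ℤ × ℤ)) = St 0 (M - N : ℕ) := by
    have := preimage_St N M (vN s N).1 (vN s N).2
    rw [show (N : ℤ) - (vN s N).2 = 0 by simp [vN], show (M : ℤ) - (vN s N).2 = (M - N : ℕ) by
      rw [hMN']; rfl] at this
    exact this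
  rw [h3] at h2
  simp only [tr_apply, sub_add_cancel] at h2
  rw [← h2] at h1
  refine h1.trans ?_
  have hR := H.regMom (a := 0) (b := (M - N : ℕ)) (by omega)
  have m3 : c ∈ St 0 (M - N : ℕ) := by rw [mem_St]; omega
  have m4 : tgt s k M - vN s N ∈ St 0 (M - N : ℕ) := by
    rw [mem_St]
    simp only [tgt, vN, Prod.snd_sub]
    omega
  have m5 := tgt_mem s k (M - N)
  have h4 : ∫ t, pR t (St 0 (M - N : ℕ)) c (tgt s k M - vN s N) ∂(iidLaw G) ≤
      ∫ t, (pR t (St 0 (M - N : ℕ)) c (tgt s k (M - N)) +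
        pR t (St 0 (M - N : ℕ)) (tgt s k (M - N)) (tgt s k M - vN s N)) ∂(iidLaw G) := by
    refine integral_mono_ae (hR.int _ m3 _ m4) ((hR.int _ m3 _ m5).add (hR.int _ m5 _ m4)) ?_
    filter_upwards [H.nn] with t ht
    exact pR_triangle ht (conn_St m3 m5) (conn_St m5 m4)
  rw [integral_add (hR.int _ m3 _ m5) (hR.int _ m5 _ m4)] at h4
  have h5 := hR.le _ m5 _ m4
  have h6 : (n1 (tgt s k M - vN s N - tgt s k (M - N)) : ℝ) ≤ 1 := by
    exact_mod_cast floor_sub_near s (by omega) k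
  have h7 := mul_le_mul_of_nonneg_left h6 (cM_nonneg G)
  unfold A
  linarith

lemma int_defect (s : ℝ) (k : ℤ) {c : ℤ × ℤ} {M N : ℕ} (hM2 : 2 ≤ M) (hc : 0 ≤ c.2)
    (hM : c.2 + N ≤ M) :
    Integrable (fun t => defect t (St 0 M) c (vN s N) (tgt s k M)) (iidLaw G) := by
  have hR := H.regMom (a := 0) (b := M) (by omega)
  have m1 : c ∈ St 0 M := by rw [mem_St]; omega
  have m2 : c + vN s N ∈ St 0 M := by
    rw [mem_St]; simp only [vN, Prod.snd_add]; omega
  have m3 := tgt_mem s k M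
  exact ((hR.int _ m1 _ m2).add (hR.int _ m2 _ m3)).sub (hR.int _ m1 _ m3)

/-- **Cesàro bound of the mean defect** -/
theorem defect_CL (s : ℝ) (k : ℤ) {c : ℤ × ℤ} {N : ℕ} (hN : 2 ≤ N) (hc : 0 ≤ c.2) :
    CL (fun M => ∫ t, defect t (St 0 M) c (vN s N) (tgt s k M) ∂(iidLaw G))
      (Phi G N ⌊s * N⌋ - N * μ (s, 1) + cM G) := by
  obtain ⟨y, hy⟩ := Int.eq_ofNat_of_zero_le hc
  have h1 : CL (fun M => A G s k c (M - N) - A G s k c M) (-(N * μ (s, 1))) := by
    refine CL.telescope (H.phi_nonneg s) (C := m * (|(k : ℝ)| + 1 + n1 c)) (M0 := y + 2)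
      (fun M hM => H.A_ge s k (by omega) ?_) N
    rw [mem_St]
    omega
  have h2 := (CL.of_const (Phi G N ⌊s * N⌋ + cM G)).add h1
  refine (h2.weaken (le_of_eq (by ring))).mono ⟨y + N + 2, fun M hM => ?_⟩
  have hcM : c.2 + N ≤ M := by omega
  have hR := H.regMom (a := 0) (b := M) (by omega)
  have m1 : c ∈ St 0 M := by rw [mem_St]; omega
  have m2 : c + vN s N ∈ St 0 M := by
    rw [mem_St]; simp only [vN, Prod.snd_add]; omega
  have m3 := tgt_mem s k M
  have e1 : ∫ t, defect t (St 0 M) c (vN s N) (tgt s k M) ∂(iidLaw G) =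
      ∫ t, pR t (St 0 M) c (c + vN s N) ∂(iidLaw G) +
      ∫ t, pR t (St 0 M) (c + vN s N) (tgt s k M) ∂(iidLaw G) - A G s k c M := by
    unfold defect A
    rw [integral_sub _ (hR.int _ m1 _ m3), integral_add (hR.int _ m1 _ m2) (hR.int _ m2 _ m3)]
    exact (hR.int _ m1 _ m2).add (hR.int _ m2 _ m3)
  have e2 := H.step_le s hN hc hcM
  have e3 := H.after_le s k hc hcM (by omega)
  linarith

end Inp

end Crest.Agent.R151.BUS
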