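import Crest.Agent.R151.B469e

/-!
# R151, block BUS (helper469), part f: localisation of the first visit
-/

set_option autoImplicit false
set_option linter.unusedSectionVars false

open MeasureTheory Filter ProbabilityTheory
open Crest.ProbabilityR.FirstPassage
open Crest.Agent.R151.K

namespace Crest.Agent.R151.BUS

variable {G : Measure ℝ} [IsProbabilityMeasure G] {m : ℝ} {μ : ℝ × ℝ → ℝ}

/-- some near-optimal first visit of the line `N` is outside `(s1 N, s2 N)` -/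
def Off (s1 s2 s : ℝ) (k : ℤ) (N M : ℕ) (x : ℤ) : Set Environment :=
  {t | ∃ w : ℤ, ((w : ℝ) ≤ s1 * N ∨ s2 * N ≤ w) ∧
    f t N w x + pR t (St 0 M) (w, N) (tgt s k M) ≤ pR t (St 0 M) (x, 0) (tgt s k M) + 1}

lemma measurableSet_Off (s1 s2 s : ℝ) (k : ℤ) (N M : ℕ) (x : ℤ) :
    MeasurableSet (Off s1 s2 s k N M x) := by
  have : Off s1 s2 s k N M x = ⋃ w : {w : ℤ // (w : ℝ) ≤ s1 * N ∨ s2 * N ≤ w},
      {t | f t N w x + pR t (St 0 M) (w, N) (tgt s k M) ≤
        pR t (St 0 M) (x, 0) (tgt s k M) + 1} := by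
    ext t
    simp only [Off, Set.mem_ofPred_eq, Set.mem_iUnion, Subtype.exists, exists_prop]
  rw [this]
  refine MeasurableSet.iUnion fun w => ?_
  exact measurableSet_le ((measurable_f _ _ _).add (measurable_pR _ _ _))
    ((measurable_pR _ _ _).add_const _)

lemma measurableSet_Vis (R : Set (ℤ × ℤ)) (x b c e : ℤ × ℤ) (L : ℕ) :
    MeasurableSet {t | Vis t R x b c e L} := by
  have : {t | Vis t R x b c e L} = ⋃ i ∈ Finset.range (L + 1),
      {t | pR t R x (c + i • e) + pR t R (c + i • e) b ≤ pR t R x b + 2} := by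
    ext t
    simp only [Vis, Set.mem_ofPred_eq, Set.mem_iUnion, Finset.mem_range, Nat.lt_succ_iff,
      exists_prop]
  rw [this]
  refine Finset.measurableSet_biUnion _ fun i _ => ?_
  exact measurableSet_le ((measurable_pR _ _ _).add (measurable_pR _ _ _))
    ((measurable_pR _ _ _).add_const _)

/-- the dominating variable of a cell -/
noncomputable def Zc (μ : ℝ × ℝ → ℝ) (t : Environment) (R : Set (ℤ × ℤ)) (n : ℕ) (x b c e v : ℤ × ℤ)
    (L : ℕ) (a : ℝ) : ℝ :=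
  (3 * dev μ n t + (pR t R x (c + v) - passageTime t x (c + v))) + (defect t R c v b +
    2 * ∑ i ∈ Finset.range L, pR t R (c + i • e) (c + (i + 1) • e) ^ (5 / 4 : ℝ) / a ^ (1 / 4 : ℝ))

lemma lenC_le (t : Environment) (ht : Nn t) (R : Set (ℤ × ℤ)) (c e : ℤ × ℤ) (L : ℕ) {a : ℝ}
    (ha : 0 < a) : lenC t R c e L ≤ a * L +
      ∑ i ∈ Finset.range L, pR t R (c + i • e) (c + (i + 1) • e) ^ (5 / 4 : ℝ) /
        a ^ (1 / 4 : ℝ) := by
  unfold lenC
  have h : ∑ i ∈ Finset.range L, pR t R (c + i • e) (c + (i + 1) • e) ≤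
      ∑ i ∈ Finset.range L, (a + pR t R (c + i • e) (c + (i + 1) • e) ^ (5 / 4 : ℝ) /
        a ^ (1 / 4 : ℝ)) :=
    Finset.sum_le_sum fun i _ => rpow_tail (pR_nonneg ht _ _ _) ha
  rw [Finset.sum_add_distrib, Finset.sum_const, Finset.card_range, nsmul_eq_mul, mul_comm] at h
  exact h

/-- on a visited cell the dominating variable is large -/
lemma Vis.le_Zc {t : Environment} (ht : Nn t) {R : Set (ℤ × ℤ)}
    (hRc : ∀ x ∈ R, ∀ y ∈ R, Conn R x y) {x b c e v : ℤ × ℤ} {L n : ℕ} (hx : x ∈ R) (hb : b ∈ R)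
    (hcv : c + v ∈ R) (hc : ∀ i ≤ L, c + i • e ∈ R) (hxn : x ∈ box n) (hcn : c ∈ box n)
    (hcvn : c + v ∈ box n) {a : ℝ} (ha : 0 < a) (h : Vis t R x b c e L) :
    μ (toR (c - x)) + μ (toR v) - μ (toR (c + v - x)) - 2 - 2 * (a * L) ≤
      Zc μ t R n x b c e v L a := by
  have h1 := h.le_defect ht hRc hx hb hcv hc
  have h2 := lenC_le t ht R c e L ha
  have h3 := le_dev μ t hxn hcn
  have h4 := le_dev μ t hcn hcvn
  have h5 := le_dev μ t hxn hcvn
  rw [abs_le] at h3 h4 h5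
  rw [show c + v - c = v by abel] at h4
  unfold Zc
  linarith

lemma Zc_nonneg (μ : ℝ × ℝ → ℝ) {t : Environment} (ht : Nn t) {R : Set (ℤ × ℤ)}
    (hRc : ∀ x ∈ R, ∀ y ∈ R, Conn R x y) {x b c e v : ℤ × ℤ} {L n : ℕ} (hx : x ∈ R) (hb : b ∈ R)
    (hcv : c + v ∈ R) (hc : c ∈ R) {a : ℝ} (ha : 0 < a) : 0 ≤ Zc μ t R n x b c e v L a := by
  have h1 := dev_nonneg μ n t
  have h2 := pt_le_pR ht (hRc _ hx _ hcv)
  have h3 := defect_nonneg ht hRc hc hcv hb
  have h4 : 0 ≤ ∑ i ∈ Finset.range L, pR t R (c + i • e) (c + (i + 1) • e) ^ (5 / 4 : ℝ) /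
        a ^ (1 / 4 : ℝ) := Finset.sum_nonneg fun i _ => by
    have := pR_nonneg ht R (c + i • e) (c + (i + 1) • e)
    positivity
  unfold Zc
  linarith

namespace Inp

variable (H : Inp G m μ)
include H

/-- mean of the dominating variable -/
lemma int_Zc {R : Set (ℤ × ℤ)} (hR : RegMom G R (cM G)) {x b c e v : ℤ × ℤ} {L n : ℕ}
    (hx : x ∈ R) (hb : b ∈ R) (hcv : c + v ∈ R) (hc : ∀ i ≤ L, c + i • e ∈ R)
    (he : n1 e = 1) {a : ℝ} (ha : 0 < a) (hdev : Integrable (dev μ n) (iidLaw G)) :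
    Integrable (fun t => Zc μ t R n x b c e v L a) (iidLaw G) ∧
    ∫ t, Zc μ t R n x b c e v L a ∂(iidLaw G) ≤
      (3 * ∫ t, dev μ n t ∂(iidLaw G) + (∫ t, pR t R x (c + v) ∂(iidLaw G) -
        μ (toR (c + v - x)))) + (∫ t, defect t R c v b ∂(iidLaw G) +
        2 * (L * (cM G ^ (5 / 4 : ℝ) / a ^ (1 / 4 : ℝ)))) := by
  have hc0 : c ∈ R := by simpa using hc 0 (Nat.zero_le _)
  have i1 : Integrable (fun t => 3 * dev μ n t) (iidLaw G) := hdev.const_mul 3
  have i2 : Integrable (fun t => pR t R x (c + v) - passageTime t x (c + v)) (iidLaw G) :=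
    (hR.int _ hx _ hcv).sub (H.mom.int _ _)
  have i3 : Integrable (fun t => defect t R c v b) (iidLaw G) :=
    ((hR.int _ hc0 _ hcv).add (hR.int _ hcv _ hb)).sub (hR.int _ hc0 _ hb)
  have i4 : ∀ i ∈ Finset.range L, Integrable (fun t => pR t R (c + i • e) (c + (i + 1) • e) ^
      (5 / 4 : ℝ) / a ^ (1 / 4 : ℝ)) (iidLaw G) := by
    intro i hi
    rw [Finset.mem_range] at hi
    exact (hR.pint _ (hc i (by omega)) _ (hc (i + 1) (by omega))).div_const _
  have i5 : Integrable (fun t => 2 * ∑ i ∈ Finset.range L, pR t R (c + i • e) (c + (i + 1) • e) ^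
      (5 / 4 : ℝ) / a ^ (1 / 4 : ℝ)) (iidLaw G) := (integrable_finsetSum _ i4).const_mul 2
  have hI : Integrable (fun t => Zc μ t R n x b c e v L a) (iidLaw G) :=
    (i1.add i2).add (i3.add i5)
  refine ⟨hI, ?_⟩
  have e1 : ∫ t, Zc μ t R n x b c e v L a ∂(iidLaw G) =
      (∫ t, 3 * dev μ n t ∂(iidLaw G) +
        ∫ t, (pR t R x (c + v) - passageTime t x (c + v)) ∂(iidLaw G)) +
      (∫ t, defect t R c v b ∂(iidLaw G) +
        ∫ t, 2 * ∑ i ∈ Finset.range L, pR t R (c + i • e) (c + (i + 1) • e) ^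
      (5 / 4 : ℝ) / a ^ (1 / 4 : ℝ) ∂(iidLaw G)) := by
    have i12 : Integrable (fun t => 3 * dev μ n t +
        (pR t R x (c + v) - passageTime t x (c + v))) (iidLaw G) := i1.add i2
    have i35 : Integrable (fun t => defect t R c v b + 2 * ∑ i ∈ Finset.range L,
        pR t R (c + i • e) (c + (i + 1) • e) ^ (5 / 4 : ℝ) / a ^ (1 / 4 : ℝ)) (iidLaw G) :=
      i3.add i5
    rw [← integral_add i3 i5, ← integral_add i1 i2, ← integral_add i12 i35]
    rfl
  rw [e1, integral_const_mul, integral_sub (hR.int _ hx _ hcv) (H.mom.int _ _),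
    integral_const_mul, integral_finsetSum _ i4]
  have e2 : μ (toR (c + v - x)) ≤ ∫ t, passageTime t x (c + v) ∂(iidLaw G) := by
    rw [integral_pt]
    exact H.mom.mu_le_ET H.tc _
  have e3 : ∑ i ∈ Finset.range L, ∫ t, pR t R (c + i • e) (c + (i + 1) • e) ^
      (5 / 4 : ℝ) / a ^ (1 / 4 : ℝ) ∂(iidLaw G) ≤
      L * (cM G ^ (5 / 4 : ℝ) / a ^ (1 / 4 : ℝ)) := by
    have : ∀ i ∈ Finset.range L, ∫ t, pR t R (c + i • e) (c + (i + 1) • e) ^
      (5 / 4 : ℝ) / a ^ (1 / 4 : ℝ) ∂(iidLaw G) ≤ cM G ^ (5 / 4 : ℝ) / a ^ (1 / 4 : ℝ) := by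
      intro i hi
      rw [Finset.mem_range] at hi
      rw [integral_div]
      have h1 := hR.ple _ (hc i (by omega)) _ (hc (i + 1) (by omega))
      have h2 : n1 (c + (i + 1) • e - (c + i • e)) = 1 := by
        rw [show c + (i + 1) • e - (c + i • e) = e by rw [succ_nsmul]; abel, he]
      rw [h2, Nat.cast_one, mul_one] at h1
      gcongr
    refine (Finset.sum_le_sum this).trans_eq ?_
    rw [Finset.sum_const, Finset.card_range, nsmul_eq_mul]
  linarith

/-- **probability of a visit**, one cell -/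
lemma prob_Vis_le {R : Set (ℤ × ℤ)} (hR : RegMom G R (cM G)) {x b c e v : ℤ × ℤ} {L n : ℕ}
    (hx : x ∈ R) (hb : b ∈ R) (hcv : c + v ∈ R) (hc : ∀ i ≤ L, c + i • e ∈ R)
    (he : n1 e = 1) {a : ℝ} (ha : 0 < a) (hdev : Integrable (dev μ n) (iidLaw G))
    (hxn : x ∈ box n) (hcn : c ∈ box n) (hcvn : c + v ∈ box n) {θ : ℝ} (hθ : 0 < θ)
    (hex : θ ≤ μ (toR (c - x)) + μ (toR v) - μ (toR (c + v - x)) - 2 - 2 * (a * L)) :
    (iidLaw G).real {t | Vis t R x b c e L} ≤ θ⁻¹ *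
      ((3 * ∫ t, dev μ n t ∂(iidLaw G) + (∫ t, pR t R x (c + v) ∂(iidLaw G) -
        μ (toR (c + v - x)))) + (∫ t, defect t R c v b ∂(iidLaw G) +
        2 * (L * (cM G ^ (5 / 4 : ℝ) / a ^ (1 / 4 : ℝ))))) := by
  obtain ⟨hI, hle⟩ := H.int_Zc hR hx hb hcv hc he ha hdev
  have hc0 : c ∈ R := by simpa using hc 0 (Nat.zero_le _)
  have h1 : (iidLaw G).real {t | Vis t R x b c e L} ≤
      (iidLaw G).real {t | θ ≤ Zc μ t R n x b c e v L a} := by
    refine ENNReal.toReal_mono (measure_ne_top _ _) (measure_mono_ae ?_)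
    filter_upwards [H.nn] with t ht hv
    exact hex.trans (Vis.le_Zc ht hR.conn hx hb hcv hc hxn hcn hcvn ha hv)
  have h2 := mul_meas_ge_le_integral_of_nonneg (μ := iidLaw G)
    (f := fun t => Zc μ t R n x b c e v L a) (by
      filter_upwards [H.nn] with t ht
      exact Zc_nonneg μ ht hR.conn hx hb hcv hc0 ha) hI θ
  rw [inv_mul_eq_div, le_div_iff₀ hθ, mul_comm]
  calc θ * (iidLaw G).real {t | Vis t R x b c e L} ≤
      θ * (iidLaw G).real {t | θ ≤ Zc μ t R n x b c e v L a} := by gcongr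
    _ ≤ _ := h2.trans hle

/-- upper shape bound in strips, from the bottom to a point far from both sides -/
lemma strip_upper {ε : ℝ} (hε : 0 < ε) (C : ℕ) :
    ∃ n0 : ℕ, ∀ n ≥ n0, ∀ x : ℤ, |x| ≤ n → ∀ y ∈ box (C * n), (n : ℤ) ≤ y.2 → ∀ M : ℤ,
      y.2 + n ≤ M → ((x, 0) : ℤ × ℤ) ∈ box (C * n) →
      ∫ t, pR t (St 0 M) (x, 0) y ∂(iidLaw G) ≤ μ (toR (y - (x, 0))) + ε * n := by
  obtain ⟨K, J, n0, hJ, hKJ, hreg⟩ := H.mom.region_upper H.tc H.hz (locCtl_of_law213 H.law) hε C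
    (cM_nonneg G)
  refine ⟨n0 + 2, fun n hn x hx y hy hyn M hM hx0 => ?_⟩
  obtain ⟨hnpos, h⟩ := hreg n (by omega)
  have hK : 0 < K := by omega
  have hK' : (0 : ℤ) < K := by exact_mod_cast hK
  refine (h (x, 0) y hx0 hy (St 0 M) (H.regMom (by omega)) ?_ ?_ ?_).2
  · rw [mem_St]; simp only; omega
  · rw [mem_St]; omega
  · intro i hi1 hi2 z hz
    have e1 : (z.2 - y.2 * i / K).natAbs ≤ J * (n / K) := by
      simp only [n1, ch, Prod.fst_sub, Prod.snd_sub, sub_zero, zero_add] at hz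
      omega
    have q1 : ((J * (n / K) : ℕ) : ℤ) ≤ y.2 * i / K := by
      rw [Int.le_ediv_iff_mul_le hK']
      have a1 : (J * (n / K)) * K ≤ n * i := by
        calc (J * (n / K)) * K = J * (K * (n / K)) := by ring
          _ ≤ J * n := Nat.mul_le_mul_left _ (Nat.mul_div_le n K)
          _ ≤ i * n := Nat.mul_le_mul_right _ hi1
          _ = n * i := mul_comm _ _
      have a2 : (((J * (n / K) : ℕ)) : ℤ) * K ≤ n * i := by exact_mod_cast a1
      refine a2.trans ?_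
      exact mul_le_mul_of_nonneg_right hyn (by positivity)
    have q2 : y.2 * i / K ≤ y.2 := by
      have hy0 : 0 ≤ y.2 := by omega
      have : y.2 * i ≤ y.2 * K := mul_le_mul_of_nonneg_left (by omega) hy0
      calc y.2 * i / K ≤ y.2 * K / K := Int.ediv_le_ediv hK' this
        _ = y.2 := Int.mul_ediv_cancel _ hK'.ne'
    have q3 : ((J * (n / K) : ℕ) : ℤ) ≤ n := by
      have : J * (n / K) ≤ n := by
        calc J * (n / K) ≤ K * (n / K) := Nat.mul_le_mul_right _ (by omega)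
          _ ≤ n := Nat.mul_div_le n K
      exact_mod_cast this
    rw [mem_St]
    omega

set_option maxHeartbeats 1600000 in
/-- **localisation of the first visit**: outside the facet of `s` the probability of a
near-optimal first visit is small, in Cesàro mean over the far target. -/
theorem loc {s p s1 s2 : ℝ} (hd : HasDerivAt (fun x : ℝ => μ (x, 1)) p s) (hs1 : s1 < s)
    (hs2 : s < s2) (hne1 : μ (s1, 1) ≠ μ (s, 1) + p * (s1 - s))
    (hne2 : μ (s2, 1) ≠ μ (s, 1) + p * (s2 - s)) (k x : ℤ) {δ : ℝ} (hδ : 0 < δ) :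
    ∃ N1 : ℕ, ∀ N ≥ N1, CL (fun M => (iidLaw G).real (Off s1 s2 s k N M x)) δ := by
  have hm := H.mom.nonneg
  obtain ⟨C, hC⟩ : ∃ C : ℕ, |s| + |s1| + |s2| + 1 ≤ C := exists_nat_ge _
  have hCs : |s| < C := by linarith [abs_nonneg s1, abs_nonneg s2]
  have hCs1 : |s1| ≤ C := by linarith [abs_nonneg s, abs_nonneg s2]
  have hCs2 : |s2| ≤ C := by linarith [abs_nonneg s1, abs_nonneg s]
  have hC1R : (1 : ℝ) ≤ C := by linarith [abs_nonneg s, abs_nonneg s1, abs_nonneg s2]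
  have hC1 : 1 ≤ C := by exact_mod_cast hC1R
  obtain ⟨η, hη, hex⟩ := excess_out H.norm hd hs1 hs2 hne1 hne2 hCs hCs1 hCs2
  set c5 : ℝ := cM G ^ (5 / 4 : ℝ) with hc5
  have hc5n : 0 ≤ c5 := Real.rpow_nonneg (cM_nonneg G) _
  -- the truncation level
  obtain ⟨a, ha, haq⟩ : ∃ a : ℝ, 0 < a ∧ c5 / a ^ (1 / 4 : ℝ) ≤ η * δ / (384 * C) := by
    have hlim : Tendsto (fun a : ℝ => c5 / a ^ (1 / 4 : ℝ)) atTop
        (nhds 0) := tendsto_const_nhds.div_atTop (tendsto_rpow_atTop (by norm_num))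
    obtain ⟨a, h1, h2⟩ := ((hlim.eventually_le_const
      (show (0 : ℝ) < η * δ / (384 * C) by positivity)).and (eventually_gt_atTop 0)).exists
    exact ⟨a, h2, h1⟩
  set q : ℝ := c5 / a ^ (1 / 4 : ℝ) with hq
  have hq0 : 0 ≤ q := by positivity
  obtain ⟨K, hK⟩ : ∃ K : ℕ, 16 * a / η + 1 ≤ K := exists_nat_ge _
  have hK1 : (1 : ℝ) ≤ K := by
    have : 0 ≤ 16 * a / η := by positivity
    linarith
  have hKpos : 0 < K := by exact_mod_cast (by linarith : (0 : ℝ) < K)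
  set J : ℕ := 2 * C * K with hJ
  set ε : ℝ := η * δ / (32 * (J + 1) * (6 * C + 3)) with hε
  have hεpos : 0 < ε := by positivity
  obtain ⟨g0, hg2, hg0⟩ := H.Phi_near hεpos C
  obtain ⟨n0, hn0⟩ := H.strip_upper hεpos (2 * C)
  obtain ⟨d0, hd0⟩ := H.mom.uniform_shape H.tc (locCtl_of_law213 H.law) hεpos
  obtain ⟨r0, hr0⟩ : ∃ r0 : ℕ, 4 * (m * (2 * |(x : ℝ)| + 2) + 2) / η + (m + cM G) / ε ≤ r0 :=
    exists_nat_ge _
  refine ⟨g0 + n0 + d0 + r0 + K + x.natAbs + 2, fun N hN => ?_⟩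
  have hNpos : 0 < N := by omega
  have hNR : (0 : ℝ) < N := by exact_mod_cast hNpos
  have hN1 : (1 : ℝ) ≤ N := by exact_mod_cast hNpos
  have hxN : |x| ≤ (N : ℤ) := by
    rw [Int.abs_eq_natAbs]; exact_mod_cast (by omega : x.natAbs ≤ N)
  have hr : 4 * (m * (2 * |(x : ℝ)| + 2) + 2) / η + (m + cM G) / ε ≤ N := by
    refine hr0.trans ?_
    exact_mod_cast (by omega : r0 ≤ N)
  have hcM := cM_nonneg G
  have hr1 : 4 * (m * (2 * |(x : ℝ)| + 2) + 2) ≤ η * N := by
    have h1 : 0 ≤ (m + cM G) / ε := by positivity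
    have h2 : 4 * (m * (2 * |(x : ℝ)| + 2) + 2) / η ≤ N := by linarith
    rw [div_le_iff₀ hη] at h2
    linarith
  have hr2 : m + cM G ≤ ε * N := by
    have h1 : 0 ≤ 4 * (m * (2 * |(x : ℝ)| + 2) + 2) / η := by positivity
    have h2 : (m + cM G) / ε ≤ N := by linarith
    rw [div_le_iff₀ hεpos] at h2
    linarith
  set L : ℕ := N / K + 1 with hL
  have hLpos : 0 < L := Nat.succ_pos _
  have hLK : N ≤ L * K := by
    have := Nat.div_add_mod N K
    have := Nat.mod_lt N hKpos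
    rw [hL, Nat.add_mul, one_mul, mul_comm (N / K) K]
    omega
  have hLK2 : L * K ≤ 2 * N := by
    have := Nat.mul_div_le N K
    rw [hL, Nat.add_mul, one_mul, mul_comm (N / K) K]
    omega
  have hLK2R : (L : ℝ) * K ≤ 2 * N := by exact_mod_cast hLK2
  -- `2 a L ≤ η N / 4`
  have haL : 2 * (a * L) ≤ η * N / 4 := by
    have h1 : 16 * a / η ≤ K := by linarith
    rw [div_le_iff₀ hη] at h1
    have h2 : 16 * a * L ≤ K * η * L := mul_le_mul_of_nonneg_right h1 (by positivity)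
    have h3 : K * η * L ≤ η * (2 * N) := by
      have := mul_le_mul_of_nonneg_left hLK2R hη.le
      linarith
    linarith
  have hJL : 2 * ((C : ℤ) * N) ≤ J * L := by
    have h1 : 2 * (C * N) ≤ J * L := by
      rw [hJ]
      calc 2 * (C * N) = 2 * C * N := by ring
        _ ≤ 2 * C * (L * K) := Nat.mul_le_mul_left _ hLK
        _ = 2 * C * K * L := by ring
    exact_mod_cast h1
  have hNC : (N : ℤ) ≤ C * N := by
    have : N ≤ C * N := Nat.le_mul_of_pos_left _ hC1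
    exact_mod_cast this
  have hJLN : (N : ℤ) ≤ J * L := by
    have : (0 : ℤ) ≤ C * N := by positivity
    linarith
  -- the window
  set z1 : ℤ := ⌊s1 * N⌋ with hz1
  set z2 : ℤ := ⌈s2 * N⌉ with hz2
  set W : ℤ := C * N with hW
  have hWR : (W : ℝ) = C * N := by rw [hW]; push_cast; ring
  have hz1b : -W ≤ z1 ∧ z1 ≤ W := by
    have h1 := abs_le.1 hCs1
    constructor
    · rw [hz1, Int.le_floor]
      push_cast
      rw [hWR]
      have := mul_le_mul_of_nonneg_right h1.1 hNR.le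
      linarith
    · have h2 := Int.floor_le (s1 * N)
      have h3 := mul_le_mul_of_nonneg_right h1.2 hNR.le
      have : (z1 : ℝ) ≤ W := by rw [hWR]; linarith
      exact_mod_cast this
  have hz2b : -W ≤ z2 ∧ z2 ≤ W := by
    have h1 := abs_le.1 hCs2
    constructor
    · have h2 := Int.le_ceil (s2 * N)
      have h3 := mul_le_mul_of_nonneg_right h1.1 hNR.le
      have : (-W : ℝ) ≤ z2 := by rw [hWR]; linarith
      exact_mod_cast this
    · rw [hz2, Int.ceil_le]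
      rw [hWR]
      have := mul_le_mul_of_nonneg_right h1.2 hNR.le
      linarith
  have hfl1 := Int.floor_le (s * N)
  have hfl2 := Int.lt_floor_add_one (s * N)
  have hsN : |((⌊s * N⌋ : ℤ) : ℝ)| ≤ C * N := by
    have h1 := neg_abs_le s
    have h2 := le_abs_self s
    have h3 : |s| + 1 ≤ C := by linarith [abs_nonneg s1, abs_nonneg s2]
    have h4 := mul_le_mul_of_nonneg_right h3 hNR.le
    have h5 := mul_le_mul_of_nonneg_right h1 hNR.le
    have h6 := mul_le_mul_of_nonneg_right h2 hNR.le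
    rw [abs_le]
    constructor <;> linarith
  have hsNZ : |⌊s * N⌋| ≤ (C : ℤ) * N := by exact_mod_cast hsN
  set v : ℤ × ℤ := vN s N with hv
  have hvm : |μ (toR v) - N * μ (s, 1)| ≤ m := by
    have h1 := H.abs_mu_sub (⌊s * N⌋ : ℤ) s (N := N) hNR.le
    have h2 : |((⌊s * N⌋ : ℤ) : ℝ) - s * N| ≤ 1 := by
      rw [abs_le]; constructor <;> linarith
    have h3 := mul_le_mul_of_nonneg_left h2 hm
    have h4 : toR v = (((⌊s * N⌋ : ℤ) : ℝ), (N : ℝ)) := by
      simp [toR, hv, vN]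
    rw [h4]
    linarith
  -- the cells
  set S := cells z1 z2 W N L J with hS
  have hW0 : 0 ≤ W := by rw [hW]; positivity
  have hgeo : ∀ c ∈ S, (c.1.2 = N ∧ (c.1.1 ≤ z1 ∨ z2 ≤ c.1.1) ∧ |c.1.1| ≤ W) ∨
      (|c.1.1| = W ∧ 0 ≤ c.1.2 ∧ c.1.2 ≤ N) := fun c hc => cells_geom hz1b.2 hz2b.1 hW0 hc
  have hgeo' : ∀ c ∈ S, 0 ≤ c.1.2 ∧ c.1.2 ≤ N ∧ |c.1.1| ≤ W := by
    intro c hc
    rcases hgeo c hc with ⟨h1, -, h3⟩ | ⟨h1, h2, h3⟩
    · exact ⟨by omega, by omega, h3⟩
    · exact ⟨h2, h3, h1.le⟩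
  have hboxc : ∀ c ∈ S, c.1 ∈ box (2 * C * N) ∧ c.1 + v ∈ box (2 * C * N) := by
    intro c hc
    obtain ⟨h1, h2, h3⟩ := hgeo' c hc
    have h4 := abs_le.1 h3
    have h5 := abs_le.1 hsNZ
    have h6 : ((2 * C * N : ℕ) : ℤ) = 2 * W := by rw [hW]; push_cast; ring
    rw [mem_box, mem_box, h6]
    simp only [hv, vN, Prod.fst_add, Prod.snd_add]
    refine ⟨⟨⟨by omega, by omega⟩, ⟨by omega, by omega⟩⟩,
      ⟨⟨by omega, by omega⟩, ⟨by omega, by omega⟩⟩⟩
  have hxbox : ((x, 0) : ℤ × ℤ) ∈ box (2 * C * N) := by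
    have h6 : ((2 * C * N : ℕ) : ℤ) = 2 * W := by rw [hW]; push_cast; ring
    have h4 := abs_le.1 hxN
    rw [mem_box, h6]
    refine ⟨⟨?_, ?_⟩, ⟨?_, ?_⟩⟩ <;> simp only <;> omega
  -- the excess at the corners
  have hexc : ∀ c ∈ S, η * N / 2 ≤ μ (toR (c.1 - (x, 0))) + μ (toR v) -
      μ (toR (c.1 + v - (x, 0))) - 2 - 2 * (a * L) := by
    intro c hc
    have h1 := hex N hNR (toR c.1) (by
      rcases hgeo c hc with ⟨h1, h2, h3⟩ | ⟨h1, h2, h3⟩
      · left
        refine ⟨?_, ?_, ?_⟩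
        · simp only [toR]; rw [h1]; simp
        · rcases h2 with h2 | h2
          · left
            have h5 := Int.floor_le (s1 * N)
            have h6 : (c.1.1 : ℝ) ≤ z1 := by exact_mod_cast h2
            simp only [toR]
            linarith
          · right
            have h5 := Int.le_ceil (s2 * N)
            have h6 : (z2 : ℝ) ≤ c.1.1 := by exact_mod_cast h2
            simp only [toR]
            linarith
        · simp only [toR]
          rw [← hWR]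
          exact_mod_cast h3
      · right
        refine ⟨?_, ?_, ?_⟩
        · simp only [toR]
          rw [← hWR]
          exact_mod_cast h1
        · simp only [toR]; exact_mod_cast h2
        · simp only [toR]; exact_mod_cast h3)
    have h2 := H.mom.abs_mu_sub_le H.tc (toR (c.1 - (x, 0))) (toR c.1)
    have h3 := H.mom.abs_mu_sub_le H.tc (toR (c.1 + v - (x, 0))) (toR c.1 + (s * N, (N : ℝ)))
    have h4 : l1 (toR (c.1 - (x, 0)) - toR c.1) ≤ |(x : ℝ)| := by
      simp [l1, toR]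
    have h5 : l1 (toR (c.1 + v - (x, 0)) - (toR c.1 + (s * N, (N : ℝ)))) ≤ |(x : ℝ)| + 1 := by
      simp only [l1, toR, hv, vN, Prod.fst_add, Prod.snd_add, Prod.fst_sub, Prod.snd_sub]
      push_cast
      rw [show (c.1.1 : ℝ) + ⌊s * N⌋ - x - (c.1.1 + s * N) = -x + (⌊s * N⌋ - s * N) by ring,
        show (c.1.2 : ℝ) + N - 0 - (c.1.2 + N) = 0 by ring, abs_zero, add_zero]
      refine (abs_add_le _ _).trans ?_
      rw [abs_neg]
      have : |((⌊s * N⌋ : ℤ) : ℝ) - s * N| ≤ 1 := by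
        rw [abs_le]; constructor <;> linarith
      linarith
    have h4' := mul_le_mul_of_nonneg_left h4 hm
    have h5' := mul_le_mul_of_nonneg_left h5 hm
    rw [abs_le] at h2 h3 hvm
    nlinarith [abs_nonneg (x : ℝ)]
  -- the bound for one far target
  set θ : ℝ := η * N / 2 with hθ
  have hθpos : 0 < θ := by positivity
  obtain ⟨hdi, hdE⟩ := hd0 (2 * C * N) (by
    have : N ≤ 2 * C * N := Nat.le_mul_of_pos_left _ (by omega)
    omega)
  set Kc : ℝ := θ⁻¹ * (3 * (ε * (2 * C * N)) + ε * N + 2 * (L * q)) with hKc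
  have hbound : ∃ M0, ∀ M ≥ M0, (iidLaw G).real (Off s1 s2 s k N M x) ≤
      ∑ c ∈ S, (θ⁻¹ * (∫ t, defect t (St 0 M) c.1 v (tgt s k M) ∂(iidLaw G)) + Kc) := by
    refine ⟨3 * N + L + 2, fun M hM => ?_⟩
    have hR := H.regMom (a := 0) (b := M) (by omega)
    have hxR : ((x, 0) : ℤ × ℤ) ∈ St 0 M := zero_mem_St (by omega)
    have hbR := tgt_mem s k M
    have hunion : (iidLaw G).real (Off s1 s2 s k N M x) ≤
        (iidLaw G).real (⋃ c ∈ S, {t | Vis t (St 0 M) (x, 0) (tgt s k M) c.1 c.2 L}) := by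
      refine ENNReal.toReal_mono (measure_ne_top _ _) (measure_mono_ae ?_)
      filter_upwards [H.nn] with t ht hoff
      obtain ⟨w, hw, hw2⟩ := hoff
      have hw' : w ≤ z1 ∨ z2 ≤ w := by
        rcases hw with hw | hw
        · exact Or.inl (Int.le_floor.2 hw)
        · exact Or.inr (Int.ceil_le.2 hw)
      obtain ⟨c, hc, hvis⟩ := covering ht (M := M) (N := N) (by omega) (by omega) hbR hLpos
        (W := W) (hxN.trans hNC) hJL hJLN hz1b hz2b hw' hw2
      exact Set.mem_biUnion hc hvis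
    refine hunion.trans ((measureReal_biUnion_finset_le _ _).trans ?_)
    refine Finset.sum_le_sum fun c hc => ?_
    obtain ⟨h1, h2, h3⟩ := hgeo' c hc
    have hcR : ∀ i ≤ L, c.1 + i • c.2 ∈ St 0 M := fun i hi =>
      St_subset le_rfl (by omega) (cells_mem (show (0 : ℤ) ≤ N by omega) hc i hi)
    have hcvR : c.1 + v ∈ St 0 M := by
      rw [mem_St]
      simp only [hv, vN, Prod.snd_add]
      omega
    have hP := H.prob_Vis_le hR hxR hbR hcvR hcR (cells_unit hc) ha hdi hxbox (hboxc c hc).1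
      (hboxc c hc).2 hθpos (hexc c hc)
    refine hP.trans ?_
    have hup := hn0 N (by omega) x hxN (c.1 + v) (hboxc c hc).2 (by
      simp only [hv, vN, Prod.snd_add]; omega) M (by
      simp only [hv, vN, Prod.snd_add]; omega) hxbox
    rw [hKc, ← mul_add]
    refine mul_le_mul_of_nonneg_left ?_ (by positivity)
    push_cast at hdE
    linarith
  refine CL.mono ?_ hbound
  have hdef : ∀ c ∈ S, CL (fun M => θ⁻¹ * (∫ t, defect t (St 0 M) c.1 v (tgt s k M) ∂(iidLaw G))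
      + Kc) (θ⁻¹ * (2 * ε * N) + Kc) := by
    intro c hc
    obtain ⟨h1, h2, h3⟩ := hgeo' c hc
    refine (((H.defect_CL s k (by omega) h1).weaken ?_).const_mul (by positivity)).add
      (CL.of_const _)
    have h4 := hg0 N (by omega) ⌊s * N⌋ hsNZ s
    have h5 : |((⌊s * N⌋ : ℤ) : ℝ) - s * N| ≤ 1 := by
      rw [abs_le]; constructor <;> linarith
    have h6 := mul_le_mul_of_nonneg_left h5 hm
    rw [abs_le] at h4
    linarith
  refine (CL.sum S hdef).weaken ?_
  rw [Finset.sum_const, nsmul_eq_mul]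
  have hcard : (S.card : ℝ) ≤ 4 * (J + 1) := by
    have := card_cells_le z1 z2 W N L J
    exact_mod_cast this
  have hpos : 0 ≤ θ⁻¹ * (2 * ε * N) + Kc := by
    rw [hKc]
    positivity
  refine (mul_le_mul_of_nonneg_right hcard hpos).trans ?_
  have e1 : 4 * ((J : ℝ) + 1) * (θ⁻¹ * (2 * ε * N) + Kc) =
      8 * (J + 1) * (6 * C + 3) * ε / η + 16 * (J + 1) * L * q / (η * N) := by
    rw [hKc, hθ]
    field_simp
    ring
  rw [e1]
  have e2 : 8 * ((J : ℝ) + 1) * (6 * C + 3) * ε / η = δ / 4 := by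
    rw [hε]
    field_simp
    norm_num
  have e3 : 16 * ((J : ℝ) + 1) * L * q / (η * N) ≤ δ / 4 := by
    have h1 : ((J : ℝ) + 1) * L ≤ 6 * C * N := by
      have h2 : (J : ℝ) + 1 ≤ 3 * C * K := by
        rw [hJ]
        push_cast
        have : (1 : ℝ) ≤ C * K := by nlinarith
        linarith
      have h3 := mul_le_mul_of_nonneg_right h2 (show (0 : ℝ) ≤ L by positivity)
      have h4 := mul_le_mul_of_nonneg_left hLK2R (show (0 : ℝ) ≤ 3 * C by positivity)
      linarith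
    rw [div_le_iff₀ (by positivity)]
    rw [le_div_iff₀ (by positivity)] at haq
    have h5 := mul_le_mul_of_nonneg_right h1 hq0
    nlinarith
  rw [e2]
  linarith

end Inp

end Crest.Agent.R151.BUS
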