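import Crest.Agent.R151.B469e

/-!
# R151, block BUS, part c5: sandwich and `L¹`-Cauchy property of the increments

`BadL s1 s2 N M b x` : some vertex `(w,N)` with `w ≤ s1 N` or `s2 N ≤ w` is almost on an optimal
path from `(x,0)` to `(b,M)` in the strip.  Output `cauchy_D`.
-/

set_option autoImplicit false

open MeasureTheory Filter Topology ProbabilityTheory
open Crest.ProbabilityR.FirstPassage
open Crest.Agent.R151.K
open scoped ENNReal

namespace Crest.Agent.R151.BUS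

variable {t : Environment}

/-- some `(w,N)` outside the window is almost on an optimal path from `(x,0)` to `(b,M)` -/
def BadL (s1 s2 : ℝ) (N M : ℕ) (b x : ℤ) : Set Environment :=
  {t | ∃ w : ℤ, ((w : ℝ) ≤ s1 * N ∨ s2 * N ≤ (w : ℝ)) ∧
    f t N w x + pR t (St 0 M) (w, N) (b, M) < pR t (St 0 M) (x, 0) (b, M) + 1}

theorem measurableSet_BadL (s1 s2 : ℝ) (N M : ℕ) (b x : ℤ) :
    MeasurableSet (BadL s1 s2 N M b x) := by
  have : BadL s1 s2 N M b x = ⋃ w : ℤ, ⋃ _ : ((w : ℝ) ≤ s1 * N ∨ s2 * N ≤ (w : ℝ)),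
      {t | f t N w x + pR t (St 0 M) (w, N) (b, M) < pR t (St 0 M) (x, 0) (b, M) + 1} := by
    ext t
    simp only [BadL, Set.mem_ofPred_eq, Set.mem_iUnion, exists_prop]
  rw [this]
  exact MeasurableSet.iUnion fun w => MeasurableSet.iUnion fun _ =>
    measurableSet_lt ((measurable_f _ _ _).add (measurable_pR _ _ _))
      ((measurable_pR _ _ _).add_const 1)

theorem mem_St_of_le {N M : ℕ} (h : N ≤ M) (w : ℤ) : ((w, (N : ℤ)) : ℤ × ℤ) ∈ St 0 M := by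
  rw [mem_St]; simp only; omega

/-- the almost optimal crossing place -/
theorem exists_cross (ht : Nn t) {s1 s2 : ℝ} {N M : ℕ} (hNM : N ≤ M) {b x : ℤ}
    (hb : t ∉ BadL s1 s2 N M b x) {ε : ℝ} (hε : 0 < ε) (hε1 : ε ≤ 1) :
    ∃ w : ℤ, s1 * N < w ∧ (w : ℝ) < s2 * N ∧
      pR t (St 0 N) (x, 0) (w, N) + pR t (St 0 M) (w, N) (b, M) ≤
        pR t (St 0 M) (x, 0) (b, M) + ε := by
  have hc : Conn (St 0 (M : ℤ)) (x, 0) (b, M) :=
    conn_St (zero_mem_St (by omega)) (top_mem_St (by omega))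
  obtain ⟨γ, hγ, hγc⟩ := exists_walk_lt_pR hc (c := pR t (St 0 M) (x, 0) (b, M) + ε)
    (by linarith)
  obtain ⟨w, α, ρ, h1, h2, h3, h4⟩ := exists_first_hit (N : ℤ) γ (by simp)
    (by simp only; omega)
  have e1 : pR t (St 0 N) (x, 0) (w, N) ≤ walkCost t α :=
    pR_le ht α fun z hz => by
      have := hγ z (h2 z hz)
      rw [mem_St] at this ⊢
      exact ⟨this.1, h1 z hz⟩
  have e2 : pR t (St 0 M) (w, N) (b, M) ≤ walkCost t ρ :=
    pR_le ht ρ fun z hz => hγ z (h3 z hz)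
  have e3 := h4 t
  have e4 : pR t (St 0 N) (x, 0) (w, N) + pR t (St 0 M) (w, N) (b, M) ≤
      pR t (St 0 M) (x, 0) (b, M) + ε := by linarith
  have e5 : ¬ ((w : ℝ) ≤ s1 * N ∨ s2 * N ≤ (w : ℝ)) := fun h => hb ⟨w, h, by
    unfold f
    linarith⟩
  push Not at e5
  exact ⟨w, e5.1, e5.2, e4⟩

theorem f_le_through (ht : Nn t) {N M : ℕ} (hNM : N ≤ M) (b x w : ℤ) :
    f t M b x ≤ f t N w x + pR t (St 0 M) (w, N) (b, M) := by
  have h1 : pR t (St 0 M) (x, 0) (b, M) ≤ pR t (St 0 M) (x, 0) (w, N) +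
      pR t (St 0 M) (w, N) (b, M) :=
    pR_triangle ht (conn_St (zero_mem_St (by omega)) (mem_St_of_le hNM w))
      (conn_St (mem_St_of_le hNM w) (top_mem_St (by omega)))
  have h2 : pR t (St 0 M) (x, 0) (w, N) ≤ pR t (St 0 N) (x, 0) (w, N) :=
    pR_anti ht (St_subset le_rfl (by exact_mod_cast hNM))
      (conn_St (zero_mem_St (by omega)) (top_mem_St (by omega)))
  unfold f
  linarith

theorem D_le_of_notBad (ht : Nn t) {s1 s2 : ℝ} {N M : ℕ} (hNM : N ≤ M) {b x : ℤ}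
    (hb : t ∉ BadL s1 s2 N M b x) {a : ℤ} (ha : (a : ℝ) ≤ s1 * N) : D t M b x ≤ D t N a x := by
  refine le_of_forall_pos_le_add fun ε hε => ?_
  obtain ⟨w, h1, -, h3⟩ := exists_cross ht hNM hb (ε := min ε 1) (lt_min hε one_pos)
    (min_le_right _ _)
  have h4 := f_le_through ht hNM b (x + 1) w
  have h5 : D t N w x ≤ D t N a x := D_anti ht (by omega) (by exact_mod_cast (ha.trans h1.le))
  have h6 := min_le_left ε 1
  unfold D f at *
  linarith

theorem le_D_of_notBad (ht : Nn t) {s1 s2 : ℝ} {N M : ℕ} (hNM : N ≤ M) {b x : ℤ}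
    (hb : t ∉ BadL s1 s2 N M b (x + 1)) {a : ℤ} (ha : s2 * N ≤ (a : ℝ)) :
    D t N a x ≤ D t M b x := by
  refine le_of_forall_pos_le_add fun ε hε => ?_
  obtain ⟨w, -, h2, h3⟩ := exists_cross ht hNM hb (ε := min ε 1) (lt_min hε one_pos)
    (min_le_right _ _)
  have h4 := f_le_through ht hNM b x w
  have h5 : D t N a x ≤ D t N w x := D_anti ht (by omega) (by exact_mod_cast (h2.le.trans ha))
  have h6 := min_le_left ε 1
  unfold D f at *
  linarith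

theorem abs_D_le' (ht : Nn t) {N : ℕ} (hN : 2 ≤ N) (z x : ℤ) :
    |D t N z x| ≤ pR t (St 0 2) (x, 0) (x + 1, 0) := by
  refine (abs_D_le ht (by omega)).trans ?_
  exact pR_anti ht (St_subset le_rfl (by exact_mod_cast hN))
    (conn_St (zero_mem_St (by norm_num)) (zero_mem_St (by norm_num)))

section integral

variable {G : Measure ℝ} [IsProbabilityMeasure G]

theorem integrable_D (h0 : G (Set.Iio 0) = 0)
    {x : ℤ} (hY : Integrable (fun t => pR t (St 0 2) (x, 0) (x + 1, 0)) (iidLaw G)) {N : ℕ}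
    (hN : 2 ≤ N) (z : ℤ) : Integrable (fun t => D t N z x) (iidLaw G) := by
  refine hY.mono' (measurable_D _ _ _).aestronglyMeasurable ?_
  filter_upwards [ae_Nn (G := G) h0] with t ht
  rw [Real.norm_eq_abs]
  exact abs_D_le' ht hN z x

/-- comparison of two levels through a common far level -/
theorem integral_abs_le (h0 : G (Set.Iio 0) = 0)
    {x : ℤ} (hY : Integrable (fun t => pR t (St 0 2) (x, 0) (x + 1, 0)) (iidLaw G))
    {s1 s2 : ℝ} {N M : ℕ} (hN : 2 ≤ N) (hNM : N ≤ M) {a a' z b : ℤ} (ha : (a : ℝ) ≤ s1 * N)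
    (ha' : s2 * N ≤ (a' : ℝ)) (haz : a ≤ z) (hza : z ≤ a') :
    ∫ t, |D t M b x - D t N z x| ∂(iidLaw G) ≤
      ∫ t, (D t N a x - D t N a' x) ∂(iidLaw G) +
        ∫ t in BadL s1 s2 N M b x ∪ BadL s1 s2 N M b (x + 1),
          2 * pR t (St 0 2) (x, 0) (x + 1, 0) ∂(iidLaw G) := by
  classical
  have hM : 2 ≤ M := hN.trans hNM
  set B := BadL s1 s2 N M b x ∪ BadL s1 s2 N M b (x + 1) with hB
  have hBm : MeasurableSet B := (measurableSet_BadL _ _ _ _ _ _).union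
    (measurableSet_BadL _ _ _ _ _ _)
  have i1 := integrable_D h0 hY hN a
  have i2 := integrable_D h0 hY hN a'
  have i3 := integrable_D h0 hY hN z
  have i4 := integrable_D h0 hY hM b
  have iY : Integrable (fun t => 2 * pR t (St 0 2) (x, 0) (x + 1, 0)) (iidLaw G) :=
    hY.const_mul 2
  have e1 : ∫ t, ((D t N a x - D t N a' x) +
      B.indicator (fun t => 2 * pR t (St 0 2) (x, 0) (x + 1, 0)) t) ∂(iidLaw G) =
      ∫ t, (D t N a x - D t N a' x) ∂(iidLaw G) +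
        ∫ t, B.indicator (fun t => 2 * pR t (St 0 2) (x, 0) (x + 1, 0)) t ∂(iidLaw G) :=
    integral_add (i1.sub i2) (iY.indicator hBm)
  rw [← integral_indicator hBm, ← e1]
  refine integral_mono_ae (i4.sub i3).abs ((i1.sub i2).add (iY.indicator hBm)) ?_
  filter_upwards [ae_Nn (G := G) h0] with t ht
  have d1 : D t N a' x ≤ D t N z x := D_anti ht (by omega) hza
  have d2 : D t N z x ≤ D t N a x := D_anti ht (by omega) haz
  show |D t M b x - D t N z x| ≤ (D t N a x - D t N a' x) +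
    B.indicator (fun t => 2 * pR t (St 0 2) (x, 0) (x + 1, 0)) t
  by_cases htB : t ∈ B
  · rw [Set.indicator_of_mem htB]
    have h1 := abs_D_le' ht hM b x
    have h2 := abs_D_le' ht hN z x
    have h3 := abs_sub (D t M b x) (D t N z x)
    linarith
  · rw [Set.indicator_of_notMem htB, add_zero]
    rw [hB, Set.mem_union, not_or] at htB
    have h1 := D_le_of_notBad ht hNM htB.1 ha
    have h2 := le_D_of_notBad ht hNM htB.2 ha'
    rw [abs_le]
    constructor <;> linarith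

/-- averages that are eventually small give arbitrarily late small terms -/
theorem exists_small_term {u : ℕ → ℝ} (hu : ∀ n, 0 ≤ u n) {δ : ℝ} (hδ : 0 < δ)
    (h : ∀ᶠ M0 : ℕ in atTop, ∑ M ∈ Finset.range M0, u M ≤ δ * M0) (K : ℕ) :
    ∃ M, K ≤ M ∧ u M ≤ 2 * δ := by
  by_contra hcon
  push Not at hcon
  obtain ⟨M0, h1, h2⟩ := (h.and (eventually_gt_atTop (2 * K))).exists
  have h3 : ∑ M ∈ Finset.Ico K M0, (2 * δ) ≤ ∑ M ∈ Finset.Ico K M0, u M :=
    Finset.sum_le_sum fun M hM => (hcon M (Finset.mem_Ico.1 hM).1).le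
  have h4 : ∑ M ∈ Finset.Ico K M0, u M ≤ ∑ M ∈ Finset.range M0, u M := by
    refine Finset.sum_le_sum_of_subset_of_nonneg ?_ fun n _ _ => hu n
    intro n hn
    exact Finset.mem_range.2 (Finset.mem_Ico.1 hn).2
  rw [Finset.sum_const, Nat.card_Ico, nsmul_eq_mul, Nat.cast_sub (by omega)] at h3
  have h5 : (2 * K : ℝ) < M0 := by exact_mod_cast h2
  nlinarith

theorem tendsto_floor_div (τ : ℝ) (k : ℤ) :
    Tendsto (fun N : ℕ => (((⌊τ * N⌋ + k : ℤ)) : ℝ) / N) atTop (𝓝 τ) := by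
  have h1 : Tendsto (fun N : ℕ => (|(k : ℝ)| + 1) / (N : ℝ)) atTop (𝓝 0) :=
    tendsto_const_div_atTop_nhds_zero_nat _
  rw [tendsto_iff_norm_sub_tendsto_zero]
  refine squeeze_zero' (Eventually.of_forall fun _ => norm_nonneg _) ?_ h1
  filter_upwards [eventually_gt_atTop 0] with N hN
  have hN' : (0 : ℝ) < N := by exact_mod_cast hN
  rw [Real.norm_eq_abs, show (((⌊τ * N⌋ + k : ℤ)) : ℝ) / N - τ =
    ((⌊τ * N⌋ : ℝ) + k - τ * N) / N by push_cast; field_simp, abs_div, abs_of_pos hN']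
  apply div_le_div_of_nonneg_right _ hN'.le
  have h2 := Int.floor_le (τ * N)
  have h3 := Int.lt_floor_add_one (τ * N)
  have h4 := neg_abs_le (k : ℝ)
  have h5 := le_abs_self (k : ℝ)
  rw [abs_le]
  constructor <;> linarith

/-- **c5.** `L¹`-Cauchy property of the increments in the direction `s`. -/
theorem cauchy_D (h0 : G (Set.Iio 0) = 0)
    (hY : ∀ x : ℤ, Integrable (fun t => pR t (St 0 2) (x, 0) (x + 1, 0)) (iidLaw G))
    {s : ℝ} {k : ℤ}
    (hL : ∀ ε : ℝ, 0 < ε → ∃ s1 s2 p1 p2 : ℝ, s1 < s ∧ s < s2 ∧ p2 - p1 < ε ∧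
      (∀ x : ℤ, Tendsto (fun N : ℕ => ∫ t, D t N (⌊s1 * N⌋ + 0) x ∂(iidLaw G)) atTop
        (𝓝 (-p1))) ∧
      (∀ x : ℤ, Tendsto (fun N : ℕ => ∫ t, D t N (⌊s2 * N⌋ + 1) x ∂(iidLaw G)) atTop
        (𝓝 (-p2))) ∧
      ∀ δ : ℝ, 0 < δ → ∀ x : ℤ, ∃ N1 : ℕ, ∀ N : ℕ, N1 ≤ N → ∀ᶠ M0 : ℕ in atTop,
        ∑ M ∈ Finset.range M0, (iidLaw G).real (BadL s1 s2 N M (⌊s * M⌋ + k) x) ≤ δ * M0)
    (x k1 k2 : ℤ) {e : ℝ} (he : 0 < e) : ∃ N0 : ℕ, ∀ N M : ℕ, N0 ≤ N → N0 ≤ M →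
      ∫ t, |D t N (⌊s * N⌋ + k1) x - D t M (⌊s * M⌋ + k2) x| ∂(iidLaw G) ≤ e := by
  obtain ⟨s1, s2, p1, p2, hs1, hs2, hφ, hm1, hm2, hbad⟩ := hL (e / 4) (by positivity)
  -- uniform integrability
  set Y : Environment → ℝ := fun t => 2 * pR t (St 0 2) (x, 0) (x + 1, 0) with hYdef
  have iY : Integrable Y (iidLaw G) := (hY x).const_mul 2
  have hfin : ∫⁻ t, ENNReal.ofReal (Y t) ∂(iidLaw G) ≠ ∞ :=
    ((lintegral_ofReal_le_lintegral_enorm Y).trans_lt iY.2).ne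
  obtain ⟨δ, hδ, hδY⟩ := exists_pos_setLIntegral_lt_of_measure_lt hfin
    (ε := ENNReal.ofReal (e / 4)) (by simpa using by positivity)
  obtain ⟨δ', hδ', hδδ⟩ : ∃ δ' : ℝ, 0 < δ' ∧ ENNReal.ofReal (16 * δ') < δ := by
    rcases eq_or_ne δ ∞ with rfl | hne
    · exact ⟨1, one_pos, by simp⟩
    · refine ⟨δ.toReal / 32, by have := ENNReal.toReal_pos hδ.ne' hne; positivity, ?_⟩
      rw [ENNReal.ofReal_lt_iff_lt_toReal (by positivity) hne]
      have := ENNReal.toReal_pos hδ.ne' hne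
      linarith
  have hYnn : ∀ᵐ t ∂(iidLaw G), 0 ≤ Y t := by
    filter_upwards [ae_Nn (G := G) h0] with t ht
    have := pR_nonneg ht (St 0 2) (x, 0) (x + 1, 0)
    simp only [hYdef]
    linarith
  have hUI : ∀ S : Set Environment, (iidLaw G).real S ≤ 16 * δ' →
      ∫ t in S, Y t ∂(iidLaw G) ≤ e / 4 := by
    intro S hS
    have h1 : iidLaw G S < δ := by
      refine lt_of_le_of_lt ?_ hδδ
      rw [← ENNReal.ofReal_toReal (measure_ne_top (iidLaw G) S)]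
      exact ENNReal.ofReal_le_ofReal hS
    have h2 := hδY S h1
    rw [integral_eq_lintegral_of_nonneg_ae (ae_restrict_of_ae hYnn)
      iY.aestronglyMeasurable.restrict]
    exact ENNReal.toReal_le_of_le_ofReal (by positivity) h2.le
  obtain ⟨Na, hNa⟩ := hbad δ' hδ' x
  obtain ⟨Nb, hNb⟩ := hbad δ' hδ' (x + 1)
  -- means of the brackets
  have m3 := (hm1 x).sub (hm2 x)
  have m4 : ∀ᶠ N : ℕ in atTop, ∫ t, D t N (⌊s1 * N⌋ + 0) x ∂(iidLaw G) -
      ∫ t, D t N (⌊s2 * N⌋ + 1) x ∂(iidLaw G) < e / 4 :=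
    m3.eventually (gt_mem_nhds (by linarith))
  -- the target is inside the bracket
  have t0 : ∀ k : ℤ, ∀ᶠ N : ℕ in atTop, ((⌊s1 * N⌋ + 0 : ℤ)) ≤ ⌊s * N⌋ + k ∧
      ⌊s * N⌋ + k ≤ ⌊s2 * N⌋ + 1 := by
    intro k
    have a1 : Tendsto (fun N : ℕ => (s - s1) * (N : ℝ)) atTop atTop :=
      tendsto_natCast_atTop_atTop.const_mul_atTop (by linarith)
    have a2 : Tendsto (fun N : ℕ => (s2 - s) * (N : ℝ)) atTop atTop :=
      tendsto_natCast_atTop_atTop.const_mul_atTop (by linarith)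
    filter_upwards [a1.eventually_ge_atTop (|(k : ℝ)| + 2),
      a2.eventually_ge_atTop (|(k : ℝ)| + 2)] with N h1 h2
    have b1 := Int.floor_le (s1 * N)
    have b2 := Int.lt_floor_add_one (s1 * N)
    have b3 := Int.floor_le (s * N)
    have b4 := Int.lt_floor_add_one (s * N)
    have b5 := Int.floor_le (s2 * N)
    have b6 := Int.lt_floor_add_one (s2 * N)
    have b7 := neg_abs_le (k : ℝ)
    have b8 := le_abs_self (k : ℝ)
    have b9 := abs_nonneg (k : ℝ)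
    refine ⟨?_, ?_⟩
    · have : ((⌊s1 * N⌋ + 0 : ℤ) : ℝ) ≤ ((⌊s * N⌋ + k : ℤ) : ℝ) := by push_cast; linarith
      exact_mod_cast this
    · have : ((⌊s * N⌋ + k : ℤ) : ℝ) ≤ ((⌊s2 * N⌋ + 1 : ℤ) : ℝ) := by push_cast; linarith
      exact_mod_cast this
  obtain ⟨Nc, hNc⟩ := Filter.eventually_atTop.1 (m4.and ((t0 k1).and (t0 k2)))
  refine ⟨max (max Na Nb) (max Nc 2), fun N N' hN hN' => ?_⟩
  have aux : ∀ {n : ℕ}, max (max Na Nb) (max Nc 2) ≤ n → Na ≤ n ∧ Nb ≤ n ∧ Nc ≤ n ∧ 2 ≤ n :=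
    fun h => ⟨((le_max_left _ _).trans (le_max_left _ _)).trans h,
      ((le_max_right _ _).trans (le_max_left _ _)).trans h,
      ((le_max_left _ _).trans (le_max_right _ _)).trans h,
      ((le_max_right _ _).trans (le_max_right _ _)).trans h⟩
  obtain ⟨c1, c2, c3, c4⟩ := aux hN
  obtain ⟨c1', c2', c3', c4'⟩ := aux hN'
  -- a common far level
  obtain ⟨M, hM, hsm⟩ := exists_small_term
    (u := fun M => (iidLaw G).real (BadL s1 s2 N M (⌊s * M⌋ + k) x) +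
      (iidLaw G).real (BadL s1 s2 N M (⌊s * M⌋ + k) (x + 1)) +
      ((iidLaw G).real (BadL s1 s2 N' M (⌊s * M⌋ + k) x) +
      (iidLaw G).real (BadL s1 s2 N' M (⌊s * M⌋ + k) (x + 1)))) (fun n => by positivity)
    (δ := 4 * δ') (by positivity) (by
      filter_upwards [hNa N c1, hNb N c2, hNa N' c1', hNb N' c2'] with M0 g1 g2 g3 g4
      rw [Finset.sum_add_distrib, Finset.sum_add_distrib, Finset.sum_add_distrib]
      linarith) (max N N')
  have hNM : N ≤ M := (le_max_left _ _).trans hM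
  have hNM' : N' ≤ M := (le_max_right _ _).trans hM
  have key : ∀ {n : ℕ} (z : ℤ), 2 ≤ n → Nc ≤ n → n ≤ M → (⌊s1 * n⌋ + 0 : ℤ) ≤ z →
      z ≤ ⌊s2 * n⌋ + 1 → (iidLaw G).real (BadL s1 s2 n M (⌊s * M⌋ + k) x) +
        (iidLaw G).real (BadL s1 s2 n M (⌊s * M⌋ + k) (x + 1)) ≤ 16 * δ' →
      ∫ t, |D t M (⌊s * M⌋ + k) x - D t n z x| ∂(iidLaw G) ≤ e / 2 := by
    intro n z g1 g2 g3 g4 g5 g6
    have h1 := integral_abs_le h0 (hY x) (s1 := s1) (s2 := s2) g1 g3 (a := ⌊s1 * n⌋ + 0)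
      (a' := ⌊s2 * n⌋ + 1) (z := z) (b := ⌊s * M⌋ + k)
      (by rw [add_zero]; exact Int.floor_le _)
      (by push_cast; exact (Int.lt_floor_add_one _).le) g4 g5
    have h2 := (hNc n g2).1
    rw [integral_sub (integrable_D h0 (hY x) g1 _) (integrable_D h0 (hY x) g1 _)] at h1
    have h3 := hUI (BadL s1 s2 n M (⌊s * M⌋ + k) x ∪ BadL s1 s2 n M (⌊s * M⌋ + k) (x + 1))
      ((measureReal_union_le _ _).trans g6)
    linarith
  have r1 : 0 ≤ (iidLaw G).real (BadL s1 s2 N M (⌊s * M⌋ + k) x) +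
      (iidLaw G).real (BadL s1 s2 N M (⌊s * M⌋ + k) (x + 1)) := by positivity
  have r2 : 0 ≤ (iidLaw G).real (BadL s1 s2 N' M (⌊s * M⌋ + k) x) +
      (iidLaw G).real (BadL s1 s2 N' M (⌊s * M⌋ + k) (x + 1)) := by positivity
  have q1 := key (⌊s * N⌋ + k1) c4 c3 hNM (hNc N c3).2.1.1 (hNc N c3).2.1.2 (by linarith)
  have q2 := key (⌊s * N'⌋ + k2) c4' c3' hNM' (hNc N' c3').2.2.1 (hNc N' c3').2.2.2 (by linarith)
  have i1 := integrable_D h0 (hY x) (c4.trans hNM) (⌊s * M⌋ + k)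
  have i2 := integrable_D h0 (hY x) c4 (⌊s * N⌋ + k1)
  have i3 := integrable_D h0 (hY x) c4' (⌊s * N'⌋ + k2)
  have h5 : ∫ t, |D t N (⌊s * N⌋ + k1) x - D t N' (⌊s * N'⌋ + k2) x| ∂(iidLaw G) ≤
      ∫ t, (|D t M (⌊s * M⌋ + k) x - D t N (⌊s * N⌋ + k1) x| +
        |D t M (⌊s * M⌋ + k) x - D t N' (⌊s * N'⌋ + k2) x|) ∂(iidLaw G) := by
    refine integral_mono (i2.sub i3).abs ((i1.sub i2).abs.add (i1.sub i3).abs) fun t => ?_
    have := abs_sub_le (D t N (⌊s * N⌋ + k1) x) (D t M (⌊s * M⌋ + k) x) (D t N' (⌊s * N'⌋ + k2) x)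
    rw [abs_sub_comm (D t N (⌊s * N⌋ + k1) x) (D t M (⌊s * M⌋ + k) x)] at this
    exact this
  have e2 : ∫ t, (|D t M (⌊s * M⌋ + k) x - D t N (⌊s * N⌋ + k1) x| +
      |D t M (⌊s * M⌋ + k) x - D t N' (⌊s * N'⌋ + k2) x|) ∂(iidLaw G) =
      ∫ t, |D t M (⌊s * M⌋ + k) x - D t N (⌊s * N⌋ + k1) x| ∂(iidLaw G) +
        ∫ t, |D t M (⌊s * M⌋ + k) x - D t N' (⌊s * N'⌋ + k2) x| ∂(iidLaw G) :=
    integral_add (i1.sub i2).abs (i1.sub i3).abs
  rw [e2] at h5
  linarith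

/-- **c5 in 469's names**, from the localisation statement `loc`. -/
theorem Inp.cauchy_of_loc {m : ℝ} {μ : ℝ × ℝ → ℝ} (H : Inp G m μ)
    (hdiff : ∀ x : ℝ, DifferentiableAt ℝ (fun x : ℝ => μ (x, 1)) x) {s p : ℝ}
    (hd : HasDerivAt (fun x : ℝ => μ (x, 1)) p s) (hp : |p| < μ (1, 0)) (k : ℤ)
    (hloc : ∀ s1 s2 : ℝ, s1 < s → s < s2 → μ (s1, 1) ≠ μ (s, 1) + p * (s1 - s) →
      μ (s2, 1) ≠ μ (s, 1) + p * (s2 - s) → ∀ (x : ℤ) (d : ℝ), 0 < d → ∃ N1 : ℕ, ∀ N ≥ N1,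
        CL (fun M => (iidLaw G).real (BadL s1 s2 N M (⌊s * M⌋ + k) x)) d)
    (k1 k2 x : ℤ) : ∀ e > 0, ∃ N0 : ℕ, ∀ N ≥ N0, ∀ M ≥ N0,
      ∫ t, |D t N (⌊s * N⌋ + k1) x - D t M (⌊s * M⌋ + k2) x| ∂(iidLaw G) ≤ e := by
  intro e he
  have hn := H.norm
  rw [abs_lt] at hp
  obtain ⟨N0, hN0⟩ := cauchy_D (G := G) H.mom.h0
    (fun x => (H.regMom (a := 0) (b := 2) (by norm_num)).int _ (zero_mem_St (by norm_num)) _
      (zero_mem_St (by norm_num))) (s := s) (k := k) (fun ε hε => by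
      obtain ⟨s2, p2, a1, a2, a3, a4, -, a5⟩ := exists_right hn hdiff hd hp.2
        (ε := ε / 2) (by positivity)
      obtain ⟨s1, p1, b1, b2, b3, b4, -, b5⟩ := exists_left hn hdiff hd hp.1
        (ε := ε / 2) (by positivity)
      refine ⟨s1, s2, p1, p2, b1, a1, by linarith, fun x => ?_, fun x => ?_, fun δ hδ x => ?_⟩
      · have := (H.sg_tendsto b2 (0 - x - 1)).neg
        refine this.congr' ?_
        filter_upwards [eventually_ge_atTop 2] with N hN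
        rw [H.integral_D (by exact_mod_cast hN)]
        congr 2
        ring
      · have := (H.sg_tendsto a2 (1 - x - 1)).neg
        refine this.congr' ?_
        filter_upwards [eventually_ge_atTop 2] with N hN
        rw [H.integral_D (by exact_mod_cast hN)]
        congr 2
        ring
      · obtain ⟨N1, hN1⟩ := hloc s1 s2 b1 a1 b5 a5 x (δ / 2) (by positivity)
        refine ⟨N1, fun N hN => ?_⟩
        obtain ⟨J0, hJ0⟩ := hN1 N hN (δ / 2) (by positivity)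
        filter_upwards [eventually_ge_atTop J0] with J hJ
        have := hJ0 J hJ
        rwa [add_halves] at this) x k1 k2 he
  exact ⟨N0, fun N hN M hM => hN0 N M hN hM⟩

end integral

end Crest.Agent.R151.BUS
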