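import Crest.Agent.R151.L763c

/-!
# R151/L763d — Hopf–Lax for the label functions of the half planes (owner helper763)

Input: line limits `f0 τ` (structure `LineFns`).  Output: the functions `FH f0 τ k` on the half
planes `Hk k`, Hopf–Lax formulas between levels, Lipschitz and gradient properties.
-/

set_option autoImplicit false

open MeasureTheory Filter Topology
open Crest.ProbabilityR.FirstPassage

namespace Crest.Agent.R151.LIN

open K

/-- increments on row `k` of the passage time of the strip `[k, N]` to the point `(b, N)` -/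
noncomputable def gl (k N b : ℤ) (t : Environment) (x : ℤ) : ℝ :=
  pR t (Sp k N) (x, k) (b, N) - pR t (Sp k N) (0, k) (b, N)

/-- label function on row `k` -/
noncomputable def fl (f0 : ℝ → Environment → ℤ → ℝ) (τ : ℝ) (k : ℤ) (t : Environment) (x : ℤ) : ℝ :=
  f0 τ (A.shift (0, k) t) x - f0 τ (A.shift (0, k) t) 0

/-- Hopf–Lax functional of the half plane `Hk k` with datum on row `j` -/
noncomputable def mH (f0 : ℝ → Environment → ℤ → ℝ) (τ : ℝ) (k j : ℤ) (t : Environment)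
    (z : ℤ × ℤ) : ℝ :=
  ⨅ q : ℤ, (pR t (Hk k) z (q, j) + fl f0 τ j t q)

/-- **the label function of the half plane** `Hk k`, normalised at `(0, k)` -/
noncomputable def FH (f0 : ℝ → Environment → ℤ → ℝ) (τ : ℝ) (k : ℤ) (t : Environment)
    (z : ℤ × ℤ) : ℝ :=
  mH f0 τ k (max k z.2 + 1) t z - mH f0 τ k (max k z.2 + 1) t (0, k)

/-- the far target -/
noncomputable def bt (τ : ℝ) (N : ℤ) : ℤ × ℤ := (⌊τ * N⌋, N)

/-- **Input of HLX**: the line limits, for every direction `τ ∈ D`.  `cc τ` is `-` the slope of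
`f0 τ`.  The targets are `(z N, N)` with `z N - ⌊τ N⌋` bounded. -/
structure LineFns (G : Measure ℝ) (D : Set ℝ) (cc : ℝ → ℝ) (m1 : ℝ)
    (f0 : ℝ → Environment → ℤ → ℝ) : Prop where
  conv : ∀ τ ∈ D, ∀ (C : ℤ) (z : ℕ → ℤ), (∀ N : ℕ, |z N - ⌊τ * N⌋| ≤ C) → ∀ x : ℤ,
    ∀ ε : ℝ, 0 < ε → Tendsto (fun N : ℕ => (iidLaw G).real
      {t | ε ≤ |gl 0 N (z N) t x - (f0 τ t x - f0 τ t 0)|}) atTop (𝓝 0)
  slopeR : ∀ τ ∈ D, ∀ᵐ t ∂(iidLaw G), Tendsto (fun x : ℕ => f0 τ t x / x) atTop (𝓝 (-cc τ))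
  slopeL : ∀ τ ∈ D, ∀ᵐ t ∂(iidLaw G), Tendsto (fun x : ℕ => f0 τ t (-x) / x) atTop (𝓝 (cc τ))
  abs_lt : ∀ τ ∈ D, |cc τ| < m1
  lowR : ∀ τ ∈ D, ∃ τ' ∈ D, ∀ (C : ℤ) (z : ℕ → ℤ), (∀ N : ℕ, |z N - ⌊τ * N⌋| ≤ C) →
    Tendsto (fun N : ℕ => (iidLaw G).real
      {t | ∃ x : ℤ, 0 ≤ x ∧ gl 0 N (z N) t x < f0 τ' t x - f0 τ' t 0}) atTop (𝓝 0)
  lowL : ∀ τ ∈ D, ∃ τ' ∈ D, ∀ (C : ℤ) (z : ℕ → ℤ), (∀ N : ℕ, |z N - ⌊τ * N⌋| ≤ C) →
    Tendsto (fun N : ℕ => (iidLaw G).real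
      {t | ∃ x : ℤ, x ≤ 0 ∧ gl 0 N (z N) t x < f0 τ' t x - f0 τ' t 0}) atTop (𝓝 0)

variable {G : Measure ℝ} [IsProbabilityMeasure G] {D : Set ℝ} {cc : ℝ → ℝ} {m1 : ℝ}
  {f0 : ℝ → Environment → ℤ → ℝ}

lemma fl_zero (τ : ℝ) (k : ℤ) (t : Environment) : fl f0 τ k t 0 = 0 := by simp [fl]

lemma gl_shift (k N b : ℤ) (t : Environment) (x : ℤ) :
    gl k N b t x = gl 0 (N - k) b (A.shift (0, k) t) x := by
  unfold gl
  have h : ∀ u : ℤ × ℤ, u ∈ Sp 0 (N - k) ↔ u + (0, k) ∈ Sp k N := by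
    intro u
    simp only [mem_Sp, Prod.snd_add]
    omega
  rw [pR_shift t (0, k) h, pR_shift t (0, k) h]
  simp

lemma preserving (k : ℤ) : MeasurePreserving (A.shift (0, k)) (iidLaw G) (iidLaw G) :=
  A.mp_shift G (0, k)

/-- the shift of a not necessarily measurable set has at most... the same measure -/
lemma real_shift_eq (k : ℤ) (S : Set Environment) :
    (iidLaw G).real ((A.shift (0, k)) ⁻¹' S) = (iidLaw G).real S := by
  have h1 : (iidLaw G) ((A.shift (0, k)) ⁻¹' S) = (iidLaw G) S := by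
    let e : Environment ≃ᵐ Environment :=
      { toFun := A.shift (0, k)
        invFun := A.shift (0, -k)
        left_inv := fun t => by
          rw [A.shift_shift]
          have : ((0, -k) + (0, k) : ℤ × ℤ) = 0 := by ext <;> simp
          rw [this, A.shift_zero]
        right_inv := fun t => by
          rw [A.shift_shift]
          have : ((0, k) + (0, -k) : ℤ × ℤ) = 0 := by ext <;> simp
          rw [this, A.shift_zero]
        measurable_toFun := A.measurable_shift _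
        measurable_invFun := A.measurable_shift _ }
    have he : MeasurePreserving e (iidLaw G) (iidLaw G) := preserving k
    exact he.measure_preimage_equiv S
  rw [measureReal_def, measureReal_def, h1]

/-- the abscissa of the target at absolute height `N + j` -/
noncomputable def zj (τ : ℝ) (j : ℤ) (N : ℕ) : ℤ := ⌊τ * ((N : ℤ) + j : ℤ)⌋

lemma zj_close (τ : ℝ) (j : ℤ) (N : ℕ) : |zj τ j N - ⌊τ * N⌋| ≤ ⌈|τ * j|⌉ + 1 := by
  have h1 := Int.floor_le (τ * N)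
  have h2 := Int.lt_floor_add_one (τ * N)
  have h3 := Int.floor_le (τ * ((N : ℤ) + j : ℤ))
  have h4 := Int.lt_floor_add_one (τ * ((N : ℤ) + j : ℤ))
  have h5 := Int.le_ceil |τ * j|
  have h6 := abs_le.1 (le_refl |τ * j|)
  have key : |((zj τ j N - ⌊τ * N⌋ : ℤ) : ℝ)| < (⌈|τ * j|⌉ : ℝ) + 2 := by
    unfold zj
    push_cast at h3 h4 ⊢
    rw [abs_lt]
    constructor <;> nlinarith [h6.1, h6.2]
  have : |zj τ j N - ⌊τ * N⌋| < ⌈|τ * j|⌉ + 2 := by exact_mod_cast key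
  omega

lemma shift_zz (t : Environment) : A.shift (0, 0) t = t := A.shift_zero t

lemma real_congr_shift (k : ℤ) {S S' : Set Environment} (h : ∀ t, A.shift (0, k) t ∈ S ↔ t ∈ S') :
    (iidLaw G).real S = (iidLaw G).real S' := by
  rw [← real_shift_eq k S]
  congr 1
  ext t
  exact h t

lemma gl_row (τ : ℝ) (j : ℤ) (N : ℕ) (t : Environment) (x : ℤ) :
    gl 0 N (zj τ j N) (A.shift (0, j) t) x = gl j (N + j) (zj τ j N) t x := by
  rw [gl_shift j]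
  congr 1
  omega

/-- along the absolute heights `N + j` the functions of row `j` converge in probability -/
lemma conv_row (L : LineFns G D cc m1 f0) {τ : ℝ} (hτ : τ ∈ D) (j x : ℤ) {ε : ℝ} (hε : 0 < ε) :
    Tendsto (fun N : ℕ => (iidLaw G).real
      {t | ε ≤ |gl j (N + j) (zj τ j N) t x - fl f0 τ j t x|}) atTop (𝓝 0) := by
  have h := L.conv τ hτ _ _ (zj_close τ j) x ε hε
  refine h.congr fun N => ?_
  refine real_congr_shift j fun t => ?_
  simp only [Set.mem_ofPred_eq, gl_row, fl]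

lemma low_row_aux {τ τ' : ℝ} (j : ℤ) (s : ℤ → Prop)
    (h : Tendsto (fun N : ℕ => (iidLaw G).real
      {t | ∃ x : ℤ, s x ∧ gl 0 N (zj τ j N) t x < f0 τ' t x - f0 τ' t 0}) atTop (𝓝 0)) :
    Tendsto (fun N : ℕ => (iidLaw G).real
      {t | ∃ x : ℤ, s x ∧ gl j (N + j) (zj τ j N) t x < fl f0 τ' j t x}) atTop (𝓝 0) := by
  refine h.congr fun N => ?_
  refine real_congr_shift j fun t => ?_
  simp only [Set.mem_ofPred_eq, gl_row, fl]

/-- change of parametrisation: heights `N` instead of `N + j` -/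
lemma tendsto_reheight (j : ℤ) {u : ℤ → ℝ}
    (h : Tendsto (fun N : ℕ => u (N + j)) atTop (𝓝 0)) :
    Tendsto (fun N : ℕ => u N) atTop (𝓝 0) := by
  rw [Metric.tendsto_atTop] at h ⊢
  intro ε hε
  obtain ⟨N0, hN0⟩ := h ε hε
  refine ⟨N0 + j.natAbs, fun N hN => ?_⟩
  have h1 : ((((N : ℤ) - j).toNat : ℕ) : ℤ) = (N : ℤ) - j := by
    rw [Int.toNat_of_nonneg]; omega
  have h2 := hN0 ((N : ℤ) - j).toNat (by omega)
  rw [h1] at h2
  simpa using h2

/-- function of row `j` at the finite height `N` -/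
noncomputable def gN (τ : ℝ) (j : ℤ) (N : ℤ) (t : Environment) (x : ℤ) : ℝ :=
  gl j N ⌊τ * N⌋ t x

/-- **the subsequence of heights** -/
theorem exists_sub (L : LineFns G D cc m1 f0) {τ : ℝ} (hτ : τ ∈ D) :
    ∃ τR ∈ D, ∃ τL ∈ D, ∃ Ns : ℕ → ℕ, StrictMono Ns ∧ ∀ᵐ t ∂(iidLaw G), ∀ j : ℤ,
      (∀ x : ℤ, Tendsto (fun i => gN τ j (Ns i) t x) atTop (𝓝 (fl f0 τ j t x))) ∧
      (∀ᶠ i in atTop, ∀ x : ℤ, 0 ≤ x → fl f0 τR j t x ≤ gN τ j (Ns i) t x) ∧
      (∀ᶠ i in atTop, ∀ x : ℤ, x ≤ 0 → fl f0 τL j t x ≤ gN τ j (Ns i) t x) := by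
  classical
  obtain ⟨τR, hR, hR'⟩ := L.lowR τ hτ
  obtain ⟨τL, hL, hL'⟩ := L.lowL τ hτ
  refine ⟨τR, hR, τL, hL, ?_⟩
  let X : (ℤ × ℤ) ⊕ (ℤ ⊕ ℤ) → ℕ → Environment → ℝ := fun a N t =>
    match a with
    | Sum.inl (j, x) => |gN τ j N t x - fl f0 τ j t x|
    | Sum.inr (Sum.inl j) => if ∃ x : ℤ, 0 ≤ x ∧ gN τ j N t x < fl f0 τR j t x then 1 else 0
    | Sum.inr (Sum.inr j) => if ∃ x : ℤ, x ≤ 0 ∧ gN τ j N t x < fl f0 τL j t x then 1 else 0
  have hX : ∀ a, ∀ ε : ℝ, 0 < ε →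
      Tendsto (fun N => (iidLaw G).real {t | ε ≤ X a N t}) atTop (𝓝 0) := by
    rintro (⟨j, x⟩ | j | j) ε hε
    · refine tendsto_reheight j (u := fun N : ℤ => (iidLaw G).real
        {t | ε ≤ |gN τ j N t x - fl f0 τ j t x|}) ?_
      have := conv_row L hτ j x hε
      exact this
    · have h1 := tendsto_reheight j (u := fun N : ℤ => (iidLaw G).real
        {t | ∃ x : ℤ, 0 ≤ x ∧ gN τ j N t x < fl f0 τR j t x})
        (low_row_aux j (fun x => 0 ≤ x) (hR' _ _ (zj_close τ j)))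
      refine squeeze_zero (fun _ => measureReal_nonneg) (fun N => ?_) h1
      refine measureReal_mono (fun t ht => ?_) (measure_ne_top _ _)
      simp only [X, Set.mem_ofPred_eq] at ht ⊢
      by_contra hcon
      rw [if_neg hcon] at ht
      linarith
    · have h1 := tendsto_reheight j (u := fun N : ℤ => (iidLaw G).real
        {t | ∃ x : ℤ, x ≤ 0 ∧ gN τ j N t x < fl f0 τL j t x})
        (low_row_aux j (fun x => x ≤ 0) (hL' _ _ (zj_close τ j)))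
      refine squeeze_zero (fun _ => measureReal_nonneg) (fun N => ?_) h1
      refine measureReal_mono (fun t ht => ?_) (measure_ne_top _ _)
      simp only [X, Set.mem_ofPred_eq] at ht ⊢
      by_contra hcon
      rw [if_neg hcon] at ht
      linarith
  obtain ⟨Ns, hNs, hae⟩ := exists_diag X hX
  refine ⟨Ns, hNs, ?_⟩
  filter_upwards [hae] with t ht j
  refine ⟨fun x => ?_, ?_, ?_⟩
  · rw [Metric.tendsto_atTop]
    intro ε hε
    obtain ⟨i0, hi0⟩ := (ht (Sum.inl (j, x)) ε hε).exists_forall_of_atTop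
    exact ⟨i0, fun i hi => by rw [Real.dist_eq]; exact hi0 i hi⟩
  · filter_upwards [ht (Sum.inr (Sum.inl j)) 1 one_pos] with i hi x hx
    by_contra hcon
    push Not at hcon
    simp only [X] at hi
    rw [if_pos ⟨x, hx, hcon⟩] at hi
    exact lt_irrefl _ hi
  · filter_upwards [ht (Sum.inr (Sum.inr j)) 1 one_pos] with i hi x hx
    by_contra hcon
    push Not at hcon
    simp only [X] at hi
    rw [if_pos ⟨x, hx, hcon⟩] at hi
    exact lt_irrefl _ hi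

/-- a function on `ℕ` with slope `> -c` is at least `-(c x) - B` -/
lemma exists_lower {u : ℕ → ℝ} {a c : ℝ} (h : Tendsto (fun x : ℕ => u x / x) atTop (𝓝 a))
    (hc : -c < a) : ∃ B : ℝ, ∀ x : ℕ, -(c * x) - B ≤ u x := by
  have h1 := (h.eventually (lt_mem_nhds hc)).and (eventually_gt_atTop 0)
  obtain ⟨x0, hx0⟩ := h1.exists_forall_of_atTop
  refine ⟨∑ x ∈ Finset.range x0, |u x + c * x|, fun x => ?_⟩
  have hnn : 0 ≤ ∑ x ∈ Finset.range x0, |u x + c * x| := Finset.sum_nonneg fun _ _ => abs_nonneg _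
  by_cases hx : x < x0
  · have := Finset.single_le_sum (f := fun x : ℕ => |u x + c * x|) (fun _ _ => abs_nonneg _)
      (Finset.mem_range.2 hx)
    have h2 := neg_abs_le (u x + c * x)
    linarith
  · push Not at hx
    obtain ⟨h2, h3⟩ := hx0 x hx
    have h4 : (0 : ℝ) < x := by exact_mod_cast h3
    rw [lt_div_iff₀ h4] at h2
    linarith

/-- everything that is needed about one environment, for a fixed direction `τ` -/
structure Good (f0 : ℝ → Environment → ℤ → ℝ) (m1 τ : ℝ) (Ns : ℕ → ℕ) (t : Environment) : Prop where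
  nn : Nn t
  sub : StrictMono Ns
  conv : ∀ j x : ℤ, Tendsto (fun i => gN τ j (Ns i) t x) atTop (𝓝 (fl f0 τ j t x))
  low : ∃ c2 < m1, ∀ j : ℤ, ∃ B : ℝ, ∀ᶠ i in atTop, ∀ x : ℤ,
    -(c2 * |(x : ℝ)|) - B ≤ gN τ j (Ns i) t x
  coer : ∀ c < m1, ∀ z : ℤ × ℤ, ∃ B : ℝ, ∀ w : ℤ × ℤ, c * |(w.1 : ℝ)| - B ≤ passageTime t z w

theorem ae_good (L : LineFns G D cc m1 f0) (h0 : G (Set.Iio 0) = 0) (hz : G {0} = 0)
    (hm : 0 < m1) (hB : W.BlockRare G m1) {τ : ℝ} (hτ : τ ∈ D) :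
    ∃ Ns : ℕ → ℕ, ∀ᵐ t ∂(iidLaw G), Good f0 m1 τ Ns t := by
  obtain ⟨τR, hR, τL, hL, Ns, hNs, hae⟩ := exists_sub L hτ
  refine ⟨Ns, ?_⟩
  have hsR : ∀ᵐ t ∂(iidLaw G), ∀ j : ℤ,
      Tendsto (fun x : ℕ => f0 τR (A.shift (0, j) t) x / x) atTop (𝓝 (-cc τR)) := by
    rw [ae_all_iff]; intro j
    exact (preserving j).quasiMeasurePreserving.ae (L.slopeR τR hR)
  have hsL : ∀ᵐ t ∂(iidLaw G), ∀ j : ℤ,
      Tendsto (fun x : ℕ => f0 τL (A.shift (0, j) t) (-x) / x) atTop (𝓝 (cc τL)) := by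
    rw [ae_all_iff]; intro j
    exact (preserving j).quasiMeasurePreserving.ae (L.slopeL τL hL)
  filter_upwards [hae, hsR, hsL, ae_Nn h0, ae_coer h0 hz hm hB] with t h1 h2 h3 h4 h5
  have hcR := L.abs_lt τR hR
  have hcL := L.abs_lt τL hL
  obtain ⟨c2, hc2, hc2'⟩ := exists_between (max_lt hcR hcL)
  have hR2 : |cc τR| < c2 := (le_max_left _ _).trans_lt hc2
  have hL2 : |cc τL| < c2 := (le_max_right _ _).trans_lt hc2
  refine ⟨h4, hNs, fun j x => (h1 j).1 x, ⟨c2, hc2', fun j => ?_⟩, h5⟩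
  obtain ⟨BR, hBR⟩ := exists_lower (c := c2) (h2 j) (by
    have := (abs_lt.1 hR2).2; linarith)
  obtain ⟨BL, hBL⟩ := exists_lower (c := c2) (h3 j) (by
    have := (abs_lt.1 hL2).1; linarith)
  refine ⟨max (BR + f0 τR (A.shift (0, j) t) 0) (BL + f0 τL (A.shift (0, j) t) 0), ?_⟩
  filter_upwards [(h1 j).2.1, (h1 j).2.2] with i h6 h7 x
  rcases le_total 0 x with hx | hx
  · have h8 := h6 x hx
    obtain ⟨n, rfl⟩ := Int.eq_ofNat_of_zero_le hx
    have h9 := hBR n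
    have h10 := le_max_left (BR + f0 τR (A.shift (0, j) t) 0) (BL + f0 τL (A.shift (0, j) t) 0)
    simp only [fl] at h8
    have h11 : |((n : ℤ) : ℝ)| = (n : ℝ) := by simp
    rw [h11]
    linarith
  · have h8 := h7 x hx
    obtain ⟨n, hn⟩ := Int.eq_ofNat_of_zero_le (show 0 ≤ -x by omega)
    have hx' : x = -(n : ℤ) := by omega
    subst hx'
    have h9 := hBL n
    have h10 := le_max_right (BR + f0 τR (A.shift (0, j) t) 0) (BL + f0 τL (A.shift (0, j) t) 0)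
    simp only [fl] at h8
    have h11 : |((-(n : ℤ) : ℤ) : ℝ)| = (n : ℝ) := by simp
    rw [h11]
    linarith

variable {τ : ℝ} {Ns : ℕ → ℕ} {t : Environment}

lemma Good.tendsto_Ns (h : Good f0 m1 τ Ns t) : Tendsto (fun i => ((Ns i : ℕ) : ℤ)) atTop atTop :=
  tendsto_natCast_atTop_atTop.comp h.sub.tendsto_atTop

/-- **The basic limit**: Hopf–Lax from row `j`. -/
theorem Good.main (h : Good f0 m1 τ Ns t) {k j : ℤ} (hkj : k ≤ j) {z : ℤ × ℤ} (hz : z ∈ Hk k)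
    (hzj : z.2 ≤ j) :
    BddBelow (Set.range fun q : ℤ => pR t (Hk k) z (q, j) + fl f0 τ j t q) ∧
    Tendsto (fun i => pR t (Sp k (Ns i)) z (bt τ (Ns i)) - pR t (Sp j (Ns i)) (0, j) (bt τ (Ns i)))
      atTop (𝓝 (mH f0 τ k j t z)) ∧
    ∃ q : ℤ, pR t (Hk k) z (q, j) + fl f0 τ j t q = mH f0 τ k j t z := by
  obtain ⟨c2, hc2, hlow⟩ := h.low
  obtain ⟨B2, hB2⟩ := hlow j
  obtain ⟨c1, hc1, hc1'⟩ := exists_between hc2
  obtain ⟨B1, hB1⟩ := h.coer c1 hc1' z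
  have hbig : ∀ᶠ i in atTop, j ≤ Ns i := h.tendsto_Ns.eventually_ge_atTop j
  refine hopfLax_lim h.nn hkj hz h.tendsto_Ns (g := fun i q => gN τ j (Ns i) t q)
    (fun q => h.conv j q) hc1 (fun q => hB1 (q, j)) hB2 ?_ ?_
  · filter_upwards [hbig] with i hi q
    have m1 : z ∈ Sp k (Ns i) := ⟨hz, hzj.trans hi⟩
    have m2 : ((q, j) : ℤ × ℤ) ∈ Sp k (Ns i) := ⟨hkj, hi⟩
    have m3 : ((q, j) : ℤ × ℤ) ∈ Sp j (Ns i) := ⟨le_rfl, hi⟩
    have m4 : bt τ (Ns i) ∈ Sp k (Ns i) := ⟨hkj.trans hi, le_rfl⟩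
    have m5 : bt τ (Ns i) ∈ Sp j (Ns i) := ⟨hi, le_rfl⟩
    have h1 := pR_triangle h.nn (conn_Sp m1 m2) (conn_Sp m2 m4)
    have h2 : pR t (Sp k (Ns i)) (q, j) (bt τ (Ns i)) ≤ pR t (Sp j (Ns i)) (q, j) (bt τ (Ns i)) :=
      pR_anti h.nn (fun u (hu : j ≤ u.2 ∧ u.2 ≤ _) => (⟨hkj.trans hu.1, hu.2⟩ : k ≤ u.2 ∧ u.2 ≤ _))
        (conn_Sp m3 m5)
    simp only [gN, gl]
    change _ ≤ pR t (Sp k (Ns i)) z (q, j) + (pR t (Sp j (Ns i)) (q, j) (bt τ (Ns i)) -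
      pR t (Sp j (Ns i)) (0, j) (bt τ (Ns i)))
    linarith
  · filter_upwards [hbig] with i hi ε hε
    have m1 : z ∈ Sp k (Ns i) := ⟨hz, hzj.trans hi⟩
    have m4 : bt τ (Ns i) ∈ Sp k (Ns i) := ⟨hkj.trans hi, le_rfl⟩
    obtain ⟨q, -, -, hq⟩ := exists_cut h.nn (conn_Sp m1 m4) hzj (show j ≤ (bt τ (Ns i)).2 from hi) hε
    rw [Sp_inter hkj] at hq
    refine ⟨q, ?_⟩
    simp only [gN, gl]
    change pR t (Sp k (Ns i)) z (q, j) + (pR t (Sp j (Ns i)) (q, j) (bt τ (Ns i)) -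
      pR t (Sp j (Ns i)) (0, j) (bt τ (Ns i))) ≤ _
    linarith

end Crest.Agent.R151.LIN
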