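import Mathlib

/-!
# R151/H617a — block (C) CHAIN of the S0213 plan (owner helper617), abstract part

`chain_ae`: two independent families of label functions indexed by slopes cannot both have a
jump at the same slope.
-/

set_option autoImplicit false

open MeasureTheory ProbabilityTheory Filter Set
open scoped ENNReal Topology

namespace Crest.Agent.R151.H

/-- horizontal increment of a function on the line -/
def inc (h : ℤ → ℝ) (x : ℤ) : ℝ := h (x + 1) - h x

/-- total variation of `h - k` in the window `[-w, w)` -/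
noncomputable def tv (w : ℕ) (h k : ℤ → ℝ) : ℝ :=
  ∑ x ∈ Finset.Ico (-(w : ℤ)) w, |inc h x - inc k x|

lemma tv_nonneg (w : ℕ) (h k : ℤ → ℝ) : 0 ≤ tv w h k :=
  Finset.sum_nonneg fun _ _ => abs_nonneg _

lemma tv_mono {w w' : ℕ} (hw : w ≤ w') (h k : ℤ → ℝ) : tv w h k ≤ tv w' h k := by
  unfold tv
  refine Finset.sum_le_sum_of_subset_of_nonneg ?_ fun _ _ _ => abs_nonneg _
  intro x hx
  rw [Finset.mem_Ico] at hx ⊢
  omega

lemma abs_inc_sub_le_tv {w : ℕ} (h k : ℤ → ℝ) {x : ℤ} (hx : x ∈ Finset.Ico (-(w : ℤ)) w) :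
    |inc h x - inc k x| ≤ tv w h k :=
  Finset.single_le_sum (f := fun x => |inc h x - inc k x|) (fun _ _ => abs_nonneg _) hx

/-- `f` is continuous at the slope `s` along the set `D` of slopes -/
def ContAt (D : Set ℝ) (f : ℝ → ℤ → ℝ) (s : ℝ) : Prop :=
  ∀ w : ℕ, ∀ ε : ℝ, 0 < ε → ∃ p ∈ D, ∃ q ∈ D, p < s ∧ s < q ∧ tv w (f p) (f q) ≤ ε

variable {Ω : Type*} [MeasurableSpace Ω] {P : Measure Ω}

lemma measurable_inc {F : Ω → ℤ → ℝ} (hF : ∀ x, Measurable fun ω => F ω x) (x : ℤ) :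
    Measurable fun ω => inc (F ω) x := (hF (x + 1)).sub (hF x)

lemma measurable_tv {F G : Ω → ℤ → ℝ} (hF : ∀ x, Measurable fun ω => F ω x)
    (hG : ∀ x, Measurable fun ω => G ω x) (w : ℕ) : Measurable fun ω => tv w (F ω) (G ω) := by
  unfold tv
  exact Finset.measurable_sum _ fun x _ =>
    ((measurable_inc hF x).sub (measurable_inc hG x)).abs

/-- the expected total variation -/
lemma lintegral_tv_le {F G : Ω → ℤ → ℝ} (hF : ∀ x, Measurable fun ω => F ω x)
    (hG : ∀ x, Measurable fun ω => G ω x) (w : ℕ) {c : ℝ}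
    (h : ∀ x, ∫⁻ ω, ENNReal.ofReal |inc (F ω) x - inc (G ω) x| ∂P ≤ ENNReal.ofReal c) :
    ∫⁻ ω, ENNReal.ofReal (tv w (F ω) (G ω)) ∂P ≤ ENNReal.ofReal (2 * w * c) := by
  have e1 : ∀ ω, ENNReal.ofReal (tv w (F ω) (G ω)) =
      ∑ x ∈ Finset.Ico (-(w : ℤ)) w, ENNReal.ofReal |inc (F ω) x - inc (G ω) x| := by
    intro ω
    exact ENNReal.ofReal_sum_of_nonneg fun _ _ => abs_nonneg _
  simp_rw [e1]
  rw [lintegral_finsetSum]
  · refine (Finset.sum_le_sum fun x _ => h x).trans ?_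
    rw [Finset.sum_const, Int.card_Ico, nsmul_eq_mul, ENNReal.ofReal_mul (by positivity)]
    refine mul_le_mul_left ?_ _ |>.trans_eq rfl
    rw [show (2 * (w : ℝ)) = (((w : ℤ) - -(w : ℤ)).toNat : ℝ) by
      have : ((w : ℤ) - -(w : ℤ)).toNat = 2 * w := by omega
      rw [this]; push_cast; ring]
    rw [ENNReal.ofReal_natCast]
  · intro x _
    exact (((measurable_inc hF x).sub (measurable_inc hG x)).abs).ennreal_ofReal

/-- one cell: the probability that both families jump -/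
lemma cell_le [IsProbabilityMeasure P] {F F' G G' : Ω → ℤ → ℝ}
    (hF : ∀ x, Measurable fun ω => F ω x) (hF' : ∀ x, Measurable fun ω => F' ω x)
    (hG : ∀ x, Measurable fun ω => G ω x) (hG' : ∀ x, Measurable fun ω => G' ω x)
    (w : ℕ) {c κ : ℝ} (hc : 0 ≤ c) (hκ : 0 < κ)
    (h1 : ∀ x, ∫⁻ ω, ENNReal.ofReal |inc (F ω) x - inc (F' ω) x| ∂P ≤ ENNReal.ofReal c)
    (h2 : ∀ x, ∫⁻ ω, ENNReal.ofReal |inc (G ω) x - inc (G' ω) x| ∂P ≤ ENNReal.ofReal c)
    (hi : IndepFun (fun ω => tv w (F ω) (F' ω)) (fun ω => tv w (G ω) (G' ω)) P) :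
    P {ω | κ < tv w (F ω) (F' ω) ∧ κ < tv w (G ω) (G' ω)} ≤
      ENNReal.ofReal ((2 * w * c / κ) ^ 2) := by
  have key : ∀ {F F' : Ω → ℤ → ℝ}, (∀ x, Measurable fun ω => F ω x) →
      (∀ x, Measurable fun ω => F' ω x) →
      (∀ x, ∫⁻ ω, ENNReal.ofReal |inc (F ω) x - inc (F' ω) x| ∂P ≤ ENNReal.ofReal c) →
      P {ω | κ < tv w (F ω) (F' ω)} ≤ ENNReal.ofReal (2 * w * c / κ) := by
    intro F F' hF hF' h
    have hm := lintegral_tv_le (P := P) hF hF' w h
    have hmk := mul_meas_ge_le_lintegral₀ (μ := P)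
      (f := fun ω => ENNReal.ofReal (tv w (F ω) (F' ω)))
      (measurable_tv hF hF' w).ennreal_ofReal.aemeasurable (ENNReal.ofReal κ)
    have hk0 : ENNReal.ofReal κ ≠ 0 := by simpa using hκ
    rw [ENNReal.ofReal_div_of_pos hκ, ENNReal.le_div_iff_mul_le (Or.inl hk0)
      (Or.inl ENNReal.ofReal_ne_top), mul_comm]
    refine le_trans ?_ (hmk.trans hm)
    refine mul_le_mul_right (measure_mono fun ω hω => ?_) _
    exact ENNReal.ofReal_le_ofReal (le_of_lt hω)
  have hset : {ω | κ < tv w (F ω) (F' ω) ∧ κ < tv w (G ω) (G' ω)} =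
      (fun ω => tv w (F ω) (F' ω)) ⁻¹' (Ioi κ) ∩ (fun ω => tv w (G ω) (G' ω)) ⁻¹' (Ioi κ) := rfl
  rw [hset, hi.measure_inter_preimage_eq_mul _ _ measurableSet_Ioi measurableSet_Ioi, sq,
    ENNReal.ofReal_mul (by positivity)]
  exact mul_le_mul' (key hF hF' h1) (key hG hG' h2)

/-- the bad set: some slope of `(a,b)` where both families jump by more than `κ` on `[-w,w)` -/
def Bad (D : Set ℝ) (f g : ℝ → Ω → ℤ → ℝ) (a b : ℝ) (w : ℕ) (κ : ℝ) : Set Ω :=
  {ω | ∃ s, a < s ∧ s < b ∧ ∀ p ∈ D, ∀ q ∈ D, p < s → s < q →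
    κ < tv w (f p ω) (f q ω) ∧ κ < tv w (g p ω) (g q ω)}

theorem measure_bad [IsProbabilityMeasure P] {D : Set ℝ} {A B C : ℝ}
    (hD : ∀ x y, A < x → x < y → y < B → ∃ p ∈ D, x < p ∧ p < y)
    {f g : ℝ → Ω → ℤ → ℝ}
    (hf : ∀ p ∈ D, ∀ x, Measurable fun ω => f p ω x)
    (hg : ∀ p ∈ D, ∀ x, Measurable fun ω => g p ω x) (hC : 0 ≤ C)
    (h1 : ∀ p ∈ D, ∀ q ∈ D, p ≤ q → ∀ x,
      ∫⁻ ω, ENNReal.ofReal |inc (f p ω) x - inc (f q ω) x| ∂P ≤ ENNReal.ofReal (C * (q - p)))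
    (h2 : ∀ p ∈ D, ∀ q ∈ D, p ≤ q → ∀ x,
      ∫⁻ ω, ENNReal.ofReal |inc (g p ω) x - inc (g q ω) x| ∂P ≤ ENNReal.ofReal (C * (q - p)))
    (hi : ∀ p ∈ D, ∀ q ∈ D, ∀ w : ℕ,
      IndepFun (fun ω => tv w (f p ω) (f q ω)) (fun ω => tv w (g p ω) (g q ω)) P)
    {a b : ℝ} (ha : A < a) (hb : b < B) (w : ℕ) {κ : ℝ} (hκ : 0 < κ) :
    P (Bad D f g a b w κ) = 0 := by
  rcases le_or_gt b a with hba | hab
  · have : Bad D f g a b w κ = ∅ := by
      ext ω
      simp only [Bad, mem_ofPred_eq, mem_empty_iff_false, iff_false, not_exists, not_and]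
      intro s h1 h2
      linarith
    rw [this, measure_empty]
  obtain ⟨a', ha1, ha2⟩ := exists_between ha
  obtain ⟨b', hb1, hb2⟩ := exists_between hb
  set L : ℝ := b' - a' with hL
  have hL0 : 0 < L := by linarith
  set K : ℝ := (2 * w * (C * (3 * L)) / κ) ^ 2 with hK
  have hK0 : 0 ≤ K := sq_nonneg _
  -- the bound for every large `n`
  have main : ∀ n : ℕ, 0 < n → L / n ≤ a - a' → 2 * (L / n) ≤ b' - b →
      P (Bad D f g a b w κ) ≤ ENNReal.ofReal (K / n) := by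
    intro n hn hna hnb
    have hn' : (0 : ℝ) < n := by exact_mod_cast hn
    set δ : ℝ := L / n with hδ
    have hδ0 : 0 < δ := by positivity
    have hnδ : n * δ = L := by rw [hδ]; field_simp
    have hex : ∀ i : ℕ, i < n → ∃ p ∈ D, a' + i * δ < p ∧ p < a' + (i + 1) * δ := by
      intro i hi'
      have hi1 : (0 : ℝ) ≤ i := Nat.cast_nonneg i
      have hi2 : (i : ℝ) + 1 ≤ n := by exact_mod_cast hi'
      refine hD _ _ ?_ ?_ ?_
      · have : 0 ≤ (i : ℝ) * δ := by positivity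
        linarith
      · linarith
      · have : ((i : ℝ) + 1) * δ ≤ n * δ := by gcongr
        rw [hnδ] at this
        linarith
    choose! pk hpD hpl hpu using hex
    have hsub : Bad D f g a b w κ ⊆ ⋃ i ∈ Finset.range (n - 2),
        {ω | κ < tv w (f (pk i) ω) (f (pk (i + 2)) ω) ∧
          κ < tv w (g (pk i) ω) (g (pk (i + 2)) ω)} := by
      rintro ω ⟨s, hs1, hs2, hs⟩
      have hs0 : 0 ≤ (s - a') / δ := by
        apply div_nonneg _ hδ0.le
        linarith
      set m : ℕ := ⌊(s - a') / δ⌋₊ with hm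
      have hm1 : (m : ℝ) * δ ≤ s - a' := by
        have := Nat.floor_le hs0
        rwa [← hm, le_div_iff₀ hδ0] at this
      have hm2 : s - a' < (m + 1) * δ := by
        have := Nat.lt_floor_add_one ((s - a') / δ)
        rwa [← hm, div_lt_iff₀ hδ0] at this
      have hm3 : 1 ≤ m := by
        by_contra h
        have h0 : m = 0 := by omega
        rw [h0] at hm2
        simp only [Nat.cast_zero, zero_add, one_mul] at hm2
        linarith
      have hm4 : m + 2 ≤ n := by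
        have : ((m : ℝ) + 2) * δ < n * δ + δ := by
          rw [hnδ]
          nlinarith
        have h3 : (m : ℝ) + 2 < n + 1 := by
          have h4 : ((m : ℝ) + 2) * δ < (n + 1) * δ := by linarith
          exact lt_of_mul_lt_mul_right h4 hδ0.le
        have h5 : m + 2 < n + 1 := by exact_mod_cast h3
        omega
      obtain ⟨i, hmi⟩ : ∃ i, m = i + 1 := ⟨m - 1, by omega⟩
      rw [hmi] at hm1 hm2 hm3 hm4
      rw [mem_iUnion₂]
      refine ⟨i, Finset.mem_range.2 (by omega), ?_⟩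
      have u1 := hpu i (by omega)
      have u2 := hpl (i + 2) (by omega)
      push_cast at hm1 hm2 u1 u2
      refine hs _ (hpD i (by omega)) _ (hpD (i + 2) (by omega)) ?_ ?_
      · linarith
      · have : ((i : ℝ) + 1 + 1) * δ = (i + 2) * δ := by ring
        linarith
    refine (measure_mono hsub).trans ((measure_biUnion_finset_le _ _).trans ?_)
    have hcell : ∀ i ∈ Finset.range (n - 2),
        P {ω | κ < tv w (f (pk i) ω) (f (pk (i + 2)) ω) ∧
          κ < tv w (g (pk i) ω) (g (pk (i + 2)) ω)} ≤ ENNReal.ofReal (K / n / n) := by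
      intro i hi'
      rw [Finset.mem_range] at hi'
      have u1 := hpl i (by omega)
      have u1' := hpu i (by omega)
      have u2 := hpu (i + 2) (by omega)
      have u2' := hpl (i + 2) (by omega)
      push_cast at u1 u1' u2 u2'
      have hle : pk i ≤ pk (i + 2) := by nlinarith
      have hlen : pk (i + 2) - pk i ≤ 3 * δ := by nlinarith
      have hcc : ENNReal.ofReal (C * (pk (i + 2) - pk i)) ≤ ENNReal.ofReal (C * (3 * δ)) :=
        ENNReal.ofReal_le_ofReal (mul_le_mul_of_nonneg_left hlen hC)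
      have := cell_le (P := P) (hf _ (hpD i (by omega))) (hf _ (hpD (i + 2) (by omega)))
        (hg _ (hpD i (by omega))) (hg _ (hpD (i + 2) (by omega))) w
        (c := C * (3 * δ)) (by positivity) hκ
        (fun x => (h1 _ (hpD i (by omega)) _ (hpD (i + 2) (by omega)) hle x).trans hcc)
        (fun x => (h2 _ (hpD i (by omega)) _ (hpD (i + 2) (by omega)) hle x).trans hcc)
        (hi _ (hpD i (by omega)) _ (hpD (i + 2) (by omega)) w)
      refine this.trans_eq ?_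
      congr 1
      rw [hK, hδ]
      field_simp
    refine (Finset.sum_le_sum hcell).trans ?_
    rw [Finset.sum_const, Finset.card_range, nsmul_eq_mul, ← ENNReal.ofReal_natCast,
      ← ENNReal.ofReal_mul (Nat.cast_nonneg _)]
    refine ENNReal.ofReal_le_ofReal ?_
    have h5 : (((n - 2 : ℕ) : ℝ)) ≤ n := by exact_mod_cast Nat.sub_le n 2
    calc ((n - 2 : ℕ) : ℝ) * (K / n / n) ≤ n * (K / n / n) := by gcongr
      _ = K / n := by field_simp
  -- let `n → ∞`
  have hlim1 : Tendsto (fun n : ℕ => L / n) atTop (𝓝 0) := tendsto_const_div_atTop_nhds_zero_nat L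
  have hlim2 : Tendsto (fun n : ℕ => ENNReal.ofReal (K / n)) atTop (𝓝 0) := by
    have := ENNReal.tendsto_ofReal (tendsto_const_div_atTop_nhds_zero_nat K)
    simpa using this
  have hev : ∀ᶠ n : ℕ in atTop, P (Bad D f g a b w κ) ≤ ENNReal.ofReal (K / n) := by
    have e1 : ∀ᶠ n : ℕ in atTop, L / n < a - a' := hlim1.eventually_lt_const (by linarith)
    have e2 : ∀ᶠ n : ℕ in atTop, L / n < (b' - b) / 2 := hlim1.eventually_lt_const (by linarith)
    filter_upwards [e1, e2, eventually_gt_atTop 0] with n h1 h2 h3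
    exact main n h3 h1.le (by linarith)
  exact le_antisymm (ge_of_tendsto hlim2 hev) zero_le

/-- **(C) CHAIN**: two independent label families never jump at the same slope. -/
theorem chain_ae [IsProbabilityMeasure P] {D : Set ℝ} {A B C : ℝ}
    (hD : ∀ x y, A < x → x < y → y < B → ∃ p ∈ D, x < p ∧ p < y)
    {f g : ℝ → Ω → ℤ → ℝ}
    (hf : ∀ p ∈ D, ∀ x, Measurable fun ω => f p ω x)
    (hg : ∀ p ∈ D, ∀ x, Measurable fun ω => g p ω x) (hC : 0 ≤ C)
    (h1 : ∀ p ∈ D, ∀ q ∈ D, p ≤ q → ∀ x,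
      ∫⁻ ω, ENNReal.ofReal |inc (f p ω) x - inc (f q ω) x| ∂P ≤ ENNReal.ofReal (C * (q - p)))
    (h2 : ∀ p ∈ D, ∀ q ∈ D, p ≤ q → ∀ x,
      ∫⁻ ω, ENNReal.ofReal |inc (g p ω) x - inc (g q ω) x| ∂P ≤ ENNReal.ofReal (C * (q - p)))
    (hi : ∀ p ∈ D, ∀ q ∈ D, ∀ w : ℕ,
      IndepFun (fun ω => tv w (f p ω) (f q ω)) (fun ω => tv w (g p ω) (g q ω)) P) :
    ∀ᵐ ω ∂P, ∀ s, A < s → s < B →
      ContAt D (fun p => f p ω) s ∨ ContAt D (fun p => g p ω) s := by
  have hall : ∀ᵐ ω ∂P, ∀ (a b : ℚ) (w k : ℕ), A < a → (b : ℝ) < B →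
      ω ∉ Bad D f g a b w (1 / ((k : ℝ) + 1)) := by
    rw [ae_all_iff]; intro a
    rw [ae_all_iff]; intro b
    rw [ae_all_iff]; intro w
    rw [ae_all_iff]; intro k
    by_cases ha : A < a
    · by_cases hb : (b : ℝ) < B
      · have := measure_bad (P := P) hD hf hg hC h1 h2 hi ha hb w
          (κ := 1 / ((k : ℝ) + 1)) (by positivity)
        filter_upwards [measure_eq_zero_iff_ae_notMem.1 this] with ω hω _ _
        exact hω
      · exact Eventually.of_forall fun ω _ h => absurd h hb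
    · exact Eventually.of_forall fun ω h => absurd h ha
  filter_upwards [hall] with ω hω s hs1 hs2
  by_contra hcon
  rw [not_or] at hcon
  obtain ⟨hc1, hc2⟩ := hcon
  unfold ContAt at hc1 hc2
  push Not at hc1 hc2
  obtain ⟨w1, ε1, hε1, H1⟩ := hc1
  obtain ⟨w2, ε2, hε2, H2⟩ := hc2
  obtain ⟨a, ha1, ha2⟩ := exists_rat_btwn hs1
  obtain ⟨b, hb1, hb2⟩ := exists_rat_btwn hs2
  obtain ⟨k, hk⟩ := exists_nat_one_div_lt (lt_min hε1 hε2)
  refine hω a b (max w1 w2) k ha1 hb2 ⟨s, ha2, hb1, fun p hp q hq hps hsq => ⟨?_, ?_⟩⟩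
  · calc 1 / ((k : ℝ) + 1) < ε1 := hk.trans_le (min_le_left _ _)
      _ < tv w1 (f p ω) (f q ω) := H1 p hp q hq hps hsq
      _ ≤ _ := tv_mono (le_max_left _ _) _ _
  · calc 1 / ((k : ℝ) + 1) < ε2 := hk.trans_le (min_le_right _ _)
      _ < tv w2 (g p ω) (g q ω) := H2 p hp q hq hps hsq
      _ ≤ _ := tv_mono (le_max_right _ _) _ _

end Crest.Agent.R151.H
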