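import Crest.Agent.R151.Pl7

/-!
# R151, planarity toolkit, part 8: consequences of the order of ends

Concatenations, coalescence classes are intervals, monotonicity of Busemann increments.
-/

set_option autoImplicit false

open Crest.ProbabilityR.FirstPassage Filter Topology

namespace Crest.Agent.R151.Pl

open K

variable {lo : ℤ} {v v' : ℕ → Pt}

/-- disjoint rays from the boundary are ordered at infinity like their starting points -/
theorem endLT_of_start {r r' : ℕ → Pt} (hr : HRay lo r) (hr' : HRay lo r')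
    (h0 : (r 0).2 = lo) (h0' : (r' 0).2 = lo) (hle : (r 0).1 ≤ (r' 0).1)
    (hd : ∀ n m, r n ≠ r' m) : EndLT r r' := by
  rcases endLT_or hr hr' ⟨0, fun n _ m _ => hd n m⟩ with h | h
  · exact h
  · obtain ⟨n, m, e⟩ := h.meet hr' hr h0' h0 hle
    exact absurd e.symm (hd m n)

/-- a walk of the half-plane between two boundary points on the two sides of the starting point
of a ray meets the ray -/
theorem ray_meets_walk {r : ℕ → Pt} (hr : HRay lo r) (h0 : (r 0).2 = lo) {x z : Pt}
    (w : squareLattice.Walk x z) (hw : ∀ u ∈ w.support, lo ≤ u.2) (hx : x.2 = lo) (hz : z.2 = lo)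
    (h1 : x.1 ≤ (r 0).1) (h2 : (r 0).1 ≤ z.1) : ∃ n, r n ∈ w.support := by
  by_contra hno
  push Not at hno
  have hoff : ∀ u ∈ w.support, u ∉ xr r := by
    intro u hu hu'
    rcases hu' with ⟨n, hn⟩ | hu'
    · exact hno n (hn ▸ hu)
    · have := hw u hu; omega
  have hne : x.1 ≠ (r 0).1 := fun e => hno 0 (by
    rw [show r 0 = x from Prod.ext e.symm (h0.trans hx.symm)]
    exact w.start_mem_support)
  have v1 := val_bdry hr hx (hoff x w.start_mem_support)
  have v2 := val_bdry hr hz (hoff z w.end_mem_support)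
  rw [if_neg (by omega)] at v1
  rw [if_pos h2] at v2
  exact zero_ne_one ((v1.walk hr w hoff).unique v2)

/-- finite pieces of rays as walks -/
theorem exists_piece {r : ℕ → Pt} (hadj : ∀ n, squareLattice.Adj (r n) (r (n + 1))) (n : ℕ) :
    ∃ w : squareLattice.Walk (r 0) (r n), ∀ x ∈ w.support, ∃ k ≤ n, x = r k := by
  induction n with
  | zero => exact ⟨SimpleGraph.Walk.nil, fun x hx => ⟨0, le_rfl, by simpa using hx⟩⟩
  | succ n ih =>
    obtain ⟨w, hw⟩ := ih
    refine ⟨w.concat (hadj n), fun x hx => ?_⟩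
    rw [SimpleGraph.Walk.support_concat, List.mem_append, List.mem_singleton] at hx
    rcases hx with hx | rfl
    · obtain ⟨k, hk, e⟩ := hw x hx
      exact ⟨k, by omega, e⟩
    · exact ⟨n + 1, le_rfl, rfl⟩

/-- coalescence classes are intervals: if the rays from `x ≤ y ≤ z` are such that the outer ones
meet, then the middle one meets the initial pieces of one of the outer ones -/
theorem meet_between {rx ry rz : ℕ → Pt} (hx : HRay lo rx) (hy : HRay lo ry) (hz : HRay lo rz)
    (x0 : (rx 0).2 = lo) (y0 : (ry 0).2 = lo) (z0 : (rz 0).2 = lo)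
    (h1 : (rx 0).1 ≤ (ry 0).1) (h2 : (ry 0).1 ≤ (rz 0).1) {n m : ℕ} (he : rx n = rz m) :
    ∃ k, (∃ i ≤ n, ry k = rx i) ∨ (∃ j ≤ m, ry k = rz j) := by
  obtain ⟨w1, hw1⟩ := exists_piece hx.adj n
  obtain ⟨w2, hw2⟩ := exists_piece hz.adj m
  obtain ⟨w3, hw3⟩ : ∃ w3 : squareLattice.Walk (rx 0) (rz 0), ∀ x ∈ w3.support,
      (∃ i ≤ n, x = rx i) ∨ (∃ j ≤ m, x = rz j) := by
    refine ⟨w1.append ((w2.copy rfl he.symm).reverse), fun x hx => ?_⟩
    rw [SimpleGraph.Walk.mem_support_append_iff, SimpleGraph.Walk.support_reverse,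
      List.mem_reverse, SimpleGraph.Walk.support_copy] at hx
    rcases hx with hx | hx
    · exact Or.inl (hw1 x hx)
    · exact Or.inr (hw2 x hx)
  obtain ⟨k, hk⟩ := ray_meets_walk hy y0 w3 (fun u hu => by
    rcases hw3 u hu with ⟨i, -, rfl⟩ | ⟨j, -, rfl⟩
    · exact hx.mem i
    · exact hz.mem j) x0 z0 h1 h2
  exact ⟨k, hw3 _ hk⟩

/-! ### concatenation of a finite walk and a tail -/

/-- `γ` followed by `v n, v (n+1), ...` -/
def cat {y z : Pt} (γ : squareLattice.Walk y z) (v : ℕ → Pt) (n : ℕ) : ℕ → Pt := fun k =>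
  if k ≤ γ.length then γ.getVert k else v (n + (k - γ.length))

theorem cat_zero {y z : Pt} (γ : squareLattice.Walk y z) (v : ℕ → Pt) (n : ℕ) :
    cat γ v n 0 = y := by
  simp [cat]

theorem cat_add {y z : Pt} (γ : squareLattice.Walk y z) (v : ℕ → Pt) (n : ℕ) (hz : z = v n)
    (j : ℕ) : cat γ v n (γ.length + j) = v (n + j) := by
  unfold cat
  by_cases hj : j = 0
  · subst hj
    simp [hz]
  · rw [if_neg (by omega)]
    congr 2
    omega

theorem cat_mem {y z : Pt} (γ : squareLattice.Walk y z) (v : ℕ → Pt) (n k : ℕ) :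
    cat γ v n k ∈ γ.support ∨ ∃ j ≥ n, cat γ v n k = v j := by
  unfold cat
  by_cases h : k ≤ γ.length
  · rw [if_pos h]
    exact Or.inl (γ.getVert_mem_support k)
  · rw [if_neg h]
    exact Or.inr ⟨_, by omega, rfl⟩

theorem sameTail_cat {y z : Pt} (γ : squareLattice.Walk y z) (v : ℕ → Pt) (n : ℕ)
    (hz : z = v n) : SameTail v (cat γ v n) :=
  ⟨n, γ.length, fun j => (cat_add γ v n hz j).symm⟩

theorem HRay.cat {y z : Pt} {γ : squareLattice.Walk y z} {n : ℕ} (hv : HRay lo v) (hz : z = v n)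
    (hγ : ∀ x ∈ γ.support, lo ≤ x.2) : HRay lo (cat γ v n) := by
  refine ⟨fun k => ?_, fun k => ?_, fun x => ?_⟩
  · rcases cat_mem γ v n k with h | ⟨j, -, h⟩
    · exact hγ _ h
    · rw [h]; exact hv.mem j
  · by_cases h : k < γ.length
    · have e1 : Pl.cat γ v n k = γ.getVert k := if_pos h.le
      have e2 : Pl.cat γ v n (k + 1) = γ.getVert (k + 1) := if_pos h
      rw [e1, e2]
      exact γ.adj_getVert_succ h
    · obtain ⟨j, rfl⟩ := Nat.exists_eq_add_of_le (Nat.le_of_not_lt h)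
      rw [cat_add γ v n hz, add_assoc, cat_add γ v n hz, ← add_assoc]
      exact hv.adj _
  · exact (sameTail_cat γ v n hz).eventually (P := fun u => u ≠ x) (hv.proper x)

/-- crossing lemma for concatenations: `v` is left of `v'` at infinity, `γ` joins the boundary
point `y` to `v n`, `γ'` joins the boundary point `x ≤ y` to `v' m` -/
theorem cross_concat (hv : HRay lo v) (hv' : HRay lo v') (h : EndLT v v') {x y z z' : Pt}
    {n m : ℕ} (γ : squareLattice.Walk y z) (γ' : squareLattice.Walk x z') (hz : z = v n)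
    (hz' : z' = v' m)
    (hγ : ∀ x ∈ γ.support, lo ≤ x.2) (hγ' : ∀ x ∈ γ'.support, lo ≤ x.2)
    (hx : x.2 = lo) (hy : y.2 = lo) (hxy : x.1 ≤ y.1) :
    ∃ u, (u ∈ γ.support ∨ ∃ k ≥ n, u = v k) ∧ (u ∈ γ'.support ∨ ∃ k ≥ m, u = v' k) := by
  have r1 := hv.cat hz hγ
  have r2 := hv'.cat hz' hγ'
  have h2 : EndLT (cat γ v n) (cat γ' v' m) :=
    (h.congr_left r1 hv' (sameTail_cat γ v n hz)).congr_right r1 r2 (sameTail_cat γ' v' m hz')
  obtain ⟨i, j, e⟩ := h2.meet r1 r2 (by rw [cat_zero]; exact hy) (by rw [cat_zero]; exact hx)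
    (by rw [cat_zero, cat_zero]; exact hxy)
  refine ⟨cat γ v n i, cat_mem γ v n i, ?_⟩
  rw [e]
  exact cat_mem γ' v' m j

/-! ### monotonicity of Busemann increments -/

theorem busemann_mono_aux {t : Environment} (ht : Nn t) {R : Set Pt} (hR : ∀ z ∈ R, lo ≤ z.2)
    (hv : HRay lo v) (hv' : HRay lo v') (h : EndLT v v') {x y : Pt} (hx : x.2 = lo)
    (hy : y.2 = lo) (hxy : x.1 ≤ y.1) (cx' : ∀ k, Conn R x (v' k))
    (cy : ∀ k, Conn R y (v k)) {ε : ℝ} (hε : 0 < ε) :
    ∀ᶠ n in atTop, ∀ᶠ m in atTop, ∃ k ≥ n,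
      pR t R x (v k) - pR t R y (v k) ≤ pR t R x (v' m) - pR t R y (v' m) + ε := by
  classical
  obtain ⟨N, hN⟩ := h.evDisj
  filter_upwards [eventually_ge_atTop N] with n hn
  obtain ⟨γ, hγ, hγc⟩ := exists_walk_lt_pR (t := t) (cy n)
    (show pR t R y (v n) < pR t R y (v n) + ε / 2 by linarith)
  obtain ⟨m0, hm0⟩ := eventually_atTop.1 (hv'.finite (List.finite_toSet γ.support))
  filter_upwards [eventually_ge_atTop m0, eventually_ge_atTop N] with m hm hmN
  obtain ⟨γ', hγ', hγc'⟩ := exists_walk_lt_pR (t := t) (cx' m)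
    (show pR t R x (v' m) < pR t R x (v' m) + ε / 2 by linarith)
  obtain ⟨u, hu, hu'⟩ := cross_concat hv hv' h γ γ' rfl rfl (fun z hz => hR z (hγ z hz))
    (fun z hz => hR z (hγ' z hz)) hx hy hxy
  rcases hu' with hu' | ⟨k', hk', hu'⟩
  · have eγ' := walkCost_append (t := t) (γ'.takeUntil u hu') (γ'.dropUntil u hu')
    rw [SimpleGraph.Walk.take_spec] at eγ'
    have s1 : pR t R x u ≤ walkCost t (γ'.takeUntil u hu') := pR_le ht _ (fun z hz =>
      hγ' z (SimpleGraph.Walk.support_takeUntil_subset_support _ _ hz))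
    have s2 : pR t R u (v' m) ≤ walkCost t (γ'.dropUntil u hu') := pR_le ht _ (fun z hz =>
      hγ' z (SimpleGraph.Walk.support_dropUntil_subset_support _ _ hz))
    have cxu : Conn R x u := ⟨γ'.takeUntil u hu', fun z hz =>
      hγ' z (SimpleGraph.Walk.support_takeUntil_subset_support _ _ hz)⟩
    have cum : Conn R u (v' m) := ⟨γ'.dropUntil u hu', fun z hz =>
      hγ' z (SimpleGraph.Walk.support_dropUntil_subset_support _ _ hz)⟩
    rcases hu with hu | ⟨k, hk, hu⟩
    · refine ⟨n, le_rfl, ?_⟩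
      have eγ := walkCost_append (t := t) (γ.takeUntil u hu) (γ.dropUntil u hu)
      rw [SimpleGraph.Walk.take_spec] at eγ
      have s3 : pR t R y u ≤ walkCost t (γ.takeUntil u hu) := pR_le ht _ (fun z hz =>
        hγ z (SimpleGraph.Walk.support_takeUntil_subset_support _ _ hz))
      have s4 : pR t R u (v n) ≤ walkCost t (γ.dropUntil u hu) := pR_le ht _ (fun z hz =>
        hγ z (SimpleGraph.Walk.support_dropUntil_subset_support _ _ hz))
      have cyu : Conn R y u := ⟨γ.takeUntil u hu, fun z hz =>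
        hγ z (SimpleGraph.Walk.support_takeUntil_subset_support _ _ hz)⟩
      have cun : Conn R u (v n) := ⟨γ.dropUntil u hu, fun z hz =>
        hγ z (SimpleGraph.Walk.support_dropUntil_subset_support _ _ hz)⟩
      have s5 := pR_triangle ht cxu cun
      have s6 := pR_triangle ht cyu cum
      linarith
    · refine ⟨k, hk, ?_⟩
      subst hu
      have s6 := pR_triangle ht (cy k) cum
      linarith
  · exfalso
    rcases hu with hu | ⟨k, hk, hu⟩
    · exact hm0 k' (by omega) (by rw [← hu']; exact hu)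
    · exact hN k (by omega) k' (by omega) (hu.symm.trans hu')

/-- MONOTONICITY OF BUSEMANN INCREMENTS in the order of ends -/
theorem busemann_mono {t : Environment} (ht : Nn t) {R : Set Pt} (hR : ∀ z ∈ R, lo ≤ z.2)
    (hv : HRay lo v) (hv' : HRay lo v') (h : EndLT v v') {x y : Pt} (hx : x.2 = lo)
    (hy : y.2 = lo) (hxy : x.1 ≤ y.1) (cx' : ∀ k, Conn R x (v' k))
    (cy : ∀ k, Conn R y (v k)) {b b' : ℝ}
    (hb : Tendsto (fun k => pR t R x (v k) - pR t R y (v k)) atTop (𝓝 b))
    (hb' : Tendsto (fun k => pR t R x (v' k) - pR t R y (v' k)) atTop (𝓝 b')) : b ≤ b' := by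
  refine le_of_forall_pos_le_add fun ε hε => ?_
  have h1 := busemann_mono_aux ht hR hv hv' h hx hy hxy cx' cy (show 0 < ε / 3 by linarith)
  have h2 : ∀ᶠ n in atTop, ∀ k ≥ n, b - ε / 3 < pR t R x (v k) - pR t R y (v k) :=
    eventually_forall_ge_atTop.2
      (hb.eventually (lt_mem_nhds (show b - ε / 3 < b by linarith)))
  obtain ⟨n, h3, h4⟩ := (h1.and h2).exists
  have h5 : ∀ᶠ m in atTop, pR t R x (v' m) - pR t R y (v' m) < b' + ε / 3 :=
    hb'.eventually (gt_mem_nhds (show b' < b' + ε / 3 by linarith))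
  obtain ⟨m, ⟨k, hk, h6⟩, h7⟩ := (h3.and h5).exists
  have := h4 k hk
  linarith

end Crest.Agent.R151.Pl
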