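import Crest.Agent.R151.V2

/-!
# R151, block V3 (helper52): variance of first-passage times (abstract finite families of paths)

`pmin 𝒫 h t` = minimum over the finite family `𝒫` of finite sets of edges of the sum of the weights.
-/

set_option autoImplicit false
set_option linter.unusedSectionVars false

open MeasureTheory ProbabilityTheory Set Filter
open scoped ENNReal Topology

namespace Crest.Agent.R151.V

variable {I X : Type*} [DecidableEq I] [MeasurableSpace X]

/-- resampling one coordinate preserves the product measure -/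
lemma mp_update (G : Measure X) [IsProbabilityMeasure G] (e : I) :
    MeasurePreserving (fun p : (I → X) × X => Function.update p.1 e p.2)
      ((Measure.infinitePi fun _ : I => G).prod G) (Measure.infinitePi fun _ : I => G) := by
  refine ⟨measurable_update', ?_⟩
  apply Measure.eq_infinitePi
  intro s t ht
  rw [Measure.map_apply measurable_update' (MeasurableSet.pi s.countable_toSet fun i _ => ht i)]
  by_cases he : e ∈ s
  · have : (fun p : (I → X) × X => Function.update p.1 e p.2) ⁻¹' (Set.pi s t) =
        (Set.pi (s.erase e) t) ×ˢ (t e) := by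
      ext ⟨x, u⟩
      simp only [mem_preimage, Set.mem_pi, SetLike.mem_coe, mem_prod, Finset.mem_erase]
      constructor
      · intro h
        refine ⟨fun i hi => ?_, ?_⟩
        · have := h i hi.2
          rwa [Function.update_of_ne hi.1] at this
        · simpa using h e he
      · rintro ⟨h1, h2⟩ i hi
        by_cases hie : i = e
        · subst hie; simpa using h2
        · rw [Function.update_of_ne hie]
          exact h1 i ⟨hie, hi⟩
    rw [this, Measure.prod_prod, Measure.infinitePi_pi _ (fun i _ => ht i),
      Finset.prod_erase_mul _ _ he]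
  · have : (fun p : (I → X) × X => Function.update p.1 e p.2) ⁻¹' (Set.pi s t) =
        (Set.pi s t) ×ˢ univ := by
      ext ⟨x, u⟩
      simp only [mem_preimage, Set.mem_pi, SetLike.mem_coe, mem_prod, mem_univ, and_true]
      constructor
      · intro h i hi
        have := h i hi
        rwa [Function.update_of_ne (by rintro rfl; exact he hi)] at this
      · intro h i hi
        rw [Function.update_of_ne (by rintro rfl; exact he hi)]
        exact h i hi
    rw [this, Measure.prod_prod, Measure.infinitePi_pi _ (fun i _ => ht i), measure_univ, mul_one]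

lemma lintegral_update (G : Measure X) [IsProbabilityMeasure G] (e : I) {F : (I → X) → ℝ≥0∞}
    (hF : Measurable F) :
    ∫⁻ x, F x ∂(Measure.infinitePi fun _ : I => G) =
      ∫⁻ x, ∫⁻ u, F (Function.update x e u) ∂G ∂(Measure.infinitePi fun _ : I => G) := by
  rw [← (mp_update G e).lintegral_comp hF, lintegral_prod]
  exact (hF.comp measurable_update').aemeasurable

/-- the influence as the mean of the one-coordinate doubled variances -/
lemma infl_eq (G : Measure X) [IsProbabilityMeasure G] (e : I) {f : (I → X) → ℝ}
    (hf : Measurable f) :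
    infl (Measure.infinitePi fun _ : I => G) G f e =
      ∫⁻ x, dvar G (fun u => f (Function.update x e u)) ∂(Measure.infinitePi fun _ : I => G) := by
  unfold infl
  rw [lintegral_update G e (meas_infl G hf e)]
  unfold dvar
  simp only [Function.update_idem]

/-- Fatou for the doubled variance -/
lemma dvar_le_liminf {Ω : Type*} [MeasurableSpace Ω] {μ : Measure Ω} [SFinite μ]
    {f : Ω → ℝ} {F : ℕ → Ω → ℝ} (hF : ∀ n, Measurable (F n))
    (hlim : ∀ᵐ x ∂μ, Tendsto (fun n => F n x) atTop (𝓝 (f x))) :
    dvar μ f ≤ liminf (fun n => dvar μ (F n)) atTop := by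
  unfold dvar
  calc ∫⁻ x, ∫⁻ y, ENNReal.ofReal ((f x - f y) ^ 2) ∂μ ∂μ
      ≤ ∫⁻ x, liminf (fun n => ∫⁻ y, ENNReal.ofReal ((F n x - F n y) ^ 2) ∂μ) atTop ∂μ := by
        apply lintegral_mono_ae
        filter_upwards [hlim] with x hx
        calc ∫⁻ y, ENNReal.ofReal ((f x - f y) ^ 2) ∂μ
            ≤ ∫⁻ y, liminf (fun n => ENNReal.ofReal ((F n x - F n y) ^ 2)) atTop ∂μ := by
              apply lintegral_mono_ae
              filter_upwards [hlim] with y hy
              have : Tendsto (fun n => ENNReal.ofReal ((F n x - F n y) ^ 2)) atTop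
                  (𝓝 (ENNReal.ofReal ((f x - f y) ^ 2))) :=
                (ENNReal.continuous_ofReal.tendsto _).comp (((hx.sub hy).pow 2))
              exact this.liminf_eq.ge
          _ ≤ _ := by
              apply lintegral_liminf_le
              intro n
              exact meas_sq (hF n) measurable_const measurable_id
    _ ≤ _ := by
        apply lintegral_liminf_le
        intro n
        exact Measurable.lintegral_prod_right' (meas_sq (hF n) measurable_fst measurable_snd)

/-- minimum over a finite family of edge sets of the total weight -/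
noncomputable def pmin (P : Finset (Finset I)) (h : P.Nonempty) (t : I → ℝ) : ℝ :=
  P.inf' h (fun p => ∑ e ∈ p, t e)

lemma measurable_cost (p : Finset I) : Measurable (fun t : I → ℝ => ∑ e ∈ p, t e) :=
  Finset.measurable_sum _ fun e _ => measurable_pi_apply e

lemma measurable_pmin (P : Finset (Finset I)) (h : P.Nonempty) : Measurable (pmin P h) := by
  have key : Measurable (P.inf' h (fun (p : Finset I) (t : I → ℝ) => ∑ e ∈ p, t e)) :=
    Finset.inf'_induction h _ (p := Measurable) (fun a ha b hb => ha.min hb)
      (fun p _ => measurable_cost p)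
  convert key using 1
  funext t
  unfold pmin
  rw [Finset.inf'_apply]

lemma pmin_le {P : Finset (Finset I)} {h : P.Nonempty} {p : Finset I} (hp : p ∈ P) (t : I → ℝ) :
    pmin P h t ≤ ∑ e ∈ p, t e := Finset.inf'_le _ hp

lemma exists_pmin (P : Finset (Finset I)) (h : P.Nonempty) (t : I → ℝ) :
    ∃ p ∈ P, pmin P h t = ∑ e ∈ p, t e := Finset.exists_mem_eq_inf' h _

lemma pmin_nonneg {P : Finset (Finset I)} {h : P.Nonempty} {t : I → ℝ} (ht : ∀ e, 0 ≤ t e) :
    0 ≤ pmin P h t := by
  obtain ⟨p, _, hp⟩ := exists_pmin P h t
  rw [hp]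
  exact Finset.sum_nonneg fun e _ => ht e

/-- the edges contained in every minimiser -/
def Ess (P : Finset (Finset I)) (h : P.Nonempty) (t : I → ℝ) (e : I) : Prop :=
  ∀ p ∈ P, (∑ i ∈ p, t i) = pmin P h t → e ∈ p

lemma cost_update_mem {p : Finset I} {e : I} (he : e ∈ p) (t : I → ℝ) (u : ℝ) :
    ∑ i ∈ p, Function.update t e u i = ∑ i ∈ p.erase e, t i + u := by
  rw [← Finset.sum_erase_add _ _ he, Function.update_self]
  congr 1
  apply Finset.sum_congr rfl
  intro i hi
  rw [Function.update_of_ne (Finset.ne_of_mem_erase hi)]

lemma cost_update_notMem {p : Finset I} {e : I} (he : e ∉ p) (t : I → ℝ) (u : ℝ) :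
    ∑ i ∈ p, Function.update t e u i = ∑ i ∈ p, t i := by
  apply Finset.sum_congr rfl
  intro i hi
  rw [Function.update_of_ne (by rintro rfl; exact he hi)]

/-- dependence of `pmin` on one weight: either constant, or `B + u`, or `min A (B + u)`, and in the
last case, `B + u < A` forces the edge to be in every minimiser. -/
lemma pmin_update (P : Finset (Finset I)) (h : P.Nonempty) (e : I) (t : I → ℝ) :
    (∃ C, ∀ u, pmin P h (Function.update t e u) = C) ∨
    ((∃ B, ∀ u, pmin P h (Function.update t e u) = B + u) ∧
      ∀ u, Ess P h (Function.update t e u) e) ∨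
    (∃ A B, (∀ u, pmin P h (Function.update t e u) = min A (B + u)) ∧
      ∀ u, B + u < A → Ess P h (Function.update t e u) e) := by
  classical
  set P1 := P.filter (fun p => e ∈ p) with hP1
  set P0 := P.filter (fun p => e ∉ p) with hP0
  have hall : ∀ p ∈ P, p ∈ P1 ∨ p ∈ P0 := by
    intro p hp
    by_cases he : e ∈ p
    · left; simp [hP1, hp, he]
    · right; simp [hP0, hp, he]
  by_cases h1 : P1.Nonempty
  · by_cases h0 : P0.Nonempty
    · -- both
      right; right
      refine ⟨P0.inf' h0 (fun p => ∑ i ∈ p, t i), P1.inf' h1 (fun p => ∑ i ∈ p.erase e, t i),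
        ?_, ?_⟩
      · intro u
        apply le_antisymm
        · apply le_min
          · obtain ⟨p, hp, hpe⟩ := Finset.exists_mem_eq_inf' h0 (fun p => ∑ i ∈ p, t i)
            rw [hpe]
            have hp' := Finset.mem_filter.1 hp
            rw [← cost_update_notMem hp'.2 t u]
            exact pmin_le hp'.1 _
          · obtain ⟨p, hp, hpe⟩ := Finset.exists_mem_eq_inf' h1 (fun p => ∑ i ∈ p.erase e, t i)
            rw [hpe]
            have hp' := Finset.mem_filter.1 hp
            rw [← cost_update_mem hp'.2 t u]
            exact pmin_le hp'.1 _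
        · obtain ⟨p, hp, hpe⟩ := exists_pmin P h (Function.update t e u)
          rw [hpe]
          rcases hall p hp with hp1 | hp0
          · refine (min_le_right _ _).trans ?_
            rw [cost_update_mem (Finset.mem_filter.1 hp1).2 t u]
            gcongr
            exact Finset.inf'_le (f := fun p : Finset I => ∑ i ∈ p.erase e, t i) hp1
          · refine (min_le_left _ _).trans ?_
            rw [cost_update_notMem (Finset.mem_filter.1 hp0).2 t u]
            exact Finset.inf'_le (f := fun p : Finset I => ∑ i ∈ p, t i) hp0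
      · intro u hu p hp hpe
        by_contra he
        have hp0 : p ∈ P0 := by simp [hP0, hp, he]
        rw [cost_update_notMem he] at hpe
        have hA : P0.inf' h0 (fun p => ∑ i ∈ p, t i) ≤ ∑ i ∈ p, t i :=
          Finset.inf'_le (f := fun p : Finset I => ∑ i ∈ p, t i) hp0
        obtain ⟨q, hq, hqe⟩ := Finset.exists_mem_eq_inf' h1 (fun p => ∑ i ∈ p.erase e, t i)
        have hq' := Finset.mem_filter.1 hq
        have := pmin_le (h := h) hq'.1 (Function.update t e u)
        rw [cost_update_mem hq'.2, ← hqe] at this
        linarith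
    · -- every path contains `e`
      right; left
      have hmem : ∀ p ∈ P, e ∈ p := by
        intro p hp
        rcases hall p hp with hp1 | hp0
        · exact (Finset.mem_filter.1 hp1).2
        · exact absurd ⟨p, hp0⟩ h0
      refine ⟨⟨P.inf' h (fun p => ∑ i ∈ p.erase e, t i), ?_⟩, fun u p hp _ => hmem p hp⟩
      intro u
      apply le_antisymm
      · obtain ⟨p, hp, hpe⟩ := Finset.exists_mem_eq_inf' h (fun p => ∑ i ∈ p.erase e, t i)
        rw [hpe, ← cost_update_mem (hmem p hp) t u]
        exact pmin_le hp _
      · obtain ⟨p, hp, hpe⟩ := exists_pmin P h (Function.update t e u)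
        rw [hpe, cost_update_mem (hmem p hp) t u]
        gcongr
        exact Finset.inf'_le (f := fun p : Finset I => ∑ i ∈ p.erase e, t i) hp
  · left
    have hmem : ∀ p ∈ P, e ∉ p := by
      intro p hp he
      exact h1 ⟨p, by simp [hP1, hp, he]⟩
    refine ⟨pmin P h t, fun u => ?_⟩
    unfold pmin
    apply Finset.inf'_congr h rfl
    intro p hp
    exact cost_update_notMem (hmem p hp) t u

lemma measurableSet_Ess (P : Finset (Finset I)) (h : P.Nonempty) (e : I) :
    MeasurableSet {t : I → ℝ | Ess P h t e} := by
  have : {t : I → ℝ | Ess P h t e} =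
      ⋂ p ∈ P, {t | (∑ i ∈ p, t i) = pmin P h t → e ∈ p} := by
    ext t; simp [Ess]
  rw [this]
  refine Finset.measurableSet_biInter _ fun p _ => ?_
  by_cases he : e ∈ p
  · simp [he]
  · simp only [he, imp_false]
    exact (measurableSet_eq_fun (measurable_cost p) (measurable_pmin P h)).compl

lemma pmin_dep (P : Finset (Finset I)) (h : P.Nonempty) (x y : I → ℝ)
    (hxy : ∀ i ∈ P.biUnion id, x i = y i) : pmin P h x = pmin P h y := by
  unfold pmin
  apply Finset.inf'_congr h rfl
  intro p hp
  apply Finset.sum_congr rfl
  intro i hi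
  exact hxy i (Finset.mem_biUnion.2 ⟨p, hp, hi⟩)

open Classical in
/-- the total weight of the essential edges is at most the minimum -/
lemma sum_Ess_le (P : Finset (Finset I)) (h : P.Nonempty) (t : I → ℝ)
    (ht : ∀ e ∈ P.biUnion id, 0 ≤ t e) :
    ∑ e ∈ P.biUnion id, (if Ess P h t e then ENNReal.ofReal (t e) else 0) ≤
      ENNReal.ofReal (pmin P h t) := by
  obtain ⟨p, hp, hpe⟩ := exists_pmin P h t
  have hnn : ∀ i ∈ p, 0 ≤ t i := fun i hi => ht i (Finset.mem_biUnion.2 ⟨p, hp, hi⟩)
  rw [hpe, ENNReal.ofReal_sum_of_nonneg hnn, ← Finset.sum_filter]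
  apply Finset.sum_le_sum_of_subset
  intro e he
  exact (Finset.mem_filter.1 he).2 p hp hpe.symm

open Classical in
/-- the number of the essential edges is at most the number of edges of any minimiser -/
lemma card_Ess_le (P : Finset (Finset I)) (h : P.Nonempty) (t : I → ℝ) {p : Finset I} (hp : p ∈ P)
    (hpe : ∑ i ∈ p, t i = pmin P h t) :
    ((P.biUnion id).filter (fun e => Ess P h t e)).card ≤ p.card := by
  apply Finset.card_le_card
  intro e he
  exact (Finset.mem_filter.1 he).2 p hp hpe

variable {κ r : ℝ}

lemma ae_pos_gamma (κ r : ℝ) : ∀ᵐ t ∂(gammaMeasure κ r), 0 ≤ t := by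
  rw [ae_iff]
  have : {a : ℝ | ¬ 0 ≤ a} = Iio 0 := by ext; simp
  rw [this, gammaMeasure, withDensity_apply _ measurableSet_Iio]
  rw [setLIntegral_congr_fun measurableSet_Iio
      (fun x (hx : x < 0) ↦ gammaPDF_of_neg hx), lintegral_zero]

lemma ae_nonneg_infinitePi {G : Measure ℝ} [IsProbabilityMeasure G] (hG : ∀ᵐ t ∂G, 0 ≤ t)
    (s : Finset I) : ∀ᵐ x ∂(Measure.infinitePi fun _ : I => G), ∀ e ∈ s, 0 ≤ x e := by
  have : ∀ᵐ x ∂(Measure.infinitePi fun _ : I => G), ∀ e ∈ (s : Set I), 0 ≤ x e := by
    rw [ae_ball_iff s.countable_toSet]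
    intro e _
    exact (measurePreserving_eval_infinitePi (fun _ : I => G) e).quasiMeasurePreserving.ae hG
  exact this

/-- one-edge bound for the identity -/
lemma dvar_gamma_add (hκ : 0 < κ) (hr : 0 < r) (B : ℝ) :
    dvar (gammaMeasure κ r) (fun t => B + t) ≤
      ENNReal.ofReal (2 / r * ∫ t, t ∂(gammaMeasure κ r)) := by
  have := isProbabilityMeasure_gammaMeasure hκ hr
  have h1 : dvar (gammaMeasure κ r) (fun t => B + t) ≤
      liminf (fun n : ℕ => dvar (gammaMeasure κ r) (fun t => min (n : ℝ) (B + t))) atTop := by
    apply dvar_le_liminf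
    · intro n
      exact measurable_const.min (measurable_const.add measurable_id)
    · refine Eventually.of_forall fun t => ?_
      apply tendsto_const_nhds.congr'
      filter_upwards [eventually_ge_atTop ⌈B + t⌉₊] with n hn
      rw [min_eq_right ((Nat.le_ceil _).trans (by exact_mod_cast hn))]
  refine h1.trans ?_
  refine (liminf_le_liminf (v := fun _ => ENNReal.ofReal (2 / r * ∫ t, t ∂(gammaMeasure κ r)))
    (Eventually.of_forall fun n => ?_)).trans (by simp)
  refine (dvar_gamma_min hκ hr n B).trans ?_
  apply ENNReal.ofReal_le_ofReal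
  apply mul_le_mul_of_nonneg_left _ (by positivity)
  apply integral_mono_ae _ (integrable_id_gamma hκ hr)
  · filter_upwards [ae_pos_gamma κ r] with t ht
    split_ifs
    · exact le_rfl
    · exact ht
  · refine Integrable.mono' (integrable_id_gamma hκ hr).norm ?_ (Eventually.of_forall fun t => ?_)
    · exact (Measurable.ite (measurableSet_lt (measurable_const.add measurable_id)
        measurable_const) measurable_id measurable_const).aestronglyMeasurable
    · split_ifs <;> simp

open Classical in
/-- the variance of the minimum, Gamma weights -/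
theorem dvar_pmin_gamma (hκ : 0 < κ) (hr : 0 < r) (P : Finset (Finset I)) (h : P.Nonempty) :
    dvar (Measure.infinitePi fun _ : I => gammaMeasure κ r) (pmin P h) ≤
      ENNReal.ofReal (2 / r) *
        ∫⁻ t, ENNReal.ofReal (pmin P h t) ∂(Measure.infinitePi fun _ : I => gammaMeasure κ r) := by
  have hγ := isProbabilityMeasure_gammaMeasure hκ hr
  set γ := gammaMeasure κ r with hγd
  set μ := Measure.infinitePi fun _ : I => γ with hμ
  set S := P.biUnion id with hS
  have hm := measurable_pmin P h
  refine (dvar_infinitePi_le γ hm S (pmin_dep P h)).trans ?_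
  -- the function integrated in the bound of the influence of `e`
  set W : I → (I → ℝ) → ℝ≥0∞ := fun e t => if Ess P h t e then ENNReal.ofReal (t e) else 0
    with hW
  have hWm : ∀ e, Measurable (W e) := fun e =>
    Measurable.ite (measurableSet_Ess P h e) (measurable_pi_apply e).ennreal_ofReal
      measurable_const
  have hone : ∀ e x, dvar γ (fun u => pmin P h (Function.update x e u)) ≤
      ENNReal.ofReal (2 / r) * ∫⁻ u, W e (Function.update x e u) ∂γ := by
    intro e x
    rcases pmin_update P h e x with ⟨C, hC⟩ | ⟨⟨B, hB⟩, hE⟩ | ⟨A, B, hAB, hE⟩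
    · simp [hC, dvar]
    · simp only [hB]
      refine (dvar_gamma_add hκ hr B).trans ?_
      rw [ENNReal.ofReal_mul (by positivity),
        ofReal_integral_eq_lintegral_ofReal (integrable_id_gamma hκ hr) (ae_pos_gamma κ r)]
      gcongr with u
      simp only [hW, if_pos (hE u), Function.update_self]
      exact le_rfl
    · simp only [hAB]
      refine (dvar_gamma_min hκ hr A B).trans ?_
      rw [ENNReal.ofReal_mul (by positivity), ofReal_integral_eq_lintegral_ofReal]
      · gcongr with u
        simp only [hW, Function.update_self]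
        by_cases hu : B + u < A
        · rw [if_pos hu, if_pos (hE u hu)]
        · rw [if_neg hu]
          simp
      · refine Integrable.mono' (integrable_id_gamma hκ hr).norm ?_
          (Eventually.of_forall fun t => ?_)
        · exact (Measurable.ite (measurableSet_lt (measurable_const.add measurable_id)
            measurable_const) measurable_id measurable_const).aestronglyMeasurable
        · split_ifs <;> simp
      · filter_upwards [ae_pos_gamma κ r] with t ht
        simp only [Pi.zero_apply]
        split_ifs
        · exact ht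
        · exact le_rfl
  have hinfl : ∀ e, infl μ γ (pmin P h) e ≤ ENNReal.ofReal (2 / r) * ∫⁻ x, W e x ∂μ := by
    intro e
    rw [infl_eq γ e hm, lintegral_update γ e (hWm e), ← lintegral_const_mul']
    · exact lintegral_mono fun x => hone e x
    · exact ENNReal.ofReal_ne_top
  calc ∑ e ∈ S, infl μ γ (pmin P h) e
      ≤ ∑ e ∈ S, ENNReal.ofReal (2 / r) * ∫⁻ x, W e x ∂μ := Finset.sum_le_sum fun e _ => hinfl e
    _ = ENNReal.ofReal (2 / r) * ∫⁻ x, ∑ e ∈ S, W e x ∂μ := by
        rw [← Finset.mul_sum, lintegral_finsetSum _ (fun e _ => hWm e)]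
    _ ≤ _ := by
        gcongr 1
        apply lintegral_mono_ae
        filter_upwards [ae_nonneg_infinitePi (ae_pos_gamma κ r) S] with x hx
        exact sum_Ess_le P h x hx

open Classical in
/-- the variance of the minimum, general law with second moment: `Var ≤ E[u²] * E #(essential edges)`
(note `dvar = 2 Var`). -/
theorem dvar_pmin_le (G : Measure ℝ) [IsProbabilityMeasure G] (hG : ∀ᵐ t ∂G, 0 ≤ t)
    (P : Finset (Finset I)) (h : P.Nonempty) :
    dvar (Measure.infinitePi fun _ : I => G) (pmin P h) ≤
      (2 * ∫⁻ u, ENNReal.ofReal (u ^ 2) ∂G) *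
        ∫⁻ t, (((P.biUnion id).filter (fun e => Ess P h t e)).card : ℝ≥0∞)
          ∂(Measure.infinitePi fun _ : I => G) := by
  set μ := Measure.infinitePi fun _ : I => G with hμ
  set S := P.biUnion id with hS
  set m2 := ∫⁻ u, ENNReal.ofReal (u ^ 2) ∂G with hm2
  have hm := measurable_pmin P h
  refine (dvar_infinitePi_le G hm S (pmin_dep P h)).trans ?_
  set W : I → (I → ℝ) → ℝ≥0∞ := fun e t => if Ess P h t e then 1 else 0 with hW
  have hWm : ∀ e, Measurable (W e) := fun e =>
    Measurable.ite (measurableSet_Ess P h e) measurable_const measurable_const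
  have hsq : Measurable (fun u : ℝ => ENNReal.ofReal (u ^ 2)) :=
    (measurable_id.pow_const 2).ennreal_ofReal
  have hone : ∀ e x, dvar G (fun u => pmin P h (Function.update x e u)) ≤
      (2 * m2) * ∫⁻ u, W e (Function.update x e u) ∂G := by
    intro e x
    have hWmx : Measurable (fun u => W e (Function.update x e u)) :=
      (hWm e).comp (measurable_update x)
    have hpt : ∀ s u : ℝ, 0 ≤ s → 0 ≤ u →
        ENNReal.ofReal ((pmin P h (Function.update x e s) - pmin P h (Function.update x e u)) ^ 2)
        ≤ ENNReal.ofReal (u ^ 2) * W e (Function.update x e s) +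
          ENNReal.ofReal (s ^ 2) * W e (Function.update x e u) := by
      intro s u hs hu
      rcases pmin_update P h e x with ⟨C, hC⟩ | ⟨⟨B, hB⟩, hE⟩ | ⟨A, B, hAB, hE⟩
      · simp [hC]
      · simp only [hB, hW, if_pos (hE _), mul_one]
        rw [← ENNReal.ofReal_add (sq_nonneg _) (sq_nonneg _)]
        apply ENNReal.ofReal_le_ofReal
        nlinarith [mul_nonneg hs hu]
      · simp only [hAB]
        -- symmetric argument
        have aux : ∀ s u : ℝ, 0 ≤ s → s ≤ u →
            ENNReal.ofReal ((min A (B + s) - min A (B + u)) ^ 2) ≤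
              ENNReal.ofReal (u ^ 2) * W e (Function.update x e s) := by
          intro s u hs hsu
          by_cases hA : B + s < A
          · simp only [hW, if_pos (hE s hA), mul_one]
            apply ENNReal.ofReal_le_ofReal
            rw [min_eq_right hA.le]
            rcases le_total A (B + u) with h' | h'
            · rw [min_eq_left h']; nlinarith
            · rw [min_eq_right h']; nlinarith
          · rw [min_eq_left (not_lt.1 hA), min_eq_left ((not_lt.1 hA).trans (by linarith))]
            simp
        rcases le_total s u with hsu | hsu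
        · exact (aux s u hs hsu).trans le_self_add
        · have := aux u s hu hsu
          rw [show (min A (B + s) - min A (B + u)) ^ 2 = (min A (B + u) - min A (B + s)) ^ 2 by
            ring]
          exact this.trans le_add_self
    calc dvar G (fun u => pmin P h (Function.update x e u))
        ≤ ∫⁻ s, ∫⁻ u, (ENNReal.ofReal (u ^ 2) * W e (Function.update x e s) +
          ENNReal.ofReal (s ^ 2) * W e (Function.update x e u)) ∂G ∂G := by
          unfold dvar
          apply lintegral_mono_ae
          filter_upwards [hG] with s hs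
          apply lintegral_mono_ae
          filter_upwards [hG] with u hu
          exact hpt s u hs hu
      _ = ∫⁻ s, (m2 * W e (Function.update x e s) +
          ENNReal.ofReal (s ^ 2) * ∫⁻ u, W e (Function.update x e u) ∂G) ∂G := by
          apply lintegral_congr
          intro s
          rw [lintegral_add_left (hsq.mul_const _), lintegral_mul_const _ hsq,
            lintegral_const_mul _ hWmx]
      _ = _ := by
          rw [lintegral_add_left (hWmx.const_mul _), lintegral_const_mul _ hWmx,
            lintegral_mul_const _ hsq]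
          ring
  have hinfl : ∀ e, infl μ G (pmin P h) e ≤ (2 * m2) * ∫⁻ x, W e x ∂μ := by
    intro e
    rw [infl_eq G e hm, lintegral_update G e (hWm e), ← lintegral_const_mul]
    · exact lintegral_mono fun x => hone e x
    · apply Measurable.lintegral_prod_right'
        (f := fun z : (I → ℝ) × ℝ => W e (Function.update z.1 e z.2))
      exact (hWm e).comp measurable_update'
  calc ∑ e ∈ S, infl μ G (pmin P h) e
      ≤ ∑ e ∈ S, (2 * m2) * ∫⁻ x, W e x ∂μ := Finset.sum_le_sum fun e _ => hinfl e
    _ = (2 * m2) * ∫⁻ x, ∑ e ∈ S, W e x ∂μ := by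
        rw [← Finset.mul_sum, lintegral_finsetSum _ (fun e _ => hWm e)]
    _ = _ := by
        congr 1
        apply lintegral_congr
        intro x
        simp only [hW]
        rw [Finset.sum_ite]
        simp

lemma memLp_pmin {G : Measure ℝ} [IsProbabilityMeasure G] (hG : ∀ᵐ t ∂G, 0 ≤ t)
    (hG2 : MemLp id 2 G) (P : Finset (Finset I)) (h : P.Nonempty) :
    MemLp (pmin P h) 2 (Measure.infinitePi fun _ : I => G) := by
  obtain ⟨p, hp⟩ := h
  have hc : MemLp (fun t : I → ℝ => ∑ e ∈ p, t e) 2 (Measure.infinitePi fun _ : I => G) := by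
    refine memLp_finsetSum _ fun e _ => ?_
    exact hG2.comp_measurePreserving (measurePreserving_eval_infinitePi (fun _ : I => G) e)
  refine hc.mono (measurable_pmin P _).aestronglyMeasurable ?_
  filter_upwards [ae_nonneg_infinitePi hG (P.biUnion id)] with x hx
  have h1 := pmin_le (h := ⟨p, hp⟩) hp x
  have h2 : 0 ≤ pmin P ⟨p, hp⟩ x := by
    obtain ⟨q, hq, hqe⟩ := exists_pmin P ⟨p, hp⟩ x
    rw [hqe]
    exact Finset.sum_nonneg fun e he => hx e (Finset.mem_biUnion.2 ⟨q, hq, he⟩)
  rw [Real.norm_of_nonneg h2, Real.norm_of_nonneg (h2.trans h1)]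
  exact h1

lemma memLp_id_gamma (hκ : 0 < κ) (hr : 0 < r) : MemLp id 2 (gammaMeasure κ r) := by
  rw [memLp_two_iff_integrable_sq measurable_id.aestronglyMeasurable]
  simpa using integrable_pow_gamma hκ hr 2

/-- `Var T ≤ (1/r) E T` for the minimum over a finite family of paths -/
theorem variance_pmin_gamma (hκ : 0 < κ) (hr : 0 < r) (P : Finset (Finset I)) (h : P.Nonempty) :
    variance (pmin P h) (Measure.infinitePi fun _ : I => gammaMeasure κ r) ≤
      (1 / r) * ∫ t, pmin P h t ∂(Measure.infinitePi fun _ : I => gammaMeasure κ r) := by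
  have hγ := isProbabilityMeasure_gammaMeasure hκ hr
  have hL := memLp_pmin (ae_pos_gamma κ r) (memLp_id_gamma hκ hr) P h
  have hi : Integrable (pmin P h) (Measure.infinitePi fun _ : I => gammaMeasure κ r) :=
    hL.integrable (by norm_num)
  have hnn : 0 ≤ᵐ[Measure.infinitePi fun _ : I => gammaMeasure κ r] pmin P h := by
    filter_upwards [ae_nonneg_infinitePi (ae_pos_gamma κ r) (P.biUnion id)] with x hx
    obtain ⟨q, hq, hqe⟩ := exists_pmin P h x
    simp only [Pi.zero_apply]
    rw [hqe]
    exact Finset.sum_nonneg fun e he => hx e (Finset.mem_biUnion.2 ⟨q, hq, he⟩)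
  have key := dvar_pmin_gamma hκ hr P h
  rw [dvar_eq hL, ← ofReal_integral_eq_lintegral_ofReal hi hnn,
    ← ENNReal.ofReal_mul (by positivity)] at key
  have h3 := (ENNReal.ofReal_le_ofReal_iff (mul_nonneg (by positivity)
    (integral_nonneg_of_ae hnn))).1 key
  have h4 : 2 / r * ∫ t, pmin P h t ∂(Measure.infinitePi fun _ : I => gammaMeasure κ r) =
    2 * ((1 / r) * ∫ t, pmin P h t ∂(Measure.infinitePi fun _ : I => gammaMeasure κ r)) := by
    ring
  rw [h4] at h3
  linarith

end Crest.Agent.R151.V
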