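import Crest.Agent.R151.F1
import Crest.Agent.R151.K5
import Crest.Agent.R151.A565a
import Crest.Agent.R151.V3

/-!
# R151, F2: almost sure properties of the i.i.d. environment

* `ae_noTies` : for an atomless law no two different finite sets of pairs have the same sum;
* `ae_geoFin` : paths with many steps are costly, hence geodesics exist in every subgraph;
* `mixing`, `ergodic_shift` : translations are mixing and ergodic.
-/

set_option autoImplicit false

open MeasureTheory Filter Topology ProbabilityTheory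
open Crest.ProbabilityR.FirstPassage
open scoped Classical ENNReal symmDiff

namespace Crest.Agent.R151

section ties

variable {G : Measure ℝ} [IsProbabilityMeasure G]

theorem measurable_finsum {I : Type*} (A : Finset I) :
    Measurable fun t : I → ℝ => ∑ e ∈ A, t e :=
  Finset.measurable_sum _ fun e _ => measurable_pi_apply e

theorem ties_null {I : Type*} (hat : ∀ x, G {x} = 0) {A B : Finset I} {e : I} (hA : e ∈ A)
    (hB : e ∉ B) :
    (Measure.infinitePi fun _ : I => G) {t | ∑ i ∈ A, t i = ∑ i ∈ B, t i} = 0 := by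
  have hm : MeasurableSet {t : I → ℝ | ∑ i ∈ A, t i = ∑ i ∈ B, t i} :=
    measurableSet_eq_fun (measurable_finsum A) (measurable_finsum B)
  rw [← lintegral_indicator_one hm,
    V.lintegral_update G e (measurable_one.indicator hm)]
  rw [lintegral_eq_zero_iff']
  · refine Eventually.of_forall fun x => ?_
    have hsub : ∀ u : ℝ, Function.update x e u ∈ {t : I → ℝ | ∑ i ∈ A, t i = ∑ i ∈ B, t i} →
        u ∈ ({∑ i ∈ B, x i - ∑ i ∈ A.erase e, x i} : Set ℝ) := by
      intro u hu
      simp only [Set.mem_ofPred_eq] at hu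
      rw [← Finset.add_sum_erase _ _ hA, Function.update_self] at hu
      have h1 : ∑ i ∈ A.erase e, Function.update x e u i = ∑ i ∈ A.erase e, x i :=
        Finset.sum_congr rfl fun i hi => Function.update_of_ne (Finset.ne_of_mem_erase hi) _ _
      have h2 : ∑ i ∈ B, Function.update x e u i = ∑ i ∈ B, x i :=
        Finset.sum_congr rfl fun i hi => Function.update_of_ne (fun h => hB (by rwa [h] at hi)) _ _
      rw [h1, h2] at hu
      simp only [Set.mem_singleton_iff]
      linarith
    have hle : ∫⁻ u, ({t : I → ℝ | ∑ i ∈ A, t i = ∑ i ∈ B, t i}.indicator 1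
        (Function.update x e u) : ℝ≥0∞) ∂G ≤
        ∫⁻ u, (({∑ i ∈ B, x i - ∑ i ∈ A.erase e, x i} : Set ℝ).indicator 1 u : ℝ≥0∞) ∂G := by
      refine lintegral_mono fun u => ?_
      by_cases hu : Function.update x e u ∈ {t : I → ℝ | ∑ i ∈ A, t i = ∑ i ∈ B, t i}
      · rw [Set.indicator_of_mem hu, Set.indicator_of_mem (hsub u hu)]
        simp
      · rw [Set.indicator_of_notMem hu]
        exact bot_le
    rw [lintegral_indicator_one (measurableSet_singleton _), hat] at hle
    exact le_antisymm hle bot_le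
  · refine Measurable.aemeasurable ?_
    have := Measurable.lintegral_prod_right' (ν := G)
      (f := fun z : (I → ℝ) × ℝ => ({t : I → ℝ | ∑ i ∈ A, t i = ∑ i ∈ B, t i}.indicator 1
        (Function.update z.1 e z.2) : ℝ≥0∞)) ?_
    · exact this
    · exact (measurable_one.indicator hm).comp measurable_update'

theorem ae_noTies (hat : ∀ x, G {x} = 0) : ∀ᵐ t ∂(iidLaw G), NoTies t := by
  unfold NoTies
  rw [ae_all_iff]
  intro A
  rw [ae_all_iff]
  intro B
  by_cases hAB : A = B
  · exact Eventually.of_forall fun t _ => hAB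
  · have key : (iidLaw G) {t | ∑ i ∈ A, t i = ∑ i ∈ B, t i} = 0 := by
      have : ∃ e, (e ∈ A ∧ e ∉ B) ∨ (e ∈ B ∧ e ∉ A) := by
        by_contra hcon
        push Not at hcon
        apply hAB
        ext e
        exact ⟨fun h => (hcon e).1 h, fun h => (hcon e).2 h⟩
      obtain ⟨e, ⟨h1, h2⟩ | ⟨h1, h2⟩⟩ := this
      · exact ties_null hat h1 h2
      · have := ties_null (G := G) hat h1 h2
        unfold iidLaw
        convert this using 2
        ext t
        exact eq_comm
    rw [measure_eq_zero_iff_ae_notMem] at key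
    filter_upwards [key] with t ht h
    exact absurd h ht

end ties

section finiteness

variable {G : Measure ℝ} [IsProbabilityMeasure G]

/-- Eventually (in `n`) every trail with at least `n` steps from `x` costs at least `c n`. -/
theorem ae_eventually_not_Bad (h0 : G (Set.Iio 0) = 0) (hz : G {0} = 0) :
    ∃ c : ℝ, 0 < c ∧ ∀ᵐ t ∂(iidLaw G), ∀ x : ℤ × ℤ, ∀ᶠ n : ℕ in atTop, t ∉ K.Bad c n x := by
  obtain ⟨c, hc, hb⟩ := K.prob_Bad_le (G := G) h0 hz
  refine ⟨c, hc, ?_⟩
  rw [ae_all_iff]
  intro x
  have hsum : ∑' n : ℕ, (iidLaw G) (K.Bad c n x) ≠ ⊤ := by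
    have h1 : ∀ n, (iidLaw G) (K.Bad c n x) ≤ ENNReal.ofReal ((1 / 2) ^ n) := by
      intro n
      rw [← ENNReal.ofReal_toReal (measure_ne_top (iidLaw G) (K.Bad c n x))]
      exact ENNReal.ofReal_le_ofReal (hb n x)
    refine ne_top_of_le_ne_top ?_ (ENNReal.tsum_le_tsum h1)
    rw [← ENNReal.ofReal_tsum_of_nonneg (fun n => by positivity)
      (summable_geometric_of_lt_one (by norm_num) (by norm_num))]
    exact ENNReal.ofReal_ne_top
  exact ae_eventually_notMem hsum

theorem geoFin_of_eventually {t : Environment} (ht : ∀ e, 0 ≤ t e) {c : ℝ} (hc : 0 < c)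
    {x : ℤ × ℤ} (h : ∀ᶠ n : ℕ in atTop, t ∉ K.Bad c n x) {H : SimpleGraph (ℤ × ℤ)}
    (hH : H ≤ squareLattice) : GeoFin H t x := by
  intro M
  obtain ⟨N, hN⟩ := exists_nat_gt (M / c)
  obtain ⟨n, hn, hnN⟩ := (h.and (eventually_ge_atTop N)).exists
  refine ⟨n, fun y w hw hlen => ?_⟩
  have h1 := K.cost_ge_of_not_Bad (t := t) ht hn (w.mapLe hH)
    (by rw [SimpleGraph.Walk.edges_mapLe_eq_edges]; exact hw.isTrail.edges_nodup)
    (by simpa using hlen)
  have h2 : walkCost t (w.mapLe hH) = wcost t w := by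
    rw [walkCost_eq_wcost, wcost_mapLe]
  rw [h2] at h1
  refine le_trans ?_ h1
  have h3 : M / c ≤ n := hN.le.trans (by exact_mod_cast hnN)
  rw [div_le_iff₀ hc] at h3
  linarith

/-- Almost surely geodesics exist in every subgraph of the square lattice. -/
theorem ae_geoFin (h0 : G (Set.Iio 0) = 0) (hz : G {0} = 0) :
    ∀ᵐ t ∂(iidLaw G), ∀ H : SimpleGraph (ℤ × ℤ), H ≤ squareLattice → ∀ x, GeoFin H t x := by
  obtain ⟨c, hc, h⟩ := ae_eventually_not_Bad (G := G) h0 hz
  filter_upwards [h, K.ae_Nn (G := G) h0] with t ht ht0 H hH x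
  exact geoFin_of_eventually ht0 hc (ht x) hH

theorem neighborSet_subset {H : SimpleGraph (ℤ × ℤ)} (hH : H ≤ squareLattice) (x : ℤ × ℤ) :
    H.neighborSet x ⊆ Set.range fun d : Fin 4 => x + K.dir d := by
  intro y hy
  obtain ⟨d, hd⟩ := K.exists_dir (hH hy)
  exact ⟨d, hd.symm⟩

/-- Subgraphs of the square lattice are locally finite. -/
@[reducible] noncomputable def locFin {H : SimpleGraph (ℤ × ℤ)} (hH : H ≤ squareLattice) :
    H.LocallyFinite :=
  fun x => (Set.Finite.subset (Set.finite_range _) (neighborSet_subset hH x)).fintype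

theorem ae_exists_isGeo (h0 : G (Set.Iio 0) = 0) (hz : G {0} = 0) :
    ∀ᵐ t ∂(iidLaw G), ∀ H : SimpleGraph (ℤ × ℤ), H ≤ squareLattice → ∀ x y, H.Reachable x y →
      ∃ w : H.Walk x y, w.IsPath ∧ IsGeo t w := by
  filter_upwards [ae_geoFin (G := G) h0 hz, K.ae_Nn (G := G) h0] with t ht ht0 H hH x y hxy
  let _ := locFin hH
  exact exists_isGeo ht0 (ht H hH x) hxy

end finiteness

section mixing

variable {I X : Type*} [MeasurableSpace X] {G : Measure X} [IsProbabilityMeasure G]

/-- reindexing of configurations -/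
def reidx (σ : I → I) (t : I → X) : I → X := fun i => t (σ i)

theorem measurable_reidx (σ : I → I) : Measurable (reidx σ : (I → X) → I → X) :=
  measurable_pi_lambda _ fun _ => measurable_pi_apply _

theorem mp_reidx {σ : I → I} (hσ : Function.Injective σ) :
    MeasurePreserving (reidx σ : (I → X) → I → X) (Measure.infinitePi fun _ : I => G)
      (Measure.infinitePi fun _ : I => G) :=
  ⟨measurable_reidx σ, Measure.map_infinitePi_infinitePi_of_inj (P := fun _ : I => G) hσ⟩

/-- cylinder sets over disjoint finite sets of coordinates are independent -/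
theorem indep_cylinders {S T : Set I} (hST : Disjoint S T) {A B : Set (I → X)}
    (hA : MeasurableSet[⨆ e ∈ S, MeasurableSpace.comap (fun t : I → X => t e) inferInstance] A)
    (hB : MeasurableSet[⨆ e ∈ T, MeasurableSpace.comap (fun t : I → X => t e) inferInstance] B) :
    (Measure.infinitePi fun _ : I => G) (A ∩ B) =
      (Measure.infinitePi fun _ : I => G) A * (Measure.infinitePi fun _ : I => G) B := by
  have h1 : iIndepFun (fun (e : I) (t : I → X) => t e) (Measure.infinitePi fun _ : I => G) :=
    iIndepFun_infinitePi (X := fun _ (x : X) => x) (fun _ => measurable_id)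
  have h2 := indep_iSup_of_disjoint (fun e => (measurable_pi_apply e).comap_le) h1 hST
  exact (Indep_iff _ _ _).1 h2 _ _ hA hB

theorem cylinder_measurable {S : Finset I} {A : Set ((i : S) → X)} (hA : MeasurableSet A) :
    MeasurableSet[⨆ e ∈ (S : Set I), MeasurableSpace.comap (fun t : I → X => t e) inferInstance]
      (cylinder S A) := by
  have hm : @Measurable _ _ (⨆ e ∈ (S : Set I), MeasurableSpace.comap
      (fun t : I → X => t e) inferInstance) MeasurableSpace.pi (S.restrict : (I → X) → _) := by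
    refine @measurable_pi_lambda _ _ _ (⨆ e ∈ (S : Set I), MeasurableSpace.comap
      (fun t : I → X => t e) inferInstance) _ _ fun e => ?_
    refine Measurable.of_comap_le ?_
    exact le_iSup₂_of_le e.1 e.2 le_rfl
  exact hm hA

/-- Approximation of measurable sets by cylinders. -/
theorem exists_cylinder_approx {A : Set (I → X)} (hA : MeasurableSet A) {ε : ℝ} (hε : 0 < ε) :
    ∃ (S : Finset I) (A' : Set ((i : S) → X)), MeasurableSet A' ∧
      (Measure.infinitePi fun _ : I => G).real (cylinder S A' ∆ A) < ε := by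
  obtain ⟨C, hC, hCA⟩ := exists_measure_symmDiff_lt_of_generateFrom_isSetRing
    (μ := Measure.infinitePi fun _ : I => G) (isSetRing_measurableCylinders (α := fun _ : I => X))
    ⟨{Set.univ}, Set.countable_singleton _,
      Set.singleton_subset_iff.2 (univ_mem_measurableCylinders _), by simp⟩
    generateFrom_measurableCylinders.symm hA (ε := ENNReal.ofReal ε)
    (ENNReal.ofReal_pos.2 hε)
  obtain ⟨S, A', hA', rfl⟩ := (mem_measurableCylinders _).1 hC
  refine ⟨S, A', hA', ?_⟩
  rw [Measure.real, ← ENNReal.lt_ofReal_iff_toReal_lt (measure_ne_top _ _)]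
  exact hCA

theorem preimage_cylinder_measurable {S : Finset I} {A : Set ((i : S) → X)}
    (hA : MeasurableSet A) (σ : I → I) :
    MeasurableSet[⨆ e ∈ (σ '' (S : Set I)),
      MeasurableSpace.comap (fun t : I → X => t e) inferInstance]
      (reidx σ ⁻¹' cylinder S A) := by
  have hm : @Measurable _ _ (⨆ e ∈ (σ '' (S : Set I)), MeasurableSpace.comap
      (fun t : I → X => t e) inferInstance) MeasurableSpace.pi
      (fun t : I → X => (S.restrict (reidx σ t) : (i : S) → X)) := by
    refine @measurable_pi_lambda _ _ _ (⨆ e ∈ (σ '' (S : Set I)), MeasurableSpace.comap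
      (fun t : I → X => t e) inferInstance) _ _ fun e => ?_
    refine Measurable.of_comap_le ?_
    exact le_iSup₂_of_le (σ e.1) ⟨e.1, e.2, rfl⟩ le_rfl
  exact hm hA

/-- Mixing for reindexings that move every finite set away from every finite set. -/
theorem mixing_reidx {σ : ℕ → I → I} (hσ : ∀ n, Function.Injective (σ n))
    (hd : ∀ S T : Finset I, ∀ᶠ n in atTop, Disjoint (S : Set I) (σ n '' (T : Set I)))
    {A B : Set (I → X)} (hA : MeasurableSet A) (hB : MeasurableSet B) :
    Tendsto (fun n => (Measure.infinitePi fun _ : I => G).real (A ∩ reidx (σ n) ⁻¹' B)) atTop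
      (𝓝 ((Measure.infinitePi fun _ : I => G).real A *
        (Measure.infinitePi fun _ : I => G).real B)) := by
  set μ := Measure.infinitePi fun _ : I => G with hμ
  rw [Metric.tendsto_atTop]
  intro ε hε
  obtain ⟨S, A', hA', hAA⟩ := exists_cylinder_approx (G := G) hA (ε := ε / 5) (by positivity)
  obtain ⟨T, B', hB', hBB⟩ := exists_cylinder_approx (G := G) hB (ε := ε / 5) (by positivity)
  rw [← hμ] at hAA hBB
  obtain ⟨N, hN⟩ := eventually_atTop.1 (hd S T)
  refine ⟨N, fun n hn => ?_⟩
  have hmA : MeasurableSet (cylinder S A' : Set (I → X)) := MeasurableSet.cylinder S hA'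
  have hmB : MeasurableSet (cylinder T B' : Set (I → X)) := MeasurableSet.cylinder T hB'
  have hind : μ.real (cylinder S A' ∩ reidx (σ n) ⁻¹' cylinder T B') =
      μ.real (cylinder S A') * μ.real (cylinder T B') := by
    have h1 := indep_cylinders (G := G) (hN n hn) (cylinder_measurable hA')
      (preimage_cylinder_measurable hB' (σ n))
    have h2 : μ (reidx (σ n) ⁻¹' cylinder T B') = μ (cylinder T B') :=
      (mp_reidx (hσ n)).measure_preimage hmB.nullMeasurableSet
    rw [← hμ, h2] at h1
    simp only [Measure.real]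
    rw [h1, ENNReal.toReal_mul]
  have h3 : |μ.real (A ∩ reidx (σ n) ⁻¹' B) -
      μ.real (cylinder S A' ∩ reidx (σ n) ⁻¹' cylinder T B')| ≤ 2 * (ε / 5) := by
    refine (abs_measureReal_sub_le_measureReal_symmDiff
      (hA.inter ((measurable_reidx _) hB)).nullMeasurableSet
      (hmA.inter ((measurable_reidx _) hmB)).nullMeasurableSet).trans ?_
    have hsub : (A ∩ reidx (σ n) ⁻¹' B) ∆ (cylinder S A' ∩ reidx (σ n) ⁻¹' cylinder T B') ⊆
        (cylinder S A' ∆ A) ∪ (reidx (σ n) ⁻¹' (cylinder T B' ∆ B)) := by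
      intro t ht
      simp only [Set.mem_union, Set.mem_symmDiff, Set.mem_inter_iff, Set.mem_preimage] at ht ⊢
      tauto
    have h4 : μ.real (reidx (σ n) ⁻¹' (cylinder T B' ∆ B)) = μ.real (cylinder T B' ∆ B) := by
      simp only [Measure.real]
      rw [(mp_reidx (G := G) (hσ n)).measure_preimage (hmB.symmDiff hB).nullMeasurableSet]
    calc μ.real ((A ∩ reidx (σ n) ⁻¹' B) ∆ (cylinder S A' ∩ reidx (σ n) ⁻¹' cylinder T B'))
        ≤ μ.real ((cylinder S A' ∆ A) ∪ (reidx (σ n) ⁻¹' (cylinder T B' ∆ B))) :=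
          measureReal_mono hsub
      _ ≤ μ.real (cylinder S A' ∆ A) + μ.real (reidx (σ n) ⁻¹' (cylinder T B' ∆ B)) :=
          measureReal_union_le _ _
      _ ≤ 2 * (ε / 5) := by rw [h4]; linarith
  have h5 : |μ.real (cylinder S A') - μ.real A| ≤ ε / 5 :=
    (abs_measureReal_sub_le_measureReal_symmDiff hmA.nullMeasurableSet
      hA.nullMeasurableSet).trans hAA.le
  have h6 : |μ.real (cylinder T B') - μ.real B| ≤ ε / 5 :=
    (abs_measureReal_sub_le_measureReal_symmDiff hmB.nullMeasurableSet
      hB.nullMeasurableSet).trans hBB.le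
  rw [hind] at h3
  have a1 : μ.real (cylinder S A') ≤ 1 := measureReal_le_one
  have a0 : 0 ≤ μ.real (cylinder S A') := measureReal_nonneg
  have b1 : μ.real B ≤ 1 := measureReal_le_one
  have b0 : 0 ≤ μ.real B := measureReal_nonneg
  have h7 : |μ.real (cylinder S A') * μ.real (cylinder T B') - μ.real A * μ.real B| ≤
      2 * (ε / 5) := by
    have : μ.real (cylinder S A') * μ.real (cylinder T B') - μ.real A * μ.real B =
        μ.real (cylinder S A') * (μ.real (cylinder T B') - μ.real B) +
          (μ.real (cylinder S A') - μ.real A) * μ.real B := by ring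
    rw [this]
    refine (abs_add_le _ _).trans ?_
    rw [abs_mul, abs_mul, abs_of_nonneg a0, abs_of_nonneg b0]
    nlinarith [abs_nonneg (μ.real (cylinder T B') - μ.real B),
      abs_nonneg (μ.real (cylinder S A') - μ.real A)]
  rw [Real.dist_eq]
  have := abs_sub_le (μ.real (A ∩ reidx (σ n) ⁻¹' B))
    (μ.real (cylinder S A') * μ.real (cylinder T B')) (μ.real A * μ.real B)
  linarith

/-- An event that is (almost surely) invariant under all `reidx (σ n)` is trivial. -/
theorem zero_or_one_of_invariant {σ : ℕ → I → I} (hσ : ∀ n, Function.Injective (σ n))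
    (hd : ∀ S T : Finset I, ∀ᶠ n in atTop, Disjoint (S : Set I) (σ n '' (T : Set I)))
    {A : Set (I → X)} (hA : MeasurableSet A)
    (hinv : ∀ n, reidx (σ n) ⁻¹' A =ᵐ[Measure.infinitePi fun _ : I => G] A) :
    (Measure.infinitePi fun _ : I => G) A = 0 ∨ (Measure.infinitePi fun _ : I => G) A = 1 := by
  set μ := Measure.infinitePi fun _ : I => G with hμ
  have h1 := mixing_reidx (G := G) hσ hd hA hA
  rw [← hμ] at h1
  have h2 : ∀ n, μ.real (A ∩ reidx (σ n) ⁻¹' A) = μ.real A := by
    intro n
    simp only [Measure.real]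
    congr 1
    refine measure_congr ?_
    have := (ae_eq_refl A : A =ᵐ[μ] A).inter (hinv n)
    rwa [Set.inter_self] at this
  simp only [h2] at h1
  have h3 := tendsto_nhds_unique tendsto_const_nhds h1
  have h4 : μ.real A = 0 ∨ μ.real A = 1 := by
    rcases eq_or_ne (μ.real A) 0 with h | h
    · exact Or.inl h
    · right
      have : μ.real A * (μ.real A - 1) = 0 := by linarith
      rcases mul_eq_zero.1 this with h' | h'
      · exact absurd h' h
      · linarith
  rcases h4 with h | h
  · left
    rw [Measure.real, ENNReal.toReal_eq_zero_iff] at h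
    rcases h with h | h
    · exact h
    · exact absurd h (measure_ne_top _ _)
  · right
    rw [Measure.real] at h
    rw [← ENNReal.ofReal_toReal (measure_ne_top μ A), h, ENNReal.ofReal_one]

end mixing

section shifts

variable {G : Measure ℝ} [IsProbabilityMeasure G]

theorem shift_eq_reidx (z : ℤ × ℤ) : (A.shift z : Environment → Environment) =
    reidx (A.eShift z) := rfl

theorem finite_shift_meet {z : ℤ × ℤ} (hz : z ≠ 0) (S T : Finset (Sym2 (ℤ × ℤ))) :
    ∀ᶠ n : ℕ in atTop, Disjoint (S : Set (Sym2 (ℤ × ℤ)))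
      (A.eShift (n • z) '' (T : Set (Sym2 (ℤ × ℤ)))) := by
  -- for each pair `e f` at most one `n` with `eShift (n z) f = e`
  have key : ∀ e f : Sym2 (ℤ × ℤ), ∀ᶠ n : ℕ in atTop, A.eShift (n • z) f ≠ e := by
    intro e f
    induction e with
    | _ x y =>
    induction f with
    | _ x' y' =>
    have hz' : z.1 ≠ 0 ∨ z.2 ≠ 0 := by
      by_contra hcon
      push Not at hcon
      exact hz (Prod.ext hcon.1 hcon.2)
    obtain ⟨N, hN⟩ : ∃ N : ℕ, N = (x.1 - x'.1).natAbs + (x.2 - x'.2).natAbs + (y.1 - x'.1).natAbs +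
      (y.2 - x'.2).natAbs + 1 := ⟨_, rfl⟩
    filter_upwards [eventually_ge_atTop N] with n hn heq
    rw [A.eShift_mk, Sym2.eq_iff] at heq
    have aux : ∀ w : ℤ × ℤ, x' + n • z = w → (n : ℤ) ≤ (w.1 - x'.1).natAbs + (w.2 - x'.2).natAbs := by
      intro w hw
      have h1 : w.1 - x'.1 = n * z.1 := by
        rw [← hw]; simp
      have h2 : w.2 - x'.2 = n * z.2 := by
        rw [← hw]; simp
      rw [h1, h2, Int.natAbs_mul, Int.natAbs_mul, Int.natAbs_natCast]
      push_cast
      rcases hz' with h | h
      · have : 1 ≤ |z.1| := Int.one_le_abs h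
        nlinarith [abs_nonneg z.2, abs_nonneg z.1]
      · have : 1 ≤ |z.2| := Int.one_le_abs h
        nlinarith [abs_nonneg z.2, abs_nonneg z.1]
    rcases heq with ⟨h1, -⟩ | ⟨h1, -⟩
    · have := aux x h1
      omega
    · have := aux y h1
      omega
  have h2 : ∀ᶠ n : ℕ in atTop, ∀ e ∈ S, ∀ f ∈ T, A.eShift (n • z) f ≠ e := by
    rw [eventually_all_finset]
    intro e _
    rw [eventually_all_finset]
    intro f _
    exact key e f
  filter_upwards [h2] with n hn
  rw [Set.disjoint_left]
  rintro e he ⟨f, hf, hfe⟩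
  exact hn e he f hf hfe

theorem iterate_invariant {z : ℤ × ℤ} {B : Set Environment}
    (hinv : A.shift z ⁻¹' B =ᵐ[iidLaw G] B) (n : ℕ) :
    A.shift (n • z) ⁻¹' B =ᵐ[iidLaw G] B := by
  induction n with
  | zero =>
    have : (A.shift ((0 : ℕ) • z)) ⁻¹' B = B := by
      ext t
      simp [A.shift_zero]
    exact Filter.EventuallyEq.of_eq this
  | succ n ih =>
    have h1 : A.shift ((n + 1) • z) ⁻¹' B = A.shift z ⁻¹' (A.shift (n • z) ⁻¹' B) := by
      ext t
      simp only [Set.mem_preimage]
      rw [A.shift_shift, succ_nsmul]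
    rw [h1]
    exact ((A.mp_shift G z).quasiMeasurePreserving.preimage_ae_eq ih).trans hinv

/-- translations are mixing -/
theorem mixing_shift {z : ℤ × ℤ} (hz : z ≠ 0) {B C : Set Environment} (hB : MeasurableSet B)
    (hC : MeasurableSet C) :
    Tendsto (fun n : ℕ => (iidLaw G).real (B ∩ A.shift (n • z) ⁻¹' C)) atTop
      (𝓝 ((iidLaw G).real B * (iidLaw G).real C)) :=
  mixing_reidx (σ := fun n => A.eShift (n • z)) (fun _ => A.eShift_injective _)
    (finite_shift_meet hz) hB hC

theorem zero_or_one_shift {z : ℤ × ℤ} (hz : z ≠ 0) {B : Set Environment} (hB : MeasurableSet B)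
    (hinv : A.shift z ⁻¹' B =ᵐ[iidLaw G] B) : iidLaw G B = 0 ∨ iidLaw G B = 1 :=
  zero_or_one_of_invariant (σ := fun n => A.eShift (n • z)) (fun _ => A.eShift_injective _)
    (finite_shift_meet hz) hB (iterate_invariant hinv)

/-- null measurable version -/
theorem zero_or_one_shift₀ {z : ℤ × ℤ} (hz : z ≠ 0) {B : Set Environment}
    (hB : NullMeasurableSet B (iidLaw G))
    (hinv : A.shift z ⁻¹' B =ᵐ[iidLaw G] B) : iidLaw G B = 0 ∨ iidLaw G B = 1 := by
  have h1 : (toMeasurable (iidLaw G) B) =ᵐ[iidLaw G] B := hB.toMeasurable_ae_eq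
  have h2 : A.shift z ⁻¹' (toMeasurable (iidLaw G) B) =ᵐ[iidLaw G] toMeasurable (iidLaw G) B :=
    (((A.mp_shift G z).quasiMeasurePreserving.preimage_ae_eq h1).trans hinv).trans h1.symm
  have h3 := zero_or_one_shift hz (measurableSet_toMeasurable _ _) h2
  rwa [measure_toMeasurable] at h3

theorem ergodic_shift {z : ℤ × ℤ} (hz : z ≠ 0) : Ergodic (A.shift z) (iidLaw G) where
  toMeasurePreserving := A.mp_shift G z
  toPreErgodic := ⟨fun s hs hinv => by
    rw [eventuallyConst_set']
    rcases zero_or_one_shift (G := G) hz hs (Filter.EventuallyEq.of_eq hinv) with h | h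
    · left
      exact ae_eq_empty.2 h
    · right
      exact (ae_eq_univ_iff_measure_eq hs.nullMeasurableSet).2 (by rw [h, measure_univ])⟩

end shifts

end Crest.Agent.R151
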