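import Mathlib
import Crest.Agent.R151.F2
import Crest.Agent.R151.Y635B

/-!
# R151, Y635C: compactness (deterministic layer)

* limits of sequences of paths along an ultrafilter (`exists_seq_lim`, `exists_seq_lim₂`);
* long geodesics from `x` give a ray (`exists_isRay_of_geo`), rays converge to rays;
* passage times in an increasing union of graphs;
* two-sided geodesics `IsBiRay`, joining two rays, long geodesics through a finite set give a
  two-sided geodesic.
-/

set_option autoImplicit false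

open Crest.ProbabilityR.FirstPassage
open scoped Classical
open Filter Topology

namespace Crest.Agent.R151.Y

open Crest.Agent.R151

variable {V : Type*} {H : SimpleGraph V} {t : Sym2 V → ℝ} {f : V → ℝ} {x y z : V}

theorem neighborSet_finite {H : SimpleGraph (ℤ × ℤ)} (hH : H ≤ squareLattice) (x : ℤ × ℤ) :
    (H.neighborSet x).Finite :=
  Set.Finite.subset (Set.finite_range _) (neighborSet_subset hH x)

section ulim

/-- Pointwise limit of functions with values in finite sets, along an ultrafilter. -/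
theorem exists_ulim {ι κ : Type*} (U : Ultrafilter ι) (a : ι → κ → V) (F : κ → Set V)
    (hF : ∀ k, (F k).Finite) (h : ∀ k, ∀ᶠ i in (U : Filter ι), a i k ∈ F k) :
    ∃ v : κ → V, ∀ k, v k ∈ F k ∧ ∀ᶠ i in (U : Filter ι), a i k = v k := by
  have key : ∀ k, ∃ y ∈ F k, ∀ᶠ i in (U : Filter ι), a i k = y := by
    intro k
    have h1 : ⋃ y ∈ F k, {i | a i k = y} ∈ U := by
      refine mem_of_superset (h k) ?_
      intro i hi
      simp only [Set.mem_iUnion]
      exact ⟨a i k, hi, rfl⟩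
    rw [Ultrafilter.finite_biUnion_mem_iff (hF k)] at h1
    obtain ⟨y, hy, hy'⟩ := h1
    exact ⟨y, hy, hy'⟩
  choose v hv using key
  exact ⟨v, hv⟩

/-- The set of vertices reached from `F` in at most `n` steps. -/
def stepSet (H : SimpleGraph V) (F : Set V) : ℕ → Set V
  | 0 => F
  | n + 1 => ⋃ x ∈ stepSet H F n, H.neighborSet x

theorem stepSet_finite (hlf : ∀ x, (H.neighborSet x).Finite) {F : Set V} (hF : F.Finite) (n : ℕ) :
    (stepSet H F n).Finite := by
  induction n with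
  | zero => exact hF
  | succ n ih => exact Set.Finite.biUnion ih fun x _ => hlf x

/-- Compactness for one-sided paths. -/
theorem exists_seq_lim {ι : Type*} (hlf : ∀ x, (H.neighborSet x).Finite) (U : Ultrafilter ι)
    (a : ι → ℕ → V) {F : Set V} (hF : F.Finite) (h0 : ∀ᶠ i in (U : Filter ι), a i 0 ∈ F)
    (hadj : ∀ k, ∀ᶠ i in (U : Filter ι), H.Adj (a i k) (a i (k + 1))) :
    ∃ v : ℕ → V, v 0 ∈ F ∧ (∀ k, H.Adj (v k) (v (k + 1))) ∧
      ∀ n, ∀ᶠ i in (U : Filter ι), ∀ k ≤ n, a i k = v k := by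
  have hmem : ∀ k, ∀ᶠ i in (U : Filter ι), a i k ∈ stepSet H F k := by
    intro k
    induction k with
    | zero => exact h0
    | succ k ih =>
      filter_upwards [ih, hadj k] with i hi hi'
      simp only [stepSet, Set.mem_iUnion]
      exact ⟨a i k, hi, hi'⟩
  obtain ⟨v, hv⟩ := exists_ulim U a (stepSet H F) (stepSet_finite hlf hF) hmem
  refine ⟨v, (hv 0).1, fun k => ?_, fun n => ?_⟩
  · obtain ⟨i, h1, h2, h3⟩ := ((hv k).2.and ((hv (k + 1)).2.and (hadj k))).exists
    rwa [h1, h2] at h3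
  · have : ∀ᶠ i in (U : Filter ι), ∀ k ∈ Finset.range (n + 1), a i k = v k := by
      rw [Filter.eventually_all_finset]
      exact fun k _ => (hv k).2
    exact this.mono fun i hi k hk => hi k (Finset.mem_range.2 (by omega))

/-- Compactness for two-sided paths. -/
theorem exists_seq_lim₂ {ι : Type*} (hlf : ∀ x, (H.neighborSet x).Finite) (U : Ultrafilter ι)
    (a : ι → ℤ → V) {F : Set V} (hF : F.Finite) (h0 : ∀ᶠ i in (U : Filter ι), a i 0 ∈ F)
    (hadj : ∀ k, ∀ᶠ i in (U : Filter ι), H.Adj (a i k) (a i (k + 1))) :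
    ∃ v : ℤ → V, v 0 ∈ F ∧ (∀ k, H.Adj (v k) (v (k + 1))) ∧
      ∀ n : ℕ, ∀ᶠ i in (U : Filter ι), ∀ k : ℤ, |k| ≤ n → a i k = v k := by
  have hmem : ∀ k : ℤ, ∀ᶠ i in (U : Filter ι), a i k ∈ stepSet H F k.natAbs := by
    have h1 : ∀ n : ℕ, ∀ᶠ i in (U : Filter ι), a i n ∈ stepSet H F n := by
      intro n
      induction n with
      | zero => exact h0
      | succ n ih =>
        filter_upwards [ih, hadj n] with i hi hi'
        simp only [stepSet, Set.mem_iUnion]
        exact ⟨a i n, hi, by push_cast; exact hi'⟩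
    have h2 : ∀ n : ℕ, ∀ᶠ i in (U : Filter ι), a i (-n) ∈ stepSet H F n := by
      intro n
      induction n with
      | zero => simpa [stepSet] using h0
      | succ n ih =>
        filter_upwards [ih, hadj (-(n + 1 : ℕ))] with i hi hi'
        simp only [stepSet, Set.mem_iUnion]
        refine ⟨a i (-n), hi, ?_⟩
        rw [show -((n + 1 : ℕ) : ℤ) + 1 = -n by push_cast; ring] at hi'
        exact hi'.symm
    intro k
    rcases Int.natAbs_eq k with hk | hk
    · have := h1 k.natAbs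
      rwa [← hk] at this
    · have := h2 k.natAbs
      rwa [← hk] at this
  obtain ⟨v, hv⟩ := exists_ulim U a (fun k => stepSet H F k.natAbs)
    (fun k => stepSet_finite hlf hF _) hmem
  refine ⟨v, (hv 0).1, fun k => ?_, fun n => ?_⟩
  · obtain ⟨i, h1, h2, h3⟩ := ((hv k).2.and ((hv (k + 1)).2.and (hadj k))).exists
    rwa [h1, h2] at h3
  · have : ∀ᶠ i in (U : Filter ι), ∀ k ∈ Finset.Icc (-(n : ℤ)) n, a i k = v k := by
      rw [Filter.eventually_all_finset]
      exact fun k _ => (hv k).2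
    refine this.mono fun i hi k hk => hi k (Finset.mem_Icc.2 ?_)
    rw [abs_le] at hk
    exact hk

end ulim

section union

/-- Every walk in a directed union of graphs is a walk in one of them. -/
theorem exists_walk_of_iSup {Hn : ℕ → SimpleGraph V} (hmono : Monotone Hn) {x y : V}
    (w : (⨆ n, Hn n).Walk x y) : ∃ n, ∃ w' : (Hn n).Walk x y, w'.edges = w.edges := by
  induction w with
  | nil => exact ⟨0, .nil, rfl⟩
  | @cons a b c h p ih =>
    obtain ⟨n, w', hw'⟩ := ih
    rw [SimpleGraph.iSup_adj] at h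
    obtain ⟨m, hm⟩ := h
    refine ⟨max m n, .cons (hmono (le_max_left m n) hm) (w'.mapLe (hmono (le_max_right m n))), ?_⟩
    simp [hw']

theorem pt_iSup_le {Hn : ℕ → SimpleGraph V} (ht : ∀ e, 0 ≤ t e) (n : ℕ)
    (h : (Hn n).Reachable x y) : pt (⨆ n, Hn n) t x y ≤ pt (Hn n) t x y :=
  pt_anti (le_iSup Hn n) ht h

/-- Passage times in an increasing union. -/
theorem tendsto_pt_iSup {Hn : ℕ → SimpleGraph V} (hmono : Monotone Hn) (ht : ∀ e, 0 ≤ t e)
    (h : (⨆ n, Hn n).Reachable x y) :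
    Tendsto (fun n => pt (Hn n) t x y) atTop (𝓝 (pt (⨆ n, Hn n) t x y)) := by
  obtain ⟨w0⟩ := h
  obtain ⟨n0, w0', -⟩ := exists_walk_of_iSup hmono w0
  have hr : ∀ n, n0 ≤ n → (Hn n).Reachable x y := fun n hn => (w0'.mapLe (hmono hn)).reachable
  rw [Metric.tendsto_atTop]
  intro ε hε
  obtain ⟨w, hw⟩ := exists_wcost_lt (t := t) (H := ⨆ n, Hn n) ⟨w0⟩
    (a := pt (⨆ n, Hn n) t x y + ε) (by linarith)
  obtain ⟨n1, w1, hw1⟩ := exists_walk_of_iSup hmono w
  refine ⟨max n0 n1, fun n hn => ?_⟩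
  have h1 := pt_iSup_le (t := t) ht n (hr n (le_of_max_le_left hn))
  have h2 := pt_le_wcost ht (w1.mapLe (hmono (le_of_max_le_right hn)))
  have h3 : wcost t w1 = wcost t w := by
    unfold wcost
    rw [hw1]
  rw [wcost_mapLe, h3] at h2
  rw [Real.dist_eq, abs_of_nonneg (by linarith)]
  linarith

end union

section rays

/-- Limits of geodesic pieces: if for every `n`, `U`-eventually the first `n` steps of `a i` are a
geodesic of `Hn i`, then the limit is a ray of the union. -/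
theorem isRay_of_lim {ι : Type*} (U : Ultrafilter ι) (ht : ∀ e, 0 ≤ t e)
    (a : ι → ℕ → V) {v : ℕ → V} (hadj : ∀ k, H.Adj (v k) (v (k + 1)))
    (hlim : ∀ n, ∀ᶠ i in (U : Filter ι), ∀ k ≤ n, a i k = v k)
    (hgeo : ∀ n, ∀ ε > 0, ∀ᶠ i in (U : Filter ι),
      ∑ k ∈ Finset.Ico 0 n, t s(a i k, a i (k + 1)) ≤ pt H t (a i 0) (a i n) + ε) :
    IsRay t H v := by
  refine IsRay.of_initial ht hadj fun n => ⟨n, le_rfl, ?_⟩
  refine le_of_forall_pos_le_add fun ε hε => ?_
  obtain ⟨i, h1, h2⟩ := ((hlim n).and (hgeo n ε hε)).exists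
  rw [h1 0 (Nat.zero_le n), h1 n le_rfl] at h2
  refine le_trans (le_of_eq ?_) h2
  refine Finset.sum_congr rfl fun k hk => ?_
  rw [Finset.mem_Ico] at hk
  rw [h1 k hk.2.le, h1 (k + 1) hk.2]

/-- Long geodesics from `x` converge to a geodesic ray, along any ultrafilter along which their
lengths tend to infinity. -/
theorem exists_isRay_of_geo {ι : Type*} (hlf : ∀ x, (H.neighborSet x).Finite)
    (ht : ∀ e, 0 ≤ t e) (U : Ultrafilter ι) {z : ι → V} (w : ∀ i, H.Walk x (z i))
    (hw : ∀ᶠ i in (U : Filter ι), IsGeo t (w i))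
    (hlen : ∀ n, ∀ᶠ i in (U : Filter ι), n ≤ (w i).length) :
    ∃ v : ℕ → V, IsRay t H v ∧ v 0 = x ∧
      ∀ n, ∀ᶠ i in (U : Filter ι), ∀ k ≤ n, (w i).getVert k = v k := by
  obtain ⟨v, h0, hadj, hlim⟩ := exists_seq_lim hlf U (fun i => (w i).getVert)
    (Set.finite_singleton x) (Eventually.of_forall fun i => by simp)
    (fun k => (hlen (k + 1)).mono fun i hi => (w i).adj_getVert_succ (by omega))
  refine ⟨v, isRay_of_lim U ht (fun i => (w i).getVert) hadj hlim ?_, by simpa using h0, hlim⟩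
  intro n ε hε
  filter_upwards [hw, hlen n] with i hi hi'
  have h1 := hi.take ht n
  have h2 : ((w i).take n).length = n := by simp [hi']
  have h3 := sum_getVert t ((w i).take n)
  rw [h2] at h3
  have h4 : pt H t ((w i).getVert 0) ((w i).getVert n) = wcost t ((w i).take n) := by
    rw [h1, SimpleGraph.Walk.getVert_zero]
  rw [h4, ← h3, ← Finset.range_eq_Ico]
  refine le_trans (le_of_eq ?_) (le_add_of_nonneg_right hε.le)
  refine Finset.sum_congr rfl fun k hk => ?_
  rw [Finset.mem_range] at hk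
  rw [SimpleGraph.Walk.take_getVert, SimpleGraph.Walk.take_getVert, min_eq_right (by omega),
    min_eq_right (by omega)]

/-- Rays with starting points in a finite set converge to a ray. -/
theorem exists_isRay_of_rays {ι : Type*} (hlf : ∀ x, (H.neighborSet x).Finite)
    (ht : ∀ e, 0 ≤ t e) (U : Ultrafilter ι) (a : ι → ℕ → V) {F : Set V} (hF : F.Finite)
    (ha : ∀ᶠ i in (U : Filter ι), IsRay t H (a i)) (h0 : ∀ᶠ i in (U : Filter ι), a i 0 ∈ F) :
    ∃ v : ℕ → V, IsRay t H v ∧ v 0 ∈ F ∧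
      ∀ n, ∀ᶠ i in (U : Filter ι), ∀ k ≤ n, a i k = v k := by
  obtain ⟨v, h0, hadj, hlim⟩ := exists_seq_lim hlf U a hF h0
    (fun k => ha.mono fun i hi => hi.adj k)
  refine ⟨v, isRay_of_lim U ht a hadj hlim ?_, h0, hlim⟩
  intro n ε hε
  filter_upwards [ha] with i hi
  rw [hi.geo 0 n (Nat.zero_le n)]
  linarith

end rays

section biray

theorem sum_consecutive_int (g : ℤ → ℝ) {a b c : ℤ} (hab : a ≤ b) (hbc : b ≤ c) :
    ∑ k ∈ Finset.Ico a b, g k + ∑ k ∈ Finset.Ico b c, g k = ∑ k ∈ Finset.Ico a c, g k := by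
  rw [← Finset.Ico_union_Ico_eq_Ico hab hbc, Finset.sum_union]
  exact Finset.Ico_disjoint_Ico_consecutive a b c

/-- A two-sided geodesic of `H`. -/
structure IsBiRay (t : Sym2 V → ℝ) (H : SimpleGraph V) (v : ℤ → V) : Prop where
  adj : ∀ k, H.Adj (v k) (v (k + 1))
  geo : ∀ i j, i ≤ j → ∑ k ∈ Finset.Ico i j, t s(v k, v (k + 1)) = pt H t (v i) (v j)

variable {v : ℤ → V}

theorem sum_shift_nat (g : ℤ → ℝ) (i : ℤ) (n : ℕ) :
    ∑ k ∈ Finset.Ico i (i + n), g k = ∑ k ∈ Finset.range n, g (i + k) := by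
  refine (Finset.sum_bij (fun (k : ℕ) _ => i + (k : ℤ)) ?_ ?_ ?_ ?_).symm
  · intro k hk
    rw [Finset.mem_range] at hk
    rw [Finset.mem_Ico]
    omega
  · intro a₁ _ a₂ _ h
    simpa using h
  · intro k hk
    rw [Finset.mem_Ico] at hk
    exact ⟨(k - i).toNat, by rw [Finset.mem_range]; omega, by omega⟩
  · intro k _
    rfl

theorem IsBiRay.isRay (h : IsBiRay t H v) (i : ℤ) : IsRay t H fun k : ℕ => v (i + k) := by
  refine ⟨fun k => ?_, fun a b hab => ?_⟩
  · have := h.adj (i + k)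
    push_cast
    rwa [← add_assoc]
  · obtain ⟨d, rfl⟩ := Nat.exists_eq_add_of_le hab
    have h1 := h.geo (i + a) (i + a + d) (by omega)
    rw [sum_shift_nat] at h1
    rw [Finset.sum_Ico_eq_sum_range, Nat.add_sub_cancel_left]
    push_cast
    rw [← add_assoc, ← h1]
    refine Finset.sum_congr rfl fun k _ => ?_
    rw [show i + (↑a + ↑k) = i + ↑a + ↑k by ring, show i + (↑a + ↑k + 1) = i + ↑a + ↑k + 1 by ring]

/-- Two-sided sequences all of whose centred windows are geodesics. -/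
theorem IsBiRay.of_windows (ht : ∀ e, 0 ≤ t e) (hadj : ∀ k, H.Adj (v k) (v (k + 1)))
    (h : ∀ n : ℕ, ∃ a b : ℤ, a ≤ -n ∧ n ≤ b ∧
      ∑ k ∈ Finset.Ico a b, t s(v k, v (k + 1)) ≤ pt H t (v a) (v b)) :
    IsBiRay t H v := by
  refine ⟨hadj, fun i j hij => ?_⟩
  obtain ⟨a, b, ha, hb, hle⟩ := h (i.natAbs + j.natAbs)
  have hai : a ≤ i := by omega
  have hjb : j ≤ b := by omega
  -- compare with the ray started at `a`
  have hadj' : ∀ k : ℕ, H.Adj (v (a + k)) (v (a + (k + 1 : ℕ))) := by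
    intro k
    have := hadj (a + k)
    push_cast
    rwa [← add_assoc]
  have c : ∀ p q : ℤ, a ≤ p → p ≤ q →
      H.Reachable (v p) (v q) ∧ pt H t (v p) (v q) ≤ ∑ k ∈ Finset.Ico p q, t s(v k, v (k + 1)) := by
    intro p q hp hpq
    have e1 : v p = v (a + (p - a).toNat) := by congr 1; omega
    have e2 : v q = v (a + ((p - a).toNat + (q - p).toNat : ℕ)) := by congr 1; push_cast; omega
    have h1 := pt_le_wcost ht (seqWalk (fun k : ℕ => v (a + k)) hadj' (p - a).toNat (q - p).toNat)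
    have hr := (seqWalk (fun k : ℕ => v (a + k)) hadj' (p - a).toNat (q - p).toNat).reachable
    rw [wcost_seqWalk] at h1
    rw [e1, e2]
    refine ⟨hr, h1.trans (le_of_eq ?_)⟩
    have h3 : (q : ℤ) = p + ((q - p).toNat : ℤ) := by omega
    have h2 := sum_shift_nat (fun k => t s(v k, v (k + 1))) p (q - p).toNat
    rw [← h3] at h2
    rw [h2]
    refine Finset.sum_congr rfl fun k _ => ?_
    push_cast
    rw [show a + (((p - a).toNat : ℤ) + (k : ℤ)) = p + k by omega,
      show a + (((p - a).toNat : ℤ) + (k : ℤ) + 1) = p + k + 1 by omega]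
  have c1 := c a i le_rfl hai
  have c2 := c i j hai hij
  have c3 := c j b (hai.trans hij) hjb
  have t1 := pt_triangle ht c1.1 (c2.1.trans c3.1)
  have t2 := pt_triangle ht c2.1 c3.1
  have s1 := sum_consecutive_int (fun k => t s(v k, v (k + 1))) hai (hij.trans hjb)
  have s2 := sum_consecutive_int (fun k => t s(v k, v (k + 1))) hij hjb
  linarith

theorem IsBiRay.injective (h : IsBiRay t H v) (ht : ∀ e, 0 < t e) : Function.Injective v := by
  intro i j hij
  rcases le_total i j with hle | hle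
  · have h1 := (h.isRay i).injective ht (a₁ := 0) (a₂ := (j - i).toNat) (by
      simp only [Nat.cast_zero, add_zero]
      rw [hij]
      congr 1
      omega)
    omega
  · have h1 := (h.isRay j).injective ht (a₁ := 0) (a₂ := (i - j).toNat) (by
      simp only [Nat.cast_zero, add_zero]
      rw [← hij]
      congr 1
      omega)
    omega

theorem isBigeodesic_iff {t : Environment} {v : ℤ → ℤ × ℤ} (ht : ∀ e, 0 < t e) :
    IsBigeodesic t v ↔ IsBiRay t squareLattice v := by
  constructor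
  · intro h
    refine ⟨h.2.1, fun i j hij => ?_⟩
    rcases hij.eq_or_lt with rfl | hij
    · simp [pt_self fun e => (ht e).le]
    · rw [h.2.2 i j hij, passageTime_eq_pt]
  · intro h
    refine ⟨h.injective ht, h.adj, fun i j hij => ?_⟩
    rw [h.geo i j hij.le, passageTime_eq_pt]

/-- Limits of longer and longer geodesics through a finite set. `Hn i` are the graphs in which the
finite pieces are geodesics. -/
theorem exists_isBiRay_of_lim {ι : Type*} (hlf : ∀ x, (H.neighborSet x).Finite)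
    (ht : ∀ e, 0 ≤ t e) (U : Ultrafilter ι) (a : ι → ℤ → V) {F : Set V} (hF : F.Finite)
    (h0 : ∀ᶠ i in (U : Filter ι), a i 0 ∈ F)
    (hadj : ∀ k, ∀ᶠ i in (U : Filter ι), H.Adj (a i k) (a i (k + 1)))
    (hgeo : ∀ n : ℕ, ∀ x y : V, ∀ ε > 0, ∀ᶠ i in (U : Filter ι), a i (-n) = x → a i n = y →
      ∑ k ∈ Finset.Ico (-n : ℤ) n, t s(a i k, a i (k + 1)) ≤ pt H t x y + ε) :
    ∃ v : ℤ → V, IsBiRay t H v ∧ v 0 ∈ F ∧
      ∀ n : ℕ, ∀ᶠ i in (U : Filter ι), ∀ k : ℤ, |k| ≤ n → a i k = v k := by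
  obtain ⟨v, hv0, hvadj, hlim⟩ := exists_seq_lim₂ hlf U a hF h0 hadj
  refine ⟨v, IsBiRay.of_windows ht hvadj fun n => ⟨-n, n, le_rfl, le_rfl, ?_⟩, hv0, hlim⟩
  refine le_of_forall_pos_le_add fun ε hε => ?_
  obtain ⟨i, h1, h2⟩ := ((hlim n).and (hgeo n (v (-n)) (v n) ε hε)).exists
  have h3 := h2 (h1 (-n) (by simp)) (h1 n (by simp))
  refine le_trans (le_of_eq ?_) h3
  refine Finset.sum_congr rfl fun k hk => ?_
  rw [Finset.mem_Ico] at hk
  rw [h1 k (by rw [abs_le]; omega), h1 (k + 1) (by rw [abs_le]; omega)]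

/-- Two rays from the same point whose union is geodesic. -/
theorem isBiRay_join (ht : ∀ e, 0 ≤ t e) {u w : ℕ → V} (hu : IsRay t H u) (hw : IsRay t H w)
    (h0 : u 0 = w 0) (h : ∀ n, ∃ a b, n ≤ a ∧ n ≤ b ∧
      pt H t (u 0) (u a) + pt H t (w 0) (w b) ≤ pt H t (u a) (w b)) :
    IsBiRay t H fun k : ℤ => if 0 ≤ k then w k.toNat else u (-k).toNat := by
  set v : ℤ → V := fun k : ℤ => if 0 ≤ k then w k.toNat else u (-k).toNat with hv
  have hvn : ∀ n : ℕ, v n = w n := by
    intro n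
    simp [hv]
  have hvm : ∀ n : ℕ, v (-n) = u n := by
    intro n
    rcases Nat.eq_zero_or_pos n with rfl | hn
    · simp [hv, h0]
    · simp only [hv]
      rw [if_neg (by omega)]
      congr 1
      omega
  have hadj : ∀ k, H.Adj (v k) (v (k + 1)) := by
    intro k
    rcases lt_or_ge k 0 with hk | hk
    · obtain ⟨n, hn⟩ : ∃ n : ℕ, k = -((n + 1 : ℕ) : ℤ) := ⟨(-k - 1).toNat, by omega⟩
      rw [hn, hvm, show -((n + 1 : ℕ) : ℤ) + 1 = -(n : ℤ) by push_cast; ring, hvm]
      exact (hu.adj n).symm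
    · obtain ⟨n, hn⟩ : ∃ n : ℕ, k = (n : ℤ) := ⟨k.toNat, by omega⟩
      rw [hn, hvn, show (n : ℤ) + 1 = ((n + 1 : ℕ) : ℤ) by push_cast; ring, hvn]
      exact hw.adj n
  refine IsBiRay.of_windows ht hadj fun n => ?_
  obtain ⟨a, b, ha, hb, hle⟩ := h n
  refine ⟨-a, b, by omega, by omega, ?_⟩
  rw [hvn, hvm]
  refine le_trans (le_of_eq ?_) hle
  rw [← sum_consecutive_int _ (show -(a : ℤ) ≤ 0 by omega) (show (0 : ℤ) ≤ b by omega)]
  congr 1
  · have h1 := sum_shift_nat (fun k => t s(v k, v (k + 1))) (-a) a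
    rw [show -(a : ℤ) + (a : ℤ) = 0 by ring] at h1
    rw [h1, ← hu.geo 0 a (Nat.zero_le a), ← Finset.range_eq_Ico, ← Finset.sum_range_reflect]
    refine Finset.sum_congr rfl fun k hk => ?_
    rw [Finset.mem_range] at hk
    rw [show -(a : ℤ) + ((a - 1 - k : ℕ) : ℤ) = -((k + 1 : ℕ) : ℤ) by omega, hvm,
      show -((k + 1 : ℕ) : ℤ) + 1 = -(k : ℤ) by push_cast; ring, hvm, Sym2.eq_swap]
  · have h1 := sum_shift_nat (fun k => t s(v k, v (k + 1))) 0 b
    rw [zero_add] at h1
    rw [h1, ← hw.geo 0 b (Nat.zero_le b), ← Finset.range_eq_Ico]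
    refine Finset.sum_congr rfl fun k _ => ?_
    rw [zero_add, hvn, show (k : ℤ) + 1 = ((k + 1 : ℕ) : ℤ) by push_cast; ring, hvn]

end biray

end Crest.Agent.R151.Y
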