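import Mathlib
import Crest.Agent.R151.Y635C

/-!
# R151, Y635D: separators, Hopf-Lax, the pair functional of a two-sided geodesic

* `Sep H Hp A L`: `Hp ≤ H` contains every edge of `H` with an end in `A \ L` (side `A`, boundary
  `L`).  `sep_reg`: half planes and strips.
* last visit / first exit decompositions of walks and of one- and two-sided paths;
* Hopf-Lax formula for passage times and for Busemann functions;
* the pair functional `g p + pt H t p q + f q` is minimal at the (first entrance, last exit) pair of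
  a two-sided geodesic (`IsBiRay.pair_min`), and conversely a minimal pair with gradient rays gives
  a two-sided geodesic (`exists_isBiRay_of_pair_min`).
-/

set_option autoImplicit false

open Crest.ProbabilityR.FirstPassage
open scoped Classical
open Filter Topology

namespace Crest.Agent.R151.Y

open Crest.Agent.R151

variable {V : Type*} {H Hp Hm : SimpleGraph V} {A L B M : Set V}
  {t : Sym2 V → ℝ} {f g : V → ℝ} {x y z p q : V}

/-- `Hp` contains every edge of `H` with an end in `A \ L`. -/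
structure Sep (H Hp : SimpleGraph V) (A L : Set V) : Prop where
  le : Hp ≤ H
  sub : L ⊆ A
  sep : ∀ a b, H.Adj a b → b ∈ A → b ∉ L → Hp.Adj a b ∧ a ∈ A

/-- Regions of the square lattice cut by a `1`-Lipschitz integer functional `φ` (a coordinate). -/
theorem sep_reg (R : Set (ℤ × ℤ)) (φ : ℤ × ℤ → ℤ)
    (hφ : ∀ a b, squareLattice.Adj a b → φ b ≤ φ a + 1) (k : ℤ) :
    Sep (reg R) (reg (R ∩ {z | k ≤ φ z})) (R ∩ {z | k ≤ φ z}) (R ∩ {z | φ z = k}) := by
  refine ⟨reg_mono Set.inter_subset_left, fun z hz => ⟨hz.1, (show k ≤ φ z from hz.2.ge)⟩, ?_⟩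
  intro a b hab hb hbL
  have h1 : k < φ b := lt_of_le_of_ne hb.2 fun h => hbL ⟨hb.1, h.symm⟩
  have h2 := hφ a b hab.1
  have ha : a ∈ R ∩ {z | k ≤ φ z} := ⟨hab.2.1, show k ≤ φ a by omega⟩
  exact ⟨⟨hab.1, ha, hb⟩, ha⟩

theorem adj_snd_le {a b : ℤ × ℤ} (h : squareLattice.Adj a b) : b.2 ≤ a.2 + 1 := by
  simp only [squareLattice, SimpleGraph.fromRel_adj] at h
  omega

theorem adj_fst_le {a b : ℤ × ℤ} (h : squareLattice.Adj a b) : b.1 ≤ a.1 + 1 := by
  simp only [squareLattice, SimpleGraph.fromRel_adj] at h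
  omega

theorem adj_neg_snd_le {a b : ℤ × ℤ} (h : squareLattice.Adj a b) : -b.2 ≤ -a.2 + 1 := by
  simp only [squareLattice, SimpleGraph.fromRel_adj] at h
  omega

theorem adj_neg_fst_le {a b : ℤ × ℤ} (h : squareLattice.Adj a b) : -b.1 ≤ -a.1 + 1 := by
  simp only [squareLattice, SimpleGraph.fromRel_adj] at h
  omega

/-- Upper half plane, any graph `Hp` that contains the edges with an end strictly above level `k`
(with or without the edges of the level itself). -/
theorem sep_up {Hp : SimpleGraph (ℤ × ℤ)} (hle : Hp ≤ squareLattice) (k : ℤ)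
    (h : ∀ a b, squareLattice.Adj a b → k < b.2 → Hp.Adj a b) :
    Sep squareLattice Hp {z | k ≤ z.2} {z | z.2 = k} := by
  refine ⟨hle, fun z (hz : z.2 = k) => (show k ≤ z.2 from hz.ge), ?_⟩
  intro a b hab hb hbL
  have h1 : k < b.2 := lt_of_le_of_ne hb fun h => hbL h.symm
  have h2 := adj_snd_le hab
  exact ⟨h a b hab h1, show k ≤ a.2 by omega⟩

theorem sep_dn {Hm : SimpleGraph (ℤ × ℤ)} (hle : Hm ≤ squareLattice) (k : ℤ)
    (h : ∀ a b, squareLattice.Adj a b → b.2 < k → Hm.Adj a b) :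
    Sep squareLattice Hm {z | z.2 ≤ k} {z | z.2 = k} := by
  refine ⟨hle, fun z (hz : z.2 = k) => (show z.2 ≤ k from hz.le), ?_⟩
  intro a b hab hb hbL
  have h1 : b.2 < k := lt_of_le_of_ne hb fun h => hbL h
  have h2 := adj_snd_le hab.symm
  exact ⟨h a b hab h1, show a.2 ≤ k by omega⟩

section walks

/-- Last visit of the boundary `L` by a walk that ends in `A`. -/
theorem Sep.last_visit (h : Sep H Hp A L) (w : H.Walk x y) (hy : y ∈ A) :
    (x ∈ A ∧ ∃ w2 : Hp.Walk x y, w = w2.mapLe h.le) ∨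
      ∃ z ∈ L, ∃ (w1 : H.Walk x z) (w2 : Hp.Walk z y), w = w1.append (w2.mapLe h.le) := by
  induction w with
  | nil => exact Or.inl ⟨hy, .nil, rfl⟩
  | @cons a b c hab p ih =>
    rcases ih hy with ⟨hb, w2, hw2⟩ | ⟨z, hz, w1, w2, hw⟩
    · by_cases hbL : b ∈ L
      · exact Or.inr ⟨b, hbL, .cons hab .nil, w2, by rw [hw2]; rfl⟩
      · obtain ⟨h1, h2⟩ := h.sep a b hab hb hbL
        exact Or.inl ⟨h2, .cons h1 w2, by rw [hw2]; rfl⟩
    · exact Or.inr ⟨z, hz, .cons hab w1, w2, by rw [hw]; rfl⟩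

/-- Last visit, start outside `A \ L`. -/
theorem Sep.exists_last_visit (h : Sep H Hp A L) (w : H.Walk x y) (hx : x ∈ A → x ∈ L)
    (hy : y ∈ A) :
    ∃ z ∈ L, ∃ (w1 : H.Walk x z) (w2 : Hp.Walk z y), w = w1.append (w2.mapLe h.le) := by
  rcases h.last_visit w hy with ⟨h1, w2, hw2⟩ | h1
  · exact ⟨x, hx h1, .nil, w2, hw2⟩
  · exact h1

theorem Sep.exists_last_visit_cost (h : Sep H Hp A L) (t : Sym2 V → ℝ) (w : H.Walk x y)
    (hx : x ∈ A → x ∈ L) (hy : y ∈ A) :
    ∃ z ∈ L, z ∈ w.support ∧ ∃ (w1 : H.Walk x z) (w2 : Hp.Walk z y),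
      wcost t w = wcost t w1 + wcost t w2 := by
  obtain ⟨z, hz, w1, w2, rfl⟩ := h.exists_last_visit w hx hy
  refine ⟨z, hz, ?_, w1, w2, by simp⟩
  rw [SimpleGraph.Walk.mem_support_append_iff]
  exact Or.inl w1.end_mem_support

/-- First exit, end outside `A \ L`. -/
theorem Sep.exists_first_exit (h : Sep H Hp A L) (w : H.Walk x y) (hx : x ∈ A)
    (hy : y ∈ A → y ∈ L) :
    ∃ z ∈ L, ∃ (w1 : Hp.Walk x z) (w2 : H.Walk z y), w = (w1.mapLe h.le).append w2 := by
  obtain ⟨z, hz, w1, w2, hw⟩ := h.exists_last_visit w.reverse hy hx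
  refine ⟨z, hz, w2.reverse, w1.reverse, ?_⟩
  have h1 := congrArg SimpleGraph.Walk.reverse hw
  rw [SimpleGraph.Walk.reverse_reverse, SimpleGraph.Walk.reverse_append] at h1
  rw [h1]
  congr 1
  simp

/-- Two-sided separation: lower side `B` with boundary `M`, upper side `A` with boundary `L`. -/
structure Sep2 (H Hm Hp : SimpleGraph V) (B M A L : Set V) : Prop where
  lo : Sep H Hm B M
  up : Sep H Hp A L
  h1 : ∀ x ∈ B, x ∈ A → x ∈ L
  h2 : ∀ x ∈ L, x ∈ B → x ∈ M

/-- A walk from the lower side to the upper side: part in the lower side, middle part, part in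
the upper side. -/
theorem Sep2.exists_decomp (h : Sep2 H Hm Hp B M A L) (w : H.Walk x y) (hx : x ∈ B)
    (hy : y ∈ A) :
    ∃ p ∈ M, ∃ q ∈ L, ∃ (w1 : Hm.Walk x p) (w2 : H.Walk p q) (w3 : Hp.Walk q y),
      w = (w1.mapLe h.lo.le).append (w2.append (w3.mapLe h.up.le)) := by
  obtain ⟨q, hq, w1, w3, rfl⟩ := h.up.exists_last_visit w (h.h1 x hx) hy
  obtain ⟨p, hp, w1', w2, rfl⟩ := h.lo.exists_first_exit w1 hx (h.h2 q hq)
  exact ⟨p, hp, q, hq, w1', w2, w3, by rw [SimpleGraph.Walk.append_assoc]⟩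

end walks

section hopfLax

/-- Hopf-Lax, upper bound -/
theorem Sep.pt_le (h : Sep H Hp A L) (ht : ∀ e, 0 ≤ t e) (hxz : H.Reachable x z)
    (hzy : Hp.Reachable z y) : pt H t x y ≤ pt H t x z + pt Hp t z y :=
  (pt_triangle ht hxz (hzy.mono h.le)).trans (by
    have := pt_anti h.le ht hzy
    linarith)

/-- Hopf-Lax, attained at the last visit of a geodesic -/
theorem Sep.exists_pt_eq (h : Sep H Hp A L) (ht : ∀ e, 0 ≤ t e) {w : H.Walk x y}
    (hw : IsGeo t w) (hx : x ∈ A → x ∈ L) (hy : y ∈ A) :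
    ∃ z ∈ L, z ∈ w.support ∧ H.Reachable x z ∧ Hp.Reachable z y ∧
      pt H t x y = pt H t x z + pt Hp t z y := by
  obtain ⟨z, hz, hzw, w1, w2, hc⟩ := h.exists_last_visit_cost t w hx hy
  refine ⟨z, hz, hzw, ⟨w1⟩, ⟨w2⟩, le_antisymm (h.pt_le ht ⟨w1⟩ ⟨w2⟩) ?_⟩
  have h1 := pt_le_wcost ht w1
  have h2 := pt_le_wcost ht w2
  rw [← hw, hc]
  linarith

/-- Hopf-Lax for passage times. -/
theorem Sep.hopfLax_pt (h : Sep H Hp A L) (ht : ∀ e, 0 ≤ t e) (hxy : H.Reachable x y)
    (hx : x ∈ A → x ∈ L) (hy : y ∈ A) (hr : ∀ z ∈ L, Hp.Reachable z y) :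
    pt H t x y = ⨅ z : L, (pt H t x z + pt Hp t z y) := by
  obtain ⟨w0⟩ := hxy
  obtain ⟨z0, hz0, w01, w02, -⟩ := h.exists_last_visit w0 hx hy
  have : Nonempty L := ⟨⟨z0, hz0⟩⟩
  have hrx : ∀ z ∈ L, H.Reachable x z := fun z hz =>
    (w01.reachable.trans (((hr z0 hz0).trans (hr z hz).symm).mono h.le))
  have hb : BddBelow (Set.range fun z : L => pt H t x z + pt Hp t z y) :=
    ⟨0, by
      rintro _ ⟨z, rfl⟩
      exact add_nonneg (pt_nonneg ht) (pt_nonneg ht)⟩
  refine le_antisymm (le_ciInf fun z => h.pt_le ht (hrx z z.2) (hr z z.2)) ?_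
  refine le_pt ⟨w0⟩ fun w => ?_
  obtain ⟨z, hz, -, w1, w2, hc⟩ := h.exists_last_visit_cost t w hx hy
  refine (ciInf_le hb ⟨z, hz⟩).trans ?_
  rw [hc]
  exact add_le_add (pt_le_wcost ht w1) (pt_le_wcost ht w2)

/-- Hopf-Lax for Busemann functions of rays in the upper side. -/
theorem Sep.hopfLax_bus (h : Sep H Hp A L) (ht : ∀ e, 0 ≤ t e) {v : ℕ → V}
    (hv : IsRay t H v) (hadj : ∀ k, Hp.Adj (v k) (v (k + 1))) (hvA : ∀ k, v k ∈ A)
    (hx0 : H.Reachable x (v 0)) (hx : x ∈ A → x ∈ L) (hr : ∀ z ∈ L, Hp.Reachable z (v 0)) :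
    (∀ z ∈ L, bus t H v x ≤ pt H t x z + bus t Hp v z) ∧
      bus t H v x = ⨅ z : L, (pt H t x z + bus t Hp v z) := by
  have hvp : IsRay t Hp v := hv.of_le ht h.le hadj
  have heq : ∀ n, pt Hp t (v 0) (v n) = pt H t (v 0) (v n) := fun n =>
    hv.pt_eq_of_le ht h.le hadj (Nat.zero_le n)
  have hrx : ∀ z ∈ L, H.Reachable x z := fun z hz =>
    hx0.trans ((hr z hz).symm.mono h.le)
  have h1 : ∀ z ∈ L, bus t H v x ≤ pt H t x z + bus t Hp v z := by
    intro z hz
    have h2 := (tendsto_bus ht hvp (hr z hz)).const_add (pt H t x z)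
    refine ge_of_tendsto' h2 fun n => ?_
    have h3 := bus_le ht hv hx0 n
    have h4 := h.pt_le ht (hrx z hz) ((hr z hz).trans (hvp.reachable (i := 0) (j := n)))
    rw [heq]
    linarith
  refine ⟨h1, ?_⟩
  obtain ⟨w0⟩ := hx0
  obtain ⟨z0, hz0, w01, w02, -⟩ := h.exists_last_visit w0 hx (hvA 0)
  have : Nonempty L := ⟨⟨z0, hz0⟩⟩
  have hb : BddBelow (Set.range fun z : L => pt H t x z + bus t Hp v z) :=
    ⟨bus t H v x, by rintro _ ⟨z, rfl⟩; exact h1 z z.2⟩
  refine le_antisymm (le_ciInf fun z => h1 z z.2) ?_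
  refine le_ciInf fun n => ?_
  rw [h.hopfLax_pt ht (w0.reachable.trans hv.reachable) hx (hvA n)
    (fun z hz => (hr z hz).trans hvp.reachable), ← heq, le_sub_iff_add_le]
  refine le_ciInf fun z => ?_
  have h2 := bus_le ht hvp (hr z z.2) n
  have h3 := ciInf_le hb z
  linarith

end hopfLax

section lastExit

/-- Last visit of the boundary by a one-sided path that is eventually in `A \ L`. -/
theorem Sep.exists_last (h : Sep H Hp A L) {v : ℕ → V} (hadj : ∀ k, H.Adj (v k) (v (k + 1)))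
    (h0 : v 0 ∈ A → v 0 ∈ L) (hev : ∀ᶠ k in atTop, v k ∈ A ∧ v k ∉ L) :
    ∃ n, v n ∈ L ∧ (∀ k, n < k → v k ∈ A ∧ v k ∉ L) ∧
      ∀ k, n ≤ k → Hp.Adj (v k) (v (k + 1)) := by
  have h1 : ∃ n, ∀ k, n < k → v k ∈ A ∧ v k ∉ L := by
    obtain ⟨n, hn⟩ := eventually_atTop.1 hev
    exact ⟨n, fun k hk => hn k hk.le⟩
  set n := Nat.find h1 with hn
  have hn1 := Nat.find_spec h1
  rw [← hn] at hn1
  have hnL : v n ∈ L := by
    rcases Nat.eq_zero_or_pos n with h2 | h2
    · rw [h2] at hn1 ⊢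
      exact h0 (h.sep _ _ (hadj 0) (hn1 1 (by omega)).1 (hn1 1 (by omega)).2).2
    · have h3 := Nat.find_min h1 (m := n - 1) (by omega)
      have h4 : ¬ (v n ∈ A ∧ v n ∉ L) := by
        intro h5
        apply h3
        intro k hk
        rcases (show n ≤ k by omega).eq_or_lt with rfl | h6
        · exact h5
        · exact hn1 k h6
      have h5 := (h.sep _ _ (hadj n) (hn1 (n + 1) (by omega)).1 (hn1 (n + 1) (by omega)).2).2
      by_contra h6
      exact h4 ⟨h5, h6⟩
  exact ⟨n, hnL, hn1, fun k hk => (h.sep _ _ (hadj k) (hn1 (k + 1) (by omega)).1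
    (hn1 (k + 1) (by omega)).2).1⟩

/-- First entrance and last exit of a two-sided path from the lower to the upper side. -/
theorem Sep2.exists_first_last (h : Sep2 H Hm Hp B M A L) {v : ℤ → V}
    (hadj : ∀ k, H.Adj (v k) (v (k + 1))) (htop : ∀ᶠ k in atTop, v k ∈ A ∧ v k ∉ L)
    (hbot : ∀ᶠ k in atBot, v k ∈ B ∧ v k ∉ M) :
    ∃ i j, i ≤ j ∧ v i ∈ M ∧ v j ∈ L ∧ (∀ k, k < i → v k ∈ B ∧ v k ∉ M) ∧
      (∀ k, j < k → v k ∈ A ∧ v k ∉ L) ∧ (∀ k, k < i → Hm.Adj (v k) (v (k + 1))) ∧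
      ∀ k, j ≤ k → Hp.Adj (v k) (v (k + 1)) := by
  obtain ⟨a, ha⟩ := eventually_atBot.1 hbot
  obtain ⟨b, hb⟩ := eventually_atTop.1 htop
  have hdisj : ∀ k, (v k ∈ B ∧ v k ∉ M) → ¬ (v k ∈ A ∧ v k ∉ L) := fun k hk hk' =>
    hk'.2 (h.h1 _ hk.1 hk'.1)
  have hab : a < b := by
    by_contra hcon
    exact hdisj a (ha a le_rfl) (hb a (by omega))
  -- last index
  obtain ⟨n, hn1, hn2, hn3⟩ := h.up.exists_last (v := fun k : ℕ => v (a + k))
    (fun k => by have := hadj (a + k); push_cast; rwa [← add_assoc])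
    (fun hA => by
      exfalso
      simp only [Nat.cast_zero, add_zero] at hA
      have := ha a le_rfl
      exact this.2 (h.h2 _ (h.h1 _ this.1 hA) this.1))
    (by
      filter_upwards [eventually_ge_atTop (b - a).toNat] with k hk
      exact hb _ (by omega))
  have hup : ∀ k, a + (n : ℤ) < k → v k ∈ A ∧ v k ∉ L := by
    intro k hk
    have := hn2 (k - a).toNat (by omega)
    rwa [show a + ((k - a).toNat : ℤ) = k by omega] at this
  -- first index, by reversal
  obtain ⟨m, hm1, hm2, hm3⟩ := h.lo.exists_last (v := fun k : ℕ => v (a + n - k))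
    (fun k => by
      have := (hadj (a + n - (k + 1))).symm
      push_cast
      rwa [show a + (n : ℤ) - ((k : ℤ) + 1) + 1 = a + n - k by ring] at this)
    (fun hB => by
      simp only [Nat.cast_zero, sub_zero] at hB ⊢
      exact h.h2 _ hn1 hB)
    (by
      filter_upwards [eventually_ge_atTop n] with k hk
      exact ha _ (by omega))
  refine ⟨a + n - m, a + n, by omega, hm1, hn1, ?_, hup, ?_, ?_⟩
  · intro k hk
    have := hm2 (a + n - k).toNat (by omega)
    rwa [show a + (n : ℤ) - ((a + n - k).toNat : ℤ) = k by omega] at this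
  · intro k hk
    have := (hm3 (a + n - (k + 1)).toNat (by omega)).symm
    rw [show a + (n : ℤ) - (((a + n - (k + 1)).toNat + 1 : ℕ) : ℤ) = k by push_cast; omega,
      show a + (n : ℤ) - ((a + n - (k + 1)).toNat : ℤ) = k + 1 by omega] at this
    exact this
  · intro k hk
    have := hn3 (k - a).toNat (by omega)
    rw [show a + (((k - a).toNat + 1 : ℕ) : ℤ) = k + 1 by push_cast; omega,
      show a + ((k - a).toNat : ℤ) = k by omega] at this
    exact this

end lastExit

section pair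

theorem IsBiRay.neg {v : ℤ → V} (h : IsBiRay t H v) : IsBiRay t H fun k => v (-k) := by
  refine ⟨fun k => ?_, fun i j hij => ?_⟩
  · have := (h.adj (-(k + 1))).symm
    rwa [show -(k + 1) + 1 = -k by ring] at this
  · have h1 := h.geo (-j) (-i) (by omega)
    rw [pt_comm] at h1
    rw [← h1]
    refine Finset.sum_bij (fun k _ => -(k + 1)) ?_ ?_ ?_ ?_
    · intro k hk
      rw [Finset.mem_Ico] at *
      omega
    · intro a₁ _ a₂ _ h
      simpa using h
    · intro k hk
      rw [Finset.mem_Ico] at hk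
      refine ⟨-k - 1, ?_, ?_⟩
      · rw [Finset.mem_Ico]
        omega
      · omega
    · intro k _
      rw [show -(k + 1) + 1 = -k by ring, Sym2.eq_swap]

/-- the backward half -/
theorem IsBiRay.isRay_neg {v : ℤ → V} (h : IsBiRay t H v) (i : ℤ) :
    IsRay t H fun k : ℕ => v (i - k) := by
  have h1 := h.neg.isRay (-i)
  have : (fun k : ℕ => v (-(-i + k))) = fun k : ℕ => v (i - k) := by
    funext k
    congr 1
    ring
  rwa [this] at h1

theorem IsBiRay.pt_add {v : ℤ → V} (h : IsBiRay t H v) {i j k : ℤ} (hij : i ≤ j) (hjk : j ≤ k) :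
    pt H t (v i) (v j) + pt H t (v j) (v k) = pt H t (v i) (v k) := by
  rw [← h.geo i j hij, ← h.geo j k hjk, ← h.geo i k (hij.trans hjk), sum_consecutive_int _ hij hjk]

theorem IsBiRay.reachable {v : ℤ → V} (h : IsBiRay t H v) (i j : ℤ) :
    H.Reachable (v i) (v j) := by
  have key : ∀ (i : ℤ) (n : ℕ), H.Reachable (v i) (v (i + n)) := by
    intro i n
    have := (h.isRay i).reachable (i := 0) (j := n)
    simpa using this
  rcases le_total i j with hij | hij
  · have := key i (j - i).toNat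
    rwa [show i + ((j - i).toNat : ℤ) = j by omega] at this
  · have := key j (i - j).toNat
    rw [show j + ((i - j).toNat : ℤ) = i by omega] at this
    exact this.symm

/-- **Pair functional.** For a two-sided geodesic of `H` whose part after `v j` lives in `Hp` and
whose part before `v i` lives in `Hm`, `i ≤ j`:
`T(v i, v j) ≤ g p + T(p, q) + f q` where `f`, `g` are the Busemann functions (of `Hp`, `Hm`) of the
two ends, normalised to vanish at `v j`, `v i`. -/
theorem IsBiRay.pair_min {v : ℤ → V} (h : IsBiRay t H v) (ht : ∀ e, 0 ≤ t e) (hp : Hp ≤ H)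
    (hm : Hm ≤ H) {i j : ℤ} (hij : i ≤ j) (hup : ∀ k, j ≤ k → Hp.Adj (v k) (v (k + 1)))
    (hlo : ∀ k, k < i → Hm.Adj (v k) (v (k + 1))) (hpi : Hm.Reachable p (v i))
    (hqj : Hp.Reachable q (v j)) :
    pt H t (v i) (v j) ≤ bus t Hm (fun k : ℕ => v (i - k)) p + pt H t p q +
      bus t Hp (fun k : ℕ => v (j + k)) q := by
  have hu : IsRay t H fun k : ℕ => v (j + k) := h.isRay j
  have hl : IsRay t H fun k : ℕ => v (i - k) := h.isRay_neg i
  have hua : ∀ k : ℕ, Hp.Adj (v (j + k)) (v (j + (k + 1 : ℕ))) := by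
    intro k
    have := hup (j + k) (by omega)
    push_cast
    rwa [← add_assoc]
  have hla : ∀ k : ℕ, Hm.Adj (v (i - k)) (v (i - (k + 1 : ℕ))) := by
    intro k
    have := (hlo (i - (k + 1 : ℕ)) (by push_cast; omega)).symm
    rwa [show i - ((k + 1 : ℕ) : ℤ) + 1 = i - k by push_cast; ring] at this
  have hup' : IsRay t Hp fun k : ℕ => v (j + k) := hu.of_le ht hp hua
  have hlo' : IsRay t Hm fun k : ℕ => v (i - k) := hl.of_le ht hm hla
  have e0 : v (j + ((0 : ℕ) : ℤ)) = v j := by simp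
  have e1 : v (i - ((0 : ℕ) : ℤ)) = v i := by simp
  have hq' : Hp.Reachable q (v (j + ((0 : ℕ) : ℤ))) := by rwa [e0]
  have hp' : Hm.Reachable p (v (i - ((0 : ℕ) : ℤ))) := by rwa [e1]
  have l1 := (tendsto_bus ht hlo' hp').add_const (pt H t p q)
  have l2 := l1.add (tendsto_bus ht hup' hq')
  refine ge_of_tendsto' l2 fun n => ?_
  -- the full geodesic from `v (i - n)` to `v (j + n)`
  have a1 := h.pt_add (i := i - n) (j := i) (k := j) (by omega) hij
  have a2 := h.pt_add (i := i - n) (j := j) (k := j + n) (by omega) (by omega)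
  have r1 : Hm.Reachable (v (i - n)) p := by
    have := hlo'.reachable (i := 0) (j := n)
    exact (hp'.trans this).symm
  have r2 : Hp.Reachable q (v (j + n)) := hq'.trans (hup'.reachable (i := 0) (j := n))
  have r3 : H.Reachable p q := by
    have := (hpi.mono hm).trans ((h.reachable i j).trans (hqj.mono hp).symm)
    exact this
  have b1 := pt_triangle ht (r1.mono hm) (r3.trans (r2.mono hp))
  have b2 := pt_triangle ht r3 (r2.mono hp)
  have b3 := pt_anti hm ht r1
  have b4 := pt_anti hp ht r2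
  have c1 : pt Hm t (v (i - ((0 : ℕ) : ℤ))) (v (i - n)) = pt H t (v (i - n)) (v i) := by
    have := hl.pt_eq_of_le ht hm hla (Nat.zero_le n)
    rw [this, pt_comm, e1]
  have c2 : pt Hp t (v (j + ((0 : ℕ) : ℤ))) (v (j + n)) = pt H t (v j) (v (j + n)) := by
    have := hu.pt_eq_of_le ht hp hua (Nat.zero_le n)
    rw [this, e0]
  rw [pt_comm Hm t (v (i - n)) p] at b3
  rw [c1, c2]
  linarith

/-- Cost of a walk from the lower to the upper side, bounded by the pair functional. -/
theorem Sep2.le_wcost (h : Sep2 H Hm Hp B M A L) (ht : ∀ e, 0 ≤ t e) (hf : IsLip t Hp f)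
    (hg : IsLip t Hm g) {m : ℝ} (hmin : ∀ p ∈ M, ∀ q ∈ L, m ≤ g p + pt H t p q + f q)
    (w : H.Walk x y) (hx : x ∈ B) (hy : y ∈ A) : m - g x - f y ≤ wcost t w := by
  obtain ⟨p, hp, q, hq, w1, w2, w3, rfl⟩ := h.exists_decomp w hx hy
  have h1 := hg.sub_le_wcost w1.reverse
  have h2 := hf.sub_le_wcost w3
  have h3 := pt_le_wcost ht w2
  have h4 := hmin p hp q hq
  rw [wcost_reverse] at h1
  rw [wcost_append, wcost_append, wcost_mapLe, wcost_mapLe]
  linarith

/-- **Converse of `pair_min`.** `f`, `g` Lipschitz on the upper and lower side, the pair functional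
minimal at `(a, b)`; then lower gradient ray, geodesic `a → b`, upper gradient ray form a two-sided
geodesic. -/
theorem exists_isBiRay_of_pair_min (h : Sep2 H Hm Hp B M A L) (ht : ∀ e, 0 ≤ t e)
    (hf : IsLip t Hp f) (hg : IsLip t Hm g) {a b : V}
    (hmin : ∀ p ∈ M, ∀ q ∈ L, g a + pt H t a b + f b ≤ g p + pt H t p q + f q)
    {l u : ℕ → V} (hl : IsGrad t Hm g l) (hl0 : l 0 = a) (hlB : ∀ k, l k ∈ B)
    (hu : IsGrad t Hp f u) (hu0 : u 0 = b) (huA : ∀ k, u k ∈ A)
    (w : H.Walk (u 0) (l 0)) (hw : IsGeo t w) :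
    ∃ v : ℤ → V, IsBiRay t H v ∧ (∀ k : ℕ, v k = u k) ∧
      (∀ k : ℕ, k ≤ w.length → v (-k) = w.getVert k) ∧
      ∀ k : ℕ, v (-(w.length + k : ℕ)) = l k := by
  have hul : ∀ k, H.Adj (u k) (u (k + 1)) := fun k => h.up.le (hu k).1
  have hll : ∀ k, H.Adj (l k) (l (k + 1)) := fun k => h.lo.le (hl k).1
  have key : ∀ m n, f b - f (u n) + pt H t a b + (g a - g (l m)) ≤ pt H t (l m) (u n) := by
    intro m n
    have hr : H.Reachable (l m) (u n) := by
      have h1 : H.Reachable (l 0) (l m) := by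
        have := (seqWalk l hll 0 m).reachable
        rwa [Nat.zero_add] at this
      have h2 : H.Reachable (u 0) (u n) := by
        have := (seqWalk u hul 0 n).reachable
        rwa [Nat.zero_add] at this
      exact h1.symm.trans (w.reachable.symm.trans h2)
    refine le_pt hr fun w' => ?_
    have := h.le_wcost ht hf hg hmin w' (hlB m) (huA n)
    linarith
  have hab : pt H t a b = wcost t w := by
    rw [hw, pt_comm, hu0, hl0]
  have rl : IsRay t Hm l := hl.isRay ht hg
  have ru : IsRay t Hp u := hu.isRay ht hf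
  -- the rays are rays of `H`
  have ruH : IsRay t H u := by
    refine IsRay.of_initial ht hul fun n => ⟨n, le_rfl, ?_⟩
    rw [hu.sum_eq (Nat.zero_le n), hu0]
    have h1 := key 0 n
    have h2 := pt_triangle ht (w.reachable.symm) (ruH_aux hul n : H.Reachable (u 0) (u n))
    rw [hl0, hu0] at h2
    rw [hl0] at h1
    linarith
  have rlH : IsRay t H l := by
    refine IsRay.of_initial ht hll fun n => ⟨n, le_rfl, ?_⟩
    rw [hl.sum_eq (Nat.zero_le n), hl0]
    have h1 := key n 0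
    have h2 := pt_triangle ht (ruH_aux hll n : H.Reachable (l 0) (l n)).symm w.reachable.symm
    rw [hu0] at h1
    rw [hl0, hu0, pt_comm H t (l n) a] at h2
    linarith
  -- the backward ray
  have hback : IsRay t H (follow w) := by
    refine IsRay.follow ht rlH w fun k => ⟨k, le_rfl, Nat.zero_le k, ?_⟩
    have h1 := key k 0
    have h2 := rlH.geo 0 k (Nat.zero_le k)
    rw [hl.sum_eq (Nat.zero_le k)] at h2
    rw [hu0, pt_comm H t (l k) b] at h1
    rw [← h2, ← hab, hl0, hu0]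
    linarith
  have hj := isBiRay_join ht hback ruH (by simp) fun n => ⟨w.length + n, n, by omega, le_rfl, by
    have h1 := key n n
    have h2 := hback.geo 0 (w.length + n) (Nat.zero_le _)
    rw [sum_follow, zero_add] at h2
    have h3 := ruH.geo 0 n (Nat.zero_le _)
    rw [hu.sum_eq (Nat.zero_le n)] at h3
    rw [hl.sum_eq (Nat.zero_le n)] at h2
    have h4 := follow_add w n
    rw [zero_add] at h4
    rw [h4] at h2 ⊢
    rw [← h2, ← h3, ← hab, hl0, hu0]
    linarith⟩
  refine ⟨_, hj, fun k => by simp, fun k hk => ?_, fun k => ?_⟩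
  · rcases Nat.eq_zero_or_pos k with rfl | hk'
    · simp
    · rw [if_neg (by omega), neg_neg, Int.toNat_natCast, follow_of_le w hk]
  · rcases Nat.eq_zero_or_pos (w.length + k) with h0 | h0
    · have h1 : w.length = 0 := by omega
      have h2 : k = 0 := by omega
      subst h2
      simp only [h1, add_zero, Nat.cast_zero, neg_zero, le_refl, if_true, Int.toNat_zero]
      exact SimpleGraph.Walk.eq_of_length_eq_zero h1
    · rw [if_neg (by omega), neg_neg, Int.toNat_natCast, follow_add, zero_add]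
where
  ruH_aux {V : Type _} {H : SimpleGraph V} {u : ℕ → V} (hu : ∀ k, H.Adj (u k) (u (k + 1)))
      (n : ℕ) : H.Reachable (u 0) (u n) := by
    have := (seqWalk u hu 0 n).reachable
    rwa [Nat.zero_add] at this

end pair

end Crest.Agent.R151.Y
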