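import Mathlib
import Crest.Agent.R151.B469a
import Crest.Agent.R151.SL906A
import Crest.Agent.R151.L763d
import Crest.Agent.R88.Birkhoff

/-!
# R151, block BUS, part d (helper906): from the `L¹` Cauchy property to the label functions

`CIn G T p` = conclusion of part (c).  Output, for every real `s ∈ T`: the line function
`f0 G s t : ℤ → ℝ` (everywhere defined limsup along a deterministic subsequence `sub G s`,
measurable, depending exactly on the edges in `Hp`, `f0 G s t 0 = 0`), increments `DF G s x t`,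
`LimAt G s (-(p s))`.
-/

set_option autoImplicit false
set_option linter.unusedSectionVars false

open MeasureTheory Filter ProbabilityTheory Topology
open Crest.ProbabilityR.FirstPassage
open Crest.Agent.R151.K

namespace Crest.Agent.R151.BUS

section abstract

variable {Ω : Type*} [MeasurableSpace Ω] {P : Measure Ω} [IsProbabilityMeasure P]

/-- a common almost surely convergent subsequence -/
theorem exists_subseq {ι : Type*} [Countable ι] {X : ι → ℕ → Ω → ℝ}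
    (hm : ∀ i N, AEStronglyMeasurable (X i N) P)
    (hC : ∀ i, ∀ ε : ℝ, 0 < ε → ∃ N0 : ℕ, ∀ N, N0 ≤ N → ∀ M, N0 ≤ M →
      ∫⁻ ω, ‖X i N ω - X i M ω‖ₑ ∂P ≤ ENNReal.ofReal ε) :
    ∃ φ : ℕ → ℕ, StrictMono φ ∧ ∀ i, ∀ᵐ ω ∂P, ∃ l, Tendsto (fun j => X i (φ j) ω) atTop (𝓝 l) := by
  obtain ⟨e, he⟩ := exists_injective_nat ι
  have hpos : ∀ j : ℕ, (0 : ℝ) < (1 / 2) ^ j := fun j => by positivity
  choose N0 hN0 using fun i j => hC i ((1 / 2) ^ j) (hpos j)
  have hfin : ∀ j : ℕ, {i | e i ≤ j}.Finite := fun j =>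
    (Set.finite_Iic j).preimage he.injOn
  let ψ : ℕ → ℕ := fun j => (hfin j).toFinset.sup fun i => N0 i j
  have hψ : ∀ i j, e i ≤ j → N0 i j ≤ ψ j := fun i j hij =>
    Finset.le_sup (f := fun i => N0 i j) ((hfin j).mem_toFinset.2 hij)
  let φ : ℕ → ℕ := fun j => Nat.rec (ψ 0) (fun j n => max (n + 1) (ψ (j + 1))) j
  have hφs : ∀ j, φ (j + 1) = max (φ j + 1) (ψ (j + 1)) := fun j => rfl
  have hφm : StrictMono φ := strictMono_nat_of_lt_succ fun j => by
    rw [hφs]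
    exact lt_of_lt_of_le (Nat.lt_succ_self _) (le_max_left _ _)
  have hφψ : ∀ j, ψ j ≤ φ j := by
    intro j
    cases j with
    | zero => exact le_rfl
    | succ j => rw [hφs]; exact le_max_right _ _
  refine ⟨φ, hφm, fun i => ?_⟩
  have key := Lp.ae_tendsto_of_cauchy_eLpNorm (μ := P) (p := 1)
    (f := fun j ω => X i (φ (j + e i)) ω) (fun j => hm i _) le_rfl
    (B := fun N => 2 * ENNReal.ofReal ((1 / 2) ^ N)) ?_ ?_
  · filter_upwards [key] with ω hω
    obtain ⟨l, hl⟩ := hω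
    exact ⟨l, (tendsto_add_atTop_iff_nat (f := fun j => X i (φ j) ω) (e i)).1 hl⟩
  · rw [ENNReal.tsum_mul_left]
    refine ENNReal.mul_ne_top (by simp) ?_
    rw [← ENNReal.ofReal_tsum_of_nonneg (fun n => by positivity) summable_geometric_two]
    exact ENNReal.ofReal_ne_top
  · intro N n m hn hm'
    rw [eLpNorm_one_eq_lintegral_enorm]
    have h1 : ∀ j, N ≤ j → N0 i (N + e i) ≤ φ (j + e i) := by
      intro j hj
      exact ((hψ i (N + e i) (by omega)).trans (hφψ _)).trans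
        (hφm.monotone (by omega))
    refine lt_of_le_of_lt (hN0 i (N + e i) _ (h1 n hn) _ (h1 m hm')) ?_
    refine lt_of_le_of_lt (ENNReal.ofReal_le_ofReal
      (pow_le_pow_of_le_one (by norm_num) (by norm_num) (Nat.le_add_right N (e i)))) ?_
    have : (0 : ENNReal) < ENNReal.ofReal ((1 / 2) ^ N) := by
      rw [ENNReal.ofReal_pos]; positivity
    calc ENNReal.ofReal ((1 / 2) ^ N) = 1 * ENNReal.ofReal ((1 / 2) ^ N) := (one_mul _).symm
      _ < 2 * ENNReal.ofReal ((1 / 2) ^ N) := by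
        rw [ENNReal.mul_lt_mul_iff_left this.ne' ENNReal.ofReal_ne_top]
        norm_num

/-- limits along a subsequence are `L¹` limits along the whole sequence -/
theorem lintegral_sub_lim_le {X : ℕ → Ω → ℝ} {l : Ω → ℝ} {φ : ℕ → ℕ} (hφ : StrictMono φ)
    (hm : ∀ N, Measurable (X N)) {N0 : ℕ} {ε : ℝ}
    (hC : ∀ N, N0 ≤ N → ∀ M, N0 ≤ M → ∫⁻ ω, ‖X N ω - X M ω‖ₑ ∂P ≤ ENNReal.ofReal ε)
    (hl : ∀ᵐ ω ∂P, Tendsto (fun j => X (φ j) ω) atTop (𝓝 (l ω))) {N : ℕ} (hN : N0 ≤ N) :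
    ∫⁻ ω, ‖X N ω - l ω‖ₑ ∂P ≤ ENNReal.ofReal ε := by
  have h1 : ∫⁻ ω, ‖X N ω - l ω‖ₑ ∂P =
      ∫⁻ ω, liminf (fun j => ‖X N ω - X (φ j) ω‖ₑ) atTop ∂P := by
    refine lintegral_congr_ae ?_
    filter_upwards [hl] with ω hω
    refine (Tendsto.liminf_eq ?_).symm
    exact (continuous_enorm.tendsto _).comp (tendsto_const_nhds.sub hω)
  rw [h1]
  refine (lintegral_liminf_le fun j => ((hm N).sub (hm _)).enorm).trans ?_
  refine liminf_le_of_frequently_le' ?_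
  refine Eventually.frequently ?_
  filter_upwards [eventually_ge_atTop N0] with j hj
  exact hC N hN _ (hj.trans (hφ.id_le j))

end abstract

/-! ### deterministic preliminaries -/

theorem f_eq_pt (t : Environment) {N : ℤ} (hN : 0 ≤ N) (z x : ℤ) :
    f t N z x = pt (reg (SL9.strip 0 N)) t (x, 0) (z, N) :=
  pR_eq_pt (R := St 0 N) (zero_mem_St hN) t

theorem f_sub_eq_sdiff (t : Environment) {N : ℤ} (hN : 0 ≤ N) (z x y : ℤ) :
    f t N z x - f t N z y = SL9.sdiff 0 N t (x, 0) (y, 0) (z, N) := by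
  rw [f_eq_pt t hN, f_eq_pt t hN]
  rfl

theorem mble_f (N z x : ℤ) : Measurable fun t => f t N z x := measurable_pR _ _ _

theorem mble_D (N z x : ℤ) : Measurable fun t => D t N z x :=
  (mble_f N z (x + 1)).sub (mble_f N z x)

theorem f_hshift (a : ℤ) (t : Environment) (N z x : ℤ) :
    f (A.shift (a, 0) t) N z x = f t N (z + a) (x + a) := by
  unfold f
  rw [LIN.pR_shift t (a, 0) (R := St 0 N) (R' := St 0 N) (fun u => by
    rw [mem_St, mem_St]; simp)]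
  simp

theorem D_hshift (a : ℤ) (t : Environment) (N z x : ℤ) :
    D (A.shift (a, 0) t) N z x = D t N (z + a) (x + a) := by
  unfold D
  rw [f_hshift, f_hshift, show x + 1 + a = x + a + 1 by ring]

theorem f_depHp {t t' : Environment} (h : ∀ e ∈ edgesIn Hp, t e = t' e) (N z x : ℤ) :
    f t N z x = f t' N z x := by
  unfold f
  refine pR_congr (fun a ha b hb => h _ (mem_edgesIn.2 ⟨?_, ?_⟩)) _ _
  · exact St_subset_Hp ha
  · exact St_subset_Hp hb

/-! ### the line functions -/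

/-- limsup of the strip functions along `φ` in direction `s`, normalised at `0` -/
noncomputable def LF (φ : ℕ → ℕ) (s : ℝ) (t : Environment) (x : ℤ) : ℝ :=
  limsup (fun j => f t (φ j) ⌊s * (φ j : ℝ)⌋ x - f t (φ j) ⌊s * (φ j : ℝ)⌋ 0) atTop

theorem LF_zero (φ : ℕ → ℕ) (s : ℝ) (t : Environment) : LF φ s t 0 = 0 := by
  simp [LF]

theorem measurable_LF (φ : ℕ → ℕ) (s : ℝ) (x : ℤ) : Measurable fun t => LF φ s t x :=
  Measurable.limsup fun _ => (mble_f _ _ _).sub (mble_f _ _ _)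

theorem LF_dep (φ : ℕ → ℕ) (s : ℝ) {t t' : Environment} (h : ∀ e ∈ edgesIn Hp, t e = t' e) :
    LF φ s t = LF φ s t' := by
  funext x
  unfold LF
  simp only [f_depHp h]

/-- good subsequences -/
def HasSub (G : Measure ℝ) (s : ℝ) (φ : ℕ → ℕ) : Prop :=
  StrictMono φ ∧ ∀ k x : ℤ, ∀ᵐ t ∂(iidLaw G),
    ∃ l, Tendsto (fun j => D t (φ j) (⌊s * (φ j : ℝ)⌋ + k) x) atTop (𝓝 l)

open scoped Classical in
/-- the deterministic subsequence of direction `s` -/
noncomputable def sub (G : Measure ℝ) (s : ℝ) : ℕ → ℕ :=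
  if h : ∃ φ, HasSub G s φ then h.choose else id

/-- **the line function of direction `s`** -/
noncomputable def f0 (G : Measure ℝ) (s : ℝ) (t : Environment) (x : ℤ) : ℝ := LF (sub G s) s t x

/-- its increments -/
noncomputable def DF (G : Measure ℝ) (s : ℝ) (x : ℤ) (t : Environment) : ℝ := H.inc (f0 G s t) x

variable (G : Measure ℝ)

theorem f0_zero (s : ℝ) (t : Environment) : f0 G s t 0 = 0 := LF_zero _ _ _

theorem measurable_f0 (s : ℝ) (x : ℤ) : Measurable fun t => f0 G s t x := measurable_LF _ _ _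

theorem f0_dep (s : ℝ) {t t' : Environment} (h : ∀ e ∈ edgesIn Hp, t e = t' e) :
    f0 G s t = f0 G s t' := LF_dep _ _ h

theorem measurable_DF (s : ℝ) (x : ℤ) : Measurable (DF G s x) :=
  (measurable_f0 G s (x + 1)).sub (measurable_f0 G s x)

theorem DF_dep (s : ℝ) (x : ℤ) {t t' : Environment} (h : ∀ e ∈ edgesIn Hp, t e = t' e) :
    DF G s x t = DF G s x t' := by
  unfold DF
  rw [f0_dep G s h]

variable {G}

/-- if all the increments converge along `φ` then they converge to the increments of `LF` -/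
theorem tendsto_LF {φ : ℕ → ℕ} {s : ℝ} {t : Environment}
    (h : ∀ x : ℤ, ∃ l, Tendsto (fun j => D t (φ j) ⌊s * (φ j : ℝ)⌋ x) atTop (𝓝 l)) :
    (∀ x, Tendsto (fun j => f t (φ j) ⌊s * (φ j : ℝ)⌋ x - f t (φ j) ⌊s * (φ j : ℝ)⌋ 0) atTop
      (𝓝 (LF φ s t x))) ∧
    ∀ x, Tendsto (fun j => D t (φ j) ⌊s * (φ j : ℝ)⌋ x) atTop (𝓝 (H.inc (LF φ s t) x)) := by
  have key : ∀ x : ℤ, ∃ l, Tendsto
      (fun j => f t (φ j) ⌊s * (φ j : ℝ)⌋ x - f t (φ j) ⌊s * (φ j : ℝ)⌋ 0) atTop (𝓝 l) := by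
    intro x
    induction x using Int.induction_on with
    | zero => exact ⟨0, by simp⟩
    | succ i ih =>
      obtain ⟨l, hl⟩ := ih
      obtain ⟨l', hl'⟩ := h i
      refine ⟨l' + l, (hl'.add hl).congr fun j => ?_⟩
      unfold D
      ring
    | pred i ih =>
      obtain ⟨l, hl⟩ := ih
      obtain ⟨l', hl'⟩ := h (-i - 1)
      refine ⟨l - l', (hl.sub hl').congr fun j => ?_⟩
      unfold D
      rw [show -(i : ℤ) - 1 + 1 = -i by ring]
      ring
  have h1 : ∀ x, Tendsto (fun j => f t (φ j) ⌊s * (φ j : ℝ)⌋ x - f t (φ j) ⌊s * (φ j : ℝ)⌋ 0)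
      atTop (𝓝 (LF φ s t x)) := by
    intro x
    obtain ⟨l, hl⟩ := key x
    have : LF φ s t x = l := hl.limsup_eq
    rw [this]
    exact hl
  refine ⟨h1, fun x => ?_⟩
  refine ((h1 (x + 1)).sub (h1 x)).congr fun j => ?_
  unfold D
  ring

/-- **What we know about the line function of direction `s`** (`c` is its slope). -/
structure LimAt (G : Measure ℝ) (s c : ℝ) : Prop where
  sub_mono : StrictMono (sub G s)
  lim : ∀ᵐ t ∂(iidLaw G), ∀ k x : ℤ,
    Tendsto (fun j => D t (sub G s j) (⌊s * (sub G s j : ℝ)⌋ + k) x) atTop (𝓝 (DF G s x t))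
  L1 : ∀ k x : ℤ, Tendsto (fun N : ℕ => ∫⁻ t, ‖D t N (⌊s * (N : ℝ)⌋ + k) x - DF G s x t‖ₑ
    ∂(iidLaw G)) atTop (𝓝 0)
  int : ∀ x, Integrable (DF G s x) (iidLaw G)
  mean : ∀ x, ∫ t, DF G s x t ∂(iidLaw G) = c

/-- **conclusion of part (c)**: directions `s ∈ T`, slopes `-(p s)` -/
structure CIn (G : Measure ℝ) (T : Set ℝ) (p : ℝ → ℝ) : Prop where
  int : ∀ᶠ N : ℕ in atTop, ∀ z x : ℤ, Integrable (fun t => D t N z x) (iidLaw G)
  mean : ∀ s ∈ T, ∀ k : ℤ, Tendsto (fun N : ℕ => ∫ t, D t N (⌊s * (N : ℝ)⌋ + k) 0 ∂(iidLaw G))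
    atTop (𝓝 (-(p s)))
  cauchy : ∀ s ∈ T, ∀ k : ℤ, ∀ ε : ℝ, 0 < ε → ∃ N0 : ℕ, ∀ N, N0 ≤ N → ∀ M, N0 ≤ M →
    ∫ t, |D t N (⌊s * (N : ℝ)⌋ + k) 0 - D t M ⌊s * (M : ℝ)⌋ 0| ∂(iidLaw G) ≤ ε

section limAt

variable [IsProbabilityMeasure G]

theorem integral_D_hshift (N z x : ℤ) :
    ∫ t, D t N z x ∂(iidLaw G) = ∫ t, D t N (z - x) 0 ∂(iidLaw G) := by
  have h := (A.mp_shift G (x, 0)).integral_comp'
    (f := MeasurableEquiv.mk (Equiv.mk (A.shift (x, 0)) (A.shift (-x, 0))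
      (fun t => by
        rw [A.shift_shift]
        have : ((-x, 0) + (x, 0) : ℤ × ℤ) = 0 := by ext <;> simp
        rw [this, A.shift_zero])
      (fun t => by
        rw [A.shift_shift]
        have : ((x, 0) + (-x, 0) : ℤ × ℤ) = 0 := by ext <;> simp
        rw [this, A.shift_zero])) (A.measurable_shift _) (A.measurable_shift _))
    (fun t => D t N (z - x) 0)
  rw [← h]
  refine integral_congr_ae (Eventually.of_forall fun t => ?_)
  change D t N z x = D (A.shift (x, 0) t) N (z - x) 0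
  rw [D_hshift]
  simp

theorem lintegral_D_hshift (N M z w x : ℤ) :
    ∫⁻ t, ‖D t N z x - D t M w x‖ₑ ∂(iidLaw G) =
      ∫⁻ t, ‖D t N (z - x) 0 - D t M (w - x) 0‖ₑ ∂(iidLaw G) := by
  rw [← (A.mp_shift G (x, 0)).lintegral_comp
    (f := fun t => ‖D t N (z - x) 0 - D t M (w - x) 0‖ₑ)
    ((mble_D _ _ _).sub (mble_D _ _ _)).enorm]
  refine lintegral_congr fun t => ?_
  rw [D_hshift, D_hshift]
  simp

theorem lint_tri {Ω : Type*} [MeasurableSpace Ω] {P : Measure Ω} {X Y Z : Ω → ℝ}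
    (hX : Measurable X) (hY : Measurable Y) :
    ∫⁻ ω, ‖X ω - Z ω‖ₑ ∂P ≤ ∫⁻ ω, ‖X ω - Y ω‖ₑ ∂P + ∫⁻ ω, ‖Y ω - Z ω‖ₑ ∂P := by
  have hm : Measurable fun ω => ‖X ω - Y ω‖ₑ := (hX.sub hY).enorm
  rw [← lintegral_add_left hm]
  refine lintegral_mono fun ω => ?_
  have : X ω - Z ω = (X ω - Y ω) + (Y ω - Z ω) := by ring
  rw [this]
  exact enorm_add_le _ _

theorem lint_comm {Ω : Type*} [MeasurableSpace Ω] {P : Measure Ω} (X Y : Ω → ℝ) :
    ∫⁻ ω, ‖X ω - Y ω‖ₑ ∂P = ∫⁻ ω, ‖Y ω - X ω‖ₑ ∂P :=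
  lintegral_congr fun ω => by rw [← enorm_neg, neg_sub]

variable {T : Set ℝ} {p : ℝ → ℝ} {s : ℝ}

/-- the Cauchy property in `lintegral` form, all base points -/
theorem CIn.cauchy' (h : CIn G T p) (hs : s ∈ T) (k x : ℤ) {ε : ℝ} (hε : 0 < ε) :
    ∃ N0 : ℕ, ∀ N, N0 ≤ N → ∀ M, N0 ≤ M →
      ∫⁻ t, ‖D t N (⌊s * (N : ℝ)⌋ + k) x - D t M (⌊s * (M : ℝ)⌋) x‖ₑ ∂(iidLaw G) ≤
        ENNReal.ofReal ε := by
  obtain ⟨N1, h1⟩ := h.cauchy s hs (k - x) (ε / 2) (half_pos hε)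
  obtain ⟨N2, h2⟩ := h.cauchy s hs (-x) (ε / 2) (half_pos hε)
  obtain ⟨N3, h3⟩ := eventually_atTop.1 h.int
  have conv : ∀ (k : ℤ) (N M : ℕ), N3 ≤ N → N3 ≤ M → ∀ e : ℝ,
      ∫ t, |D t N (⌊s * (N : ℝ)⌋ + k) 0 - D t M ⌊s * (M : ℝ)⌋ 0| ∂(iidLaw G) ≤ e →
      ∫⁻ t, ‖D t N (⌊s * (N : ℝ)⌋ + k) 0 - D t M ⌊s * (M : ℝ)⌋ 0‖ₑ ∂(iidLaw G) ≤
        ENNReal.ofReal e := by
    intro k N M hN hM e he
    have hi : Integrable (fun t => D t N (⌊s * (N : ℝ)⌋ + k) 0 - D t M ⌊s * (M : ℝ)⌋ 0)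
        (iidLaw G) := (h3 N hN _ _).sub (h3 M hM _ _)
    rw [← ofReal_integral_norm_eq_lintegral_enorm hi]
    exact ENNReal.ofReal_le_ofReal he
  refine ⟨max (max N1 N2) N3, fun N hN M hM => ?_⟩
  have a1 : N1 ≤ N := (le_max_left _ _).trans ((le_max_left _ _).trans hN)
  have a2 : N1 ≤ M := (le_max_left _ _).trans ((le_max_left _ _).trans hM)
  have a3 : N2 ≤ M := (le_max_right _ _).trans ((le_max_left _ _).trans hM)
  have a4 : N3 ≤ N := (le_max_right _ _).trans hN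
  have a5 : N3 ≤ M := (le_max_right _ _).trans hM
  rw [lintegral_D_hshift]
  refine (lint_tri (Y := fun t => D t M ⌊s * (M : ℝ)⌋ 0) (mble_D _ _ _)
    (mble_D _ _ _)).trans ?_
  have e1 := conv (k - x) N M a4 a5 _ (h1 N a1 M a2)
  have e2 := conv (-x) M M a5 a5 _ (h2 M a3 M a3)
  rw [lint_comm (fun t => D t M ⌊s * (M : ℝ)⌋ 0)]
  rw [add_sub_assoc]
  calc _ ≤ ENNReal.ofReal (ε / 2) + ENNReal.ofReal (ε / 2) := add_le_add e1 (by
        rw [sub_eq_add_neg]; exact e2)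
    _ = ENNReal.ofReal ε := by
        rw [← ENNReal.ofReal_add (by positivity) (by positivity), add_halves]

/-- each offset gives a Cauchy sequence -/
theorem CIn.cauchy'' (h : CIn G T p) (hs : s ∈ T) (k x : ℤ) {ε : ℝ} (hε : 0 < ε) :
    ∃ N0 : ℕ, ∀ N, N0 ≤ N → ∀ M, N0 ≤ M →
      ∫⁻ t, ‖D t N (⌊s * (N : ℝ)⌋ + k) x - D t M (⌊s * (M : ℝ)⌋ + k) x‖ₑ ∂(iidLaw G) ≤
        ENNReal.ofReal ε := by
  obtain ⟨N1, h1⟩ := h.cauchy' hs k x (half_pos hε)
  refine ⟨N1, fun N hN M hM => ?_⟩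
  refine (lint_tri (Y := fun t => D t M ⌊s * (M : ℝ)⌋ x) (mble_D _ _ _)
    (mble_D _ _ _)).trans ?_
  rw [lint_comm (fun t => D t M ⌊s * (M : ℝ)⌋ x)]
  calc _ ≤ ENNReal.ofReal (ε / 2) + ENNReal.ofReal (ε / 2) :=
        add_le_add (h1 N hN M hM) (h1 M hM M hM)
    _ = ENNReal.ofReal ε := by
        rw [← ENNReal.ofReal_add (by positivity) (by positivity), add_halves]

theorem CIn.hasSub (h : CIn G T p) (hs : s ∈ T) : HasSub G s (sub G s) := by
  have hex : ∃ φ, HasSub G s φ := by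
    obtain ⟨φ, h1, h2⟩ := exists_subseq (P := iidLaw G)
      (X := fun (i : ℤ × ℤ) (N : ℕ) t => D t N (⌊s * (N : ℝ)⌋ + i.1) i.2)
      (fun i N => (mble_D _ _ _).aestronglyMeasurable)
      (fun i ε hε => h.cauchy'' hs i.1 i.2 hε)
    exact ⟨φ, h1, fun k x => h2 (k, x)⟩
  unfold sub
  rw [dif_pos hex]
  exact hex.choose_spec

theorem enn_zero_of_le {a : ENNReal} (h : ∀ ε : ℝ, 0 < ε → a ≤ ENNReal.ofReal ε) :
    a = 0 := by
  by_contra hne
  have hpos : 0 < a := pos_iff_ne_zero.2 hne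
  obtain ⟨b, hb0, hba⟩ := exists_between hpos
  have hbt : b ≠ ⊤ := (hba.trans_le le_top).ne
  have := h b.toReal (ENNReal.toReal_pos hb0.ne' hbt)
  rw [ENNReal.ofReal_toReal hbt] at this
  exact absurd this (not_le.2 hba)

theorem CIn.limAt (h : CIn G T p) (hs : s ∈ T) : LimAt G s (-(p s)) := by
  have hsub := h.hasSub hs
  have hall : ∀ᵐ t ∂(iidLaw G), ∀ k x : ℤ,
      ∃ l, Tendsto (fun j => D t (sub G s j) (⌊s * (sub G s j : ℝ)⌋ + k) x) atTop (𝓝 l) :=
    ae_all_iff.2 fun k => ae_all_iff.2 fun x => hsub.2 k x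
  have h0 : ∀ᵐ t ∂(iidLaw G), ∀ x : ℤ,
      Tendsto (fun j => D t (sub G s j) (⌊s * (sub G s j : ℝ)⌋) x) atTop (𝓝 (DF G s x t)) := by
    filter_upwards [hall] with t ht
    exact (tendsto_LF (φ := sub G s) (s := s) fun x => by simpa using ht 0 x).2
  -- offsets have the same limit
  have hk : ∀ k x : ℤ, ∀ᵐ t ∂(iidLaw G),
      Tendsto (fun j => D t (sub G s j) (⌊s * (sub G s j : ℝ)⌋ + k) x) atTop
        (𝓝 (DF G s x t)) := by
    intro k x
    set l : Environment → ℝ := fun t =>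
      limsup (fun j => D t (sub G s j) (⌊s * (sub G s j : ℝ)⌋ + k) x) atTop with hl
    have hlm : Measurable l := Measurable.limsup fun _ => mble_D _ _ _
    have hlt : ∀ᵐ t ∂(iidLaw G),
        Tendsto (fun j => D t (sub G s j) (⌊s * (sub G s j : ℝ)⌋ + k) x) atTop (𝓝 (l t)) := by
      filter_upwards [hall] with t ht
      obtain ⟨a, ha⟩ := ht k x
      have : l t = a := ha.limsup_eq
      rwa [this]
    have hz : ∫⁻ t, ‖l t - DF G s x t‖ₑ ∂(iidLaw G) = 0 := by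
      refine enn_zero_of_le fun ε hε => ?_
      have hε3 : 0 < ε / 3 := by positivity
      obtain ⟨N1, h1⟩ := h.cauchy'' hs k x hε3
      obtain ⟨N2, h2⟩ := h.cauchy'' hs 0 x hε3
      obtain ⟨N3, h3⟩ := h.cauchy' hs k x hε3
      set N := max (max N1 N2) N3
      have b1 : N1 ≤ N := (le_max_left _ _).trans (le_max_left _ _)
      have b2 : N2 ≤ N := (le_max_right _ _).trans (le_max_left _ _)
      have b3 : N3 ≤ N := le_max_right _ _
      have c1 := lintegral_sub_lim_le (P := iidLaw G) hsub.1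
        (X := fun N t => D t N (⌊s * (N : ℝ)⌋ + k) x) (fun N => mble_D _ _ _) h1 hlt b1
      have c2 := lintegral_sub_lim_le (P := iidLaw G) hsub.1
        (X := fun N t => D t N (⌊s * (N : ℝ)⌋ + 0) x) (l := DF G s x)
        (fun N => mble_D _ _ _) h2 (by simpa using h0.mono fun t ht => ht x) b2
      have c3 := h3 N b3 N b3
      refine (lint_tri (Y := fun t => D t N (⌊s * (N : ℝ)⌋ + k) x) hlm
        (mble_D _ _ _)).trans ?_
      rw [lint_comm l]
      refine (add_le_add le_rfl (lint_tri (Y := fun t => D t N (⌊s * (N : ℝ)⌋ + 0) x)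
        (mble_D _ _ _) (mble_D _ _ _))).trans ?_
      simp only [add_zero] at c2 ⊢
      calc _ ≤ ENNReal.ofReal (ε / 3) + (ENNReal.ofReal (ε / 3) + ENNReal.ofReal (ε / 3)) :=
            add_le_add c1 (add_le_add c3 c2)
        _ = ENNReal.ofReal ε := by
            rw [← ENNReal.ofReal_add (by positivity) (by positivity),
              ← ENNReal.ofReal_add (by positivity) (by positivity)]
            congr 1
            ring
    have hm : Measurable fun t => ‖l t - DF G s x t‖ₑ := (hlm.sub (measurable_DF G s x)).enorm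
    rw [lintegral_eq_zero_iff hm] at hz
    filter_upwards [hz, hlt] with t h1 h2
    have : l t = DF G s x t := by
      have h3 : ‖l t - DF G s x t‖ₑ = 0 := h1
      rw [enorm_eq_zero, sub_eq_zero] at h3
      exact h3
    rwa [← this]
  have hL1 : ∀ k x : ℤ, Tendsto (fun N : ℕ => ∫⁻ t, ‖D t N (⌊s * (N : ℝ)⌋ + k) x - DF G s x t‖ₑ
      ∂(iidLaw G)) atTop (𝓝 0) := by
    intro k x
    rw [ENNReal.tendsto_atTop_zero]
    intro ε hε
    obtain ⟨e, he0, he⟩ : ∃ e : ℝ, 0 < e ∧ ENNReal.ofReal e ≤ ε := by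
      rcases eq_or_ne ε ⊤ with rfl | htop
      · exact ⟨1, one_pos, le_top⟩
      · exact ⟨ε.toReal, ENNReal.toReal_pos hε.ne' htop, (ENNReal.ofReal_toReal htop).le⟩
    obtain ⟨N1, h1⟩ := h.cauchy'' hs k x he0
    exact ⟨N1, fun N hN => (lintegral_sub_lim_le (P := iidLaw G) hsub.1
      (X := fun N t => D t N (⌊s * (N : ℝ)⌋ + k) x) (fun N => mble_D _ _ _) h1
      (hk k x) hN).trans he⟩
  have hint : ∀ x, Integrable (DF G s x) (iidLaw G) := by
    intro x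
    obtain ⟨N, hN1, hN2⟩ := (h.int.and ((hL1 0 x).eventually_lt_const
      (show (0 : ENNReal) < 1 by norm_num))).exists
    have h1 := hN1 (⌊s * (N : ℝ)⌋ + 0) x
    have h2 : Integrable (fun t => D t N (⌊s * (N : ℝ)⌋ + 0) x - DF G s x t) (iidLaw G) :=
      ⟨((mble_D _ _ _).sub (measurable_DF G s x)).aestronglyMeasurable,
        hN2.trans ENNReal.one_lt_top⟩
    refine (h1.sub h2).congr (Eventually.of_forall fun t => ?_)
    simp
  refine ⟨hsub.1, ae_all_iff.2 fun k => ae_all_iff.2 fun x => hk k x, hL1, hint, fun x => ?_⟩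
  have h1 := tendsto_integral_of_L1 (DF G s x) (hint x).aestronglyMeasurable
    (F := fun (N : ℕ) t => D t N (⌊s * (N : ℝ)⌋ + x) x) (l := atTop)
    (h.int.mono fun N hN => hN _ _) (hL1 x x)
  have h2 : Tendsto (fun N : ℕ => ∫ t, D t N (⌊s * (N : ℝ)⌋ + x) x ∂(iidLaw G)) atTop
      (𝓝 (-(p s))) := by
    refine (h.mean s hs 0).congr fun N => ?_
    rw [integral_D_hshift N (⌊s * (N : ℝ)⌋ + x) x]
    simp
  exact tendsto_nhds_unique h1 h2

end limAt

end Crest.Agent.R151.BUS
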