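import Crest.Agent.R151.L763g
import Crest.Agent.R151.B411c1

/-!
# R151/L763h — `LineFns` from convergence, slopes and localisation (owner helper763)
-/

set_option autoImplicit false

open MeasureTheory Filter Topology
open Crest.ProbabilityR.FirstPassage

namespace Crest.Agent.R151.LIN

open K BUS D411

variable {G : Measure ℝ} [IsProbabilityMeasure G] {μ : ℝ × ℝ → ℝ}

/-- the directions outside the axial facets -/
def Dir (μ : ℝ × ℝ → ℝ) : Set ℝ := {s | |ph1 μ s| < μ (1, 0)}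

/-- conclusion of the localisation block -/
def Loc (G : Measure ℝ) (μ : ℝ × ℝ → ℝ) : Prop :=
  ∀ τ s1 s2 : ℝ, τ ∈ Dir μ → s1 < τ → τ < s2 → ph1 μ s1 ≠ ph1 μ τ → ph1 μ s2 ≠ ph1 μ τ →
    LocL G τ s1 ∧ LocR G τ s2

lemma eventually_mul_gt {a b : ℝ} (hab : a < b) (C : ℝ) :
    ∀ᶠ N : ℕ in atTop, a * N + C ≤ b * N := by
  have h : Tendsto (fun N : ℕ => (b - a) * (N : ℝ)) atTop atTop :=
    tendsto_natCast_atTop_atTop.const_mul_atTop (by linarith)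
  filter_upwards [h.eventually_ge_atTop C] with N hN
  nlinarith

theorem lineFns_of_loc (hμ : SmoothNorm μ) (h0 : G (Set.Iio 0) = 0)
    {f0 : ℝ → Environment → ℤ → ℝ}
    (conv : ∀ τ ∈ Dir μ, ∀ (C : ℤ) (z : ℕ → ℤ), (∀ N : ℕ, |z N - ⌊τ * N⌋| ≤ C) → ∀ x : ℤ,
      ∀ ε : ℝ, 0 < ε → Tendsto (fun N : ℕ => (iidLaw G).real
        {t | ε ≤ |gl 0 N (z N) t x - (f0 τ t x - f0 τ t 0)|}) atTop (𝓝 0))
    (slopeR : ∀ τ ∈ Dir μ, ∀ᵐ t ∂(iidLaw G),
      Tendsto (fun x : ℕ => f0 τ t x / x) atTop (𝓝 (-ph1 μ τ)))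
    (slopeL : ∀ τ ∈ Dir μ, ∀ᵐ t ∂(iidLaw G),
      Tendsto (fun x : ℕ => f0 τ t (-x) / x) atTop (𝓝 (ph1 μ τ)))
    (loc : Loc G μ) : LineFns G (Dir μ) (ph1 μ) (μ (1, 0)) f0 where
  conv := conv
  slopeR := slopeR
  slopeL := slopeL
  abs_lt := fun τ hτ => hτ
  lowR := by
    intro τ hτ
    obtain ⟨-, s', -, h1, -, h2, -, -, h3, -⟩ := exists_bracket hμ hτ one_pos
    obtain ⟨-, τ', -, h4, -, h5, -, -, h6, -⟩ := exists_bracket hμ h2 one_pos
    obtain ⟨-, s2, -, h7, -, h8, -, -, h9, -⟩ := exists_bracket hμ h5 one_pos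
    refine ⟨τ', h5, fun C z hz => ?_⟩
    have hl := (loc τ' s' s2 h5 h4 h7 h6.ne h9.ne').1
    refine low_right h0 (f := f0 τ') (fun x ε hε => conv τ' h5 0 (fun N => ⌊τ' * N⌋) (by simp) x ε hε)
      hl ?_
    filter_upwards [eventually_mul_gt h1 C] with N hN
    have e1 := (abs_le.1 (hz N)).2
    have e2 : (z N : ℝ) ≤ ⌊τ * N⌋ + C := by exact_mod_cast (by omega : z N ≤ ⌊τ * N⌋ + C)
    have e3 := Int.floor_le (τ * N)
    linarith
  lowL := by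
    intro τ hτ
    obtain ⟨s', -, h1, -, h2, -, -, h3, -, -⟩ := exists_bracket hμ hτ one_pos
    obtain ⟨τ', -, h4, -, h5, -, -, h6, -, -⟩ := exists_bracket hμ h2 one_pos
    obtain ⟨s1, -, h7, -, h8, -, -, h9, -, -⟩ := exists_bracket hμ h5 one_pos
    refine ⟨τ', h5, fun C z hz => ?_⟩
    have hl := (loc τ' s1 s' h5 h7 h4 h9.ne h6.ne').2
    refine low_left h0 (f := f0 τ') (fun x ε hε => conv τ' h5 0 (fun N => ⌊τ' * N⌋) (by simp) x ε hε)
      hl ?_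
    filter_upwards [eventually_mul_gt h1 (C + 1)] with N hN
    have e1 := (abs_le.1 (hz N)).1
    have e2 : (⌊τ * N⌋ : ℝ) - C ≤ z N := by exact_mod_cast (by omega : ⌊τ * N⌋ - C ≤ z N)
    have e3 := Int.lt_floor_add_one (τ * N)
    linarith

end Crest.Agent.R151.LIN
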