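import Crest.Agent.R151.B469f
import Crest.Agent.R151.B624c5
import Crest.Agent.R151.B906d
import Crest.Agent.R151.L763h

/-!
# R151, block BUS (helper469), part g: `CIn` (906) and `Loc` (763) from the localisation
-/

set_option autoImplicit false
set_option linter.unusedSectionVars false

open MeasureTheory Filter ProbabilityTheory
open Crest.ProbabilityR.FirstPassage
open Crest.Agent.R151.K

namespace Crest.Agent.R151.BUS

variable {G : Measure ℝ} [IsProbabilityMeasure G] {m : ℝ} {μ : ℝ × ℝ → ℝ}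

/-- **conclusion of part (c)** in 906's form -/
theorem Inp.cIn (H : Inp G m μ) (h : D411.SmoothNorm μ) : CIn G (LIN.Dir μ) (ph1 μ) where
  int := by
    filter_upwards [eventually_ge_atTop 2] with N hN z x
    exact H.int_D (by exact_mod_cast hN) z x
  mean := by
    intro s _ k
    have h1 := (H.sg_tendsto (hasDerivAt_ph h s) (k - 1)).neg
    refine h1.congr' ?_
    filter_upwards [eventually_ge_atTop 2] with N hN
    rw [H.integral_D (by exact_mod_cast hN)]
    congr 2
    ring
  cauchy := by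
    intro s hs k ε hε
    have hdiff : ∀ x : ℝ, DifferentiableAt ℝ (fun x : ℝ => μ (x, 1)) x :=
      fun x => (hasDerivAt_ph h x).differentiableAt
    obtain ⟨N0, hN0⟩ := H.cauchy_of_loc hdiff (hasDerivAt_ph h s) hs 0
      (fun s1 s2 h1 h2 h3 h4 x d hd => by
        obtain ⟨N1, hN1⟩ := H.loc (hasDerivAt_ph h s) h1 h2 h3 h4 0 x hd
        refine ⟨N1, fun N hN => (hN1 N hN).mono ⟨0, fun M _ => ?_⟩⟩
        refine ENNReal.toReal_mono (measure_ne_top _ _) (measure_mono ?_)
        rintro t ⟨w, hw, hw2⟩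
        exact ⟨w, hw, hw2.le⟩) k 0 0 ε hε
    refine ⟨N0, fun N hN M hM => ?_⟩
    have := hN0 N hN M hM
    rwa [add_zero] at this

/-- **localisation** in 763's form -/
theorem Inp.locAll (H : Inp G m μ) (h : D411.SmoothNorm μ) : LIN.Loc G μ := by
  intro τ s1 s2 hτ h1 h2 h3 h4
  have key : ∀ δ : ℝ, 0 < δ → ∀ᶠ N : ℕ in atTop, ∃ᶠ M : ℕ in atTop,
      (iidLaw G).real (Off s1 s2 τ 0 N M 0) ≤ δ := by
    intro δ hδ
    obtain ⟨N1, hN1⟩ := H.loc (hasDerivAt_ph h τ) h1 h2 (contact_ne h h3) (contact_ne h h4)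
      0 0 (half_pos hδ)
    filter_upwards [eventually_ge_atTop N1] with N hN
    rw [frequently_atTop]
    intro M0
    obtain ⟨M, hM, hM2⟩ := (hN1 N hN).exists_le (half_pos hδ) M0
    exact ⟨M, hM, by linarith⟩
  have hsp : ∀ N : ℤ, St 0 N = LIN.Sp 0 N := fun N => rfl
  constructor
  · intro δ hδ
    filter_upwards [key δ hδ] with N hN
    refine hN.mono fun M hM => le_trans ?_ hM
    refine ENNReal.toReal_mono (measure_ne_top _ _) (measure_mono ?_)
    rintro t ⟨w, hw, hw2⟩
    refine ⟨w, Or.inl hw, ?_⟩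
    simp only [tgt, add_zero]
    exact hw2
  · intro δ hδ
    filter_upwards [key δ hδ] with N hN
    refine hN.mono fun M hM => le_trans ?_ hM
    refine ENNReal.toReal_mono (measure_ne_top _ _) (measure_mono ?_)
    rintro t ⟨w, hw, hw2⟩
    refine ⟨w, Or.inr hw, ?_⟩
    simp only [tgt, add_zero]
    exact hw2

end Crest.Agent.R151.BUS
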