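import Mathlib

/-!
# R151 / S0214 part 2, module B: flat data (helper710)

Pure convex geometry of a norm-like function `μ : ℝ × ℝ → ℝ`.  If `μ` is differentiable off `0`
and `{μ ≤ 1}` is not strictly convex, there are `a, b` linearly independent and `ρ` linear with
`ρ ≤ μ`, `ρ = μ = 1` at `a` and `b`, `ρ < μ` at `b - s a` and `a - s b` (`s > 0`) and the
differentiability statements `ψ(b - s a)/s → 0`, `ψ(a - s b)/s → 0`, `ψ = μ - ρ`.
-/

set_option autoImplicit false

namespace Crest.Agent.R151.B710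

open Filter Topology Set

/-- the norm-like properties of a time constant -/
structure NormLike (μ : ℝ × ℝ → ℝ) : Prop where
  smul : ∀ (s : ℝ) (v : ℝ × ℝ), 0 ≤ s → μ (s • v) = s * μ v
  neg : ∀ v, μ (-v) = μ v
  add : ∀ u v, μ (u + v) ≤ μ u + μ v
  lower : ∃ c, 0 < c ∧ ∀ v : ℝ × ℝ, c * (|v.1| + |v.2|) ≤ μ v
  upper : ∃ C, 0 < C ∧ ∀ v : ℝ × ℝ, μ v ≤ C * (|v.1| + |v.2|)

namespace NormLike

variable {μ : ℝ × ℝ → ℝ} (h : NormLike μ)
include h

lemma zero : μ 0 = 0 := by
  have := h.smul 0 0 le_rfl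
  simpa using this

lemma nonneg (v : ℝ × ℝ) : 0 ≤ μ v := by
  obtain ⟨c, hc, hl⟩ := h.lower
  exact le_trans (by positivity) (hl v)

lemma pos {v : ℝ × ℝ} (hv : v ≠ 0) : 0 < μ v := by
  obtain ⟨c, hc, hl⟩ := h.lower
  refine lt_of_lt_of_le ?_ (hl v)
  have : 0 < |v.1| + |v.2| := by
    by_contra hcon
    push Not at hcon
    have h1 : |v.1| = 0 := le_antisymm (by linarith [abs_nonneg v.2]) (abs_nonneg _)
    have h2 : |v.2| = 0 := le_antisymm (by linarith [abs_nonneg v.1]) (abs_nonneg _)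
    exact hv (Prod.ext (abs_eq_zero.mp h1) (abs_eq_zero.mp h2))
  positivity

lemma sub_comm (u v : ℝ × ℝ) : μ (u - v) = μ (v - u) := by
  rw [← h.neg (u - v), neg_sub]

lemma abs_sub_le (u v : ℝ × ℝ) : |μ u - μ v| ≤ μ (u - v) := by
  rw [abs_le]
  constructor
  · have := h.add u (v - u)
    rw [add_sub_cancel, h.sub_comm v u] at this
    linarith
  · have := h.add v (u - v)
    rw [add_sub_cancel] at this
    linarith

lemma continuous : Continuous μ := by
  obtain ⟨C, hC, hu⟩ := h.upper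
  rw [Metric.continuous_iff]
  intro v ε hε
  refine ⟨ε / (2 * C), by positivity, fun u huv => ?_⟩
  rw [Real.dist_eq]
  have h1 : |u.1 - v.1| < ε / (2 * C) := by
    have := lt_of_le_of_lt (le_max_left (dist u.1 v.1) (dist u.2 v.2))
      (show max (dist u.1 v.1) (dist u.2 v.2) < ε / (2 * C) by simpa [Prod.dist_eq] using huv)
    simpa [Real.dist_eq] using this
  have h2 : |u.2 - v.2| < ε / (2 * C) := by
    have := lt_of_le_of_lt (le_max_right (dist u.1 v.1) (dist u.2 v.2))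
      (show max (dist u.1 v.1) (dist u.2 v.2) < ε / (2 * C) by simpa [Prod.dist_eq] using huv)
    simpa [Real.dist_eq] using this
  calc |μ u - μ v| ≤ μ (u - v) := h.abs_sub_le u v
    _ ≤ C * (|(u - v).1| + |(u - v).2|) := hu _
    _ = C * (|u.1 - v.1| + |u.2 - v.2|) := by simp
    _ < C * (ε / (2 * C) + ε / (2 * C)) := by
        apply mul_lt_mul_of_pos_left _ hC
        linarith
    _ = ε := by field_simp; ring

lemma mul_left {r : ℝ} (hr : 0 < r) : NormLike (fun v => r * μ v) where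
  smul s v hs := by simp only [h.smul s v hs]; ring
  neg v := by simp only [h.neg v]
  add u v := by
    have := mul_le_mul_of_nonneg_left (h.add u v) hr.le
    linarith
  lower := by
    obtain ⟨c, hc, hl⟩ := h.lower
    refine ⟨r * c, by positivity, fun v => ?_⟩
    have := mul_le_mul_of_nonneg_left (hl v) hr.le
    linarith
  upper := by
    obtain ⟨C, hC, hu⟩ := h.upper
    refine ⟨r * C, by positivity, fun v => ?_⟩
    have := mul_le_mul_of_nonneg_left (hu v) hr.le
    linarith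

end NormLike

/-- The data of a flat piece of the unit sphere of `μ`, with differentiability at its ends. -/
structure FlatData (μ : ℝ × ℝ → ℝ) where
  a : ℝ × ℝ
  b : ℝ × ℝ
  ρ : ℝ × ℝ →L[ℝ] ℝ
  det_ne : a.1 * b.2 - a.2 * b.1 ≠ 0
  ρ_le : ∀ v, ρ v ≤ μ v
  μ_a : μ a = 1
  μ_b : μ b = 1
  ρ_a : ρ a = 1
  ρ_b : ρ b = 1
  pos_ba : ∀ s : ℝ, 0 < s → ρ (b - s • a) < μ (b - s • a)
  pos_ab : ∀ s : ℝ, 0 < s → ρ (a - s • b) < μ (a - s • b)
  lim_ba : Tendsto (fun s : ℝ => (μ (b - s • a) - ρ (b - s • a)) / s) (𝓝[>] 0) (𝓝 0)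
  lim_ab : Tendsto (fun s : ℝ => (μ (a - s • b) - ρ (a - s • b)) / s) (𝓝[>] 0) (𝓝 0)

namespace FlatData

variable {μ : ℝ × ℝ → ℝ}

/-- exchange of the two ends -/
def swap (F : FlatData μ) : FlatData μ where
  a := F.b
  b := F.a
  ρ := F.ρ
  det_ne := by
    intro h
    apply F.det_ne
    linarith
  ρ_le := F.ρ_le
  μ_a := F.μ_b
  μ_b := F.μ_a
  ρ_a := F.ρ_b
  ρ_b := F.ρ_a
  pos_ba := F.pos_ab
  pos_ab := F.pos_ba
  lim_ba := F.lim_ab
  lim_ab := F.lim_ba

@[simp] lemma swap_a (F : FlatData μ) : F.swap.a = F.b := rfl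
@[simp] lemma swap_b (F : FlatData μ) : F.swap.b = F.a := rfl
@[simp] lemma swap_ρ (F : FlatData μ) : F.swap.ρ = F.ρ := rfl

variable (F : FlatData μ)

/-- the determinant -/
def det : ℝ := F.a.1 * F.b.2 - F.a.2 * F.b.1

lemma det_ne' : F.det ≠ 0 := F.det_ne

@[simp] lemma det_swap : F.swap.det = - F.det := by
  simp only [det, swap_a, swap_b]; ring

/-- first coordinate in the basis `(a, b)` -/
noncomputable def al : ℝ × ℝ →L[ℝ] ℝ :=
  (F.b.2 / F.det) • ContinuousLinearMap.fst ℝ ℝ ℝ - (F.b.1 / F.det) • ContinuousLinearMap.snd ℝ ℝ ℝ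

/-- second coordinate in the basis `(a, b)` -/
noncomputable def be : ℝ × ℝ →L[ℝ] ℝ :=
  (F.a.1 / F.det) • ContinuousLinearMap.snd ℝ ℝ ℝ - (F.a.2 / F.det) • ContinuousLinearMap.fst ℝ ℝ ℝ

lemma al_apply (v : ℝ × ℝ) : F.al v = (v.1 * F.b.2 - v.2 * F.b.1) / F.det := by
  simp [al]; ring

lemma be_apply (v : ℝ × ℝ) : F.be v = (F.a.1 * v.2 - F.a.2 * v.1) / F.det := by
  simp [be]; ring

lemma al_swap (v : ℝ × ℝ) : F.swap.al v = F.be v := by
  rw [al_apply, be_apply, det_swap]
  simp only [swap_b]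
  rw [div_neg, ← neg_div]
  congr 1; ring

lemma be_swap (v : ℝ × ℝ) : F.swap.be v = F.al v := by
  rw [al_apply, be_apply, det_swap]
  simp only [swap_a]
  rw [div_neg, ← neg_div]
  congr 1; ring

lemma decomp (v : ℝ × ℝ) : F.al v • F.a + F.be v • F.b = v := by
  have hd := F.det_ne'
  rw [al_apply, be_apply]
  apply Prod.ext
  · simp only [Prod.fst_add, Prod.smul_fst, smul_eq_mul]
    field_simp
    unfold det
    ring
  · simp only [Prod.snd_add, Prod.smul_snd, smul_eq_mul]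
    field_simp
    unfold det
    ring

@[simp] lemma al_a : F.al F.a = 1 := by
  rw [al_apply]
  rw [show F.a.1 * F.b.2 - F.a.2 * F.b.1 = F.det from rfl]
  exact div_self F.det_ne'

@[simp] lemma al_b : F.al F.b = 0 := by
  rw [al_apply, mul_comm F.b.1 F.b.2, sub_self, zero_div]

@[simp] lemma be_b : F.be F.b = 1 := by
  rw [be_apply]
  rw [show F.a.1 * F.b.2 - F.a.2 * F.b.1 = F.det from rfl]
  exact div_self F.det_ne'

@[simp] lemma be_a : F.be F.a = 0 := by
  rw [be_apply, mul_comm F.a.1 F.a.2, sub_self, zero_div]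

lemma ρ_eq (v : ℝ × ℝ) : F.ρ v = F.al v + F.be v := by
  conv_lhs => rw [← F.decomp v]
  rw [map_add, map_smul, map_smul, F.ρ_a, F.ρ_b]
  simp

/-- the excess -/
noncomputable def ψ (v : ℝ × ℝ) : ℝ := μ v - F.ρ v

@[simp] lemma ψ_swap : F.swap.ψ = F.ψ := rfl

lemma ψ_nonneg (v : ℝ × ℝ) : 0 ≤ F.ψ v := sub_nonneg.mpr (F.ρ_le v)

@[simp] lemma ψ_a : F.ψ F.a = 0 := by simp [ψ, F.ρ_a, F.μ_a]
@[simp] lemma ψ_b : F.ψ F.b = 0 := by simp [ψ, F.ρ_b, F.μ_b]

section
variable (h : NormLike μ)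
include h

lemma ψ_smul {s : ℝ} (hs : 0 ≤ s) (v : ℝ × ℝ) : F.ψ (s • v) = s * F.ψ v := by
  simp only [ψ, h.smul s v hs, map_smul, smul_eq_mul]; ring

lemma ψ_add (u v : ℝ × ℝ) : F.ψ (u + v) ≤ F.ψ u + F.ψ v := by
  simp only [ψ, map_add]
  linarith [h.add u v]

lemma ψ_neg_a : F.ψ (-F.a) = 2 := by
  simp only [ψ, h.neg, map_neg, F.ρ_a, F.μ_a]; norm_num

lemma ψ_neg_b : F.ψ (-F.b) = 2 := by
  simp only [ψ, h.neg, map_neg, F.ρ_b, F.μ_b]; norm_num

lemma ψ_continuous : Continuous F.ψ := h.continuous.sub F.ρ.continuous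

/-- `ψ` vanishes on the cone -/
lemma ψ_cone {v : ℝ × ℝ} (h1 : 0 ≤ F.al v) (h2 : 0 ≤ F.be v) : F.ψ v = 0 := by
  apply le_antisymm _ (F.ψ_nonneg v)
  conv_lhs => rw [← F.decomp v]
  refine (F.ψ_add h _ _).trans ?_
  rw [F.ψ_smul h h1, F.ψ_smul h h2]
  simp

/-- `ψ` is positive where the first coordinate is negative -/
lemma ψ_pos_of_al {v : ℝ × ℝ} (h1 : F.al v < 0) : 0 < F.ψ v := by
  rcases lt_trichotomy (F.be v) 0 with h2 | h2 | h2
  · have hv : v ≠ 0 := by
      rintro rfl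
      simp at h1
    have := h.pos hv
    have h3 := F.ρ_eq v
    unfold ψ
    linarith
  · have hv := F.decomp v
    rw [h2, zero_smul, add_zero] at hv
    have : v = (-F.al v) • (-F.a) := by
      rw [smul_neg, neg_smul, neg_neg, hv]
    rw [this, F.ψ_smul h (by linarith), F.ψ_neg_a h]
    linarith
  · have : v = F.be v • (F.b - (-F.al v / F.be v) • F.a) := by
      rw [smul_sub, smul_smul]
      rw [mul_div_cancel₀ _ h2.ne', neg_smul, sub_neg_eq_add, add_comm, F.decomp v]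
    have h3 : 0 < F.ψ (F.b - (-F.al v / F.be v) • F.a) :=
      sub_pos.mpr (F.pos_ba _ (by
        apply div_pos _ h2
        linarith))
    rw [this, F.ψ_smul h h2.le]
    exact mul_pos h2 h3

lemma ψ_pos_of_be {v : ℝ × ℝ} (h1 : F.be v < 0) : 0 < F.ψ v := by
  have := F.swap.ψ_pos_of_al h (v := v) (by rw [al_swap]; exact h1)
  simpa using this


/-- uniform positivity: moving left by `δ|v|` costs `c|v|` -/
lemma ψ_lower_al {δ : ℝ} (hδ : 0 < δ) :
    ∃ c, 0 < c ∧ ∀ v : ℝ × ℝ, F.al v ≤ -(δ * ‖v‖) → c * ‖v‖ ≤ F.ψ v := by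
  classical
  set K : Set (ℝ × ℝ) := Metric.sphere 0 1 ∩ {v | F.al v ≤ -δ} with hK
  have hKc : IsCompact K :=
    (isCompact_sphere (0 : ℝ × ℝ) 1).inter_right (isClosed_le F.al.continuous continuous_const)
  rcases K.eq_empty_or_nonempty with he | hne
  · refine ⟨1, one_pos, fun v hv => ?_⟩
    by_cases hv0 : v = 0
    · subst hv0
      simpa using F.ψ_nonneg 0
    · exfalso
      have hn : 0 < ‖v‖ := norm_pos_iff.mpr hv0
      have : ‖v‖⁻¹ • v ∈ K := by
        refine ⟨by simp [norm_smul, hn.ne'], ?_⟩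
        simp only [Set.mem_ofPred_eq, map_smul, smul_eq_mul]
        rw [inv_mul_le_iff₀ hn]
        linarith
      rw [he] at this
      exact this
  · obtain ⟨v0, hv0, hmin⟩ := hKc.exists_isMinOn hne (F.ψ_continuous h).continuousOn
    have hpos : 0 < F.ψ v0 := F.ψ_pos_of_al h (lt_of_le_of_lt hv0.2 (by linarith))
    refine ⟨F.ψ v0, hpos, fun v hv => ?_⟩
    by_cases hv0' : v = 0
    · subst hv0'
      simpa using F.ψ_nonneg 0
    · have hn : 0 < ‖v‖ := norm_pos_iff.mpr hv0'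
      have hm : ‖v‖⁻¹ • v ∈ K := by
        refine ⟨by simp [norm_smul, hn.ne'], ?_⟩
        simp only [Set.mem_ofPred_eq, map_smul, smul_eq_mul]
        rw [inv_mul_le_iff₀ hn]
        linarith
      have h1 : F.ψ v0 ≤ F.ψ (‖v‖⁻¹ • v) := hmin hm
      rw [F.ψ_smul h (by positivity)] at h1
      calc F.ψ v0 * ‖v‖ ≤ (‖v‖⁻¹ * F.ψ v) * ‖v‖ := mul_le_mul_of_nonneg_right h1 hn.le
        _ = F.ψ v := by field_simp

lemma ψ_lower_be {δ : ℝ} (hδ : 0 < δ) :
    ∃ c, 0 < c ∧ ∀ v : ℝ × ℝ, F.be v ≤ -(δ * ‖v‖) → c * ‖v‖ ≤ F.ψ v := by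
  obtain ⟨c, hc, hh⟩ := F.swap.ψ_lower_al h hδ
  refine ⟨c, hc, fun v hv => ?_⟩
  have := hh v (by rw [al_swap]; exact hv)
  simpa using this

/-- a small fall spread over a large height costs nothing -/
lemma lim_height (δ : ℝ) (hδ : 0 < δ) :
    Tendsto (fun J : ℝ => F.ψ (J • F.b - δ • F.a)) atTop (𝓝 0) := by
  have h1 : Tendsto (fun J : ℝ => δ / J) atTop (𝓝[>] 0) := by
    rw [tendsto_nhdsWithin_iff]
    refine ⟨tendsto_const_nhds.div_atTop tendsto_id, ?_⟩
    filter_upwards [eventually_gt_atTop 0] with J hJ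
    exact div_pos hδ hJ
  have h2 := (F.lim_ba.comp h1).const_mul δ
  rw [mul_zero] at h2
  refine h2.congr' ?_
  filter_upwards [eventually_gt_atTop 0] with J hJ
  have h3 : J • F.b - δ • F.a = J • (F.b - (δ / J) • F.a) := by
    rw [smul_sub, smul_smul, mul_div_cancel₀ _ hJ.ne']
  rw [h3, F.ψ_smul h hJ.le]
  simp only [Function.comp, ψ]
  field_simp

end

end FlatData

section exist

variable {μ : ℝ × ℝ → ℝ}

lemma NormLike.convexOn (h : NormLike μ) : ConvexOn ℝ univ μ := by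
  refine ⟨convex_univ, fun u _ v _ s t hs ht _ => ?_⟩
  calc μ (s • u + t • v) ≤ μ (s • u) + μ (t • v) := h.add _ _
    _ = s • μ u + t • μ v := by rw [h.smul s u hs, h.smul t v ht]; rfl

lemma NormLike.interior_subset (h : NormLike μ) : {v | μ v < 1} ⊆ interior {v | μ v ≤ 1} := by
  apply interior_maximal
  · intro v hv
    exact le_of_lt (show μ v < 1 from hv)
  · exact isOpen_lt h.continuous continuous_const

/-- the derivative at `z ≠ 0` is a supporting functional -/
lemma NormLike.fderiv_le (h : NormLike μ) {z : ℝ × ℝ} (hd : DifferentiableAt ℝ μ z)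
    (v : ℝ × ℝ) : fderiv ℝ μ z v ≤ μ v := by
  have h1 : HasDerivAt (fun s : ℝ => μ (z + s • v)) (fderiv ℝ μ z v) 0 := by
    have := hd.hasFDerivAt.comp_hasDerivAt_of_eq (0 : ℝ)
      (f := fun s : ℝ => z + s • v) (f' := v)
      (by simpa using ((hasDerivAt_id (0 : ℝ)).smul_const v).const_add z) (by simp)
    exact this
  have h2 := h1.tendsto_slope_zero_right
  refine le_of_tendsto h2 ?_
  filter_upwards [self_mem_nhdsWithin] with s hs
  have hs' : (0 : ℝ) < s := hs
  simp only [zero_add, zero_smul, add_zero, smul_eq_mul]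
  rw [inv_mul_le_iff₀ hs']
  have := h.add z (s • v)
  rw [h.smul s v hs'.le] at this
  linarith

lemma NormLike.fderiv_self (h : NormLike μ) {z : ℝ × ℝ} (hd : DifferentiableAt ℝ μ z) :
    fderiv ℝ μ z z = μ z := by
  apply le_antisymm (h.fderiv_le hd z)
  have := h.fderiv_le hd (-z)
  -- only gives `-fderiv ≤ μ`; use the radial derivative instead
  clear this
  have h1 : HasDerivAt (fun s : ℝ => μ (z + s • z)) (fderiv ℝ μ z z) 0 := by
    have := hd.hasFDerivAt.comp_hasDerivAt_of_eq (0 : ℝ)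
      (f := fun s : ℝ => z + s • z) (f' := z)
      (by simpa using ((hasDerivAt_id (0 : ℝ)).smul_const z).const_add z) (by simp)
    exact this
  have h2 := h1.tendsto_slope_zero_right
  refine ge_of_tendsto h2 ?_
  filter_upwards [self_mem_nhdsWithin] with s hs
  have hs' : (0 : ℝ) < s := hs
  simp only [zero_add, zero_smul, add_zero, smul_eq_mul]
  have h3 : z + s • z = (1 + s) • z := by rw [add_smul, one_smul]
  rw [h3, h.smul _ _ (by linarith)]
  have : s⁻¹ * ((1 + s) * μ z - μ z) = μ z := by field_simp; ring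
  rw [this]

/-- at a contact point of `ρ ≤ μ` the excess is `o(s)` -/
lemma NormLike.lim_of_contact (_h : NormLike μ) {ρ : ℝ × ℝ →L[ℝ] ℝ} (hρ : ∀ v, ρ v ≤ μ v)
    {z : ℝ × ℝ} (hz : ρ z = μ z) (hd : DifferentiableAt ℝ μ z) (w : ℝ × ℝ) :
    Tendsto (fun s : ℝ => (μ (z - s • w) - ρ (z - s • w)) / s) (𝓝[>] 0) (𝓝 0) := by
  set f : ℝ × ℝ → ℝ := fun v => μ v - ρ v with hf
  have hfd : DifferentiableAt ℝ f z := hd.sub ρ.differentiableAt
  have hmin : IsLocalMin f z := by
    refine Filter.Eventually.of_forall fun v => ?_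
    simp only [hf, hz, sub_self]
    linarith [hρ v]
  have h0 : fderiv ℝ f z = 0 := hmin.fderiv_eq_zero
  have h1 : HasDerivAt (fun s : ℝ => f (z - s • w)) 0 0 := by
    have h2 := hfd.hasFDerivAt
    rw [h0] at h2
    have := h2.comp_hasDerivAt_of_eq (0 : ℝ)
      (f := fun s : ℝ => z - s • w) (f' := -w)
      (by simpa using ((hasDerivAt_id (0 : ℝ)).smul_const w).const_sub z) (by simp)
    exact this
  have h2 := h1.tendsto_slope_zero_right
  refine h2.congr' ?_
  filter_upwards [self_mem_nhdsWithin] with s hs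
  simp only [zero_add, zero_smul, sub_zero, smul_eq_mul, hf, hz, sub_self]
  rw [div_eq_inv_mul]

/-- **Existence of flat data.** -/
theorem exists_flatData (h : NormLike μ) (hd : ∀ v : ℝ × ℝ, v ≠ 0 → DifferentiableAt ℝ μ v)
    (hns : ¬ StrictConvex ℝ {v : ℝ × ℝ | μ v ≤ 1}) : Nonempty (FlatData μ) := by
  -- a chord touching the sphere
  have h1 : ∃ x y : ℝ × ℝ, μ x ≤ 1 ∧ μ y ≤ 1 ∧ x ≠ y ∧ ∃ s t : ℝ, 0 < s ∧ 0 < t ∧ s + t = 1 ∧
      1 ≤ μ (s • x + t • y) := by
    unfold StrictConvex Set.Pairwise at hns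
    push Not at hns
    obtain ⟨x, hx, y, hy, hxy, s, t, hs, ht, hst, hnot⟩ := hns
    refine ⟨x, y, hx, hy, hxy, s, t, hs, ht, hst, ?_⟩
    by_contra hcon
    push Not at hcon
    exact hnot (h.interior_subset hcon)
  obtain ⟨x, y, hx, hy, hxy, s, t, hs, ht, hst, hz⟩ := h1
  set z := s • x + t • y with hzdef
  have hz1 : μ z = 1 := by
    apply le_antisymm _ hz
    calc μ z ≤ μ (s • x) + μ (t • y) := h.add _ _
      _ = s * μ x + t * μ y := by rw [h.smul s x hs.le, h.smul t y ht.le]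
      _ ≤ s * 1 + t * 1 := by gcongr
      _ = 1 := by linarith
  have hz0 : z ≠ 0 := by
    intro h0
    rw [h0, h.zero] at hz1
    norm_num at hz1
  set ρ := fderiv ℝ μ z with hρ
  have hρle : ∀ v, ρ v ≤ μ v := fun v => h.fderiv_le (hd z hz0) v
  have hρz : ρ z = 1 := by rw [hρ, h.fderiv_self (hd z hz0), hz1]
  have hρxy : s * ρ x + t * ρ y = 1 := by
    have := hρz
    rw [hzdef, map_add, map_smul, map_smul] at this
    simpa using this
  have hx1 : ρ x = 1 := by
    apply le_antisymm ((hρle x).trans hx)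
    have := (hρle y).trans hy
    nlinarith
  have hy1 : ρ y = 1 := by
    apply le_antisymm ((hρle y).trans hy)
    have := (hρle x).trans hx
    nlinarith
  -- the interval
  set w := y - x with hw
  have hw0 : w ≠ 0 := sub_ne_zero.mpr (Ne.symm hxy)
  have hρw : ρ w = 0 := by rw [hw, map_sub, hx1, hy1, sub_self]
  set g : ℝ → ℝ := fun τ => μ (x + τ • w) with hg
  have hgc : Continuous g := h.continuous.comp (by fun_prop)
  have hρg : ∀ τ : ℝ, ρ (x + τ • w) = 1 := by
    intro τ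
    rw [map_add, map_smul, hρw, hx1]; simp
  have hg1 : ∀ τ, 1 ≤ g τ := by
    intro τ
    rw [← hρg τ]
    exact hρle _
  set I : Set ℝ := {τ | g τ ≤ 1} with hI
  have hIclosed : IsClosed I := isClosed_le hgc continuous_const
  have h0I : (0 : ℝ) ∈ I := by simp [hI, hg, hx]
  have h1I : (1 : ℝ) ∈ I := by simp [hI, hg, hw, hy]
  have hIconv : Convex ℝ I := by
    intro τ1 h1 τ2 h2 p q hp hq hpq
    simp only [hI, hg, Set.mem_ofPred_eq] at h1 h2 ⊢
    have e : x + (p • τ1 + q • τ2) • w = p • (x + τ1 • w) + q • (x + τ2 • w) := by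
      have : x = p • x + q • x := by rw [← add_smul, hpq, one_smul]
      conv_lhs => rw [this]
      simp only [smul_eq_mul, add_smul, smul_add, smul_smul]
      abel
    rw [e]
    calc μ _ ≤ μ (p • (x + τ1 • w)) + μ (q • (x + τ2 • w)) := h.add _ _
      _ = p * μ (x + τ1 • w) + q * μ (x + τ2 • w) := by rw [h.smul p _ hp, h.smul q _ hq]
      _ ≤ p * 1 + q * 1 := by gcongr
      _ = 1 := by linarith
  have hIbdd : ∃ R : ℝ, ∀ τ ∈ I, |τ| ≤ R := by
    have hwpos := h.pos hw0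
    refine ⟨(1 + μ x) / μ w, fun τ hτ => ?_⟩
    rw [le_div_iff₀ hwpos]
    have h1 : μ (τ • w) ≤ μ (x + τ • w) + μ x := by
      have := h.add (x + τ • w) (-x)
      rw [h.neg] at this
      simpa using this
    have h2 : μ (τ • w) = |τ| * μ w := by
      rcases le_total 0 τ with h0 | h0
      · rw [h.smul τ w h0, abs_of_nonneg h0]
      · rw [← h.neg, ← neg_smul, h.smul _ w (by linarith), abs_of_nonpos h0]
    rw [← h2]
    have : g τ ≤ 1 := hτ
    simp only [hg] at this
    linarith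
  obtain ⟨R, hR⟩ := hIbdd
  have hIcomp : IsCompact I :=
    Metric.isCompact_of_isClosed_isBounded hIclosed
      ((Metric.isBounded_Icc (-R) R).subset fun τ hτ => abs_le.mp (hR τ hτ))
  obtain ⟨t1, ht1I, ht1⟩ := hIcomp.exists_isLeast ⟨0, h0I⟩
  obtain ⟨t2, ht2I, ht2⟩ := hIcomp.exists_isGreatest ⟨0, h0I⟩
  have ht1le : t1 ≤ 0 := ht1 h0I
  have ht2ge : 1 ≤ t2 := ht2 h1I
  set a := x + t1 • w with ha
  set b := x + t2 • w with hb
  have hμa : μ a = 1 := le_antisymm ht1I (hg1 t1)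
  have hμb : μ b = 1 := le_antisymm ht2I (hg1 t2)
  have hρa : ρ a = 1 := hρg t1
  have hρb : ρ b = 1 := hρg t2
  have ha0 : a ≠ 0 := by
    intro h0
    rw [h0, h.zero] at hμa
    norm_num at hμa
  have hb0 : b ≠ 0 := by
    intro h0
    rw [h0, h.zero] at hμb
    norm_num at hμb
  have hab : a ≠ b := by
    intro h0
    have : (t2 - t1) • w = 0 := by
      rw [sub_smul]
      have := sub_eq_zero.mpr h0.symm
      rw [ha, hb] at this
      simpa using this
    rcases smul_eq_zero.mp this with h1 | h1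
    · linarith
    · exact hw0 h1
  have hdet : a.1 * b.2 - a.2 * b.1 ≠ 0 := by
    intro h0
    -- a and b are proportional, both with `ρ = 1`
    have h1 : b.1 • a = a.1 • b := by
      apply Prod.ext
      · simp only [Prod.smul_fst, smul_eq_mul]; ring
      · simp only [Prod.smul_snd, smul_eq_mul]; linarith
    have h2 : b.2 • a = a.2 • b := by
      apply Prod.ext
      · simp only [Prod.smul_fst, smul_eq_mul]; linarith
      · simp only [Prod.smul_snd, smul_eq_mul]; ring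
    have h3 := congrArg ρ h1
    have h4 := congrArg ρ h2
    rw [map_smul, map_smul, hρa, hρb] at h3 h4
    simp only [smul_eq_mul, mul_one] at h3 h4
    exact hab (Prod.ext h3.symm h4.symm)
  -- strict positivity beyond the ends
  have key : ∀ (p q : ℝ × ℝ), (ρ p = 1) → (ρ q = 1) → p ≠ q → (p ≠ 0) →
      (∀ σ : ℝ, 0 < σ → σ < 1 → ρ (p - σ • q) < μ (p - σ • q)) →
      (∀ σ : ℝ, 0 < σ → ρ (p - σ • q) < μ (p - σ • q)) := by
    intro p q hp hq hpq _ hlt σ hσ
    by_cases h1 : σ < 1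
    · exact hlt σ hσ h1
    · push Not at h1
      have e : ρ (p - σ • q) = 1 - σ := by
        rw [map_sub, map_smul, hp, hq]; simp
      have hne : p - σ • q ≠ 0 := by
        intro h0
        have : ρ (p - σ • q) = 0 := by rw [h0, map_zero]
        rw [e] at this
        have hs1 : σ = 1 := by linarith
        rw [hs1, one_smul] at h0
        exact hpq (sub_eq_zero.mp h0)
      have := h.pos hne
      rw [e]
      linarith
  have hba : ∀ σ : ℝ, 0 < σ → ρ (b - σ • a) < μ (b - σ • a) := by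
    apply key b a hρb hρa (Ne.symm hab) hb0
    intro σ hσ hσ1
    have hpos : 0 < 1 - σ := by linarith
    set τ := (t2 - σ * t1) / (1 - σ) with hτ
    have hτgt : t2 < τ := by
      rw [hτ, lt_div_iff₀ hpos]
      nlinarith
    have e : b - σ • a = (1 - σ) • (x + τ • w) := by
      have h5 : (1 - σ) * τ = t2 - σ * t1 := by rw [hτ, mul_div_cancel₀ _ hpos.ne']
      rw [ha, hb, smul_add (1 - σ), smul_smul (1 - σ), h5, sub_smul, sub_smul,
        one_smul, smul_add, smul_smul]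
      abel
    rw [e, map_smul, h.smul _ _ hpos.le, hρg]
    have hnot : τ ∉ I := fun hin => absurd (ht2 hin) (not_le.mpr hτgt)
    have hgt : 1 < μ (x + τ • w) := by
      by_contra hcon
      exact hnot (not_lt.mp hcon)
    simp only [smul_eq_mul]
    nlinarith
  have hab' : ∀ σ : ℝ, 0 < σ → ρ (a - σ • b) < μ (a - σ • b) := by
    apply key a b hρa hρb hab ha0
    intro σ hσ hσ1
    have hpos : 0 < 1 - σ := by linarith
    set τ := (t1 - σ * t2) / (1 - σ) with hτ
    have hτlt : τ < t1 := by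
      rw [hτ, div_lt_iff₀ hpos]
      nlinarith
    have e : a - σ • b = (1 - σ) • (x + τ • w) := by
      have h5 : (1 - σ) * τ = t1 - σ * t2 := by rw [hτ, mul_div_cancel₀ _ hpos.ne']
      rw [ha, hb, smul_add (1 - σ), smul_smul (1 - σ), h5, sub_smul, sub_smul,
        one_smul, smul_add, smul_smul]
      abel
    rw [e, map_smul, h.smul _ _ hpos.le, hρg]
    have hnot : τ ∉ I := fun hin => absurd (ht1 hin) (not_le.mpr hτlt)
    have hgt : 1 < μ (x + τ • w) := by
      by_contra hcon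
      exact hnot (not_lt.mp hcon)
    simp only [smul_eq_mul]
    nlinarith
  exact ⟨{
    a := a
    b := b
    ρ := ρ
    det_ne := hdet
    ρ_le := hρle
    μ_a := hμa
    μ_b := hμb
    ρ_a := hρa
    ρ_b := hρb
    pos_ba := hba
    pos_ab := hab'
    lim_ba := h.lim_of_contact hρle (by rw [hρb, hμb]) (hd b hb0) a
    lim_ab := h.lim_of_contact hρle (by rw [hρa, hμa]) (hd a ha0) b }⟩

end exist

end Crest.Agent.R151.B710
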