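import Crest.Prelude.Def_PlanarFPP
import Crest.Agent.R151.B710

/-!
# R151 / S0214 part 2: top reduction (helper710)

If no flat data exist for the time constant of the rate one exponential weights, then the second
half of S0214 holds at every rate.
-/

set_option autoImplicit false

namespace Crest.Agent.R151.B710

open Filter Topology Set MeasureTheory ProbabilityTheory
open Crest.ProbabilityR.FirstPassage

/-- the hypothesis of S0214 -/
def IsTimeConstant (κ r : ℝ) (μ : ℝ × ℝ → ℝ) : Prop :=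
  ∀ v : ℝ × ℝ, ∀ᵐ t ∂(iidLaw (gammaMeasure κ r)),
      Tendsto (fun s : ℝ => passageTime t (0, 0) (⌊s * v.1⌋, ⌊s * v.2⌋) / s)
        atTop (nhds (μ v))

lemma map_exp (r : ℝ) (hr : 0 < r) :
    Measure.map (fun x : ℝ => r * x) (gammaMeasure 1 r) = gammaMeasure 1 1 := by
  have : IsProbabilityMeasure (gammaMeasure 1 r) :=
    isProbabilityMeasure_gammaMeasure one_pos hr
  have : IsProbabilityMeasure (gammaMeasure 1 1) :=
    isProbabilityMeasure_gammaMeasure one_pos one_pos
  have : IsProbabilityMeasure (Measure.map (fun x : ℝ => r * x) (gammaMeasure 1 r)) :=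
    Measure.isProbabilityMeasure_map (by fun_prop)
  apply Measure.eq_of_cdf
  ext x
  have h1 : cdf (gammaMeasure 1 1) x = if 0 ≤ x then 1 - Real.exp (-(1 * x)) else 0 :=
    cdf_expMeasure_eq one_pos x
  have h2 : cdf (gammaMeasure 1 r) (x / r) = if 0 ≤ x / r then 1 - Real.exp (-(r * (x / r))) else 0 :=
    cdf_expMeasure_eq hr (x / r)
  rw [h1]
  have h3 : cdf (Measure.map (fun x : ℝ => r * x) (gammaMeasure 1 r)) x
      = cdf (gammaMeasure 1 r) (x / r) := by
    rw [cdf_eq_real, cdf_eq_real, measureReal_def, measureReal_def,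
      Measure.map_apply (by fun_prop) measurableSet_Iic]
    congr 2
    ext y
    simp only [mem_preimage, mem_Iic]
    rw [le_div_iff₀ hr, mul_comm]
  rw [h3, h2, mul_div_cancel₀ _ hr.ne', one_mul]
  have h4 : (0 ≤ x / r) ↔ (0 ≤ x) := by
    rw [le_div_iff₀ hr, zero_mul]
  simp only [h4]

lemma map_iidLaw (r : ℝ) (hr : 0 < r) :
    Measure.map (fun (t : Environment) e => r * t e) (iidLaw (gammaMeasure 1 r))
      = iidLaw (gammaMeasure 1 1) := by
  have : IsProbabilityMeasure (gammaMeasure 1 r) :=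
    isProbabilityMeasure_gammaMeasure one_pos hr
  unfold iidLaw
  rw [Measure.infinitePi_map_pi (fun _ : Sym2 (ℤ × ℤ) => gammaMeasure 1 r)
    (f := fun _ x => r * x) (fun _ => by fun_prop)]
  simp only [map_exp r hr]

lemma walkCost_mul (r : ℝ) (t : Environment) {x y : ℤ × ℤ} (w : squareLattice.Walk x y) :
    walkCost (fun e => r * t e) w = r * walkCost t w := by
  unfold walkCost
  rw [← List.sum_map_mul_left]

lemma passageTime_mul (r : ℝ) (hr : 0 ≤ r) (t : Environment) (x y : ℤ × ℤ) :
    passageTime (fun e => r * t e) x y = r * passageTime t x y := by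
  unfold passageTime
  rw [Real.mul_iInf_of_nonneg hr]
  simp only [walkCost_mul]

lemma IsTimeConstant.scale {r : ℝ} (hr : 0 < r) {μ : ℝ × ℝ → ℝ} (h : IsTimeConstant 1 r μ) :
    IsTimeConstant 1 1 (fun v => r * μ v) := by
  intro v
  rw [← map_iidLaw r hr]
  -- pull back along a measurable equivalence
  let E : Environment ≃ᵐ Environment := MeasurableEquiv.piCongrRight fun _ : Sym2 (ℤ × ℤ) =>
    (Homeomorph.mulLeft₀ r hr.ne').toMeasurableEquiv
  have hE : (fun (t : Environment) e => r * t e) = ⇑E := by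
    funext t e
    rfl
  rw [hE, E.measurableEmbedding.ae_map_iff, ← hE]
  filter_upwards [h v] with t ht
  simp only [passageTime_mul r hr.le]
  have := ht.const_mul r
  refine this.congr fun s => ?_
  rw [mul_div_assoc]

/-- **Top reduction**: no flat data at rate one implies the second half of S0214. -/
theorem strictConvex_of_noFlat
    (hnf : ∀ μ : ℝ × ℝ → ℝ, IsTimeConstant 1 1 μ → NormLike μ → FlatData μ → False)
    {r : ℝ} (hr : 0 < r) {μ : ℝ × ℝ → ℝ} (h : IsTimeConstant 1 r μ) (hn : NormLike μ)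
    (hd : ∀ v : ℝ × ℝ, v ≠ 0 → DifferentiableAt ℝ μ v) :
    StrictConvex ℝ {v : ℝ × ℝ | μ v ≤ 1} := by
  have h1 : StrictConvex ℝ {v : ℝ × ℝ | r * μ v ≤ 1} := by
    by_contra hcon
    obtain ⟨F⟩ := exists_flatData (hn.mul_left hr)
      (fun v hv => (hd v hv).const_mul r) hcon
    exact hnf _ (h.scale hr) (hn.mul_left hr) F
  have h2 : {v : ℝ × ℝ | μ v ≤ 1} = (fun v : ℝ × ℝ => r • v) '' {v : ℝ × ℝ | r * μ v ≤ 1} := by
    ext v
    simp only [Set.mem_ofPred_eq, mem_image]
    constructor
    · intro hv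
      refine ⟨r⁻¹ • v, ?_, by rw [smul_smul, mul_inv_cancel₀ hr.ne', one_smul]⟩
      rw [hn.smul _ _ (by positivity), ← mul_assoc, mul_inv_cancel₀ hr.ne', one_mul]
      exact hv
    · rintro ⟨w, hw, rfl⟩
      rw [hn.smul _ _ hr.le]
      exact hw
  rw [h2]
  exact h1.smul r

end Crest.Agent.R151.B710
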