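import Mathlib
import Crest.Agent.R151.B906d

/-!
# R151, block BUS, part e (helper906): properties of the line functions `f0 G s`

Everything from `LimAt G s c` (`B906d`):
`anti`, `bound`, `cov`, `strip`, `slope` (Birkhoff), `conv`, `slopeR`, `slopeL` (763's `LineFns`).
-/

set_option autoImplicit false
set_option linter.unusedSectionVars false

open MeasureTheory Filter ProbabilityTheory Topology
open Crest.ProbabilityR.FirstPassage
open Crest.Agent.R151.K

namespace Crest.Agent.R151.BUS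

variable {G : Measure ℝ} [IsProbabilityMeasure G] {s c s' c' : ℝ}

theorem LimAt.lim0 (h : LimAt G s c) : ∀ᵐ t ∂(iidLaw G), ∀ x : ℤ,
    Tendsto (fun j => D t (sub G s j) ⌊s * (sub G s j : ℝ)⌋ x) atTop (𝓝 (DF G s x t)) := by
  filter_upwards [h.lim] with t ht x
  simpa using ht 0 x

/-- monotonicity in the direction -/
theorem LimAt.anti (h0 : G (Set.Iio 0) = 0) (h : LimAt G s c) (h' : LimAt G s' c')
    (hss : s ≤ s') : ∀ᵐ t ∂(iidLaw G), ∀ x, DF G s' x t ≤ DF G s x t := by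
  rw [ae_all_iff]
  intro x
  have key : ∫⁻ t, ENNReal.ofReal (DF G s' x t - DF G s x t) ∂(iidLaw G) = 0 := by
    have h1 := (h.L1 0 x).add (h'.L1 0 x)
    rw [add_zero] at h1
    refine le_antisymm ?_ zero_le
    refine ge_of_tendsto' h1 fun N => ?_
    have hm : Measurable fun t => ‖D t N (⌊s * (N : ℝ)⌋ + 0) x - DF G s x t‖ₑ :=
      ((mble_D _ _ _).sub (measurable_DF G s x)).enorm
    rw [← lintegral_add_left hm]
    refine lintegral_mono_ae ?_
    filter_upwards [K.ae_Nn (G := G) h0] with t ht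
    have hN : (0 : ℤ) ≤ N := by positivity
    have hfl : ⌊s * (N : ℝ)⌋ + 0 ≤ ⌊s' * (N : ℝ)⌋ + 0 := by
      have : ⌊s * (N : ℝ)⌋ ≤ ⌊s' * (N : ℝ)⌋ := Int.floor_le_floor (by gcongr)
      omega
    have h2 := D_anti (x := x) ht hN hfl
    rw [← ofReal_norm, ← ofReal_norm, ← ENNReal.ofReal_add (norm_nonneg _)
      (norm_nonneg _)]
    refine ENNReal.ofReal_le_ofReal ?_
    have h3 := le_abs_self (D t N (⌊s * (N : ℝ)⌋ + 0) x - DF G s x t)
    have h4 := neg_abs_le (D t N (⌊s' * (N : ℝ)⌋ + 0) x - DF G s' x t)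
    rw [Real.norm_eq_abs, Real.norm_eq_abs]
    linarith
  have hm : Measurable fun t => ENNReal.ofReal (DF G s' x t - DF G s x t) :=
    ((measurable_DF G s' x).sub (measurable_DF G s x)).ennreal_ofReal
  rw [lintegral_eq_zero_iff hm] at key
  filter_upwards [key] with t ht
  have : ENNReal.ofReal (DF G s' x t - DF G s x t) = 0 := ht
  rw [ENNReal.ofReal_eq_zero] at this
  linarith

theorem LimAt.integral_abs_sub (h0 : G (Set.Iio 0) = 0) (h : LimAt G s c) (h' : LimAt G s' c')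
    (hss : s ≤ s') (x : ℤ) : ∫ t, |DF G s x t - DF G s' x t| ∂(iidLaw G) = c - c' := by
  have h1 : (fun t => |DF G s x t - DF G s' x t|) =ᵐ[iidLaw G]
      fun t => DF G s x t - DF G s' x t := by
    filter_upwards [LimAt.anti h0 h h' hss] with t ht
    rw [abs_of_nonneg (sub_nonneg.2 (ht x))]
  rw [integral_congr_ae h1, integral_sub (h.int x) (h'.int x), h.mean, h'.mean]

/-- bound by the boundary passage time -/
theorem LimAt.bound (h0 : G (Set.Iio 0) = 0) (h : LimAt G s c) :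
    ∀ᵐ t ∂(iidLaw G), ∀ x, |DF G s x t| ≤ pR t Hp (x, 0) (x + 1, 0) := by
  filter_upwards [h.lim0, K.ae_Nn (G := G) h0] with t ht hn x
  refine le_of_forall_pos_le_add fun ε hε => ?_
  obtain ⟨M, hM⟩ := SL9.exists_pt_strip_le (t := t) hn (k := 0) (x := (x, 0)) (y := (x + 1, 0))
    le_rfl le_rfl hε
  have e1 : pR t Hp (x, 0) (x + 1, 0) = pt (reg (SL9.half 0)) t (x, 0) (x + 1, 0) :=
    pR_eq_pt (R := Hp) (show (0 : ℤ) ≤ 0 from le_rfl) t
  rw [e1]
  refine le_of_tendsto (ht x).abs ?_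
  filter_upwards [h.sub_mono.tendsto_atTop.eventually_ge_atTop M.toNat] with j hj
  have hj0 : (0 : ℤ) ≤ (sub G s j : ℤ) := by positivity
  refine (abs_D_le hn hj0).trans ?_
  have e2 : pR t (St 0 (sub G s j)) (x, 0) (x + 1, 0) =
      pt (reg (SL9.strip 0 (sub G s j))) t (x, 0) (x + 1, 0) :=
    pR_eq_pt (R := St 0 (sub G s j)) (zero_mem_St hj0) t
  rw [e2]
  exact hM _ (by omega)

/-- horizontal covariance -/
theorem LimAt.cov (h : LimAt G s c) : ∀ᵐ t ∂(iidLaw G), ∀ a x : ℤ,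
    DF G s x (A.shift (a, 0) t) = DF G s (x + a) t := by
  rw [ae_all_iff]
  intro a
  filter_upwards [h.lim, (A.mp_shift G (a, 0)).quasiMeasurePreserving.ae h.lim0] with t h1 h2 x
  refine tendsto_nhds_unique (h2 x) ((h1 a (x + a)).congr fun j => ?_)
  rw [D_hshift]

theorem LimAt.tendsto_f (h : LimAt G s c) : ∀ᵐ t ∂(iidLaw G), ∀ x : ℤ,
    Tendsto (fun j => f t (sub G s j) ⌊s * (sub G s j : ℝ)⌋ x -
      f t (sub G s j) ⌊s * (sub G s j : ℝ)⌋ 0) atTop (𝓝 (f0 G s t x)) := by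
  filter_upwards [h.lim0] with t ht
  exact (tendsto_LF (φ := sub G s) (s := s) fun x => ⟨_, ht x⟩).1

/-- `906A`'s strip limit, level `0` -/
theorem LimAt.strip (h : LimAt G s c) : ∀ᵐ t ∂(iidLaw G),
    SL9.StripLim t 0 (fun j => (sub G s j : ℤ)) (fun j => ⌊s * (sub G s j : ℝ)⌋) (f0 G s t) := by
  filter_upwards [h.tendsto_f] with t ht
  refine ⟨Eventually.of_forall fun j => by positivity, fun x y => ?_⟩
  refine ((ht x).sub (ht y)).congr fun j => ?_
  rw [← f_sub_eq_sdiff t (by positivity) ⌊s * (sub G s j : ℝ)⌋ x y]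
  ring

/-! ### slopes -/

theorem shift_iter (z : ℤ × ℤ) (n : ℕ) (t : Environment) :
    (A.shift z)^[n] t = A.shift (n • z) t := by
  induction n with
  | zero => simp
  | succ n ih =>
    rw [Function.iterate_succ_apply', ih, A.shift_shift, succ_nsmul']

theorem sum_inc_neg906 (g : ℤ → ℝ) (n : ℕ) :
    ∑ i ∈ Finset.range n, H.inc g (-1 - i) = g 0 - g (-n) := by
  induction n with
  | zero => simp
  | succ n ih =>
    rw [Finset.sum_range_succ, ih]
    unfold H.inc
    push_cast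
    rw [show (-1 - (n : ℤ) + 1) = -n by ring, show (-1 - (n : ℤ)) = -(n + 1) by ring]
    ring

theorem LimAt.slope_top (h : LimAt G s c) : ∀ᵐ t ∂(iidLaw G),
    Tendsto (fun n : ℕ => f0 G s t n / n) atTop (𝓝 c) := by
  have hb := R88.birkhoff_real (ergodic_shift (G := G) (z := (1, 0)) (by simp))
    (measurable_DF G s 0) (h.int 0)
  filter_upwards [hb, h.cov] with t ht hc
  rw [h.mean] at ht
  refine ht.congr fun n => ?_
  rw [birkhoffSum, inv_mul_eq_div]
  congr 1
  have h1 : ∀ i ∈ Finset.range n, DF G s 0 ((A.shift (1, 0))^[i] t) =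
      H.inc (f0 G s t) ((0 : ℤ) + i) := by
    intro i _
    rw [shift_iter]
    have : (i • (1, 0) : ℤ × ℤ) = ((i : ℤ), 0) := by ext <;> simp
    rw [this, hc i 0]
    rfl
  rw [Finset.sum_congr rfl h1, H.sum_inc, f0_zero]
  simp

theorem LimAt.slope_bot (h : LimAt G s c) : ∀ᵐ t ∂(iidLaw G),
    Tendsto (fun n : ℕ => f0 G s t (-n) / n) atTop (𝓝 (-c)) := by
  have hb := R88.birkhoff_real (ergodic_shift (G := G) (z := (-1, 0)) (by simp))
    (measurable_DF G s (-1)) (h.int (-1))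
  filter_upwards [hb, h.cov] with t ht hc
  rw [h.mean] at ht
  refine ht.neg.congr fun n => ?_
  rw [birkhoffSum, inv_mul_eq_div, ← neg_div]
  congr 1
  have h1 : ∀ i ∈ Finset.range n, DF G s (-1) ((A.shift (-1, 0))^[i] t) =
      H.inc (f0 G s t) (-1 - i) := by
    intro i _
    rw [shift_iter]
    have : (i • (-1, 0) : ℤ × ℤ) = (-(i : ℤ), 0) := by ext <;> simp
    rw [this, hc (-i) (-1)]
    rfl
  rw [Finset.sum_congr rfl h1, sum_inc_neg906, f0_zero]
  ring

theorem hasSlope_of_nat {g : ℤ → ℝ} {c : ℝ} (h1 : Tendsto (fun n : ℕ => g n / n) atTop (𝓝 c))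
    (h2 : Tendsto (fun n : ℕ => g (-n) / n) atTop (𝓝 (-c))) : H.HasSlope g c := by
  constructor
  · have hN : Tendsto Int.toNat atTop atTop := by
      rw [tendsto_atTop]
      intro b
      filter_upwards [eventually_ge_atTop (b : ℤ)] with x hx
      omega
    refine (h1.comp hN).congr' ?_
    filter_upwards [eventually_ge_atTop (0 : ℤ)] with x hx
    have : ((x.toNat : ℕ) : ℤ) = x := Int.toNat_of_nonneg hx
    have h' : ((x.toNat : ℕ) : ℝ) = x := by exact_mod_cast congrArg (Int.cast : ℤ → ℝ) this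
    simp only [Function.comp_apply]
    rw [h', this]
  · have hN : Tendsto (fun x : ℤ => (-x).toNat) atBot atTop := by
      rw [tendsto_atTop]
      intro b
      filter_upwards [eventually_le_atBot (-(b : ℤ))] with x hx
      omega
    have h3 := (h2.comp hN).neg
    rw [neg_neg] at h3
    refine h3.congr' ?_
    filter_upwards [eventually_le_atBot (0 : ℤ)] with x hx
    have : (((-x).toNat : ℕ) : ℤ) = -x := Int.toNat_of_nonneg (by omega)
    have h' : (((-x).toNat : ℕ) : ℝ) = -x := by exact_mod_cast congrArg (Int.cast : ℤ → ℝ) this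
    simp only [Function.comp_apply]
    rw [h', this, neg_neg, div_neg, neg_neg]

/-- the two-sided slope -/
theorem LimAt.slope (h : LimAt G s c) : ∀ᵐ t ∂(iidLaw G), H.HasSlope (f0 G s t) c := by
  filter_upwards [h.slope_top, h.slope_bot] with t h1 h2
  exact hasSlope_of_nat h1 h2

/-! ### convergence in probability (763's `LineFns`) -/

theorem LimAt.L1_seq (h : LimAt G s c) (C : ℤ) (z : ℕ → ℤ)
    (hz : ∀ N : ℕ, |z N - ⌊s * (N : ℝ)⌋| ≤ C) (x : ℤ) :
    Tendsto (fun N : ℕ => ∫⁻ t, ‖D t N (z N) x - DF G s x t‖ₑ ∂(iidLaw G)) atTop (𝓝 0) := by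
  have h1 : Tendsto (fun N : ℕ => ∑ k ∈ Finset.Icc (-C) C,
      ∫⁻ t, ‖D t N (⌊s * (N : ℝ)⌋ + k) x - DF G s x t‖ₑ ∂(iidLaw G)) atTop (𝓝 0) := by
    have := tendsto_finsetSum (Finset.Icc (-C) C) fun k _ => h.L1 k x
    simpa using this
  refine tendsto_of_tendsto_of_tendsto_of_le_of_le tendsto_const_nhds h1 (fun _ => zero_le)
    fun N => ?_
  have h2 := hz N
  rw [abs_le] at h2
  have hmem : z N - ⌊s * (N : ℝ)⌋ ∈ Finset.Icc (-C) C := Finset.mem_Icc.2 h2
  refine le_trans (le_of_eq ?_) (Finset.single_le_sum (f := fun k : ℤ =>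
    ∫⁻ t, ‖D t N (⌊s * (N : ℝ)⌋ + k) x - DF G s x t‖ₑ ∂(iidLaw G)) (fun _ _ => zero_le) hmem)
  simp only [add_sub_cancel]

theorem LimAt.L1_f (h : LimAt G s c) (C : ℤ) (z : ℕ → ℤ)
    (hz : ∀ N : ℕ, |z N - ⌊s * (N : ℝ)⌋| ≤ C) (x : ℤ) :
    Tendsto (fun N : ℕ => ∫⁻ t, ‖(f t N (z N) x - f t N (z N) 0) - f0 G s t x‖ₑ ∂(iidLaw G))
      atTop (𝓝 0) := by
  have hm : ∀ (N : ℕ) (x : ℤ), Measurable fun t =>
      ‖(f t N (z N) x - f t N (z N) 0) - f0 G s t x‖ₑ := fun N x =>
    (((mble_f _ _ _).sub (mble_f _ _ _)).sub (measurable_f0 G s x)).enorm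
  induction x using Int.induction_on with
  | zero => simp [f0_zero]
  | succ i ih =>
    have h1 := ih.add (h.L1_seq C z hz i)
    rw [add_zero] at h1
    refine tendsto_of_tendsto_of_tendsto_of_le_of_le tendsto_const_nhds h1 (fun _ => zero_le)
      fun N => ?_
    simp only
    rw [← lintegral_add_left (hm N i)]
    refine lintegral_mono fun t => ?_
    refine le_trans (le_of_eq ?_) (enorm_add_le _ _)
    congr 1
    unfold D DF H.inc
    ring
  | pred i ih =>
    have h1 := ih.add (h.L1_seq C z hz (-i - 1))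
    rw [add_zero] at h1
    refine tendsto_of_tendsto_of_tendsto_of_le_of_le tendsto_const_nhds h1 (fun _ => zero_le)
      fun N => ?_
    simp only
    rw [← lintegral_add_left (hm N (-i))]
    refine lintegral_mono fun t => ?_
    rw [← enorm_neg (D t N (z N) (-i - 1) - DF G s (-i - 1) t)]
    refine le_trans (le_of_eq ?_) (enorm_add_le _ _)
    congr 1
    unfold D DF H.inc
    rw [show -(i : ℤ) - 1 + 1 = -i by ring]
    ring

theorem gl_eq_f (N : ℕ) (b : ℤ) (t : Environment) (x : ℤ) :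
    LIN.gl 0 N b t x = f t N b x - f t N b 0 := rfl

/-- `LineFns.conv` -/
theorem LimAt.conv (h : LimAt G s c) (C : ℤ) (z : ℕ → ℤ)
    (hz : ∀ N : ℕ, |z N - ⌊s * (N : ℝ)⌋| ≤ C) (x : ℤ) (ε : ℝ) (hε : 0 < ε) :
    Tendsto (fun N : ℕ => (iidLaw G).real
      {t | ε ≤ |LIN.gl 0 N (z N) t x - (f0 G s t x - f0 G s t 0)|}) atTop (𝓝 0) := by
  have h1 := h.L1_f C z hz x
  have hm : ∀ (N : ℕ) (x : ℤ), Measurable fun t =>
      ‖(f t N (z N) x - f t N (z N) 0) - f0 G s t x‖ₑ := fun N x =>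
    (((mble_f _ _ _).sub (mble_f _ _ _)).sub (measurable_f0 G s x)).enorm
  have h2 : Tendsto (fun N : ℕ => (iidLaw G)
      {t | ε ≤ |LIN.gl 0 N (z N) t x - (f0 G s t x - f0 G s t 0)|}) atTop (𝓝 0) := by
    have h3 : Tendsto (fun N : ℕ => (∫⁻ t, ‖(f t N (z N) x - f t N (z N) 0) - f0 G s t x‖ₑ
        ∂(iidLaw G)) / ENNReal.ofReal ε) atTop (𝓝 (0 / ENNReal.ofReal ε)) :=
      ENNReal.Tendsto.div_const h1 (Or.inr (by simpa using hε))
    rw [ENNReal.zero_div] at h3
    refine tendsto_of_tendsto_of_tendsto_of_le_of_le tendsto_const_nhds h3 (fun _ => zero_le)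
      fun N => ?_
    have h4 := meas_ge_le_lintegral_div (μ := iidLaw G) (hm N x).aemeasurable
      (show ENNReal.ofReal ε ≠ 0 by simpa using hε) ENNReal.ofReal_ne_top
    refine le_trans (measure_mono fun t ht => ?_) h4
    simp only [Set.mem_ofPred_eq] at ht ⊢
    rw [gl_eq_f, f0_zero, sub_zero] at ht
    rw [← ofReal_norm]
    exact ENNReal.ofReal_le_ofReal ht
  have h5 := (ENNReal.tendsto_toReal ENNReal.zero_ne_top).comp h2
  simpa [Measure.real, Function.comp_def] using h5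

theorem LimAt.slopeR (h : LimAt G s c) :
    ∀ᵐ t ∂(iidLaw G), Tendsto (fun x : ℕ => f0 G s t x / x) atTop (𝓝 c) := h.slope_top

theorem LimAt.slopeL (h : LimAt G s c) :
    ∀ᵐ t ∂(iidLaw G), Tendsto (fun x : ℕ => f0 G s t (-x) / x) atTop (𝓝 (-c)) := h.slope_bot

end Crest.Agent.R151.BUS
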