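import Crest.Agent.R151.L763k
import Crest.Agent.R151.B906e
import Crest.Agent.R151.B469b

/-!
# R151/L763m — the system of line functions `Sys` from the outputs of the block BUS
(owner helper763)
-/

set_option autoImplicit false

open MeasureTheory Filter Topology
open Crest.ProbabilityR.FirstPassage

namespace Crest.Agent.R151.LIN

open K BUS D411 H

variable {G : Measure ℝ} [IsProbabilityMeasure G] {μ : ℝ × ℝ → ℝ} {m : ℝ}

lemma mu_axis_pos (h : SmoothNorm μ) : 0 < μ (1, 0) := h.norm.pos (by simp)

lemma blockRare_213 (I : Inp G m μ) (h : SmoothNorm μ) : W.BlockRare G (μ (1, 0)) := by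
  refine W.blockRare_of_shape I.mom.h0 I.hz (μ := μ) (fun L y hL => ?_) (fun ε hε => ?_)
  · have := h.axis_le (toR (L, y))
    have e : |(toR (L, y)).1| = (L : ℝ) := by
      simp only [toR]
      exact abs_of_nonneg (by exact_mod_cast hL)
    rwa [e] at this
  · exact I.mom.uniform_shape_prob I.tc (locCtl_of_law213 I.law) hε

/-- **the system of line functions exists** -/
theorem sys_f0 (I : Inp G m μ) (h : SmoothNorm μ) (hat : ∀ x, G {x} = 0)
    (hlim : ∀ s ∈ Dir μ, LimAt G s (-ph1 μ s)) (hloc : Loc G μ) : Sys G μ (f0 G) where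
  smooth := h
  h0 := I.mom.h0
  hat := hat
  hm := mu_axis_pos h
  rare := blockRare_213 I h
  line := lineFns_of_loc h I.mom.h0 (fun τ hτ C z hz x ε hε => (hlim τ hτ).conv C z hz x ε hε)
    (fun τ hτ => (hlim τ hτ).slopeR)
    (fun τ hτ => by have := (hlim τ hτ).slopeL; rwa [neg_neg] at this) hloc
  meas := ⟨fun τ x => measurable_f0 G τ x, fun τ t t' ht => f0_dep G τ ht⟩
  int := fun τ hτ x => (hlim τ hτ).int x
  mean := fun τ hτ x => (hlim τ hτ).mean x

end Crest.Agent.R151.LIN
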