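import Crest.Agent.R151.B469g
import Crest.Agent.R151.L763m

/-!
# R151, block BUS (helper906), part f: the system of line functions exists

`sys213` : the complete output of the blocks BUS and HLX for an atomless law.
-/

set_option autoImplicit false

open MeasureTheory Filter Topology ProbabilityTheory
open Crest.ProbabilityR.FirstPassage
open Crest.Agent.R151.K

namespace Crest.Agent.R151.BUS

variable {G : Measure ℝ} [IsProbabilityMeasure G] {m : ℝ} {μ : ℝ × ℝ → ℝ}

/-- the limit functions exist in every direction outside the axial facets -/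
theorem Inp.limAt (I : Inp G m μ) (h : D411.SmoothNorm μ) {s : ℝ} (hs : s ∈ LIN.Dir μ) :
    LimAt G s (-ph1 μ s) :=
  (I.cIn h).limAt hs

/-- **the system of line functions** -/
theorem Inp.sys (I : Inp G m μ) (h : D411.SmoothNorm μ) (hat : ∀ x, G {x} = 0) :
    LIN.Sys G μ (f0 G) :=
  LIN.sys_f0 I h hat (fun _ hs => I.limAt h hs) (I.locAll h)

/-- **the system of line functions**, from the data of S0213 -/
theorem sys213 (hG : M51.Law213 G) (hat : ∀ x, G {x} = 0) (hM : Mom G m) (hμ : IsTC1 G μ)
    (h : D411.SmoothNorm μ) : LIN.Sys G μ (f0 G) :=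
  Inp.sys ⟨hG, hat 0, hM, hμ⟩ h hat

end Crest.Agent.R151.BUS
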