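import Crest.Agent.R151.K1c

/-!
# R151 / S0214 part 2, module C1 (rate), deterministic part (helper710)

`e : ℤ² → ℝ≥0` subadditive, `e y ≤ C |y|`.  `Comb e u x c`: the real vector `u` is a conic
combination of two lattice vectors of size `≤ x`, of total `e`-cost `≤ c`.
-/

set_option autoImplicit false

namespace Crest.Agent.R151.C710

open Crest.Agent.R151.K Finset

/-! ### Carathéodory for conic combinations with a cost -/

/-- three vectors of the plane are linearly dependent -/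
lemma exists_dependence (v1 v2 v3 : ℝ × ℝ) :
    ∃ c1 c2 c3 : ℝ, (c1 ≠ 0 ∨ c2 ≠ 0 ∨ c3 ≠ 0) ∧ c1 • v1 + c2 • v2 + c3 • v3 = 0 := by
  by_cases h12 : v1.1 * v2.2 - v1.2 * v2.1 = 0
  · -- v1, v2 dependent
    by_cases h1 : v1 = 0
    · exact ⟨1, 0, 0, Or.inl one_ne_zero, by simp [h1]⟩
    · by_cases hx : v1.1 = 0
      · have hy : v1.2 ≠ 0 := fun hy => h1 (Prod.ext hx hy)
        refine ⟨v2.2, -v1.2, 0, Or.inr (Or.inl (neg_ne_zero.mpr hy)), ?_⟩
        apply Prod.ext
        · simp only [Prod.fst_add, Prod.smul_fst, smul_eq_mul, Prod.fst_zero]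
          rw [hx] at h12 ⊢
          linarith
        · simp only [Prod.snd_add, Prod.smul_snd, smul_eq_mul, Prod.snd_zero]; ring
      · refine ⟨v2.1, -v1.1, 0, Or.inr (Or.inl (neg_ne_zero.mpr hx)), ?_⟩
        apply Prod.ext
        · simp only [Prod.fst_add, Prod.smul_fst, smul_eq_mul, Prod.fst_zero]; ring
        · simp only [Prod.snd_add, Prod.smul_snd, smul_eq_mul, Prod.snd_zero]; linarith
  · refine ⟨v2.1 * v3.2 - v2.2 * v3.1, v3.1 * v1.2 - v3.2 * v1.1, v1.1 * v2.2 - v1.2 * v2.1,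
      Or.inr (Or.inr h12), ?_⟩
    apply Prod.ext
    · simp only [Prod.fst_add, Prod.smul_fst, smul_eq_mul, Prod.fst_zero]; ring
    · simp only [Prod.snd_add, Prod.smul_snd, smul_eq_mul, Prod.snd_zero]; ring

variable {ι : Type*} [DecidableEq ι]

/-- one reduction step -/
lemma reduce_step (s : Finset ι) (hs : 2 < s.card) (v : ι → ℝ × ℝ) (e : ι → ℝ)
    (he : ∀ i, 0 ≤ e i) (t : ι → ℝ) (ht : ∀ i, 0 ≤ t i) :
    ∃ i ∈ s, ∃ t' : ι → ℝ, (∀ i, 0 ≤ t' i) ∧ ∑ j ∈ s.erase i, t' j • v j = ∑ j ∈ s, t j • v j ∧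
      ∑ j ∈ s.erase i, t' j * e j ≤ ∑ j ∈ s, t j * e j := by
  classical
  obtain ⟨i1, i2, i3, h1, h2, h3, h12, h13, h23⟩ := Finset.two_lt_card_iff.mp hs
  obtain ⟨c1, c2, c3, hc, hdep⟩ := exists_dependence (v i1) (v i2) (v i3)
  -- the coefficient function of the dependence, with the right sign
  obtain ⟨c, hcv, hce, hneg⟩ : ∃ c : ι → ℝ, (∑ j ∈ s, c j • v j = 0) ∧ (∑ j ∈ s, c j * e j ≤ 0) ∧
      ∃ j ∈ s, c j < 0 := by
    set d : ι → ℝ := fun j => (if j = i1 then c1 else 0) + (if j = i2 then c2 else 0) +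
      (if j = i3 then c3 else 0) with hd
    have hdv : ∑ j ∈ s, d j • v j = 0 := by
      simp only [hd, add_smul, ite_smul, zero_smul, Finset.sum_add_distrib,
        Finset.sum_ite_eq', h1, h2, h3, if_true]
      exact hdep
    have hdne : ∃ j ∈ s, d j ≠ 0 := by
      rcases hc with hc | hc | hc
      · exact ⟨i1, h1, by simp [hd, h12, h13, hc]⟩
      · exact ⟨i2, h2, by simp [hd, Ne.symm h12, h23, hc]⟩
      · exact ⟨i3, h3, by simp [hd, Ne.symm h13, Ne.symm h23, hc]⟩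
    have key : ∀ d : ι → ℝ, (∑ j ∈ s, d j • v j = 0) → (∃ j ∈ s, d j ≠ 0) →
        (∑ j ∈ s, d j * e j ≤ 0) → ∃ c : ι → ℝ, (∑ j ∈ s, c j • v j = 0) ∧
          (∑ j ∈ s, c j * e j ≤ 0) ∧ ∃ j ∈ s, c j < 0 := by
      intro d hdv hdne hde
      by_cases hn : ∃ j ∈ s, d j < 0
      · exact ⟨d, hdv, hde, hn⟩
      · push Not at hn
        have h0 : ∑ j ∈ s, d j * e j = 0 :=
          le_antisymm hde (Finset.sum_nonneg fun j hj => mul_nonneg (hn j hj) (he j))
        obtain ⟨j, hj, hdj⟩ := hdne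
        refine ⟨fun j => - d j, ?_, ?_, j, hj, ?_⟩
        · simp only [neg_smul, Finset.sum_neg_distrib, hdv, neg_zero]
        · simp only [neg_mul, Finset.sum_neg_distrib, h0, neg_zero, le_refl]
        · have := lt_of_le_of_ne (hn j hj) (Ne.symm hdj)
          linarith
    rcases le_total (∑ j ∈ s, d j * e j) 0 with h0 | h0
    · exact key d hdv hdne h0
    · refine key (fun j => - d j) ?_ ?_ ?_
      · simp only [neg_smul, Finset.sum_neg_distrib, hdv, neg_zero]
      · obtain ⟨j, hj, hdj⟩ := hdne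
        exact ⟨j, hj, neg_ne_zero.mpr hdj⟩
      · simp only [neg_mul, Finset.sum_neg_distrib]
        linarith
  -- the first index to vanish
  set s' := s.filter fun j => c j < 0 with hs'
  have hs'ne : s'.Nonempty := by
    obtain ⟨j, hj, hcj⟩ := hneg
    exact ⟨j, Finset.mem_filter.mpr ⟨hj, hcj⟩⟩
  obtain ⟨i, hi, hmin⟩ := Finset.exists_min_image s' (fun j => t j / (- c j)) hs'ne
  obtain ⟨his, hci⟩ := Finset.mem_filter.mp hi
  set σ := t i / (- c i) with hσ
  have hσ0 : 0 ≤ σ := div_nonneg (ht i) (by linarith)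
  have hti : t i + σ * c i = 0 := by
    rw [hσ]; field_simp [hci.ne]; ring
  have hnn : ∀ j ∈ s, 0 ≤ t j + σ * c j := by
    intro j hj
    by_cases hcj : c j < 0
    · have := hmin j (Finset.mem_filter.mpr ⟨hj, hcj⟩)
      have h4 : σ ≤ t j / (- c j) := this
      rw [le_div_iff₀ (by linarith)] at h4
      linarith
    · push Not at hcj
      have := ht j
      positivity
  refine ⟨i, his, fun j => if j ∈ s then t j + σ * c j else 0, ?_, ?_, ?_⟩
  · intro j
    by_cases hj : j ∈ s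
    · simp only [hj, if_true]; exact hnn j hj
    · simp [hj]
  · have e1 : ∑ j ∈ s.erase i, (if j ∈ s then t j + σ * c j else 0) • v j
        = ∑ j ∈ s, (t j + σ * c j) • v j := by
      rw [← Finset.add_sum_erase s _ his, hti, zero_smul, zero_add]
      apply Finset.sum_congr rfl
      intro j hj
      rw [if_pos (Finset.mem_of_mem_erase hj)]
    rw [e1]
    simp only [add_smul, mul_smul, Finset.sum_add_distrib, ← Finset.smul_sum, hcv, smul_zero,
      add_zero]
  · have e1 : ∑ j ∈ s.erase i, (if j ∈ s then t j + σ * c j else 0) * e j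
        = ∑ j ∈ s, (t j + σ * c j) * e j := by
      rw [← Finset.add_sum_erase s _ his, hti, zero_mul, zero_add]
      apply Finset.sum_congr rfl
      intro j hj
      rw [if_pos (Finset.mem_of_mem_erase hj)]
    rw [e1]
    have e2 : ∑ j ∈ s, (t j + σ * c j) * e j = ∑ j ∈ s, t j * e j + σ * ∑ j ∈ s, c j * e j := by
      rw [Finset.mul_sum, ← Finset.sum_add_distrib]
      apply Finset.sum_congr rfl
      intro j _
      ring
    rw [e2]
    nlinarith

/-- **Conic Carathéodory with a cost**: two generators suffice. -/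
theorem conic_two (s : Finset ι) (hs : s.Nonempty) (v : ι → ℝ × ℝ) (e : ι → ℝ)
    (he : ∀ i, 0 ≤ e i) (t : ι → ℝ) (ht : ∀ i, 0 ≤ t i) :
    ∃ i ∈ s, ∃ j ∈ s, ∃ p q : ℝ, 0 ≤ p ∧ 0 ≤ q ∧ p • v i + q • v j = ∑ k ∈ s, t k • v k ∧
      p * e i + q * e j ≤ ∑ k ∈ s, t k * e k := by
  induction hn : s.card using Nat.strong_induction_on generalizing s t with
  | _ n ih =>
    by_cases hc : 2 < s.card
    · obtain ⟨i, hi, t', ht', h1, h2⟩ := reduce_step s hc v e he t ht
      have hcard : (s.erase i).card = s.card - 1 := Finset.card_erase_of_mem hi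
      have hne : (s.erase i).Nonempty := by
        rw [← Finset.card_pos]; omega
      obtain ⟨a, ha, b, hb, p, q, hp, hq, h3, h4⟩ :=
        ih (s.erase i).card (by omega) (s.erase i) hne t' ht' rfl
      exact ⟨a, Finset.mem_of_mem_erase ha, b, Finset.mem_of_mem_erase hb, p, q, hp, hq,
        h3.trans h1, h4.trans h2⟩
    · have hpos : 0 < s.card := Finset.card_pos.mpr hs
      have hc' : s.card = 1 ∨ s.card = 2 := by omega
      rcases hc' with h1 | h2
      · obtain ⟨i, rfl⟩ := Finset.card_eq_one.mp h1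
        exact ⟨i, by simp, i, by simp, t i, 0, ht i, le_rfl, by simp, by simp⟩
      · obtain ⟨i, j, hij, rfl⟩ := Finset.card_eq_two.mp h2
        refine ⟨i, by simp, j, by simp, t i, t j, ht i, ht j, ?_, ?_⟩
        · rw [Finset.sum_pair hij]
        · rw [Finset.sum_pair hij]

/-! ### The predicate `Comb` -/

/-- `u` is a conic combination of two lattice vectors of size `≤ x` with cost `≤ c` -/
def Comb (e : ℤ × ℤ → ℝ) (u : ℝ × ℝ) (x c : ℝ) : Prop :=
  ∃ y1 y2 : ℤ × ℤ, ∃ t1 t2 : ℝ, (n1 y1 : ℝ) ≤ x ∧ (n1 y2 : ℝ) ≤ x ∧ 0 ≤ t1 ∧ 0 ≤ t2 ∧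
    t1 • toR y1 + t2 • toR y2 = u ∧ t1 * e y1 + t2 * e y2 ≤ c

lemma Comb.mono {e : ℤ × ℤ → ℝ} {u : ℝ × ℝ} {x x' c c' : ℝ} (h : Comb e u x c) (hx : x ≤ x')
    (hc : c ≤ c') : Comb e u x' c' := by
  obtain ⟨y1, y2, t1, t2, h1, h2, h3, h4, h5, h6⟩ := h
  exact ⟨y1, y2, t1, t2, h1.trans hx, h2.trans hx, h3, h4, h5, h6.trans hc⟩

/-- the standing hypotheses on the excess `e` -/
structure Exc (e : ℤ × ℤ → ℝ) (C : ℝ) : Prop where
  nonneg : ∀ y, 0 ≤ e y
  add : ∀ y z, e (y + z) ≤ e y + e z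
  le : ∀ y, e y ≤ C * n1 y

namespace Exc

variable {e : ℤ × ℤ → ℝ} {C : ℝ} (h : Exc e C)
include h

lemma C_nonneg : 0 ≤ C := by
  have := (h.nonneg (1, 0)).trans (h.le (1, 0))
  simpa [n1] using this

lemma zero : e 0 = 0 := by
  apply le_antisymm _ (h.nonneg 0)
  simpa [n1] using h.le 0

lemma nsmul (k : ℕ) (y : ℤ × ℤ) : e (k • y) ≤ k * e y := by
  induction k with
  | zero => simp [h.zero]
  | succ k ih =>
    rw [succ_nsmul]
    refine (h.add _ _).trans ?_
    push_cast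
    linarith

end Exc

lemma toR_add' (x y : ℤ × ℤ) : toR (x + y) = toR x + toR y := by
  simp [toR]

lemma toR_sub' (x y : ℤ × ℤ) : toR (x - y) = toR x - toR y := by
  simp [toR]

lemma toR_nsmul (k : ℕ) (y : ℤ × ℤ) : toR (k • y) = (k : ℝ) • toR y := by
  simp [toR]

lemma toR_zero : toR 0 = 0 := by simp [toR]

lemma toR_sum {κ : Type*} (s : Finset κ) (f : κ → ℤ × ℤ) :
    toR (∑ i ∈ s, f i) = ∑ i ∈ s, toR (f i) := by
  classical
  induction s using Finset.induction_on with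
  | empty => simp [toR_zero]
  | insert a s ha ih => rw [Finset.sum_insert ha, Finset.sum_insert ha, toR_add', ih]

lemma l1_smul (s : ℝ) (v : ℝ × ℝ) : l1 (s • v) = |s| * l1 v := by
  simp [l1, abs_mul]; ring

lemma n1_le_of_l1 {y : ℤ × ℤ} {D : ℝ} (h : l1 (toR y) ≤ D) : (n1 y : ℝ) ≤ D := by
  rwa [l1_toR] at h

/-- step (i) -/
theorem Comb.upper {e : ℤ × ℤ → ℝ} {C : ℝ} (h : Exc e C) {u : ℝ × ℝ} {x c : ℝ}
    (hc : Comb e u x c) {M : ℝ} (hM : 0 ≤ M) {D : ℝ} {y : ℤ × ℤ}
    (hy : l1 (toR y - M • u) ≤ D) : e y ≤ M * c + C * (D + 2 * x) := by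
  obtain ⟨y1, y2, t1, t2, h1, h2, h3, h4, h5, h6⟩ := hc
  set k1 := ⌊M * t1⌋₊ with hk1
  set k2 := ⌊M * t2⌋₊ with hk2
  have hx0 : 0 ≤ x := le_trans (by positivity) h1
  have hM1 : 0 ≤ M * t1 := by positivity
  have hM2 : 0 ≤ M * t2 := by positivity
  have hk1' : (k1 : ℝ) ≤ M * t1 := Nat.floor_le hM1
  have hk2' : (k2 : ℝ) ≤ M * t2 := Nat.floor_le hM2
  have hk1'' : M * t1 < k1 + 1 := Nat.lt_floor_add_one _
  have hk2'' : M * t2 < k2 + 1 := Nat.lt_floor_add_one _
  set z := y - k1 • y1 - k2 • y2 with hz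
  have hzR : toR z = (toR y - M • u) + ((M * t1 - k1) • toR y1 + (M * t2 - k2) • toR y2) := by
    rw [hz, toR_sub', toR_sub', toR_nsmul, toR_nsmul, ← h5]
    simp only [smul_add, smul_smul, sub_smul]
    abel
  have hzl : l1 (toR z) ≤ D + 2 * x := by
    rw [hzR]
    refine (l1_add_le _ _).trans ?_
    have e1 : l1 ((M * t1 - k1) • toR y1) ≤ x := by
      rw [l1_smul, l1_toR, abs_of_nonneg (by linarith)]
      calc (M * t1 - k1) * (n1 y1 : ℝ) ≤ 1 * x := by
            apply mul_le_mul (by linarith) h1 (by positivity) zero_le_one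
        _ = x := one_mul x
    have e2 : l1 ((M * t2 - k2) • toR y2) ≤ x := by
      rw [l1_smul, l1_toR, abs_of_nonneg (by linarith)]
      calc (M * t2 - k2) * (n1 y2 : ℝ) ≤ 1 * x := by
            apply mul_le_mul (by linarith) h2 (by positivity) zero_le_one
        _ = x := one_mul x
    have := l1_add_le ((M * t1 - k1) • toR y1) ((M * t2 - k2) • toR y2)
    linarith
  have hyz : y = k1 • y1 + k2 • y2 + z := by rw [hz]; abel
  have a1 : e y ≤ e (k1 • y1) + e (k2 • y2) + e z := by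
    conv_lhs => rw [hyz]
    refine (h.add _ _).trans ?_
    have := h.add (k1 • y1) (k2 • y2)
    linarith
  have a2 : e z ≤ C * (D + 2 * x) :=
    (h.le z).trans (mul_le_mul_of_nonneg_left (n1_le_of_l1 hzl) h.C_nonneg)
  have a3 := h.nsmul k1 y1
  have a4 := h.nsmul k2 y2
  have a5 : (k1 : ℝ) * e y1 ≤ M * t1 * e y1 := mul_le_mul_of_nonneg_right hk1' (h.nonneg _)
  have a6 : (k2 : ℝ) * e y2 ≤ M * t2 * e y2 := mul_le_mul_of_nonneg_right hk2' (h.nonneg _)
  have a7 : M * (t1 * e y1 + t2 * e y2) ≤ M * c := mul_le_mul_of_nonneg_left h6 hM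
  linarith

/-- the remainder vector as a conic combination of the four unit vectors -/
lemma unit_comb {e : ℤ × ℤ → ℝ} {C : ℝ} (h : Exc e C) (r : ℝ × ℝ) :
    ∃ c : Fin 4 → ℝ, (∀ i, 0 ≤ c i) ∧
      ∑ i, c i • toR (![((1 : ℤ), (0 : ℤ)), (-1, 0), (0, 1), (0, -1)] i) = r ∧
      ∑ i, c i * e (![((1 : ℤ), (0 : ℤ)), (-1, 0), (0, 1), (0, -1)] i) ≤ C * l1 r := by
  refine ⟨![max r.1 0, max (-r.1) 0, max r.2 0, max (-r.2) 0], ?_, ?_, ?_⟩
  · intro i; fin_cases i <;> simp
  · rw [Fin.sum_univ_four]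
    simp only [Matrix.cons_val_zero, Matrix.cons_val_one, Matrix.cons_val, toR]
    apply Prod.ext
    · simp only [Prod.fst_add, Prod.smul_fst, smul_eq_mul]
      rcases le_total 0 r.1 with h1 | h1
      · rw [max_eq_left h1, max_eq_right (by linarith)]; push_cast; ring
      · rw [max_eq_right h1, max_eq_left (by linarith)]; push_cast; ring
    · simp only [Prod.snd_add, Prod.smul_snd, smul_eq_mul]
      rcases le_total 0 r.2 with h1 | h1
      · rw [max_eq_left h1, max_eq_right (show -r.2 ≤ 0 by linarith)]; push_cast; ring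
      · rw [max_eq_right h1, max_eq_left (show 0 ≤ -r.2 by linarith)]; push_cast; ring
  · rw [Fin.sum_univ_four]
    simp only [Matrix.cons_val_zero, Matrix.cons_val_one, Matrix.cons_val]
    have hC := h.C_nonneg
    have b1 : e (1, 0) ≤ C := by simpa [n1] using h.le (1, 0)
    have b2 : e (-1, 0) ≤ C := by simpa [n1] using h.le (-1, 0)
    have b3 : e (0, 1) ≤ C := by simpa [n1] using h.le (0, 1)
    have b4 : e (0, -1) ≤ C := by simpa [n1] using h.le (0, -1)
    have c1 : max r.1 0 * e (1, 0) ≤ max r.1 0 * C := mul_le_mul_of_nonneg_left b1 (le_max_right _ _)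
    have c2 : max (-r.1) 0 * e (-1, 0) ≤ max (-r.1) 0 * C :=
      mul_le_mul_of_nonneg_left b2 (le_max_right _ _)
    have c3 : max r.2 0 * e (0, 1) ≤ max r.2 0 * C := mul_le_mul_of_nonneg_left b3 (le_max_right _ _)
    have c4 : max (-r.2) 0 * e (0, -1) ≤ max (-r.2) 0 * C :=
      mul_le_mul_of_nonneg_left b4 (le_max_right _ _)
    have d1 : max r.1 0 + max (-r.1) 0 = |r.1| := by
      rcases le_total 0 r.1 with h1 | h1
      · rw [max_eq_left h1, max_eq_right (by linarith), abs_of_nonneg h1]; ring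
      · rw [max_eq_right h1, max_eq_left (by linarith), abs_of_nonpos h1]; ring
    have d2 : max r.2 0 + max (-r.2) 0 = |r.2| := by
      rcases le_total 0 r.2 with h1 | h1
      · rw [max_eq_left h1, max_eq_right (by linarith), abs_of_nonneg h1]; ring
      · rw [max_eq_right h1, max_eq_left (by linarith), abs_of_nonpos h1]; ring
    have : C * l1 r = (max r.1 0 + max (-r.1) 0) * C + (max r.2 0 + max (-r.2) 0) * C := by
      rw [d1, d2, l1]; ring
    rw [this]
    linarith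

/-- step (ii), deterministic part: a skeleton gives a combination -/
theorem Comb.of_skeleton {e : ℤ × ℤ → ℝ} {C : ℝ} (h : Exc e C) {u : ℝ × ℝ} {x : ℝ} (hx : 1 ≤ x)
    {m : ℕ} (inc : Fin m → ℤ × ℤ) (hinc : ∀ i, (n1 (inc i) : ℝ) ≤ x) {M : ℝ} (hM : 0 < M)
    {D : ℝ} (hsum : l1 (toR (∑ i, inc i) - M • u) ≤ D) {S : ℝ} (hS : ∑ i, e (inc i) ≤ S) :
    Comb e u x ((S + C * D) / M) := by
  classical
  set r : ℝ × ℝ := u - M⁻¹ • toR (∑ i, inc i) with hr
  have hrl : l1 r ≤ D / M := by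
    have : r = (-M⁻¹) • (toR (∑ i, inc i) - M • u) := by
      rw [hr, smul_sub, smul_smul, neg_mul, inv_mul_cancel₀ hM.ne', neg_smul, neg_smul, one_smul]
      abel
    rw [this, l1_smul, abs_neg, abs_of_pos (inv_pos.mpr hM)]
    rw [inv_mul_eq_div]
    gcongr
  obtain ⟨c, hc0, hcv, hce⟩ := unit_comb h r
  set U : Fin 4 → ℤ × ℤ := ![((1 : ℤ), (0 : ℤ)), (-1, 0), (0, 1), (0, -1)] with hU
  set Y : Fin m ⊕ Fin 4 → ℤ × ℤ := Sum.elim inc U with hY
  set t : Fin m ⊕ Fin 4 → ℝ := Sum.elim (fun _ => M⁻¹) c with ht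
  have ht0 : ∀ i, 0 ≤ t i := by
    rintro (i | i)
    · simp only [ht, Sum.elim_inl]; positivity
    · simp only [ht, Sum.elim_inr]; exact hc0 i
  obtain ⟨i, _, j, _, p, q, hp, hq, h1, h2⟩ := conic_two (Finset.univ : Finset (Fin m ⊕ Fin 4))
    ⟨Sum.inr 0, Finset.mem_univ _⟩ (fun k => toR (Y k)) (fun k => e (Y k)) (fun k => h.nonneg _) t ht0
  have hYn : ∀ k, (n1 (Y k) : ℝ) ≤ x := by
    rintro (k | k)
    · exact hinc k
    · refine le_trans ?_ hx
      simp only [hY, Sum.elim_inr, hU]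
      fin_cases k <;> simp [n1]
  refine ⟨Y i, Y j, p, q, hYn i, hYn j, hp, hq, ?_, ?_⟩
  · rw [h1, Fintype.sum_sum_type]
    simp only [ht, hY, Sum.elim_inl, Sum.elim_inr]
    rw [hcv, ← Finset.smul_sum, ← toR_sum, hr]
    abel
  · refine h2.trans ?_
    rw [Fintype.sum_sum_type]
    simp only [ht, hY, Sum.elim_inl, Sum.elim_inr]
    rw [← Finset.mul_sum, add_div, inv_mul_eq_div]
    apply add_le_add
    · gcongr
    · refine hce.trans ?_
      rw [mul_div_assoc]
      exact mul_le_mul_of_nonneg_left hrl h.C_nonneg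

end Crest.Agent.R151.C710
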