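import Crest.Agent.R151.K2

/-!
# R151/K2b — the uniform shape theorem, proof (owner helper507)
-/

set_option autoImplicit false

open MeasureTheory Filter ProbabilityTheory
open Crest.ProbabilityR.FirstPassage

namespace Crest.Agent.R151.K

variable {G : Measure ℝ} [IsProbabilityMeasure G] {μ : ℝ × ℝ → ℝ} {lam : ℝ}

/-- error at a pair of grid points -/
noncomputable def pairErr (μ : ℝ × ℝ → ℝ) (K n : ℕ) (p : (ℤ × ℤ) × (ℤ × ℤ))
    (t : Environment) : ℝ :=
  |passageTime t (gp K n p.1) (gp K n p.2) - μ (toR (gp K n p.2 - gp K n p.1))|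

lemma l1_fl (w : ℝ × ℝ) (s : ℝ) : l1 (s • w - toR (fl w s)) ≤ 2 := by
  have key : ∀ a : ℝ, |a - ((⌊a⌋ : ℤ) : ℝ)| ≤ 1 := by
    intro a
    rw [abs_of_nonneg (by linarith [Int.floor_le a])]
    linarith [Int.lt_floor_add_one a]
  simp only [l1, toR, fl, Prod.fst_sub, Prod.snd_sub, Prod.smul_fst, Prod.smul_snd, smul_eq_mul]
  linarith [key (s * w.1), key (s * w.2)]

lemma toR_sub (x y : ℤ × ℤ) : toR (x - y) = toR x - toR y := by
  simp [toR]

lemma toR_add (x y : ℤ × ℤ) : toR (x + y) = toR x + toR y := by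
  simp [toR]

lemma integral_add3 {Ω : Type*} [MeasurableSpace Ω] {P : Measure Ω} [IsProbabilityMeasure P]
    {f g : Ω → ℝ} (c : ℝ) (hf : Integrable f P) (hg : Integrable g P) :
    ∫ t, (f t + g t + c) ∂P = ∫ t, f t ∂P + ∫ t, g t ∂P + c := by
  have h1 : Integrable (fun t => f t + g t) P := hf.add hg
  rw [integral_add h1 (integrable_const c), integral_add hf hg]
  simp

lemma pairErr_le (h0 : G (Set.Iio 0) = 0) (h2 : Integrable (fun x : ℝ => x ^ 2) G)
    (hμ : IsTC G μ) (v w : ℝ × ℝ) {s : ℝ} (hs : 0 < s) (x : ℤ × ℤ)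
    (hx : x = fl (v + w) s - fl v s) :
    ∫ t, |passageTime t 0 x - μ (toR x)| ∂(iidLaw G) ≤
      s * (∫ t, |passageTime t 0 (fl w s) / s - μ w| ∂(iidLaw G)) + 6 * ∫ z, z ∂G := by
  have hm : (0 : ℝ) ≤ ∫ z, z ∂G := integral_nonneg_of_ae (ae_nonneg h0)
  have hclose : n1 (x - fl w s) ≤ 2 := by rw [hx]; exact n1_fl_sub_le v w s
  have hI1 : Integrable (fun t => |passageTime t 0 (fl w s) / s - μ w|) (iidLaw G) :=
    (((integrable_pt h0 h2 0 (fl w s)).div_const s).sub (integrable_const _)).abs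
  have hI2 : Integrable (fun t => passageTime t x (fl w s)) (iidLaw G) := integrable_pt h0 h2 _ _
  have hI3 : Integrable (fun t => |passageTime t 0 x - μ (toR x)|) (iidLaw G) :=
    ((integrable_pt h0 h2 0 x).sub (integrable_const _)).abs
  have hc : |s * μ w - μ (toR x)| ≤ 4 * ∫ z, z ∂G := by
    rw [← mu_smul h0 h2 hμ hs.le]
    refine (abs_mu_sub_le h0 h2 hμ _ _).trans ?_
    have h1 : l1 (s • w - toR x) ≤ 4 := by
      have h3 : s • w - toR x = (s • w - toR (fl w s)) + toR (fl w s - x) := by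
        rw [toR_sub]; abel
      rw [h3]
      refine (l1_add_le _ _).trans ?_
      rw [l1_toR]
      have h4 : n1 (fl w s - x) ≤ 2 := by rwa [← neg_sub, n1_neg]
      have h5 : (n1 (fl w s - x) : ℝ) ≤ 2 := by exact_mod_cast h4
      linarith [l1_fl w s]
    nlinarith
  have hb : ∀ᵐ t ∂(iidLaw G), |passageTime t 0 x - μ (toR x)| ≤
      s * |passageTime t 0 (fl w s) / s - μ w| + passageTime t x (fl w s)
        + 4 * ∫ z, z ∂G := by
    filter_upwards [ae_Nn (G := G) h0] with t ht
    have e1 : s * |passageTime t 0 (fl w s) / s - μ w| = |passageTime t 0 (fl w s) - s * μ w| := by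
      rw [← abs_of_pos hs, ← abs_mul, abs_of_pos hs]
      congr 1
      field_simp
    rw [e1]
    have t1 := pt_triangle ht 0 x (fl w s)
    have t2 := pt_triangle ht 0 (fl w s) x
    rw [pt_symm ht (fl w s) x] at t2
    have e2 : |passageTime t 0 x - passageTime t 0 (fl w s)| ≤ passageTime t x (fl w s) := by
      rw [abs_le]; constructor <;> linarith
    calc |passageTime t 0 x - μ (toR x)|
        = |(passageTime t 0 x - passageTime t 0 (fl w s)) +
            (passageTime t 0 (fl w s) - s * μ w) + (s * μ w - μ (toR x))| := by congr 1; ring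
      _ ≤ |passageTime t 0 x - passageTime t 0 (fl w s)| +
            |passageTime t 0 (fl w s) - s * μ w| + |s * μ w - μ (toR x)| := abs_add_three _ _ _
      _ ≤ _ := by linarith
  refine (integral_mono_ae hI3 (((hI1.const_mul s).add hI2).add (integrable_const _)) hb).trans ?_
  have e9 := integral_add3 (4 * ∫ z, z ∂G) (hI1.const_mul s) hI2
  refine e9.le.trans ?_
  rw [integral_const_mul]
  have h6 := integral_pt_le h0 h2 x (fl w s)
  have h4 : n1 (fl w s - x) ≤ 2 := by rwa [← neg_sub, n1_neg]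
  have h5 : (n1 (fl w s - x) : ℝ) ≤ 2 := by exact_mod_cast h4
  nlinarith

lemma pairErr_tendsto (h0 : G (Set.Iio 0) = 0) (h2 : Integrable (fun x : ℝ => x ^ 2) G)
    (hμ : IsTC G μ) (K : ℕ) (p : (ℤ × ℤ) × (ℤ × ℤ)) :
    Tendsto (fun n : ℕ => (∫ t, pairErr μ K n p t ∂(iidLaw G)) / n) atTop (nhds 0) := by
  set v : ℝ × ℝ := ((p.1.1 : ℝ) / K, (p.1.2 : ℝ) / K) with hv
  set w : ℝ × ℝ := ((p.2.1 : ℝ) / K, (p.2.2 : ℝ) / K) - v with hw
  have hvw : v + w = ((p.2.1 : ℝ) / K, (p.2.2 : ℝ) / K) := by rw [hw]; abel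
  have h1 := (l1conv h0 h2 hμ w).comp tendsto_natCast_atTop_atTop
  have h3 : Tendsto (fun n : ℕ => (6 * ∫ z, z ∂G) / (n : ℝ)) atTop (nhds 0) :=
    tendsto_const_div_atTop_nhds_zero_nat _
  have h4 := h1.add h3
  rw [add_zero] at h4
  refine squeeze_zero' ?_ ?_ h4
  · filter_upwards with n
    exact div_nonneg (integral_nonneg fun t => abs_nonneg _) (Nat.cast_nonneg _)
  · filter_upwards [eventually_gt_atTop 0] with n hn
    have hn' : (0 : ℝ) < n := by exact_mod_cast hn
    have h5 : ∫ t, pairErr μ K n p t ∂(iidLaw G)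
        = ∫ t, |passageTime t 0 (gp K n p.2 - gp K n p.1)
            - μ (toR (gp K n p.2 - gp K n p.1))| ∂(iidLaw G) := by
      unfold pairErr
      exact integral_comp_pt (G := G) (fun r => |r - μ (toR (gp K n p.2 - gp K n p.1))|)
        ((measurable_id.sub_const _).abs) _ _
    have h6 := pairErr_le h0 h2 hμ v w hn' (gp K n p.2 - gp K n p.1) (by
      rw [hvw]; rfl)
    rw [h5, div_le_iff₀ hn']
    refine h6.trans (le_of_eq ?_)
    simp only [Function.comp_apply]
    field_simp

/-- **Uniform shape theorem** (dominated form). -/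
theorem uniform_shape_dom (h0 : G (Set.Iio 0) = 0) (hlam : 0 < lam)
    (hexp : Integrable (fun x => Real.exp (lam * x)) G) (hμ : IsTC G μ) {ε : ℝ} (hε : 0 < ε) :
    ∃ n0 : ℕ, ∀ n ≥ n0, ∃ D : Environment → ℝ, Integrable D (iidLaw G) ∧
      ∫ t, D t ∂(iidLaw G) ≤ ε * n ∧
      ∀ t, Nn t → ∀ x ∈ box n, ∀ y ∈ box n,
        |passageTime t x y - μ (toR (y - x))| ≤ D t := by
  have h2 := integrable_sq h0 hlam hexp
  have hm : (0 : ℝ) ≤ ∫ z, z ∂G := integral_nonneg_of_ae (ae_nonneg h0)
  have hM1 := one_le_M h0 hlam hexp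
  obtain ⟨M, hM⟩ : ∃ M, M = ∫ x, Real.exp (lam * x) ∂G := ⟨_, rfl⟩
  rw [← hM] at hM1
  have hlogM : 0 ≤ Real.log M := Real.log_nonneg hM1
  obtain ⟨m1, hm1⟩ : ∃ m1, m1 = ∫ z, z ∂G := ⟨_, rfl⟩
  rw [← hm1] at hm
  -- the constant in front of `L`
  set c : ℝ := 2 * Real.log M / lam + 2 * m1 with hc
  have hc0 : 0 ≤ c := by positivity
  obtain ⟨K, hK0, hK⟩ : ∃ K : ℕ, 0 < K ∧ 4 * c / K ≤ ε := by
    obtain ⟨K, hK⟩ := exists_nat_gt (4 * c / ε)
    refine ⟨K + 1, Nat.succ_pos _, ?_⟩
    rw [div_le_iff₀ (by positivity)]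
    rw [div_lt_iff₀ hε] at hK
    push_cast
    nlinarith
  have hKR : (0 : ℝ) < K := by exact_mod_cast hK0
  -- the remainder
  have hrem : Tendsto (fun n : ℕ => (∑ p ∈ box K ×ˢ box K, ∫ t, pairErr μ K n p t ∂(iidLaw G)) / n
      + ((4 * Real.log (2 * n + 1)) / lam + 2 / lam + 2 * c) / n) atTop (nhds 0) := by
    have e1 : Tendsto (fun n : ℕ => (∑ p ∈ box K ×ˢ box K,
        ∫ t, pairErr μ K n p t ∂(iidLaw G)) / n) atTop (nhds 0) := by
      have := tendsto_finsetSum (box K ×ˢ box K) fun p _ => pairErr_tendsto h0 h2 hμ K p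
      simpa [Finset.sum_div] using this
    have e2 : Tendsto (fun n : ℕ => ((4 * Real.log (2 * n + 1)) / lam + 2 / lam + 2 * c) / (n : ℝ))
        atTop (nhds 0) := by
      have l1 : Tendsto (fun x : ℝ => Real.log x / x) atTop (nhds 0) := by
        have := Real.isLittleO_log_id_atTop.tendsto_div_nhds_zero
        simpa using this
      have l2 : Tendsto (fun n : ℕ => (2 * (n : ℝ) + 1)) atTop atTop :=
        tendsto_atTop_add_const_right _ _
          (tendsto_natCast_atTop_atTop.const_mul_atTop (by norm_num))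
      have l3 := l1.comp l2
      have l4 : Tendsto (fun n : ℕ => (2 * (n : ℝ) + 1) / n) atTop (nhds 2) := by
        have : Tendsto (fun n : ℕ => 2 + 1 / (n : ℝ)) atTop (nhds (2 + 0)) :=
          tendsto_const_nhds.add tendsto_one_div_atTop_nhds_zero_nat
        rw [add_zero] at this
        refine this.congr' ?_
        filter_upwards [eventually_gt_atTop 0] with n hn
        have : (0 : ℝ) < n := by exact_mod_cast hn
        field_simp
      have l5 := l3.mul l4
      have l6 : Tendsto (fun n : ℕ => Real.log (2 * (n : ℝ) + 1) / n) atTop (nhds 0) := by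
        rw [zero_mul] at l5
        refine l5.congr' ?_
        filter_upwards [eventually_gt_atTop 0] with n hn
        have h1 : (0 : ℝ) < n := by exact_mod_cast hn
        have h2 : (0 : ℝ) < 2 * (n : ℝ) + 1 := by positivity
        simp only [Function.comp_apply]
        field_simp
      have l7 := (l6.const_mul (4 / lam)).add
        ((tendsto_const_div_atTop_nhds_zero_nat (2 / lam + 2 * c)))
      rw [mul_zero, add_zero] at l7
      refine l7.congr fun n => ?_
      ring
    simpa using e1.add e2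
  have hev := (hrem.eventually_le_const (show (0 : ℝ) < ε / 2 by positivity))
  rw [eventually_atTop] at hev
  obtain ⟨n1', hn1'⟩ := hev
  refine ⟨max n1' 1, fun n hn => ?_⟩
  have hn1 : n1' ≤ n := (le_max_left _ _).trans hn
  have hnpos : 0 < n := (le_max_right _ _).trans hn
  have hnR : (0 : ℝ) < n := by exact_mod_cast hnpos
  set L : ℕ := 2 * (n / K + 1) with hL
  obtain ⟨A, hA1, hA2⟩ := integral_soft' h0 hlam hexp (box n) ⟨0, zero_mem_box n⟩
    (fun x => gp K n (gi K n x)) L (fun x _ => gp_gi_close hK0 hnpos x)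
  refine ⟨fun t => ∑ p ∈ box K ×ˢ box K, pairErr μ K n p t
    + 2 * soft lam A (box n) (fun x => gp K n (gi K n x)) t + 2 * (m1 * L), ?_, ?_, ?_⟩
  · have hp : ∀ p, Integrable (pairErr μ K n p) (iidLaw G) := fun p =>
      ((integrable_pt h0 h2 _ _).sub (integrable_const _)).abs
    exact ((integrable_finsetSum _ fun p _ => hp p).add (hA1.const_mul 2)).add
      (integrable_const _)
  · have hp : ∀ p, Integrable (pairErr μ K n p) (iidLaw G) := fun p =>
      ((integrable_pt h0 h2 _ _).sub (integrable_const _)).abs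
    have hsum : Integrable (fun t => ∑ p ∈ box K ×ˢ box K, pairErr μ K n p t) (iidLaw G) :=
      integrable_finsetSum _ fun p _ => hp p
    refine (integral_add3 (2 * (m1 * L)) hsum (hA1.const_mul 2)).le.trans ?_
    rw [integral_finsetSum _ fun p _ => hp p, integral_const_mul]
    have h5 := hn1' n hn1
    rw [← add_div, div_le_iff₀ hnR] at h5
    have hcard : Real.log ((box n).card : ℝ) = 2 * Real.log (2 * n + 1) := by
      rw [card_box]; push_cast
      rw [Real.log_pow]; norm_num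
    rw [hcard, ← hM] at hA2
    have hLR : (L : ℝ) ≤ 2 * n / K + 2 := by
      rw [hL]
      push_cast
      rw [mul_div_assoc]
      have h9 : ((n / K : ℕ) : ℝ) ≤ (n : ℝ) / K := Nat.cast_div_le
      linarith
    have h6 : c * (2 * n / K + 2) ≤ ε / 2 * n + 2 * c := by
      have h7 : 4 * c ≤ ε * K := by rwa [div_le_iff₀ hKR] at hK
      have h8 : c * (2 * n / K) ≤ ε / 2 * n := by
        rw [mul_div_assoc', div_le_iff₀ hKR]
        nlinarith
      linarith
    have h7 : 2 * ((2 * Real.log (2 * n + 1) + L * Real.log M + 1) / lam) + 2 * (m1 * L)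
        = c * L + (4 * Real.log (2 * n + 1)) / lam + 2 / lam := by
      rw [hc]; ring
    have h8 : c * L ≤ c * (2 * n / K + 2) := by gcongr
    linarith
  · intro t ht x hx y hy
    set zx := gp K n (gi K n x) with hzx
    set zy := gp K n (gi K n y) with hzy
    have a1 := le_soft hlam (A := A) (z := fun x => gp K n (gi K n x)) t hx
    have a2 := le_soft hlam (A := A) (z := fun x => gp K n (gi K n x)) t hy
    simp only [← hzx, ← hzy] at a1 a2
    have a3 : pairErr μ K n (gi K n x, gi K n y) t ≤ ∑ p ∈ box K ×ˢ box K, pairErr μ K n p t := by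
      refine Finset.single_le_sum (f := fun p => pairErr μ K n p t)
        (fun p _ => abs_nonneg _) ?_
      rw [Finset.mem_product]
      exact ⟨gi_mem hnpos hx, gi_mem hnpos hy⟩
    have a4 : |passageTime t x y - passageTime t zx zy|
        ≤ passageTime t x zx + passageTime t y zy := by
      have t1 := pt_triangle ht x zx y
      have t2 := pt_triangle ht zx zy y
      have t3 := pt_triangle ht zx x zy
      have t4 := pt_triangle ht x y zy
      rw [pt_symm ht zy y] at t2
      rw [pt_symm ht zx x] at t3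
      rw [abs_le]; constructor <;> linarith
    have a5 : |μ (toR (zy - zx)) - μ (toR (y - x))| ≤ 2 * (m1 * L) := by
      refine (abs_mu_sub_le h0 h2 hμ _ _).trans ?_
      have b1 : toR (zy - zx) - toR (y - x) = toR (zy - y) + -toR (zx - x) := by
        simp only [toR_sub]; abel
      rw [b1]
      have b2 := l1_add_le (toR (zy - y)) (-toR (zx - x))
      have b3 : l1 (-toR (zx - x)) = l1 (toR (zx - x)) := by simp [l1]
      rw [b3, l1_toR, l1_toR] at b2
      have b4 : (n1 (zy - y) : ℝ) ≤ L := by exact_mod_cast gp_gi_close hK0 hnpos y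
      have b5 : (n1 (zx - x) : ℝ) ≤ L := by exact_mod_cast gp_gi_close hK0 hnpos x
      rw [← hm1]
      nlinarith
    have a6 : pairErr μ K n (gi K n x, gi K n y) t
        = |passageTime t zx zy - μ (toR (zy - zx))| := rfl
    calc |passageTime t x y - μ (toR (y - x))|
        = |(passageTime t x y - passageTime t zx zy) + (passageTime t zx zy - μ (toR (zy - zx)))
            + (μ (toR (zy - zx)) - μ (toR (y - x)))| := by congr 1; ring
      _ ≤ |passageTime t x y - passageTime t zx zy| + |passageTime t zx zy - μ (toR (zy - zx))|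
            + |μ (toR (zy - zx)) - μ (toR (y - x))| := abs_add_three _ _ _
      _ ≤ _ := by rw [← a6]; linarith

/-- The largest deviation from the time constant between points of the box of radius `n`. -/
noncomputable def dev (μ : ℝ × ℝ → ℝ) (n : ℕ) (t : Environment) : ℝ :=
  (box n ×ˢ box n).sup' ⟨(0, 0), Finset.mem_product.2 ⟨zero_mem_box n, zero_mem_box n⟩⟩
    fun p => |passageTime t p.1 p.2 - μ (toR (p.2 - p.1))|

lemma le_dev (μ : ℝ × ℝ → ℝ) {n : ℕ} (t : Environment) {x y : ℤ × ℤ} (hx : x ∈ box n)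
    (hy : y ∈ box n) : |passageTime t x y - μ (toR (y - x))| ≤ dev μ n t :=
  Finset.le_sup' (fun p : (ℤ × ℤ) × (ℤ × ℤ) => |passageTime t p.1 p.2 - μ (toR (p.2 - p.1))|)
    (Finset.mem_product.2 ⟨hx, hy⟩ : (x, y) ∈ box n ×ˢ box n)

lemma dev_nonneg (μ : ℝ × ℝ → ℝ) (n : ℕ) (t : Environment) : 0 ≤ dev μ n t :=
  (abs_nonneg _).trans (le_dev μ t (zero_mem_box n) (zero_mem_box n))

lemma measurable_dev (μ : ℝ × ℝ → ℝ) (n : ℕ) : Measurable (dev μ n) := by
  have h : dev μ n = (box n ×ˢ box n).sup'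
      ⟨(0, 0), Finset.mem_product.2 ⟨zero_mem_box n, zero_mem_box n⟩⟩
      (fun p t => |passageTime t p.1 p.2 - μ (toR (p.2 - p.1))|) := by
    funext t
    exact (Finset.sup'_apply (C := fun _ : Environment => ℝ) (s := box n ×ˢ box n)
      ⟨(0, 0), Finset.mem_product.2 ⟨zero_mem_box n, zero_mem_box n⟩⟩
      (fun p t => |passageTime t p.1 p.2 - μ (toR (p.2 - p.1))|) t).symm
  rw [h]
  refine Finset.measurable_sup' _ fun p _ => ?_
  exact ((measurable_pt p.1 p.2).sub_const _).abs

/-- **Uniform shape theorem**: `E sup_{x, y ∈ box n} |T(x,y) - μ(y-x)| ≤ ε n`. -/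
theorem uniform_shape (h0 : G (Set.Iio 0) = 0) (hlam : 0 < lam)
    (hexp : Integrable (fun x => Real.exp (lam * x)) G) (hμ : IsTC G μ) {ε : ℝ} (hε : 0 < ε) :
    ∃ n0 : ℕ, ∀ n ≥ n0, Integrable (dev μ n) (iidLaw G) ∧
      ∫ t, dev μ n t ∂(iidLaw G) ≤ ε * n := by
  obtain ⟨n0, hn0⟩ := uniform_shape_dom h0 hlam hexp hμ hε
  refine ⟨n0, fun n hn => ?_⟩
  obtain ⟨D, hD1, hD2, hD3⟩ := hn0 n hn
  have hle : ∀ᵐ t ∂(iidLaw G), dev μ n t ≤ D t := by
    filter_upwards [ae_Nn (G := G) h0] with t ht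
    refine Finset.sup'_le _ _ fun p hp => ?_
    rw [Finset.mem_product] at hp
    exact hD3 t ht p.1 hp.1 p.2 hp.2
  have hi : Integrable (dev μ n) (iidLaw G) := by
    refine hD1.mono' (measurable_dev μ n).aestronglyMeasurable ?_
    filter_upwards [hle] with t ht
    rwa [Real.norm_eq_abs, abs_of_nonneg (dev_nonneg μ n t)]
  exact ⟨hi, (integral_mono_ae hi hD1 hle).trans hD2⟩

/-- Probability form. -/
theorem uniform_shape_prob (h0 : G (Set.Iio 0) = 0) (hlam : 0 < lam)
    (hexp : Integrable (fun x => Real.exp (lam * x)) G) (hμ : IsTC G μ) {ε : ℝ} (hε : 0 < ε) :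
    ∃ n0 : ℕ, ∀ n ≥ n0, (iidLaw G).real {t | ε * n ≤ dev μ n t} ≤ ε := by
  obtain ⟨n0, hn0⟩ := uniform_shape h0 hlam hexp hμ (ε := ε ^ 2) (by positivity)
  refine ⟨max n0 1, fun n hn => ?_⟩
  obtain ⟨h1, h2⟩ := hn0 n ((le_max_left _ _).trans hn)
  have hn1 : 0 < n := (le_max_right _ _).trans hn
  have hn' : (0 : ℝ) < n := by exact_mod_cast hn1
  have h3 := mul_meas_ge_le_integral_of_nonneg
    (Filter.Eventually.of_forall fun t => dev_nonneg μ n t) h1 (ε * n)
  have h4 : ε * n * (iidLaw G).real {t | ε * n ≤ dev μ n t} ≤ ε ^ 2 * n := h3.trans h2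
  have h5 : (0 : ℝ) < ε * n := by positivity
  have h6 : ε * n * (iidLaw G).real {t | ε * n ≤ dev μ n t} ≤ ε * n * ε := by
    calc _ ≤ ε ^ 2 * n := h4
      _ = ε * n * ε := by ring
  exact le_of_mul_le_mul_left h6 h5

/-! ### The Gamma law -/

lemma gamma_Iio (κ r : ℝ) : gammaMeasure κ r (Set.Iio 0) = 0 := by
  unfold gammaMeasure
  rw [withDensity_apply _ measurableSet_Iio]
  exact lintegral_gammaPDF_of_nonpos le_rfl

lemma gamma_exp {κ r : ℝ} (hκ : 0 < κ) (hr : 0 < r) :
    Integrable (fun x => Real.exp (r / 2 * x)) (gammaMeasure κ r) := by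
  have hmeas : Measurable fun x : ℝ => Real.exp (r / 2 * x) := by fun_prop
  refine ⟨hmeas.aestronglyMeasurable, ?_⟩
  rw [hasFiniteIntegral_iff_ofReal (Filter.Eventually.of_forall fun x => Real.exp_nonneg _)]
  unfold gammaMeasure
  rw [lintegral_withDensity_eq_lintegral_mul _
    (show Measurable (gammaPDF κ r) from (measurable_gammaPDFReal κ r).ennreal_ofReal)
    hmeas.ennreal_ofReal]
  have key : ∀ x : ℝ, (gammaPDF κ r * fun x => ENNReal.ofReal (Real.exp (r / 2 * x))) x
      = ENNReal.ofReal ((2 : ℝ) ^ κ) * gammaPDF κ (r / 2) x := by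
    intro x
    simp only [Pi.mul_apply]
    rcases lt_or_ge x 0 with hx | hx
    · rw [gammaPDF_of_neg hx, gammaPDF_of_neg hx]; simp
    · rw [gammaPDF_of_nonneg hx, gammaPDF_of_nonneg hx,
        ← ENNReal.ofReal_mul (by
          have := Real.Gamma_pos_of_pos hκ
          positivity), ← ENNReal.ofReal_mul (by positivity)]
      congr 1
      have e1 : r ^ κ = 2 ^ κ * (r / 2) ^ κ := by
        rw [← Real.mul_rpow (by norm_num) (by positivity)]
        congr 1; ring
      have e2 : Real.exp (-(r * x)) * Real.exp (r / 2 * x) = Real.exp (-(r / 2 * x)) := by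
        rw [← Real.exp_add]; congr 1; ring
      rw [e1, ← e2]
      ring
  have hcongr : ∀ᵐ x ∂(volume : Measure ℝ),
      (gammaPDF κ r * fun x => ENNReal.ofReal (Real.exp (r / 2 * x))) x
      = ENNReal.ofReal ((2 : ℝ) ^ κ) * gammaPDF κ (r / 2) x := Filter.Eventually.of_forall key
  rw [lintegral_congr_ae hcongr, lintegral_const_mul' _ _ ENNReal.ofReal_ne_top,
    lintegral_gammaPDF_eq_one hκ (by positivity), mul_one]
  exact ENNReal.ofReal_lt_top

end Crest.Agent.R151.K
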