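import Crest.Agent.R151.C710a
import Crest.Agent.R151.K2b

/-!
# R151 / S0214 part 2, module C1 (rate), the iteration (helper710)
-/

set_option autoImplicit false

namespace Crest.Agent.R151.C710

open Crest.Agent.R151.K Finset Filter Topology

/-- one step of (iii) -/
lemma comb_step {e : ℤ × ℤ → ℝ} {C : ℝ} (h : Exc e C) {u : ℝ × ℝ} {C1 x : ℝ} (hx : 1 ≤ x)
    (hii : ∀ X : ℤ × ℤ, l1 (toR X - x ^ (1.1 : ℝ) • u) ≤ 2 →
      Comb e u x (e X / x ^ (1.1 : ℝ) + C1 * x ^ (-0.06 : ℝ))) {c : ℝ}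
    (hc : Comb e u (x ^ (1.04 : ℝ)) c) : Comb e u x (c + (4 * C + C1) * x ^ (-0.06 : ℝ)) := by
  have hx0 : 0 < x := by linarith
  have hM : 0 < x ^ (1.1 : ℝ) := Real.rpow_pos_of_pos hx0 _
  set X : ℤ × ℤ := fl u (x ^ (1.1 : ℝ)) with hX
  have hXl : l1 (toR X - x ^ (1.1 : ℝ) • u) ≤ 2 := by
    have h1 := l1_fl u (x ^ (1.1 : ℝ))
    have h2 : toR X - x ^ (1.1 : ℝ) • u = (-1 : ℝ) • (x ^ (1.1 : ℝ) • u - toR X) := by
      simp
    rw [h2, l1_smul]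
    simpa using h1
  have h3 := hc.upper h hM.le hXl
  refine (hii X hXl).mono le_rfl ?_
  have h4 : e X / x ^ (1.1 : ℝ) ≤ c + 4 * C * x ^ (-0.06 : ℝ) := by
    rw [div_le_iff₀ hM]
    have h5 : x ^ (-0.06 : ℝ) * x ^ (1.1 : ℝ) = x ^ (1.04 : ℝ) := by
      rw [← Real.rpow_add hx0]; norm_num
    have h6 : (c + 4 * C * x ^ (-0.06 : ℝ)) * x ^ (1.1 : ℝ)
        = x ^ (1.1 : ℝ) * c + 4 * C * x ^ (1.04 : ℝ) := by
      rw [add_mul, mul_assoc (4 * C), h5]; ring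
    rw [h6]
    have h7 : 1 ≤ x ^ (1.04 : ℝ) := Real.one_le_rpow hx (by norm_num)
    have := h.C_nonneg
    nlinarith
  linarith

/-- **(iii)**: the rate. -/
theorem comb_rate {e : ℤ × ℤ → ℝ} {C : ℝ} (h : Exc e C) {u : ℝ × ℝ} {x0 C1 : ℝ} (hx0 : 2 ≤ x0)
    (hC1 : 0 ≤ C1)
    (hii : ∀ x, x0 ≤ x → ∀ X : ℤ × ℤ, l1 (toR X - x ^ (1.1 : ℝ) • u) ≤ 2 →
      Comb e u x (e X / x ^ (1.1 : ℝ) + C1 * x ^ (-0.06 : ℝ)))
    (hlim : ∀ δ : ℝ, 0 < δ → ∃ x1 : ℝ, ∀ x, x1 ≤ x → Comb e u x δ) :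
    ∃ K, 0 ≤ K ∧ ∀ x, x0 ≤ x → Comb e u x (K * x ^ (-0.06 : ℝ)) := by
  set q : ℝ := (2 : ℝ) ^ (-0.0024 : ℝ) with hq
  have hq1 : q < 1 := Real.rpow_lt_one_of_one_lt_of_neg (by norm_num) (by norm_num)
  have hq0 : 0 < q := Real.rpow_pos_of_pos (by norm_num) _
  set C2 : ℝ := 4 * C + C1 with hC2
  have hC20 : 0 ≤ C2 := by have := h.C_nonneg; positivity
  set K : ℝ := C2 / (1 - q) with hK
  have hK0 : 0 ≤ K := div_nonneg hC20 (by linarith)
  have hKeq : K * q + C2 = K := by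
    rw [hK]
    have : (1 - q) ≠ 0 := by linarith
    field_simp
    ring
  have key : ∀ k : ℕ, ∀ x, x0 ≤ x → ∀ c, Comb e u (x ^ ((1.04 : ℝ) ^ k)) c →
      Comb e u x (c + K * x ^ (-0.06 : ℝ)) := by
    intro k
    induction k with
    | zero =>
      intro x hx c hc
      rw [pow_zero, Real.rpow_one] at hc
      refine hc.mono le_rfl ?_
      have : 0 ≤ x ^ (-0.06 : ℝ) := Real.rpow_nonneg (by linarith) _
      nlinarith
    | succ k ih =>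
      intro x hx c hc
      have hxpos : 0 < x := by linarith
      have e1 : x ^ ((1.04 : ℝ) ^ (k + 1)) = (x ^ (1.04 : ℝ)) ^ ((1.04 : ℝ) ^ k) := by
        rw [← Real.rpow_mul hxpos.le, pow_succ, mul_comm]
      rw [e1] at hc
      have hx' : x0 ≤ x ^ (1.04 : ℝ) := by
        refine hx.trans ?_
        conv_lhs => rw [← Real.rpow_one x]
        exact Real.rpow_le_rpow_of_exponent_le (by linarith) (by norm_num)
      have h1 := ih _ hx' c hc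
      have h2 := comb_step h (by linarith) (hii x hx) h1
      refine h2.mono le_rfl ?_
      have e2 : (x ^ (1.04 : ℝ)) ^ (-0.06 : ℝ) = x ^ (-0.06 : ℝ) * x ^ (-0.0024 : ℝ) := by
        rw [← Real.rpow_mul hxpos.le, ← Real.rpow_add hxpos]; norm_num
      have e3 : x ^ (-0.0024 : ℝ) ≤ q := by
        rw [hq]
        exact Real.rpow_le_rpow_of_nonpos (by norm_num) (by linarith) (by norm_num)
      have e4 : 0 ≤ x ^ (-0.06 : ℝ) := Real.rpow_nonneg hxpos.le _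
      rw [e2]
      have e5 : K * (x ^ (-0.06 : ℝ) * x ^ (-0.0024 : ℝ)) ≤ K * (x ^ (-0.06 : ℝ) * q) := by gcongr
      have e6 : K * (x ^ (-0.06 : ℝ) * q) + C2 * x ^ (-0.06 : ℝ) = K * x ^ (-0.06 : ℝ) := by
        linear_combination (x ^ (-0.06 : ℝ)) * hKeq
      linarith
  refine ⟨1 + K, by positivity, fun x hx => ?_⟩
  have hxpos : 0 < x := by linarith
  obtain ⟨x1, hx1⟩ := hlim (x ^ (-0.06 : ℝ)) (Real.rpow_pos_of_pos hxpos _)
  have ht : Tendsto (fun k : ℕ => x ^ ((1.04 : ℝ) ^ k)) atTop atTop := by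
    have h1 : Tendsto (fun k : ℕ => (1.04 : ℝ) ^ k) atTop atTop :=
      tendsto_pow_atTop_atTop_of_one_lt (by norm_num)
    exact (tendsto_rpow_atTop_of_base_gt_one x (by linarith)).comp h1
  obtain ⟨k, hk⟩ := (ht.eventually_ge_atTop x1).exists
  refine (key k x hx _ (hx1 _ hk)).mono le_rfl ?_
  linarith

end Crest.Agent.R151.C710
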