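import Crest.Agent.R151.C710b
import Crest.Agent.R151.C710c
import Crest.Agent.R151.C710d

/-!
# R151 / S0214 part 2, module C1 (rate): the skeleton inequality (ii) (helper710)
-/

set_option autoImplicit false

open MeasureTheory Filter ProbabilityTheory Topology
open Crest.ProbabilityR.FirstPassage

namespace Crest.Agent.R151.C710

open Crest.Agent.R151.K

variable {G : Measure ℝ} [IsProbabilityMeasure G] {lam : ℝ} {μ : ℝ × ℝ → ℝ}

/-- the mean excess of a lattice vector over the linear functional `ρ` -/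
noncomputable def exc (G : Measure ℝ) (ρ : ℝ × ℝ →L[ℝ] ℝ) (y : ℤ × ℤ) : ℝ := ET G y - ρ (toR y)

lemma exc_Exc (h0 : G (Set.Iio 0) = 0) (h2 : Integrable (fun x : ℝ => x ^ 2) G) (hμ : IsTC G μ)
    {ρ : ℝ × ℝ →L[ℝ] ℝ} (hρ : ∀ v, ρ v ≤ μ v) : Exc (exc G ρ) (2 * ∫ z, z ∂G) where
  nonneg y := by
    have h1 := mu_le_ET h0 h2 hμ y
    have h3 := hρ (toR y)
    unfold exc
    linarith
  add y z := by
    have h1 := ET_add_le h0 h2 y z
    unfold exc
    rw [toR_add', map_add]
    linarith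
  le y := by
    have h1 := ET_le h0 h2 y
    have h3 := hρ (-(toR y))
    have h4 := mu_le h0 h2 hμ (-(toR y))
    have h5 : l1 (-(toR y)) = n1 y := by
      rw [← l1_toR]; simp [l1]
    rw [h5] at h4
    rw [map_neg] at h3
    unfold exc
    linarith

lemma mem_box_of_n1 {n : ℕ} {x : ℤ × ℤ} (h : n1 x ≤ n) : x ∈ box n := by
  rw [mem_box]
  unfold n1 at h
  omega

/-- deterministic part of (ii) -/
theorem skeleton_of_good {t : Environment} (ht : Nn t) {c : ℝ} (hc : 0 < c)
    (hlow : ∀ v, c * l1 v ≤ μ v) {ρ : ℝ × ℝ →L[ℝ] ℝ} {r R : ℕ} (hr : 1 ≤ r) {X : ℤ × ℤ} {B δ' : ℝ}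
    (hμET : ∀ y : ℤ × ℤ, μ (toR y) ≤ ET G y)
    (hδ' : 2 * δ' ≤ c * r) (hδ0 : 0 ≤ δ') (hdev : dev μ R t < c / 2 * R)
    (hgrid : ∀ x ∈ box R, ∀ y ∈ box R, n1 (y - x) ≤ r →
      |passageTime t x y - ET G (y - x)| ≤ δ')
    (hX : passageTime t 0 X ≤ ET G X + B) (hR : ET G X + B + 1 < c / 2 * R) :
    ∃ m : ℕ, ∃ inc : Fin m → ℤ × ℤ, (∀ i, n1 (inc i) ≤ r) ∧ ∑ i, inc i = X ∧
      ∑ i, exc G ρ (inc i) ≤ exc G ρ X + B + 1 + m * δ' ∧
      (m : ℝ) ≤ 1 + 2 * (ET G X + B + 1) / (c * r) := by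
  obtain ⟨w, hw⟩ := exists_walk_lt t 0 X (c := ET G X + B + 1) (by linarith)
  have hbox : ∀ v ∈ w.support, v ∈ box R := by
    intro v hv
    by_contra hcon
    have h1 : R ≤ n1 (v - 0) := by
      by_contra h2
      push Not at h2
      rw [sub_zero] at h2
      exact hcon (mem_box_of_n1 h2.le)
    obtain ⟨v', hv', hn⟩ := exists_mem_support_n1' w 0 R (by simp [n1]) hv h1
    rw [sub_zero] at hn
    have h3 := pt_le_of_mem ht w hv'
    have h4 := le_dev μ t (zero_mem_box R) (mem_box_of_n1 hn.le)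
    rw [sub_zero, abs_le] at h4
    have h5 := hlow (toR v')
    rw [l1_toR, hn] at h5
    linarith [h4.1]
  obtain ⟨m, p, hp0, hpm, hps, hp1, hp2, hp3⟩ := exists_skeleton ht hr w
  have hinc : ∀ i, i < m → |passageTime t (p i) (p (i + 1)) - ET G (p (i + 1) - p i)| ≤ δ' :=
    fun i hi => hgrid _ (hbox _ (hps i hi.le)) _ (hbox _ (hps (i + 1) hi)) (hp1 i hi)
  have hsum : ∀ k, ∑ i ∈ Finset.range k, (p (i + 1) - p i) = p k - p 0 :=
    fun k => Finset.sum_range_sub p k
  refine ⟨m, fun i => p (i + 1) - p i, fun i => hp1 i i.2, ?_, ?_, ?_⟩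
  · rw [Finset.sum_fin_eq_sum_range]
    have : ∑ i ∈ Finset.range m, (if h : i < m then p ((⟨i, h⟩ : Fin m) + 1) - p (⟨i, h⟩ : Fin m)
        else 0) = ∑ i ∈ Finset.range m, (p (i + 1) - p i) := by
      apply Finset.sum_congr rfl
      intro i hi
      rw [dif_pos (Finset.mem_range.mp hi)]
    rw [this, hsum, hpm, hp0, sub_zero]
  · have e1 : ∑ i : Fin m, exc G ρ (p (i + 1) - p i)
        = ∑ i ∈ Finset.range m, exc G ρ (p (i + 1) - p i) :=
      Fin.sum_univ_eq_sum_range (fun i => exc G ρ (p (i + 1) - p i)) m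
    rw [e1]
    have e2 : ∑ i ∈ Finset.range m, exc G ρ (p (i + 1) - p i)
        ≤ ∑ i ∈ Finset.range m, ((passageTime t (p i) (p (i + 1)) + δ')
            - ρ (toR (p (i + 1) - p i))) := by
      apply Finset.sum_le_sum
      intro i hi
      have := abs_le.mp (hinc i (Finset.mem_range.mp hi))
      unfold exc
      linarith [this.1]
    refine e2.trans ?_
    rw [Finset.sum_sub_distrib, Finset.sum_add_distrib, ← map_sum, ← toR_sum, hsum, hpm, hp0,
      sub_zero, Finset.sum_const, Finset.card_range, nsmul_eq_mul]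
    unfold exc
    linarith
  · -- the number of increments
    have hrpos : (0 : ℝ) < r := by exact_mod_cast hr
    have hcr : 0 < c * r := by positivity
    rcases Nat.eq_zero_or_pos m with h0 | hpos
    · rw [h0]
      have h1 : 0 ≤ passageTime t 0 X := pt_nonneg ht _ _
      have h2 : 0 ≤ 2 * (ET G X + B + 1) / (c * r) := by
        apply div_nonneg _ hcr.le
        linarith
      push_cast
      linarith
    · obtain ⟨m', rfl⟩ : ∃ m', m = m' + 1 := ⟨m - 1, by omega⟩
      have h1 : ∑ i ∈ Finset.range m', (c * r / 2) ≤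
          ∑ i ∈ Finset.range m', passageTime t (p i) (p (i + 1)) := by
        apply Finset.sum_le_sum
        intro i hi
        have hi' := Finset.mem_range.mp hi
        have h2 := abs_le.mp (hinc i (by omega))
        have h3 := hμET (p (i + 1) - p i)
        have h4 := hlow (toR (p (i + 1) - p i))
        rw [l1_toR, hp2 i (by omega)] at h4
        linarith [h2.1]
      have h2 : ∑ i ∈ Finset.range m', passageTime t (p i) (p (i + 1)) ≤
          ∑ i ∈ Finset.range (m' + 1), passageTime t (p i) (p (i + 1)) := by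
        rw [Finset.sum_range_succ]
        have := pt_nonneg ht (p m') (p (m' + 1))
        linarith
      rw [Finset.sum_const, Finset.card_range, nsmul_eq_mul] at h1
      have h3 : (m' : ℝ) ≤ 2 * (ET G X + B + 1) / (c * r) := by
        rw [le_div_iff₀ hcr]
        linarith
      push_cast
      linarith

end Crest.Agent.R151.C710
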