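import Crest.Agent.R151.C710e

/-!
# R151 / S0214 part 2, module C1 (rate): probabilities in (ii) (helper710)
-/

set_option autoImplicit false

open MeasureTheory Filter ProbabilityTheory Topology
open Crest.ProbabilityR.FirstPassage

namespace Crest.Agent.R151.C710

open Crest.Agent.R151.K

lemma tendsto_pow_exp : Tendsto (fun x : ℝ => x ^ (2.2 : ℝ) * Real.exp (-(x ^ (0.9 : ℝ)))) atTop
    (𝓝 0) := by
  have h1 := tendsto_rpow_mul_exp_neg_mul_atTop_nhds_zero (2.2 / 0.9) 1 one_pos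
  have h2 : Tendsto (fun x : ℝ => x ^ (0.9 : ℝ)) atTop atTop := tendsto_rpow_atTop (by norm_num)
  refine (h1.comp h2).congr' ?_
  filter_upwards [eventually_gt_atTop 0] with x hx
  simp only [Function.comp]
  rw [← Real.rpow_mul hx.le]
  norm_num

/-- the probability of the bad grid event is small -/
lemma grid_small (K Cv : ℝ) (hK : 1 ≤ K) (hCv : 0 ≤ Cv) {ε : ℝ} (hε : 0 < ε) :
    ∀ᶠ x : ℝ in atTop, ∀ R r g : ℕ, (R : ℝ) ≤ K * x ^ (1.1 : ℝ) → (r : ℝ) ≤ x →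
      x ^ (0.9 : ℝ) ≤ g → (g : ℝ) ≤ x ^ (0.9 : ℝ) + 1 →
      (2 * ((R / g + 1 : ℕ) : ℝ) + 1) ^ 2 * (2 * ((r / g + 1 : ℕ) : ℝ) + 1) ^ 2
          * (Cv * (2 * r + 2 * g) / (x ^ (0.9 : ℝ)) ^ 2)
          + (2 * (R : ℝ) + 1) ^ 2 * Real.exp (-(g : ℝ)) ≤ ε := by
  have t1 : Tendsto (fun x : ℝ => 150 * Cv * (2 * K + 3) ^ 2 * x ^ (-0.2 : ℝ)) atTop (𝓝 0) := by
    have := (tendsto_rpow_neg_atTop (y := 0.2) (by norm_num)).const_mul (150 * Cv * (2 * K + 3) ^ 2)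
    simpa using this
  have t2 : Tendsto (fun x : ℝ => 9 * K ^ 2 * (x ^ (2.2 : ℝ) * Real.exp (-(x ^ (0.9 : ℝ))))) atTop
      (𝓝 0) := by
    have := tendsto_pow_exp.const_mul (9 * K ^ 2)
    simpa using this
  filter_upwards [t1.eventually_le_const (half_pos hε), t2.eventually_le_const (half_pos hε),
    eventually_ge_atTop 1] with x h1 h2 hx1 R r g hR hr hg1 hg2
  have hx0 : 0 < x := by linarith
  have p09 : 0 < x ^ (0.9 : ℝ) := Real.rpow_pos_of_pos hx0 _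
  have o09 : 1 ≤ x ^ (0.9 : ℝ) := Real.one_le_rpow hx1 (by norm_num)
  have o01 : 1 ≤ x ^ (0.1 : ℝ) := Real.one_le_rpow hx1 (by norm_num)
  have o02 : 1 ≤ x ^ (0.2 : ℝ) := Real.one_le_rpow hx1 (by norm_num)
  have o11 : 1 ≤ x ^ (1.1 : ℝ) := Real.one_le_rpow hx1 (by norm_num)
  have hgpos : (0 : ℝ) < g := lt_of_lt_of_le p09 hg1
  have a1 : ((R / g : ℕ) : ℝ) ≤ K * x ^ (0.2 : ℝ) := by
    refine Nat.cast_div_le.trans ?_
    rw [div_le_iff₀ hgpos]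
    calc (R : ℝ) ≤ K * x ^ (1.1 : ℝ) := hR
      _ = K * x ^ (0.2 : ℝ) * x ^ (0.9 : ℝ) := by
          rw [mul_assoc, ← Real.rpow_add hx0]; norm_num
      _ ≤ K * x ^ (0.2 : ℝ) * g := by gcongr
  have a2 : ((r / g : ℕ) : ℝ) ≤ x ^ (0.1 : ℝ) := by
    refine Nat.cast_div_le.trans ?_
    rw [div_le_iff₀ hgpos]
    calc (r : ℝ) ≤ x := hr
      _ = x ^ (0.1 : ℝ) * x ^ (0.9 : ℝ) := by
          rw [← Real.rpow_add hx0]; norm_num
      _ ≤ x ^ (0.1 : ℝ) * g := by gcongr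
  have b1 : (2 * ((R / g + 1 : ℕ) : ℝ) + 1) ≤ (2 * K + 3) * x ^ (0.2 : ℝ) := by
    push_cast
    nlinarith
  have b2 : (2 * ((r / g + 1 : ℕ) : ℝ) + 1) ≤ 5 * x ^ (0.1 : ℝ) := by
    push_cast
    nlinarith
  have hx09 : x ^ (0.9 : ℝ) ≤ x := by
    conv_rhs => rw [← Real.rpow_one x]
    exact Real.rpow_le_rpow_of_exponent_le hx1 (by norm_num)
  have b3 : (2 * (r : ℝ) + 2 * g) ≤ 6 * x := by linarith
  have b4 : (2 * (R : ℝ) + 1) ≤ 3 * K * x ^ (1.1 : ℝ) := by nlinarith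
  have c1 : (2 * ((R / g + 1 : ℕ) : ℝ) + 1) ^ 2 * (2 * ((r / g + 1 : ℕ) : ℝ) + 1) ^ 2
          * (Cv * (2 * r + 2 * g) / (x ^ (0.9 : ℝ)) ^ 2)
        ≤ ((2 * K + 3) * x ^ (0.2 : ℝ)) ^ 2 * (5 * x ^ (0.1 : ℝ)) ^ 2
          * (Cv * (6 * x) / (x ^ (0.9 : ℝ)) ^ 2) := by gcongr
  have c2 : ((2 * K + 3) * x ^ (0.2 : ℝ)) ^ 2 * (5 * x ^ (0.1 : ℝ)) ^ 2
          * (Cv * (6 * x) / (x ^ (0.9 : ℝ)) ^ 2) = 150 * Cv * (2 * K + 3) ^ 2 * x ^ (-0.2 : ℝ) := by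
    have e1 : x ^ (-0.2 : ℝ) = (x ^ (0.2 : ℝ)) ^ 2 * (x ^ (0.1 : ℝ)) ^ 2 * x
        / (x ^ (0.9 : ℝ)) ^ 2 := by
      rw [eq_div_iff (by positivity)]
      simp only [← Real.rpow_natCast, ← Real.rpow_mul hx0.le]
      conv_rhs => rw [← Real.rpow_one x]
      simp only [← Real.rpow_mul hx0.le, ← Real.rpow_add hx0]
      norm_num
    rw [e1]
    ring
  have c3 : (2 * (R : ℝ) + 1) ^ 2 * Real.exp (-(g : ℝ))
      ≤ 9 * K ^ 2 * (x ^ (2.2 : ℝ) * Real.exp (-(x ^ (0.9 : ℝ)))) := by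
    calc (2 * (R : ℝ) + 1) ^ 2 * Real.exp (-(g : ℝ))
        ≤ (3 * K * x ^ (1.1 : ℝ)) ^ 2 * Real.exp (-(x ^ (0.9 : ℝ))) := by gcongr
      _ = 9 * K ^ 2 * (x ^ (2.2 : ℝ) * Real.exp (-(x ^ (0.9 : ℝ)))) := by
          have e1 : x ^ (2.2 : ℝ) = (x ^ (1.1 : ℝ)) ^ 2 := by
            rw [← Real.rpow_natCast, ← Real.rpow_mul hx0.le]; norm_num
          rw [e1]; ring
  rw [c2] at c1
  linarith

variable {G : Measure ℝ} [IsProbabilityMeasure G] {lam : ℝ} {μ : ℝ × ℝ → ℝ}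

lemma exists_good (h0 : G (Set.Iio 0) = 0) {S1 S2 S3 : Set Environment}
    (h1 : (iidLaw G).real S1 ≤ 1 / 4) (h2 : (iidLaw G).real S2 ≤ 1 / 4)
    (h3 : (iidLaw G).real S3 ≤ 1 / 4) : ∃ t : Environment, Nn t ∧ t ∉ S1 ∧ t ∉ S2 ∧ t ∉ S3 := by
  by_contra hcon
  push Not at hcon
  have hcov : (Set.univ : Set Environment) ⊆ {t | ¬ Nn t} ∪ (S1 ∪ (S2 ∪ S3)) := by
    intro t _
    by_contra h4
    simp only [Set.mem_union, not_or, Set.mem_ofPred_eq, not_not] at h4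
    exact h4.2.2.2 (hcon t h4.1 h4.2.1 h4.2.2.1)
  have hN : (iidLaw G).real {t | ¬ Nn t} = 0 := by
    have := ae_Nn (G := G) h0
    rw [ae_iff] at this
    rw [measureReal_def, this]; rfl
  have h5 : (iidLaw G).real Set.univ ≤ (iidLaw G).real ({t | ¬ Nn t} ∪ (S1 ∪ (S2 ∪ S3))) :=
    measureReal_mono hcov
  have h6 := measureReal_union_le (μ := iidLaw G) {t | ¬ Nn t} (S1 ∪ (S2 ∪ S3))
  have h7 := measureReal_union_le (μ := iidLaw G) S1 (S2 ∪ S3)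
  have h8 := measureReal_union_le (μ := iidLaw G) S2 S3
  rw [probReal_univ] at h5
  linarith

lemma final_est {x M y B mG L A c δ' S1 : ℝ} {m r : ℕ} (hx1 : 1 ≤ x) (hM : M = x ^ (1.1 : ℝ))
    (hy : y = x ^ (0.9 : ℝ)) (hB : B = M ^ (0.6 : ℝ)) (hmG : 0 ≤ mG) (hL : 0 ≤ L) (hc : 0 < c)
    (hA : 0 < A) (hr : x / 2 ≤ r) (hr1 : 1 ≤ r) (_hS0 : 0 ≤ S1) (hS : S1 ≤ L * M)
    (hm : (m : ℝ) ≤ 1 + 2 * S1 / (c * r)) (hδ0 : 0 ≤ δ') (hδ : δ' ≤ (1 + 2 * A) * y) :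
    B + 1 + m * δ' + 4 * mG
      ≤ (1 + (1 + 2 * (2 * mG)) + (1 + 4 * L / c) * (1 + 2 * A)) * x ^ (1.04 : ℝ) := by
  have hxpos : 0 < x := by linarith
  have hM1 : 1 ≤ M := by rw [hM]; exact Real.one_le_rpow hx1 (by norm_num)
  have hMpos : 0 < M := by linarith
  have hy0 : 0 < y := by rw [hy]; exact Real.rpow_pos_of_pos hxpos _
  have hm : (m : ℝ) ≤ (1 + 4 * L / c) * (M / x) := by
    have hMx : 1 ≤ M / x := by
      rw [le_div_iff₀ hxpos, one_mul, hM]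
      conv_lhs => rw [← Real.rpow_one x]
      exact Real.rpow_le_rpow_of_exponent_le hx1 (by norm_num)
    have h3 : 2 * S1 / (c * r) ≤ 4 * L / c * (M / x) := by
      have hrpos : (0 : ℝ) < r := by exact_mod_cast hr1
      rw [div_le_iff₀ (by positivity)]
      have h4 : 4 * L / c * (M / x) * (c * (x / 2)) = 2 * (L * M) := by field_simp; ring
      have h5 : 4 * L / c * (M / x) * (c * (x / 2)) ≤ 4 * L / c * (M / x) * (c * r) := by gcongr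
      linarith
    linarith
  have hmδ : m * δ' ≤ (1 + 4 * L / c) * (1 + 2 * A) * x ^ (1.04 : ℝ) := by
    have h3 : M / x * y = x ^ (1.0 : ℝ) := by
      rw [hM, hy, div_mul_eq_mul_div, div_eq_iff hxpos.ne', ← Real.rpow_add hxpos,
        ← Real.rpow_add_one hxpos.ne']
      norm_num
    have h4 : x ^ (1.0 : ℝ) ≤ x ^ (1.04 : ℝ) :=
      Real.rpow_le_rpow_of_exponent_le hx1 (by norm_num)
    calc (m : ℝ) * δ' ≤ ((1 + 4 * L / c) * (M / x)) * ((1 + 2 * A) * y) := by gcongr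
      _ = (1 + 4 * L / c) * (1 + 2 * A) * (M / x * y) := by ring
      _ = (1 + 4 * L / c) * (1 + 2 * A) * x ^ (1.0 : ℝ) := by rw [h3]
      _ ≤ _ := by gcongr
  have hBx : B ≤ x ^ (1.04 : ℝ) := by
    rw [hB, hM, ← Real.rpow_mul hxpos.le]
    exact Real.rpow_le_rpow_of_exponent_le hx1 (by norm_num)
  have h1x : 1 ≤ x ^ (1.04 : ℝ) := Real.one_le_rpow hx1 (by norm_num)
  have h2x : 1 + 4 * mG ≤ (1 + 2 * (2 * mG)) * x ^ (1.04 : ℝ) := by nlinarith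
  nlinarith

set_option maxHeartbeats 2000000 in
/-- **(ii)** -/
theorem comb_ii (h0 : G (Set.Iio 0) = 0) (hlam : 0 < lam)
    (hexp : Integrable (fun x => Real.exp (lam * x)) G) (hμ : IsTC G μ)
    (hlow : ∃ c, 0 < c ∧ ∀ v, c * l1 v ≤ μ v) {Cv : ℝ} (hv : VarB G Cv)
    {ρ : ℝ × ℝ →L[ℝ] ℝ} (hρ : ∀ v, ρ v ≤ μ v) (u : ℝ × ℝ) :
    ∃ x0 C1 : ℝ, 2 ≤ x0 ∧ 0 ≤ C1 ∧ ∀ x, x0 ≤ x → ∀ X : ℤ × ℤ,
      l1 (toR X - x ^ (1.1 : ℝ) • u) ≤ 2 →
      Comb (exc G ρ) u x (exc G ρ X / x ^ (1.1 : ℝ) + C1 * x ^ (-0.06 : ℝ)) := by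
  have h2 : Integrable (fun x : ℝ => x ^ 2) G := integrable_sq h0 hlam hexp
  obtain ⟨c, hc, hlow⟩ := hlow
  obtain ⟨A, hA, hgrid⟩ := grid_lemma h0 hlam hexp hv
  have hm0 : (0 : ℝ) ≤ ∫ z, z ∂G := integral_nonneg_of_ae (ae_nonneg h0)
  obtain ⟨mG, hmG⟩ : ∃ mG, mG = ∫ z, z ∂G := ⟨_, rfl⟩
  rw [← hmG] at hm0
  have hE : Exc (exc G ρ) (2 * mG) := by rw [hmG]; exact exc_Exc h0 h2 hμ hρ
  have hCv : 0 ≤ Cv := by
    have h1 := hv (1, 0)
    have h3 : (0 : ℝ) ≤ ∫ t, (passageTime t 0 (1, 0) - ET G (1, 0)) ^ 2 ∂(iidLaw G) :=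
      integral_nonneg fun t => sq_nonneg _
    have h4 : (n1 ((1 : ℤ), (0 : ℤ)) : ℝ) = 1 := by simp [n1]
    rw [h4] at h1
    linarith
  set L : ℝ := mG * (l1 u + 2) + 2 with hL
  have hlu : 0 ≤ l1 u := l1_nonneg u
  have hL2 : 2 ≤ L := by
    have : 0 ≤ mG * (l1 u + 2) := by positivity
    linarith
  set K : ℝ := 2 * L / c + 2 with hK
  have hK1 : 1 ≤ K := by
    have : 0 ≤ 2 * L / c := by positivity
    linarith
  -- the uniform shape theorem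
  set ε1 : ℝ := min (c / 2) (1 / 4) with hε1
  have hε1pos : 0 < ε1 := lt_min (by positivity) (by norm_num)
  obtain ⟨n0, hn0⟩ := uniform_shape_prob h0 hlam hexp hμ hε1pos
  have ev1 := grid_small K Cv hK1 hCv (ε := 1 / 4) (by norm_num)
  have ev2 : ∀ᶠ x : ℝ in atTop, Cv * (l1 u + 2) * x ^ (-0.22 : ℝ) ≤ 1 / 4 := by
    have := (tendsto_rpow_neg_atTop (y := 0.22) (by norm_num)).const_mul (Cv * (l1 u + 2))
    rw [mul_zero] at this
    exact this.eventually_le_const (by norm_num)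
  have ev3 : ∀ᶠ x : ℝ in atTop, (n0 : ℝ) ≤ x ^ (1.1 : ℝ) :=
    (tendsto_rpow_atTop (by norm_num)).eventually_ge_atTop _
  have ev4 : ∀ᶠ x : ℝ in atTop, 4 * (1 + 2 * A) * x ^ (-0.1 : ℝ) ≤ c := by
    have := (tendsto_rpow_neg_atTop (y := 0.1) (by norm_num)).const_mul (4 * (1 + 2 * A))
    rw [mul_zero] at this
    exact this.eventually_le_const hc
  set C1 : ℝ := 1 + (1 + 2 * (2 * mG)) + (1 + 4 * L / c) * (1 + 2 * A) with hC1
  have hC1' : 0 ≤ C1 := by positivity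
  obtain ⟨x0, hx0⟩ := (ev1.and (ev2.and (ev3.and (ev4.and (eventually_ge_atTop 2))))).exists_forall_of_atTop
  refine ⟨max x0 2, C1, le_max_right _ _, hC1', fun x hx X hX => ?_⟩
  obtain ⟨e1, e2, e3, e4, hx2⟩ := hx0 x ((le_max_left _ _).trans hx)
  have hxpos : 0 < x := by linarith
  have hx1 : 1 ≤ x := by linarith
  obtain ⟨M, hM⟩ : ∃ M, M = x ^ (1.1 : ℝ) := ⟨_, rfl⟩
  have hM1 : 1 ≤ M := by rw [hM]; exact Real.one_le_rpow hx1 (by norm_num)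
  have hMpos : 0 < M := by linarith
  obtain ⟨y, hy⟩ : ∃ y, y = x ^ (0.9 : ℝ) := ⟨_, rfl⟩
  have hy1 : 1 ≤ y := by rw [hy]; exact Real.one_le_rpow hx1 (by norm_num)
  have hypos : 0 < y := by linarith
  rw [← hM] at e3 hX ⊢
  -- choices
  set r : ℕ := ⌊x⌋₊ with hr
  set g : ℕ := ⌈y⌉₊ with hg
  set R : ℕ := ⌈(2 * L / c + 1) * M⌉₊ with hR
  set B : ℝ := M ^ (0.6 : ℝ) with hB
  have hrle : (r : ℝ) ≤ x := Nat.floor_le hxpos.le
  have hrge : x / 2 ≤ r := by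
    have := Nat.lt_floor_add_one x
    rw [← hr] at this
    linarith
  have hr1 : 1 ≤ r := by
    have : (1 : ℝ) ≤ r := by linarith
    exact_mod_cast this
  have hgge : y ≤ g := Nat.le_ceil _
  have hgle : (g : ℝ) ≤ y + 1 := (Nat.ceil_lt_add_one hypos.le).le
  have hgpos : 0 < g := Nat.ceil_pos.mpr hypos
  have hRge : (2 * L / c + 1) * M ≤ R := Nat.le_ceil _
  have hRle : (R : ℝ) ≤ K * M := by
    have h3 : (R : ℝ) < (2 * L / c + 1) * M + 1 := Nat.ceil_lt_add_one (by positivity)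
    rw [hK]
    nlinarith
  have hB0 : 0 ≤ B := by positivity
  have hBM : B ≤ M := by
    rw [hB]
    conv_rhs => rw [← Real.rpow_one M]
    exact Real.rpow_le_rpow_of_exponent_le hM1 (by norm_num)
  have hXn : (n1 X : ℝ) ≤ M * (l1 u + 2) := by
    have h3 : toR X = (toR X - M • u) + M • u := by abel
    have h4 : l1 (toR X) ≤ l1 (toR X - M • u) + l1 (M • u) := by
      conv_lhs => rw [h3]
      exact l1_add_le _ _
    rw [l1_toR, l1_smul, abs_of_pos hMpos] at h4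
    nlinarith
  have hETX : ET G X ≤ mG * (M * (l1 u + 2)) := by
    have h3 := ET_le h0 h2 X
    rw [← hmG] at h3
    calc ET G X ≤ n1 X * mG := h3
      _ ≤ (M * (l1 u + 2)) * mG := by gcongr
      _ = _ := by ring
  have hTot : ET G X + B + 1 ≤ L * M := by
    rw [hL]; nlinarith
  have hETX0 : 0 ≤ ET G X := ET_nonneg h0 X
  have hRbig : ET G X + B + 1 < c / 2 * R := by
    have h3 : c / 2 * ((2 * L / c + 1) * M) ≤ c / 2 * R := by gcongr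
    have h4 : c / 2 * ((2 * L / c + 1) * M) = L * M + c / 2 * M := by field_simp
    have h5 : 0 < c / 2 * M := by positivity
    linarith
  -- the error of the grid
  set δ' : ℝ := y + A * g with hδ'
  have hδ'le : δ' ≤ (1 + 2 * A) * y := by
    rw [hδ']
    nlinarith
  have hδ'0 : 0 ≤ δ' := by positivity
  have hyx : x ^ (-0.1 : ℝ) * x = y := by
    rw [hy]
    conv_lhs => rw [← Real.rpow_one x]
    rw [← Real.rpow_mul hxpos.le, ← Real.rpow_add hxpos]; norm_num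
  have h2δ : 2 * δ' ≤ c * r := by
    have h3 : 4 * (1 + 2 * A) * y ≤ c * x := by
      rw [← hyx]
      calc 4 * (1 + 2 * A) * (x ^ (-0.1 : ℝ) * x) = (4 * (1 + 2 * A) * x ^ (-0.1 : ℝ)) * x := by ring
        _ ≤ c * x := by gcongr
    have h4 : c * (x / 2) ≤ c * r := by gcongr
    nlinarith
  -- a good environment
  have hP1 : (iidLaw G).real {t | ε1 * R ≤ dev μ R t} ≤ 1 / 4 := by
    have hRn : n0 ≤ R := by
      have h3 : M ≤ (2 * L / c + 1) * M := by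
        have : 0 ≤ 2 * L / c := by positivity
        nlinarith
      have : (n0 : ℝ) ≤ R := by linarith
      exact_mod_cast this
    exact (hn0 R hRn).trans (min_le_right _ _)
  have hP2' : (2 * ((R / g + 1 : ℕ) : ℝ) + 1) ^ 2 * (2 * ((r / g + 1 : ℕ) : ℝ) + 1) ^ 2
          * (Cv * (2 * r + 2 * g) / y ^ 2)
          + (2 * (R : ℝ) + 1) ^ 2 * Real.exp (-(g : ℝ)) ≤ 1 / 4 := by
    rw [hy] at hgge hgle ⊢
    exact e1 R r g (by rw [← hM]; exact hRle) hrle hgge hgle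
  have hP2 := (hgrid g R r hgpos y hypos).trans hP2'
  have hP3 : (iidLaw G).real {t | B < |passageTime t 0 X - ET G (X - 0)|} ≤ 1 / 4 := by
    refine (cheb h0 h2 hv 0 X (by positivity)).trans (le_trans ?_ e2)
    rw [sub_zero, div_le_iff₀ (by positivity)]
    have h3 : x ^ (-0.22 : ℝ) * B ^ 2 = M := by
      rw [hB, hM]
      simp only [← Real.rpow_natCast, ← Real.rpow_mul hxpos.le, ← Real.rpow_add hxpos]
      norm_num
    calc Cv * (n1 X : ℝ) ≤ Cv * (M * (l1 u + 2)) := by gcongr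
      _ = Cv * (l1 u + 2) * (x ^ (-0.22 : ℝ) * B ^ 2) := by rw [h3]; ring
      _ = Cv * (l1 u + 2) * x ^ (-0.22 : ℝ) * B ^ 2 := by ring
  obtain ⟨t, ht, ht1, ht2, ht3⟩ := exists_good h0 hP1 hP2 hP3
  have hdev : dev μ R t < c / 2 * R := by
    have h3 : dev μ R t < ε1 * R := not_le.mp ht1
    have h4 : ε1 * (R : ℝ) ≤ c / 2 * R := by gcongr; exact min_le_left _ _
    linarith
  have hgr : ∀ x ∈ box R, ∀ y ∈ box R, n1 (y - x) ≤ r →
      |passageTime t x y - ET G (y - x)| ≤ δ' := not_not.mp ht2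
  have hXt : passageTime t 0 X ≤ ET G X + B := by
    have h3 : |passageTime t 0 X - ET G (X - 0)| ≤ B := not_lt.mp ht3
    rw [sub_zero] at h3
    linarith [(abs_le.mp h3).2]
  obtain ⟨m, inc, hi1, hi2, hi3, hi4⟩ := skeleton_of_good (ρ := ρ) ht hc hlow hr1
    (mu_le_ET h0 h2 hμ) h2δ hδ'0 hdev hgr hXt hRbig
  have hsk := Comb.of_skeleton (D := 2) hE hx1 inc
    (fun i => le_trans (by exact_mod_cast hi1 i) hrle) hMpos (by rw [hi2]; exact hX) hi3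
  refine hsk.mono le_rfl ?_
  -- the final estimate
  have hq : x ^ (-0.06 : ℝ) * M = x ^ (1.04 : ℝ) := by
    rw [hM, ← Real.rpow_add hxpos]; norm_num
  rw [div_le_iff₀ hMpos, add_mul, div_mul_cancel₀ _ hMpos.ne', mul_assoc C1, hq]
  have := final_est hx1 hM hy hB hm0 (by linarith) hc hA hrge hr1 (by positivity) hTot hi4 hδ'0 hδ'le
  rw [hC1]
  linarith

end Crest.Agent.R151.C710
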