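import Crest.Agent.R151.K6

/-!
# R151/K7 — the almost sure shape theorem (owner helper507)
-/

set_option autoImplicit false

open MeasureTheory Filter ProbabilityTheory
open Crest.ProbabilityR.FirstPassage

namespace Crest.Agent.R151.K

variable {μ : ℝ × ℝ → ℝ} {G : Measure ℝ} [IsProbabilityMeasure G] {lam : ℝ}

/-- Chernoff bound from above for one passage time. -/
lemma chernoff_up (h0 : G (Set.Iio 0) = 0) (hlam : 0 < lam)
    (hexp : Integrable (fun x => Real.exp (lam * x)) G) {A : ℝ}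
    (hA : Real.log (∫ x, Real.exp (lam * x) ∂G) + 1 ≤ lam * A) (x y : ℤ × ℤ) (L : ℕ)
    (hL : n1 (y - x) ≤ L) :
    (iidLaw G).real {t | A * L ≤ passageTime t x y} ≤ Real.exp (-(L : ℝ)) := by
  obtain ⟨h1, h2⟩ := exp_pt h0 hlam hexp x y
  have hM := one_le_M h0 hlam hexp
  set M := ∫ x, Real.exp (lam * x) ∂G with hMdef
  have h3 := mul_meas_ge_le_integral_of_nonneg (μ := iidLaw G)
    (f := fun t : Environment => Real.exp (lam * passageTime t x y))
    (Filter.Eventually.of_forall fun t => Real.exp_nonneg _) h1 (Real.exp (lam * (A * L)))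
  have h4 : (iidLaw G).real {t : Environment | A * L ≤ passageTime t x y} ≤
      (iidLaw G).real {t | Real.exp (lam * (A * L)) ≤ Real.exp (lam * passageTime t x y)} := by
    refine measureReal_mono ?_
    intro t ht
    simp only [Set.mem_ofPred_eq] at ht ⊢
    exact Real.exp_le_exp.2 (mul_le_mul_of_nonneg_left ht hlam.le)
  have h5 : M ^ (n1 (y - x)) ≤ M ^ L := pow_le_pow_right₀ hM hL
  have hpos : 0 < Real.exp (lam * (A * L)) := Real.exp_pos _
  have h6 : Real.exp (lam * (A * L)) * (iidLaw G).real {t : Environment | A * L ≤ passageTime t x y}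
      ≤ M ^ L := (mul_le_mul_of_nonneg_left h4 hpos.le).trans (h3.trans (h2.trans h5))
  have h7 : M ^ L * Real.exp L ≤ Real.exp (lam * (A * L)) := by
    have e1 : M ^ L = Real.exp (L * Real.log M) := by
      rw [mul_comm, Real.exp_mul, Real.exp_log (by linarith), Real.rpow_natCast]
    rw [e1, ← Real.exp_add, Real.exp_le_exp]
    have : (0 : ℝ) ≤ L := Nat.cast_nonneg L
    nlinarith
  have h8 : (iidLaw G).real {t : Environment | A * L ≤ passageTime t x y}
      ≤ M ^ L / Real.exp (lam * (A * L)) := by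
    rw [le_div_iff₀ hpos, mul_comm]
    exact h6
  refine h8.trans ?_
  rw [div_le_iff₀ hpos, Real.exp_neg, ← div_eq_inv_mul, le_div_iff₀ (Real.exp_pos _)]
  exact h7

/-- Borel–Cantelli in real form. -/
lemma borel_cantelli {Ω : Type*} [MeasurableSpace Ω] {P : Measure Ω} [IsProbabilityMeasure P]
    {s : ℕ → Set Ω} {b : ℕ → ℝ} (hb : Summable b) (h : ∀ n, P.real (s n) ≤ b n) :
    ∀ᵐ ω ∂P, ∀ᶠ n in atTop, ω ∉ s n := by
  refine ae_eventually_notMem ?_
  have h1 : ∀ n, P (s n) ≤ ENNReal.ofReal (b n) := by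
    intro n
    rw [← ofReal_measureReal]
    exact ENNReal.ofReal_le_ofReal (h n)
  have hb0 : ∀ n, 0 ≤ b n := fun n => measureReal_nonneg.trans (h n)
  refine ne_top_of_le_ne_top ?_ (ENNReal.tsum_le_tsum h1)
  rw [← ENNReal.ofReal_tsum_of_nonneg hb0 hb]
  exact ENNReal.ofReal_ne_top

lemma summable_box (K : ℕ) (hK : 0 < K) :
    Summable fun n : ℕ => (((2 * n + 1) ^ 2 : ℕ) : ℝ) * Real.exp (-((2 * (n / K + 1) : ℕ) : ℝ)) := by
  have hKR : (0 : ℝ) < K := by exact_mod_cast hK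
  have h1 : Summable fun n : ℕ => (9 : ℝ) * ((n : ℝ) ^ 2 * Real.exp (-(1 / K) * n)) :=
    (Real.summable_pow_mul_exp_neg_nat_mul 2 (by positivity)).mul_left 9
  have h2 : Summable fun n : ℕ => (9 : ℝ) * (Real.exp (-(1 / K) * n)) := by
    have := (Real.summable_pow_mul_exp_neg_nat_mul 0 (r := 1 / (K : ℝ)) (by positivity)).mul_left 9
    simpa using this
  refine Summable.of_nonneg_of_le (fun n => by positivity) (fun n => ?_) (h1.add h2)
  have e1 : (((2 * n + 1) ^ 2 : ℕ) : ℝ) ≤ 9 * (n : ℝ) ^ 2 + 9 := by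
    push_cast
    nlinarith [sq_nonneg ((n : ℝ) - 1), (Nat.cast_nonneg n : (0 : ℝ) ≤ n)]
  have e2 : Real.exp (-((2 * (n / K + 1) : ℕ) : ℝ)) ≤ Real.exp (-(1 / K) * n) := by
    rw [Real.exp_le_exp]
    have : (n : ℝ) / K ≤ ((n / K : ℕ) : ℝ) + 1 := by
      rw [div_le_iff₀ hKR]
      have h3 : n < (n / K + 1) * K := by
        have := Nat.lt_div_mul_add (a := n) hK
        linarith [add_mul (n / K) 1 K]
      have : (n : ℝ) < ((n / K : ℕ) + 1) * K := by exact_mod_cast h3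
      linarith
    push_cast
    have h4 : -(1 / (K : ℝ)) * n = -((n : ℝ) / K) := by ring
    rw [h4]
    have h5 : (0 : ℝ) ≤ ((n / K : ℕ) : ℝ) := Nat.cast_nonneg _
    linarith
  calc (((2 * n + 1) ^ 2 : ℕ) : ℝ) * Real.exp (-((2 * (n / K + 1) : ℕ) : ℝ))
      ≤ (9 * (n : ℝ) ^ 2 + 9) * Real.exp (-(1 / K) * n) :=
        mul_le_mul e1 e2 (Real.exp_nonneg _) (by positivity)
    _ = _ := by ring

/-- **Almost sure shape theorem.** -/
theorem as_shape (h0 : G (Set.Iio 0) = 0) (hlam : 0 < lam)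
    (hexp : Integrable (fun x => Real.exp (lam * x)) G) (hμ : IsTC G μ) {ε : ℝ} (hε : 0 < ε) :
    ∀ᵐ t ∂(iidLaw G), ∀ᶠ n : ℕ in atTop, ∀ x ∈ box n,
      |passageTime t 0 x - μ (toR x)| ≤ ε * n := by
  have h2 := integrable_sq h0 hlam hexp
  obtain ⟨m1, hm1⟩ : ∃ m1, m1 = ∫ z, z ∂G := ⟨_, rfl⟩
  have hm : (0 : ℝ) ≤ m1 := by rw [hm1]; exact integral_nonneg_of_ae (ae_nonneg h0)
  obtain ⟨A, hA0, hA⟩ : ∃ A : ℝ, 0 ≤ A ∧ Real.log (∫ x, Real.exp (lam * x) ∂G) + 1 ≤ lam * A := by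
    refine ⟨(Real.log (∫ x, Real.exp (lam * x) ∂G) + 1) / lam, ?_, ?_⟩
    · have := Real.log_nonneg (one_le_M h0 hlam hexp)
      positivity
    · rw [mul_div_cancel₀ _ hlam.ne']
  obtain ⟨K, hK0, hK⟩ : ∃ K : ℕ, 0 < K ∧ 2 * (A + m1) / K ≤ ε / 4 := by
    obtain ⟨K, hK⟩ := exists_nat_gt (2 * (A + m1) / (ε / 4))
    refine ⟨K + 1, Nat.succ_pos _, ?_⟩
    rw [div_lt_iff₀ (by positivity)] at hK
    rw [div_le_iff₀ (by positivity)]
    push_cast
    nlinarith
  have hKR : (0 : ℝ) < K := by exact_mod_cast hK0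
  -- the bad events
  have hBC : ∀ᵐ t ∂(iidLaw G), ∀ᶠ n : ℕ in atTop,
      t ∉ ⋃ x ∈ box n, {t : Environment | A * ((2 * (n / K + 1) : ℕ) : ℝ)
        ≤ passageTime t x (gp K n (gi K n x))} := by
    -- for `n = 0` the index is shifted
    have h1 : ∀ᵐ t ∂(iidLaw G), ∀ᶠ n : ℕ in atTop,
      t ∉ (if n = 0 then ∅ else ⋃ x ∈ box n, {t : Environment | A * ((2 * (n / K + 1) : ℕ) : ℝ)
        ≤ passageTime t x (gp K n (gi K n x))}) := by
      refine borel_cantelli (summable_box K hK0) fun n => ?_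
      split_ifs with hn
      · rw [measureReal_empty]; positivity
      · refine (measureReal_biUnion_finset_le _ _).trans ?_
        refine (Finset.sum_le_card_nsmul _ _ (Real.exp (-((2 * (n / K + 1) : ℕ) : ℝ))) ?_).trans ?_
        · intro x _
          exact chernoff_up h0 hlam hexp hA _ _ _ (gp_gi_close hK0 (Nat.pos_of_ne_zero hn) x)
        · rw [card_box, nsmul_eq_mul]
    filter_upwards [h1] with t ht
    filter_upwards [ht, eventually_gt_atTop 0] with n hn hn0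
    rwa [if_neg hn0.ne'] at hn
  have hgrid : ∀ᵐ t ∂(iidLaw G), ∀ j : ℤ × ℤ, Tendsto (fun s : ℝ =>
      passageTime t 0 (fl ((j.1 : ℝ) / K, (j.2 : ℝ) / K) s) / s) atTop
      (nhds (μ ((j.1 : ℝ) / K, (j.2 : ℝ) / K))) := by
    rw [ae_all_iff]
    intro j
    exact hμ _
  filter_upwards [hBC, hgrid, ae_Nn (G := G) h0] with t ht1 ht2 ht3
  have ht2' : ∀ᶠ n : ℕ in atTop, ∀ j ∈ box K,
      |passageTime t 0 (gp K n j) / n - μ ((j.1 : ℝ) / K, (j.2 : ℝ) / K)| < ε / 4 := by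
    rw [Filter.eventually_all_finset]
    intro j _
    have := ((ht2 j).comp tendsto_natCast_atTop_atTop)
    have := (Metric.tendsto_nhds.1 this) (ε / 4) (by positivity)
    simpa [Real.dist_eq, gp] using this
  obtain ⟨n3', hn3'⟩ : ∃ n3' : ℕ, (2 * A + 4 * m1) / (ε / 4) ≤ n3' := exists_nat_ge _
  filter_upwards [ht1, ht2', eventually_gt_atTop 0, eventually_ge_atTop n3'] with n hn1 hn2 hn0 hn3
  intro x hx
  have hnR : (0 : ℝ) < n := by exact_mod_cast hn0
  have hn3R : (2 * A + 4 * m1) ≤ ε / 4 * n := by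
    have h1 : (n3' : ℝ) ≤ n := by exact_mod_cast hn3
    rw [div_le_iff₀ (by positivity)] at hn3'
    nlinarith
  obtain ⟨z, hz⟩ : ∃ z, z = gp K n (gi K n x) := ⟨_, rfl⟩
  obtain ⟨v, hv⟩ : ∃ v : ℝ × ℝ, v = (((gi K n x).1 : ℝ) / K, ((gi K n x).2 : ℝ) / K) := ⟨_, rfl⟩
  have hzv : z = fl v n := by rw [hz, hv]; rfl
  have hclose : n1 (z - x) ≤ 2 * (n / K + 1) := by rw [hz]; exact gp_gi_close hK0 hn0 x
  have hL : ((2 * (n / K + 1) : ℕ) : ℝ) ≤ 2 * n / K + 2 := by
    push_cast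
    rw [mul_div_assoc]
    have h9 : ((n / K : ℕ) : ℝ) ≤ (n : ℝ) / K := Nat.cast_div_le
    linarith
  have a1 : passageTime t x z ≤ A * (2 * n / K + 2) := by
    simp only [Set.mem_iUnion, not_exists] at hn1
    have := hn1 x hx
    simp only [Set.mem_ofPred_eq, not_le, ← hz] at this
    exact this.le.trans (mul_le_mul_of_nonneg_left hL hA0)
  have a2 : |passageTime t 0 z - n * μ v| ≤ ε / 4 * n := by
    have := (hn2 (gi K n x) (gi_mem hn0 hx)).le
    rw [← hz, ← hv] at this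
    have e : passageTime t 0 z - n * μ v = (passageTime t 0 z / n - μ v) * n := by
      field_simp
    rw [e, abs_mul, abs_of_pos hnR]
    gcongr
  have a3 : |n * μ v - μ (toR x)| ≤ m1 * (2 * n / K + 4) := by
    rw [← mu_smul h0 h2 hμ hnR.le]
    refine (abs_mu_sub_le h0 h2 hμ _ _).trans ?_
    rw [← hm1]
    refine mul_le_mul_of_nonneg_left ?_ hm
    have e1 : (n : ℝ) • v - toR x = ((n : ℝ) • v - toR (fl v n)) + toR (z - x) := by
      rw [toR_sub, hzv]; abel
    rw [e1]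
    refine (l1_add_le _ _).trans ?_
    rw [l1_toR]
    have e2 := l1_fl v n
    have e3 : (n1 (z - x) : ℝ) ≤ 2 * n / K + 2 := by
      have : (n1 (z - x) : ℝ) ≤ ((2 * (n / K + 1) : ℕ) : ℝ) := by exact_mod_cast hclose
      linarith
    linarith
  have a4 : |passageTime t 0 x - passageTime t 0 z| ≤ passageTime t x z := by
    have t1 := pt_triangle ht3 0 x z
    have t2 := pt_triangle ht3 0 z x
    rw [pt_symm ht3 z x] at t2
    rw [abs_le]; constructor <;> linarith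
  have a5 : (A + m1) * (2 * n / K) ≤ ε / 4 * n := by
    have : (A + m1) * (2 * n / K) = 2 * (A + m1) / K * n := by ring
    rw [this]
    gcongr
  have a6 : 0 ≤ ε / 4 * n := by positivity
  calc |passageTime t 0 x - μ (toR x)| = |(passageTime t 0 x - passageTime t 0 z)
        + (passageTime t 0 z - n * μ v) + (n * μ v - μ (toR x))| := by congr 1; ring
    _ ≤ |passageTime t 0 x - passageTime t 0 z| + |passageTime t 0 z - n * μ v|
        + |n * μ v - μ (toR x)| := abs_add_three _ _ _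
    _ ≤ ε * n := by
      have : A * (2 * n / K + 2) + m1 * (2 * n / K + 4)
        = (A + m1) * (2 * n / K) + (2 * A + 4 * m1) := by ring
      linarith

/-- Pointwise form: `|T(0,x) - μ x| ≤ ε |x|₁` for all `x` with `|x|₁` large. -/
theorem as_shape' (h0 : G (Set.Iio 0) = 0) (hlam : 0 < lam)
    (hexp : Integrable (fun x => Real.exp (lam * x)) G) (hμ : IsTC G μ) {ε : ℝ} (hε : 0 < ε) :
    ∀ᵐ t ∂(iidLaw G), ∃ N : ℕ, ∀ x : ℤ × ℤ, N ≤ n1 x →
      |passageTime t 0 x - μ (toR x)| ≤ ε * n1 x := by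
  filter_upwards [as_shape h0 hlam hexp hμ hε] with t ht
  rw [eventually_atTop] at ht
  obtain ⟨N, hN⟩ := ht
  refine ⟨N, fun x hx => hN (n1 x) hx x ?_⟩
  rw [mem_box]
  simp only [n1]
  omega

end Crest.Agent.R151.K
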