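import Crest.Agent.R151.C710f
import Crest.Agent.R151.K7
import Crest.Agent.R151.K4a

/-!
# R151 / S0214 part 2, module C1 (rate): the rate of `Comb`, and localisation in balls (helper710)
-/

set_option autoImplicit false

open MeasureTheory Filter ProbabilityTheory Topology
open Crest.ProbabilityR.FirstPassage

namespace Crest.Agent.R151.C710

open Crest.Agent.R151.K

variable {G : Measure ℝ} [IsProbabilityMeasure G] {lam : ℝ} {μ : ℝ × ℝ → ℝ}

/-- at a contact direction `λ(x) → 0` -/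
lemma comb_lim (h0 : G (Set.Iio 0) = 0) (h2 : Integrable (fun x : ℝ => x ^ 2) G) (hμ : IsTC G μ)
    {ρ : ℝ × ℝ →L[ℝ] ℝ} (hρ : ∀ v, ρ v ≤ μ v) {u : ℝ × ℝ} (hu : ρ u = μ u) {δ : ℝ} (hδ : 0 < δ) :
    ∃ x1 : ℝ, ∀ x, x1 ≤ x → Comb (exc G ρ) u x δ := by
  have hE : Exc (exc G ρ) (2 * ∫ z, z ∂G) := exc_Exc h0 h2 hμ hρ
  obtain ⟨C, hC⟩ : ∃ C, C = 2 * ∫ z, z ∂G := ⟨_, rfl⟩
  rw [← hC] at hE
  have hC0 := hE.C_nonneg
  have t1 : Tendsto (fun N : ℝ => ET G (fl u N) / N - ρ (toR (fl u N)) / N + C * 2 / N) atTop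
      (𝓝 0) := by
    have a1 := ET_tendsto h0 h2 hμ u
    have a2 : Tendsto (fun N : ℝ => ρ (toR (fl u N)) / N) atTop (𝓝 (ρ u)) := by
      have b1 : Tendsto (fun N : ℝ => ρ (N • u - toR (fl u N)) / N) atTop (𝓝 0) := by
        have b3 : Tendsto (fun N : ℝ => (‖ρ‖ * 2) / N) atTop (𝓝 0) :=
          tendsto_const_nhds.div_atTop tendsto_id
        refine squeeze_zero_norm' ?_ b3
        filter_upwards [eventually_gt_atTop 0] with N hN
        rw [norm_div, Real.norm_of_nonneg hN.le]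
        gcongr
        refine (ρ.le_opNorm _).trans ?_
        gcongr
        have b4 := l1_fl u N
        rw [Prod.norm_def]
        unfold l1 at b4
        rw [Real.norm_eq_abs, Real.norm_eq_abs]
        have := abs_nonneg (N • u - toR (fl u N)).1
        have := abs_nonneg (N • u - toR (fl u N)).2
        exact max_le (by linarith) (by linarith)
      have b2 : Tendsto (fun N : ℝ => ρ u - ρ (N • u - toR (fl u N)) / N) atTop (𝓝 (ρ u - 0)) :=
        tendsto_const_nhds.sub b1
      rw [sub_zero] at b2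
      refine b2.congr' ?_
      filter_upwards [eventually_gt_atTop 0] with N hN
      rw [map_sub, map_smul, smul_eq_mul]
      field_simp
      ring
    have a3 : Tendsto (fun N : ℝ => C * 2 / N) atTop (𝓝 0) :=
      tendsto_const_nhds.div_atTop tendsto_id
    have := (a1.sub a2).add a3
    rw [hu, sub_self, add_zero] at this
    exact this
  obtain ⟨N, hN1, hN2⟩ := ((t1.eventually_le_const hδ).and (eventually_ge_atTop 1)).exists
  have hNpos : 0 < N := by linarith
  refine ⟨max 1 (n1 (fl u N)), fun x hx => ?_⟩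
  have hx1 : 1 ≤ x := (le_max_left _ _).trans hx
  have hx2 : (n1 (fl u N) : ℝ) ≤ x := (le_max_right _ _).trans hx
  have hl : l1 (toR (∑ i : Fin 1, (fun _ : Fin 1 => fl u N) i) - N • u) ≤ 2 := by
    have h3 : toR (∑ i : Fin 1, (fun _ : Fin 1 => fl u N) i) - N • u
        = (-1 : ℝ) • (N • u - toR (fl u N)) := by simp
    rw [h3, l1_smul]
    simpa using l1_fl u N
  have := Comb.of_skeleton (D := 2) (S := exc G ρ (fl u N)) hE hx1 (m := 1) (fun _ => fl u N)
    (fun _ => hx2) hNpos hl (by simp)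
  refine this.mono le_rfl (le_trans (le_of_eq ?_) hN1)
  unfold exc
  field_simp

/-- **the rate of `Comb`** -/
theorem comb_final (h0 : G (Set.Iio 0) = 0) (hlam : 0 < lam)
    (hexp : Integrable (fun x => Real.exp (lam * x)) G) (hμ : IsTC G μ)
    (hlow : ∃ c, 0 < c ∧ ∀ v, c * l1 v ≤ μ v) {Cv : ℝ} (hv : VarB G Cv)
    {ρ : ℝ × ℝ →L[ℝ] ℝ} (hρ : ∀ v, ρ v ≤ μ v) {u : ℝ × ℝ} (hu : ρ u = μ u) :
    ∃ x0 K : ℝ, 2 ≤ x0 ∧ 0 ≤ K ∧ ∀ x, x0 ≤ x → Comb (exc G ρ) u x (K * x ^ (-0.06 : ℝ)) := by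
  have h2 : Integrable (fun x : ℝ => x ^ 2) G := integrable_sq h0 hlam hexp
  obtain ⟨x0, C1, hx0, hC1, hii⟩ := comb_ii h0 hlam hexp hμ hlow hv hρ u
  obtain ⟨K, hK, hfin⟩ := comb_rate (exc_Exc h0 h2 hμ hρ) hx0 hC1 hii
    (fun δ hδ => comb_lim h0 h2 hμ hρ hu hδ)
  exact ⟨x0, K, hx0, hK, hfin⟩

/-! ### localisation in balls -/

/-- `ℓ¹`-ball -/
def ball (x : ℤ × ℤ) (L : ℕ) : Set (ℤ × ℤ) := {z | n1 (z - x) ≤ L}

lemma LIn_ball {x y : ℤ × ℤ} {L : ℕ} (h : n1 (y - x) ≤ L) : LIn (ball x L) x y := by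
  simp only [n1, Prod.fst_sub, Prod.snd_sub] at h
  constructor
  · intro i hi
    show n1 ((i, x.2) - x) ≤ L
    simp only [n1, Prod.fst_sub, Prod.snd_sub]
    omega
  · intro i hi
    show n1 ((y.1, i) - x) ≤ L
    simp only [n1, Prod.fst_sub, Prod.snd_sub]
    omega

lemma ball_le {t : Environment} (ht : Nn t) {c : ℝ} {L : ℕ} {x y : ℤ × ℤ}
    (hb : t ∉ Bad c L x) (hT : passageTime t x y < c * L) :
    pR t (ball x L) x y ≤ passageTime t x y := by
  have key : ∀ w : squareLattice.Walk x y, walkCost t w < c * L → ∀ z ∈ w.support,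
      z ∈ ball x L := by
    intro w hw z hz
    by_contra hcon
    have h1 : L ≤ n1 (z - x) := le_of_lt (not_le.mp hcon)
    have h2 := pt_ge_of_not_Bad ht hb h1
    have h3 := pt_le_cost_of_mem ht w hz
    linarith
  refine le_of_forall_pos_lt_add fun δ hδ => ?_
  obtain ⟨w, hw⟩ := exists_walk_lt t x y (c := min (c * L) (passageTime t x y + δ))
    (lt_min hT (by linarith))
  have h1 := pR_le ht w (key w (hw.trans_le (min_le_left _ _)))
  exact lt_of_le_of_lt h1 (hw.trans_le (min_le_right _ _))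

/-- **Localisation**: restricting to a ball of radius `K n` costs almost nothing. -/
theorem ball_upper (h0 : G (Set.Iio 0) = 0) (hz : G {0} = 0) (hlam : 0 < lam)
    (hexp : Integrable (fun x => Real.exp (lam * x)) G) :
    ∃ K' : ℕ, ∃ C : ℝ, 1 ≤ K' ∧ 0 ≤ C ∧ ∀ n : ℕ, 1 ≤ n → ∀ x y : ℤ × ℤ, n1 (y - x) ≤ n →
      ∫ t, pR t (ball x (K' * n)) x y ∂(iidLaw G)
        ≤ ET G (y - x) + C * n1 (y - x) * Real.exp (-((n : ℝ) / 2)) := by
  have h2 : Integrable (fun x : ℝ => x ^ 2) G := integrable_sq h0 hlam hexp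
  obtain ⟨c, hc, hbad⟩ := prob_Bad_le (G := G) h0 hz
  set A : ℝ := (Real.log (∫ x, Real.exp (lam * x) ∂G) + 1) / lam with hA
  have hA0 : 0 ≤ A := by
    have := Real.log_nonneg (one_le_M h0 hlam hexp)
    positivity
  have hAl : Real.log (∫ x, Real.exp (lam * x) ∂G) + 1 ≤ lam * A := by
    rw [hA, mul_div_cancel₀ _ hlam.ne']
  set K' : ℕ := ⌈A / c⌉₊ + 2 with hK'
  have hK'c : A ≤ c * K' := by
    have h3 : A / c ≤ K' := by
      have := Nat.le_ceil (A / c)
      rw [hK']; push_cast; linarith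
    rw [div_le_iff₀ hc] at h3
    linarith
  set m2 : ℝ := ∫ z, z ^ 2 ∂G with hm2
  have hm20 : 0 ≤ m2 := integral_nonneg fun z => sq_nonneg z
  refine ⟨K', m2 / 2 + 1, by omega, by positivity, fun n hn x y hxy => ?_⟩
  have hnR : (1 : ℝ) ≤ n := by exact_mod_cast hn
  by_cases hyx : y = x
  · subst hyx
    have e1 : ∫ t, pR t (ball y (K' * n)) y y ∂(iidLaw G) = 0 := by
      rw [integral_eq_zero_of_ae]
      filter_upwards [ae_Nn (G := G) h0] with t ht
      exact pR_self ht (by show n1 (y - y) ≤ _; simp [n1])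
    rw [e1]
    have := ET_nonneg (G := G) h0 (y - y)
    positivity
  have hn1 : 1 ≤ n1 (y - x) := by
    by_contra hcon
    have h3 : n1 (y - x) = 0 := by omega
    apply hyx
    simp only [n1, Prod.fst_sub, Prod.snd_sub] at h3
    apply Prod.ext <;> omega
  have hn1R : (1 : ℝ) ≤ n1 (y - x) := by exact_mod_cast hn1
  have hLn : n ≤ K' * n := by nlinarith
  have hLIn : LIn (ball x (K' * n)) x y := LIn_ball (hxy.trans hLn)
  obtain ⟨hsqI, hsq⟩ := pR_sq h0 h2 hLIn
  have hI := integrable_pR h0 h2 hLIn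
  set B : Set Environment := Bad c (K' * n) x ∪ {t | A * n ≤ passageTime t x y} with hB
  have hBm : MeasurableSet B :=
    (measurableSet_Bad _ _ _).union (measurableSet_le measurable_const (measurable_pt _ _))
  have hPB : (iidLaw G).real B ≤ 2 * Real.exp (-(n : ℝ)) := by
    have h3 : (iidLaw G).real (Bad c (K' * n) x) ≤ Real.exp (-(n : ℝ)) := by
      refine (hbad _ _).trans ?_
      have h4 : ((1 : ℝ) / 2) ^ (K' * n) ≤ (1 / 2) ^ (2 * n) :=
        pow_le_pow_of_le_one (by norm_num) (by norm_num) (by nlinarith)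
      refine h4.trans ?_
      rw [pow_mul]
      have h5 : Real.exp (-(n : ℝ)) = (Real.exp (-1)) ^ n := by
        rw [← Real.exp_nat_mul]; congr 1; ring
      rw [h5]
      apply pow_le_pow_left₀ (by norm_num)
      have := Real.exp_neg_one_gt_d9
      norm_num
      linarith
    have h4 := chernoff_up h0 hlam hexp hAl x y n hxy
    calc (iidLaw G).real B ≤ _ := measureReal_union_le _ _
      _ ≤ Real.exp (-(n : ℝ)) + Real.exp (-(n : ℝ)) := add_le_add h3 h4
      _ = _ := by ring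
  set N1 : ℝ := (n1 (y - x) : ℝ) with hN1
  set s : ℝ := Real.exp (-((n : ℝ) / 2)) / N1 with hs
  have hN1pos : 0 < N1 := by linarith
  have hspos : 0 < s := by positivity
  have hpt : ∀ᵐ t ∂(iidLaw G), pR t (ball x (K' * n)) x y ≤ passageTime t x y +
      (s / 2 * pR t (ball x (K' * n)) x y ^ 2 + B.indicator (fun _ => 1 / (2 * s)) t) := by
    filter_upwards [ae_Nn (G := G) h0] with t ht
    by_cases htB : t ∈ B
    · rw [Set.indicator_of_mem htB]
      have h3 := pt_nonneg ht x y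
      have h4 : pR t (ball x (K' * n)) x y
          ≤ s / 2 * pR t (ball x (K' * n)) x y ^ 2 + 1 / (2 * s) := by
        have h5 : 0 ≤ (s * pR t (ball x (K' * n)) x y - 1) ^ 2 / (2 * s) := by positivity
        have h6 : (s * pR t (ball x (K' * n)) x y - 1) ^ 2 / (2 * s)
            = s / 2 * pR t (ball x (K' * n)) x y ^ 2 + 1 / (2 * s)
              - pR t (ball x (K' * n)) x y := by
          field_simp; ring
        linarith
      linarith
    · rw [Set.indicator_of_notMem htB]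
      simp only [hB, Set.mem_union, not_or] at htB
      have h3 : passageTime t x y < c * ((K' * n : ℕ) : ℝ) := by
        have h4 : passageTime t x y < A * n := not_le.mp htB.2
        push_cast
        nlinarith
      have h5 := ball_le ht htB.1 h3
      have : 0 ≤ s / 2 * pR t (ball x (K' * n)) x y ^ 2 := by positivity
      linarith
  have hind : Integrable (B.indicator (fun _ : Environment => 1 / (2 * s))) (iidLaw G) :=
    (integrable_const _).indicator hBm
  have hint : Integrable (fun t => passageTime t x y +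
      (s / 2 * pR t (ball x (K' * n)) x y ^ 2 + B.indicator (fun _ => 1 / (2 * s)) t))
      (iidLaw G) :=
    (integrable_pt h0 h2 x y).add ((hsqI.const_mul _).add hind)
  refine (integral_mono_ae hI hint hpt).trans ?_
  have e1 : ∫ t, (passageTime t x y +
      (s / 2 * pR t (ball x (K' * n)) x y ^ 2 + B.indicator (fun _ => 1 / (2 * s)) t)) ∂(iidLaw G)
      = ET G (y - x) + (s / 2 * ∫ t, pR t (ball x (K' * n)) x y ^ 2 ∂(iidLaw G)
        + (iidLaw G).real B * (1 / (2 * s))) := by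
    have hi2 : Integrable (fun t => s / 2 * pR t (ball x (K' * n)) x y ^ 2) (iidLaw G) :=
      hsqI.const_mul _
    have hi3 : Integrable (fun t => s / 2 * pR t (ball x (K' * n)) x y ^ 2 +
        B.indicator (fun _ => 1 / (2 * s)) t) (iidLaw G) := hi2.add hind
    rw [integral_add (integrable_pt h0 h2 x y) hi3,
      integral_add hi2 hind, integral_const_mul, integral_pt,
      integral_indicator hBm, setIntegral_const, smul_eq_mul]
  rw [e1]
  have e2 : s / 2 * ∫ t, pR t (ball x (K' * n)) x y ^ 2 ∂(iidLaw G)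
      ≤ m2 / 2 * N1 * Real.exp (-((n : ℝ) / 2)) := by
    calc s / 2 * ∫ t, pR t (ball x (K' * n)) x y ^ 2 ∂(iidLaw G)
        ≤ s / 2 * (N1 ^ 2 * m2) := by gcongr
      _ = m2 / 2 * N1 * Real.exp (-((n : ℝ) / 2)) := by rw [hs]; field_simp
  have e3 : (iidLaw G).real B * (1 / (2 * s)) ≤ N1 * Real.exp (-((n : ℝ) / 2)) := by
    calc (iidLaw G).real B * (1 / (2 * s)) ≤ (2 * Real.exp (-(n : ℝ))) * (1 / (2 * s)) := by gcongr
      _ = N1 * Real.exp (-((n : ℝ) / 2)) := by
          have e4 : Real.exp (-(n : ℝ)) = Real.exp (-((n : ℝ) / 2)) * Real.exp (-((n : ℝ) / 2)) := by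
            rw [← Real.exp_add]; congr 1; ring
          rw [hs, e4]
          have := (Real.exp_pos (-((n : ℝ) / 2))).ne'
          field_simp
  have e5 : (m2 / 2 + 1) * N1 * Real.exp (-((n : ℝ) / 2))
      = m2 / 2 * N1 * Real.exp (-((n : ℝ) / 2)) + N1 * Real.exp (-((n : ℝ) / 2)) := by ring
  rw [e5]
  linarith

end Crest.Agent.R151.C710
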