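import Crest.Agent.R151.C710g

/-!
# R151 / S0214 part 2, module C1 (rate): lanes (helper710)

`Lane f c0 w = {z : |f z - c0| ≤ w/2}`, `f` a linear functional.  Two points of a lane (of width
at least `|f e1| + |f e2|`) are joined by a staircase in the lane.
-/

set_option autoImplicit false

open MeasureTheory Filter ProbabilityTheory Topology
open Crest.ProbabilityR.FirstPassage

namespace Crest.Agent.R151.C710

open Crest.Agent.R151.K

/-- a lane -/
def Lane (f : ℝ × ℝ →L[ℝ] ℝ) (c0 w : ℝ) : Set (ℤ × ℤ) := {z | |f (toR z) - c0| ≤ w / 2}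

lemma f_toR (f : ℝ × ℝ →L[ℝ] ℝ) (z : ℤ × ℤ) : f (toR z) = z.1 * f (1, 0) + z.2 * f (0, 1) := by
  have : toR z = (z.1 : ℝ) • ((1 : ℝ), (0 : ℝ)) + (z.2 : ℝ) • ((0 : ℝ), (1 : ℝ)) := by
    simp [toR]
  rw [this, map_add, map_smul, map_smul]; rfl

/-- `‖f‖` with respect to `ℓ¹` -/
noncomputable def fn (f : ℝ × ℝ →L[ℝ] ℝ) : ℝ := |f (1, 0)| + |f (0, 1)|

lemma fn_nonneg (f : ℝ × ℝ →L[ℝ] ℝ) : 0 ≤ fn f := by unfold fn; positivity

lemma abs_f_le (f : ℝ × ℝ →L[ℝ] ℝ) (v : ℝ × ℝ) : |f v| ≤ fn f * l1 v := by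
  have h1 : f v = v.1 * f (1, 0) + v.2 * f (0, 1) := by
    have : v = (v.1 : ℝ) • ((1 : ℝ), (0 : ℝ)) + (v.2 : ℝ) • ((0 : ℝ), (1 : ℝ)) := by
      simp
    conv_lhs => rw [this]
    rw [map_add, map_smul, map_smul]; rfl
  rw [h1]
  refine (abs_add_le _ _).trans ?_
  rw [abs_mul, abs_mul]
  unfold fn l1
  have a1 := abs_nonneg v.1
  have a2 := abs_nonneg v.2
  have a3 := abs_nonneg (f (1, 0))
  have a4 := abs_nonneg (f (0, 1))
  nlinarith [mul_nonneg a1 a4, mul_nonneg a2 a3]

/-- one direction only -/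
lemma step_one {lo hi x A : ℝ} {p : ℕ} (hp : 1 ≤ p) (hx1 : lo ≤ x) (hx2 : x ≤ hi)
    (hy1 : lo ≤ x + p * A) (hy2 : x + p * A ≤ hi) : lo ≤ x + A ∧ x + A ≤ hi := by
  have hp1 : (1 : ℝ) ≤ p := by exact_mod_cast hp
  rcases le_total 0 A with hA | hA
  · have : A ≤ p * A := by nlinarith
    constructor <;> linarith
  · have : p * A ≤ A := by nlinarith
    constructor <;> linarith

/-- a real lemma for the choice of the next step of a staircase -/
lemma step_choice {lo hi x A B : ℝ} {p q : ℕ} (hpq : 1 ≤ p ∨ 1 ≤ q)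
    (hw : |A| + |B| ≤ hi - lo) (hx1 : lo ≤ x) (hx2 : x ≤ hi)
    (hy1 : lo ≤ x + p * A + q * B) (hy2 : x + p * A + q * B ≤ hi) :
    (1 ≤ p ∧ lo ≤ x + A ∧ x + A ≤ hi) ∨ (1 ≤ q ∧ lo ≤ x + B ∧ x + B ≤ hi) := by
  rcases Nat.eq_zero_or_pos p with hp | hp
  · right
    subst hp
    have hq : 1 ≤ q := by omega
    simp only [Nat.cast_zero, zero_mul, add_zero] at hy1 hy2
    exact ⟨hq, step_one hq hx1 hx2 hy1 hy2⟩
  rcases Nat.eq_zero_or_pos q with hq | hq
  · left
    subst hq
    simp only [Nat.cast_zero, zero_mul, add_zero] at hy1 hy2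
    exact ⟨hp, step_one hp hx1 hx2 hy1 hy2⟩
  have hp1 : (1 : ℝ) ≤ p := by exact_mod_cast hp
  have hq1 : (1 : ℝ) ≤ q := by exact_mod_cast hq
  rcases le_total 0 A with hA | hA <;> rcases le_total 0 B with hB | hB
  · left
    have h1 : A ≤ p * A := by nlinarith
    have h2 : 0 ≤ q * B := by positivity
    exact ⟨hp, by linarith, by linarith⟩
  · rw [abs_of_nonneg hA, abs_of_nonpos hB] at hw
    by_cases h : x + A ≤ hi
    · left; exact ⟨hp, by linarith, h⟩
    · right; push Not at h; exact ⟨hq, by linarith, by linarith⟩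
  · rw [abs_of_nonpos hA, abs_of_nonneg hB] at hw
    by_cases h : lo ≤ x + A
    · left; exact ⟨hp, h, by linarith⟩
    · right; push Not at h; exact ⟨hq, by linarith, by linarith⟩
  · left
    have e1 : p * A ≤ A := by nlinarith
    have e2 : q * B ≤ 0 := mul_nonpos_of_nonneg_of_nonpos (by linarith) hB
    exact ⟨hp, by linarith, by linarith⟩

/-- next step of a staircase in a lane -/
lemma exists_step {f : ℝ × ℝ →L[ℝ] ℝ} {c0 w : ℝ} (hw : fn f ≤ w) {x y : ℤ × ℤ}
    (hx : x ∈ Lane f c0 w) (hy : y ∈ Lane f c0 w) (hne : x ≠ y) :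
    ∃ z ∈ Lane f c0 w, squareLattice.Adj x z ∧ n1 (y - z) + 1 = n1 (y - x) := by
  have hx' := abs_le.mp (show |f (toR x) - c0| ≤ w / 2 from hx)
  have hy' := abs_le.mp (show |f (toR y) - c0| ≤ w / 2 from hy)
  rw [f_toR] at hx' hy'
  have hw' : |f (1, 0)| + |f (0, 1)| ≤ w := hw
  obtain ⟨F1, hF1⟩ : ∃ F1, F1 = f (1, 0) := ⟨_, rfl⟩
  obtain ⟨F2, hF2⟩ : ∃ F2, F2 = f (0, 1) := ⟨_, rfl⟩
  rw [← hF1, ← hF2] at hx' hy' hw'
  -- the two candidates
  set s1 := (y.1 - x.1).sign with hs1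
  set s2 := (y.2 - x.2).sign with hs2
  have hsgn : ∀ d : ℤ, ((d : ℤ) : ℝ) = (d.natAbs : ℝ) * ((d.sign : ℤ) : ℝ) := by
    intro d
    have h1 : (d.natAbs : ℤ) * d.sign = d := by
      rw [mul_comm]; exact Int.sign_mul_natAbs d
    have h2 : (((d.natAbs : ℤ) * d.sign : ℤ) : ℝ) = (d : ℝ) := by rw [h1]
    rw [← h2]
    push_cast
    simp
  have habs : ∀ d : ℤ, |((d.sign : ℤ) : ℝ)| ≤ 1 := by
    intro d
    rcases lt_trichotomy d 0 with h | h | h
    · simp [Int.sign_eq_neg_one_of_neg h]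
    · simp [h]
    · simp [Int.sign_eq_one_of_pos h]
  have e1 := hsgn (y.1 - x.1)
  have e2 := hsgn (y.2 - x.2)
  push_cast at e1 e2
  have hch := step_choice (lo := c0 - w / 2) (hi := c0 + w / 2)
    (x := x.1 * F1 + x.2 * F2) (A := (s1 : ℝ) * F1) (B := (s2 : ℝ) * F2)
    (p := (y.1 - x.1).natAbs) (q := (y.2 - x.2).natAbs)
    (by
      by_contra hcon
      exact hne (Prod.ext (by omega) (by omega)))
    (by
      have a1 := habs (y.1 - x.1)
      have a2 := habs (y.2 - x.2)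
      rw [abs_mul, abs_mul]
      nlinarith [abs_nonneg F1, abs_nonneg F2])
    (by linarith) (by linarith)
    (by rw [← mul_assoc, ← mul_assoc, ← e1, ← e2]; linarith)
    (by rw [← mul_assoc, ← mul_assoc, ← e1, ← e2]; linarith)
  -- the two candidate moves, when available
  have move1 : y.1 - x.1 ≠ 0 → c0 - w / 2 ≤ x.1 * F1 + x.2 * F2 + s1 * F1 →
      x.1 * F1 + x.2 * F2 + s1 * F1 ≤ c0 + w / 2 →
      ∃ z ∈ Lane f c0 w, squareLattice.Adj x z ∧ n1 (y - z) + 1 = n1 (y - x) := by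
    intro h h1 h2
    refine ⟨(x.1 + s1, x.2), ?_, ?_, ?_⟩
    · show |f (toR (x.1 + s1, x.2)) - c0| ≤ w / 2
      rw [f_toR, ← hF1, ← hF2, abs_le]
      push_cast
      constructor <;> linarith
    · unfold squareLattice
      rw [SimpleGraph.fromRel_adj]
      rcases lt_or_gt_of_ne h with h3 | h3
      · have : s1 = -1 := Int.sign_eq_neg_one_of_neg h3
        rw [this]
        refine ⟨?_, Or.inr (Or.inr ⟨rfl, ?_⟩)⟩
        · intro h4
          have := congrArg Prod.fst h4
          simp at this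
        · simp
      · have : s1 = 1 := Int.sign_eq_one_of_pos h3
        rw [this]
        refine ⟨?_, Or.inl (Or.inr ⟨rfl, rfl⟩)⟩
        intro h4
        have := congrArg Prod.fst h4
        simp at this
    · simp only [n1, Prod.fst_sub, Prod.snd_sub]
      rcases lt_or_gt_of_ne h with h3 | h3
      · have : s1 = -1 := Int.sign_eq_neg_one_of_neg h3
        rw [this]; omega
      · have : s1 = 1 := Int.sign_eq_one_of_pos h3
        rw [this]; omega
  have move2 : y.2 - x.2 ≠ 0 → c0 - w / 2 ≤ x.1 * F1 + x.2 * F2 + s2 * F2 →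
      x.1 * F1 + x.2 * F2 + s2 * F2 ≤ c0 + w / 2 →
      ∃ z ∈ Lane f c0 w, squareLattice.Adj x z ∧ n1 (y - z) + 1 = n1 (y - x) := by
    intro h h1 h2
    refine ⟨(x.1, x.2 + s2), ?_, ?_, ?_⟩
    · show |f (toR (x.1, x.2 + s2)) - c0| ≤ w / 2
      rw [f_toR, ← hF1, ← hF2, abs_le]
      push_cast
      constructor <;> linarith
    · unfold squareLattice
      rw [SimpleGraph.fromRel_adj]
      rcases lt_or_gt_of_ne h with h3 | h3
      · have : s2 = -1 := Int.sign_eq_neg_one_of_neg h3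
        rw [this]
        refine ⟨?_, Or.inr (Or.inl ⟨rfl, ?_⟩)⟩
        · intro h4
          have := congrArg Prod.snd h4
          simp at this
        · simp
      · have : s2 = 1 := Int.sign_eq_one_of_pos h3
        rw [this]
        refine ⟨?_, Or.inl (Or.inl ⟨rfl, rfl⟩)⟩
        intro h4
        have := congrArg Prod.snd h4
        simp at this
    · simp only [n1, Prod.fst_sub, Prod.snd_sub]
      rcases lt_or_gt_of_ne h with h3 | h3
      · have : s2 = -1 := Int.sign_eq_neg_one_of_neg h3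
        rw [this]; omega
      · have : s2 = 1 := Int.sign_eq_one_of_pos h3
        rw [this]; omega
  rcases hch with ⟨h1, h2, h3⟩ | ⟨h1, h2, h3⟩
  · exact move1 (by omega) h2 h3
  · exact move2 (by omega) h2 h3

/-- **connections in lanes** -/
theorem lane_conn {G : Measure ℝ} [IsProbabilityMeasure G] (h0 : G (Set.Iio 0) = 0)
    (h2 : Integrable (fun x : ℝ => x ^ 2) G) {f : ℝ × ℝ →L[ℝ] ℝ} {c0 w : ℝ} (hw : fn f ≤ w)
    {x y : ℤ × ℤ} (hx : x ∈ Lane f c0 w) (hy : y ∈ Lane f c0 w) :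
    Conn (Lane f c0 w) x y ∧ Integrable (fun t => pR t (Lane f c0 w) x y) (iidLaw G) ∧
      ∫ t, pR t (Lane f c0 w) x y ∂(iidLaw G) ≤ n1 (y - x) * ∫ z, z ∂G := by
  induction hn : n1 (y - x) generalizing x with
  | zero =>
    have hxy : x = y := by
      simp only [n1, Prod.fst_sub, Prod.snd_sub] at hn
      exact Prod.ext (by omega) (by omega)
    subst hxy
    have hae : ∀ᵐ t ∂(iidLaw G), pR t (Lane f c0 w) x x = 0 := by
      filter_upwards [ae_Nn (G := G) h0] with t ht
      exact pR_self ht hx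
    refine ⟨Conn.refl hx, (integrable_congr hae).mpr (integrable_zero _ _ _), ?_⟩
    rw [integral_eq_zero_of_ae hae]
    simp
  | succ k ih =>
    have hne : x ≠ y := by
      rintro rfl
      simp [n1] at hn
    obtain ⟨z, hz, hadj, hzn⟩ := exists_step hw hx hy hne
    obtain ⟨c1, i1, l1'⟩ := ih hz (by omega)
    have hc : Conn (Lane f c0 w) x z := Conn.adj hadj hx hz
    have h1 := integrable_id_of_sq h2
    have hie : Integrable (fun t : Environment => t s(x, z)) (iidLaw G) :=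
      (mp_eval (G := G) _).integrable_comp_of_integrable h1
    have hle : ∀ᵐ t ∂(iidLaw G), pR t (Lane f c0 w) x y
        ≤ t s(x, z) + pR t (Lane f c0 w) z y := by
      filter_upwards [ae_Nn (G := G) h0] with t ht
      exact (pR_triangle ht hc c1).trans (add_le_add (pR_adj ht hadj hx hz) le_rfl)
    have hI : Integrable (fun t => pR t (Lane f c0 w) x y) (iidLaw G) := by
      refine (hie.add i1).mono' (measurable_pR _ _ _).aestronglyMeasurable ?_
      filter_upwards [ae_Nn (G := G) h0, hle] with t ht h3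
      rw [Real.norm_of_nonneg (pR_nonneg ht _ _ _)]
      exact h3
    refine ⟨hc.trans c1, hI, ?_⟩
    refine (integral_mono_ae hI (hie.add i1) hle).trans ?_
    have h3 : ∫ t, ((fun t : Environment => t s(x, z)) + fun t => pR t (Lane f c0 w) z y) t
        ∂(iidLaw G) = ∫ z, z ∂G + ∫ t, pR t (Lane f c0 w) z y ∂(iidLaw G) := by
      simp only [Pi.add_apply]
      rw [integral_add hie i1]
      congr 1
      have h := (mp_eval (G := G) s(x, z))
      conv_rhs => rw [← h.map_eq]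
      rw [integral_map h.measurable.aemeasurable (by rw [h.map_eq]; exact h1.1)]
    rw [h3]
    push_cast
    linarith

end Crest.Agent.R151.C710
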