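import Crest.Agent.R151.C710h
import Crest.Agent.R151.B710

/-!
# R151 / S0214 part 2, module C1 (rate): the rate of the excess in lanes (helper710)
-/

set_option autoImplicit false

open MeasureTheory Filter ProbabilityTheory Topology
open Crest.ProbabilityR.FirstPassage

namespace Crest.Agent.R151.C710

open Crest.Agent.R151.K

variable {G : Measure ℝ} [IsProbabilityMeasure G] {lam : ℝ} {μ : ℝ × ℝ → ℝ}

/-- a combination with bounded coefficients -/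
lemma comb_bounded (h0 : G (Set.Iio 0) = 0) {cl : ℝ} (hcl : 0 < cl)
    (hET : ∀ x : ℤ × ℤ, cl * n1 x ≤ ET G x) {ρ : ℝ × ℝ →L[ℝ] ℝ} {u : ℝ × ℝ} (hu : ρ u = 1)
    {x c : ℝ} (h : Comb (exc G ρ) u x c) :
    ∃ y1 y2 : ℤ × ℤ, ∃ t1 t2 : ℝ, (n1 y1 : ℝ) ≤ x ∧ (n1 y2 : ℝ) ≤ x ∧ 0 ≤ t1 ∧ 0 ≤ t2 ∧
      t1 • toR y1 + t2 • toR y2 = u ∧ t1 * ET G y1 + t2 * ET G y2 ≤ 1 + c ∧
      t1 ≤ (1 + c) / cl ∧ t2 ≤ (1 + c) / cl ∧ t1 * n1 y1 + t2 * n1 y2 ≤ (1 + c) / cl := by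
  obtain ⟨y1, y2, t1, t2, h1, h2, h3, h4, h5, h6⟩ := h
  have key : ∀ (y : ℤ × ℤ) (t : ℝ), 0 ≤ t → ∃ t' : ℝ, 0 ≤ t' ∧ t' • toR y = t • toR y ∧
      t' * ET G y = t * ET G y ∧ t' * cl ≤ t * ET G y ∧ (t' * n1 y) * cl ≤ t * ET G y := by
    intro y t ht
    by_cases hy : y = 0
    · subst hy
      refine ⟨0, le_rfl, by simp [toR_zero], by simp [ET_zero h0], by simp [ET_zero h0], ?_⟩
      simp [ET_zero h0]
    · have hn : 1 ≤ n1 y := by
        by_contra hcon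
        apply hy
        simp only [n1] at hcon
        apply Prod.ext
        · show y.1 = 0; omega
        · show y.2 = 0; omega
      have hn' : (1 : ℝ) ≤ n1 y := by exact_mod_cast hn
      refine ⟨t, ht, rfl, rfl, ?_, ?_⟩
      · have := hET y
        calc t * cl = t * (cl * 1) := by ring
          _ ≤ t * (cl * n1 y) := by gcongr
          _ ≤ t * ET G y := by gcongr
      · have := hET y
        calc (t * n1 y) * cl = t * (cl * n1 y) := by ring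
          _ ≤ t * ET G y := by gcongr
  obtain ⟨s1, a1, a2, a3, a4, a5⟩ := key y1 t1 h3
  obtain ⟨s2, b1, b2, b3, b4, b5⟩ := key y2 t2 h4
  have hsum : t1 * ET G y1 + t2 * ET G y2 ≤ 1 + c := by
    have h7 : ρ u = t1 * ρ (toR y1) + t2 * ρ (toR y2) := by
      rw [← h5, map_add, map_smul, map_smul]; rfl
    rw [hu] at h7
    unfold exc at h6
    nlinarith
  have p1 : 0 ≤ t1 * ET G y1 := mul_nonneg h3 (ET_nonneg h0 _)
  have p2 : 0 ≤ t2 * ET G y2 := mul_nonneg h4 (ET_nonneg h0 _)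
  refine ⟨y1, y2, s1, s2, h1, h2, a1, b1, by rw [a2, b2, h5], by rw [a3, b3]; exact hsum, ?_, ?_, ?_⟩
  · rw [le_div_iff₀ hcl]; linarith
  · rw [le_div_iff₀ hcl]; linarith
  · rw [le_div_iff₀ hcl, add_mul]; linarith

lemma ball_sub_lane {f : ℝ × ℝ →L[ℝ] ℝ} {c0 w : ℝ} {z : ℤ × ℤ} {L : ℕ}
    (h : |f (toR z) - c0| + fn f * L ≤ w / 2) : ball z L ⊆ Lane f c0 w := by
  intro v hv
  have hv' : n1 (v - z) ≤ L := hv
  show |f (toR v) - c0| ≤ w / 2
  have e1 : f (toR v) - c0 = (f (toR z) - c0) + f (toR (v - z)) := by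
    rw [toR_sub', map_sub]; ring
  rw [e1]
  refine (abs_add_le _ _).trans (le_trans ?_ h)
  have e2 := abs_f_le f (toR (v - z))
  rw [l1_toR] at e2
  have e3 : (n1 (v - z) : ℝ) ≤ L := by exact_mod_cast hv'
  have := fn_nonneg f
  have : fn f * (n1 (v - z) : ℝ) ≤ fn f * L := by gcongr
  linarith

/-- one step in the lane -/
lemma reach_step (h0 : G (Set.Iio 0) = 0) (h2 : Integrable (fun x : ℝ => x ^ 2) G)
    {f : ℝ × ℝ →L[ℝ] ℝ} {c0 w : ℝ} (hw : fn f ≤ w) {K' n : ℕ} {C : ℝ} (hK' : 1 ≤ K')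
    (hball : ∀ x y : ℤ × ℤ, n1 (y - x) ≤ n → ∫ t, pR t (ball x (K' * n)) x y ∂(iidLaw G)
        ≤ ET G (y - x) + C * n1 (y - x) * Real.exp (-((n : ℝ) / 2)))
    {x z y1 : ℤ × ℤ} (hx : x ∈ Lane f c0 w) (hz : |f (toR z) - c0| + fn f * (K' * n : ℕ) ≤ w / 2)
    (hy1 : n1 y1 ≤ n) :
    ∫ t, pR t (Lane f c0 w) x (z + y1) ∂(iidLaw G) ≤ ∫ t, pR t (Lane f c0 w) x z ∂(iidLaw G)
      + (ET G y1 + C * n1 y1 * Real.exp (-((n : ℝ) / 2))) := by
  have hn1 : n1 (z + y1 - z) ≤ n := by rw [add_sub_cancel_left]; exact hy1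
  have hnL : n ≤ K' * n := by nlinarith
  have hsub := ball_sub_lane hz
  have hzL : z ∈ Lane f c0 w := hsub (by show n1 (z - z) ≤ _; simp [n1])
  have hzyL : z + y1 ∈ Lane f c0 w := hsub (show n1 (z + y1 - z) ≤ _ from hn1.trans hnL)
  have hLIn : LIn (ball z (K' * n)) z (z + y1) := LIn_ball (hn1.trans hnL)
  obtain ⟨hcb, -⟩ := exists_path_edgesR hLIn
  have hIb := integrable_pR (G := G) h0 h2 hLIn
  obtain ⟨c1, i1, -⟩ := lane_conn (G := G) h0 h2 hw hx hzL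
  obtain ⟨c2, i2, -⟩ := lane_conn (G := G) h0 h2 hw hx hzyL
  obtain ⟨c3, -, -⟩ := lane_conn (G := G) h0 h2 hw hzL hzyL
  have hle : ∀ᵐ t ∂(iidLaw G), pR t (Lane f c0 w) x (z + y1)
      ≤ pR t (Lane f c0 w) x z + pR t (ball z (K' * n)) z (z + y1) := by
    filter_upwards [ae_Nn (G := G) h0] with t ht
    exact (pR_triangle ht c1 c3).trans (add_le_add le_rfl (pR_anti ht hsub hcb))
  refine (integral_mono_ae i2 (i1.add hIb) hle).trans ?_
  have e1 : ∫ t, ((fun t => pR t (Lane f c0 w) x z) + fun t =>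
      pR t (ball z (K' * n)) z (z + y1)) t ∂(iidLaw G)
      = ∫ t, pR t (Lane f c0 w) x z ∂(iidLaw G)
        + ∫ t, pR t (ball z (K' * n)) z (z + y1) ∂(iidLaw G) := by
    simp only [Pi.add_apply]
    exact integral_add i1 hIb
  rw [e1]
  have := hball z (z + y1) hn1
  rw [add_sub_cancel_left] at this
  linarith

lemma floor_step {t δ s : ℝ} (ht : 0 ≤ t) (hs : 0 ≤ s) (hδ0 : 0 ≤ δ) (hδ : δ * t ≤ 1) :
    ⌊(s + δ) * t⌋₊ = ⌊s * t⌋₊ ∨ ⌊(s + δ) * t⌋₊ = ⌊s * t⌋₊ + 1 := by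
  have h1 : ⌊s * t⌋₊ ≤ ⌊(s + δ) * t⌋₊ := Nat.floor_le_floor (by nlinarith)
  have h2 : ⌊(s + δ) * t⌋₊ ≤ ⌊s * t⌋₊ + 1 := by
    have h3 : ⌊(s + δ) * t⌋₊ ≤ ⌊s * t + 1⌋₊ := Nat.floor_le_floor (by nlinarith)
    rwa [Nat.floor_add_one (by positivity)] at h3
  omega

/-- the chain of steps along the direction `u` -/
lemma reach_chain (h0 : G (Set.Iio 0) = 0) (h2 : Integrable (fun x : ℝ => x ^ 2) G)
    {f : ℝ × ℝ →L[ℝ] ℝ} {c0 w : ℝ} (hw : fn f ≤ w) {K' n : ℕ} {C : ℝ} (hK' : 1 ≤ K')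
    (hball : ∀ x y : ℤ × ℤ, n1 (y - x) ≤ n → ∫ t, pR t (ball x (K' * n)) x y ∂(iidLaw G)
        ≤ ET G (y - x) + C * n1 (y - x) * Real.exp (-((n : ℝ) / 2)))
    {u : ℝ × ℝ} (hfu : f u = 0) {y1 y2 : ℤ × ℤ} {t1 t2 : ℝ} (hy1 : n1 y1 ≤ n) (hy2 : n1 y2 ≤ n)
    (ht1 : 0 ≤ t1) (ht2 : 0 ≤ t2) (hu : t1 • toR y1 + t2 • toR y2 = u) {m : ℕ} (hm : 1 ≤ m)
    (hm1 : t1 ≤ m) (hm2 : t2 ≤ m) {x : ℤ × ℤ}
    (hx : |f (toR x) - c0| + 3 * fn f * n + fn f * (K' * n : ℕ) ≤ w / 2) (j : ℕ) :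
    ∫ t, pR t (Lane f c0 w) x (x + ⌊(j : ℝ) / m * t1⌋₊ • y1 + ⌊(j : ℝ) / m * t2⌋₊ • y2) ∂(iidLaw G)
      ≤ ⌊(j : ℝ) / m * t1⌋₊ * (ET G y1 + C * n1 y1 * Real.exp (-((n : ℝ) / 2)))
        + ⌊(j : ℝ) / m * t2⌋₊ * (ET G y2 + C * n1 y2 * Real.exp (-((n : ℝ) / 2))) := by
  have hfn := fn_nonneg f
  have hmR : (1 : ℝ) ≤ m := by exact_mod_cast hm
  have hmpos : (0 : ℝ) < m := by linarith
  have hxL : x ∈ Lane f c0 w := by
    show |f (toR x) - c0| ≤ w / 2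
    have : 0 ≤ 3 * fn f * n := by positivity
    have : 0 ≤ fn f * (K' * n : ℕ) := by positivity
    linarith
  -- positions
  have hpos : ∀ j : ℕ, |f (toR (x + ⌊(j : ℝ) / m * t1⌋₊ • y1 + ⌊(j : ℝ) / m * t2⌋₊ • y2)) - c0|
      ≤ |f (toR x) - c0| + 2 * fn f * n := by
    intro j
    set s : ℝ := (j : ℝ) / m with hs
    have hs0 : 0 ≤ s := by positivity
    have e1 : f (toR (x + ⌊s * t1⌋₊ • y1 + ⌊s * t2⌋₊ • y2)) - c0
        = (f (toR x) - c0) + (f ((⌊s * t1⌋₊ - s * t1) • toR y1)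
          + f ((⌊s * t2⌋₊ - s * t2) • toR y2)) := by
      rw [toR_add', toR_add', toR_nsmul, toR_nsmul]
      simp only [map_add, map_smul, smul_eq_mul]
      have h3 : t1 * f (toR y1) + t2 * f (toR y2) = 0 := by
        rw [← hfu, ← hu, map_add, map_smul, map_smul]; rfl
      linear_combination s * h3
    rw [e1]
    refine (abs_add_le _ _).trans ?_
    have key : ∀ (y : ℤ × ℤ) (t : ℝ), n1 y ≤ n → 0 ≤ t →
        |f ((⌊s * t⌋₊ - s * t) • toR y)| ≤ fn f * n := by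
      intro y t hy ht
      refine (abs_f_le f _).trans ?_
      rw [l1_smul, l1_toR]
      have h4 : |(⌊s * t⌋₊ : ℝ) - s * t| ≤ 1 := by
        rw [abs_le]
        have h5 := Nat.floor_le (show 0 ≤ s * t by positivity)
        have h6 := Nat.lt_floor_add_one (s * t)
        constructor <;> linarith
      have h7 : (n1 y : ℝ) ≤ n := by exact_mod_cast hy
      have : |(⌊s * t⌋₊ : ℝ) - s * t| * (n1 y : ℝ) ≤ 1 * n := by gcongr
      calc fn f * (|(⌊s * t⌋₊ : ℝ) - s * t| * (n1 y : ℝ)) ≤ fn f * (1 * n) := by gcongr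
        _ = fn f * n := by ring
    have k1 := key y1 t1 hy1 ht1
    have k2 := key y2 t2 hy2 ht2
    have k3 := abs_add_le (f ((⌊s * t1⌋₊ - s * t1) • toR y1)) (f ((⌊s * t2⌋₊ - s * t2) • toR y2))
    linarith
  induction j with
  | zero =>
    simp only [Nat.cast_zero, zero_div, zero_mul, Nat.floor_zero, zero_smul, add_zero]
    have hae : ∀ᵐ t ∂(iidLaw G), pR t (Lane f c0 w) x x = 0 := by
      filter_upwards [ae_Nn (G := G) h0] with t ht
      exact pR_self ht hxL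
    rw [integral_eq_zero_of_ae hae]
  | succ j ih =>
    have ej : ((j + 1 : ℕ) : ℝ) / m = (j : ℝ) / m + 1 / m := by push_cast; ring
    rw [ej]
    have hp := hpos j
    obtain ⟨s, hs⟩ : ∃ s : ℝ, s = (j : ℝ) / m := ⟨_, rfl⟩
    rw [← hs] at ih hp ⊢
    have hs0 : 0 ≤ s := by rw [hs]; positivity
    have hδ0 : (0 : ℝ) ≤ 1 / m := by positivity
    have f1 := floor_step ht1 hs0 hδ0 (show 1 / (m : ℝ) * t1 ≤ 1 by
      rw [one_div, inv_mul_le_iff₀ hmpos, mul_one]; exact hm1)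
    have f2 := floor_step ht2 hs0 hδ0 (show 1 / (m : ℝ) * t2 ≤ 1 by
      rw [one_div, inv_mul_le_iff₀ hmpos, mul_one]; exact hm2)
    obtain ⟨a, ha⟩ : ∃ a : ℕ, a = ⌊s * t1⌋₊ := ⟨_, rfl⟩
    obtain ⟨b, hb⟩ : ∃ b : ℕ, b = ⌊s * t2⌋₊ := ⟨_, rfl⟩
    rw [← ha, ← hb] at ih hp
    rw [← ha] at f1
    rw [← hb] at f2
    have hfnn : 0 ≤ fn f * n := by positivity
    have z1 : |f (toR (x + a • y1 + b • y2)) - c0| + fn f * (K' * n : ℕ) ≤ w / 2 := by linarith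
    have z2 : |f (toR (x + a • y1 + b • y2 + y1)) - c0| + fn f * (K' * n : ℕ) ≤ w / 2 := by
      have e1 : f (toR (x + a • y1 + b • y2 + y1)) - c0
          = (f (toR (x + a • y1 + b • y2)) - c0) + f (toR y1) := by
        rw [toR_add', map_add]; ring
      rw [e1]
      have e2 := abs_add_le (f (toR (x + a • y1 + b • y2)) - c0) (f (toR y1))
      have e3 := abs_f_le f (toR y1)
      rw [l1_toR] at e3
      have e4 : (n1 y1 : ℝ) ≤ n := by exact_mod_cast hy1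
      have e5 : fn f * (n1 y1 : ℝ) ≤ fn f * n := by gcongr
      linarith
    have r1 := reach_step h0 h2 hw hK' hball hxL z1 hy1
    have r2 := reach_step h0 h2 hw hK' hball hxL z1 hy2
    have r3 := reach_step h0 h2 hw hK' hball hxL z2 hy2
    rcases f1 with f1 | f1 <;> rcases f2 with f2 | f2 <;> rw [f1, f2]
    · exact ih
    · have e1 : x + a • y1 + (b + 1) • y2 = x + a • y1 + b • y2 + y2 := by
        rw [succ_nsmul]; abel
      rw [e1]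
      push_cast
      linarith
    · have e1 : x + (a + 1) • y1 + b • y2 = x + a • y1 + b • y2 + y1 := by
        rw [succ_nsmul]; abel
      rw [e1]
      push_cast
      linarith
    · have e1 : x + (a + 1) • y1 + (b + 1) • y2 = x + a • y1 + b • y2 + y1 + y2 := by
        rw [succ_nsmul, succ_nsmul]; abel
      rw [e1]
      push_cast
      linarith

end Crest.Agent.R151.C710
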