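import Crest.Agent.R151.K7
import Crest.Agent.R151.B710Top

/-!
# R151/K8 — `NormLike` for the time constant (owner helper507)
-/

set_option autoImplicit false

open MeasureTheory Filter ProbabilityTheory
open Crest.ProbabilityR.FirstPassage

namespace Crest.Agent.R151.K

/-- The time constant of a law with an exponential moment and no atom at zero is a norm. -/
theorem normLike_of_isTC {G : Measure ℝ} [IsProbabilityMeasure G] {lam : ℝ}
    {μ : ℝ × ℝ → ℝ} (h0 : G (Set.Iio 0) = 0) (hz : G {0} = 0) (hlam : 0 < lam)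
    (hexp : Integrable (fun x => Real.exp (lam * x)) G) (hμ : IsTC G μ) : B710.NormLike μ := by
  have h2 := integrable_sq h0 hlam hexp
  obtain ⟨c, hc, hlow⟩ := exists_mu_ge h0 hz h2 hμ
  have hm : (0 : ℝ) ≤ ∫ z, z ∂G := integral_nonneg_of_ae (ae_nonneg h0)
  refine ⟨fun s v hs => mu_smul h0 h2 hμ hs v, mu_neg h0 h2 hμ, mu_add_le h0 h2 hμ,
    ⟨c, hc, hlow⟩, ⟨(∫ z, z ∂G) + 1, by linarith, fun v => ?_⟩⟩
  refine (mu_le h0 h2 hμ v).trans ?_
  have := l1_nonneg v
  change (∫ z, z ∂G) * l1 v ≤ ((∫ z, z ∂G) + 1) * l1 v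
  nlinarith

lemma gamma_zero (κ r : ℝ) : gammaMeasure κ r {0} = 0 := by
  unfold gammaMeasure
  rw [withDensity_apply _ (measurableSet_singleton 0)]
  exact setLIntegral_measure_zero _ _ (by simp)

/-- The time constant of the Gamma law is a norm. -/
theorem normLike_gamma {κ r : ℝ} (hκ : 0 < κ) (hr : 0 < r) {μ : ℝ × ℝ → ℝ}
    (hμ : B710.IsTimeConstant κ r μ) : B710.NormLike μ := by
  have : IsProbabilityMeasure (gammaMeasure κ r) := isProbabilityMeasure_gammaMeasure hκ hr
  exact normLike_of_isTC (gamma_Iio κ r) (gamma_zero κ r) (half_pos hr) (gamma_exp hκ hr) hμ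

end Crest.Agent.R151.K
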