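import Crest.Agent.R151.C710i
import Crest.Agent.R151.K8

/-!
# R151 / S0214 part 2, module C1: the rate `Φ(w) ≤ C w^{0.94}` in lanes (helper710)

Main results: `lane_rate` (abstract directions) and `FlatData.lane_rate_b`, `lane_rate_a`.
-/

set_option autoImplicit false

open MeasureTheory Filter ProbabilityTheory Topology
open Crest.ProbabilityR.FirstPassage

namespace Crest.Agent.R151.C710

open Crest.Agent.R151.K

variable {G : Measure ℝ} [IsProbabilityMeasure G] {lam : ℝ} {μ : ℝ × ℝ → ℝ}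

/-- a lattice point in the middle of the lane -/
lemma exists_center {f : ℝ × ℝ →L[ℝ] ℝ} {a : ℝ × ℝ} (hfa : f a = 1) {c0 w : ℝ} {x : ℤ × ℤ}
    (hx : x ∈ Lane f c0 w) :
    ∃ x' : ℤ × ℤ, |f (toR x') - c0| ≤ 2 * fn f ∧ (n1 (x' - x) : ℝ) ≤ w / 2 * l1 a + 2 := by
  have hx' : |f (toR x) - c0| ≤ w / 2 := hx
  set v : ℝ × ℝ := toR x + (c0 - f (toR x)) • a with hv
  have hfv : f v = c0 := by rw [hv, map_add, map_smul, hfa]; simp
  have h1 := l1_fl v 1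
  rw [one_smul] at h1
  refine ⟨fl v 1, ?_, ?_⟩
  · have e1 : f (toR (fl v 1)) - c0 = - f (v - toR (fl v 1)) := by rw [map_sub, hfv]; ring
    rw [e1, abs_neg]
    refine (abs_f_le f _).trans ?_
    have := fn_nonneg f
    nlinarith
  · rw [← l1_toR]
    have e1 : toR (fl v 1 - x) = (-1 : ℝ) • (v - toR (fl v 1)) + (c0 - f (toR x)) • a := by
      rw [toR_sub', hv]; simp only [neg_smul, one_smul]; abel
    rw [e1]
    refine (l1_add_le _ _).trans ?_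
    rw [l1_smul, l1_smul]
    have h3 : |c0 - f (toR x)| ≤ w / 2 := by rw [abs_sub_comm]; exact hx'
    have h4 := l1_nonneg a
    have h5 : |c0 - f (toR x)| * l1 a ≤ w / 2 * l1 a := by gcongr
    have h6 : |(-1 : ℝ)| = 1 := by norm_num
    rw [h6]
    linarith

lemma three_integral {f : ℝ × ℝ →L[ℝ] ℝ} {c0 w : ℝ} (h0 : G (Set.Iio 0) = 0)
    (h2 : Integrable (fun x : ℝ => x ^ 2) G) (hw : fn f ≤ w) {x y z : ℤ × ℤ}
    (hx : x ∈ Lane f c0 w) (hy : y ∈ Lane f c0 w) (hz : z ∈ Lane f c0 w) :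
    ∫ t, pR t (Lane f c0 w) x z ∂(iidLaw G) ≤ ∫ t, pR t (Lane f c0 w) x y ∂(iidLaw G)
      + ∫ t, pR t (Lane f c0 w) y z ∂(iidLaw G) := by
  obtain ⟨c1, i1, -⟩ := lane_conn (G := G) h0 h2 hw hx hy
  obtain ⟨c2, i2, -⟩ := lane_conn (G := G) h0 h2 hw hy hz
  obtain ⟨c3, i3, -⟩ := lane_conn (G := G) h0 h2 hw hx hz
  rw [← integral_add i1 i2]
  refine integral_mono_ae i3 (i1.add i2) ?_
  filter_upwards [ae_Nn (G := G) h0] with t ht
  exact pR_triangle ht c1 c2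

/-- the estimate at a given scale `n` -/
lemma lane_core (h0 : G (Set.Iio 0) = 0) (h2 : Integrable (fun x : ℝ => x ^ 2) G)
    {f g : ℝ × ℝ →L[ℝ] ℝ} {c0 w : ℝ} (hfw : fn f ≤ w) {K' n : ℕ} {C : ℝ} (hC : 0 ≤ C)
    (hK' : 1 ≤ K')
    (hball : ∀ x y : ℤ × ℤ, n1 (y - x) ≤ n → ∫ t, pR t (ball x (K' * n)) x y ∂(iidLaw G)
        ≤ ET G (y - x) + C * n1 (y - x) * Real.exp (-((n : ℝ) / 2)))
    {a u : ℝ × ℝ} (hfu : f u = 0) (hfa : f a = 1) (hdec : ∀ v, v = f v • a + g v • u)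
    {y1 y2 : ℤ × ℤ} {t1 t2 : ℝ} (hb1 : n1 y1 ≤ n) (hb2 : n1 y2 ≤ n)
    (ht1 : 0 ≤ t1) (ht2 : 0 ≤ t2) (hu : t1 • toR y1 + t2 • toR y2 = u) {m : ℕ} (hm : 1 ≤ m)
    (hm1 : t1 ≤ m) (hm2 : t2 ≤ m)
    (hroom : 2 * fn f + 3 * fn f * n + fn f * (K' * n : ℕ) ≤ w / 2) (hnw : (n : ℝ) ≤ w)
    (hw1 : 1 ≤ w) {x y : ℤ × ℤ} (hx : x ∈ Lane f c0 w)
    (hy : y ∈ Lane f c0 w) (hg : 0 ≤ g (toR (y - x))) :
    ∫ t, pR t (Lane f c0 w) x y ∂(iidLaw G)
      ≤ g (toR (y - x)) * (t1 * (ET G y1 + C * n1 y1 * Real.exp (-((n : ℝ) / 2)))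
          + t2 * (ET G y2 + C * n1 y2 * Real.exp (-((n : ℝ) / 2))))
        + (w * (l1 a + 2) + w * (2 * l1 a + l1 u + 6)) * ∫ z, z ∂G := by
  have hfn := fn_nonneg f
  have hmG0 : (0 : ℝ) ≤ ∫ z, z ∂G := integral_nonneg_of_ae (ae_nonneg h0)
  have hl1a := l1_nonneg a
  have hl1u := l1_nonneg u
  have hnn : (0 : ℝ) ≤ n := Nat.cast_nonneg n
  -- the center
  obtain ⟨x', hx'1, hx'2⟩ := exists_center hfa hx
  have hroom' : |f (toR x') - c0| + 3 * fn f * n + fn f * (K' * n : ℕ) ≤ w / 2 := by linarith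
  have q1 : 0 ≤ 3 * fn f * n := by positivity
  have q2 : 0 ≤ fn f * (K' * n : ℕ) := by positivity
  have hx'L : x' ∈ Lane f c0 w := by
    show |f (toR x') - c0| ≤ w / 2
    linarith
  -- the number of steps
  obtain ⟨N, hN⟩ : ∃ N, N = g (toR (y - x)) := ⟨_, rfl⟩
  rw [← hN] at hg ⊢
  have hmR1 : (1 : ℝ) ≤ m := by exact_mod_cast hm
  have hmpos : (0 : ℝ) < m := by linarith
  obtain ⟨J, hJ⟩ : ∃ J : ℕ, J = ⌊(m : ℝ) * N⌋₊ := ⟨_, rfl⟩
  obtain ⟨s, hs⟩ : ∃ s : ℝ, s = (J : ℝ) / m := ⟨_, rfl⟩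
  have hs0 : 0 ≤ s := by rw [hs]; positivity
  have hsN : s ≤ N := by
    rw [hs, div_le_iff₀ hmpos, mul_comm, hJ]
    exact Nat.floor_le (by positivity)
  have hsN' : N - 1 ≤ s := by
    have h3 : (m : ℝ) * N < J + 1 := by rw [hJ]; exact Nat.lt_floor_add_one _
    rw [hs, le_div_iff₀ hmpos]
    nlinarith
  have hchain := reach_chain h0 h2 hfw hK' hball hfu hb1 hb2 ht1 ht2 hu hm hm1 hm2 hroom' J
  rw [← hs] at hchain
  obtain ⟨A, hA⟩ : ∃ A : ℕ, A = ⌊s * t1⌋₊ := ⟨_, rfl⟩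
  obtain ⟨B, hB⟩ : ∃ B : ℕ, B = ⌊s * t2⌋₊ := ⟨_, rfl⟩
  rw [← hA, ← hB] at hchain
  have hA1 : (A : ℝ) ≤ s * t1 := by rw [hA]; exact Nat.floor_le (by positivity)
  have hA2 : s * t1 ≤ A + 1 := by rw [hA]; exact (Nat.lt_floor_add_one _).le
  have hB1 : (B : ℝ) ≤ s * t2 := by rw [hB]; exact Nat.floor_le (by positivity)
  have hB2 : s * t2 ≤ B + 1 := by rw [hB]; exact (Nat.lt_floor_add_one _).le
  obtain ⟨z, hzdef⟩ : ∃ z : ℤ × ℤ, z = x' + A • y1 + B • y2 := ⟨_, rfl⟩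
  rw [← hzdef] at hchain
  -- position of z
  have hzx : toR z - toR x' - s • u = (A - s * t1) • toR y1 + (B - s * t2) • toR y2 := by
    rw [hzdef, toR_add', toR_add', toR_nsmul, toR_nsmul, ← hu]
    simp only [smul_add, smul_smul, sub_smul]
    abel
  have hsmall : l1 (toR z - toR x' - s • u) ≤ 2 * n := by
    rw [hzx]
    refine (l1_add_le _ _).trans ?_
    rw [l1_smul, l1_smul, l1_toR, l1_toR]
    have e1 : |(A : ℝ) - s * t1| ≤ 1 := by rw [abs_le]; constructor <;> linarith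
    have e2 : |(B : ℝ) - s * t2| ≤ 1 := by rw [abs_le]; constructor <;> linarith
    have b1 : (n1 y1 : ℝ) ≤ n := by exact_mod_cast hb1
    have b2 : (n1 y2 : ℝ) ≤ n := by exact_mod_cast hb2
    have e3 : |(A : ℝ) - s * t1| * (n1 y1 : ℝ) ≤ 1 * n := by gcongr
    have e4 : |(B : ℝ) - s * t2| * (n1 y2 : ℝ) ≤ 1 * n := by gcongr
    linarith
  have hzL : z ∈ Lane f c0 w := by
    show |f (toR z) - c0| ≤ w / 2
    have e1 : f (toR z) - c0 = (f (toR x') - c0) + f (toR z - toR x' - s • u) := by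
      rw [map_sub, map_sub, map_smul, hfu]; simp
    rw [e1]
    refine (abs_add_le _ _).trans ?_
    have e2 := abs_f_le f (toR z - toR x' - s • u)
    have e3 : fn f * l1 (toR z - toR x' - s • u) ≤ fn f * (2 * n) := by gcongr
    have e5 : 0 ≤ fn f * n := by positivity
    linarith
  -- the last connection
  have hyx : toR y - toR x = f (toR (y - x)) • a + N • u := by
    rw [hN, ← toR_sub']; exact hdec _
  have hfyx : |f (toR (y - x))| ≤ w := by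
    have e1 : f (toR (y - x)) = (f (toR y) - c0) - (f (toR x) - c0) := by
      rw [toR_sub', map_sub]; ring
    rw [e1]
    have e2 := abs_sub (f (toR y) - c0) (f (toR x) - c0)
    have e3 : |f (toR y) - c0| ≤ w / 2 := hy
    have e4 : |f (toR x) - c0| ≤ w / 2 := hx
    linarith
  have hwa : 0 ≤ w * l1 a := by positivity
  have hxx' : (n1 (x' - x) : ℝ) ≤ w * (l1 a + 2) := by linarith
  have hyz : (n1 (y - z) : ℝ) ≤ w * (2 * l1 a + l1 u + 6) := by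
    rw [← l1_toR]
    have e1 : toR (y - z) = ((-1 : ℝ) • toR (x' - x) + f (toR (y - x)) • a)
        + ((N - s) • u + (-1 : ℝ) • (toR z - toR x' - s • u)) := by
      have e2 : toR y = toR x + (f (toR (y - x)) • a + N • u) := by rw [← hyx]; abel
      rw [toR_sub', toR_sub', e2]
      simp only [sub_smul, neg_smul, one_smul]
      abel
    rw [e1]
    refine (l1_add_le _ _).trans ?_
    have e3 := l1_add_le ((-1 : ℝ) • toR (x' - x)) (f (toR (y - x)) • a)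
    have e4 := l1_add_le ((N - s) • u) ((-1 : ℝ) • (toR z - toR x' - s • u))
    rw [l1_smul, l1_smul, l1_toR] at e3
    rw [l1_smul, l1_smul] at e4
    have e5 : |(-1 : ℝ)| = 1 := by norm_num
    rw [e5, one_mul] at e3 e4
    have e6 : |f (toR (y - x))| * l1 a ≤ w * l1 a := by gcongr
    have e7 : |N - s| * l1 u ≤ 1 * l1 u := by
      have : |N - s| ≤ 1 := by rw [abs_le]; constructor <;> linarith
      gcongr
    have e8 : l1 u ≤ w * l1 u := by nlinarith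
    linarith
  -- assembling
  have hI1 := three_integral h0 h2 hfw hx hx'L hy
  have hI2 := three_integral h0 h2 hfw hx'L hzL hy
  obtain ⟨-, -, l1'⟩ := lane_conn (G := G) h0 h2 hfw hx hx'L
  obtain ⟨-, -, l2'⟩ := lane_conn (G := G) h0 h2 hfw hzL hy
  have hE1 : (n1 (x' - x) : ℝ) * ∫ z, z ∂G ≤ (w * (l1 a + 2)) * ∫ z, z ∂G := by gcongr
  have hE2 : (n1 (y - z) : ℝ) * ∫ z, z ∂G ≤ (w * (2 * l1 a + l1 u + 6)) * ∫ z, z ∂G := by gcongr
  have g1 : 0 ≤ ET G y1 + C * n1 y1 * Real.exp (-((n : ℝ) / 2)) := by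
    have := ET_nonneg (G := G) h0 y1
    positivity
  have g2 : 0 ≤ ET G y2 + C * n1 y2 * Real.exp (-((n : ℝ) / 2)) := by
    have := ET_nonneg (G := G) h0 y2
    positivity
  have g3 : (A : ℝ) ≤ N * t1 := hA1.trans (by gcongr)
  have g4 : (B : ℝ) ≤ N * t2 := hB1.trans (by gcongr)
  have g5 : A * (ET G y1 + C * n1 y1 * Real.exp (-((n : ℝ) / 2)))
      ≤ N * t1 * (ET G y1 + C * n1 y1 * Real.exp (-((n : ℝ) / 2))) :=
    mul_le_mul_of_nonneg_right g3 g1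
  have g6 : B * (ET G y2 + C * n1 y2 * Real.exp (-((n : ℝ) / 2)))
      ≤ N * t2 * (ET G y2 + C * n1 y2 * Real.exp (-((n : ℝ) / 2))) :=
    mul_le_mul_of_nonneg_right g4 g2
  linarith

/-- choice of the scale `n` for a width `w` -/
lemma scale_choice {φ : ℝ} (hφ : 0 ≤ φ) (K' : ℕ) (x0 : ℝ) :
    ∃ κ w0 : ℝ, 0 < κ ∧ 1 ≤ w0 ∧ ∀ w, w0 ≤ w → ∃ n : ℕ, 1 ≤ n ∧ x0 ≤ n ∧ (n : ℝ) ≤ w ∧
      κ * w ≤ n ∧ 2 * φ + 3 * φ * n + φ * (K' * n : ℕ) ≤ w / 2 := by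
  obtain ⟨D, hD⟩ : ∃ D, D = φ * (K' + 3) + 1 := ⟨_, rfl⟩
  have hφK : 0 ≤ φ * (K' + 3) := by positivity
  have hD1 : 1 ≤ D := by linarith
  obtain ⟨κ, hκ⟩ : ∃ κ, κ = 1 / (4 * D) := ⟨_, rfl⟩
  have hκ0 : 0 < κ := by rw [hκ]; positivity
  have hκ1 : κ ≤ 1 := by
    rw [hκ, div_le_one (by positivity)]; linarith
  refine ⟨κ / 2, max (max 1 (8 * φ)) ((|x0| + 2) / κ), by positivity,
    (le_max_left _ _).trans (le_max_left _ _), fun w hw => ?_⟩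
  have hw1 : 1 ≤ w := ((le_max_left _ _).trans (le_max_left _ _)).trans hw
  have hw8 : 8 * φ ≤ w := ((le_max_right _ _).trans (le_max_left _ _)).trans hw
  have hwκ : |x0| + 2 ≤ κ * w := by
    have := (le_max_right _ _).trans hw
    rw [div_le_iff₀ hκ0] at this
    linarith
  have hwpos : 0 < w := by linarith
  have habs := abs_nonneg x0
  have habs2 := le_abs_self x0
  obtain ⟨n, hn⟩ : ∃ n : ℕ, n = ⌊κ * w⌋₊ := ⟨_, rfl⟩
  have hnle : (n : ℝ) ≤ κ * w := by rw [hn]; exact Nat.floor_le (by positivity)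
  have hnge : κ * w - 1 ≤ n := by
    have := Nat.lt_floor_add_one (κ * w)
    rw [← hn] at this
    linarith
  have hn1R : (1 : ℝ) ≤ n := by linarith
  refine ⟨n, by exact_mod_cast hn1R, by linarith, hnle.trans (by nlinarith), by linarith, ?_⟩
  have e1 : 3 * φ * n + φ * (K' * n : ℕ) = φ * (K' + 3) * n := by push_cast; ring
  have e2 : φ * (K' + 3) * n ≤ D * (κ * w) := by
    have : φ * (K' + 3) ≤ D := by linarith
    gcongr
  have e3 : D * (κ * w) = w / 4 := by rw [hκ]; field_simp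
  linarith

/-- the final bound on the main term -/
lemma main_term {t1 t2 E1 E2 m1 m2 C c K cl κ w N : ℝ} {n : ℕ} (hn1 : 1 ≤ n) (hC : 0 ≤ C)
    (hK : 0 ≤ K) (hcl : 0 < cl) (hκ : 0 < κ) (hw : 0 < w) (hN : 0 ≤ N)
    (hc : c = K * (n : ℝ) ^ (-0.06 : ℝ)) (h1 : t1 * E1 + t2 * E2 ≤ 1 + c)
    (h2 : t1 * m1 + t2 * m2 ≤ (1 + c) / cl) (hnw : κ * w ≤ n) :
    N * (t1 * (E1 + C * m1 * Real.exp (-((n : ℝ) / 2)))
      + t2 * (E2 + C * m2 * Real.exp (-((n : ℝ) / 2))))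
      ≤ N + ((K + C * ((1 + K) / cl) * 2) * κ ^ (-0.06 : ℝ)) * w ^ (-0.06 : ℝ) * N := by
  have hn1R : (1 : ℝ) ≤ n := by exact_mod_cast hn1
  have hnpos : (0 : ℝ) < n := by linarith
  have hn06 : (n : ℝ) ^ (-0.06 : ℝ) ≤ 1 := Real.rpow_le_one_of_one_le_of_nonpos hn1R (by norm_num)
  have hn06' : 0 < (n : ℝ) ^ (-0.06 : ℝ) := Real.rpow_pos_of_pos hnpos _
  have hcK : c ≤ K := by rw [hc]; nlinarith
  have hcKcl : (1 + c) / cl ≤ (1 + K) / cl := by gcongr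
  obtain ⟨E, hE⟩ : ∃ E, E = Real.exp (-((n : ℝ) / 2)) := ⟨_, rfl⟩
  rw [← hE]
  have hE0 : 0 < E := by rw [hE]; exact Real.exp_pos _
  have hEn : E ≤ 2 * (n : ℝ) ^ (-0.06 : ℝ) := by
    have e1 : E ≤ 2 / n := by
      rw [hE, Real.exp_neg, ← one_div, div_le_div_iff₀ (Real.exp_pos _) hnpos]
      have := Real.add_one_le_exp ((n : ℝ) / 2)
      linarith
    have e2 : (n : ℝ) ^ (-1 : ℝ) ≤ (n : ℝ) ^ (-0.06 : ℝ) :=
      Real.rpow_le_rpow_of_exponent_le hn1R (by norm_num)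
    rw [Real.rpow_neg_one] at e2
    have e3 : 2 / (n : ℝ) = 2 * (n : ℝ)⁻¹ := by ring
    rw [e3] at e1
    linarith
  have hnw' : (n : ℝ) ^ (-0.06 : ℝ) ≤ κ ^ (-0.06 : ℝ) * w ^ (-0.06 : ℝ) := by
    rw [← Real.mul_rpow hκ.le hw.le]
    exact Real.rpow_le_rpow_of_nonpos (by positivity) hnw (by norm_num)
  have g5 : t1 * m1 + t2 * m2 ≤ (1 + K) / cl := h2.trans hcKcl
  have hKcl : 0 ≤ (1 + K) / cl := by positivity
  have g7 : C * (t1 * m1 + t2 * m2) * E ≤ C * ((1 + K) / cl) * (2 * (n : ℝ) ^ (-0.06 : ℝ)) := by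
    have : C * (t1 * m1 + t2 * m2) ≤ C * ((1 + K) / cl) := by gcongr
    calc C * (t1 * m1 + t2 * m2) * E ≤ C * ((1 + K) / cl) * E := by gcongr
      _ ≤ _ := by gcongr
  have g8 : (K + C * ((1 + K) / cl) * 2) * (n : ℝ) ^ (-0.06 : ℝ)
      ≤ (K + C * ((1 + K) / cl) * 2) * (κ ^ (-0.06 : ℝ) * w ^ (-0.06 : ℝ)) := by gcongr
  calc N * (t1 * (E1 + C * m1 * E) + t2 * (E2 + C * m2 * E))
      = N * ((t1 * E1 + t2 * E2) + C * (t1 * m1 + t2 * m2) * E) := by ring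
    _ ≤ N * (1 + (K + C * ((1 + K) / cl) * 2) * (κ ^ (-0.06 : ℝ) * w ^ (-0.06 : ℝ))) := by
        apply mul_le_mul_of_nonneg_left _ hN
        rw [hc] at h1
        linarith
    _ = _ := by ring

/-- **Rate of the excess in lanes.** -/
theorem lane_rate (h0 : G (Set.Iio 0) = 0) (hz : G {0} = 0) (hlam : 0 < lam)
    (hexp : Integrable (fun x => Real.exp (lam * x)) G) (hμ : IsTC G μ)
    {Cv : ℝ} (hv : VarB G Cv) {ρ : ℝ × ℝ →L[ℝ] ℝ} (hρ : ∀ v, ρ v ≤ μ v) {a u : ℝ × ℝ}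
    (hu : ρ u = μ u) (hu1 : ρ u = 1) {f g : ℝ × ℝ →L[ℝ] ℝ} (hfu : f u = 0) (hfa : f a = 1)
    (hdec : ∀ v, v = f v • a + g v • u) :
    ∃ C w0 : ℝ, 0 < C ∧ 1 ≤ w0 ∧ ∀ w, w0 ≤ w → ∀ (c0 : ℝ) (x y : ℤ × ℤ), x ∈ Lane f c0 w →
      y ∈ Lane f c0 w → 0 ≤ g (toR (y - x)) →
      Conn (Lane f c0 w) x y ∧ Integrable (fun t => pR t (Lane f c0 w) x y) (iidLaw G) ∧
      ∫ t, pR t (Lane f c0 w) x y ∂(iidLaw G)
        ≤ ρ (toR (y - x)) + C * w ^ (-0.06 : ℝ) * g (toR (y - x)) + C * w := by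
  have h2 : Integrable (fun x : ℝ => x ^ 2) G := integrable_sq h0 hlam hexp
  obtain ⟨c1, hc1, hlow⟩ := exists_mu_ge h0 hz h2 hμ
  obtain ⟨cl, hcl, hET⟩ := exists_ET_ge (G := G) h0 hz h2
  obtain ⟨x0, K, hx0, hK, hcomb⟩ := comb_final h0 hlam hexp hμ ⟨c1, hc1, hlow⟩ hv hρ hu
  obtain ⟨K', C, hK', hC, hball⟩ := ball_upper (G := G) h0 hz hlam hexp
  have hfn := fn_nonneg f
  have hmG0 : (0 : ℝ) ≤ ∫ z, z ∂G := integral_nonneg_of_ae (ae_nonneg h0)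
  obtain ⟨κ, w1, hκ, hw1, hscale⟩ := scale_choice hfn K' x0
  obtain ⟨m, hm⟩ : ∃ m : ℕ, m = ⌈(1 + K) / cl⌉₊ + 1 := ⟨_, rfl⟩
  have hmge : (1 + K) / cl ≤ m := by
    have := Nat.le_ceil ((1 + K) / cl)
    rw [hm]; push_cast; linarith
  have hl1a := l1_nonneg a
  have hl1u := l1_nonneg u
  obtain ⟨C4, hC4⟩ : ∃ C4, C4 = (K + C * ((1 + K) / cl) * 2) * κ ^ (-0.06 : ℝ) := ⟨_, rfl⟩
  have hC40 : 0 ≤ C4 := by rw [hC4]; positivity
  obtain ⟨C5, hC5⟩ : ∃ C5, C5 = ((l1 a + 2) + (2 * l1 a + l1 u + 6)) * (∫ z, z ∂G) + |ρ a| :=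
    ⟨_, rfl⟩
  have hC50 : 0 ≤ C5 := by rw [hC5]; positivity
  refine ⟨C4 + C5 + 1, max w1 (fn f), by positivity, hw1.trans (le_max_left _ _), ?_⟩
  intro w hw c0 x y hx hy hg
  have hww1 : w1 ≤ w := (le_max_left _ _).trans hw
  have hw1' : 1 ≤ w := hw1.trans hww1
  have hwpos : 0 < w := by linarith
  have hfw : fn f ≤ w := (le_max_right _ _).trans hw
  obtain ⟨hc, hI, -⟩ := lane_conn (G := G) h0 h2 hfw hx hy
  refine ⟨hc, hI, ?_⟩
  obtain ⟨n, hn1, hnx0, hnw, hκn, hroom⟩ := hscale w hww1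
  -- the combination
  obtain ⟨c, hc'⟩ : ∃ c, c = K * (n : ℝ) ^ (-0.06 : ℝ) := ⟨_, rfl⟩
  have hn1R : (1 : ℝ) ≤ n := by exact_mod_cast hn1
  have hcK : c ≤ K := by
    have hn06 : (n : ℝ) ^ (-0.06 : ℝ) ≤ 1 :=
      Real.rpow_le_one_of_one_le_of_nonpos hn1R (by norm_num)
    rw [hc']
    nlinarith
  have hcb := hcomb n hnx0
  rw [← hc'] at hcb
  obtain ⟨y1, y2, t1, t2, b1, b2, b3, b4, b5, b6, b7, b8, b9⟩ :=
    comb_bounded h0 hcl hET hu1 hcb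
  have hb1 : n1 y1 ≤ n := by exact_mod_cast b1
  have hb2 : n1 y2 ≤ n := by exact_mod_cast b2
  have hcKcl : (1 + c) / cl ≤ (1 + K) / cl := by gcongr
  have hcore := lane_core h0 h2 hfw hC hK' (hball n hn1) hfu hfa hdec hb1 hb2 b3 b4 b5
    (show 1 ≤ m by omega) (b7.trans (hcKcl.trans hmge)) (b8.trans (hcKcl.trans hmge)) hroom hnw
    hw1' hx hy hg
  have hmain := main_term hn1 hC hK hcl hκ hwpos hg hc' b6 b9 hκn
  rw [← hC4] at hmain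
  have hfyx : |f (toR (y - x))| ≤ w := by
    have e1 : f (toR (y - x)) = (f (toR y) - c0) - (f (toR x) - c0) := by
      rw [toR_sub', map_sub]; ring
    rw [e1]
    have e2 := abs_sub (f (toR y) - c0) (f (toR x) - c0)
    have e3 : |f (toR y) - c0| ≤ w / 2 := hy
    have e4 : |f (toR x) - c0| ≤ w / 2 := hx
    linarith
  have hρyx : g (toR (y - x)) - w * |ρ a| ≤ ρ (toR (y - x)) := by
    have e1 : ρ (toR (y - x)) = f (toR (y - x)) * ρ a + g (toR (y - x)) := by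
      conv_lhs => rw [hdec (toR (y - x))]
      rw [map_add, map_smul, map_smul, hu1]
      simp
    rw [e1]
    have e2 : |f (toR (y - x)) * ρ a| ≤ w * |ρ a| := by rw [abs_mul]; gcongr
    have e3 := neg_abs_le (f (toR (y - x)) * ρ a)
    linarith
  obtain ⟨P, hP⟩ : ∃ P, P = w ^ (-0.06 : ℝ) * g (toR (y - x)) := ⟨_, rfl⟩
  have hP0 : 0 ≤ P := by rw [hP]; positivity
  have f1 : C4 * w ^ (-0.06 : ℝ) * g (toR (y - x)) = C4 * P := by rw [hP]; ring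
  have f2 : (C4 + C5 + 1) * w ^ (-0.06 : ℝ) * g (toR (y - x)) = (C4 + C5 + 1) * P := by
    rw [hP]; ring
  rw [f1] at hmain
  rw [f2]
  have f3 : C4 * P ≤ (C4 + C5 + 1) * P := by gcongr; linarith
  have f4 : C5 * w ≤ (C4 + C5 + 1) * w := by gcongr; linarith
  have f5 : (w * (l1 a + 2) + w * (2 * l1 a + l1 u + 6)) * (∫ z, z ∂G) + w * |ρ a| = C5 * w := by
    rw [hC5]; ring
  linarith

/-! ### in terms of flat data -/

open B710 in
/-- **C1, direction `b`**: lanes `{|al - c0| ≤ w/2}` -/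
theorem lane_rate_b (h0 : G (Set.Iio 0) = 0) (hz : G {0} = 0) (hlam : 0 < lam)
    (hexp : Integrable (fun x => Real.exp (lam * x)) G) (hμ : IsTC G μ)
    {Cv : ℝ} (hv : VarB G Cv) (F : FlatData μ) :
    ∃ C w0 : ℝ, 0 < C ∧ 1 ≤ w0 ∧ ∀ w, w0 ≤ w → ∀ (c0 : ℝ) (x y : ℤ × ℤ), x ∈ Lane F.al c0 w →
      y ∈ Lane F.al c0 w → 0 ≤ F.be (toR (y - x)) →
      Conn (Lane F.al c0 w) x y ∧ Integrable (fun t => pR t (Lane F.al c0 w) x y) (iidLaw G) ∧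
      ∫ t, pR t (Lane F.al c0 w) x y ∂(iidLaw G)
        ≤ F.ρ (toR (y - x)) + C * w ^ (-0.06 : ℝ) * F.be (toR (y - x)) + C * w :=
  lane_rate h0 hz hlam hexp hμ hv F.ρ_le (a := F.a) (u := F.b) (F.ρ_b.trans F.μ_b.symm) F.ρ_b
    F.al_b F.al_a (fun v => (F.decomp v).symm)

open B710 in
/-- **C1, direction `a`**: lanes `{|be - c0| ≤ w/2}` -/
theorem lane_rate_a (h0 : G (Set.Iio 0) = 0) (hz : G {0} = 0) (hlam : 0 < lam)
    (hexp : Integrable (fun x => Real.exp (lam * x)) G) (hμ : IsTC G μ)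
    {Cv : ℝ} (hv : VarB G Cv) (F : FlatData μ) :
    ∃ C w0 : ℝ, 0 < C ∧ 1 ≤ w0 ∧ ∀ w, w0 ≤ w → ∀ (c0 : ℝ) (x y : ℤ × ℤ), x ∈ Lane F.be c0 w →
      y ∈ Lane F.be c0 w → 0 ≤ F.al (toR (y - x)) →
      Conn (Lane F.be c0 w) x y ∧ Integrable (fun t => pR t (Lane F.be c0 w) x y) (iidLaw G) ∧
      ∫ t, pR t (Lane F.be c0 w) x y ∂(iidLaw G)
        ≤ F.ρ (toR (y - x)) + C * w ^ (-0.06 : ℝ) * F.al (toR (y - x)) + C * w :=
  lane_rate h0 hz hlam hexp hμ hv F.ρ_le (a := F.b) (u := F.a) (F.ρ_a.trans F.μ_a.symm) F.ρ_a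
    F.be_a F.be_b (fun v => by rw [add_comm]; exact (F.decomp v).symm)

end Crest.Agent.R151.C710
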