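import Mathlib
import Crest.Prelude.Def_PlanarFPP

/-!
# R151/K0 — minimal API for the passage time (owner helper507)
-/

set_option autoImplicit false

open MeasureTheory Filter
open Crest.ProbabilityR.FirstPassage

namespace Crest.Agent.R151.K

lemma adj_right (a b : ℤ) : squareLattice.Adj (a, b) (a + 1, b) := by
  rw [squareLattice, SimpleGraph.fromRel_adj]
  refine ⟨?_, Or.inl (Or.inr ⟨rfl, rfl⟩)⟩
  intro h
  have := congrArg Prod.fst h
  simp at this

lemma adj_up (a b : ℤ) : squareLattice.Adj (a, b) (a, b + 1) := by
  rw [squareLattice, SimpleGraph.fromRel_adj]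
  refine ⟨?_, Or.inl (Or.inl ⟨rfl, rfl⟩)⟩
  intro h
  have := congrArg Prod.snd h
  simp at this

lemma reachable_row (a b c : ℤ) : squareLattice.Reachable (a, b) (c, b) := by
  have key : ∀ n : ℕ, ∀ a : ℤ, squareLattice.Reachable (a, b) (a + n, b) := by
    intro n
    induction n with
    | zero => intro a; simp
    | succ n ih =>
      intro a
      have h1 := ih a
      have h2 : squareLattice.Reachable (a + n, b) (a + n + 1, b) := (adj_right _ _).reachable
      have := h1.trans h2
      push_cast
      rwa [← add_assoc]
  rcases le_total a c with h | h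
  · have := key (c - a).toNat a
    rwa [Int.toNat_of_nonneg (by omega), add_sub_cancel] at this
  · have := (key (a - c).toNat c).symm
    rwa [Int.toNat_of_nonneg (by omega), add_sub_cancel] at this

lemma reachable_col (a b c : ℤ) : squareLattice.Reachable (a, b) (a, c) := by
  have key : ∀ n : ℕ, ∀ b : ℤ, squareLattice.Reachable (a, b) (a, b + n) := by
    intro n
    induction n with
    | zero => intro b; simp
    | succ n ih =>
      intro b
      have h1 := ih b
      have h2 : squareLattice.Reachable (a, b + n) (a, b + n + 1) := (adj_up _ _).reachable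
      have := h1.trans h2
      push_cast
      rwa [← add_assoc]
  rcases le_total b c with h | h
  · have := key (c - b).toNat b
    rwa [Int.toNat_of_nonneg (by omega), add_sub_cancel] at this
  · have := (key (b - c).toNat c).symm
    rwa [Int.toNat_of_nonneg (by omega), add_sub_cancel] at this

lemma reachable (x y : ℤ × ℤ) : squareLattice.Reachable x y := by
  obtain ⟨a, b⟩ := x
  obtain ⟨c, d⟩ := y
  exact (reachable_row a b c).trans (reachable_col c b d)

instance (x y : ℤ × ℤ) : Nonempty (squareLattice.Walk x y) := reachable x y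

/-- Nonnegative environments. -/
def Nn (t : Environment) : Prop := ∀ e, 0 ≤ t e

variable {t : Environment}

lemma walkCost_nonneg (ht : Nn t) {x y : ℤ × ℤ} (w : squareLattice.Walk x y) :
    0 ≤ walkCost t w := by
  refine List.sum_nonneg ?_
  intro z hz
  obtain ⟨e, -, rfl⟩ := List.mem_map.1 hz
  exact ht e

lemma bddBelow_cost (ht : Nn t) (x y : ℤ × ℤ) :
    BddBelow (Set.range fun w : squareLattice.Walk x y => walkCost t w) :=
  ⟨0, by rintro _ ⟨w, rfl⟩; exact walkCost_nonneg ht w⟩

lemma pt_nonneg (ht : Nn t) (x y : ℤ × ℤ) : 0 ≤ passageTime t x y :=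
  Real.iInf_nonneg fun w => walkCost_nonneg ht w

lemma pt_le (ht : Nn t) {x y : ℤ × ℤ} (w : squareLattice.Walk x y) :
    passageTime t x y ≤ walkCost t w :=
  ciInf_le (bddBelow_cost ht x y) w

lemma le_pt {x y : ℤ × ℤ} {c : ℝ} (h : ∀ w : squareLattice.Walk x y, c ≤ walkCost t w) :
    c ≤ passageTime t x y := le_ciInf h

lemma exists_walk_lt (t : Environment) (x y : ℤ × ℤ) {c : ℝ} (h : passageTime t x y < c) :
    ∃ w : squareLattice.Walk x y, walkCost t w < c := exists_lt_of_ciInf_lt h

lemma walkCost_nil (x : ℤ × ℤ) : walkCost t (SimpleGraph.Walk.nil : squareLattice.Walk x x) = 0 := by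
  simp [walkCost]

lemma walkCost_append {x y z : ℤ × ℤ} (w : squareLattice.Walk x y) (w' : squareLattice.Walk y z) :
    walkCost t (w.append w') = walkCost t w + walkCost t w' := by
  simp [walkCost, SimpleGraph.Walk.edges_append]

lemma walkCost_reverse {x y : ℤ × ℤ} (w : squareLattice.Walk x y) :
    walkCost t w.reverse = walkCost t w := by
  simp [walkCost, SimpleGraph.Walk.edges_reverse]

lemma pt_self (ht : Nn t) (x : ℤ × ℤ) : passageTime t x x = 0 :=
  le_antisymm ((pt_le ht SimpleGraph.Walk.nil).trans_eq (walkCost_nil x)) (pt_nonneg ht x x)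

lemma pt_symm (ht : Nn t) (x y : ℤ × ℤ) : passageTime t x y = passageTime t y x := by
  apply le_antisymm
  · refine le_pt fun w => ?_
    rw [← walkCost_reverse]
    exact pt_le ht _
  · refine le_pt fun w => ?_
    rw [← walkCost_reverse]
    exact pt_le ht _

lemma pt_triangle (ht : Nn t) (x y z : ℤ × ℤ) :
    passageTime t x z ≤ passageTime t x y + passageTime t y z := by
  have : ∀ w : squareLattice.Walk x y, passageTime t x z - walkCost t w ≤ passageTime t y z := by
    intro w
    refine le_pt fun w' => ?_
    have := pt_le ht (w.append w')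
    rw [walkCost_append] at this
    linarith
  have h2 : passageTime t x z - passageTime t y z ≤ passageTime t x y := by
    refine le_pt fun w => ?_
    linarith [this w]
  linarith

lemma pt_adj (ht : Nn t) {x y : ℤ × ℤ} (h : squareLattice.Adj x y) :
    passageTime t x y ≤ t s(x, y) := by
  have := pt_le ht (SimpleGraph.Walk.cons h SimpleGraph.Walk.nil)
  simpa [walkCost] using this

/-- The horizontal edge `(a,b)-(a+1,b)`. -/
def eH (a b : ℤ) : Sym2 (ℤ × ℤ) := s((a, b), (a + 1, b))

/-- The vertical edge `(a,b)-(a,b+1)`. -/
def eV (a b : ℤ) : Sym2 (ℤ × ℤ) := s((a, b), (a, b + 1))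

lemma pt_row (ht : Nn t) (a b : ℤ) (n : ℕ) :
    passageTime t (a, b) (a + n, b) ≤ ∑ i ∈ Finset.range n, t (eH (a + i) b) := by
  induction n with
  | zero => simp [pt_self ht]
  | succ n ih =>
    rw [Finset.sum_range_succ]
    refine (pt_triangle ht _ (a + n, b) _).trans (add_le_add ih ?_)
    push_cast
    rw [← add_assoc]
    exact pt_adj ht (adj_right _ _)

lemma pt_col (ht : Nn t) (a b : ℤ) (n : ℕ) :
    passageTime t (a, b) (a, b + n) ≤ ∑ i ∈ Finset.range n, t (eV a (b + i)) := by
  induction n with
  | zero => simp [pt_self ht]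
  | succ n ih =>
    rw [Finset.sum_range_succ]
    refine (pt_triangle ht _ (a, b + n) _).trans (add_le_add ih ?_)
    push_cast
    rw [← add_assoc]
    exact pt_adj ht (adj_up _ _)

/-! ### Measurability -/

lemma measurable_walkCost {x y : ℤ × ℤ} (w : squareLattice.Walk x y) :
    Measurable fun t : Environment => walkCost t w := by
  unfold walkCost
  have : ∀ l : List (Sym2 (ℤ × ℤ)), Measurable fun t : Environment => (l.map t).sum := by
    intro l
    induction l with
    | nil => simp
    | cons e l ih =>
      simp only [List.map_cons, List.sum_cons]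
      exact (measurable_pi_apply e).add ih
  exact this _

instance countable_walk (x y : ℤ × ℤ) : Countable (squareLattice.Walk x y) := by
  have : Function.Injective (fun w : squareLattice.Walk x y => w.support) := by
    intro w w' h
    exact SimpleGraph.Walk.ext_support h
  exact this.countable

lemma measurable_pt (x y : ℤ × ℤ) : Measurable fun t : Environment => passageTime t x y := by
  unfold passageTime
  exact Measurable.iInf fun w => measurable_walkCost w

/-! ### Lattice automorphisms -/

lemma walkCost_map (t : Environment) (φ : squareLattice →g squareLattice) {x y : ℤ × ℤ}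
    (w : squareLattice.Walk x y) :
    walkCost t (w.map φ) = walkCost (fun e => t (Sym2.map φ e)) w := by
  simp only [walkCost, SimpleGraph.Walk.edges_map, List.map_map]
  rfl

lemma pt_iso (t : Environment) (φ : squareLattice ≃g squareLattice) (x y : ℤ × ℤ) :
    passageTime (fun e => t (Sym2.map φ e)) x y = passageTime t (φ x) (φ y) := by
  unfold passageTime
  refine Function.Surjective.iInf_congr
    (fun w : squareLattice.Walk x y => (w.map φ.toHom : squareLattice.Walk (φ x) (φ y))) ?_
    (fun w => walkCost_map t φ.toHom w)
  intro w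
  refine ⟨((w.map φ.symm.toHom).copy (φ.symm_apply_apply x) (φ.symm_apply_apply y)), ?_⟩
  apply SimpleGraph.Walk.ext_support
  simp only [SimpleGraph.Walk.support_map, SimpleGraph.Walk.support_copy, List.map_map]
  have : (⇑φ.toHom ∘ ⇑φ.symm.toHom) = id := by
    funext z
    exact φ.apply_symm_apply z
  rw [this, List.map_id]

end Crest.Agent.R151.K
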