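import Crest.Agent.R151.Q1
import Crest.Agent.R151.R78A

/-!
# R151 / S0214 part 2, Q2 — definitions: positions, lanes, rates, highways (owner helper777)

Conventions. With offset `θ : ℝ × ℝ` the vertex `z` has position `pos θ z = toR z + θ`; the base
point of an object built with offset `θ` is the origin.  The object with base point `B` of the
shifted plane `ξ` is the one with offset `ξ - B`.
`laneB F w θ` = the `b`-lane of width `w` (`|al| ≤ w/2`); the `a`-lane is `laneB F.swap w θ`.
`eL`, `rate` = mean excess and excess rate of the `b`-lane (`rate G F.swap w` for the `a`-lane).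
`Hwy F` = a covariant system of highways in direction `a`, `x s` = first vertex with `al ≥ s`.
-/

set_option autoImplicit false

open MeasureTheory Filter ProbabilityTheory Topology
open Crest.ProbabilityR.FirstPassage
open Crest.Agent.R151.K

namespace Crest.Agent.R151.Q

open B710 (FlatData)
open R78 (IsHwy hc hp)

/-- position of the vertex `z` when the offset is `θ` -/
def pos (θ : ℝ × ℝ) (z : ℤ × ℤ) : ℝ × ℝ := toR z + θ

/-- the vertex nearest to the base point -/
noncomputable def nr (θ : ℝ × ℝ) : ℤ × ℤ := (-round θ.1, -round θ.2)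

variable {μ : ℝ × ℝ → ℝ}

/-- the lane of width `w` in direction `b` -/
def laneB (F : FlatData μ) (w : ℝ) (θ : ℝ × ℝ) : Set (ℤ × ℤ) :=
  {z | |F.al (pos θ z)| ≤ w / 2}

/-- the potential `φ = ρ ∘ toR`: excess of a walk `x → y` = cost `- (φ y - φ x)` (`R78.exc`) -/
noncomputable def phi (F : FlatData μ) (z : ℤ × ℤ) : ℝ := F.ρ (toR z)

/-- mean excess in the `b`-lane of width `w` over the height `y` -/
noncomputable def eL (G : Measure ℝ) (F : FlatData μ) (w y : ℝ) : ℝ :=
  ∫ p, pR p.2 (laneB F w p.1) (nr p.1) (nr (p.1 - y • F.b)) ∂(P0 G) - y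

/-- excess rate of the `b`-lane of width `w` -/
noncomputable def rate (G : Measure ℝ) (F : FlatData μ) (w : ℝ) : ℝ :=
  ⨅ n : ℕ, eL G F w ((n : ℝ) + 1) / ((n : ℝ) + 1)

/-- first index at which `h` is `≥ s` -/
noncomputable def firstGe (h : ℤ → ℝ) (s : ℝ) : ℤ := sInf {k | s ≤ h k}

/-- A covariant system of highways in direction `a`: for a phase `u : ℝ` (uniform on `[0,1)`), an
offset `θ` and an environment `t`, `H u θ t : ℤ → ℤ × ℤ` is a bi-infinite simple path in the strip
`|be| ≤ wH / 2` going from `al = -∞` to `al = +∞` with backtracking at most `κ`. -/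
structure Hwy (F : FlatData μ) where
  wH : ℝ
  n0 : ℝ
  κ : ℝ
  n0_pos : 0 < n0
  κ_nonneg : 0 ≤ κ
  H : ℝ → ℝ × ℝ → Environment → ℤ → ℤ × ℤ
  meas : ∀ k, Measurable fun q : ℝ × (ℝ × ℝ) × Environment => H q.1 q.2.1 q.2.2 k
  isHwy : ∀ u θ t, IsHwy (H u θ t)
  strip : ∀ u θ t k, |F.be (pos θ (H u θ t k))| ≤ wH / 2
  back : ∀ u θ t j k, j ≤ k → F.al (pos θ (H u θ t j)) ≤ F.al (pos θ (H u θ t k)) + κ
  top : ∀ u θ t, Tendsto (fun k => F.al (pos θ (H u θ t k))) atTop atTop
  bot : ∀ u θ t, Tendsto (fun k => F.al (pos θ (H u θ t k))) atBot atBot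
  /-- lattice covariance -/
  cov : ∀ u θ t m k, H u (θ + toR m) (act (tr m) t) k = H u θ t k - m
  /-- the highway with base point `B + s a` and phase `u` is the highway with base point `B` and
  phase `fract (u + s / n0)`, up to a shift of the index -/
  ash : ∀ s u θ t, ∃ c : ℤ, ∀ k, H (Int.fract (u + s / n0)) θ t k = H u (θ - s • F.a) t (k + c)
  /-- locality: only the edges of the strip are read -/
  loc : ∀ u θ t t', (∀ e ∈ edgesIn {z | |F.be (pos θ z)| ≤ wH / 2}, t e = t' e) →
    H u θ t = H u θ t'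

namespace Hwy

variable {F : FlatData μ} (h : Hwy F)

/-- index of the first vertex with `al ≥ s` -/
noncomputable def ix (s u : ℝ) (θ : ℝ × ℝ) (t : Environment) : ℤ :=
  firstGe (fun k => F.al (pos θ (h.H u θ t k))) s

/-- the first vertex with `al ≥ s` -/
noncomputable def x (s u : ℝ) (θ : ℝ × ℝ) (t : Environment) : ℤ × ℤ := h.H u θ t (h.ix s u θ t)

/-- cost potential difference: cost of the highway from `x s` to `x s'` -/
noncomputable def cst (s s' u : ℝ) (θ : ℝ × ℝ) (t : Environment) : ℝ :=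
  hc t (h.H u θ t) (h.ix s' u θ t) - hc t (h.H u θ t) (h.ix s u θ t)

/-- signed excess of the highway from `x s` to `x s'` -/
noncomputable def Y (s s' u : ℝ) (θ : ℝ × ℝ) (t : Environment) : ℝ :=
  hp t (phi F) (h.H u θ t) (h.ix s' u θ t) - hp t (phi F) (h.H u θ t) (h.ix s u θ t)

end Hwy

/-- the mean properties of a system of highways with rate `ε` -/
structure HwyMean (G : Measure ℝ) {F : FlatData μ} (h : Hwy F) (ε : ℝ) : Prop where
  nonneg : 0 ≤ ε
  int : ∀ s s' : ℝ, Integrable (fun q : ℝ × (ℝ × ℝ) × Environment => h.Y s s' q.1 q.2.1 q.2.2)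
    (UU.prod (P0 G))
  int_cst : ∀ s s' : ℝ, Integrable (fun q : ℝ × (ℝ × ℝ) × Environment =>
    h.cst s s' q.1 q.2.1 q.2.2) (UU.prod (P0 G))
  mean : ∀ s s' : ℝ, ∫ q, h.Y s s' q.1 q.2.1 q.2.2 ∂(UU.prod (P0 G)) = (s' - s) * ε

/-- TARGET (helper777): highways exist, with rate at most the rate of the `a`-lane plus `1 / w ^ 3`,
backtracking at most `K * wH`. -/
def HighwaysExist (G : Measure ℝ) (F : FlatData μ) : Prop :=
  ∃ K w0 : ℝ, 0 < K ∧ 0 < w0 ∧ ∀ w ≥ w0, ∃ h : Hwy F, h.wH = w ∧ h.κ ≤ K * w ∧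
    ∃ ε, HwyMean G h ε ∧ ε ≤ rate G F.swap w + 1 / w ^ 3

end Crest.Agent.R151.Q
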