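import Crest.Agent.R151.C710j
import Crest.Agent.R151.Q2

/-!
# R151 / S0214 part 2, module C1: `rate G F w ≤ C w^{-0.06}` (helper710), in the form of Q2.
For the `a`-lanes apply it to `F.swap`.
-/

set_option autoImplicit false

open MeasureTheory Filter ProbabilityTheory Topology
open Crest.ProbabilityR.FirstPassage

namespace Crest.Agent.R151.C710

open Crest.Agent.R151.K Crest.Agent.R151.Q
open B710 (FlatData)

variable {G : Measure ℝ} [IsProbabilityMeasure G] {lam : ℝ} {μ : ℝ × ℝ → ℝ}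

lemma laneB_eq (F : FlatData μ) (w : ℝ) (θ : ℝ × ℝ) :
    laneB F w θ = Lane F.al (-F.al θ) w := by
  ext z
  show |F.al (toR z + θ)| ≤ w / 2 ↔ |F.al (toR z) - -F.al θ| ≤ w / 2
  rw [map_add, sub_neg_eq_add]

lemma l1_nr (θ : ℝ × ℝ) : l1 (toR (nr θ) + θ) ≤ 1 := by
  have h1 := abs_sub_round θ.1
  have h2 := abs_sub_round θ.2
  have e : l1 (toR (nr θ) + θ) = |θ.1 - round θ.1| + |θ.2 - round θ.2| := by
    simp only [l1, toR, nr, Prod.fst_add, Prod.snd_add]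
    push_cast
    rw [neg_add_eq_sub, neg_add_eq_sub]
  rw [e]; linarith

/-- mean excess in the lane at a fixed offset -/
lemma mean_le (F : FlatData μ) {C w0 w : ℝ} (hC : 0 < C) (hw0 : 1 ≤ w0) (hw : w0 ≤ w)
    (hw2 : 2 * fn F.al ≤ w)
    (hlane : ∀ w, w0 ≤ w → ∀ (c0 : ℝ) (x y : ℤ × ℤ), x ∈ Lane F.al c0 w →
      y ∈ Lane F.al c0 w → 0 ≤ F.be (toR (y - x)) →
      Conn (Lane F.al c0 w) x y ∧ Integrable (fun t => pR t (Lane F.al c0 w) x y) (iidLaw G) ∧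
      ∫ t, pR t (Lane F.al c0 w) x y ∂(iidLaw G)
        ≤ F.ρ (toR (y - x)) + C * w ^ (-0.06 : ℝ) * F.be (toR (y - x)) + C * w)
    (θ : ℝ × ℝ) {y : ℝ} (hy : 2 * fn F.be ≤ y) :
    ∫ t, pR t (laneB F w θ) (nr θ) (nr (θ - y • F.b)) ∂(iidLaw G)
      ≤ y + C * w ^ (-0.06 : ℝ) * y + (2 * fn F.ρ + C * (2 * fn F.be) + C * w) := by
  have hwpos : 0 < w := by linarith
  rw [laneB_eq]
  obtain ⟨r1, hr1⟩ : ∃ r1, r1 = toR (nr θ) + θ := ⟨_, rfl⟩
  obtain ⟨r2, hr2⟩ : ∃ r2, r2 = toR (nr (θ - y • F.b)) + (θ - y • F.b) := ⟨_, rfl⟩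
  have hl1 : l1 r1 ≤ 1 := by rw [hr1]; exact l1_nr θ
  have hl2 : l1 r2 ≤ 1 := by rw [hr2]; exact l1_nr _
  have hfa := fn_nonneg F.al
  have m1 : nr θ ∈ Lane F.al (-F.al θ) w := by
    show |F.al (toR (nr θ)) - -F.al θ| ≤ w / 2
    rw [sub_neg_eq_add, ← map_add, ← hr1]
    refine (abs_f_le _ _).trans ?_
    nlinarith
  have m2 : nr (θ - y • F.b) ∈ Lane F.al (-F.al θ) w := by
    show |F.al (toR (nr (θ - y • F.b))) - -F.al θ| ≤ w / 2
    have e1 : F.al (toR (nr (θ - y • F.b))) - -F.al θ = F.al r2 := by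
      rw [hr2, map_add, map_sub, map_smul, F.al_b]; simp
    rw [e1]
    refine (abs_f_le _ _).trans ?_
    nlinarith
  have hΔ : toR (nr (θ - y • F.b) - nr θ) = y • F.b + (r2 + (-1 : ℝ) • r1) := by
    rw [toR_sub', hr1, hr2]
    simp only [neg_smul, one_smul]
    abel
  have hr : l1 (r2 + (-1 : ℝ) • r1) ≤ 2 := by
    refine (l1_add_le _ _).trans ?_
    rw [l1_smul]
    have : |(-1 : ℝ)| = 1 := by norm_num
    rw [this]
    linarith
  have hbe : |F.be (r2 + (-1 : ℝ) • r1)| ≤ 2 * fn F.be := by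
    refine (abs_f_le _ _).trans ?_
    have := fn_nonneg F.be
    nlinarith
  have hρ : |F.ρ (r2 + (-1 : ℝ) • r1)| ≤ 2 * fn F.ρ := by
    refine (abs_f_le _ _).trans ?_
    have := fn_nonneg F.ρ
    nlinarith
  have ebe : F.be (toR (nr (θ - y • F.b) - nr θ)) = y + F.be (r2 + (-1 : ℝ) • r1) := by
    rw [hΔ, map_add, map_smul, F.be_b]; simp
  have eρ : F.ρ (toR (nr (θ - y • F.b) - nr θ)) = y + F.ρ (r2 + (-1 : ℝ) • r1) := by
    rw [hΔ, map_add, map_smul, F.ρ_b]; simp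
  obtain ⟨-, -, h3⟩ := hlane w hw (-F.al θ) (nr θ) (nr (θ - y • F.b)) m1 m2 (by
    rw [ebe]
    linarith [(abs_le.mp hbe).1])
  rw [ebe, eρ] at h3
  refine h3.trans ?_
  have h4 := (abs_le.mp hbe).2
  have h5 := (abs_le.mp hρ).2
  have hw06 : 0 < w ^ (-0.06 : ℝ) := Real.rpow_pos_of_pos hwpos _
  have hw06' : w ^ (-0.06 : ℝ) ≤ 1 :=
    Real.rpow_le_one_of_one_le_of_nonpos (by linarith) (by norm_num)
  have h6 : C * w ^ (-0.06 : ℝ) * F.be (r2 + (-1 : ℝ) • r1) ≤ C * (2 * fn F.be) := by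
    have := fn_nonneg F.be
    calc C * w ^ (-0.06 : ℝ) * F.be (r2 + (-1 : ℝ) • r1)
        ≤ C * w ^ (-0.06 : ℝ) * (2 * fn F.be) := by gcongr
      _ ≤ C * 1 * (2 * fn F.be) := by gcongr
      _ = C * (2 * fn F.be) := by ring
  linarith

/-- **C1 in the form of Q2.** -/
theorem rate_le (h0 : G (Set.Iio 0) = 0) (hz : G {0} = 0) (hlam : 0 < lam)
    (hexp : Integrable (fun x => Real.exp (lam * x)) G) (hμ : IsTC G μ)
    {Cv : ℝ} (hv : VarB G Cv) (F : FlatData μ) :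
    ∃ C w0 : ℝ, 0 < C ∧ 1 ≤ w0 ∧ ∀ w, w0 ≤ w → rate G F w ≤ C * w ^ (-0.06 : ℝ) := by
  obtain ⟨C, w0, hC, hw0, hlane⟩ := lane_rate_b h0 hz hlam hexp hμ hv F
  refine ⟨C, max w0 (2 * fn F.al), hC, hw0.trans (le_max_left _ _), fun w hw => ?_⟩
  have hw1 : w0 ≤ w := (le_max_left _ _).trans hw
  have hw2 : 2 * fn F.al ≤ w := (le_max_right _ _).trans hw
  have hwpos : 0 < w := by linarith
  have hw06 : 0 < w ^ (-0.06 : ℝ) := Real.rpow_pos_of_pos hwpos _
  by_cases hb : BddBelow (Set.range fun n : ℕ => eL G F w ((n : ℝ) + 1) / ((n : ℝ) + 1))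
  swap
  · have : rate G F w = 0 := by
      unfold rate
      exact Real.sInf_of_not_bddBelow hb
    rw [this]
    positivity
  obtain ⟨E, hE⟩ : ∃ E, E = 2 * fn F.ρ + C * (2 * fn F.be) + C * w := ⟨_, rfl⟩
  have hE0 : 0 ≤ E := by
    have := fn_nonneg F.ρ
    have := fn_nonneg F.be
    rw [hE]; positivity
  have key : ∀ y : ℝ, 2 * fn F.be ≤ y → 0 < y → eL G F w y ≤ C * w ^ (-0.06 : ℝ) * y + E := by
    intro y hy hy0
    unfold eL
    by_cases hint : Integrable (fun p : (ℝ × ℝ) × Environment =>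
        pR p.2 (laneB F w p.1) (nr p.1) (nr (p.1 - y • F.b))) (P0 G)
    · have h1 : ∫ p, pR p.2 (laneB F w p.1) (nr p.1) (nr (p.1 - y • F.b)) ∂(P0 G)
          = ∫ θ, ∫ t, pR t (laneB F w θ) (nr θ) (nr (θ - y • F.b)) ∂(iidLaw G) ∂UU2 := by
        unfold P0 at hint ⊢
        exact integral_prod _ hint
      have h2 : ∫ θ, ∫ t, pR t (laneB F w θ) (nr θ) (nr (θ - y • F.b)) ∂(iidLaw G) ∂UU2
          ≤ ∫ _θ : ℝ × ℝ, (y + C * w ^ (-0.06 : ℝ) * y + E) ∂UU2 := by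
        refine integral_mono ?_ (integrable_const _) fun θ => ?_
        · unfold P0 at hint
          exact hint.integral_prod_left
        · rw [hE]
          exact mean_le F hC hw0 hw1 hw2 hlane θ hy
      rw [integral_const, probReal_univ, one_smul] at h2
      rw [h1]
      linarith
    · rw [integral_undef hint]
      have : 0 ≤ C * w ^ (-0.06 : ℝ) * y := by positivity
      linarith
  have ht : Tendsto (fun n : ℕ => C * w ^ (-0.06 : ℝ) + E / ((n : ℝ) + 1)) atTop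
      (𝓝 (C * w ^ (-0.06 : ℝ) + 0)) := by
    refine tendsto_const_nhds.add ?_
    exact tendsto_const_nhds.div_atTop (tendsto_atTop_add_const_right _ _ tendsto_natCast_atTop_atTop)
  rw [add_zero] at ht
  refine ge_of_tendsto ht ?_
  obtain ⟨n0, hn0⟩ := exists_nat_ge (2 * fn F.be)
  filter_upwards [eventually_ge_atTop n0] with n hn
  have hnn : (n0 : ℝ) ≤ n := by exact_mod_cast hn
  have hpos : (0 : ℝ) < (n : ℝ) + 1 := by positivity
  have h1 : rate G F w ≤ eL G F w ((n : ℝ) + 1) / ((n : ℝ) + 1) := ciInf_le hb n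
  refine h1.trans ?_
  rw [div_le_iff₀ hpos, add_mul, div_mul_cancel₀ _ hpos.ne']
  exact key _ (by linarith) hpos

end Crest.Agent.R151.C710
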