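import Crest.Agent.R151.G338e

/-!
# R151 (S0214 part 2), module C2: THEOREM C2 (helper338)

`lane_lower`: for Gamma weights, `E T_L(x,y) ≥ μ(y - x) + (c / w^2) n1(y - x) - C w` for every lane
`L` of width `w ≥ w0`.
-/

set_option autoImplicit false

open MeasureTheory Filter ProbabilityTheory
open Crest.ProbabilityR.FirstPassage

namespace Crest.Agent.R151.G338

open Crest.Agent.R151.K

variable {κ r : ℝ} {f : ℝ × ℝ →L[ℝ] ℝ}

/-- The mean excess of a lane is at least `(c / w^2)` per unit of length; version with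
`f (0,1) ≠ 0`. -/
theorem laneExc_lower_aux {μ : ℝ × ℝ → ℝ} (hκ : 0 < κ) (hr : 0 < r)
    (hμ : IsTC (gammaMeasure κ r) μ) (h0 : f (0, 1) ≠ 0) :
    ∃ c C : ℝ, 0 < c ∧ 0 < C ∧ ∀ w : ℝ, 1 ≤ w → |f (1, 0)| ≤ w / 2 → |f (0, 1)| ≤ w / 2 →
      ∀ c0 : ℝ, ∀ x ∈ Lane f c0 w, ∀ y ∈ Lane f c0 w,
        c / w ^ 2 * n1 (y - x) - C * w ≤ laneExc (gammaMeasure κ r) μ f c0 w x y := by
  have hγ := isProbabilityMeasure_gammaMeasure hκ hr
  have hG0 := gamma_Iio κ r
  have hG2 := integrable_sq hG0 (half_pos hr) (gamma_exp hκ hr)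
  obtain ⟨c2, C2, hc2, hC2, hsq⟩ := laneExc_ge_sqrt hκ hr hμ h0
  set m1 := ∫ z, z ∂(gammaMeasure κ r) with hm1
  have hm10 : 0 ≤ m1 := integral_id_nonneg hG0
  have hf2pos : 0 < |f (0, 1)| := abs_pos.2 h0
  set C3 : ℝ := 2 * ((1 / |f (0, 1)| + 1) * m1) with hC3
  have hC30 : 0 ≤ C3 := by positivity
  set K : ℝ := ((C2 + C3 + 1) / c2) ^ 2 with hK
  have hKpos : 0 < K := by positivity
  set β : ℝ := 1 + |f (1, 0)| / |f (0, 1)| with hβ
  have hβpos : 1 ≤ β := by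
    have : 0 ≤ |f (1, 0)| / |f (0, 1)| := by positivity
    linarith
  set c : ℝ := 1 / (β * (K + 1)) with hc
  have hcpos : 0 < c := by positivity
  refine ⟨c, 1 + c / |f (0, 1)|, hcpos, by positivity, ?_⟩
  intro w hw hf1 hf2 c0
  have hw0 : 0 < w := by linarith
  have hC3w : 2 * ((w / |f (0, 1)| + 1) * m1) ≤ C3 * w := by
    have h2 : w / |f (0, 1)| + 1 ≤ (1 / |f (0, 1)| + 1) * w := by
      have : w / |f (0, 1)| = 1 / |f (0, 1)| * w := by ring
      rw [this]; nlinarith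
    have h3 := mul_le_mul_of_nonneg_right h2 hm10
    rw [hC3]; linarith
  set B : ℕ := ⌈K * w ^ 3⌉₊ with hB
  have hB1 : K * w ^ 3 ≤ B := Nat.le_ceil _
  have hB2 : (B : ℝ) ≤ (K + 1) * w ^ 3 := by
    have h1 := Nat.ceil_lt_add_one (show 0 ≤ K * w ^ 3 by positivity)
    have h2 : (1 : ℝ) ≤ w ^ 3 := one_le_pow₀ hw
    rw [← hB] at h1
    linarith
  have hBpos : 0 < B := by
    have : 0 < K * w ^ 3 := by positivity
    have : (0 : ℝ) < B := by linarith
    exact_mod_cast this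
  -- one block
  have hone : ∀ x ∈ Lane f c0 w, ∀ y ∈ Lane f c0 w, x.1 + B ≤ y.1 →
      (C3 + 1) * w ≤ laneExc (gammaMeasure κ r) μ f c0 w x y := by
    intro x hx y hy hxy
    have hn : B ≤ n1 (y - x) := by
      simp only [n1, Prod.fst_sub, Prod.snd_sub]; omega
    refine le_trans ?_ (hsq w hw hf1 hf2 c0 x hx y hy (le_trans hBpos hn))
    have h1 : (C2 + C3 + 1) / c2 * w ≤ √((n1 (y - x) : ℝ) / w) := by
      apply Real.le_sqrt_of_sq_le
      rw [le_div_iff₀ hw0, mul_pow]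
      have h3 : ((C2 + C3 + 1) / c2) ^ 2 * w ^ 2 * w = K * w ^ 3 := by rw [hK]; ring
      rw [h3]
      refine hB1.trans ?_
      exact_mod_cast hn
    have h2 := mul_le_mul_of_nonneg_left h1 hc2.le
    have h3 : c2 * ((C2 + C3 + 1) / c2 * w) = (C2 + C3 + 1) * w := by field_simp
    rw [h3] at h2
    linarith
  -- many blocks
  have hmany : ∀ k : ℕ, ∀ x ∈ Lane f c0 w, ∀ y ∈ Lane f c0 w, x.1 + ((k + 1 : ℕ) * B : ℕ) ≤ y.1 →
      ((k + 1 : ℕ) : ℝ) * w + C3 * w ≤ laneExc (gammaMeasure κ r) μ f c0 w x y := by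
    intro k
    induction k with
    | zero =>
      intro x hx y hy hxy
      have := hone x hx y hy (by simpa using hxy)
      push_cast; linarith
    | succ k ih =>
      intro x hx y hy hxy
      obtain ⟨j, hj⟩ := exists_mem_col (c0 := c0) h0 hf2 (x.1 + B)
      set p : ℤ × ℤ := (x.1 + B, j) with hp
      have e1 : ((k + 1 + 1 : ℕ) * B : ℕ) = (k + 1) * B + B := by ring
      have hpy : p.1 + ((k + 1 : ℕ) * B : ℕ) ≤ y.1 := by
        rw [e1] at hxy
        simp only [hp]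
        push_cast at hxy ⊢
        linarith
      have h1 := hone x hx p hj (le_refl _)
      have h2 := ih p hj y hy hpy
      have h3 := laneExc_split hG0 hG2 hμ h0 hw0.le hf1 hf2 hx hy hj
        (by simp only [hp]; omega) (by
          have : (0 : ℤ) ≤ (((k + 1 : ℕ) * B : ℕ) : ℤ) := by positivity
          linarith)
      rw [← hm1] at h3
      push_cast at h2 ⊢
      linarith
  -- conclusion for ordered end points
  have hord : ∀ x ∈ Lane f c0 w, ∀ y ∈ Lane f c0 w, x.1 ≤ y.1 →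
      c / w ^ 2 * n1 (y - x) - (1 + c / |f (0, 1)|) * w
        ≤ laneExc (gammaMeasure κ r) μ f c0 w x y := by
    intro x hx y hy hxy
    obtain ⟨Δ, hΔ⟩ := Int.le.dest hxy
    have hD : ((Δ : ℝ) / B - 1) * w ≤ laneExc (gammaMeasure κ r) μ f c0 w x y := by
      set k := Δ / B with hk
      have hkB : (Δ : ℝ) / B ≤ k + 1 := by
        rw [div_le_iff₀ (by exact_mod_cast hBpos)]
        have h1 : Δ < B * (Δ / B + 1) := Nat.lt_mul_div_succ Δ hBpos
        have h2 : (Δ : ℝ) < B * ((Δ / B : ℕ) + 1) := by exact_mod_cast h1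
        rw [← hk] at h2
        linarith
      rcases Nat.eq_zero_or_pos k with hk0 | hkpos
      · have h1 := laneExc_nonneg hG0 hG2 hμ hf1 hf2 hx hy
        rw [hk0] at hkB
        push_cast at hkB
        nlinarith
      · obtain ⟨k', hk'⟩ : ∃ k', k = k' + 1 := ⟨k - 1, by omega⟩
        have hle : x.1 + ((k' + 1 : ℕ) * B : ℕ) ≤ y.1 := by
          rw [← hk', ← hΔ]
          have : k * B ≤ Δ := by rw [hk]; exact Nat.div_mul_le_self Δ B
          have : ((k * B : ℕ) : ℤ) ≤ Δ := by exact_mod_cast this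
          linarith
        have h1 := hmany k' x hx y hy hle
        rw [← hk'] at h1
        have h2 : ((Δ : ℝ) / B - 1) * w ≤ k * w :=
          mul_le_mul_of_nonneg_right (by linarith) hw0.le
        have h3 : 0 ≤ C3 * w := by positivity
        linarith
    refine le_trans ?_ hD
    -- Δ vs n1
    have hn : (n1 (y - x) : ℝ) ≤ β * Δ + w / |f (0, 1)| := by
      rw [mem_Lane, f_toR] at hx hy
      have h3 : |((y.2 : ℝ) - x.2)| * |f (0, 1)| ≤ w + Δ * |f (1, 0)| := by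
        have e : ((y.2 : ℝ) - x.2) * f (0, 1) =
            (y.1 * f (1, 0) + y.2 * f (0, 1) - c0) - (x.1 * f (1, 0) + x.2 * f (0, 1) - c0)
              - (Δ : ℝ) * f (1, 0) := by
          have : (y.1 : ℝ) = x.1 + Δ := by rw [← hΔ]; push_cast; ring
          rw [this]; ring
        rw [← abs_mul, e]
        have a1 := abs_sub (y.1 * f (1, 0) + y.2 * f (0, 1) - c0
          - (x.1 * f (1, 0) + x.2 * f (0, 1) - c0)) ((Δ : ℝ) * f (1, 0))
        have a2 := abs_sub (y.1 * f (1, 0) + y.2 * f (0, 1) - c0)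
          (x.1 * f (1, 0) + x.2 * f (0, 1) - c0)
        rw [abs_mul, Nat.abs_cast] at a1
        linarith
      have h4 : (n1 (y - x) : ℝ) = Δ + |((y.2 : ℝ) - x.2)| := by
        simp only [n1, Prod.fst_sub, Prod.snd_sub]
        push_cast
        congr 1
        · have : y.1 - x.1 = Δ := by rw [← hΔ]; ring
          rw [this]; simp
        · rw [Nat.cast_natAbs]; push_cast; rfl
      rw [h4]
      have h5 : |((y.2 : ℝ) - x.2)| ≤ (w + Δ * |f (1, 0)|) / |f (0, 1)| := by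
        rw [le_div_iff₀ hf2pos]; exact h3
      have h6 : (w + Δ * |f (1, 0)|) / |f (0, 1)| = w / |f (0, 1)| +
          Δ * (|f (1, 0)| / |f (0, 1)|) := by ring
      rw [h6] at h5
      rw [hβ]
      linarith
    have hΔ0 : (0 : ℝ) ≤ Δ := by positivity
    have hBR : (0 : ℝ) < B := by exact_mod_cast hBpos
    have h7 : (Δ : ℝ) / ((K + 1) * w ^ 3) ≤ Δ / B := div_le_div_of_nonneg_left hΔ0 hBR hB2
    have h8 : (Δ : ℝ) / ((K + 1) * w ^ 3) * w = Δ / ((K + 1) * w ^ 2) := by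
      field_simp
    have h9 : c / w ^ 2 * n1 (y - x) ≤ c / w ^ 2 * (β * Δ + w / |f (0, 1)|) :=
      mul_le_mul_of_nonneg_left hn (by positivity)
    have h10 : c / w ^ 2 * (β * Δ) = Δ / ((K + 1) * w ^ 2) := by
      rw [hc]; field_simp
    have h11 : c / w ^ 2 * (w / |f (0, 1)|) ≤ c / |f (0, 1)| * w := by
      have e : c / w ^ 2 * (w / |f (0, 1)|) = c / |f (0, 1)| * (1 / w) := by
        field_simp
      rw [e]
      apply mul_le_mul_of_nonneg_left _ (by positivity)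
      rw [div_le_iff₀ hw0]; nlinarith
    have h12 := mul_le_mul_of_nonneg_right h7 hw0.le
    rw [h8] at h12
    have h13 : ((Δ : ℝ) / B - 1) * w = Δ / B * w - w := by ring
    rw [h13]
    linarith [h9, h10, h11, h12, mul_add (c / w ^ 2) (β * Δ) (w / |f (0, 1)|)]
  intro x hx y hy
  rcases le_total x.1 y.1 with h | h
  · exact hord x hx y hy h
  · rw [laneExc_symm hG0 hG2 hμ]
    have := hord y hy x hx h
    have e : n1 (y - x) = n1 (x - y) := by rw [← n1_neg (x - y)]; congr 1; abel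
    rw [e]
    exact this

/-- exchange of the two coordinates -/
noncomputable def fswap (f : ℝ × ℝ →L[ℝ] ℝ) : ℝ × ℝ →L[ℝ] ℝ :=
  f.comp ((ContinuousLinearMap.snd ℝ ℝ ℝ).prod (ContinuousLinearMap.fst ℝ ℝ ℝ))

@[simp] lemma fswap_apply (f : ℝ × ℝ →L[ℝ] ℝ) (v : ℝ × ℝ) : fswap f v = f (v.2, v.1) := rfl

lemma mem_Lane_swap {c0 w : ℝ} {z : ℤ × ℤ} :
    (z.2, z.1) ∈ Lane (fswap f) c0 w ↔ z ∈ Lane f c0 w := by
  rw [mem_Lane, mem_Lane]
  rfl

lemma laneExc_swap {G : Measure ℝ} [IsProbabilityMeasure G] {μ : ℝ × ℝ → ℝ}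
    (h0 : G (Set.Iio 0) = 0) (h2 : Integrable (fun x : ℝ => x ^ 2) G) (hμ : IsTC G μ)
    (c0 w : ℝ) (x y : ℤ × ℤ) :
    laneExc G μ f c0 w x y = laneExc G μ (fswap f) c0 w (x.2, x.1) (y.2, y.1) := by
  unfold laneExc
  have h1 := integral_pR_act (G := G) sw (Lane (fswap f) c0 w) x y
  have h3 : (sw ⁻¹' Lane (fswap f) c0 w : Set (ℤ × ℤ)) = Lane f c0 w := by
    ext z
    exact mem_Lane_swap
  rw [h3] at h1
  rw [h1]
  congr 1
  have h4 := mu_swap h0 h2 hμ (toR (y - x))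
  rw [← h4]
  rfl

/-- **THEOREM C2** (lower bound for the mean excess of lanes). -/
theorem lane_lower {μ : ℝ × ℝ → ℝ} (hκ : 0 < κ) (hr : 0 < r)
    (hμ : IsTC (gammaMeasure κ r) μ) (hf : f ≠ 0) :
    ∃ c C w0 : ℝ, 0 < c ∧ 0 < C ∧ 1 ≤ w0 ∧ ∀ w : ℝ, w0 ≤ w → ∀ c0 : ℝ,
      ∀ x ∈ Lane f c0 w, ∀ y ∈ Lane f c0 w,
        Integrable (fun t => pR t (Lane f c0 w) x y) (iidLaw (gammaMeasure κ r)) ∧
        μ (toR (y - x)) + c / w ^ 2 * n1 (y - x) - C * w ≤
          ∫ t, pR t (Lane f c0 w) x y ∂(iidLaw (gammaMeasure κ r)) ∧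
        ∫ t, pR t (Lane f c0 w) x y ∂(iidLaw (gammaMeasure κ r)) ≤
          n1 (y - x) * ∫ z, z ∂(gammaMeasure κ r) := by
  have hγ := isProbabilityMeasure_gammaMeasure hκ hr
  have hG0 := gamma_Iio κ r
  have hG2 := integrable_sq hG0 (half_pos hr) (gamma_exp hκ hr)
  by_cases h0 : f (0, 1) = 0
  · have h1 : fswap f (0, 1) ≠ 0 := by
      rw [fswap_apply]
      intro h1
      apply hf
      ext
      · simpa using h1
      · simpa using h0
    obtain ⟨c, C, hc, hC, h⟩ := laneExc_lower_aux hκ hr hμ h1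
    refine ⟨c, C, max 1 (2 * (|f (1, 0)| + |f (0, 1)|)), hc, hC, le_max_left _ _, ?_⟩
    intro w hw c0 x hx y hy
    have hw1 : 1 ≤ w := (le_max_left _ _).trans hw
    have hw2 : 2 * (|f (1, 0)| + |f (0, 1)|) ≤ w := (le_max_right _ _).trans hw
    have hf1 : |f (1, 0)| ≤ w / 2 := by linarith [abs_nonneg (f (0, 1))]
    have hf2 : |f (0, 1)| ≤ w / 2 := by linarith [abs_nonneg (f (1, 0))]
    obtain ⟨i1, i2⟩ := integrable_Lane hG0 hG2 hf1 hf2 hx hy
    refine ⟨i1, ?_, i2⟩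
    have hh := h w hw1 (by rw [fswap_apply]; exact hf2) (by rw [fswap_apply]; exact hf1) c0
      (x.2, x.1) (mem_Lane_swap.2 hx) (y.2, y.1) (mem_Lane_swap.2 hy)
    rw [← laneExc_swap hG0 hG2 hμ] at hh
    have e : n1 ((y.2, y.1) - (x.2, x.1)) = n1 (y - x) := by
      simp only [n1, Prod.fst_sub, Prod.snd_sub]
      exact add_comm _ _
    rw [e] at hh
    unfold laneExc at hh
    linarith
  · obtain ⟨c, C, hc, hC, h⟩ := laneExc_lower_aux hκ hr hμ h0
    refine ⟨c, C, max 1 (2 * (|f (1, 0)| + |f (0, 1)|)), hc, hC, le_max_left _ _, ?_⟩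
    intro w hw c0 x hx y hy
    have hw1 : 1 ≤ w := (le_max_left _ _).trans hw
    have hw2 : 2 * (|f (1, 0)| + |f (0, 1)|) ≤ w := (le_max_right _ _).trans hw
    have hf1 : |f (1, 0)| ≤ w / 2 := by linarith [abs_nonneg (f (0, 1))]
    have hf2 : |f (0, 1)| ≤ w / 2 := by linarith [abs_nonneg (f (1, 0))]
    obtain ⟨i1, i2⟩ := integrable_Lane hG0 hG2 hf1 hf2 hx hy
    refine ⟨i1, ?_, i2⟩
    have hh := h w hw1 hf1 hf2 c0 x hx y hy
    unfold laneExc at hh
    linarith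

end Crest.Agent.R151.G338
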