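import Crest.Agent.R151.Pl3

/-!
# R151, planarity toolkit, part 4: bi-infinite paths in strips

`hits` (Pl-a) : a walk from below a strip to above it meets every bi-infinite path in the strip.
`open_crossings_meet` (Pl-b) : two open crossings between two bi-infinite paths in disjoint
parallel strips with interchanged end points meet.
-/

set_option autoImplicit false

open Crest.ProbabilityR.FirstPassage Filter

namespace Crest.Agent.R151.Pl

/-- the walk along a bi-infinite path -/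
def seg (H : ℤ → Pt) (hadj : ∀ k, squareLattice.Adj (H k) (H (k + 1))) (m : ℤ) :
    (n : ℕ) → squareLattice.Walk (H m) (H (m + n))
  | 0 => (SimpleGraph.Walk.nil : squareLattice.Walk (H m) (H m)).copy rfl (by simp)
  | n + 1 => ((seg H hadj m n).concat (hadj (m + n))).copy rfl (by push_cast; rw [add_assoc])

theorem seg_support (H : ℤ → Pt) (hadj : ∀ k, squareLattice.Adj (H k) (H (k + 1))) (m : ℤ)
    (n : ℕ) : (seg H hadj m n).support = (List.range (n + 1)).map (fun i : ℕ => H (m + i)) := by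
  induction n with
  | zero => simp [seg]
  | succ n ih =>
    rw [List.range_succ, List.map_append, ← ih]
    simp only [seg, SimpleGraph.Walk.support_copy, SimpleGraph.Walk.support_concat,
      List.map_cons, List.map_nil]
    push_cast
    rw [add_assoc]

theorem exists_seg (H : ℤ → Pt) (hadj : ∀ k, squareLattice.Adj (H k) (H (k + 1))) {m n : ℤ}
    (h : m ≤ n) : ∃ w : squareLattice.Walk (H m) (H n),
      ∀ x, x ∈ w.support ↔ ∃ k, m ≤ k ∧ k ≤ n ∧ x = H k := by
  obtain ⟨j, rfl⟩ := Int.le.dest h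
  refine ⟨seg H hadj m j, fun x => ?_⟩
  rw [seg_support, List.mem_map]
  constructor
  · rintro ⟨i, hi, rfl⟩
    rw [List.mem_range] at hi
    exact ⟨m + i, by omega, by omega, rfl⟩
  · rintro ⟨k, h1, h2, rfl⟩
    refine ⟨(k - m).toNat, ?_, ?_⟩
    · rw [List.mem_range]; omega
    · congr 1; omega

theorem exists_bound {b c : Pt} (β : squareLattice.Walk b c) (p q : ℝ) :
    ∃ U : ℝ, ∀ x ∈ β.support, |lin p q x| ≤ U := by
  induction β with
  | @nil a =>
    refine ⟨|lin p q a|, fun x hx => ?_⟩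
    simp only [SimpleGraph.Walk.support_nil, List.mem_singleton] at hx
    rw [hx]
  | @cons a a' d ha w ih =>
    obtain ⟨U, hU⟩ := ih
    refine ⟨max |lin p q a| U, fun x hx => ?_⟩
    simp only [SimpleGraph.Walk.support_cons, List.mem_cons] at hx
    rcases hx with rfl | hx
    · exact le_max_left _ _
    · exact (hU x hx).trans (le_max_right _ _)

theorem lin_neg (p q : ℝ) (x : Pt) : lin (-p) (-q) x = - lin p q x := by
  simp only [lin]; ring

/-- escape from a point in the direction of decreasing `l2` -/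
theorem descend {n11 n12 n21 n22 : ℝ} (hne : n21 ≠ 0 ∨ n22 ≠ 0) :
    ∃ C : ℝ, 0 ≤ C ∧ ∀ (b : Pt) (K : ℝ), ∃ (e : Pt) (D : squareLattice.Walk b e),
      lin n21 n22 e < K ∧ ∀ x ∈ D.support, lin n21 n22 x ≤ lin n21 n22 b ∧
        |lin n11 n12 x - lin n11 n12 b| ≤ C * (lin n21 n22 b - lin n21 n22 x) := by
  rcases lt_trichotomy n22 0 with h | h | h
  · -- up
    refine ⟨|n12| / (-n22), div_nonneg (abs_nonneg _) (by linarith), fun b K => ?_⟩
    obtain ⟨D, hD⟩ := exists_up b (max b.2 (⌊(K - n21 * b.1) / n22⌋ + 1)) (le_max_left _ _)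
    refine ⟨_, D, ?_, fun x hx => ?_⟩
    · have h1 : (K - n21 * b.1) / n22 < ((max b.2 (⌊(K - n21 * b.1) / n22⌋ + 1) : ℤ) : ℝ) := by
        refine (Int.lt_floor_add_one _).trans_le ?_
        exact_mod_cast le_max_right b.2 (⌊(K - n21 * b.1) / n22⌋ + 1)
      rw [div_lt_iff_of_neg h] at h1
      simp only [lin]
      linarith
    · obtain ⟨e1, e2, -⟩ := hD x hx
      have e2' : (b.2 : ℝ) ≤ x.2 := by exact_mod_cast e2
      simp only [lin, e1]
      constructor
      · nlinarith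
      · have e3 : n11 * (b.1 : ℝ) + n12 * x.2 - (n11 * b.1 + n12 * b.2) = n12 * (x.2 - b.2) := by
          ring
        rw [e3, abs_mul, abs_of_nonneg (by linarith : (0 : ℝ) ≤ x.2 - b.2)]
        have e4 : |n12| / -n22 * (n21 * ↑b.1 + n22 * ↑b.2 - (n21 * ↑b.1 + n22 * ↑x.2))
            = |n12| * (x.2 - b.2) := by
          have hn : n22 ≠ 0 := h.ne
          rw [div_neg, neg_mul, div_mul_eq_mul_div, ← neg_div, div_eq_iff hn]
          ring
        rw [e4]
  · subst h
    have hn : n21 ≠ 0 := by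
      rcases hne with h | h
      · exact h
      · exact absurd rfl h
    rcases lt_or_gt_of_ne hn with h | h
    · -- right
      refine ⟨|n11| / (-n21), div_nonneg (abs_nonneg _) (by linarith), fun b K => ?_⟩
      obtain ⟨D, hD⟩ := exists_rt b (max b.1 (⌊K / n21⌋ + 1)) (le_max_left _ _)
      refine ⟨_, D, ?_, fun x hx => ?_⟩
      · have h1 : K / n21 < ((max b.1 (⌊K / n21⌋ + 1) : ℤ) : ℝ) := by
          refine (Int.lt_floor_add_one _).trans_le ?_
          exact_mod_cast le_max_right b.1 (⌊K / n21⌋ + 1)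
        rw [div_lt_iff_of_neg h] at h1
        simp only [lin]
        linarith
      · obtain ⟨e1, e2, -⟩ := hD x hx
        have e2' : (b.1 : ℝ) ≤ x.1 := by exact_mod_cast e2
        simp only [lin, e1]
        constructor
        · nlinarith
        · have e3 : n11 * (x.1 : ℝ) + n12 * b.2 - (n11 * b.1 + n12 * b.2) = n11 * (x.1 - b.1) := by
            ring
          rw [e3, abs_mul, abs_of_nonneg (by linarith : (0 : ℝ) ≤ x.1 - b.1)]
          have e4 : |n11| / -n21 * (n21 * ↑b.1 + 0 * ↑b.2 - (n21 * ↑x.1 + 0 * ↑b.2))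
              = |n11| * (x.1 - b.1) := by
            have hn : n21 ≠ 0 := h.ne
            rw [div_neg, neg_mul, div_mul_eq_mul_div, ← neg_div, div_eq_iff hn]
            ring
          rw [e4]
    · -- left
      refine ⟨|n11| / n21, div_nonneg (abs_nonneg _) (by linarith), fun b K => ?_⟩
      obtain ⟨D, hD⟩ := exists_lf b (min b.1 (⌈K / n21⌉ - 1)) (min_le_left _ _)
      refine ⟨_, D, ?_, fun x hx => ?_⟩
      · have h1 : ((min b.1 (⌈K / n21⌉ - 1) : ℤ) : ℝ) < K / n21 := by
          have : ((min b.1 (⌈K / n21⌉ - 1) : ℤ) : ℝ) ≤ ((⌈K / n21⌉ - 1 : ℤ) : ℝ) := by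
            exact_mod_cast min_le_right b.1 (⌈K / n21⌉ - 1)
          refine this.trans_lt ?_
          push_cast
          linarith [Int.ceil_lt_add_one (K / n21)]
        rw [lt_div_iff₀ h] at h1
        simp only [lin]
        linarith
      · obtain ⟨e1, -, e2⟩ := hD x hx
        have e2' : (x.1 : ℝ) ≤ b.1 := by exact_mod_cast e2
        simp only [lin, e1]
        constructor
        · nlinarith
        · have e3 : n11 * (x.1 : ℝ) + n12 * b.2 - (n11 * b.1 + n12 * b.2) = -(n11 * (b.1 - x.1)) := by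
            ring
          rw [e3, abs_neg, abs_mul, abs_of_nonneg (by linarith : (0 : ℝ) ≤ b.1 - x.1)]
          have e4 : |n11| / n21 * (n21 * ↑b.1 + 0 * ↑b.2 - (n21 * ↑x.1 + 0 * ↑b.2))
              = |n11| * (b.1 - x.1) := by
            field_simp
            ring
          rw [e4]
  · -- down
    refine ⟨|n12| / n22, div_nonneg (abs_nonneg _) (by linarith), fun b K => ?_⟩
    obtain ⟨D, hD⟩ := exists_dn b (min b.2 (⌈(K - n21 * b.1) / n22⌉ - 1)) (min_le_left _ _)
    refine ⟨_, D, ?_, fun x hx => ?_⟩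
    · have h1 : ((min b.2 (⌈(K - n21 * b.1) / n22⌉ - 1) : ℤ) : ℝ) < (K - n21 * b.1) / n22 := by
        have : ((min b.2 (⌈(K - n21 * b.1) / n22⌉ - 1) : ℤ) : ℝ)
            ≤ ((⌈(K - n21 * b.1) / n22⌉ - 1 : ℤ) : ℝ) := by
          exact_mod_cast min_le_right b.2 (⌈(K - n21 * b.1) / n22⌉ - 1)
        refine this.trans_lt ?_
        push_cast
        linarith [Int.ceil_lt_add_one ((K - n21 * b.1) / n22)]
      rw [lt_div_iff₀ h] at h1
      simp only [lin]
      linarith
    · obtain ⟨e1, -, e2⟩ := hD x hx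
      have e2' : (x.2 : ℝ) ≤ b.2 := by exact_mod_cast e2
      simp only [lin, e1]
      constructor
      · nlinarith
      · have e3 : n11 * (b.1 : ℝ) + n12 * x.2 - (n11 * b.1 + n12 * b.2) = -(n12 * (b.2 - x.2)) := by
          ring
        rw [e3, abs_neg, abs_mul, abs_of_nonneg (by linarith : (0 : ℝ) ≤ b.2 - x.2)]
        have e4 : |n12| / n22 * (n21 * ↑b.1 + n22 * ↑b.2 - (n21 * ↑b.1 + n22 * ↑x.2))
            = |n12| * (b.2 - x.2) := by
          field_simp
          ring
        rw [e4]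

theorem ascend {n11 n12 n21 n22 : ℝ} (hne : n21 ≠ 0 ∨ n22 ≠ 0) :
    ∃ C : ℝ, 0 ≤ C ∧ ∀ (b : Pt) (K : ℝ), ∃ (e : Pt) (D : squareLattice.Walk b e),
      K < lin n21 n22 e ∧ ∀ x ∈ D.support, lin n21 n22 b ≤ lin n21 n22 x ∧
        |lin n11 n12 x - lin n11 n12 b| ≤ C * (lin n21 n22 x - lin n21 n22 b) := by
  have hne' : -n21 ≠ 0 ∨ -n22 ≠ 0 := by
    rcases hne with h | h
    · exact Or.inl (neg_ne_zero.2 h)
    · exact Or.inr (neg_ne_zero.2 h)
  obtain ⟨C, hC, h⟩ := descend (n11 := n11) (n12 := n12) hne'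
  refine ⟨C, hC, fun b K => ?_⟩
  obtain ⟨e, D, h1, h2⟩ := h b (-K)
  refine ⟨e, D, ?_, fun x hx => ?_⟩
  · rw [lin_neg] at h1; linarith
  · obtain ⟨h3, h4⟩ := h2 x hx
    rw [lin_neg, lin_neg] at h3 h4
    refine ⟨by linarith, h4.trans (le_of_eq (by ring))⟩

theorem ne_of_det {n11 n12 n21 n22 : ℝ} (hdet : n11 * n22 - n12 * n21 ≠ 0) :
    n21 ≠ 0 ∨ n22 ≠ 0 := by
  by_contra h
  push Not at h
  apply hdet
  rw [h.1, h.2]; ring

/-- (Pl-a) a walk from below a strip to above it meets every bi-infinite path in the strip -/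
theorem hits {n11 n12 n21 n22 : ℝ} (hdet : n11 * n22 - n12 * n21 ≠ 0) (H : ℤ → Pt)
    (hadj : ∀ k, squareLattice.Adj (H k) (H (k + 1)))
    (hbot : Tendsto (fun k => lin n11 n12 (H k)) atBot atBot)
    (htop : Tendsto (fun k => lin n11 n12 (H k)) atTop atTop)
    {b c : Pt} (β : squareLattice.Walk b c) (hb : ∀ k, lin n21 n22 b < lin n21 n22 (H k))
    (hc : ∀ k, lin n21 n22 (H k) < lin n21 n22 c) : ∃ k, H k ∈ β.support := by
  obtain ⟨U, hU⟩ := exists_bound β n11 n12
  obtain ⟨m, hm0, hm⟩ : ∃ m ≤ (0 : ℤ), lin n11 n12 (H m) < -U :=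
    ((eventually_le_atBot (0 : ℤ)).and (hbot.eventually_lt_atBot (-U))).exists
  obtain ⟨n, hn0, hn⟩ : ∃ n ≥ (0 : ℤ), U < lin n11 n12 (H n) :=
    ((eventually_ge_atTop (0 : ℤ)).and (htop.eventually_gt_atTop U)).exists
  obtain ⟨w, hw⟩ := exists_seg H hadj (hm0.trans hn0)
  obtain ⟨x, hx1, hx2⟩ := cross hdet w β (fun x hx => by
    have := hU x hx; rw [abs_le] at this; constructor <;> linarith) (fun x hx => by
    obtain ⟨k, -, -, rfl⟩ := (hw x).1 hx
    exact ⟨hb k, hc k⟩)
  obtain ⟨k, -, -, rfl⟩ := (hw x).1 hx1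
  exact ⟨k, hx2⟩

/-- a function tending to `-∞` at `-∞` is bounded above on a left half-line -/
theorem bdd_left (f : ℤ → ℝ) (hbot : Tendsto f atBot atBot) (z : ℤ) :
    ∃ B : ℝ, ∀ k ≤ z, f k ≤ B := by
  obtain ⟨m, hm⟩ := (eventually_atBot.1 (hbot.eventually_le_atBot 0))
  obtain ⟨B, hB⟩ : ∃ B : ℝ, ∀ k ∈ Finset.Icc m z, f k ≤ B := by
    obtain ⟨B, hB⟩ := ((Finset.Icc m z).image f).bddAbove
    exact ⟨B, fun k hk => hB (Finset.mem_coe.2 (Finset.mem_image_of_mem f hk))⟩
  refine ⟨max 0 B, fun k hk => ?_⟩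
  by_cases h : k ≤ m
  · exact (hm k h).trans (le_max_left _ _)
  · exact (hB k (Finset.mem_Icc.2 ⟨by omega, hk⟩)).trans (le_max_right _ _)

theorem bdd_right (f : ℤ → ℝ) (htop : Tendsto f atTop atTop) (z : ℤ) :
    ∃ B : ℝ, ∀ k ≥ z, B ≤ f k := by
  obtain ⟨m, hm⟩ := (eventually_atTop.1 (htop.eventually_ge_atTop 0))
  obtain ⟨B, hB⟩ : ∃ B : ℝ, ∀ k ∈ Finset.Icc z m, B ≤ f k := by
    obtain ⟨B, hB⟩ := ((Finset.Icc z m).image f).bddBelow
    exact ⟨B, fun k hk => hB (Finset.mem_coe.2 (Finset.mem_image_of_mem f hk))⟩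
  refine ⟨min 0 B, fun k hk => ?_⟩
  by_cases h : m ≤ k
  · exact (min_le_left _ _).trans (hm k h)
  · exact (min_le_right _ _).trans (hB k (Finset.mem_Icc.2 ⟨hk, by omega⟩))

/-- (Pl-b) two open crossings with interchanged end points between two bi-infinite simple paths
in disjoint parallel strips meet -/
theorem open_crossings_meet {n11 n12 n21 n22 : ℝ} (hdet : n11 * n22 - n12 * n21 ≠ 0)
    (H H' : ℤ → Pt) (hadj : ∀ k, squareLattice.Adj (H k) (H (k + 1)))
    (hadj' : ∀ k, squareLattice.Adj (H' k) (H' (k + 1)))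
    (hinj : Function.Injective H) (hinj' : Function.Injective H')
    (hbot : Tendsto (fun k => lin n11 n12 (H k)) atBot atBot)
    (htop : Tendsto (fun k => lin n11 n12 (H k)) atTop atTop)
    (hbot' : Tendsto (fun k => lin n11 n12 (H' k)) atBot atBot)
    (htop' : Tendsto (fun k => lin n11 n12 (H' k)) atTop atTop)
    {lo mid hi : ℝ} (hs : ∀ k, lo ≤ lin n21 n22 (H k) ∧ lin n21 n22 (H k) < mid)
    (hs' : ∀ k, mid ≤ lin n21 n22 (H' k) ∧ lin n21 n22 (H' k) < hi)
    {z1 z2 w1 w2 : ℤ} (hz : z1 < z2) (hw : w2 < w1)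
    (g1 : squareLattice.Walk (H z1) (H' w1)) (g2 : squareLattice.Walk (H z2) (H' w2))
    (g1H : ∀ k, H k ∈ g1.support → k = z1) (g1H' : ∀ k, H' k ∈ g1.support → k = w1)
    (g2H : ∀ k, H k ∈ g2.support → k = z2) (g2H' : ∀ k, H' k ∈ g2.support → k = w2) :
    ∃ x, x ∈ g1.support ∧ x ∈ g2.support := by
  obtain ⟨C, hC, hdesc⟩ := descend (n11 := n11) (n12 := n12) (ne_of_det hdet)
  obtain ⟨C', hC', hasc⟩ := ascend (n11 := n11) (n12 := n12) (ne_of_det hdet)
  obtain ⟨U1, hU1⟩ := exists_bound g1 n11 n12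
  obtain ⟨U2, hU2⟩ := exists_bound g1 n21 n22
  obtain ⟨B, hB⟩ := bdd_left _ hbot z1
  obtain ⟨B', hB'⟩ := bdd_right _ htop' w1
  have hHH' : ∀ k k', H k ≠ H' k' := by
    intro k k' h
    have h1 := (hs k).2
    have h2 := (hs' k').1
    rw [h] at h1; linarith
  -- the far right point `b` of `H`
  obtain ⟨kb, hkb0, hkb⟩ : ∃ n ≥ z2,
      |B| + |C * (mid - lo)| + |U1| + |C * (mid + U2)| < lin n11 n12 (H n) :=
    ((eventually_ge_atTop z2).and (htop.eventually_gt_atTop _)).exists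
  -- the far left point `c` of `H'`
  obtain ⟨kc, hkc0, hkc⟩ : ∃ n ≤ w2, lin n11 n12 (H' n) <
      -(|B'| + |C' * (hi - mid)| + |U1| + |C' * (U2 - mid)|) :=
    ((eventually_le_atBot w2).and (hbot'.eventually_lt_atBot _)).exists
  obtain ⟨e, D, heD, hD⟩ := hdesc (H kb) (-|lo| - |U2|)
  obtain ⟨e', A, heA, hA⟩ := hasc (H' kc) (|hi| + |U2|)
  obtain ⟨s2, hs2⟩ := exists_seg H hadj hkb0
  obtain ⟨s2', hs2'⟩ := exists_seg H' hadj' hkc0
  -- the walk β
  set β := (((D.reverse.append s2.reverse).append g2).append s2'.reverse).append A with hβdef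
  have memβ : ∀ x ∈ β.support, x ∈ D.support ∨ (∃ k, z2 ≤ k ∧ x = H k) ∨ x ∈ g2.support ∨
      (∃ k, k ≤ w2 ∧ x = H' k) ∨ x ∈ A.support := by
    intro x hx
    simp only [hβdef, SimpleGraph.Walk.mem_support_append_iff, SimpleGraph.Walk.support_reverse,
      List.mem_reverse, hs2, hs2'] at hx
    rcases hx with (((h | ⟨k, h1, h2, h3⟩) | h) | ⟨k, h1, h2, h3⟩) | h
    · exact Or.inl h
    · exact Or.inr (Or.inl ⟨k, h1, h3⟩)
    · exact Or.inr (Or.inr (Or.inl h))
    · exact Or.inr (Or.inr (Or.inr (Or.inl ⟨k, h2, h3⟩)))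
    · exact Or.inr (Or.inr (Or.inr (Or.inr h)))
  obtain ⟨V, hV⟩ := exists_bound β n11 n12
  obtain ⟨ka, hka0, hka⟩ : ∃ n ≤ z1, lin n11 n12 (H n) < -V :=
    ((eventually_le_atBot z1).and (hbot.eventually_lt_atBot (-V))).exists
  obtain ⟨kd, hkd0, hkd⟩ : ∃ n ≥ w1, V < lin n11 n12 (H' n) :=
    ((eventually_ge_atTop w1).and (htop'.eventually_gt_atTop V)).exists
  obtain ⟨s1, hs1⟩ := exists_seg H hadj hka0
  obtain ⟨s1', hs1'⟩ := exists_seg H' hadj' hkd0
  set α := (s1.append g1).append s1' with hαdef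
  have memα : ∀ x ∈ α.support, (∃ k, k ≤ z1 ∧ x = H k) ∨ x ∈ g1.support ∨
      (∃ k, w1 ≤ k ∧ x = H' k) := by
    intro x hx
    simp only [hαdef, SimpleGraph.Walk.mem_support_append_iff, hs1, hs1'] at hx
    rcases hx with (⟨k, h1, h2, h3⟩ | h) | ⟨k, h1, h2, h3⟩
    · exact Or.inl ⟨k, h2, h3⟩
    · exact Or.inr (Or.inl h)
    · exact Or.inr (Or.inr ⟨k, h1, h3⟩)
  obtain ⟨x, hx1, hx2⟩ := cross hdet α β (fun x hx => by
      have := hV x hx; rw [abs_le] at this; constructor <;> linarith) (fun x hx => by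
      rcases memα x hx with ⟨k, -, rfl⟩ | h | ⟨k, -, rfl⟩
      · have h1 := hs k
        have h2 := hs' kc
        have h3 := (hs' w1)
        have a1 := neg_abs_le lo
        have a2 := abs_nonneg U2
        have a3 := le_abs_self hi
        constructor <;> linarith
      · have h1 := hU2 x h
        rw [abs_le] at h1
        have a1 := abs_nonneg lo
        have a2 := le_abs_self U2
        have a3 := abs_nonneg hi
        constructor <;> linarith
      · have h1 := hs' k
        have h2 := hs z1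
        have a1 := neg_abs_le lo
        have a2 := abs_nonneg U2
        have a3 := le_abs_self hi
        constructor <;> linarith)
  -- facts on the descending walk
  have DH : ∀ k ≤ z1, H k ∉ D.support := by
    intro k hk h
    obtain ⟨h1, h2⟩ := hD _ h
    have h3 := hs k
    have h4 := hs kb
    have h5 := hB k hk
    have h6 : C * (lin n21 n22 (H kb) - lin n21 n22 (H k)) ≤ C * (mid - lo) :=
      mul_le_mul_of_nonneg_left (by linarith) hC
    rw [abs_le] at h2
    have a1 := le_abs_self B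
    have a2 := le_abs_self (C * (mid - lo))
    have a3 := abs_nonneg (C * (mid + U2))
    have a4 := abs_nonneg U1
    linarith [h2.1]
  have Dg : ∀ x ∈ g1.support, x ∉ D.support := by
    intro x hx h
    obtain ⟨h1, h2⟩ := hD _ h
    have h3 := hU1 x hx
    have h4 := hU2 x hx
    have h5 := hs kb
    rw [abs_le] at h2 h3 h4
    have h6 : C * (lin n21 n22 (H kb) - lin n21 n22 x) ≤ C * (mid + U2) :=
      mul_le_mul_of_nonneg_left (by linarith [h4.1]) hC
    have a1 := abs_nonneg B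
    have a2 := abs_nonneg (C * (mid - lo))
    have a3 := le_abs_self (C * (mid + U2))
    have a4 := le_abs_self U1
    linarith [h2.1]
  have DH' : ∀ k, H' k ∉ D.support := by
    intro k h
    obtain ⟨h1, h2⟩ := hD _ h
    have h3 := hs' k
    have h4 := hs kb
    linarith
  have AH' : ∀ k, w1 ≤ k → H' k ∉ A.support := by
    intro k hk h
    obtain ⟨h1, h2⟩ := hA _ h
    have h3 := hs' k
    have h4 := hs' kc
    have h5 := hB' k hk
    have h6 : C' * (lin n21 n22 (H' k) - lin n21 n22 (H' kc)) ≤ C' * (hi - mid) :=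
      mul_le_mul_of_nonneg_left (by linarith) hC'
    rw [abs_le] at h2
    have a1 := neg_abs_le B'
    have a2 := le_abs_self (C' * (hi - mid))
    have a3 := abs_nonneg U1
    have a4 := abs_nonneg (C' * (U2 - mid))
    linarith [h2.2]
  have Ag : ∀ x ∈ g1.support, x ∉ A.support := by
    intro x hx h
    obtain ⟨h1, h2⟩ := hA _ h
    have h3 := hU1 x hx
    have h4 := hU2 x hx
    have h5 := hs' kc
    rw [abs_le] at h2 h3 h4
    have h6 : C' * (lin n21 n22 x - lin n21 n22 (H' kc)) ≤ C' * (U2 - mid) :=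
      mul_le_mul_of_nonneg_left (by linarith [h4.2]) hC'
    have a1 := abs_nonneg B'
    have a2 := abs_nonneg (C' * (hi - mid))
    have a3 := le_abs_self U1
    have a4 := le_abs_self (C' * (U2 - mid))
    linarith [h2.2]
  have AH : ∀ k, H k ∉ A.support := by
    intro k h
    obtain ⟨h1, h2⟩ := hA _ h
    have h3 := hs k
    have h4 := hs' kc
    linarith
  rcases memα x hx1 with ⟨k, hk, rfl⟩ | h | ⟨k, hk, rfl⟩
  · exfalso
    rcases memβ _ hx2 with h' | ⟨k', hk', h'⟩ | h' | ⟨k', hk', h'⟩ | h'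
    · exact DH k hk h'
    · have := hinj h'; omega
    · have := g2H k h'; omega
    · exact hHH' _ _ h'
    · exact AH k h'
  · rcases memβ _ hx2 with h' | ⟨k', hk', rfl⟩ | h' | ⟨k', hk', rfl⟩ | h'
    · exact absurd h' (Dg x h)
    · have := g1H k' h; omega
    · exact ⟨x, h, h'⟩
    · have := g1H' k' h; omega
    · exact absurd h' (Ag x h)
  · exfalso
    rcases memβ _ hx2 with h' | ⟨k', hk', h'⟩ | h' | ⟨k', hk', h'⟩ | h'
    · exact DH' k h'
    · exact hHH' _ _ h'.symm
    · have := g2H' k h'; omega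
    · have := hinj' h'; omega
    · exact AH' k hk h'

end Crest.Agent.R151.Pl
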