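import Mathlib
import Crest.Agent.R151.R78A

/-!
# R151/R78B — deterministic row layer, part B: open crossings, hull costs, F1, Monge
(owner helper78)

`hull t H H' A i j = inf { hc H z + cost g - hc H' w : z ≥ i, w ≤ j, g : H z → H' w open in A }`.
The potential `φ` cancels: the excess of the route `i → z → w → j` (along `H`, open crossing,
along `H'`) is `val - hp H i + hp H' j` (`exc_open`).
-/

set_option autoImplicit false

open Crest.ProbabilityR.FirstPassage

namespace Crest.Agent.R151.R78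

open Crest.Agent.R151.K

/-- open crossing from `H z` to `H' w` inside `A`: after its start it avoids `H`, before its end it
avoids `H'` -/
structure IsOpen (H H' : ℤ → V) (A : Set V) {z w : ℤ} (g : Wk (H z) (H' w)) : Prop where
  sub : ∀ v ∈ g.support, v ∈ A
  fst : ∀ k, H k ∉ g.support.tail
  snd : ∀ k, H' k ∉ g.support.dropLast

lemma IsOpen.mono {H H' : ℤ → V} {A B : Set V} (hAB : A ⊆ B) {z w : ℤ} {g : Wk (H z) (H' w)}
    (h : IsOpen H H' A g) : IsOpen H H' B g := ⟨fun v hv => hAB (h.sub v hv), h.fst, h.snd⟩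

lemma IsOpen.univ {H H' : ℤ → V} {A : Set V} {z w : ℤ} {g : Wk (H z) (H' w)}
    (h : IsOpen H H' A g) : IsOpen H H' Set.univ g := h.mono (Set.subset_univ _)

lemma IsOpen.eq_fst {H H' : ℤ → V} (hH : Function.Injective H) {A : Set V} {z w : ℤ}
    {g : Wk (H z) (H' w)} (h : IsOpen H H' A g) {k : ℤ} (hk : H k ∈ g.support) : k = z := by
  rw [mem_support_iff_tail] at hk
  rcases hk with hk | hk
  · exact hH hk
  · exact absurd hk (h.fst k)

lemma IsOpen.eq_snd {H H' : ℤ → V} (hH' : Function.Injective H') {A : Set V} {z w : ℤ}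
    {g : Wk (H z) (H' w)} (h : IsOpen H H' A g) {k : ℤ} (hk : H' k ∈ g.support) : k = w := by
  rw [mem_support_iff_dropLast] at hk
  rcases hk with hk | hk
  · exact absurd hk (h.snd k)
  · exact hH' hk

/-- values of the routes from `i` on `H` to `j` on `H'` inside `A` -/
def routes (t : Environment) (H H' : ℤ → V) (A : Set V) (i j : ℤ) : Set ℝ :=
  {c | ∃ z w : ℤ, i ≤ z ∧ w ≤ j ∧ ∃ g : Wk (H z) (H' w), IsOpen H H' A g ∧
    c = hc t H z + walkCost t g - hc t H' w}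

/-- the hull cost `R^_A (i → j)` (normalised by the cost potentials of the two highways) -/
noncomputable def hull (t : Environment) (H H' : ℤ → V) (A : Set V) (i j : ℤ) : ℝ :=
  sInf (routes t H H' A i j)

variable {t : Environment} {φ : V → ℝ} {H H' : ℤ → V} {A B : Set V} {i i' j j' z w : ℤ}

/-- the excess of an open crossing in terms of its value -/
lemma exc_open (g : Wk (H z) (H' w)) :
    exc t φ g = (hc t H z + walkCost t g - hc t H' w) - hp t φ H z + hp t φ H' w := by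
  unfold exc hp; ring

lemma routes_mono (hAB : A ⊆ B) (hi : i' ≤ i) (hj : j ≤ j') :
    routes t H H' A i j ⊆ routes t H H' B i' j' := by
  rintro c ⟨z, w, hz, hw, g, hg, rfl⟩
  exact ⟨z, w, hi.trans hz, hw.trans hj, g, hg.mono hAB, rfl⟩

lemma hull_le (hb : BddBelow (routes t H H' A i j)) (hz : i ≤ z) (hw : w ≤ j)
    (g : Wk (H z) (H' w)) (hg : IsOpen H H' A g) :
    hull t H H' A i j ≤ hc t H z + walkCost t g - hc t H' w :=
  csInf_le hb ⟨z, w, hz, hw, g, hg, rfl⟩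

lemma le_hull {c : ℝ} (hne : (routes t H H' A i j).Nonempty)
    (h : ∀ z w : ℤ, i ≤ z → w ≤ j → ∀ g : Wk (H z) (H' w), IsOpen H H' A g →
      c ≤ hc t H z + walkCost t g - hc t H' w) : c ≤ hull t H H' A i j := by
  refine le_csInf hne ?_
  rintro _ ⟨z, w, hz, hw, g, hg, rfl⟩
  exact h z w hz hw g hg

lemma exists_route_lt (hne : (routes t H H' A i j).Nonempty) {c : ℝ}
    (h : hull t H H' A i j < c) :
    ∃ z w : ℤ, i ≤ z ∧ w ≤ j ∧ ∃ g : Wk (H z) (H' w), IsOpen H H' A g ∧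
      hc t H z + walkCost t g - hc t H' w < c := by
  obtain ⟨_, ⟨z, w, hz, hw, g, hg, rfl⟩, hc⟩ := exists_lt_of_csInf_lt hne h
  exact ⟨z, w, hz, hw, g, hg, hc⟩

/-- monotonicity in all arguments: `R^` increases in `i`, decreases in `j`, decreases in `A` -/
lemma hull_mono (hb : BddBelow (routes t H H' B i' j')) (hne : (routes t H H' A i j).Nonempty)
    (hAB : A ⊆ B) (hi : i' ≤ i) (hj : j ≤ j') :
    hull t H H' B i' j' ≤ hull t H H' A i j :=
  csInf_le_csInf hb hne (routes_mono hAB hi hj)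

lemma bddBelow_of_finite (ht : Nn t) (hH : IsHwy H) (hH' : IsHwy H') (hA : A.Finite) (i j : ℤ) :
    BddBelow (routes t H H' A i j) := by
  classical
  have h1 : {z : ℤ | H z ∈ A}.Finite := hA.preimage hH.inj.injOn
  have h2 : {z : ℤ | H' z ∈ A}.Finite := hA.preimage hH'.inj.injOn
  obtain ⟨m, hm⟩ := (h1.image (hc t H)).bddBelow
  obtain ⟨M, hM⟩ := (h2.image (hc t H')).bddAbove
  refine ⟨m - M, ?_⟩
  rintro _ ⟨z, w, hz, hw, g, hg, rfl⟩
  have a1 := hm ⟨z, hg.sub _ g.start_mem_support, rfl⟩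
  have a2 := hM ⟨w, hg.sub _ g.end_mem_support, rfl⟩
  have a3 := walkCost_nonneg ht g
  linarith

/-! ### Gauge -/

/-- `R#_A (i → j)`, gauged by the optimal route `a → b` in the large region `B` -/
noncomputable def shp (t : Environment) (H H' : ℤ → V) (B : Set V) (a b : ℤ) (A : Set V)
    (i j : ℤ) : ℝ := hull t H H' A i j - hull t H H' B a b

variable {a b : ℤ}

lemma shp_nonneg (hb : BddBelow (routes t H H' B a b)) (hne : (routes t H H' A i j).Nonempty)
    (hAB : A ⊆ B) (hi : a ≤ i) (hj : j ≤ b) : 0 ≤ shp t H H' B a b A i j := by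
  have := hull_mono hb hne hAB hi hj
  unfold shp; linarith

lemma shp_mono (hb : BddBelow (routes t H H' B a b)) {A' : Set V}
    (hA'B : A' ⊆ B) (hne : (routes t H H' A i j).Nonempty)
    (hAA' : A ⊆ A') (hai : a ≤ i') (hjb : j' ≤ b) (hi : i' ≤ i) (hj : j ≤ j') :
    shp t H H' B a b A' i' j' ≤ shp t H H' B a b A i j := by
  have := hull_mono (hb.mono (routes_mono hA'B hai hjb)) hne hAA' hi hj
  unfold shp; linarith

/-! ### Crossings -/

/-- planarity (Pl-b): two open crossings with exchanged end points meet -/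
def Crosses (H H' : ℤ → V) : Prop :=
  ∀ ⦃z₁ z₂ w₁ w₂ : ℤ⦄, z₁ < z₂ → w₂ < w₁ → ∀ (g₁ : Wk (H z₁) (H' w₁)) (g₂ : Wk (H z₂) (H' w₂)),
    IsOpen H H' Set.univ g₁ → IsOpen H H' Set.univ g₂ → ∃ v, v ∈ g₁.support ∧ v ∈ g₂.support

/-- gluing the initial part of one crossing to the final part of another one -/
lemma isOpen_append {z₁ z₂ w₁ w₂ : ℤ} {v : V} {a₁ : Wk (H z₁) v} {b₁ : Wk v (H' w₁)}
    {a₂ : Wk (H z₂) v} {b₂ : Wk v (H' w₂)} (h₁ : IsOpen H H' A (a₁.append b₁))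
    (h₂ : IsOpen H H' B (a₂.append b₂)) : IsOpen H H' (A ∪ B) (a₁.append b₂) := by
  refine ⟨?_, ?_, ?_⟩
  · intro u hu
    rw [mem_support_append] at hu
    rcases hu with hu | hu
    · exact Or.inl (h₁.sub u (by rw [mem_support_append]; exact Or.inl hu))
    · exact Or.inr (h₂.sub u (by rw [mem_support_append]; exact Or.inr hu))
  · intro k hk
    rw [mem_tail_append] at hk
    rcases hk with hk | hk
    · exact h₁.fst k (by rw [mem_tail_append]; exact Or.inl hk)
    · exact h₂.fst k (by rw [mem_tail_append]; exact Or.inr hk)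
  · intro k hk
    rw [mem_dropLast_append] at hk
    rcases hk with hk | hk
    · exact h₁.snd k (by rw [mem_dropLast_append]; exact Or.inl hk)
    · exact h₂.snd k (by rw [mem_dropLast_append]; exact Or.inr hk)

/-- switching at a common vertex -/
lemma IsOpen.switch {z₁ z₂ w₁ w₂ : ℤ} {g₁ : Wk (H z₁) (H' w₁)} {g₂ : Wk (H z₂) (H' w₂)}
    (h₁ : IsOpen H H' A g₁) (h₂ : IsOpen H H' B g₂)
    {v : V} (hv₁ : v ∈ g₁.support) (hv₂ : v ∈ g₂.support) :
    ∃ (k₁ : Wk (H z₁) (H' w₂)) (k₂ : Wk (H z₂) (H' w₁)), IsOpen H H' (A ∪ B) k₁ ∧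
      IsOpen H H' (A ∪ B) k₂ ∧
      ∀ t : Environment, walkCost t k₁ + walkCost t k₂ = walkCost t g₁ + walkCost t g₂ := by
  obtain ⟨a₁, b₁, e₁⟩ := exists_split g₁ hv₁
  obtain ⟨a₂, b₂, e₂⟩ := exists_split g₂ hv₂
  subst e₁ e₂
  refine ⟨a₁.append b₂, a₂.append b₁, isOpen_append h₁ h₂, ?_, ?_⟩
  · rw [Set.union_comm]; exact isOpen_append h₂ h₁
  · intro t; simp only [walkCost_append]; ring

/-- **Monge property** (F1): crossing inequality of the hull costs -/
theorem hull_monge (hC : Crosses H H') (hi : i ≤ i') (hj : j ≤ j')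
    (hb : BddBelow (routes t H H' (A ∪ B) i j'))
    (hne₁ : (routes t H H' A i j').Nonempty) (hne₂ : (routes t H H' B i' j).Nonempty) :
    hull t H H' (A ∪ B) i j + hull t H H' (A ∪ B) i' j' ≤
      hull t H H' A i j' + hull t H H' B i' j := by
  have hb1 : BddBelow (routes t H H' (A ∪ B) i j) := hb.mono (routes_mono subset_rfl le_rfl hj)
  have hb2 : BddBelow (routes t H H' (A ∪ B) i' j') := hb.mono (routes_mono subset_rfl hi le_rfl)
  have key : ∀ z₂ w₂ : ℤ, i' ≤ z₂ → w₂ ≤ j → ∀ g₂ : Wk (H z₂) (H' w₂), IsOpen H H' B g₂ →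
      ∀ z₁ w₁ : ℤ, i ≤ z₁ → w₁ ≤ j' → ∀ g₁ : Wk (H z₁) (H' w₁), IsOpen H H' A g₁ →
      hull t H H' (A ∪ B) i j + hull t H H' (A ∪ B) i' j' ≤
        (hc t H z₁ + walkCost t g₁ - hc t H' w₁) + (hc t H z₂ + walkCost t g₂ - hc t H' w₂) := by
    intro z₂ w₂ hz₂ hw₂ g₂ h₂ z₁ w₁ hz₁ hw₁ g₁ h₁
    have h₁' := h₁.mono (Set.subset_union_left (t := B))
    have h₂' := h₂.mono (Set.subset_union_right (s := A))
    by_cases c1 : w₁ ≤ j
    · have a1 := hull_le hb1 hz₁ c1 g₁ h₁'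
      have a2 := hull_le hb2 hz₂ (hw₂.trans hj) g₂ h₂'
      linarith
    by_cases c2 : i' ≤ z₁
    · have a1 := hull_le hb2 c2 hw₁ g₁ h₁'
      have a2 := hull_le hb1 (hi.trans hz₂) hw₂ g₂ h₂'
      linarith
    push Not at c1 c2
    obtain ⟨v, hv₁, hv₂⟩ := hC (lt_of_lt_of_le c2 hz₂) (lt_of_le_of_lt hw₂ c1) g₁ g₂ h₁.univ h₂.univ
    obtain ⟨k₁, k₂, hk₁, hk₂, hk⟩ := h₁.switch h₂ hv₁ hv₂
    have a1 := hull_le hb1 hz₁ hw₂ k₁ hk₁
    have a2 := hull_le hb2 hz₂ hw₁ k₂ hk₂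
    have := hk t
    linarith
  have k1 : ∀ z₂ w₂ : ℤ, i' ≤ z₂ → w₂ ≤ j → ∀ g₂ : Wk (H z₂) (H' w₂), IsOpen H H' B g₂ →
      hull t H H' (A ∪ B) i j + hull t H H' (A ∪ B) i' j' -
        (hc t H z₂ + walkCost t g₂ - hc t H' w₂) ≤ hull t H H' A i j' := by
    intro z₂ w₂ hz₂ hw₂ g₂ h₂
    refine le_hull hne₁ fun z₁ w₁ hz₁ hw₁ g₁ h₁ => ?_
    have := key z₂ w₂ hz₂ hw₂ g₂ h₂ z₁ w₁ hz₁ hw₁ g₁ h₁
    linarith
  have k2 : hull t H H' (A ∪ B) i j + hull t H H' (A ∪ B) i' j' - hull t H H' A i j' ≤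
      hull t H H' B i' j := by
    refine le_hull hne₂ fun z₂ w₂ hz₂ hw₂ g₂ h₂ => ?_
    have := k1 z₂ w₂ hz₂ hw₂ g₂ h₂
    linarith
  linarith

/-- Monge for one region -/
theorem hull_monge' (hC : Crosses H H') (hi : i ≤ i') (hj : j ≤ j')
    (hb : BddBelow (routes t H H' A i j')) (hne : (routes t H H' A i' j).Nonempty) :
    hull t H H' A i j + hull t H H' A i' j' ≤ hull t H H' A i j' + hull t H H' A i' j := by
  have := hull_monge (A := A) (B := A) hC hi hj (by rwa [Set.union_self])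
    (hne.mono (routes_mono subset_rfl hi hj)) hne
  rwa [Set.union_self] at this

theorem shp_monge (hC : Crosses H H') (hai : a ≤ i) (hjb : j' ≤ b) (hi : i ≤ i') (hj : j ≤ j')
    (hAB : A ⊆ B) (hb : BddBelow (routes t H H' B a b)) (hne : (routes t H H' A i' j).Nonempty) :
    shp t H H' B a b A i j + shp t H H' B a b A i' j' ≤
      shp t H H' B a b A i j' + shp t H H' B a b A i' j := by
  have := hull_monge' (t := t) hC hi hj (hb.mono (routes_mono hAB hai hjb)) hne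
  unfold shp; linarith

end Crest.Agent.R151.R78
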