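import Mathlib
import Crest.Agent.R151.R78B

/-!
# R151/R78D — deterministic row layer, part D: private rows (777's architecture `PR`)
(owner helper78)

Rows `k ≤ N` between the private highways `L k` (lower) and `U k` (upper); gaps between `U k` and
`L (k+1)`.
-/

set_option autoImplicit false

open Crest.ProbabilityR.FirstPassage

namespace Crest.Agent.R151.R78

open Crest.Agent.R151.K

variable {t : Environment} {φ : V → ℝ}

/-- `S` separates `X` from `Y`: every walk from `X` to `Y` meets `S` -/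
def Sep (X S Y : Set V) : Prop :=
  ∀ x ∈ X, ∀ y ∈ Y, ∀ g : Wk x y, ∃ v ∈ g.support, v ∈ S

lemma Sep.symm {X S Y : Set V} (h : Sep X S Y) : Sep Y S X := by
  intro y hy x hx g
  obtain ⟨v, hv, hvS⟩ := h x hx y hy g.reverse
  exact ⟨v, by simpa using hv, hvS⟩

lemma Sep.mono {X X' S S' Y Y' : Set V} (h : Sep X S Y) (hX : X' ⊆ X) (hS : S ⊆ S')
    (hY : Y' ⊆ Y) : Sep X' S' Y' := by
  intro x hx y hy g
  obtain ⟨v, hv, hvS⟩ := h x (hX hx) y (hY hy) g
  exact ⟨v, hv, hS hvS⟩

/-! ### Open crossings avoid everything beyond the two highways -/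

section avoid
variable {H H' : ℤ → V} {A : Set V} {z w : ℤ}

lemma IsOpen.avoid_below {g : Wk (H z) (H' w)} (h : IsOpen H H' A g) {X : Set V}
    (hX : ∀ k, H k ∉ X) (hS : Sep X (Set.range H) (Set.range H')) :
    ∀ v ∈ g.support, v ∉ X := by
  intro v hv hvX
  obtain ⟨a, b, e⟩ := exists_split g hv
  obtain ⟨u, hu, ⟨m, rfl⟩⟩ := hS v hvX _ ⟨w, rfl⟩ b
  rw [mem_support_iff_tail] at hu
  rcases hu with hu | hu
  · exact hX m (hu ▸ hvX)
  · exact h.fst m (by rw [e, mem_tail_append]; exact Or.inr hu)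

lemma IsOpen.avoid_above {g : Wk (H z) (H' w)} (h : IsOpen H H' A g) {X : Set V}
    (hX : ∀ k, H' k ∉ X) (hS : Sep (Set.range H) (Set.range H') X) :
    ∀ v ∈ g.support, v ∉ X := by
  intro v hv hvX
  obtain ⟨a, b, e⟩ := exists_split g hv
  obtain ⟨u, hu, ⟨m, rfl⟩⟩ := hS _ ⟨z, rfl⟩ v hvX a
  rw [mem_support_iff_dropLast] at hu
  rcases hu with hu | hu
  · exact h.snd m (by rw [e, mem_dropLast_append]; exact Or.inl hu)
  · exact hX m (hu ▸ hvX)

/-- intersection of regions -/
lemma IsOpen.inter {B : Set V} {g : Wk (H z) (H' w)} (h : IsOpen H H' A g)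
    (hB : ∀ v ∈ g.support, v ∈ B) : IsOpen H H' (A ∩ B) g :=
  ⟨fun v hv => ⟨h.sub v hv, hB v hv⟩, h.fst, h.snd⟩

end avoid

/-! ### Gap kernels -/

/-- normalised full-plane passage kernel between two highways -/
noncomputable def gapK (t : Environment) (U L : ℤ → V) (w z : ℤ) : ℝ :=
  hc t U w + passageTime t (U w) (L z) - hc t L z

lemma gapK_mono (ht : Nn t) {U L : ℤ → V} (hU : IsHwy U) (hL : IsHwy L) {a w z b : ℤ}
    (ha : a ≤ w) (hb : z ≤ b) : gapK t U L a b ≤ gapK t U L w z := by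
  have h1 := hU.pt_le ht ha
  have h2 := hL.pt_le ht hb
  have h3 := pt_triangle ht (U a) (U w) (L b)
  have h4 := pt_triangle ht (U w) (L z) (L b)
  unfold gapK; linarith

/-- `gapK` is below every walk: lower bound for the value of a walk between two highways -/
lemma gapK_le (ht : Nn t) {U L : ℤ → V} {w z : ℤ} (g : Wk (U w) (L z)) :
    gapK t U L w z ≤ hc t U w + walkCost t g - hc t L z := by
  have := K.pt_le ht g
  unfold gapK; linarith

lemma gapK_le_hull (ht : Nn t) {U L : ℤ → V} (hU : IsHwy U) (hL : IsHwy L) {A : Set V} {i j : ℤ}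
    (hne : (routes t U L A i j).Nonempty) : gapK t U L i j ≤ hull t U L A i j :=
  le_hull hne fun _ _ hz hw g _ => (gapK_mono ht hU hL hz hw).trans (gapK_le ht g)

/-- excess form of `gapK` -/
lemma gapK_eq (t : Environment) (φ : V → ℝ) (U L : ℤ → V) (w z : ℤ) :
    gapK t U L w z = hp t φ U w + (passageTime t (U w) (L z) - (φ (L z) - φ (U w))) -
      hp t φ L z := by
  unfold gapK hp; ring

/-! ### The chain -/

/-- structural decomposition of a walk crossing `N` private rows -/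
theorem exists_chain' (N : ℕ) : ∀ (L U : ℕ → ℤ → V) (x y : V)
    (_ : 0 < N → Sep {x} (Set.range (L 0)) (Set.range (U 0)))
    (_ : 0 < N → Sep {x} (Set.range (U 0)) {y})
    (_ : ∀ k, k + 1 < N → Sep (Set.range (U k)) (Set.range (L (k + 1))) (Set.range (U (k + 1))))
    (_ : ∀ k, k + 1 < N → Sep (Set.range (U k)) (Set.range (U (k + 1))) {y})
    (g : Wk x y),
    ∃ (z w : ℕ → ℤ) (P : ℕ → V) (C O : ℕ → Environment → ℝ) (E : Environment → ℝ),
      P 0 = x ∧ (∀ k < N, P (k + 1) = U k (w k)) ∧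
      (∀ k < N, ∃ c : Wk (P k) (L k (z k)), (∀ t, walkCost t c = C k t) ∧
        ∀ v ∈ c.support, v ∈ g.support) ∧
      (∀ k < N, ∃ o : Wk (L k (z k)) (U k (w k)), (∀ t, walkCost t o = O k t) ∧
        IsOpen (L k) (U k) {v | v ∈ g.support} o) ∧
      (∃ e : Wk (P N) y, (∀ t, walkCost t e = E t) ∧ ∀ v ∈ e.support, v ∈ g.support) ∧
      ∀ t, walkCost t g = ∑ k ∈ Finset.range N, (C k t + O k t) + E t := by
  induction N with
  | zero =>
    intro L U x y _ _ _ _ g
    refine ⟨fun _ => 0, fun _ => 0, fun _ => x, fun _ _ => 0, fun _ _ => 0,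
      fun t => walkCost t g, rfl, by simp, by simp, by simp, ⟨g, fun _ => rfl, fun v hv => hv⟩,
      by simp⟩
  | succ N ih =>
    intro L U x y hL0 hU0 hL hU g
    obtain ⟨u, c, b, e, ⟨w0, rfl⟩, hc⟩ := exists_first g (Set.range (U 0))
      (hU0 (by omega) x rfl y rfl g)
    obtain ⟨v, a, o, e', ⟨z0, rfl⟩, ho⟩ := exists_last c (Set.range (L 0))
      (hL0 (by omega) x rfl _ ⟨w0, rfl⟩ c)
    obtain ⟨z, w, P, C, O, E, hP0, hP, hC, hO, ⟨f, hf, hf'⟩, hsum⟩ := ih (fun k => L (k + 1))
      (fun k => U (k + 1)) (U 0 w0) y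
      (fun h => (hL 0 (by omega)).mono (by rintro _ rfl; exact ⟨w0, rfl⟩) subset_rfl subset_rfl)
      (fun h => (hU 0 (by omega)).mono (by rintro _ rfl; exact ⟨w0, rfl⟩) subset_rfl subset_rfl)
      (fun k hk => hL (k + 1) (by omega)) (fun k hk => hU (k + 1) (by omega)) b
    have hb : ∀ v ∈ b.support, v ∈ g.support := fun v hv => by
      rw [e, mem_support_append]; exact Or.inr hv
    have hoo : ∀ v ∈ o.support, v ∈ g.support := fun v hv => by
      rw [e, e', mem_support_append, mem_support_append]; exact Or.inl (Or.inr hv)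
    have haa : ∀ v ∈ a.support, v ∈ g.support := fun v hv => by
      rw [e, e', mem_support_append, mem_support_append]; exact Or.inl (Or.inl hv)
    let C' : ℕ → Environment → ℝ := fun k => Nat.casesOn k (fun t => walkCost t a) C
    let O' : ℕ → Environment → ℝ := fun k => Nat.casesOn k (fun t => walkCost t o) O
    let P' : ℕ → V := fun k => Nat.casesOn k x P
    refine ⟨fun k => Nat.casesOn k z0 z, fun k => Nat.casesOn k w0 w, P', C', O', E, rfl,
      ?_, ?_, ?_, ⟨f, hf, fun v hv => hb v (hf' v hv)⟩, ?_⟩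
    · intro k hk
      rcases k with _ | k
      · exact hP0
      · exact hP k (by omega)
    · intro k hk
      rcases k with _ | k
      · exact ⟨a, fun _ => rfl, haa⟩
      · obtain ⟨c, hc, hc'⟩ := hC k (by omega)
        exact ⟨c, hc, fun v hv => hb v (hc' v hv)⟩
    · intro k hk
      rcases k with _ | k
      · refine ⟨o, fun _ => rfl, hoo, ?_, ?_⟩
        · intro k hk; exact ho _ hk ⟨k, rfl⟩
        · intro k hk
          exact hc _ (by rw [e', mem_dropLast_append]; exact Or.inr hk) ⟨k, rfl⟩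
      · obtain ⟨c, hc, hc'⟩ := hO k (by omega)
        exact ⟨c, hc, hc'.mono fun v hv => hb v hv⟩
    · intro t
      rw [e, e', walkCost_append, walkCost_append, hsum t,
        Finset.sum_range_succ' (fun k => C' k t + O' k t) N]
      change _ = ∑ k ∈ Finset.range N, (C k t + O k t) + (walkCost t a + walkCost t o) + E t
      ring

/-- data of a stack of private rows `0, …, N` crossed by walks from `X` to `Y` -/
structure IsStack (N : ℕ) (L U : ℕ → ℤ → V) (X Y : Set V) : Prop where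
  hL : ∀ k ≤ N, IsHwy (L k)
  hU : ∀ k ≤ N, IsHwy (U k)
  sepL0 : Sep X (Set.range (L 0)) (Set.range (U 0))
  sepU0 : Sep X (Set.range (U 0)) Y
  sepL : ∀ k < N, Sep (Set.range (U k)) (Set.range (L (k + 1))) (Set.range (U (k + 1)))
  sepU : ∀ k < N, Sep (Set.range (U k)) (Set.range (U (k + 1))) Y

/-- **chain inequality** (777's (*)), cost form, any region `A k` of row `k` containing the open
pieces of the walk. -/
theorem chain_pr (ht : Nn t) {N : ℕ} {L U : ℕ → ℤ → V} {X Y : Set V} (hS : IsStack N L U X Y)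
    {A : ℕ → Set V} {x y : V} (hx : x ∈ X) (hy : y ∈ Y) (g : Wk x y)
    (hb : ∀ k ≤ N, ∀ i j, L k i ∈ g.support → U k j ∈ g.support →
      BddBelow (routes t (L k) (U k) (A k) i j))
    (hA : ∀ k ≤ N, ∀ i j (o : Wk (L k i) (U k j)), IsOpen (L k) (U k) {v | v ∈ g.support} o →
      ∀ v ∈ o.support, v ∈ A k) :
    ∃ z w : ℕ → ℤ,
      (∀ k ≤ N, ∃ o : Wk (L k (z k)) (U k (w k)), IsOpen (L k) (U k) {v | v ∈ g.support} o) ∧
      (passageTime t x (L 0 (z 0)) - hc t (L 0) (z 0)) +
        ∑ k ∈ Finset.range (N + 1), hull t (L k) (U k) (A k) (z k) (w k) +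
        ∑ k ∈ Finset.range N, gapK t (U k) (L (k + 1)) (w k) (z (k + 1)) +
        (hc t (U N) (w N) + passageTime t (U N (w N)) y) ≤ walkCost t g := by
  obtain ⟨z, w, P, C, O, E, hP0, hP, hC, hO, ⟨e, he, -⟩, hsum⟩ := exists_chain' (N + 1) L U x y
    (fun _ => hS.sepL0.mono (by rintro _ rfl; exact hx) subset_rfl subset_rfl)
    (fun _ => hS.sepU0.mono (by rintro _ rfl; exact hx) subset_rfl (by rintro _ rfl; exact hy))
    (fun k hk => hS.sepL k (by omega))
    (fun k hk => (hS.sepU k (by omega)).mono subset_rfl subset_rfl (by rintro _ rfl; exact hy)) g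
  refine ⟨z, w, fun k hk => ?_, ?_⟩
  · obtain ⟨o, -, ho⟩ := hO k (by omega)
    exact ⟨o, ho⟩
  have hOk : ∀ k ≤ N, hull t (L k) (U k) (A k) (z k) (w k) - hc t (L k) (z k) +
      hc t (U k) (w k) ≤ O k t := by
    intro k hk
    obtain ⟨o, ho, ho'⟩ := hO k (by omega)
    have h1 : L k (z k) ∈ g.support := ho'.sub _ o.start_mem_support
    have h2 : U k (w k) ∈ g.support := ho'.sub _ o.end_mem_support
    have h3 : IsOpen (L k) (U k) (A k) o := ⟨hA k hk _ _ o ho', ho'.fst, ho'.snd⟩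
    have := hull_le (hb k hk _ _ h1 h2) le_rfl le_rfl o h3
    rw [← ho t]; linarith
  have hC0 : passageTime t x (L 0 (z 0)) ≤ C 0 t := by
    obtain ⟨c, hc, -⟩ := hC 0 (by omega)
    rw [← hc t, ← hP0]; exact K.pt_le ht c
  have hCk : ∀ k < N, passageTime t (U k (w k)) (L (k + 1) (z (k + 1))) ≤ C (k + 1) t := by
    intro k hk
    obtain ⟨c, hc, -⟩ := hC (k + 1) (by omega)
    rw [← hc t, ← hP k (by omega)]; exact K.pt_le ht c
  have hE : passageTime t (U N (w N)) y ≤ E t := by
    rw [← he t, ← hP N (by omega)]; exact K.pt_le ht e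
  have s1 : ∑ k ∈ Finset.range (N + 1), (hull t (L k) (U k) (A k) (z k) (w k) -
      hc t (L k) (z k) + hc t (U k) (w k)) ≤ ∑ k ∈ Finset.range (N + 1), O k t :=
    Finset.sum_le_sum fun k hk => hOk k (by rw [Finset.mem_range] at hk; omega)
  have s2 : ∑ k ∈ Finset.range N, passageTime t (U k (w k)) (L (k + 1) (z (k + 1))) ≤
      ∑ k ∈ Finset.range N, C (k + 1) t :=
    Finset.sum_le_sum fun k hk => hCk k (Finset.mem_range.1 hk)
  rw [hsum t]
  have s3 : ∑ k ∈ Finset.range (N + 1), (C k t + O k t) =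
      ∑ k ∈ Finset.range N, C (k + 1) t + C 0 t + ∑ k ∈ Finset.range (N + 1), O k t := by
    rw [Finset.sum_add_distrib, Finset.sum_range_succ' (fun k => C k t)]
  have s4 : ∑ k ∈ Finset.range (N + 1), (hull t (L k) (U k) (A k) (z k) (w k) -
      hc t (L k) (z k) + hc t (U k) (w k)) =
      ∑ k ∈ Finset.range (N + 1), hull t (L k) (U k) (A k) (z k) (w k) -
      (∑ k ∈ Finset.range N, hc t (L (k + 1)) (z (k + 1)) + hc t (L 0) (z 0)) +
      (∑ k ∈ Finset.range N, hc t (U k) (w k) + hc t (U N) (w N)) := by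
    rw [Finset.sum_add_distrib, Finset.sum_sub_distrib,
      Finset.sum_range_succ' (fun k => hc t (L k) (z k)),
      Finset.sum_range_succ (fun k => hc t (U k) (w k))]
  have s5 : ∑ k ∈ Finset.range N, gapK t (U k) (L (k + 1)) (w k) (z (k + 1)) =
      ∑ k ∈ Finset.range N, hc t (U k) (w k) +
      ∑ k ∈ Finset.range N, passageTime t (U k (w k)) (L (k + 1) (z (k + 1))) -
      ∑ k ∈ Finset.range N, hc t (L (k + 1)) (z (k + 1)) := by
    simp only [gapK, Finset.sum_add_distrib, Finset.sum_sub_distrib]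
  rw [s3, s5]
  linarith

end Crest.Agent.R151.R78
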