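import Mathlib
import Crest.Agent.R151.R78D

/-!
# R151/R78E — deterministic row layer, part E: gauge forms of the chain inequality, outer rows
(owner helper78)
-/

set_option autoImplicit false

open Crest.ProbabilityR.FirstPassage

namespace Crest.Agent.R151.R78

open Crest.Agent.R151.K

variable {t : Environment} {φ : V → ℝ}

/-- gap cost relative to the gauge points (nonnegative inside the gauge window) -/
noncomputable def gp (t : Environment) (U L : ℤ → V) (a b w z : ℤ) : ℝ :=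
  gapK t U L w z - gapK t U L a b

lemma gp_nonneg (ht : Nn t) {U L : ℤ → V} (hU : IsHwy U) (hL : IsHwy L) {a w z b : ℤ}
    (ha : a ≤ w) (hb : z ≤ b) : 0 ≤ gp t U L a b w z := by
  have := gapK_mono ht hU hL ha hb
  unfold gp; linarith

/-- the gap cost in terms of excesses: `Y(w → z) + Y_U(a → w) + Y_L(z → b) - Y(a → b)` -/
lemma gp_eq (t : Environment) (φ : V → ℝ) (U L : ℤ → V) (a b w z : ℤ) :
    gp t U L a b w z = (passageTime t (U w) (L z) - (φ (L z) - φ (U w))) +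
      (hp t φ U w - hp t φ U a) + (hp t φ L b - hp t φ L z) -
      (passageTime t (U a) (L b) - (φ (L b) - φ (U a))) := by
  unfold gp gapK hp; ring

/-- excess of the optimal route `i → j` -/
noncomputable def hullY (t : Environment) (φ : V → ℝ) (H H' : ℤ → V) (A : Set V) (i j : ℤ) : ℝ :=
  hull t H H' A i j - hp t φ H i + hp t φ H' j

/-- excess of the geodesic -/
noncomputable def ptY (t : Environment) (φ : V → ℝ) (x y : V) : ℝ :=
  passageTime t x y - (φ y - φ x)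

/-- the path independent sum, in terms of excesses -/
noncomputable def SUMY (t : Environment) (φ : V → ℝ) (N : ℕ) (L U : ℕ → ℤ → V) (B : ℕ → Set V)
    (aL bL aU bU : ℕ → ℤ) : ℝ :=
  ∑ k ∈ Finset.range (N + 1), hullY t φ (L k) (U k) (B k) (aL k) (bU k) +
    ∑ k ∈ Finset.range N, ptY t φ (U k (aU k)) (L (k + 1) (bL (k + 1))) -
    ∑ k ∈ Finset.range N, (hp t φ (U k) (bU k) - hp t φ (U k) (aU k)) -
    ∑ k ∈ Finset.range N, (hp t φ (L (k + 1)) (bL (k + 1)) - hp t φ (L (k + 1)) (aL (k + 1)))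

/-- the path independent sum, normalised form -/
noncomputable def SUMK (t : Environment) (N : ℕ) (L U : ℕ → ℤ → V) (B : ℕ → Set V)
    (aL bL aU bU : ℕ → ℤ) : ℝ :=
  ∑ k ∈ Finset.range (N + 1), hull t (L k) (U k) (B k) (aL k) (bU k) +
    ∑ k ∈ Finset.range N, gapK t (U k) (L (k + 1)) (aU k) (bL (k + 1))

lemma SUMK_eq (t : Environment) (φ : V → ℝ) (N : ℕ) (L U : ℕ → ℤ → V) (B : ℕ → Set V)
    (aL bL aU bU : ℕ → ℤ) : SUMK t N L U B aL bL aU bU =
      SUMY t φ N L U B aL bL aU bU + hp t φ (L 0) (aL 0) - hp t φ (U N) (bU N) := by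
  unfold SUMK SUMY
  have e1 : ∀ k, hullY t φ (L k) (U k) (B k) (aL k) (bU k) =
      hull t (L k) (U k) (B k) (aL k) (bU k) - hp t φ (L k) (aL k) + hp t φ (U k) (bU k) :=
    fun k => rfl
  have e2 : ∀ k, ptY t φ (U k (aU k)) (L (k + 1) (bL (k + 1))) =
      gapK t (U k) (L (k + 1)) (aU k) (bL (k + 1)) - hp t φ (U k) (aU k) +
        hp t φ (L (k + 1)) (bL (k + 1)) := by
    intro k; unfold ptY gapK hp; ring
  rw [Finset.sum_congr rfl fun k _ => e1 k, Finset.sum_congr rfl fun k _ => e2 k]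
  simp only [Finset.sum_add_distrib, Finset.sum_sub_distrib]
  rw [Finset.sum_range_succ' (fun k => hp t φ (L k) (aL k)),
    Finset.sum_range_succ (fun k => hp t φ (U k) (bU k))]
  ring

/-- gauge window conditions: every point of a highway in `B` lies between its gauge points -/
structure Win (N : ℕ) (L U : ℕ → ℤ → V) (B : Set V) (aL bL aU bU : ℕ → ℤ) : Prop where
  L_ge : ∀ k ≤ N, ∀ m, L k m ∈ B → aL k ≤ m
  L_le : ∀ k ≤ N, ∀ m, L k m ∈ B → m ≤ bL k
  U_ge : ∀ k ≤ N, ∀ m, U k m ∈ B → aU k ≤ m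
  U_le : ∀ k ≤ N, ∀ m, U k m ∈ B → m ≤ bU k

/-- **chain inequality (777's (*)), gauge form.** `A k` = region in which the row cost is evaluated
(it must contain the open pieces), `B k` = gauge region. -/
theorem chain_pr_gauge (ht : Nn t) {N : ℕ} {L U : ℕ → ℤ → V} {X Y : Set V}
    (hS : IsStack N L U X Y) {A B : ℕ → Set V} {aL bL aU bU : ℕ → ℤ}
    {x y : V} (hx : x ∈ X) (hy : y ∈ Y) (g : Wk x y)
    (hb : ∀ k ≤ N, ∀ i j, L k i ∈ g.support → U k j ∈ g.support →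
      BddBelow (routes t (L k) (U k) (A k) i j))
    (hA : ∀ k ≤ N, ∀ i j (o : Wk (L k i) (U k j)), IsOpen (L k) (U k) {v | v ∈ g.support} o →
      ∀ v ∈ o.support, v ∈ A k) :
    ∃ z w : ℕ → ℤ,
      (∀ k ≤ N, ∃ o : Wk (L k (z k)) (U k (w k)), IsOpen (L k) (U k) {v | v ∈ g.support} o) ∧
      ∑ k ∈ Finset.range (N + 1), shp t (L k) (U k) (B k) (aL k) (bU k) (A k) (z k) (w k) +
        ∑ k ∈ Finset.range N, gp t (U k) (L (k + 1)) (aU k) (bL (k + 1)) (w k) (z (k + 1)) +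
        SUMY t φ N L U B aL bL aU bU +
        (ptY t φ x (L 0 (z 0)) - (hp t φ (L 0) (z 0) - hp t φ (L 0) (aL 0))) +
        (ptY t φ (U N (w N)) y - (hp t φ (U N) (bU N) - hp t φ (U N) (w N))) ≤ exc t φ g := by
  obtain ⟨z, w, hzw, h⟩ := chain_pr ht hS hx hy g hb hA
  refine ⟨z, w, hzw, ?_⟩
  have e1 : ∑ k ∈ Finset.range (N + 1), shp t (L k) (U k) (B k) (aL k) (bU k) (A k) (z k) (w k) +
        ∑ k ∈ Finset.range N, gp t (U k) (L (k + 1)) (aU k) (bL (k + 1)) (w k) (z (k + 1)) +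
        SUMK t N L U B aL bL aU bU =
      ∑ k ∈ Finset.range (N + 1), hull t (L k) (U k) (A k) (z k) (w k) +
        ∑ k ∈ Finset.range N, gapK t (U k) (L (k + 1)) (w k) (z (k + 1)) := by
    unfold SUMK shp gp
    simp only [Finset.sum_sub_distrib]
    ring
  have e2 := SUMK_eq t φ N L U B aL bL aU bU
  have e3 : ptY t φ x (L 0 (z 0)) - (hp t φ (L 0) (z 0) - hp t φ (L 0) (aL 0)) =
    (passageTime t x (L 0 (z 0)) - hc t (L 0) (z 0)) + φ x + hp t φ (L 0) (aL 0) := by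
    unfold ptY hp; ring
  have e4 : ptY t φ (U N (w N)) y - (hp t φ (U N) (bU N) - hp t φ (U N) (w N)) =
    (hc t (U N) (w N) + passageTime t (U N (w N)) y) - φ y - hp t φ (U N) (bU N) := by
    unfold ptY hp; ring
  have e5 : exc t φ g = walkCost t g - (φ y - φ x) := rfl
  rw [e3, e4, e5]
  linarith

/-! ### Outer rows: (6.1), (6.2), section 11 -/

/-- **outer row, value form**: the value of every route of the outer row `H, H'` is at least the
sum of the hull costs of the inner rows and of the gap kernels. -/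
theorem outer_value (ht : Nn t) {N : ℕ} {L U : ℕ → ℤ → V} {H H' : ℤ → V}
    (hH : IsHwy H) (hH' : IsHwy H')
    (hS : IsStack N L U (Set.range H) (Set.range H')) {A : Set V} {A' : ℕ → Set V}
    (hb : ∀ k ≤ N, ∀ i j, BddBelow (routes t (L k) (U k) (A' k) i j))
    (hA : ∀ k ≤ N, ∀ i j (o : Wk (L k i) (U k j)), IsOpen (L k) (U k) A o →
      ∀ v ∈ o.support, v ∈ A' k) {i j : ℤ} {c : ℝ} (hc : c ∈ routes t H H' A i j) :
    ∃ z w : ℕ → ℤ,
      (∀ k ≤ N, ∃ o : Wk (L k (z k)) (U k (w k)), IsOpen (L k) (U k) A o) ∧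
      gapK t H (L 0) i (z 0) +
        ∑ k ∈ Finset.range (N + 1), hull t (L k) (U k) (A' k) (z k) (w k) +
        ∑ k ∈ Finset.range N, gapK t (U k) (L (k + 1)) (w k) (z (k + 1)) +
        gapK t (U N) H' (w N) j ≤ c := by
  obtain ⟨i', j', hi, hj, g, hg, rfl⟩ := hc
  obtain ⟨z, w, hzw, h⟩ := chain_pr (A := A') ht hS ⟨i', rfl⟩ ⟨j', rfl⟩ g
    (fun k hk i j _ _ => hb k hk i j)
    (fun k hk i j o ho => hA k hk i j o (ho.mono fun v hv => hg.sub v hv))
  refine ⟨z, w, fun k hk => ?_, ?_⟩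
  · obtain ⟨o, ho⟩ := hzw k hk
    exact ⟨o, ho.mono fun v hv => hg.sub v hv⟩
  have h1 := gapK_mono ht hH (hS.hL 0 (by omega)) hi (le_refl (z 0))
  have h2 := gapK_mono ht (hS.hU N le_rfl) hH' (le_refl (w N)) hj
  generalize ∑ k ∈ Finset.range N, gapK t (U k) (L (k + 1)) (w k) (z (k + 1)) = S at h ⊢
  unfold gapK at h1 h2 ⊢
  linarith

/-- the constant `K` of an outer row (section 6, (6.1); section 11) -/
noncomputable def outK (t : Environment) (N : ℕ) (L U : ℕ → ℤ → V) (H H' : ℤ → V)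
    (B' : ℕ → Set V) (B : Set V) (aL bL aU bU : ℕ → ℤ) (a b : ℤ) : ℝ :=
  gapK t H (L 0) a (bL 0) + SUMK t N L U B' aL bL aU bU + gapK t (U N) H' (aU N) b -
    hull t H H' B a b

/-- the sum of all gauged costs of a path through the inner rows of an outer row -/
noncomputable def inSum (t : Environment) (N : ℕ) (L U : ℕ → ℤ → V) (H H' : ℤ → V)
    (B' A' : ℕ → Set V) (aL bL aU bU : ℕ → ℤ) (a b i j : ℤ) (z w : ℕ → ℤ) : ℝ :=
  gp t H (L 0) a (bL 0) i (z 0) +
    ∑ k ∈ Finset.range (N + 1), shp t (L k) (U k) (B' k) (aL k) (bU k) (A' k) (z k) (w k) +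
    ∑ k ∈ Finset.range N, gp t (U k) (L (k + 1)) (aU k) (bL (k + 1)) (w k) (z (k + 1)) +
    gp t (U N) H' (aU N) b (w N) j

lemma inSum_add_outK (t : Environment) (N : ℕ) (L U : ℕ → ℤ → V) (H H' : ℤ → V)
    (B' A' : ℕ → Set V) (B : Set V) (aL bL aU bU : ℕ → ℤ) (a b i j : ℤ) (z w : ℕ → ℤ) :
    inSum t N L U H H' B' A' aL bL aU bU a b i j z w + outK t N L U H H' B' B aL bL aU bU a b =
      gapK t H (L 0) i (z 0) +
        ∑ k ∈ Finset.range (N + 1), hull t (L k) (U k) (A' k) (z k) (w k) +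
        ∑ k ∈ Finset.range N, gapK t (U k) (L (k + 1)) (w k) (z (k + 1)) +
        gapK t (U N) H' (w N) j - hull t H H' B a b := by
  unfold inSum outK SUMK gp shp
  simp only [Finset.sum_sub_distrib]
  ring

/-- (6.2) and its analogue for several inner rows -/
theorem outer_shp (ht : Nn t) {N : ℕ} {L U : ℕ → ℤ → V} {H H' : ℤ → V}
    (hH : IsHwy H) (hH' : IsHwy H')
    (hS : IsStack N L U (Set.range H) (Set.range H')) {A B : Set V} {A' B' : ℕ → Set V}
    (hb : ∀ k ≤ N, ∀ i j, BddBelow (routes t (L k) (U k) (A' k) i j))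
    (hA : ∀ k ≤ N, ∀ i j (o : Wk (L k i) (U k j)), IsOpen (L k) (U k) A o →
      ∀ v ∈ o.support, v ∈ A' k) (aL bL aU bU : ℕ → ℤ) (a b : ℤ)
    {i j : ℤ} {c : ℝ} (hc : c ∈ routes t H H' A i j) :
    ∃ z w : ℕ → ℤ,
      (∀ k ≤ N, ∃ o : Wk (L k (z k)) (U k (w k)), IsOpen (L k) (U k) A o) ∧
      inSum t N L U H H' B' A' aL bL aU bU a b i j z w + outK t N L U H H' B' B aL bL aU bU a b ≤
        c - hull t H H' B a b := by
  obtain ⟨z, w, hzw, h⟩ := outer_value ht hH hH' hS hb hA hc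
  refine ⟨z, w, hzw, ?_⟩
  rw [inSum_add_outK]
  linarith

lemma inSum_nonneg (ht : Nn t) {N : ℕ} {L U : ℕ → ℤ → V} {H H' : ℤ → V}
    (hH : IsHwy H) (hH' : IsHwy H') (hS : IsStack N L U (Set.range H) (Set.range H'))
    {A' B' : ℕ → Set V} {A W : Set V} {aL bL aU bU : ℕ → ℤ} (hW : Win N L U W aL bL aU bU)
    (hAW : A ⊆ W) {a b i j : ℤ} (hi : a ≤ i) (hj : j ≤ b)
    (hAB : ∀ k ≤ N, A' k ⊆ B' k)
    (hb : ∀ k ≤ N, BddBelow (routes t (L k) (U k) (B' k) (aL k) (bU k)))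
    (hA : ∀ k ≤ N, ∀ i j (o : Wk (L k i) (U k j)), IsOpen (L k) (U k) A o →
      ∀ v ∈ o.support, v ∈ A' k)
    {z w : ℕ → ℤ} (hzw : ∀ k ≤ N, ∃ o : Wk (L k (z k)) (U k (w k)), IsOpen (L k) (U k) A o) :
    0 ≤ inSum t N L U H H' B' A' aL bL aU bU a b i j z w := by
  have hz : ∀ k ≤ N, L k (z k) ∈ W := fun k hk => by
    obtain ⟨o, ho⟩ := hzw k hk
    exact hAW (ho.sub _ o.start_mem_support)
  have hw : ∀ k ≤ N, U k (w k) ∈ W := fun k hk => by
    obtain ⟨o, ho⟩ := hzw k hk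
    exact hAW (ho.sub _ o.end_mem_support)
  have h1 := gp_nonneg ht hH (hS.hL 0 (by omega)) hi (hW.L_le 0 (by omega) _ (hz 0 (by omega)))
  have h2 := gp_nonneg ht (hS.hU N le_rfl) hH' (hW.U_ge N le_rfl _ (hw N le_rfl)) hj
  have h3 : 0 ≤ ∑ k ∈ Finset.range (N + 1),
      shp t (L k) (U k) (B' k) (aL k) (bU k) (A' k) (z k) (w k) := by
    refine Finset.sum_nonneg fun k hk => ?_
    have hk : k ≤ N := by rw [Finset.mem_range] at hk; omega
    obtain ⟨o, ho⟩ := hzw k hk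
    exact shp_nonneg (hb k hk) ⟨_, z k, w k, le_rfl, le_rfl, o,
      ⟨hA k hk _ _ o ho, ho.fst, ho.snd⟩, rfl⟩ (hAB k hk) (hW.L_ge k hk _ (hz k hk))
      (hW.U_le k hk _ (hw k hk))
  have h4 : 0 ≤ ∑ k ∈ Finset.range N,
      gp t (U k) (L (k + 1)) (aU k) (bL (k + 1)) (w k) (z (k + 1)) := by
    refine Finset.sum_nonneg fun k hk => ?_
    rw [Finset.mem_range] at hk
    exact gp_nonneg ht (hS.hU k hk.le) (hS.hL (k + 1) hk) (hW.U_ge k hk.le _ (hw k hk.le))
      (hW.L_le (k + 1) hk _ (hz (k + 1) hk))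
  unfold inSum
  linarith

/-- (6.1): `K ≤ 0` surely -/
theorem outK_nonpos (ht : Nn t) {N : ℕ} {L U : ℕ → ℤ → V} {H H' : ℤ → V}
    (hH : IsHwy H) (hH' : IsHwy H') (hS : IsStack N L U (Set.range H) (Set.range H'))
    {B W : Set V} {B' : ℕ → Set V} {aL bL aU bU : ℕ → ℤ} (hW : Win N L U W aL bL aU bU)
    (hBW : B ⊆ W) (hb : ∀ k ≤ N, ∀ i j, BddBelow (routes t (L k) (U k) (B' k) i j))
    (hB : ∀ k ≤ N, ∀ i j (o : Wk (L k i) (U k j)), IsOpen (L k) (U k) B o →
      ∀ v ∈ o.support, v ∈ B' k) {a b : ℤ} (hne : (routes t H H' B a b).Nonempty) :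
    outK t N L U H H' B' B aL bL aU bU a b ≤ 0 := by
  have key : ∀ c ∈ routes t H H' B a b,
      gapK t H (L 0) a (bL 0) + SUMK t N L U B' aL bL aU bU + gapK t (U N) H' (aU N) b ≤ c := by
    intro c hc
    obtain ⟨z, w, hzw, h⟩ := outer_shp (B := B) (B' := B') ht hH hH' hS hb hB aL bL aU bU a b hc
    have h2 := inSum_nonneg (B' := B') (A' := B') ht hH hH' hS hW hBW (le_refl a) (le_refl b)
      (fun k _ => subset_rfl) (fun k hk => hb k hk _ _) hB hzw
    unfold outK at h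
    linarith
  have := le_csInf hne key
  unfold outK hull
  linarith

end Crest.Agent.R151.R78
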