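import Mathlib
import Crest.Agent.R151.R78E

/-!
# R151/R78F — deterministic row layer, part F: attainment, concatenation of routes (F4, (6.3))
(owner helper78)
-/

set_option autoImplicit false

open Crest.ProbabilityR.FirstPassage

namespace Crest.Agent.R151.R78

open Crest.Agent.R151.K

variable {t : Environment} {φ : V → ℝ}

/-! ### Attainment of the hull cost in a finite region -/

lemma finite_nodup_lists {A : Set V} (hA : A.Finite) :
    {l : List V | l.Nodup ∧ ∀ v ∈ l, v ∈ A}.Finite := by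
  classical
  have : Fintype A := hA.fintype
  have : {l : List V | l.Nodup ∧ ∀ v ∈ l, v ∈ A} ⊆
      Set.range (fun l : {l : List A // l.Nodup} => l.1.map Subtype.val) := by
    rintro l ⟨hl, hl'⟩
    refine ⟨⟨l.attach.map fun x => ⟨x.1, hl' x.1 x.2⟩, ?_⟩, ?_⟩
    · refine List.Nodup.map ?_ (List.nodup_attach.2 hl)
      intro x y hxy
      simp only [Subtype.mk.injEq] at hxy
      exact Subtype.ext hxy
    · simp only [List.map_map, Function.comp_def]
      exact List.attach_map_subtype_val l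
  exact (Set.finite_range _).subset this

lemma finite_paths {A : Set V} (hA : A.Finite) (x y : V) :
    {g : Wk x y | g.IsPath ∧ ∀ v ∈ g.support, v ∈ A}.Finite := by
  refine Set.Finite.of_finite_image (f := fun g => g.support)
    ((finite_nodup_lists hA).subset ?_) ?_
  · rintro _ ⟨g, ⟨hg, hg'⟩, rfl⟩
    exact ⟨hg.support_nodup, hg'⟩
  · intro g _ g' _ h
    exact SimpleGraph.Walk.ext_support h

/-- a simple path with the same ends, smaller support and smaller cost -/
lemma exists_path_le (ht : Nn t) {x y : V} (g : Wk x y) :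
    ∃ g' : Wk x y, g'.IsPath ∧ (∀ v ∈ g'.support, v ∈ g.support) ∧
      (∀ v ∈ g'.support.tail, v ∈ g.support.tail) ∧
      (∀ v ∈ g'.support.dropLast, v ∈ g.support.dropLast) ∧ walkCost t g' ≤ walkCost t g := by
  classical
  have hpath := g.bypass_isPath
  have hsub : ∀ v ∈ g.bypass.support, v ∈ g.support := fun v hv => g.support_bypass_subset_support hv
  refine ⟨g.bypass, hpath, hsub, ?_, ?_, ?_⟩
  · intro v hv
    have hnd := hpath.support_nodup
    have hvs : v ∈ g.bypass.support := List.mem_of_mem_tail hv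
    rw [← SimpleGraph.Walk.cons_tail_support g.bypass, List.nodup_cons] at hnd
    have hvx : v ≠ x := fun h => hnd.1 (h ▸ hv)
    have := (mem_support_iff_tail g).1 (hsub v hvs)
    exact this.resolve_left hvx
  · intro v hv
    have hnd := hpath.support_nodup
    have hvs : v ∈ g.bypass.support := List.mem_of_mem_dropLast hv
    rw [← SimpleGraph.Walk.dropLast_support_concat g.bypass] at hnd
    have hvy : v ≠ y := by
      rintro rfl
      rw [List.nodup_append] at hnd
      exact hnd.2.2 v hv v (by simp) rfl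
    have := (mem_support_iff_dropLast g).1 (hsub v hvs)
    exact this.resolve_right hvy
  · have hsl : (g.bypass.edges).Sublist g.edges := g.edges_bypass_sublist_edges
    unfold walkCost
    exact List.Sublist.sum_le_sum (hsl.map t) (by
      intro a ha
      obtain ⟨e, -, rfl⟩ := List.mem_map.1 ha
      exact ht e)

variable {H H' : ℤ → V} {A B : Set V} {i j z w : ℤ}

lemma IsOpen.exists_path (ht : Nn t) {g : Wk (H z) (H' w)} (hg : IsOpen H H' A g) :
    ∃ g' : Wk (H z) (H' w), g'.IsPath ∧ IsOpen H H' A g' ∧ walkCost t g' ≤ walkCost t g := by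
  obtain ⟨g', h1, h2, h3, h4, h5⟩ := exists_path_le ht g
  exact ⟨g', h1, ⟨fun v hv => hg.sub v (h2 v hv), fun k hk => hg.fst k (h3 _ hk),
    fun k hk => hg.snd k (h4 _ hk)⟩, h5⟩

/-- in a finite region the hull cost is attained by a simple open crossing -/
theorem exists_hull_eq (ht : Nn t) (hH : IsHwy H) (hH' : IsHwy H') (hA : A.Finite)
    (hne : (routes t H H' A i j).Nonempty) :
    ∃ z w : ℤ, i ≤ z ∧ w ≤ j ∧ ∃ g : Wk (H z) (H' w), g.IsPath ∧ IsOpen H H' A g ∧
      hull t H H' A i j = hc t H z + walkCost t g - hc t H' w := by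
  classical
  -- finite set of path values
  let S : Set ℝ := {c | ∃ z w : ℤ, i ≤ z ∧ w ≤ j ∧ ∃ g : Wk (H z) (H' w), g.IsPath ∧
    IsOpen H H' A g ∧ c = hc t H z + walkCost t g - hc t H' w}
  have hSsub : S ⊆ routes t H H' A i j := by
    rintro _ ⟨z, w, hz, hw, g, -, hg, rfl⟩
    exact ⟨z, w, hz, hw, g, hg, rfl⟩
  have hSfin : S.Finite := by
    have h1 : {z : ℤ | H z ∈ A}.Finite := hA.preimage hH.inj.injOn
    have h2 : {z : ℤ | H' z ∈ A}.Finite := hA.preimage hH'.inj.injOn
    have : S ⊆ ⋃ z ∈ {z : ℤ | H z ∈ A}, ⋃ w ∈ {w : ℤ | H' w ∈ A},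
        (fun g : Wk (H z) (H' w) => hc t H z + walkCost t g - hc t H' w) ''
          {g : Wk (H z) (H' w) | g.IsPath ∧ ∀ v ∈ g.support, v ∈ A} := by
      rintro _ ⟨z, w, hz, hw, g, hp, hg, rfl⟩
      simp only [Set.mem_iUnion]
      exact ⟨z, hg.sub _ g.start_mem_support, w, hg.sub _ g.end_mem_support, g, ⟨hp, hg.sub⟩, rfl⟩
    refine Set.Finite.subset ?_ this
    exact h1.biUnion fun z _ => h2.biUnion fun w _ => (finite_paths hA _ _).image _
  have hdom : ∀ c ∈ routes t H H' A i j, ∃ c' ∈ S, c' ≤ c := by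
    rintro _ ⟨z, w, hz, hw, g, hg, rfl⟩
    obtain ⟨g', hp, hg', hle⟩ := hg.exists_path ht
    exact ⟨_, ⟨z, w, hz, hw, g', hp, hg', rfl⟩, by linarith⟩
  have hSne : S.Nonempty := by
    obtain ⟨c, hc⟩ := hne
    obtain ⟨c', hc', -⟩ := hdom c hc
    exact ⟨c', hc'⟩
  obtain ⟨c0, hc0, hmin⟩ := hSfin.exists_minimal hSne
  have hmin' : ∀ c ∈ S, c0 ≤ c := fun c hc => by
    rcases le_total c0 c with h | h
    · exact h
    · exact hmin hc h
  have heq : hull t H H' A i j = c0 := by
    apply le_antisymm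
    · exact csInf_le (bddBelow_of_finite ht hH hH' hA i j) (hSsub hc0)
    · refine le_csInf hne fun c hc => ?_
      obtain ⟨c', hc', hle⟩ := hdom c hc
      exact (hmin' c' hc').trans hle
  obtain ⟨z, w, hz, hw, g, hp, hg, e⟩ := hc0
  exact ⟨z, w, hz, hw, g, hp, hg, heq.trans e⟩

/-! ### Towers of highways -/

/-- `H 0, …, H n`: disjoint highways, each separating the lower ones from the upper ones -/
structure IsTower (n : ℕ) (H : ℕ → ℤ → V) : Prop where
  hwy : ∀ k ≤ n, IsHwy (H k)
  disj : ∀ a b, a < b → b ≤ n → ∀ k l, H a k ≠ H b l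
  sep : ∀ a b c, a < b → b < c → c ≤ n → Sep (Set.range (H a)) (Set.range (H b)) (Set.range (H c))

/-- the rows of a tower: `L k = H (s + 2k)`, `U k = H (s + 2k + 1)` form a stack between two
highways of the tower. -/
lemma IsTower.isStack {n : ℕ} {H : ℕ → ℤ → V} (h : IsTower n H) {a b s N : ℕ} (ha : a < s)
    (hb : s + 2 * N + 1 < b) (hbn : b ≤ n) :
    IsStack N (fun k => H (s + 2 * k)) (fun k => H (s + 2 * k + 1)) (Set.range (H a))
      (Set.range (H b)) where
  hL k hk := h.hwy _ (by omega)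
  hU k hk := h.hwy _ (by omega)
  sepL0 := h.sep _ _ _ (by omega) (by omega) (by omega)
  sepU0 := h.sep _ _ _ (by omega) (by omega) (by omega)
  sepL k hk := h.sep _ _ _ (by omega) (by omega) (by omega)
  sepU k hk := h.sep _ _ _ (by omega) (by omega) (by omega)

/-- **Concatenation of routes (F4)**: routes through the consecutive strips of a tower are glued
along the highways; values add up. -/
theorem IsTower.exists_concat {H : ℕ → ℤ → V} {A A' : Set V} (hAA' : A ⊆ A') (n : ℕ)
    (hT : IsTower (n + 1) H) (i : ℕ → ℤ) (v : ℕ → ℝ)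
    (hseg : ∀ k, 1 ≤ k → k ≤ n → ∀ w m z, w ≤ m → m ≤ z → H k w ∈ A → H k z ∈ A → H k m ∈ A')
    (hv : ∀ k ≤ n, v k ∈ routes t (H k) (H (k + 1)) A (i k) (i (k + 1))) :
    ∃ z w : ℤ, i 0 ≤ z ∧ w ≤ i (n + 1) ∧ ∃ g : Wk (H 0 z) (H (n + 1) w),
      IsOpen (H 0) (H (n + 1)) A' g ∧ H 0 z ∈ A ∧ H (n + 1) w ∈ A ∧
      hc t (H 0) z + walkCost t g - hc t (H (n + 1)) w = ∑ k ∈ Finset.range (n + 1), v k := by
  induction n with
  | zero =>
    obtain ⟨z, w, hz, hw, g, hg, e⟩ := hv 0 le_rfl
    exact ⟨z, w, hz, hw, g, hg.mono hAA', hg.sub _ g.start_mem_support,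
      hg.sub _ g.end_mem_support, by simp [e]⟩
  | succ n ih =>
    have hT' : IsTower (n + 1) H := ⟨fun k hk => hT.hwy k (by omega),
      fun a b hab hb => hT.disj a b hab (by omega), fun a b c h1 h2 h3 => hT.sep a b c h1 h2
        (by omega)⟩
    obtain ⟨z, w, hz, hw, g, hg, hzA, hwA, e⟩ := ih hT' (fun k h1 h2 => hseg k h1 (by omega))
      (fun k hk => hv k (by omega))
    obtain ⟨z', w', hz', hw', g', hg', e'⟩ := hv (n + 1) le_rfl
    have hz'A := hg'.sub _ g'.start_mem_support
    obtain ⟨s, hs, hs'⟩ := (hT.hwy (n + 1) (by omega)).exists_seg (hw.trans hz')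
    have hsA : ∀ u ∈ s.support, u ∈ A' := by
      intro u hu
      obtain ⟨k, h1, h2, rfl⟩ := (hs' u).1 hu
      exact hseg (n + 1) (by omega) le_rfl w k z' h1 h2 hwA hz'A
    -- avoidance
    have av1 : ∀ u ∈ g.support, ∀ m, u ≠ H (n + 2) m := by
      intro u hu m hum
      exact hg.avoid_above (X := Set.range (H (n + 2)))
        (fun k ⟨l, hl⟩ => hT.disj (n + 1) (n + 2) (by omega) le_rfl k l hl.symm)
        (hT.sep 0 (n + 1) (n + 2) (by omega) (by omega) le_rfl) u hu ⟨m, hum.symm⟩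
    have av2 : ∀ u ∈ g'.support, ∀ m, u ≠ H 0 m := by
      intro u hu m hum
      exact hg'.avoid_below (X := Set.range (H 0))
        (fun k ⟨l, hl⟩ => hT.disj 0 (n + 1) (by omega) (by omega) l k hl)
        (hT.sep 0 (n + 1) (n + 2) (by omega) (by omega) le_rfl) u hu ⟨m, hum.symm⟩
    refine ⟨z, w', hz, hw', (g.append s).append g', ⟨?_, ?_, ?_⟩, hzA,
      hg'.sub _ g'.end_mem_support, ?_⟩
    · intro u hu
      rw [mem_support_append, mem_support_append] at hu
      rcases hu with (hu | hu) | hu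
      · exact hg.sub u hu
      · exact hsA u hu
      · exact hAA' (hg'.sub u hu)
    · intro m hm
      rw [mem_tail_append, mem_tail_append] at hm
      rcases hm with (hm | hm) | hm
      · exact hg.fst m hm
      · obtain ⟨k, -, -, hk⟩ := (hs' _).1 (List.mem_of_mem_tail hm)
        exact hT.disj 0 (n + 1) (by omega) (by omega) m k hk
      · exact av2 _ (List.mem_of_mem_tail hm) m rfl
    · intro m hm
      rw [mem_dropLast_append, mem_dropLast_append] at hm
      rcases hm with (hm | hm) | hm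
      · exact av1 _ (List.mem_of_mem_dropLast hm) m rfl
      · obtain ⟨k, -, -, hk⟩ := (hs' _).1 (List.mem_of_mem_dropLast hm)
        exact hT.disj (n + 1) (n + 2) (by omega) le_rfl k m hk.symm
      · exact hg'.snd m hm
    · rw [walkCost_append, walkCost_append, hs t, Finset.sum_range_succ, ← e, e']
      ring

/-- concatenation for the hull costs: `R^_{0,n+1}(i_0 → i_{n+1}) ≤ Σ R^_{k,k+1}(i_k → i_{k+1})` -/
theorem IsTower.hull_le_sum {H : ℕ → ℤ → V} {A A' : Set V} (hAA' : A ⊆ A') (n : ℕ)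
    (hT : IsTower (n + 1) H) (i : ℕ → ℤ)
    (hseg : ∀ k, 1 ≤ k → k ≤ n → ∀ w m z, w ≤ m → m ≤ z → H k w ∈ A → H k z ∈ A → H k m ∈ A')
    (hne : ∀ k ≤ n, (routes t (H k) (H (k + 1)) A (i k) (i (k + 1))).Nonempty)
    (hb : BddBelow (routes t (H 0) (H (n + 1)) A' (i 0) (i (n + 1)))) :
    hull t (H 0) (H (n + 1)) A' (i 0) (i (n + 1)) ≤
      ∑ k ∈ Finset.range (n + 1), hull t (H k) (H (k + 1)) A (i k) (i (k + 1)) := by
  refine le_of_forall_pos_le_add fun ε hε => ?_
  have hε' : 0 < ε / (n + 1) := by positivity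
  have hex : ∀ k, ∃ c, k ≤ n → c ∈ routes t (H k) (H (k + 1)) A (i k) (i (k + 1)) ∧
      c < hull t (H k) (H (k + 1)) A (i k) (i (k + 1)) + ε / (n + 1) := by
    intro k
    by_cases hk : k ≤ n
    · obtain ⟨c, hc, hc'⟩ := exists_lt_of_csInf_lt (hne k hk)
        (show sInf (routes t (H k) (H (k + 1)) A (i k) (i (k + 1))) <
          hull t (H k) (H (k + 1)) A (i k) (i (k + 1)) + ε / (n + 1) by
            change hull t (H k) (H (k + 1)) A (i k) (i (k + 1)) < _; linarith)
      exact ⟨c, fun _ => ⟨hc, hc'⟩⟩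
    · exact ⟨0, fun h => absurd h hk⟩
  choose v hv using hex
  obtain ⟨z, w, hz, hw, g, hg, -, -, e⟩ := hT.exists_concat (t := t) hAA' n i v hseg
    (fun k hk => (hv k hk).1)
  have h1 := hull_le hb hz hw g hg
  rw [e] at h1
  refine h1.trans ?_
  have h2 : ∑ k ∈ Finset.range (n + 1), v k ≤ ∑ k ∈ Finset.range (n + 1),
      (hull t (H k) (H (k + 1)) A (i k) (i (k + 1)) + ε / (n + 1)) :=
    Finset.sum_le_sum fun k hk => ((hv k (by rw [Finset.mem_range] at hk; omega)).2).le
  rw [Finset.sum_add_distrib, Finset.sum_const, Finset.card_range, nsmul_eq_mul] at h2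
  have h3 : ((n + 1 : ℕ) : ℝ) * (ε / (n + 1)) = ε := by
    push_cast; field_simp
  linarith

end Crest.Agent.R151.R78
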