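import Mathlib
import Crest.Agent.R151.Pl4
import Crest.Agent.R151.R78F

/-!
# R151/R78P — deterministic row layer: planarity for highways in strips (on helper56's Pl4)
(owner helper78)
-/

set_option autoImplicit false

open Crest.ProbabilityR.FirstPassage Filter

namespace Crest.Agent.R151.R78

open Crest.Agent.R151.K Crest.Agent.R151.Pl

variable {t : Environment}

/-- two transversal functionals: `al = lin a₁ a₂` along the highways, `be = lin b₁ b₂` across -/
structure Frame where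
  a₁ : ℝ
  a₂ : ℝ
  b₁ : ℝ
  b₂ : ℝ
  det : a₁ * b₂ - a₂ * b₁ ≠ 0

namespace Frame

variable (F : Frame)

/-- coordinate along the highways -/
noncomputable def al (v : V) : ℝ := lin F.a₁ F.a₂ v

/-- coordinate across the highways -/
noncomputable def be (v : V) : ℝ := lin F.b₁ F.b₂ v

end Frame

variable (F : Frame)

/-- a highway in the strip `lo ≤ be ≤ hi` -/
structure IsStrip (lo hi : ℝ) (H : ℤ → V) : Prop where
  hwy : IsHwy H
  bot : Tendsto (fun k => F.al (H k)) atBot atBot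
  top : Tendsto (fun k => F.al (H k)) atTop atTop
  lo : ∀ k, lo ≤ F.be (H k)
  hi : ∀ k, F.be (H k) ≤ hi

variable {F} {lo hi lo' hi' : ℝ} {H H' : ℤ → V}

lemma IsStrip.sep (h : IsStrip F lo hi H) :
    Sep {v | F.be v < lo} (Set.range H) {v | hi < F.be v} := by
  intro x hx y hy g
  obtain ⟨k, hk⟩ := hits F.det H h.hwy.adj h.bot h.top g
    (fun k => lt_of_lt_of_le hx (h.lo k)) (fun k => lt_of_le_of_lt (h.hi k) hy)
  exact ⟨H k, hk, ⟨k, rfl⟩⟩

/-- three highways in increasing strips -/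
lemma IsStrip.sep_range {lo₀ hi₀ lo₂ hi₂ : ℝ} {H₀ H₂ : ℤ → V} (h : IsStrip F lo hi H)
    (h₀ : IsStrip F lo₀ hi₀ H₀) (h₂ : IsStrip F lo₂ hi₂ H₂) (h1 : hi₀ < lo) (h2 : hi < lo₂) :
    Sep (Set.range H₀) (Set.range H) (Set.range H₂) :=
  h.sep.mono (by rintro _ ⟨k, rfl⟩; exact lt_of_le_of_lt (h₀.hi k) h1) subset_rfl
    (by rintro _ ⟨k, rfl⟩; exact lt_of_lt_of_le h2 (h₂.lo k))

lemma IsStrip.disj (h : IsStrip F lo hi H) (h' : IsStrip F lo' hi' H') (hlt : hi < lo') (k l : ℤ) :
    H k ≠ H' l := by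
  intro e
  have h1 := h.hi k
  have h2 := h'.lo l
  rw [← e] at h2
  linarith

/-- an open crossing stays between the outer sides of the two strips -/
lemma IsStrip.open_in_row (h : IsStrip F lo hi H) (h' : IsStrip F lo' hi' H') (hlt : hi < lo')
    {A : Set V} {z w : ℤ} {g : Wk (H z) (H' w)} (hg : IsOpen H H' A g) :
    ∀ v ∈ g.support, lo ≤ F.be v ∧ F.be v ≤ hi' := by
  intro v hv
  constructor
  · by_contra hc
    push Not at hc
    exact hg.avoid_below (X := {v | F.be v < lo}) (fun k hk => absurd (h.lo k) (not_le.2 hk))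
      (h.sep.mono subset_rfl subset_rfl
        (by rintro _ ⟨k, rfl⟩; exact lt_of_lt_of_le hlt (h'.lo k))) v hv hc
  · by_contra hc
    push Not at hc
    exact hg.avoid_above (X := {v | hi' < F.be v}) (fun k hk => absurd (h'.hi k) (not_le.2 hk))
      (h'.sep.mono (by rintro _ ⟨k, rfl⟩; exact lt_of_le_of_lt (h.hi k) hlt) subset_rfl
        subset_rfl) v hv hc

/-- the row between two strips -/
def Frame.row (F : Frame) (lo hi' : ℝ) : Set V := {v | lo ≤ F.be v ∧ F.be v ≤ hi'}

lemma IsStrip.routes_inter (h : IsStrip F lo hi H) (h' : IsStrip F lo' hi' H') (hlt : hi < lo')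
    (t : Environment) (A : Set V) (i j : ℤ) :
    routes t H H' (A ∩ F.row lo hi') i j = routes t H H' A i j := by
  apply Set.Subset.antisymm (routes_mono Set.inter_subset_left le_rfl le_rfl)
  rintro _ ⟨z, w, hz, hw, g, hg, rfl⟩
  exact ⟨z, w, hz, hw, g, hg.inter (fun v hv => h.open_in_row h' hlt hg v hv), rfl⟩

lemma IsStrip.hull_inter (h : IsStrip F lo hi H) (h' : IsStrip F lo' hi' H') (hlt : hi < lo')
    (t : Environment) (A : Set V) (i j : ℤ) :
    hull t H H' (A ∩ F.row lo hi') i j = hull t H H' A i j := by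
  unfold hull; rw [h.routes_inter h' hlt]

/-- (Pl-b) for highways in disjoint strips -/
theorem IsStrip.crosses (h : IsStrip F lo hi H) (h' : IsStrip F lo' hi' H') (hlt : hi < lo') :
    Crosses H H' := by
  intro z₁ z₂ w₁ w₂ hz hw g₁ g₂ h₁ h₂
  exact open_crossings_meet F.det H H' h.hwy.adj h'.hwy.adj h.hwy.inj h'.hwy.inj h.bot h.top
    h'.bot h'.top (lo := lo) (mid := lo') (hi := hi' + 1)
    (fun k => ⟨h.lo k, lt_of_le_of_lt (h.hi k) hlt⟩)
    (fun k => ⟨h'.lo k, lt_of_le_of_lt (h'.hi k) (by linarith)⟩) hz hw g₁ g₂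
    (fun k hk => h₁.eq_fst h.hwy.inj hk) (fun k hk => h₁.eq_snd h'.hwy.inj hk)
    (fun k hk => h₂.eq_fst h.hwy.inj hk) (fun k hk => h₂.eq_snd h'.hwy.inj hk)

/-- a tower of highways in increasing strips -/
theorem isTower_of_strips {n : ℕ} {H : ℕ → ℤ → V} {lo hi : ℕ → ℝ}
    (h : ∀ k ≤ n, IsStrip F (lo k) (hi k) (H k)) (hlt : ∀ a b, a < b → b ≤ n → hi a < lo b) :
    IsTower n H where
  hwy k hk := (h k hk).hwy
  disj a b hab hb k l := (h a (by omega)).disj (h b hb) (hlt a b hab hb) k l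
  sep a b c hab hbc hc := (h b (by omega)).sep_range (h a (by omega)) (h c hc)
    (hlt a b hab (by omega)) (hlt b c hbc hc)

/-- a stack of private rows in increasing strips, crossed by walks from `{be < loL 0}` to
`{be > hiU N}` -/
theorem isStack_of_strips {N : ℕ} {L U : ℕ → ℤ → V} {loL hiL loU hiU : ℕ → ℝ}
    (hL : ∀ k ≤ N, IsStrip F (loL k) (hiL k) (L k))
    (hU : ∀ k ≤ N, IsStrip F (loU k) (hiU k) (U k))
    (hLU : ∀ k ≤ N, hiL k < loU k) (hUL : ∀ k < N, hiU k < loL (k + 1))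
    (hmono : ∀ k < N, hiU k ≤ hiU N)
    {X Y : Set V} (hX : ∀ v ∈ X, F.be v < loL 0) (hX' : ∀ v ∈ X, F.be v < loU 0)
    (hY : ∀ v ∈ Y, hiU N < F.be v) : IsStack N L U X Y where
  hL k hk := (hL k hk).hwy
  hU k hk := (hU k hk).hwy
  sepL0 := (hL 0 (by omega)).sep.mono hX subset_rfl
    (by rintro _ ⟨k, rfl⟩; exact lt_of_lt_of_le (hLU 0 (by omega)) ((hU 0 (by omega)).lo k))
  sepU0 := (hU 0 (by omega)).sep.mono hX' subset_rfl
    (fun v hv => by
      rcases Nat.eq_zero_or_pos N with h | h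
      · subst h; exact hY v hv
      · exact lt_of_le_of_lt (hmono 0 h) (hY v hv))
  sepL k hk := (hL (k + 1) (by omega)).sep.mono
    (by rintro _ ⟨m, rfl⟩; exact lt_of_le_of_lt ((hU k (by omega)).hi m) (hUL k hk)) subset_rfl
    (by rintro _ ⟨m, rfl⟩
        exact lt_of_lt_of_le (hLU (k + 1) (by omega)) ((hU (k + 1) (by omega)).lo m))
  sepU k hk := (hU (k + 1) (by omega)).sep.mono
    (by
      rintro _ ⟨m, rfl⟩
      have h1 := (hU k (by omega)).hi m
      have h2 := hUL k hk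
      have h3 := (hL (k + 1) (by omega)).lo 0
      have h4 := (hL (k + 1) (by omega)).hi 0
      have h5 := hLU (k + 1) (by omega)
      simp only [Set.mem_ofPred_eq]
      linarith) subset_rfl
    (fun v hv => by
      rcases Nat.lt_or_ge (k + 1) N with h | h
      · exact lt_of_le_of_lt (hmono (k + 1) h) (hY v hv)
      · have : k + 1 = N := by omega
        rw [this]; exact hY v hv)

end Crest.Agent.R151.R78
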