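import Crest.Agent.R151.R78A

/-!
# R151 / S0214 part 2, Q5a — concatenation of finite lattice paths into a bi-infinite one
(owner helper777)
-/

set_option autoImplicit false

open Crest.ProbabilityR.FirstPassage

namespace Crest.Agent.R151.Q

/-- cumulative sums over `ℤ`, `cum ℓ 0 = 0`, `cum ℓ (j+1) = cum ℓ j + ℓ j` -/
noncomputable def cum (ℓ : ℤ → ℤ) (j : ℤ) : ℤ := ∑ i ∈ Finset.Ico 0 j, ℓ i - ∑ i ∈ Finset.Ico j 0, ℓ i

lemma cum_zero (ℓ : ℤ → ℤ) : cum ℓ 0 = 0 := by simp [cum]

lemma cum_succ (ℓ : ℤ → ℤ) (j : ℤ) : cum ℓ (j + 1) = cum ℓ j + ℓ j := by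
  unfold cum
  rcases le_or_gt 0 j with h | h
  · have e1 : Finset.Ico 0 (j + 1) = insert j (Finset.Ico 0 j) := by
      ext k; simp only [Finset.mem_Ico, Finset.mem_insert]; omega
    have e2 : Finset.Ico (j + 1) 0 = ∅ := by ext k; simp; omega
    have e3 : Finset.Ico j 0 = ∅ := by ext k; simp; omega
    rw [e1, e2, e3, Finset.sum_insert (by simp)]
    simp; ring
  · have e1 : Finset.Ico j 0 = insert j (Finset.Ico (j + 1) 0) := by
      ext k; simp only [Finset.mem_Ico, Finset.mem_insert]; omega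
    have e2 : Finset.Ico 0 (j + 1) = ∅ := by ext k; simp; omega
    have e3 : Finset.Ico 0 j = ∅ := by ext k; simp; omega
    rw [e1, e2, e3, Finset.sum_insert (by simp)]
    simp

lemma cum_mono_add {ℓ : ℤ → ℤ} (h : ∀ j, 1 ≤ ℓ j) (j : ℤ) (n : ℕ) :
    cum ℓ j + n ≤ cum ℓ (j + n) := by
  induction n with
  | zero => simp
  | succ n ih =>
    have e : j + ((n + 1 : ℕ) : ℤ) = (j + n) + 1 := by push_cast; ring
    rw [e, cum_succ]
    have := h (j + n)
    push_cast
    linarith

lemma cum_add_le {ℓ : ℤ → ℤ} (h : ∀ j, 1 ≤ ℓ j) {i j : ℤ} (hij : i ≤ j) :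
    cum ℓ i + (j - i) ≤ cum ℓ j := by
  obtain ⟨n, rfl⟩ := Int.le.dest hij
  have := cum_mono_add h i n
  linarith

lemma cum_le {ℓ : ℤ → ℤ} (h : ∀ j, 1 ≤ ℓ j) {i j : ℤ} (hij : i ≤ j) : cum ℓ i ≤ cum ℓ j := by
  have := cum_add_le h hij; linarith

/-- block index of `k` -/
noncomputable def bix (ℓ : ℤ → ℤ) (k : ℤ) : ℤ := sSup {j | cum ℓ j ≤ k}

lemma bix_spec {ℓ : ℤ → ℤ} (h : ∀ j, 1 ≤ ℓ j) (k : ℤ) :
    cum ℓ (bix ℓ k) ≤ k ∧ k < cum ℓ (bix ℓ k + 1) := by
  have hne : {j | cum ℓ j ≤ k}.Nonempty := by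
    refine ⟨min 0 k, ?_⟩
    have := cum_add_le h (min_le_left 0 k)
    rw [cum_zero] at this
    show cum ℓ (min 0 k) ≤ k
    have h2 := min_le_right 0 k
    linarith
  have hb : BddAbove {j | cum ℓ j ≤ k} := by
    refine ⟨max 0 k, fun j (hj : cum ℓ j ≤ k) => ?_⟩
    rcases le_or_gt j 0 with h0 | h0
    · exact h0.trans (le_max_left _ _)
    · have := cum_add_le h h0.le
      rw [cum_zero] at this
      exact le_trans (by linarith) (le_max_right 0 k)
  refine ⟨Int.csSup_mem hne hb, ?_⟩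
  by_contra hcon
  push Not at hcon
  have := le_csSup hb (show bix ℓ k + 1 ∈ {j | cum ℓ j ≤ k} from hcon)
  unfold bix at this
  omega

lemma bix_unique {ℓ : ℤ → ℤ} (h : ∀ j, 1 ≤ ℓ j) {k j : ℤ} (h1 : cum ℓ j ≤ k)
    (h2 : k < cum ℓ (j + 1)) : bix ℓ k = j := by
  obtain ⟨h3, h4⟩ := bix_spec h k
  rcases lt_trichotomy (bix ℓ k) j with hlt | heq | hgt
  · have := cum_le h (show bix ℓ k + 1 ≤ j by omega)
    omega
  · exact heq
  · have := cum_le h (show j + 1 ≤ bix ℓ k by omega)
    omega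

lemma bix_iff {ℓ : ℤ → ℤ} (h : ∀ j, 1 ≤ ℓ j) {k j : ℤ} :
    bix ℓ k = j ↔ cum ℓ j ≤ k ∧ k < cum ℓ (j + 1) := by
  constructor
  · rintro rfl; exact bix_spec h k
  · rintro ⟨h1, h2⟩; exact bix_unique h h1 h2

/-- number of steps of the lists -/
def len (L : ℤ → List (ℤ × ℤ)) (j : ℤ) : ℤ := ((L j).length : ℤ) - 1

/-- concatenation of the lists `L j` (the last element of `L j` is the first one of `L (j+1)`) -/
noncomputable def cat (L : ℤ → List (ℤ × ℤ)) (k : ℤ) : ℤ × ℤ :=
  (L (bix (len L) k)).getD (k - cum (len L) (bix (len L) k)).toNat 0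

/-- the hypotheses on the blocks -/
structure Blocks (L : ℤ → List (ℤ × ℤ)) (nd : ℤ → ℤ × ℤ) : Prop where
  nodup : ∀ j, (L j).Nodup
  chain : ∀ j, (L j).IsChain squareLattice.Adj
  head : ∀ j, (L j).head? = some (nd j)
  last : ∀ j, (L j).getLast? = some (nd (j + 1))
  ne : ∀ j, nd j ≠ nd (j + 1)

namespace Blocks

variable {L : ℤ → List (ℤ × ℤ)} {nd : ℤ → ℤ × ℤ} (hL : Blocks L nd)
include hL

lemma two_le (j : ℤ) : 2 ≤ (L j).length := by
  have h1 := hL.head j
  have h2 := hL.last j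
  rcases hlj : L j with _ | ⟨x, _ | ⟨y, l⟩⟩
  · rw [hlj] at h1; simp at h1
  · rw [hlj] at h1 h2
    simp only [List.head?_cons, Option.some.injEq, List.getLast?_singleton] at h1 h2
    exact absurd (h1.symm.trans h2) (hL.ne j)
  · simp

lemma one_le_len (j : ℤ) : 1 ≤ len L j := by
  have := hL.two_le j
  unfold len; omega

lemma getD_zero (j : ℤ) : (L j).getD 0 0 = nd j := by
  have h1 := hL.head j
  rcases hlj : L j with _ | ⟨x, l⟩
  · rw [hlj] at h1; simp at h1
  · rw [hlj] at h1; simpa using h1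

lemma getD_last (j : ℤ) : (L j).getD (len L j).toNat 0 = nd (j + 1) := by
  have h1 := hL.last j
  have h2 := hL.two_le j
  have e : (len L j).toNat = (L j).length - 1 := by unfold len; omega
  rw [e, List.getD_eq_getElem?_getD]
  rw [List.getLast?_eq_getElem?] at h1
  rw [h1]; rfl

/-- value of the concatenation on block `j` -/
lemma cat_add (j : ℤ) (i : ℕ) (hi : (i : ℤ) ≤ len L j) :
    cat L (cum (len L) j + i) = (L j).getD i 0 := by
  rcases hi.lt_or_eq with h | h
  · have hb : bix (len L) (cum (len L) j + i) = j :=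
      bix_unique hL.one_le_len (by omega) (by rw [cum_succ]; omega)
    unfold cat
    rw [hb]
    congr 1
    omega
  · have e : cum (len L) j + i = cum (len L) (j + 1) := by rw [cum_succ]; omega
    have hb : bix (len L) (cum (len L) j + i) = j + 1 := by
      refine bix_unique hL.one_le_len (by omega) ?_
      rw [e, cum_succ (len L) (j + 1)]
      have := hL.one_le_len (j + 1)
      omega
    unfold cat
    rw [hb, e, sub_self]
    have : (i : ℕ) = (len L j).toNat := by omega
    rw [this, hL.getD_last]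
    exact hL.getD_zero (j + 1)

lemma exists_block (k : ℤ) : ∃ (j : ℤ) (i : ℕ), k = cum (len L) j + i ∧ (i : ℤ) < len L j := by
  obtain ⟨h1, h2⟩ := bix_spec hL.one_le_len k
  rw [cum_succ] at h2
  exact ⟨bix (len L) k, (k - cum (len L) (bix (len L) k)).toNat, by omega, by omega⟩

lemma cat_adj (k : ℤ) : squareLattice.Adj (cat L k) (cat L (k + 1)) := by
  obtain ⟨j, i, rfl, hi⟩ := hL.exists_block k
  have e : cum (len L) j + (i : ℤ) + 1 = cum (len L) j + ((i + 1 : ℕ) : ℤ) := by push_cast; ring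
  rw [e, hL.cat_add j i hi.le, hL.cat_add j (i + 1) (by push_cast; omega)]
  have hlen : i + 1 < (L j).length := by unfold len at hi; omega
  have h := List.isChain_iff_getElem.1 (hL.chain j) i (by omega)
  rw [List.getD_eq_getElem?_getD, List.getD_eq_getElem?_getD, List.getElem?_eq_getElem (by omega),
    List.getElem?_eq_getElem hlen]
  exact h

lemma getD_mem (j : ℤ) (i : ℕ) (hi : (i : ℤ) ≤ len L j) : (L j).getD i 0 ∈ L j := by
  have : i < (L j).length := by unfold len at hi; omega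
  rw [List.getD_eq_getElem?_getD, List.getElem?_eq_getElem this]
  exact List.getElem_mem this

/-- every element of a block is on the path, and conversely -/
lemma mem_iff (j : ℤ) (z : ℤ × ℤ) :
    z ∈ L j ↔ ∃ i : ℕ, (i : ℤ) ≤ len L j ∧ cat L (cum (len L) j + i) = z := by
  constructor
  · intro hz
    obtain ⟨i, hi, rfl⟩ := List.getElem_of_mem hz
    refine ⟨i, by unfold len; omega, ?_⟩
    rw [hL.cat_add j i (by unfold len; omega), List.getD_eq_getElem?_getD,
      List.getElem?_eq_getElem hi]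
    rfl
  · rintro ⟨i, hi, rfl⟩
    rw [hL.cat_add j i hi]
    exact hL.getD_mem j i hi

lemma cat_injOn_block (j : ℤ) {i i' : ℕ} (hi : (i : ℤ) ≤ len L j) (hi' : (i' : ℤ) ≤ len L j)
    (h : (L j).getD i 0 = (L j).getD i' 0) : i = i' := by
  have h1 : i < (L j).length := by unfold len at hi; omega
  have h2 : i' < (L j).length := by unfold len at hi'; omega
  rw [List.getD_eq_getElem?_getD, List.getD_eq_getElem?_getD, List.getElem?_eq_getElem h1,
    List.getElem?_eq_getElem h2] at h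
  exact (List.Nodup.getElem_inj_iff (hL.nodup j)).1 h

/-- order property: a height `f` such that `L j` lies in `f (nd j) ≤ f < f (nd (j+1))` except for
its last vertex -/
structure Ordered (L : ℤ → List (ℤ × ℤ)) (nd : ℤ → ℤ × ℤ) (f : ℤ × ℤ → ℝ) : Prop where
  low : ∀ j, ∀ z ∈ L j, f (nd j) ≤ f z
  high : ∀ j, ∀ z ∈ L j, z ≠ nd (j + 1) → f z < f (nd (j + 1))

variable {f : ℤ × ℤ → ℝ} (hO : Ordered L nd f)
include hO

lemma nd_lt (j : ℤ) : f (nd j) < f (nd (j + 1)) := by
  have h := hO.high j (nd j) ?_ (hL.ne j)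
  · exact h
  · rw [← hL.getD_zero j]; exact hL.getD_mem j 0 (by have := hL.one_le_len j; omega)

lemma nd_le {i j : ℤ} (hij : i ≤ j) : f (nd i) ≤ f (nd j) := by
  obtain ⟨n, rfl⟩ := Int.le.dest hij
  clear hij
  induction n with
  | zero => simp
  | succ n ih =>
    have e : i + ((n + 1 : ℕ) : ℤ) = (i + n) + 1 := by push_cast; ring
    rw [e]
    exact ih.trans (hL.nd_lt hO _).le

lemma lt_of_block_lt {j j' : ℤ} (hjj : j < j') {i i' : ℕ} (hi : (i : ℤ) < len L j)
    (hi' : (i' : ℤ) ≤ len L j') :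
    f (cat L (cum (len L) j + i)) < f (cat L (cum (len L) j' + i')) := by
  rw [hL.cat_add j i hi.le, hL.cat_add j' i' hi']
  have h1 : (L j).getD i 0 ≠ nd (j + 1) := by
    intro h
    rw [← hL.getD_last j] at h
    have := hL.cat_injOn_block j hi.le (i' := (len L j).toNat) (by omega) h
    omega
  have h2 := hO.high j _ (hL.getD_mem j i hi.le) h1
  have h3 := hL.nd_le hO (show j + 1 ≤ j' by omega)
  have h4 := hO.low j' _ (hL.getD_mem j' i' hi')
  linarith

lemma cat_injective : Function.Injective (cat L) := by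
  have key : ∀ k k' : ℤ, k < k' → cat L k ≠ cat L k' := by
    intro k k' hkk h
    obtain ⟨j, i, rfl, hi⟩ := hL.exists_block k
    obtain ⟨j', i', rfl, hi'⟩ := hL.exists_block k'
    rcases lt_trichotomy j j' with hj | hj | hj
    · have := hL.lt_of_block_lt hO hj hi hi'.le
      rw [h] at this
      exact lt_irrefl _ this
    · subst hj
      rw [hL.cat_add j i hi.le, hL.cat_add j i' hi'.le] at h
      have := hL.cat_injOn_block j hi.le hi'.le h
      omega
    · have := cum_le hL.one_le_len (show j' + 1 ≤ j by omega)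
      rw [cum_succ] at this
      omega
  intro k k' h
  rcases lt_trichotomy k k' with h1 | h1 | h1
  · exact absurd h (key k k' h1)
  · exact h1
  · exact absurd h.symm (key k' k h1)

lemma cat_isHwy : R78.IsHwy (cat L) := ⟨hL.cat_injective hO, hL.cat_adj⟩

/-- backtracking of the concatenation -/
lemma cat_back {κ : ℝ} (hκ : 0 ≤ κ) (hb : ∀ j, (L j).Pairwise fun a b => f a ≤ f b + κ) {k k' : ℤ}
    (hkk : k ≤ k') : f (cat L k) ≤ f (cat L k') + κ := by
  rcases hkk.eq_or_lt with rfl | hlt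
  · linarith
  obtain ⟨j, i, rfl, hi⟩ := hL.exists_block k
  obtain ⟨j', i', rfl, hi'⟩ := hL.exists_block k'
  rcases lt_trichotomy j j' with hj | hj | hj
  · have := hL.lt_of_block_lt hO hj hi hi'.le
    linarith
  · subst hj
    rw [hL.cat_add j i hi.le, hL.cat_add j i' hi'.le]
    have h1 : i < (L j).length := by unfold len at hi; omega
    have h2 : i' < (L j).length := by unfold len at hi'; omega
    have := List.pairwise_iff_getElem.1 (hb j) i i' h1 h2 (by omega)
    rw [List.getD_eq_getElem?_getD, List.getD_eq_getElem?_getD, List.getElem?_eq_getElem h1,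
      List.getElem?_eq_getElem h2]
    exact this
  · have := cum_le hL.one_le_len (show j' + 1 ≤ j by omega)
    rw [cum_succ] at this
    omega

end Blocks

end Crest.Agent.R151.Q
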