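import Crest.Agent.R151.Q3
import Crest.Agent.R151.Q5a

/-!
# R151 / S0214 part 2, Q5b — measurable selection of the cheapest path, the segments of the highway
(owner helper777)
-/

set_option autoImplicit false

open MeasureTheory Filter ProbabilityTheory Topology
open Crest.ProbabilityR.FirstPassage
open Crest.Agent.R151.K

namespace Crest.Agent.R151.Q

open B710 (FlatData)

/-! ### Selection of a minimiser -/

section sel

variable {β : Type*} [Encodable β] [Inhabited β]

/-- `l` is the first minimiser of `c` on `P` in the order of the encoding -/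
def IsSel (P : Set β) (c : β → ℝ) (l : β) : Prop :=
  l ∈ P ∧ ∀ l' ∈ P, c l ≤ c l' ∧ (c l' ≤ c l → Encodable.encode l ≤ Encodable.encode l')

lemma IsSel.unique {P : Set β} {c : β → ℝ} {l l' : β} (h : IsSel P c l) (h' : IsSel P c l') :
    l = l' := by
  have h1 := (h.2 l' h'.1).1
  have h2 := (h'.2 l h.1).1
  have h3 := (h.2 l' h'.1).2 h2
  have h4 := (h'.2 l h.1).2 h1
  exact Encodable.encode_injective (le_antisymm h3 h4)

lemma exists_isSel {P : Set β} (hf : P.Finite) (hne : P.Nonempty) (c : β → ℝ) :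
    ∃ l, IsSel P c l := by
  obtain ⟨l0, hl0, hmin⟩ := Set.exists_min_image P c hf hne
  obtain ⟨l, ⟨hl, hlc⟩, hmin2⟩ := Set.exists_min_image {l ∈ P | c l ≤ c l0} Encodable.encode
    (hf.subset fun _ h => h.1) ⟨l0, hl0, le_rfl⟩
  refine ⟨l, hl, fun l' hl' => ⟨hlc.trans (hmin l' hl'), fun h => ?_⟩⟩
  exact hmin2 l' ⟨hl', h.trans hlc⟩

open Classical in
/-- the selected minimiser -/
noncomputable def sel (P : Set β) (c : β → ℝ) : β :=
  if h : ∃ l, IsSel P c l then h.choose else default

lemma sel_spec {P : Set β} (hf : P.Finite) (hne : P.Nonempty) (c : β → ℝ) :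
    IsSel P c (sel P c) := by
  unfold sel
  rw [dif_pos (exists_isSel hf hne c)]
  exact (exists_isSel hf hne c).choose_spec

lemma sel_eq_iff {P : Set β} (hf : P.Finite) (hne : P.Nonempty) (c : β → ℝ) (l : β) :
    sel P c = l ↔ IsSel P c l :=
  ⟨fun h => h ▸ sel_spec hf hne c, fun h => (sel_spec hf hne c).unique h⟩

lemma measurable_sel {α : Type*} [MeasurableSpace α] [MeasurableSpace β]
    {P : Set β} (hf : P.Finite) {c : α → β → ℝ} (hc : ∀ l, Measurable fun a => c a l) :
    Measurable fun a => sel P (c a) := by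
  rcases P.eq_empty_or_nonempty with h0 | hne
  · have : (fun a => sel P (c a)) = fun _ => default := by
      funext a
      unfold sel
      rw [dif_neg]
      rintro ⟨l, hl⟩
      rw [h0] at hl
      exact hl.1
    rw [this]; exact measurable_const
  · refine measurable_to_countable' fun l => ?_
    have : (fun a => sel P (c a)) ⁻¹' {l} = {a | IsSel P (c a) l} := by
      ext a
      simp only [Set.mem_preimage, Set.mem_singleton_iff, Set.mem_setOf_eq]
      exact sel_eq_iff hf hne (c a) l
    rw [this]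
    by_cases hl : l ∈ P
    · have e : {a | IsSel P (c a) l} = ⋂ l' ∈ P, ({a | c a l ≤ c a l'} ∩
          {a | c a l' ≤ c a l → Encodable.encode l ≤ Encodable.encode l'}) := by
        ext a
        simp only [IsSel, hl, true_and, Set.mem_setOf_eq, Set.mem_iInter, Set.mem_inter_iff]
      rw [e]
      refine MeasurableSet.biInter hf.countable fun l' _ => MeasurableSet.inter ?_ ?_
      · exact measurableSet_le (hc l) (hc l')
      · by_cases he : Encodable.encode l ≤ Encodable.encode l'
        · simp [he]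
        · have : {a | c a l' ≤ c a l → Encodable.encode l ≤ Encodable.encode l'}
              = {a | c a l' ≤ c a l}ᶜ := by
            ext a; simp [he]
          rw [this]
          exact (measurableSet_le (hc l') (hc l)).compl
    · have e : {a | IsSel P (c a) l} = ∅ := by
        ext a; simp [IsSel, hl]
      rw [e]; exact MeasurableSet.empty

end sel

/-! ### Countable spaces -/

instance : MeasurableSpace (List (ℤ × ℤ)) := ⊤
instance : MeasurableSpace (Finset (ℤ × ℤ)) := ⊤
instance : DiscreteMeasurableSpace (List (ℤ × ℤ)) := ⟨fun _ => trivial⟩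
instance : DiscreteMeasurableSpace (Finset (ℤ × ℤ)) := ⟨fun _ => trivial⟩

lemma measurable_lcost (l : List (ℤ × ℤ)) : Measurable fun t : Environment => lcost t l := by
  induction l with
  | nil => exact measurable_const
  | cons x l ih =>
    cases l with
    | nil => exact measurable_const
    | cons y l => exact (measurable_pi_apply _).add ih

lemma pathsBT_finite (Q : Finset (ℤ × ℤ)) (x y : ℤ × ℤ) (h : ℤ × ℤ → ℝ) (κ : ℝ) :
    (pathsBT Q x y h κ).Finite := by
  classical
  have hfin : {l : List Q | l.length ≤ Q.card}.Finite := List.finite_length_le Q Q.card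
  refine (hfin.image (List.map Subtype.val)).subset ?_
  rintro l ⟨hnd, -, hQ, -⟩
  refine ⟨l.pmap (fun z hz => ⟨z, hz⟩) hQ, ?_, ?_⟩
  · simp only [Set.mem_setOf_eq, List.length_pmap]
    rw [← List.toFinset_card_of_nodup hnd]
    exact Finset.card_le_card fun z hz => hQ z (List.mem_toFinset.1 hz)
  · rw [List.map_pmap]; simp

/-- the cheapest path in the box `Q` from `0` to `y` -/
noncomputable def geoL (h : ℤ × ℤ → ℝ) (κ : ℝ) (Q : Finset (ℤ × ℤ)) (y : ℤ × ℤ)
    (t : Environment) : List (ℤ × ℤ) := sel (pathsBT Q 0 y h κ) (lcost t)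

lemma geoL_mem {h : ℤ × ℤ → ℝ} {κ : ℝ} {Q : Finset (ℤ × ℤ)} {y : ℤ × ℤ}
    (hne : (pathsBT Q 0 y h κ).Nonempty) (t : Environment) :
    geoL h κ Q y t ∈ pathsBT Q 0 y h κ := (sel_spec (pathsBT_finite _ _ _ _ _) hne _).1

lemma geoL_le {h : ℤ × ℤ → ℝ} {κ : ℝ} {Q : Finset (ℤ × ℤ)} {y : ℤ × ℤ}
    (t : Environment) {l : List (ℤ × ℤ)}
    (hl : l ∈ pathsBT Q 0 y h κ) : lcost t (geoL h κ Q y t) ≤ lcost t l :=
  ((sel_spec (pathsBT_finite _ _ _ _ _) ⟨l, hl⟩ (lcost t)).2 l hl).1

lemma lcost_geoL {h : ℤ × ℤ → ℝ} {κ : ℝ} {Q : Finset (ℤ × ℤ)} {y : ℤ × ℤ}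
    (hne : (pathsBT Q 0 y h κ).Nonempty) (t : Environment) :
    lcost t (geoL h κ Q y t) = sInf (lcost t '' pathsBT Q 0 y h κ) := by
  refine le_antisymm ?_ ?_
  · refine le_csInf (hne.image _) ?_
    rintro _ ⟨l, hl, rfl⟩
    exact geoL_le t hl
  · exact csInf_le ((pathsBT_finite _ _ _ _ _).image _).bddBelow
      ⟨_, geoL_mem hne t, rfl⟩

lemma measurable_geoL (h : ℤ × ℤ → ℝ) (κ : ℝ) :
    Measurable fun q : (Finset (ℤ × ℤ) × (ℤ × ℤ)) × Environment => geoL h κ q.1.1 q.1.2 q.2 := by
  refine measurable_from_prod_countable_right fun m => ?_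
  exact measurable_sel (P := pathsBT m.1 0 m.2 h κ) (c := lcost) (pathsBT_finite _ _ _ _ _)
    fun l => measurable_lcost l

/-- `lcost` only reads the edges between members of the list -/
lemma lcost_congr {t t' : Environment} {l : List (ℤ × ℤ)}
    (h : ∀ x ∈ l, ∀ y ∈ l, t s(x, y) = t' s(x, y)) : lcost t l = lcost t' l := by
  induction l with
  | nil => rfl
  | cons x l ih =>
    cases l with
    | nil => rfl
    | cons y l =>
      have h1 := ih fun a ha b hb => h a (List.mem_cons_of_mem _ ha) b (List.mem_cons_of_mem _ hb)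
      simp only [lcost]
      rw [h x (by simp) y (by simp), h1]

lemma geoL_congr {t t' : Environment} {h : ℤ × ℤ → ℝ} {κ : ℝ} {Q : Finset (ℤ × ℤ)} {y : ℤ × ℤ}
    (hne : (pathsBT Q 0 y h κ).Nonempty)
    (ht : ∀ x ∈ Q, ∀ y ∈ Q, t s(x, y) = t' s(x, y)) : geoL h κ Q y t = geoL h κ Q y t' := by
  unfold geoL
  rw [sel_eq_iff (pathsBT_finite _ _ _ _ _) hne]
  have hs := sel_spec (pathsBT_finite Q 0 y h κ) hne (lcost t')
  have hc : ∀ l ∈ pathsBT Q 0 y h κ, lcost t l = lcost t' l := fun l hl =>
    lcost_congr fun a ha b hb => ht a (hl.2.2.1 a ha) b (hl.2.2.1 b hb)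
  refine ⟨hs.1, fun l' hl' => ?_⟩
  rw [hc _ hs.1, hc _ hl']
  exact hs.2 l' hl'

/-! ### The nearest vertex -/

lemma toR_zero : toR 0 = 0 := by unfold toR; simp

lemma nr_add (θ : ℝ × ℝ) (m : ℤ × ℤ) : nr (θ + toR m) = nr θ - m := by
  unfold nr toR
  refine Prod.ext ?_ ?_
  · simp only [Prod.fst_add, Prod.fst_sub, round_add_intCast]; ring
  · simp only [Prod.snd_add, Prod.snd_sub, round_add_intCast]; ring

lemma norm_pos_nr (θ : ℝ × ℝ) : ‖pos θ (nr θ)‖ ≤ 1 / 2 := by
  unfold pos nr toR
  rw [Prod.norm_def]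
  refine max_le ?_ ?_
  · have := abs_sub_round θ.1
    simp only [Prod.fst_add, Real.norm_eq_abs]
    push_cast
    rw [abs_le] at this ⊢
    constructor <;> linarith [this.1, this.2]
  · have := abs_sub_round θ.2
    simp only [Prod.snd_add, Real.norm_eq_abs]
    push_cast
    rw [abs_le] at this ⊢
    constructor <;> linarith [this.1, this.2]

lemma measurable_nr : Measurable nr := by
  unfold nr
  have h : Measurable (round : ℝ → ℤ) := by
    have e : (round : ℝ → ℤ) = fun x => ⌊x + 1 / 2⌋ := by funext x; exact round_eq x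
    rw [e]; exact Int.measurable_floor.comp (measurable_id.add_const _)
  exact (h.comp measurable_fst).neg.prodMk (h.comp measurable_snd).neg

/-! ### Segments -/

variable {μ : ℝ × ℝ → ℝ}

/-- height used for the backtracking -/
noncomputable def hgt (F : FlatData μ) (z : ℤ × ℤ) : ℝ := F.al (toR z)

/-- the segment of highway starting at the node `nr θ` -/
noncomputable def seg (F : FlatData μ) (w n0 κ : ℝ) (θ : ℝ × ℝ) (t : Environment) :
    List (ℤ × ℤ) :=
  (geoL (hgt F) κ (Qbox F w n0 (θ + toR (nr θ))) (nxt F n0 (θ + toR (nr θ)))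
    (act (tr (nr θ)) t)).map (· + nr θ)

lemma seg_cov (F : FlatData μ) (w n0 κ : ℝ) (θ : ℝ × ℝ) (t : Environment) (m : ℤ × ℤ) :
    seg F w n0 κ (θ + toR m) (act (tr m) t) = (seg F w n0 κ θ t).map (· - m) := by
  unfold seg
  have e1 : θ + toR m + toR (nr (θ + toR m)) = θ + toR (nr θ) := by
    rw [nr_add, add_assoc]
    congr 1
    refine Prod.ext ?_ ?_ <;> simp [toR]
  have e2 : act (tr (nr (θ + toR m))) (act (tr m) t) = act (tr (nr θ)) t := by
    rw [nr_add]
    funext e
    unfold act
    rw [Sym2.map_map]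
    congr 2
    funext z
    show z + (nr θ - m) + m = z + nr θ
    abel
  rw [e1, e2, nr_add, List.map_map]
  congr 1
  funext z
  simp only [Function.comp_apply]
  abel

end Crest.Agent.R151.Q
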