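import Crest.Agent.R151.V3
import Crest.Agent.R151.K4a
import Crest.Agent.R151.C710c

/-!
# R151, block V11 (helper52): `Var T_R ≤ (1/r) E T_R` for Gamma weights, arbitrary region
-/

set_option autoImplicit false
set_option linter.unusedSectionVars false

open MeasureTheory ProbabilityTheory Set Filter
open scoped ENNReal Topology
open Crest.ProbabilityR.FirstPassage
open Crest.Agent.R151.K (Nn pR Conn n1 ET)

namespace Crest.Agent.R151.V

variable {κ r : ℝ}

open Classical in
/-- the first `n + 1` edge sets -/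
noncomputable def fam {I : Type*} (p : ℕ → Finset I) (n : ℕ) : Finset (Finset I) :=
  (Finset.range (n + 1)).image p

lemma fam_nonempty {I : Type*} (p : ℕ → Finset I) (n : ℕ) : (fam p n).Nonempty := by
  classical
  exact ⟨p 0, Finset.mem_image.2 ⟨0, by simp, rfl⟩⟩

lemma pmin_fam_le {I : Type*} (p : ℕ → Finset I) {n m : ℕ} (h : m ≤ n) (t : I → ℝ) :
    pmin (fam p n) (fam_nonempty p n) t ≤ ∑ e ∈ p m, t e := by
  classical
  exact pmin_le (Finset.mem_image.2 ⟨m, by simp; omega, rfl⟩) t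

lemma antitone_pmin_fam {I : Type*} (p : ℕ → Finset I) (t : I → ℝ) :
    Antitone fun n => pmin (fam p n) (fam_nonempty p n) t := by
  classical
  intro n m hnm
  obtain ⟨q, hq, hqe⟩ := exists_pmin (fam p n) (fam_nonempty p n) t
  obtain ⟨i, hi, rfl⟩ := Finset.mem_image.1 hq
  simp only
  rw [hqe]
  rw [Finset.mem_range] at hi
  exact pmin_fam_le p (by omega) t

lemma tendsto_pmin_fam {I : Type*} (p : ℕ → Finset I) {t : I → ℝ} (ht : ∀ e, 0 ≤ t e) :
    Tendsto (fun n => pmin (fam p n) (fam_nonempty p n) t) atTop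
      (𝓝 (⨅ n, ∑ e ∈ p n, t e)) := by
  classical
  have hbdd : BddBelow (range fun n => ∑ e ∈ p n, t e) :=
    ⟨0, by rintro _ ⟨n, rfl⟩; exact Finset.sum_nonneg fun e _ => ht e⟩
  apply tendsto_atTop_isGLB (antitone_pmin_fam p t)
  constructor
  · rintro _ ⟨n, rfl⟩
    obtain ⟨q, hq, hqe⟩ := exists_pmin (fam p n) (fam_nonempty p n) t
    obtain ⟨i, hi, rfl⟩ := Finset.mem_image.1 hq
    simp only
    rw [hqe]
    exact ciInf_le hbdd i
  · intro b hb
    refine le_ciInf fun n => ?_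
    exact (hb ⟨n, rfl⟩).trans (pmin_fam_le p le_rfl t)

open Classical in
lemma measurable_iInf_sum {I : Type*} (p : ℕ → Finset I) :
    Measurable fun t : I → ℝ => ⨅ n, ∑ e ∈ p n, t e :=
  Measurable.iInf fun n => measurable_cost (p n)

open Classical in
/-- `dvar` bound for an infimum over countably many edge sets -/
theorem dvar_iInf_gamma {I : Type*} [Countable I] (hκ : 0 < κ) (hr : 0 < r)
    (p : ℕ → Finset I) :
    dvar (Measure.infinitePi fun _ : I => gammaMeasure κ r) (fun t => ⨅ n, ∑ e ∈ p n, t e) ≤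
      ENNReal.ofReal (2 / r) *
        ∫⁻ t, ENNReal.ofReal (⨅ n, ∑ e ∈ p n, t e)
          ∂(Measure.infinitePi fun _ : I => gammaMeasure κ r) := by
  classical
  have hγ := isProbabilityMeasure_gammaMeasure hκ hr
  set μ := Measure.infinitePi fun _ : I => gammaMeasure κ r with hμ
  have hnn : ∀ᵐ t ∂μ, ∀ e, 0 ≤ t e := by
    rw [ae_all_iff]
    intro e
    exact (measurePreserving_eval_infinitePi (fun _ : I => gammaMeasure κ r) e).quasiMeasurePreserving.ae
      (ae_pos_gamma κ r)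
  have hlim : ∀ᵐ t ∂μ, Tendsto (fun n => pmin (fam p n) (fam_nonempty p n) t) atTop
      (𝓝 (⨅ n, ∑ e ∈ p n, t e)) := by
    filter_upwards [hnn] with t ht
    exact tendsto_pmin_fam p ht
  have h1 := dvar_le_liminf (μ := μ) (F := fun n => pmin (fam p n) (fam_nonempty p n))
    (fun n => measurable_pmin _ _) hlim
  refine h1.trans ?_
  have h2 : ∀ n, dvar μ (pmin (fam p n) (fam_nonempty p n)) ≤ ENNReal.ofReal (2 / r) *
      ∫⁻ t, ENNReal.ofReal (pmin (fam p n) (fam_nonempty p n) t) ∂μ :=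
    fun n => dvar_pmin_gamma hκ hr _ _
  refine (liminf_le_liminf (Eventually.of_forall h2)).trans ?_
  have hfin : ∫⁻ t, ENNReal.ofReal (pmin (fam p 0) (fam_nonempty p 0) t) ∂μ ≠ ∞ := by
    have h3 : ∫⁻ t, ENNReal.ofReal (pmin (fam p 0) (fam_nonempty p 0) t) ∂μ ≤
        ∫⁻ t, ∑ e ∈ p 0, ENNReal.ofReal (t e) ∂μ := by
      apply lintegral_mono_ae
      filter_upwards [hnn] with t ht
      rw [← ENNReal.ofReal_sum_of_nonneg fun e _ => ht e]
      exact ENNReal.ofReal_le_ofReal (pmin_fam_le p le_rfl t)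
    refine ne_top_of_le_ne_top ?_ h3
    rw [lintegral_finsetSum _ fun e _ => (measurable_pi_apply e).ennreal_ofReal]
    refine (ENNReal.sum_lt_top.2 fun e _ => ?_).ne
    have h4 : ∫⁻ t, ENNReal.ofReal (t e) ∂μ = ∫⁻ x, ENNReal.ofReal x ∂(gammaMeasure κ r) :=
      (measurePreserving_eval_infinitePi (fun _ : I => gammaMeasure κ r) e).lintegral_comp
        ENNReal.measurable_ofReal
    rw [h4]
    exact (integrable_id_gamma hκ hr).lintegral_lt_top
  have h5 : Tendsto (fun n => ENNReal.ofReal (2 / r) *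
      ∫⁻ t, ENNReal.ofReal (pmin (fam p n) (fam_nonempty p n) t) ∂μ) atTop
      (𝓝 (ENNReal.ofReal (2 / r) * ∫⁻ t, ENNReal.ofReal (⨅ n, ∑ e ∈ p n, t e) ∂μ)) := by
    apply ENNReal.Tendsto.const_mul _ (Or.inr ENNReal.ofReal_ne_top)
    apply tendsto_lintegral_of_dominated_convergence
      (fun t => ENNReal.ofReal (pmin (fam p 0) (fam_nonempty p 0) t))
      (fun n => (measurable_pmin _ _).ennreal_ofReal) _ hfin
    · filter_upwards [hlim] with t ht
      exact (ENNReal.continuous_ofReal.tendsto _).comp ht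
    · intro n
      exact Eventually.of_forall fun t => ENNReal.ofReal_le_ofReal (antitone_pmin_fam p t (Nat.zero_le n))
  exact h5.liminf_eq.le

open Classical in
/-- a restricted passage time is an infimum over countably many edge sets -/
lemma exists_pR_eq {R : Set (ℤ × ℤ)} {x y : ℤ × ℤ} (hc : Conn R x y) :
    ∃ p : ℕ → Finset (Sym2 (ℤ × ℤ)), (∀ n, ∃ w : squareLattice.Walk x y,
      (∀ z ∈ w.support, z ∈ R) ∧ p n = w.edges.toFinset) ∧
      ∀ t : Environment, Nn t → pR t R x y = ⨅ n, ∑ e ∈ p n, t e := by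
  have hne := hc.nonempty
  obtain ⟨w, hw⟩ := exists_surjective_nat {w : squareLattice.Walk x y // ∀ z ∈ w.support, z ∈ R}
  refine ⟨fun n => (w n).1.edges.toFinset, fun n => ⟨(w n).1, (w n).2, rfl⟩, ?_⟩
  intro t ht
  have hbdd : BddBelow (range fun n => ∑ e ∈ (w n).1.edges.toFinset, t e) :=
    ⟨0, by rintro _ ⟨n, rfl⟩; exact Finset.sum_nonneg fun e _ => ht e⟩
  apply le_antisymm
  · refine le_ciInf fun n => ?_
    have h1 : walkCost t (w n).1.bypass ≤ ∑ e ∈ (w n).1.edges.toFinset, t e := by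
      have hnd : (w n).1.bypass.edges.Nodup := (w n).1.bypass_isPath.isTrail.edges_nodup
      rw [walkCost, ← List.sum_toFinset _ hnd]
      apply Finset.sum_le_sum_of_subset_of_nonneg
      · intro e he
        rw [List.mem_toFinset] at he ⊢
        exact (SimpleGraph.Walk.edges_bypass_sublist_edges (w n).1).subset he
      · intro e _ _
        exact ht e
    refine le_trans (K.pR_le ht _ ?_) h1
    intro z hz
    exact (w n).2 z ((SimpleGraph.Walk.support_bypass_subset_support (w n).1) hz)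
  · refine K.le_pR hc fun v hv => ?_
    obtain ⟨n, hn⟩ := hw ⟨v, hv⟩
    refine (ciInf_le hbdd n).trans ?_
    rw [hn]
    rw [walkCost]
    have h7 := List.sum_toFinset t v.edges.nodup_dedup
    have h8 : v.edges.dedup.toFinset = v.edges.toFinset := by
      ext e; simp
    rw [h8] at h7
    calc ∑ e ∈ v.edges.toFinset, t e = (v.edges.dedup.map t).sum := h7
      _ ≤ (v.edges.map t).sum := by
          refine List.Sublist.sum_le_sum ((List.dedup_sublist _).map t) ?_
          intro a ha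
          obtain ⟨e, -, rfl⟩ := List.mem_map.1 ha
          exact ht e

/-- **Variance of restricted passage times**, Gamma weights: `2 Var T_R ≤ (2/r) E T_R`. -/
theorem dvar_pR (hκ : 0 < κ) (hr : 0 < r) {R : Set (ℤ × ℤ)} {x y : ℤ × ℤ} (hc : Conn R x y) :
    dvar (iidLaw (gammaMeasure κ r)) (fun t => pR t R x y) ≤
      ENNReal.ofReal (2 / r) * ∫⁻ t, ENNReal.ofReal (pR t R x y) ∂(iidLaw (gammaMeasure κ r)) := by
  have hγ := isProbabilityMeasure_gammaMeasure hκ hr
  obtain ⟨p, -, hp⟩ := exists_pR_eq hc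
  have h := dvar_iInf_gamma hκ hr p
  have hnn : ∀ᵐ t ∂(iidLaw (gammaMeasure κ r)), Nn t := K.ae_Nn (K.gamma_Iio κ r)
  have h1 : dvar (iidLaw (gammaMeasure κ r)) (fun t => pR t R x y) =
      dvar (iidLaw (gammaMeasure κ r)) (fun t => ⨅ n, ∑ e ∈ p n, t e) := by
    unfold dvar
    apply lintegral_congr_ae
    filter_upwards [hnn] with s hs
    apply lintegral_congr_ae
    filter_upwards [hnn] with t ht
    rw [hp s hs, hp t ht]
  have h2 : ∫⁻ t, ENNReal.ofReal (pR t R x y) ∂(iidLaw (gammaMeasure κ r)) =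
      ∫⁻ t, ENNReal.ofReal (⨅ n, ∑ e ∈ p n, t e) ∂(iidLaw (gammaMeasure κ r)) := by
    apply lintegral_congr_ae
    filter_upwards [hnn] with t ht
    rw [hp t ht]
  rw [h1, h2]
  exact h

/-- `E (T_R - E T_R)² ≤ (1/r) E T_R` -/
theorem var_pR (hκ : 0 < κ) (hr : 0 < r) {R : Set (ℤ × ℤ)} {x y : ℤ × ℤ} (hc : Conn R x y)
    (hi : Integrable (fun t => pR t R x y ^ 2) (iidLaw (gammaMeasure κ r))) :
    ∫ t, (pR t R x y - ∫ s, pR s R x y ∂(iidLaw (gammaMeasure κ r))) ^ 2
      ∂(iidLaw (gammaMeasure κ r)) ≤ (1 / r) * ∫ t, pR t R x y ∂(iidLaw (gammaMeasure κ r)) := by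
  have hγ := isProbabilityMeasure_gammaMeasure hκ hr
  have hL : MemLp (fun t => pR t R x y) 2 (iidLaw (gammaMeasure κ r)) :=
    (memLp_two_iff_integrable_sq (K.measurable_pR R x y).aestronglyMeasurable).2 hi
  have hint : Integrable (fun t => pR t R x y) (iidLaw (gammaMeasure κ r)) :=
    hL.integrable (by norm_num)
  have hnn : ∀ᵐ t ∂(iidLaw (gammaMeasure κ r)), Nn t := K.ae_Nn (K.gamma_Iio κ r)
  have hnn2 : 0 ≤ᵐ[iidLaw (gammaMeasure κ r)] fun t => pR t R x y := by
    filter_upwards [hnn] with t ht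
    exact K.pR_nonneg ht R x y
  have h := dvar_pR hκ hr hc
  rw [dvar_eq hL, ← ofReal_integral_eq_lintegral_ofReal hint hnn2,
    ← ENNReal.ofReal_mul (by positivity)] at h
  have h3 := (ENNReal.ofReal_le_ofReal_iff (mul_nonneg (by positivity)
    (integral_nonneg_of_ae hnn2))).1 h
  rw [variance_eq_integral hL.aestronglyMeasurable.aemeasurable] at h3
  have h4 : 2 / r * ∫ t, pR t R x y ∂(iidLaw (gammaMeasure κ r)) =
    2 * ((1 / r) * ∫ t, pR t R x y ∂(iidLaw (gammaMeasure κ r))) := by ring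
  rw [h4] at h3
  linarith

/-- 710's variance hypothesis for the Gamma law -/
theorem varB_gamma (hκ : 0 < κ) (hr : 0 < r) :
    C710.VarB (gammaMeasure κ r) ((1 / r) * ∫ z, z ∂(gammaMeasure κ r)) := by
  have hγ := isProbabilityMeasure_gammaMeasure hκ hr
  intro y
  have h2 : Integrable (fun x : ℝ => x ^ 2) (gammaMeasure κ r) := integrable_pow_gamma hκ hr 2
  have h0 := K.gamma_Iio κ r
  have hc : Conn univ (0 : ℤ × ℤ) y := by
    obtain ⟨w⟩ := K.reachable 0 y
    exact ⟨w, fun z _ => mem_univ z⟩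
  have hsq : Integrable (fun t => pR t univ 0 y ^ 2) (iidLaw (gammaMeasure κ r)) := by
    simp_rw [K.pR_univ]
    exact (K.pt_sq h0 h2 0 y).1
  have h := var_pR hκ hr hc hsq
  simp_rw [K.pR_univ] at h
  refine le_trans h ?_
  have h5 := K.integral_pt_le h0 h2 0 y
  rw [sub_zero] at h5
  have : (0:ℝ) ≤ 1 / r := by positivity
  calc (1 / r) * ∫ t, passageTime t 0 y ∂(iidLaw (gammaMeasure κ r))
      ≤ (1 / r) * ((n1 y : ℝ) * ∫ z, z ∂(gammaMeasure κ r)) := mul_le_mul_of_nonneg_left h5 this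
    _ = _ := by ring

end Crest.Agent.R151.V
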