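import Crest.Agent.R151.C710k
import Crest.Agent.R151.M192a
import Crest.Agent.R151.Q5b
import Crest.Agent.R151.G338f
import Crest.Agent.R151.V11

/-!
# R151 / S0214 part 2: the rate of a lane (helper710)

Facts on `eL G F w y` (mean excess of the `b`-lane over the height `y`) and `rate G F w`:
integrability, subadditivity, monotonicity in `w`, `rate = lim eL n / n`, `rate * y ≤ eL y`,
`c / w ^ 2 ≤ rate ≤ C w ^ (-0.06)`.
-/

set_option autoImplicit false
set_option linter.unusedSectionVars false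

open MeasureTheory Filter ProbabilityTheory Topology
open Crest.ProbabilityR.FirstPassage

namespace Crest.Agent.R151.C710

open Crest.Agent.R151.K Crest.Agent.R151.Q
open B710 (FlatData)

/-! ### measurability of restricted passage times in random regions -/

lemma pR_eq_sInf (t : Environment) (A : Set (ℤ × ℤ)) (x y : ℤ × ℤ) :
    pR t A x y = sInf {c | ∃ p : (Σ q : (ℤ × ℤ) × (ℤ × ℤ), squareLattice.Walk q.1 q.2),
      (p.1.1 = x ∧ p.1.2 = y ∧ ∀ z ∈ p.2.support, z ∈ A) ∧ c = walkCost t p.2} := by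
  unfold pR
  rw [iInf]
  congr 1
  ext c
  simp only [Set.mem_range, Set.mem_ofPred_eq]
  constructor
  · rintro ⟨w, rfl⟩
    exact ⟨⟨(x, y), w.1⟩, ⟨rfl, rfl, w.2⟩, rfl⟩
  · rintro ⟨⟨⟨a, b⟩, p⟩, ⟨h1, h2, h3⟩, rfl⟩
    simp only at h1 h2
    subst h1
    subst h2
    exact ⟨⟨p, h3⟩, rfl⟩

lemma measurable_pRr {Ω : Type*} [MeasurableSpace Ω] {T : Ω → Environment} (hT : Measurable T)
    {A : Ω → Set (ℤ × ℤ)} (hA : ∀ z, MeasurableSet {ω | z ∈ A ω}) {x y : Ω → ℤ × ℤ}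
    (hx : Measurable x) (hy : Measurable y) :
    Measurable fun ω => pR (T ω) (A ω) (x ω) (y ω) := by
  simp only [pR_eq_sInf]
  refine M192.measurable_sInf_family (fun p => ?_) (fun p => (measurable_walkCost p.2).comp hT)
  have e : {ω | p.1.1 = x ω ∧ p.1.2 = y ω ∧ ∀ z ∈ p.2.support, z ∈ A ω}
      = (x ⁻¹' {p.1.1}) ∩ ((y ⁻¹' {p.1.2}) ∩ ⋂ z ∈ p.2.support, {ω | z ∈ A ω}) := by
    ext ω
    simp only [Set.mem_ofPred_eq, Set.mem_inter_iff, Set.mem_preimage, Set.mem_singleton_iff,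
      Set.mem_iInter]
    constructor
    · rintro ⟨h1, h2, h3⟩; exact ⟨h1.symm, h2.symm, h3⟩
    · rintro ⟨h1, h2, h3⟩; exact ⟨h1.symm, h2.symm, h3⟩
  rw [e]
  refine (hx (measurableSet_singleton _)).inter ((hy (measurableSet_singleton _)).inter ?_)
  exact MeasurableSet.biInter (Set.to_countable _) fun z _ => hA z

variable {G : Measure ℝ} [IsProbabilityMeasure G] {lam : ℝ} {μ : ℝ × ℝ → ℝ}

/-- the restricted passage time of the lane -/
noncomputable def pL (F : FlatData μ) (w y : ℝ) (θ : ℝ × ℝ) (t : Environment) : ℝ :=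
  pR t (laneB F w θ) (nr θ) (nr (θ - y • F.b))

lemma eL_eq (F : FlatData μ) (w y : ℝ) : eL G F w y = ∫ p, pL F w y p.1 p.2 ∂(P0 G) - y := rfl

lemma measurable_pL (F : FlatData μ) (w y : ℝ) :
    Measurable fun p : (ℝ × ℝ) × Environment => pL F w y p.1 p.2 := by
  unfold pL
  refine measurable_pRr measurable_snd (fun z => ?_) (measurable_nr.comp measurable_fst)
    (measurable_nr.comp (measurable_fst.sub_const _))
  have : Measurable fun p : (ℝ × ℝ) × Environment => |F.al (pos p.1 z)| := by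
    unfold pos
    exact (F.al.continuous.measurable.comp (measurable_fst.const_add _)).abs
  exact measurableSet_le this measurable_const

lemma nr_mem_laneB (F : FlatData μ) {w : ℝ} (hw : 2 * fn F.al ≤ w) (θ : ℝ × ℝ) (y : ℝ) :
    nr (θ - y • F.b) ∈ laneB F w θ := by
  show |F.al (toR (nr (θ - y • F.b)) + θ)| ≤ w / 2
  have e1 : F.al (toR (nr (θ - y • F.b)) + θ)
      = F.al (toR (nr (θ - y • F.b)) + (θ - y • F.b)) := by
    rw [map_add, map_add, map_sub, map_smul, F.al_b]; simp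
  rw [e1]
  refine (abs_f_le _ _).trans ?_
  have h1 := l1_nr (θ - y • F.b)
  have := fn_nonneg F.al
  nlinarith

lemma nr_mem_laneB' (F : FlatData μ) {w : ℝ} (hw : 2 * fn F.al ≤ w) (θ : ℝ × ℝ) :
    nr θ ∈ laneB F w θ := by
  have := nr_mem_laneB F hw θ 0
  simpa using this

/-- the displacement -/
lemma disp_eq (F : FlatData μ) (θ : ℝ × ℝ) (y : ℝ) :
    ∃ r : ℝ × ℝ, l1 r ≤ 2 ∧ toR (nr (θ - y • F.b) - nr θ) = y • F.b + r := by
  refine ⟨(toR (nr (θ - y • F.b)) + (θ - y • F.b)) + (-1 : ℝ) • (toR (nr θ) + θ), ?_, ?_⟩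
  · refine (l1_add_le _ _).trans ?_
    rw [l1_smul]
    have : |(-1 : ℝ)| = 1 := by norm_num
    rw [this]
    linarith [l1_nr θ, l1_nr (θ - y • F.b)]
  · rw [toR_sub']
    simp only [neg_smul, one_smul]
    abel

lemma l1_disp_le (F : FlatData μ) (θ : ℝ × ℝ) (y : ℝ) :
    (n1 (nr (θ - y • F.b) - nr θ) : ℝ) ≤ |y| * l1 F.b + 2 := by
  obtain ⟨r, hr, he⟩ := disp_eq F θ y
  rw [← l1_toR, he]
  refine (l1_add_le _ _).trans ?_
  rw [l1_smul]
  linarith

lemma l1_disp_ge (F : FlatData μ) (θ : ℝ × ℝ) (y : ℝ) :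
    |y| * l1 F.b - 2 ≤ (n1 (nr (θ - y • F.b) - nr θ) : ℝ) := by
  obtain ⟨r, hr, he⟩ := disp_eq F θ y
  rw [← l1_toR, he]
  have h1 := l1_add_le (y • F.b + r) ((-1 : ℝ) • r)
  have h2 : y • F.b + r + (-1 : ℝ) • r = y • F.b := by
    simp only [neg_smul, one_smul]; abel
  rw [h2, l1_smul, l1_smul] at h1
  have : |(-1 : ℝ)| = 1 := by norm_num
  rw [this] at h1
  linarith

variable (h0 : G (Set.Iio 0) = 0) (h2 : Integrable (fun x : ℝ => x ^ 2) G)

include h0 h2

/-- for every offset: connection, integrability, mean -/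
lemma pL_theta (F : FlatData μ) {w : ℝ} (hw : 2 * fn F.al ≤ w) (y : ℝ) (θ : ℝ × ℝ) :
    Conn (laneB F w θ) (nr θ) (nr (θ - y • F.b)) ∧
      Integrable (fun t => pL F w y θ t) (iidLaw G) ∧
      ∫ t, pL F w y θ t ∂(iidLaw G) ≤ (|y| * l1 F.b + 2) * ∫ z, z ∂G := by
  have hfn := fn_nonneg F.al
  have m1 := nr_mem_laneB' F hw θ
  have m2 := nr_mem_laneB F hw θ y
  unfold pL
  rw [laneB_eq] at m1 m2 ⊢
  obtain ⟨c, i, l⟩ := lane_conn (G := G) h0 h2 (show fn F.al ≤ w by linarith) m1 m2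
  refine ⟨c, i, l.trans ?_⟩
  have hm : (0 : ℝ) ≤ ∫ z, z ∂G := integral_nonneg_of_ae (ae_nonneg h0)
  exact mul_le_mul_of_nonneg_right (l1_disp_le F θ y) hm

omit h2 in
lemma ae_nonneg_P0' : ∀ᵐ p ∂(P0 G), Nn p.2 := by
  unfold P0
  exact (Measure.quasiMeasurePreserving_snd (μ := UU2) (ν := iidLaw G)).ae (ae_Nn (G := G) h0)

lemma integrable_pL (F : FlatData μ) {w : ℝ} (hw : 2 * fn F.al ≤ w) (y : ℝ) :
    Integrable (fun p : (ℝ × ℝ) × Environment => pL F w y p.1 p.2) (P0 G) := by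
  unfold P0
  rw [integrable_prod_iff (measurable_pL F w y).aestronglyMeasurable]
  refine ⟨ae_of_all _ fun θ => (pL_theta h0 h2 F hw y θ).2.1, ?_⟩
  refine Integrable.of_bound (C := (|y| * l1 F.b + 2) * ∫ z, z ∂G) ?_ (ae_of_all _ fun θ => ?_)
  · exact (measurable_pL F w y).norm.stronglyMeasurable.integral_prod_right'.aestronglyMeasurable
  · have h3 : ∫ t, ‖pL F w y θ t‖ ∂(iidLaw G) = ∫ t, pL F w y θ t ∂(iidLaw G) := by
      refine integral_congr_ae ?_
      filter_upwards [ae_Nn (G := G) h0] with t ht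
      exact Real.norm_of_nonneg (pR_nonneg ht _ _ _)
    rw [h3, Real.norm_of_nonneg (integral_nonneg_of_ae (by
      filter_upwards [ae_Nn (G := G) h0] with t ht
      exact pR_nonneg ht _ _ _))]
    exact (pL_theta h0 h2 F hw y θ).2.2

lemma integral_pL (F : FlatData μ) {w : ℝ} (hw : 2 * fn F.al ≤ w) (y : ℝ) :
    ∫ p, pL F w y p.1 p.2 ∂(P0 G) = ∫ θ, ∫ t, pL F w y θ t ∂(iidLaw G) ∂UU2 := by
  have h := integrable_pL h0 h2 F hw y
  unfold P0 at h ⊢
  exact integral_prod _ h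

lemma integrable_pL' (F : FlatData μ) {w : ℝ} (hw : 2 * fn F.al ≤ w) (y : ℝ) :
    Integrable (fun θ => ∫ t, pL F w y θ t ∂(iidLaw G)) UU2 := by
  have h := integrable_pL h0 h2 F hw y
  unfold P0 at h
  exact h.integral_prod_left

/-- crude upper bound -/
lemma eL_le (F : FlatData μ) {w : ℝ} (hw : 2 * fn F.al ≤ w) (y : ℝ) :
    eL G F w y ≤ (|y| * l1 F.b + 2) * (∫ z, z ∂G) - y := by
  rw [eL_eq, integral_pL h0 h2 F hw y]
  have h3 : ∫ θ, ∫ t, pL F w y θ t ∂(iidLaw G) ∂UU2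
      ≤ ∫ _θ : ℝ × ℝ, (|y| * l1 F.b + 2) * (∫ z, z ∂G) ∂UU2 :=
    integral_mono (integrable_pL' h0 h2 F hw y) (integrable_const _)
      fun θ => (pL_theta h0 h2 F hw y θ).2.2
  rw [integral_const, probReal_univ, one_smul] at h3
  linarith

omit [IsProbabilityMeasure G] h0 h2 in
lemma laneB_shift (F : FlatData μ) (w : ℝ) (θ : ℝ × ℝ) (y : ℝ) :
    laneB F w (θ - y • F.b) = laneB F w θ := by
  ext z
  show |F.al (toR z + (θ - y • F.b))| ≤ w / 2 ↔ |F.al (toR z + θ)| ≤ w / 2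
  have : F.al (toR z + (θ - y • F.b)) = F.al (toR z + θ) := by
    rw [map_add, map_add, map_sub, map_smul, F.al_b]; simp
  rw [this]

omit [IsProbabilityMeasure G] h0 h2 in
lemma nr_add (θ : ℝ × ℝ) (m : ℤ × ℤ) : nr (θ + toR m) = nr θ - m := by
  unfold nr toR
  apply Prod.ext
  · show -round (θ.1 + (m.1 : ℝ)) = -round θ.1 - m.1
    rw [round_add_intCast]; ring
  · show -round (θ.2 + (m.2 : ℝ)) = -round θ.2 - m.2
    rw [round_add_intCast]; ring

omit [IsProbabilityMeasure G] h0 h2 in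
lemma inv_pL (F : FlatData μ) (w y : ℝ) : Inv (fun θ t => pL F w y θ t) := by
  intro m θ t
  show pR (act (tr m) t) (laneB F w (θ + toR m)) (nr (θ + toR m)) (nr (θ + toR m - y • F.b))
    = pR t (laneB F w θ) (nr θ) (nr (θ - y • F.b))
  have e1 : laneB F w (θ + toR m) = (tr m) ⁻¹' (laneB F w θ) := by
    ext z
    show |F.al (toR z + (θ + toR m))| ≤ w / 2 ↔ |F.al (toR (z + m) + θ)| ≤ w / 2
    rw [toR_add']
    have : toR z + (θ + toR m) = toR z + toR m + θ := by abel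
    rw [this]
  have e2 : θ + toR m - y • F.b = (θ - y • F.b) + toR m := by abel
  rw [e1, e2, nr_add, nr_add, pR_act]
  simp only [tr_apply, sub_add_cancel]

/-- **subadditivity** -/
lemma eL_add_le (F : FlatData μ) {w : ℝ} (hw : 2 * fn F.al ≤ w) (y y' : ℝ) :
    eL G F w (y + y') ≤ eL G F w y + eL G F w y' := by
  have hint := integrable_pL (G := G) h0 h2 F hw
  have hs := (inv_pL F w y').integrable_shift (G := G) (-(y • F.b)) (hint y')
  have hI := (inv_pL F w y').integral_shift (G := G) (measurable_pL F w y') (-(y • F.b))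
  have hle : ∫ p, pL F w (y + y') p.1 p.2 ∂(P0 G)
      ≤ ∫ p, (pL F w y p.1 p.2 + pL F w y' (p.1 + -(y • F.b)) p.2) ∂(P0 G) := by
    refine integral_mono_ae (hint _) ((hint y).add hs) ?_
    filter_upwards [ae_nonneg_P0' (G := G) h0] with p hp
    obtain ⟨c1, -, -⟩ := pL_theta (G := G) h0 h2 F hw y p.1
    obtain ⟨c2, -, -⟩ := pL_theta (G := G) h0 h2 F hw y' (p.1 + -(y • F.b))
    have e1 : p.1 + -(y • F.b) = p.1 - y • F.b := by abel
    have e2 : p.1 - y • F.b - y' • F.b = p.1 - (y + y') • F.b := by rw [add_smul]; abel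
    rw [e1, laneB_shift, e2] at c2
    have := pR_triangle hp c1 c2
    unfold pL
    rw [e1, laneB_shift, e2]
    exact this
  rw [integral_add (hint y) hs, hI] at hle
  rw [eL_eq, eL_eq, eL_eq]
  linarith

/-- monotonicity in the width -/
lemma eL_anti (F : FlatData μ) {w w' : ℝ} (hw : 2 * fn F.al ≤ w) (hww : w ≤ w') (y : ℝ) :
    eL G F w' y ≤ eL G F w y := by
  rw [eL_eq, eL_eq]
  have : ∫ p, pL F w' y p.1 p.2 ∂(P0 G) ≤ ∫ p, pL F w y p.1 p.2 ∂(P0 G) := by
    refine integral_mono_ae (integrable_pL h0 h2 F (hw.trans hww) y) (integrable_pL h0 h2 F hw y) ?_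
    filter_upwards [ae_nonneg_P0' (G := G) h0] with p hp
    obtain ⟨c1, -, -⟩ := pL_theta (G := G) h0 h2 F hw y p.1
    refine pR_anti hp ?_ c1
    intro z hz
    have : |F.al (pos p.1 z)| ≤ w / 2 := hz
    show |F.al (pos p.1 z)| ≤ w' / 2
    linarith
  linarith

/-- mean displacement -/
lemma mean_disp (F : FlatData μ) (f : ℝ × ℝ →L[ℝ] ℝ) (y : ℝ) :
    Integrable (fun θ : ℝ × ℝ => f (toR (nr (θ - y • F.b) - nr θ))) UU2 ∧
      ∫ θ, f (toR (nr (θ - y • F.b) - nr θ)) ∂UU2 = f (y • F.b) := by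
  have hX : CovV (Φ := Unit) (fun θ _ _ => nr θ) 1 := by
    refine ⟨measurable_nr.comp (measurable_fst.comp measurable_fst), ?_, ?_⟩
    · intro m θ t _
      exact nr_add θ m
    · intro θ t _
      have h3 := l1_nr θ
      unfold pos
      rw [Prod.norm_def]
      unfold l1 at h3
      rw [Real.norm_eq_abs, Real.norm_eq_abs]
      have := abs_nonneg (toR (nr θ) + θ).1
      have := abs_nonneg (toR (nr θ) + θ).2
      exact max_le (by linarith) (by linarith)
  obtain ⟨i1, i2⟩ := hX.integral_disp (G := G) (π := Measure.dirac ()) f (y • F.b)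
  have mp : MeasurePreserving (fun q : ((ℝ × ℝ) × Environment) × (Unit × Unit) => q.1.1)
      ((P0 G).prod ((Measure.dirac ()).prod (Measure.dirac ()))) UU2 := by
    unfold P0
    exact measurePreserving_fst.comp measurePreserving_fst
  have hm : Measurable fun θ : ℝ × ℝ => f (toR (nr (θ - y • F.b) - nr θ)) := by
    have h3 : Measurable (toR : ℤ × ℤ → ℝ × ℝ) := measurable_of_countable _
    exact f.continuous.measurable.comp (h3.comp
      ((measurable_nr.comp (measurable_id.sub_const _)).sub measurable_nr))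
  have e1 : (fun q : ((ℝ × ℝ) × Environment) × (Unit × Unit) =>
      f (toR (nr (q.1.1 - y • F.b))) - f (toR (nr q.1.1)))
      = (fun θ : ℝ × ℝ => f (toR (nr (θ - y • F.b) - nr θ))) ∘ fun q => q.1.1 := by
    funext q
    simp only [Function.comp, toR_sub', map_sub]
  simp only [e1] at i1 i2
  constructor
  · exact (mp.integrable_comp hm.aestronglyMeasurable).mp i1
  · rw [← i2]
    exact (mp_integral mp hm.aestronglyMeasurable).symm

/-- **(P0)** for lanes -/
lemma eL_nonneg (hμ : IsTC G μ) (F : FlatData μ) {w : ℝ} (hw : 2 * fn F.al ≤ w) (y : ℝ) :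
    0 ≤ eL G F w y := by
  rw [eL_eq, integral_pL h0 h2 F hw y]
  obtain ⟨i1, i2⟩ := mean_disp (G := G) h0 h2 F F.ρ y
  rw [map_smul, F.ρ_b, smul_eq_mul, mul_one] at i2
  have : ∫ θ, F.ρ (toR (nr (θ - y • F.b) - nr θ)) ∂UU2
      ≤ ∫ θ, ∫ t, pL F w y θ t ∂(iidLaw G) ∂UU2 := by
    refine integral_mono i1 (integrable_pL' h0 h2 F hw y) fun θ => ?_
    obtain ⟨c, i, -⟩ := pL_theta (G := G) h0 h2 F hw y θ
    have h3 : ET G (nr (θ - y • F.b) - nr θ) ≤ ∫ t, pL F w y θ t ∂(iidLaw G) := by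
      rw [← integral_pt]
      refine integral_mono_ae (integrable_pt h0 h2 _ _) i ?_
      filter_upwards [ae_Nn (G := G) h0] with t ht
      exact pt_le_pR ht c
    exact (F.ρ_le _).trans ((mu_le_ET h0 h2 hμ _).trans h3)
  linarith

/-! ### the rate -/

lemma rate_subadditive (F : FlatData μ) {w : ℝ} (hw : 2 * fn F.al ≤ w) :
    Subadditive fun n : ℕ => eL G F w n := by
  intro m n
  have := eL_add_le (G := G) h0 h2 F hw (m : ℝ) (n : ℝ)
  push_cast
  exact this

lemma rate_eq_lim (F : FlatData μ) {w : ℝ} (hw : 2 * fn F.al ≤ w) :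
    rate G F w = (rate_subadditive (G := G) h0 h2 F hw).lim := by
  unfold rate Subadditive.lim iInf
  congr 1
  ext c
  simp only [Set.mem_range, Set.mem_image, Set.mem_Ici]
  constructor
  · rintro ⟨n, rfl⟩
    exact ⟨n + 1, by omega, by push_cast; rfl⟩
  · rintro ⟨n, hn, rfl⟩
    refine ⟨n - 1, ?_⟩
    obtain ⟨k, rfl⟩ : ∃ k, n = k + 1 := ⟨n - 1, by omega⟩
    push_cast
    rfl

lemma rate_tendsto (hμ : IsTC G μ) (F : FlatData μ) {w : ℝ} (hw : 2 * fn F.al ≤ w) :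
    Tendsto (fun n : ℕ => eL G F w n / n) atTop (𝓝 (rate G F w)) := by
  rw [rate_eq_lim h0 h2 F hw]
  apply Subadditive.tendsto_lim
  refine ⟨0, ?_⟩
  rintro _ ⟨n, rfl⟩
  exact div_nonneg (eL_nonneg h0 h2 hμ F hw _) (Nat.cast_nonneg n)

lemma rate_nonneg (hμ : IsTC G μ) (F : FlatData μ) {w : ℝ} (hw : 2 * fn F.al ≤ w) :
    0 ≤ rate G F w := by
  unfold rate
  refine Real.iInf_nonneg fun n => ?_
  exact div_nonneg (eL_nonneg h0 h2 hμ F hw _) (by positivity)

/-- bounded differences -/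
lemma eL_diff (F : FlatData μ) {w : ℝ} (hw : 2 * fn F.al ≤ w) (y s : ℝ) (hs : |s| ≤ 1) :
    eL G F w (y + s) ≤ eL G F w y + ((l1 F.b + 2) * (∫ z, z ∂G) + 1) := by
  refine (eL_add_le h0 h2 F hw y s).trans ?_
  have h3 := eL_le (G := G) h0 h2 F hw s
  have hm : (0 : ℝ) ≤ ∫ z, z ∂G := integral_nonneg_of_ae (ae_nonneg h0)
  have h4 : |s| * l1 F.b ≤ 1 * l1 F.b := by
    have := l1_nonneg F.b
    gcongr
  have h5 := (abs_le.mp hs).1
  have h6 : (|s| * l1 F.b + 2) * (∫ z, z ∂G) ≤ (l1 F.b + 2) * (∫ z, z ∂G) := by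
    have : |s| * l1 F.b + 2 ≤ l1 F.b + 2 := by linarith
    gcongr
  linarith

/-- `rate * y ≤ eL y` for all real `y ≥ 0` -/
theorem rate_mul_le (hμ : IsTC G μ) (F : FlatData μ) {w : ℝ} (hw : 2 * fn F.al ≤ w) {y : ℝ}
    (hy : 0 ≤ y) : rate G F w * y ≤ eL G F w y := by
  obtain ⟨C, hC⟩ : ∃ C, C = (l1 F.b + 2) * (∫ z, z ∂G) + 1 := ⟨_, rfl⟩
  have hm : (0 : ℝ) ≤ ∫ z, z ∂G := integral_nonneg_of_ae (ae_nonneg h0)
  have hC0 : 0 ≤ C := by
    have := l1_nonneg F.b
    rw [hC]; positivity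
  have hr0 := rate_nonneg h0 h2 hμ F hw
  -- natural numbers
  have hnat : ∀ n : ℕ, rate G F w * n ≤ eL G F w n := by
    intro n
    rcases Nat.eq_zero_or_pos n with h | h
    · subst h
      simpa using eL_nonneg h0 h2 hμ F hw 0
    · have hb : BddBelow (Set.range fun n : ℕ => eL G F w ((n : ℝ) + 1) / ((n : ℝ) + 1)) := by
        refine ⟨0, ?_⟩
        rintro _ ⟨k, rfl⟩
        exact div_nonneg (eL_nonneg h0 h2 hμ F hw _) (by positivity)
      have h3 : rate G F w ≤ eL G F w (((n - 1 : ℕ) : ℝ) + 1) / (((n - 1 : ℕ) : ℝ) + 1) :=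
        ciInf_le hb (n - 1)
      have e : (((n - 1 : ℕ) : ℝ) + 1) = n := by
        have : n - 1 + 1 = n := by omega
        exact_mod_cast this
      rw [e, le_div_iff₀ (by exact_mod_cast h)] at h3
      exact h3
  -- real numbers, up to a constant
  have hreal : ∀ z : ℝ, 0 ≤ z → rate G F w * z ≤ eL G F w z + C := by
    intro z hz
    have h3 := hnat ⌈z⌉₊
    have h4 : z ≤ ⌈z⌉₊ := Nat.le_ceil z
    have h5 : (⌈z⌉₊ : ℝ) < z + 1 := Nat.ceil_lt_add_one hz
    have h6 := eL_diff (G := G) h0 h2 F hw z (⌈z⌉₊ - z) (by rw [abs_le]; constructor <;> linarith)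
    rw [add_sub_cancel, ← hC] at h6
    have h7 : rate G F w * z ≤ rate G F w * ⌈z⌉₊ := by gcongr
    linarith
  -- multiples
  have hmul : ∀ n : ℕ, eL G F w (((n : ℝ) + 1) * y) ≤ ((n : ℝ) + 1) * eL G F w y := by
    intro n
    induction n with
    | zero => simp
    | succ n ih =>
      have := eL_add_le (G := G) h0 h2 F hw (((n : ℝ) + 1) * y) y
      push_cast
      have e : ((n : ℝ) + 1 + 1) * y = ((n : ℝ) + 1) * y + y := by ring
      rw [e]
      linarith
  have ht : Tendsto (fun n : ℕ => eL G F w y + C / ((n : ℝ) + 1)) atTop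
      (𝓝 (eL G F w y + 0)) := by
    refine tendsto_const_nhds.add ?_
    exact tendsto_const_nhds.div_atTop (tendsto_atTop_add_const_right _ _ tendsto_natCast_atTop_atTop)
  rw [add_zero] at ht
  refine ge_of_tendsto' ht fun n => ?_
  have hpos : (0 : ℝ) < (n : ℝ) + 1 := by positivity
  have h3 := hreal (((n : ℝ) + 1) * y) (by positivity)
  have h4 := hmul n
  have h5 : rate G F w * y * ((n : ℝ) + 1) ≤ (eL G F w y + C / ((n : ℝ) + 1)) * ((n : ℝ) + 1) := by
    rw [add_mul, div_mul_cancel₀ _ hpos.ne']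
    linarith
  exact le_of_mul_le_mul_right h5 hpos

lemma rate_anti (hμ : IsTC G μ) (F : FlatData μ) {w w' : ℝ} (hw : 2 * fn F.al ≤ w)
    (hww : w ≤ w') : rate G F w' ≤ rate G F w := by
  refine le_of_tendsto_of_tendsto' (rate_tendsto h0 h2 hμ F (hw.trans hww))
    (rate_tendsto h0 h2 hμ F hw) fun n => ?_
  exact div_le_div_of_nonneg_right (eL_anti h0 h2 F hw hww _) (Nat.cast_nonneg n)

end Crest.Agent.R151.C710
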