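import Crest.Agent.R151.W1

/-!
R151, S0214 part 2, section 4: selection of a good scale when `Φ(2^n) ≥ c 2^{-a n}` only and `s > a`
(the form needed after theorem C2: `Φ(w) ≥ c / w`).
-/

set_option autoImplicit false

namespace Crest.Agent.R151.W

open Filter

theorem exists_scale' {Φ : ℕ → ℝ} {a c C θ' θ s : ℝ} (hc : 0 < c) (hC : 0 < C) (hs : a < s)
    (hθ' : -a ≤ θ') (hθ : θ' < θ) (hlo : ∀ n : ℕ, c * (2 : ℝ) ^ (-(a * n)) ≤ Φ n)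
    (hup : ∀ n : ℕ, Φ n ≤ C * (2 : ℝ) ^ (θ' * n)) (X : ℕ) :
    ∃ N : ℕ, X ≤ N ∧ (∀ n : ℕ, N ≤ n → Φ n ≤ (2 : ℝ) ^ (θ * ((n : ℝ) - N)) * Φ N) ∧
      (∀ n : ℕ, n ≤ N → Φ n ≤ (2 : ℝ) ^ (s * ((N : ℝ) - n)) * Φ N) := by
  have hp : ∀ x : ℝ, (0 : ℝ) < (2 : ℝ) ^ x := fun x => Real.rpow_pos_of_pos (by norm_num) x
  have hadd : ∀ x y : ℝ, (2 : ℝ) ^ x * (2 : ℝ) ^ y = (2 : ℝ) ^ (x + y) := fun x y =>
    (Real.rpow_add (by norm_num) x y).symm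
  obtain ⟨N, hN, h1, h2⟩ := exists_scale (Φ := fun n => (2 : ℝ) ^ (a * n) * Φ n) (c := c) (C := C)
    (θ' := θ' + a) (θ := θ + a) (s := s - a) hc hC (by linarith) (by linarith) (by linarith)
    (fun n => by
      have h := mul_le_mul_of_nonneg_left (hlo n) (hp (a * n)).le
      have e : (2 : ℝ) ^ (a * n) * (c * (2 : ℝ) ^ (-(a * n))) = c := by
        rw [mul_left_comm, hadd]; simp
      linarith)
    (fun n => by
      have h := mul_le_mul_of_nonneg_left (hup n) (hp (a * n)).le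
      have e : (2 : ℝ) ^ (a * n) * (C * (2 : ℝ) ^ (θ' * n)) = C * (2 : ℝ) ^ ((θ' + a) * n) := by
        rw [mul_left_comm, hadd]; congr 2; ring
      linarith) X
  refine ⟨N, hN, fun n hn => ?_, fun n hn => ?_⟩
  · have h := h1 n hn
    have e : (2 : ℝ) ^ ((θ + a) * ((n : ℝ) - N)) * ((2 : ℝ) ^ (a * N) * Φ N) =
        (2 : ℝ) ^ (a * n) * ((2 : ℝ) ^ (θ * ((n : ℝ) - N)) * Φ N) := by
      rw [← mul_assoc, ← mul_assoc, hadd, hadd]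
      congr 2; ring
    rw [e] at h
    exact le_of_mul_le_mul_left h (hp _)
  · have h := h2 n hn
    have e : (2 : ℝ) ^ ((s - a) * ((N : ℝ) - n)) * ((2 : ℝ) ^ (a * N) * Φ N) =
        (2 : ℝ) ^ (a * n) * ((2 : ℝ) ^ (s * ((N : ℝ) - n)) * Φ N) := by
      rw [← mul_assoc, ← mul_assoc, hadd, hadd]
      congr 2; ring
    rw [e] at h
    exact le_of_mul_le_mul_left h (hp _)

/-- Section 4 of `P2_v2`: two costs, one of them dominates at arbitrarily large good scales;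
lower bound `c 2^{-a n}` only, `s > a`. -/
theorem exists_scale_two' {ca cb : ℕ → ℝ} {a c C θ' θ s : ℝ} (hc : 0 < c) (hC : 0 < C)
    (hs : a < s) (hθ' : -a ≤ θ') (hθ : θ' < θ)
    (hlo : ∀ n : ℕ, c * (2 : ℝ) ^ (-(a * n)) ≤ max (ca n) (cb n))
    (hup : ∀ n : ℕ, max (ca n) (cb n) ≤ C * (2 : ℝ) ^ (θ' * n)) :
    (∀ X : ℕ, ∃ N : ℕ, X ≤ N ∧ max (ca N) (cb N) = cb N ∧
      (∀ n : ℕ, N ≤ n → max (ca n) (cb n) ≤ (2 : ℝ) ^ (θ * ((n : ℝ) - N)) * max (ca N) (cb N)) ∧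
      (∀ n : ℕ, n ≤ N → max (ca n) (cb n) ≤ (2 : ℝ) ^ (s * ((N : ℝ) - n)) * max (ca N) (cb N))) ∨
    (∀ X : ℕ, ∃ N : ℕ, X ≤ N ∧ max (ca N) (cb N) = ca N ∧
      (∀ n : ℕ, N ≤ n → max (ca n) (cb n) ≤ (2 : ℝ) ^ (θ * ((n : ℝ) - N)) * max (ca N) (cb N)) ∧
      (∀ n : ℕ, n ≤ N → max (ca n) (cb n) ≤ (2 : ℝ) ^ (s * ((N : ℝ) - n)) * max (ca N) (cb N))) := by
  by_contra hcon
  push Not at hcon
  obtain ⟨⟨X₁, h₁⟩, ⟨X₂, h₂⟩⟩ := hcon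
  obtain ⟨N, hN, ha, hb⟩ := exists_scale' hc hC hs hθ' hθ hlo hup (max X₁ X₂)
  rcases max_choice (ca N) (cb N) with h | h
  · obtain ⟨n, hn, hlt⟩ := h₂ N ((le_max_right _ _).trans hN) h ha
    exact absurd (hb n hn) (not_le.2 hlt)
  · obtain ⟨n, hn, hlt⟩ := h₁ N ((le_max_left _ _).trans hN) h ha
    exact absurd (hb n hn) (not_le.2 hlt)

end Crest.Agent.R151.W
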