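import Crest.Agent.R151.C710l
import Crest.Agent.R151.W1b

/-!
# R151 / S0214 part 2: lower bound of the rate (from 338's C2) and selection of the scale (710)
-/

set_option autoImplicit false
set_option linter.unusedSectionVars false

open MeasureTheory Filter ProbabilityTheory Topology
open Crest.ProbabilityR.FirstPassage

namespace Crest.Agent.R151.C710

open Crest.Agent.R151.K Crest.Agent.R151.Q
open B710 (FlatData)

variable {μ : ℝ × ℝ → ℝ} {κ r : ℝ}

lemma al_ne_zero (F : FlatData μ) : F.al ≠ 0 := by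
  intro h
  have := F.al_a
  rw [h] at this
  simp at this

lemma l1_b_pos (F : FlatData μ) : 0 < l1 F.b := by
  rcases (l1_nonneg F.b).lt_or_eq with h | h
  · exact h
  · exfalso
    have h1 : F.b = 0 := by
      unfold l1 at h
      have h3 := abs_nonneg F.b.1
      have h4 := abs_nonneg F.b.2
      have h5 : |F.b.1| = 0 := by linarith
      have h6 : |F.b.2| = 0 := by linarith
      exact Prod.ext (abs_eq_zero.mp h5) (abs_eq_zero.mp h6)
    have := F.ρ_b
    rw [h1, map_zero] at this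
    norm_num at this

/-- **C2 in the form of Q2** -/
theorem rate_ge (hκ : 0 < κ) (hr : 0 < r) (hμ : IsTC (gammaMeasure κ r) μ) (F : FlatData μ) :
    ∃ c w0 : ℝ, 0 < c ∧ 1 ≤ w0 ∧ ∀ w, w0 ≤ w → c / w ^ 2 ≤ rate (gammaMeasure κ r) F w := by
  have hγ := isProbabilityMeasure_gammaMeasure hκ hr
  have h0 := gamma_Iio κ r
  have h2 := integrable_sq h0 (half_pos hr) (gamma_exp hκ hr)
  obtain ⟨c, C, w0, hc, hC, hw0, hlow⟩ := G338.lane_lower hκ hr hμ (al_ne_zero F)
  have hb := l1_b_pos F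
  refine ⟨c * l1 F.b, max w0 (2 * fn F.al), by positivity, hw0.trans (le_max_left _ _),
    fun w hw => ?_⟩
  have hw1 : w0 ≤ w := (le_max_left _ _).trans hw
  have hw2 : 2 * fn F.al ≤ w := (le_max_right _ _).trans hw
  have hwpos : 0 < w := by linarith
  have key : ∀ y : ℝ, 0 ≤ y → c / w ^ 2 * (y * l1 F.b - 2) - C * w
      ≤ eL (gammaMeasure κ r) F w y := by
    intro y hy
    rw [eL_eq, integral_pL h0 h2 F hw2 y]
    obtain ⟨i1, i2⟩ := mean_disp (G := gammaMeasure κ r) h0 h2 F F.ρ y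
    rw [map_smul, F.ρ_b, smul_eq_mul, mul_one] at i2
    have h3 : ∫ θ, (F.ρ (toR (nr (θ - y • F.b) - nr θ)) + (c / w ^ 2 * (y * l1 F.b - 2) - C * w))
        ∂UU2 ≤ ∫ θ, ∫ t, pL F w y θ t ∂(iidLaw (gammaMeasure κ r)) ∂UU2 := by
      refine integral_mono (i1.add (integrable_const _)) (integrable_pL' h0 h2 F hw2 y) fun θ => ?_
      have m1 := nr_mem_laneB' F hw2 θ
      have m2 := nr_mem_laneB F hw2 θ y
      rw [laneB_eq] at m1 m2
      obtain ⟨-, l1', -⟩ := hlow w hw1 (-F.al θ) _ m1 _ m2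
      have h4 := F.ρ_le (toR (nr (θ - y • F.b) - nr θ))
      have h5 := l1_disp_ge F θ y
      rw [abs_of_nonneg hy] at h5
      have h6 : c / w ^ 2 * (y * l1 F.b - 2) ≤ c / w ^ 2 * (n1 (nr (θ - y • F.b) - nr θ) : ℝ) := by
        gcongr
      have h7 : ∫ t, pL F w y θ t ∂(iidLaw (gammaMeasure κ r))
          = ∫ t, pR t (G338.Lane F.al (-F.al θ) w) (nr θ) (nr (θ - y • F.b))
            ∂(iidLaw (gammaMeasure κ r)) := by
        unfold pL
        rw [laneB_eq]
        rfl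
      show F.ρ (toR (nr (θ - y • F.b) - nr θ)) + (c / w ^ 2 * (y * l1 F.b - 2) - C * w)
        ≤ ∫ t, pL F w y θ t ∂(iidLaw (gammaMeasure κ r))
      rw [h7]
      linarith
    rw [integral_add i1 (integrable_const _), i2, integral_const, probReal_univ, one_smul] at h3
    linarith
  have ht := rate_tendsto h0 h2 hμ F hw2
  have ht2 : Tendsto (fun n : ℕ => c * l1 F.b / w ^ 2 - (c / w ^ 2 * 2 + C * w) / (n : ℝ)) atTop
      (𝓝 (c * l1 F.b / w ^ 2 - 0)) := by
    refine tendsto_const_nhds.sub ?_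
    exact tendsto_const_nhds.div_atTop tendsto_natCast_atTop_atTop
  rw [sub_zero] at ht2
  refine le_of_tendsto_of_tendsto ht2 ht ?_
  filter_upwards [eventually_gt_atTop 0] with n hn
  have hn' : (0 : ℝ) < n := by exact_mod_cast hn
  rw [le_div_iff₀ hn']
  have := key n hn'.le
  refine le_trans (le_of_eq ?_) this
  field_simp
  ring

/-- **C1 for the Gamma law** -/
theorem rate_le_gamma (hκ : 0 < κ) (hr : 0 < r) (hμ : IsTC (gammaMeasure κ r) μ)
    (F : FlatData μ) :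
    ∃ C w0 : ℝ, 0 < C ∧ 1 ≤ w0 ∧ ∀ w, w0 ≤ w →
      rate (gammaMeasure κ r) F w ≤ C * w ^ (-0.06 : ℝ) := by
  have hγ := isProbabilityMeasure_gammaMeasure hκ hr
  exact rate_le (gamma_Iio κ r) (gamma_zero κ r) (half_pos hr) (gamma_exp hκ hr) hμ
    (V.varB_gamma hκ hr) F

/-! ### selection of the scale -/

/-- A good scale `W` for the direction `b` of `F`. -/
structure GoodScale (G : Measure ℝ) (F : FlatData μ) (w0 W : ℝ) : Prop where
  one_le : 1 ≤ w0
  le : w0 ≤ W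
  pos : 0 < rate G F W
  large_b : ∀ w, W ≤ w → rate G F w ≤ 2 * (w / W) ^ (-0.03 : ℝ) * rate G F W
  large_a : ∀ w, W ≤ w → rate G F.swap w ≤ 2 * (w / W) ^ (-0.03 : ℝ) * rate G F W
  small_b : ∀ w, w0 ≤ w → w ≤ W → rate G F w ≤ 8 * (W / w) ^ 3 * rate G F W
  small_a : ∀ w, w0 ≤ w → w ≤ W → rate G F.swap w ≤ 8 * (W / w) ^ 3 * rate G F W

theorem exists_goodScale (hκ : 0 < κ) (hr : 0 < r) (hμ : IsTC (gammaMeasure κ r) μ)
    (F : FlatData μ) :
    ∃ F0 : FlatData μ, (F0 = F ∨ F0 = F.swap) ∧ ∃ w0 c : ℝ, 0 < c ∧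
      (∀ w, w0 ≤ w → c / w ^ 2 ≤ rate (gammaMeasure κ r) F0 w) ∧
      ∀ X : ℝ, ∃ W, X ≤ W ∧ GoodScale (gammaMeasure κ r) F0 w0 W := by
  have hγ := isProbabilityMeasure_gammaMeasure hκ hr
  have h0 := gamma_Iio κ r
  have h2 := integrable_sq h0 (half_pos hr) (gamma_exp hκ hr)
  obtain ⟨G, hG⟩ : ∃ G, G = gammaMeasure κ r := ⟨_, rfl⟩
  have hs : ∀ F' : FlatData μ, F'.swap.swap = F' := fun F' => rfl
  -- uniform constants
  obtain ⟨c1, v1, hc1, hv1, hge1⟩ := rate_ge hκ hr hμ F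
  obtain ⟨c2, v2, hc2, hv2, hge2⟩ := rate_ge hκ hr hμ F.swap
  obtain ⟨C1, v3, hC1, hv3, hle1⟩ := rate_le_gamma hκ hr hμ F
  obtain ⟨C2, v4, hC2, hv4, hle2⟩ := rate_le_gamma hκ hr hμ F.swap
  obtain ⟨c, hc⟩ : ∃ c, c = min c1 c2 := ⟨_, rfl⟩
  obtain ⟨C, hC⟩ : ∃ C, C = max C1 C2 := ⟨_, rfl⟩
  have hcpos : 0 < c := by rw [hc]; exact lt_min hc1 hc2
  have hCpos : 0 < C := by rw [hC]; exact lt_max_of_lt_left hC1
  obtain ⟨v, hv⟩ : ∃ v, v = max (max (max v1 v2) (max v3 v4))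
      (max (2 * fn F.al) (2 * fn F.swap.al)) := ⟨_, rfl⟩
  have hvv1 : v1 ≤ v := by rw [hv]; exact (le_max_left _ _).trans ((le_max_left _ _).trans (le_max_left _ _))
  have hvv2 : v2 ≤ v := by rw [hv]; exact (le_max_right _ _).trans ((le_max_left _ _).trans (le_max_left _ _))
  have hvv3 : v3 ≤ v := by rw [hv]; exact (le_max_left _ _).trans ((le_max_right _ _).trans (le_max_left _ _))
  have hvv4 : v4 ≤ v := by rw [hv]; exact (le_max_right _ _).trans ((le_max_right _ _).trans (le_max_left _ _))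
  have hvf : 2 * fn F.al ≤ v := by rw [hv]; exact (le_max_left _ _).trans (le_max_right _ _)
  have hvf' : 2 * fn F.swap.al ≤ v := by rw [hv]; exact (le_max_right _ _).trans (le_max_right _ _)
  have hge : ∀ w, v ≤ w → c / w ^ 2 ≤ rate (gammaMeasure κ r) F w := by
    intro w hw
    refine le_trans ?_ (hge1 w (hvv1.trans hw))
    have : c ≤ c1 := by rw [hc]; exact min_le_left _ _
    gcongr
  have hge' : ∀ w, v ≤ w → c / w ^ 2 ≤ rate (gammaMeasure κ r) F.swap w := by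
    intro w hw
    refine le_trans ?_ (hge2 w (hvv2.trans hw))
    have : c ≤ c2 := by rw [hc]; exact min_le_right _ _
    gcongr
  have hle : ∀ w, v ≤ w → rate (gammaMeasure κ r) F w ≤ C * w ^ (-0.06 : ℝ) := by
    intro w hw
    refine (hle1 w (hvv3.trans hw)).trans ?_
    have h3 : C1 ≤ C := by rw [hC]; exact le_max_left _ _
    have h4 : 0 ≤ w ^ (-0.06 : ℝ) := Real.rpow_nonneg (by linarith) _
    gcongr
  have hle' : ∀ w, v ≤ w → rate (gammaMeasure κ r) F.swap w ≤ C * w ^ (-0.06 : ℝ) := by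
    intro w hw
    refine (hle2 w (hvv4.trans hw)).trans ?_
    have h3 : C2 ≤ C := by rw [hC]; exact le_max_right _ _
    have h4 : 0 ≤ w ^ (-0.06 : ℝ) := Real.rpow_nonneg (by linarith) _
    gcongr
  have hanti : ∀ w w', v ≤ w → w ≤ w' →
      rate (gammaMeasure κ r) F w' ≤ rate (gammaMeasure κ r) F w :=
    fun w w' h h' => rate_anti h0 h2 hμ F (hvf.trans h) h'
  have hanti' : ∀ w w', v ≤ w → w ≤ w' →
      rate (gammaMeasure κ r) F.swap w' ≤ rate (gammaMeasure κ r) F.swap w :=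
    fun w w' h h' => rate_anti h0 h2 hμ F.swap (hvf'.trans h) h'
  -- dyadic widths
  obtain ⟨n0, hn0⟩ := exists_nat_ge v
  have hvpos : 0 < v := by linarith
  obtain ⟨b0, hb0⟩ : ∃ b0 : ℝ, b0 = (2 : ℝ) ^ n0 := ⟨_, rfl⟩
  have hb0v : v ≤ b0 := by
    rw [hb0]
    refine hn0.trans ?_
    exact_mod_cast (Nat.lt_two_pow_self (n := n0)).le
  have hb0pos : 0 < b0 := by linarith
  have hb01 : 1 ≤ b0 := by rw [hb0]; exact one_le_pow₀ (by norm_num)
  set wd : ℕ → ℝ := fun n => b0 * (2 : ℝ) ^ (n : ℝ) with hwd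
  have hwdpos : ∀ n, 0 < wd n := fun n => by simp only [hwd]; positivity
  have hwd0 : ∀ n, b0 ≤ wd n := by
    intro n
    simp only [hwd]
    have : (1 : ℝ) ≤ (2 : ℝ) ^ (n : ℝ) := Real.one_le_rpow (by norm_num) (Nat.cast_nonneg n)
    nlinarith
  have hwdv : ∀ n, v ≤ wd n := fun n => hb0v.trans (hwd0 n)
  set ra : ℕ → ℝ := fun n => rate (gammaMeasure κ r) F.swap (wd n) with hra
  set rb : ℕ → ℝ := fun n => rate (gammaMeasure κ r) F (wd n) with hrb
  have hrb0 : ∀ n, 0 < rb n := fun n =>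
    lt_of_lt_of_le (by have := hwdpos n; positivity) (hge _ (hwdv n))
  have hra0 : ∀ n, 0 < ra n := fun n =>
    lt_of_lt_of_le (by have := hwdpos n; positivity) (hge' _ (hwdv n))
  have hsel := W.exists_scale_two' (ca := fun n => (2 : ℝ) ^ (n : ℝ) * ra n)
    (cb := fun n => (2 : ℝ) ^ (n : ℝ) * rb n)
    (a := 1) (c := c / b0 ^ 2) (C := C * b0 ^ (-0.06 : ℝ)) (θ' := 0.94) (θ := 0.97) (s := 2)
    (by positivity) (by positivity) (by norm_num) (by norm_num) (by norm_num)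
    (fun n => by
      refine le_trans ?_ (le_max_right _ _)
      have h3 := hge _ (hwdv n)
      have h4 : (2 : ℝ) ^ (n : ℝ) * (c / wd n ^ 2) ≤ (2 : ℝ) ^ (n : ℝ) * rb n := by gcongr
      refine le_trans (le_of_eq ?_) h4
      have hp : (0 : ℝ) < (2 : ℝ) ^ (n : ℝ) := by positivity
      rw [one_mul, Real.rpow_neg (by norm_num)]
      simp only [hwd]
      field_simp)
    (fun n => by
      have hp : (0 : ℝ) < (2 : ℝ) ^ (n : ℝ) := by positivity
      have h5 : (2 : ℝ) ^ (n : ℝ) * (C * wd n ^ (-0.06 : ℝ))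
          = C * b0 ^ (-0.06 : ℝ) * (2 : ℝ) ^ (0.94 * (n : ℝ)) := by
        simp only [hwd]
        rw [Real.mul_rpow hb0pos.le hp.le, ← Real.rpow_mul (by norm_num)]
        have : (2 : ℝ) ^ (n : ℝ) * (2 : ℝ) ^ ((n : ℝ) * -0.06) = (2 : ℝ) ^ (0.94 * (n : ℝ)) := by
          rw [← Real.rpow_add (by norm_num)]; congr 1; ring
        rw [← this]; ring
      rw [← h5]
      refine max_le ?_ ?_
      · exact mul_le_mul_of_nonneg_left (hle' _ (hwdv n)) hp.le
      · exact mul_le_mul_of_nonneg_left (hle _ (hwdv n)) hp.le)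
  -- from dyadic to real widths
  have hfin : ∀ (F1 : FlatData μ) (r1 r2 : ℕ → ℝ), (∀ n, 0 < r1 n) →
      (r1 = fun n => rate (gammaMeasure κ r) F1 (wd n)) →
      (r2 = fun n => rate (gammaMeasure κ r) F1.swap (wd n)) →
      (∀ w w', v ≤ w → w ≤ w' → rate (gammaMeasure κ r) F1 w' ≤ rate (gammaMeasure κ r) F1 w) →
      (∀ w w', v ≤ w → w ≤ w' →
        rate (gammaMeasure κ r) F1.swap w' ≤ rate (gammaMeasure κ r) F1.swap w) →
      (∀ X : ℕ, ∃ N : ℕ, X ≤ N ∧
        (∀ n : ℕ, N ≤ n → max ((2 : ℝ) ^ (n : ℝ) * r2 n) ((2 : ℝ) ^ (n : ℝ) * r1 n)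
          ≤ (2 : ℝ) ^ (0.97 * ((n : ℝ) - N)) * ((2 : ℝ) ^ (N : ℝ) * r1 N)) ∧
        (∀ n : ℕ, n ≤ N → max ((2 : ℝ) ^ (n : ℝ) * r2 n) ((2 : ℝ) ^ (n : ℝ) * r1 n)
          ≤ (2 : ℝ) ^ (2 * ((N : ℝ) - n)) * ((2 : ℝ) ^ (N : ℝ) * r1 N))) →
      ∀ X : ℝ, ∃ W, X ≤ W ∧ GoodScale (gammaMeasure κ r) F1 b0 W := by
    intro F1 r1 r2 hr1 er1 er2 ha1 ha2 hN X
    obtain ⟨X', hX'⟩ := exists_nat_ge X
    obtain ⟨N, hXN, hup, hlo⟩ := hN X'
    refine ⟨wd N, ?_, ?_⟩
    · refine hX'.trans ?_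
      have h3 : (X' : ℝ) ≤ N := by exact_mod_cast hXN
      have h4 : (N : ℝ) ≤ (2 : ℝ) ^ (N : ℝ) := by
        rw [Real.rpow_natCast]
        exact_mod_cast (Nat.lt_two_pow_self (n := N)).le
      simp only [hwd]
      nlinarith
    have hr1N : r1 N = rate (gammaMeasure κ r) F1 (wd N) := by rw [er1]
    -- location of a real width
    have hloc : ∀ w, b0 ≤ w → ∃ n : ℕ, wd n ≤ w ∧ w ≤ 2 * wd n := by
      intro w hw
      have hq : 1 ≤ w / b0 := by rw [le_div_iff₀ hb0pos]; linarith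
      have hq0 : 0 < w / b0 := by linarith
      obtain ⟨n, hn⟩ : ∃ n : ℕ, n = ⌊Real.logb 2 (w / b0)⌋₊ := ⟨_, rfl⟩
      have hl0 : 0 ≤ Real.logb 2 (w / b0) := Real.logb_nonneg (by norm_num) hq
      have h3 : (n : ℝ) ≤ Real.logb 2 (w / b0) := by rw [hn]; exact Nat.floor_le hl0
      have h4 : Real.logb 2 (w / b0) < n + 1 := by rw [hn]; exact Nat.lt_floor_add_one _
      have e : (2 : ℝ) ^ Real.logb 2 (w / b0) = w / b0 :=
        Real.rpow_logb (by norm_num) (by norm_num) hq0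
      have h5 : (2 : ℝ) ^ (n : ℝ) ≤ w / b0 := by
        rw [← e]; exact Real.rpow_le_rpow_of_exponent_le (by norm_num) h3
      have h6 : w / b0 ≤ 2 * (2 : ℝ) ^ (n : ℝ) := by
        have : 2 * (2 : ℝ) ^ (n : ℝ) = (2 : ℝ) ^ ((n : ℝ) + 1) := by
          rw [Real.rpow_add_one (by norm_num)]; ring
        rw [this, ← e]
        exact Real.rpow_le_rpow_of_exponent_le (by norm_num) h4.le
      refine ⟨n, ?_, ?_⟩
      · simp only [hwd]
        rw [le_div_iff₀ hb0pos] at h5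
        linarith
      · simp only [hwd]
        rw [div_le_iff₀ hb0pos] at h6
        linarith
    have hp : ∀ x : ℝ, (0 : ℝ) < (2 : ℝ) ^ x := fun x => Real.rpow_pos_of_pos (by norm_num) x
    -- ratios
    have hratio : ∀ n m : ℕ, wd n / wd m = (2 : ℝ) ^ ((n : ℝ) - m) := by
      intro n m
      simp only [hwd]
      rw [Real.rpow_sub (by norm_num), mul_div_mul_left _ _ hb0pos.ne']
    -- the two estimates at dyadic widths
    have hL : ∀ n : ℕ, N ≤ n → r1 n ≤ (wd n / wd N) ^ (-0.03 : ℝ) * r1 N ∧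
        r2 n ≤ (wd n / wd N) ^ (-0.03 : ℝ) * r1 N := by
      intro n hn
      have h3 := hup n hn
      have e1 : (wd n / wd N) ^ (-0.03 : ℝ) = (2 : ℝ) ^ (((n : ℝ) - N) * -0.03) := by
        rw [hratio, ← Real.rpow_mul (by norm_num)]
      have e2 : (2 : ℝ) ^ (0.97 * ((n : ℝ) - N)) * ((2 : ℝ) ^ (N : ℝ) * r1 N)
          = (2 : ℝ) ^ (n : ℝ) * ((wd n / wd N) ^ (-0.03 : ℝ) * r1 N) := by
        rw [e1, ← mul_assoc, ← mul_assoc, ← Real.rpow_add (by norm_num),
          ← Real.rpow_add (by norm_num)]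
        congr 2; ring
      rw [e2] at h3
      exact ⟨le_of_mul_le_mul_left ((le_max_right _ _).trans h3) (hp n),
        le_of_mul_le_mul_left ((le_max_left _ _).trans h3) (hp n)⟩
    have hS : ∀ n : ℕ, n ≤ N → r1 n ≤ (wd N / wd n) ^ 3 * r1 N ∧
        r2 n ≤ (wd N / wd n) ^ 3 * r1 N := by
      intro n hn
      have h3 := hlo n hn
      have e1 : (wd N / wd n) ^ 3 = (2 : ℝ) ^ (((N : ℝ) - n) * 3) := by
        rw [hratio, ← Real.rpow_natCast, ← Real.rpow_mul (by norm_num)]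
        norm_num
      have e2 : (2 : ℝ) ^ (2 * ((N : ℝ) - n)) * ((2 : ℝ) ^ (N : ℝ) * r1 N)
          = (2 : ℝ) ^ (n : ℝ) * ((wd N / wd n) ^ 3 * r1 N) := by
        rw [e1, ← mul_assoc, ← mul_assoc, ← Real.rpow_add (by norm_num),
          ← Real.rpow_add (by norm_num)]
        congr 2; ring
      rw [e2] at h3
      exact ⟨le_of_mul_le_mul_left ((le_max_right _ _).trans h3) (hp n),
        le_of_mul_le_mul_left ((le_max_left _ _).trans h3) (hp n)⟩
    have hwN := hwdpos N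
    have hr1Npos := hr1 N
    -- real widths, large
    have large : ∀ (ρ' : ℝ → ℝ), (∀ w w', v ≤ w → w ≤ w' → ρ' w' ≤ ρ' w) →
        (∀ n : ℕ, N ≤ n → ρ' (wd n) ≤ (wd n / wd N) ^ (-0.03 : ℝ) * r1 N) →
        ∀ w, wd N ≤ w → ρ' w ≤ 2 * (w / wd N) ^ (-0.03 : ℝ) * r1 N := by
      intro ρ' hanti2 hd w hw
      obtain ⟨n, hn1, hn2⟩ := hloc w ((hwd0 N).trans hw)
      have hwpos : 0 < w := by linarith
      -- we may take n ≥ N
      obtain ⟨m, hm, hm1, hm2⟩ : ∃ m : ℕ, N ≤ m ∧ wd m ≤ w ∧ w ≤ 2 * wd m := by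
        rcases le_total N n with h | h
        · exact ⟨n, h, hn1, hn2⟩
        · refine ⟨N, le_rfl, hw, hn2.trans ?_⟩
          have : wd n ≤ wd N := by
            simp only [hwd]
            have : (2 : ℝ) ^ (n : ℝ) ≤ (2 : ℝ) ^ (N : ℝ) :=
              Real.rpow_le_rpow_of_exponent_le (by norm_num) (by exact_mod_cast h)
            gcongr
          linarith
      refine (hanti2 _ _ (hwdv m) hm1).trans ((hd m hm).trans ?_)
      have h3 : (wd m / wd N) ^ (-0.03 : ℝ) ≤ 2 * (w / wd N) ^ (-0.03 : ℝ) := by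
        have hmpos := hwdpos m
        have e1 : (w / wd N / 2) ^ (-0.03 : ℝ) ≤ 2 * (w / wd N) ^ (-0.03 : ℝ) := by
          rw [Real.div_rpow (by positivity) (by norm_num), div_eq_mul_inv, mul_comm]
          have e3 : ((2 : ℝ) ^ (-0.03 : ℝ))⁻¹ ≤ 2 := by
            rw [← Real.rpow_neg (by norm_num)]
            conv_rhs => rw [← Real.rpow_one 2]
            exact Real.rpow_le_rpow_of_exponent_le (by norm_num) (by norm_num)
          gcongr
        refine le_trans ?_ e1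
        apply Real.rpow_le_rpow_of_nonpos (by positivity) _ (by norm_num)
        rw [div_div, div_le_div_iff₀ (by positivity) hwN]
        nlinarith
      calc (wd m / wd N) ^ (-0.03 : ℝ) * r1 N ≤ (2 * (w / wd N) ^ (-0.03 : ℝ)) * r1 N := by gcongr
        _ = _ := by ring
    have small : ∀ (ρ' : ℝ → ℝ), (∀ w w', v ≤ w → w ≤ w' → ρ' w' ≤ ρ' w) →
        (∀ n : ℕ, n ≤ N → ρ' (wd n) ≤ (wd N / wd n) ^ 3 * r1 N) →
        ∀ w, b0 ≤ w → w ≤ wd N → ρ' w ≤ 8 * (wd N / w) ^ 3 * r1 N := by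
      intro ρ' hanti2 hd w hw1 hw2
      obtain ⟨n, hn1, hn2⟩ := hloc w hw1
      have hwpos : 0 < w := by linarith
      obtain ⟨m, hm, hm1, hm2⟩ : ∃ m : ℕ, m ≤ N ∧ wd m ≤ w ∧ w ≤ 2 * wd m := by
        rcases le_total n N with h | h
        · exact ⟨n, h, hn1, hn2⟩
        · have : wd N ≤ wd n := by
            simp only [hwd]
            have : (2 : ℝ) ^ (N : ℝ) ≤ (2 : ℝ) ^ (n : ℝ) :=
              Real.rpow_le_rpow_of_exponent_le (by norm_num) (by exact_mod_cast h)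
            gcongr
          exact ⟨N, le_rfl, this.trans hn1, by linarith⟩
      refine (hanti2 _ _ (hwdv m) hm1).trans ((hd m hm).trans ?_)
      have hmpos := hwdpos m
      have h3 : wd N / wd m ≤ 2 * (wd N / w) := by
        rw [← mul_div_assoc, div_le_div_iff₀ hmpos hwpos]
        nlinarith
      calc (wd N / wd m) ^ 3 * r1 N ≤ (2 * (wd N / w)) ^ 3 * r1 N := by gcongr
        _ = _ := by ring
    refine ⟨hb01, hwd0 N, by rw [← hr1N]; exact hr1Npos, ?_, ?_, ?_, ?_⟩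
    · intro w hw
      rw [← hr1N]
      exact large (rate (gammaMeasure κ r) F1) ha1 (fun n hn => by
        have := (hL n hn).1; rw [er1] at this ⊢; exact this) w hw
    · intro w hw
      rw [← hr1N]
      exact large (rate (gammaMeasure κ r) F1.swap) ha2 (fun n hn => by
        have := (hL n hn).2; rw [er2] at this; exact this) w hw
    · intro w hw1 hw2
      rw [← hr1N]
      exact small (rate (gammaMeasure κ r) F1) ha1 (fun n hn => by
        have := (hS n hn).1; rw [er1] at this ⊢; exact this) w hw1 hw2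
    · intro w hw1 hw2
      rw [← hr1N]
      exact small (rate (gammaMeasure κ r) F1.swap) ha2 (fun n hn => by
        have := (hS n hn).2; rw [er2] at this; exact this) w hw1 hw2
  rcases hsel with h | h
  · refine ⟨F, Or.inl rfl, b0, c, hcpos, fun w hw => hge w (hb0v.trans hw), ?_⟩
    refine hfin F rb ra hrb0 rfl rfl hanti hanti' fun X => ?_
    obtain ⟨N, hN, h1, h2', h3⟩ := h X
    refine ⟨N, hN, fun n hn => ?_, fun n hn => ?_⟩
    · have := h2' n hn
      rw [h1] at this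
      exact this
    · have := h3 n hn
      rw [h1] at this
      exact this
  · refine ⟨F.swap, Or.inr rfl, b0, c, hcpos, fun w hw => hge' w (hb0v.trans hw), ?_⟩
    refine hfin F.swap ra rb hra0 rfl rfl hanti' hanti fun X => ?_
    obtain ⟨N, hN, h1, h2', h3⟩ := h X
    refine ⟨N, hN, fun n hn => ?_, fun n hn => ?_⟩
    · have := h2' n hn
      rw [h1, max_comm] at this
      exact this
    · have := h3 n hn
      rw [h1, max_comm] at this
      exact this

end Crest.Agent.R151.C710
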