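import Mathlib

/-!
R151, S0214 part 2: the pure probability layer of sections 3, 6 and 7 of `P2_v2`.
-/

set_option autoImplicit false

open MeasureTheory ProbabilityTheory Set

namespace Crest.Agent.R151.G338

section min

variable {Ω : Type*} [MeasurableSpace Ω] {μ : Measure Ω}

theorem abs_sub_eq_min (a b : ℝ) : |a - b| = a + b - 2 * min a b := by
  rcases le_total a b with h | h
  · rw [min_eq_left h, abs_of_nonpos (by linarith)]; ring
  · rw [min_eq_right h, abs_of_nonneg (by linarith)]; ring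

/-- (P0') two route costs with the same end points -/
theorem integral_abs_sub_le {V₁ V₂ : Ω → ℝ} (h₁ : Integrable V₁ μ) (h₂ : Integrable V₂ μ)
    (hmin : 0 ≤ ∫ ω, min (V₁ ω) (V₂ ω) ∂μ) :
    ∫ ω, |V₁ ω - V₂ ω| ∂μ ≤ ∫ ω, V₁ ω ∂μ + ∫ ω, V₂ ω ∂μ := by
  have hm : Integrable (fun ω => min (V₁ ω) (V₂ ω)) μ := h₁.inf h₂
  have : ∀ ω, |V₁ ω - V₂ ω| = V₁ ω + V₂ ω - 2 * min (V₁ ω) (V₂ ω) := fun ω => abs_sub_eq_min _ _
  simp_rw [this]
  have e : ∫ ω, (V₁ ω + V₂ ω - 2 * min (V₁ ω) (V₂ ω)) ∂μ =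
      ∫ ω, V₁ ω ∂μ + ∫ ω, V₂ ω ∂μ - 2 * ∫ ω, min (V₁ ω) (V₂ ω) ∂μ := by
    rw [integral_sub (f := fun ω => V₁ ω + V₂ ω) (h₁.add h₂) (hm.const_mul 2),
      integral_add h₁ h₂, integral_const_mul]
  rw [e]
  linarith

/-- A variable `R ≤ V` with `E R ≥ 0` is `L¹`-close to `V`. -/
theorem integral_abs_sub_le_of_le {R V : Ω → ℝ} (hR : Integrable R μ) (hV : Integrable V μ)
    (h : ∀ᵐ ω ∂μ, R ω ≤ V ω) (h0 : 0 ≤ ∫ ω, R ω ∂μ) :
    ∫ ω, |R ω - V ω| ∂μ ≤ ∫ ω, V ω ∂μ := by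
  have : ∫ ω, |R ω - V ω| ∂μ = ∫ ω, (V ω - R ω) ∂μ := by
    apply integral_congr_ae
    filter_upwards [h] with ω hω
    rw [abs_of_nonpos (by linarith)]; ring
  rw [this, integral_sub hV hR]; linarith

/-- `E |X - E Y| ≤ E |X - Y|` for independent `X`, `Y`. -/
theorem integral_abs_sub_integral_le [IsProbabilityMeasure μ] {X Y : Ω → ℝ}
    (hXm : Measurable X) (hYm : Measurable Y) (hX : Integrable X μ) (hY : Integrable Y μ)
    (hind : IndepFun X Y μ) :
    ∫ ω, |X ω - ∫ ω', Y ω' ∂μ| ∂μ ≤ ∫ ω, |X ω - Y ω| ∂μ := by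
  have hmap := (indepFun_iff_map_prod_eq_prod_map_map hXm.aemeasurable hYm.aemeasurable).1 hind
  have : IsProbabilityMeasure (μ.map X) := Measure.isProbabilityMeasure_map hXm.aemeasurable
  have : IsProbabilityMeasure (μ.map Y) := Measure.isProbabilityMeasure_map hYm.aemeasurable
  have hYi : Integrable (fun y : ℝ => y) (μ.map Y) :=
    (integrable_map_measure (by fun_prop) hYm.aemeasurable).2 hY
  have hXi : Integrable (fun y : ℝ => y) (μ.map X) :=
    (integrable_map_measure (by fun_prop) hXm.aemeasurable).2 hX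
  have e1 : ∫ ω', Y ω' ∂μ = ∫ y, y ∂(μ.map Y) :=
    (integral_map hYm.aemeasurable (f := fun y : ℝ => y) (by fun_prop)).symm
  have e2 : ∫ ω, |X ω - ∫ ω', Y ω' ∂μ| ∂μ = ∫ x, |x - ∫ y, y ∂(μ.map Y)| ∂(μ.map X) := by
    rw [e1]
    exact (integral_map hXm.aemeasurable (f := fun x : ℝ => |x - ∫ y, y ∂(μ.map Y)|)
      (by fun_prop)).symm
  have e3 : ∫ ω, |X ω - Y ω| ∂μ = ∫ z : ℝ × ℝ, |z.1 - z.2| ∂((μ.map X).prod (μ.map Y)) := by
    rw [← hmap]
    exact (integral_map (hXm.prodMk hYm).aemeasurable (f := fun z : ℝ × ℝ => |z.1 - z.2|)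
      (by fun_prop)).symm
  have hint : Integrable (fun z : ℝ × ℝ => |z.1 - z.2|) ((μ.map X).prod (μ.map Y)) := by
    rw [← hmap, integrable_map_measure (by fun_prop) (hXm.prodMk hYm).aemeasurable]
    exact (hX.sub hY).abs
  rw [e2, e3, integral_prod _ hint]
  refine integral_mono_of_nonneg (Filter.Eventually.of_forall fun _ => abs_nonneg _)
    hint.integral_prod_left (Filter.Eventually.of_forall fun x => ?_)
  have : x - ∫ y, y ∂(μ.map Y) = ∫ y, (x - y) ∂(μ.map Y) := by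
    rw [integral_sub (integrable_const x) hYi]; simp
  simp only
  rw [this]
  simpa [Real.norm_eq_abs] using norm_integral_le_integral_norm (μ := μ.map Y) (fun y : ℝ => x - y)

end min

section shift

variable {Ω : Type*} [MeasurableSpace Ω] {μ : Measure Ω} [IsProbabilityMeasure μ]

/-- Section 3, abstract: if a modification of the environment changes the law of `X` by at most
`τ` in total variation but adds at least `2s` to `X` outside an event of probability `e`, then `X`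
is not concentrated near `0`. -/
theorem one_le_of_shift {X X' : Ω → ℝ} (hX : Measurable X)
    {s τ e : ℝ}
    (hτ : μ.real {ω | s ≤ X' ω} ≤ μ.real {ω | s ≤ X ω} + τ)
    (he : μ.real {ω | X' ω < X ω + 2 * s} ≤ e) :
    (1 - τ - e) / 2 ≤ μ.real {ω | s ≤ |X ω|} := by
  have h1 : {ω | |X ω| < s} ⊆ {ω | s ≤ X' ω} ∪ {ω | X' ω < X ω + 2 * s} := by
    intro ω hω
    by_cases h : X' ω < X ω + 2 * s
    · exact Or.inr h
    · left
      have := (abs_lt.1 (show |X ω| < s from hω)).1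
      push Not at h
      show s ≤ X' ω
      linarith
  have h2 : μ.real {ω | |X ω| < s} ≤ μ.real {ω | s ≤ X' ω} + μ.real {ω | X' ω < X ω + 2 * s} :=
    (measureReal_mono h1).trans (measureReal_union_le _ _)
  have h3 : μ.real {ω | s ≤ X ω} ≤ μ.real {ω | s ≤ |X ω|} :=
    measureReal_mono fun ω (h : s ≤ X ω) => h.trans (le_abs_self _)
  have h4 : μ.real {ω | |X ω| < s} = 1 - μ.real {ω | s ≤ |X ω|} := by
    have : {ω | |X ω| < s} = {ω | s ≤ |X ω|}ᶜ := by ext ω; simp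
    rw [this, probReal_compl_eq_one_sub (measurableSet_le measurable_const hX.abs)]
  linarith

omit [IsProbabilityMeasure μ] in
theorem mul_le_integral_abs {X : Ω → ℝ} (hX : Integrable X μ) (s : ℝ) :
    s * μ.real {ω | s ≤ |X ω|} ≤ ∫ ω, |X ω| ∂μ := by
  have := mul_meas_ge_le_integral_of_nonneg (μ := μ) (f := fun ω => |X ω|)
    (Filter.Eventually.of_forall fun ω => abs_nonneg _) hX.abs s
  exact this

/-- Section 3, abstract conclusion. -/
theorem lower_of_shift {V₁ V₂ V₁' : Ω → ℝ} (m₁ : Measurable V₁) (m₂ : Measurable V₂)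
    (h₁ : Integrable V₁ μ) (h₂ : Integrable V₂ μ)
    (hmin : 0 ≤ ∫ ω, min (V₁ ω) (V₂ ω) ∂μ) {s τ e : ℝ} (hs : 0 ≤ s)
    (hτ : μ.real {ω | s ≤ V₁' ω - V₂ ω} ≤ μ.real {ω | s ≤ V₁ ω - V₂ ω} + τ)
    (he : μ.real {ω | V₁' ω < V₁ ω + 2 * s} ≤ e) :
    s * ((1 - τ - e) / 2) ≤ ∫ ω, V₁ ω ∂μ + ∫ ω, V₂ ω ∂μ := by
  have h := one_le_of_shift (μ := μ) (X := fun ω => V₁ ω - V₂ ω) (X' := fun ω => V₁' ω - V₂ ω)
    (m₁.sub m₂) (s := s) (τ := τ) (e := e) hτ (by
      refine le_trans (measureReal_mono ?_) he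
      intro ω (hω : V₁' ω - V₂ ω < V₁ ω - V₂ ω + 2 * s)
      show V₁' ω < V₁ ω + 2 * s
      linarith)
  calc s * ((1 - τ - e) / 2) ≤ s * μ.real {ω | s ≤ |V₁ ω - V₂ ω|} :=
        mul_le_mul_of_nonneg_left h hs
    _ ≤ ∫ ω, |V₁ ω - V₂ ω| ∂μ := mul_le_integral_abs (h₁.sub h₂) s
    _ ≤ _ := integral_abs_sub_le h₁ h₂ hmin

end shift

section ball

/-! ### Section 7: log-concave survival functions -/

/-- `G` is log-concave (multiplicative form). -/
def LogConc (G : ℝ → ℝ) : Prop :=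
  ∀ x y θ : ℝ, 0 ≤ θ → θ ≤ 1 → G x ^ (1 - θ) * G y ^ θ ≤ G ((1 - θ) * x + θ * y)

theorem LogConc.comp_add {G : ℝ → ℝ} (h : LogConc G) (c : ℝ) : LogConc fun x => G (x + c) := by
  intro x y θ h0 h1
  have := h (x + c) (y + c) θ h0 h1
  have e : (1 - θ) * (x + c) + θ * (y + c) = (1 - θ) * x + θ * y + c := by ring
  rw [e] at this
  exact this

/-- (7.1): `G(-A) ≥ 1 - e`, `G(t) ≥ q` imply `1 - G(κ t) ≤ e + (κ + A / t) log (1 / q)`. -/
theorem LogConc.small_ball {G : ℝ → ℝ} (h : LogConc G) {A t q e κ : ℝ} (hA : 0 ≤ A) (ht : 0 < t)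
    (hq : 0 < q) (hq1 : q ≤ 1) (he1 : e ≤ 1) (he0 : 0 ≤ e) (hκ0 : 0 ≤ κ) (hκ : κ ≤ 1)
    (h1 : 1 - e ≤ G (-A)) (h2 : q ≤ G t) :
    1 - G (κ * t) ≤ e + (κ + A / t) * Real.log (1 / q) := by
  have htA : 0 < t + A := by linarith
  set θ : ℝ := (κ * t + A) / (t + A) with hθ
  have hθ0 : 0 ≤ θ := by positivity
  have hθ1 : θ ≤ 1 := by
    rw [hθ, div_le_one htA]; nlinarith
  have hx : (1 - θ) * (-A) + θ * t = κ * t := by
    rw [hθ]; field_simp; ring
  have key := h (-A) t θ hθ0 hθ1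
  rw [hx] at key
  have hθκ : θ ≤ κ + A / t := by
    rw [hθ, div_le_iff₀ htA]
    have : (κ + A / t) * (t + A) = κ * t + κ * A + A + A * A / t := by field_simp; ring
    rw [this]
    have h3 : 0 ≤ κ * A := mul_nonneg hκ0 hA
    have h4 : 0 ≤ A * A / t := by positivity
    linarith
  have hlog : 0 ≤ Real.log (1 / q) := Real.log_nonneg (by rw [le_div_iff₀ hq]; linarith)
  have hqθ : 1 - θ * Real.log (1 / q) ≤ q ^ θ := by
    rw [Real.rpow_def_of_pos hq]
    have := Real.add_one_le_exp (Real.log q * θ)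
    have e1 : Real.log (1 / q) = - Real.log q := by rw [one_div, Real.log_inv]
    rw [e1]; linarith
  have h1e : (1 - e) ≤ (1 - e) ^ (1 - θ) := by
    rcases eq_or_lt_of_le he1 with h' | h'
    · rw [h']; simp; positivity
    · exact Real.self_le_rpow_of_le_one (by linarith) (by linarith) (by linarith)
  have hprod : (1 - e) * q ^ θ ≤ G (κ * t) := by
    refine le_trans ?_ key
    have a1 : (1 - e) ^ (1 - θ) ≤ G (-A) ^ (1 - θ) :=
      Real.rpow_le_rpow (by linarith) h1 (by linarith)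
    have a2 : q ^ θ ≤ G t ^ θ := Real.rpow_le_rpow hq.le h2 hθ0
    exact mul_le_mul (h1e.trans a1) a2 (by positivity)
      (Real.rpow_nonneg (le_trans (by linarith) h1) _)
  have hq1' : q ^ θ ≤ 1 := Real.rpow_le_one hq.le hq1 hθ0
  have : 1 - (1 - e) * q ^ θ ≤ e + θ * Real.log (1 / q) := by
    nlinarith
  have h5 : θ * Real.log (1 / q) ≤ (κ + A / t) * Real.log (1 / q) :=
    mul_le_mul_of_nonneg_right hθκ hlog
  linarith

/-- (7.2): `G(-A) ≥ 1 - e`, `G(t) ≤ 1 - q` with `2 e ≤ q`, `A ≤ t` imply exponential decay. -/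
theorem LogConc.decay {G : ℝ → ℝ} (h : LogConc G) (hG : ∀ x, 0 ≤ G x) {A t q e n : ℝ}
    (hA : 0 ≤ A) (ht : 0 < t) (hAt : A ≤ t)
    (hq0 : 0 < q) (hq1 : q ≤ 1) (he0 : 0 ≤ e) (heq : 2 * e ≤ q) (hn : 1 ≤ n)
    (h1 : 1 - e ≤ G (-A)) (h2 : G t ≤ 1 - q) :
    G (n * t) ≤ (1 - q / 2) ^ (n / 2) := by
  have hnt : 0 < n * t + A := by nlinarith
  set θ : ℝ := (t + A) / (n * t + A) with hθ
  have hθ0 : 0 < θ := by positivity
  have hθ1 : θ ≤ 1 := by
    rw [hθ, div_le_one hnt]; nlinarith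
  have hx : (1 - θ) * (-A) + θ * (n * t) = t := by
    rw [hθ]; field_simp; ring
  have key := h (-A) (n * t) θ hθ0.le hθ1
  rw [hx] at key
  have he1 : 0 < 1 - e := by linarith
  have h1e : (1 - e) ≤ (1 - e) ^ (1 - θ) :=
    Real.self_le_rpow_of_le_one he1.le (by linarith) (by linarith)
  have a1 : (1 - e) ^ (1 - θ) ≤ G (-A) ^ (1 - θ) := Real.rpow_le_rpow he1.le h1 (by linarith)
  have hk : (1 - e) * G (n * t) ^ θ ≤ 1 - q :=
    ((mul_le_mul_of_nonneg_right (h1e.trans a1) (Real.rpow_nonneg (hG _) _)).trans key).trans h2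
  have hk2 : G (n * t) ^ θ ≤ 1 - q / 2 := by
    have : (1 - e) * (1 - q / 2) ≥ 1 - q := by nlinarith
    by_contra hc
    push Not at hc
    have := mul_lt_mul_of_pos_left hc he1
    linarith
  have hθ2 : n / 2 ≤ 1 / θ := by
    rw [hθ, one_div_div, div_le_div_iff₀ (by norm_num) (by linarith)]
    nlinarith
  have hq2 : 0 < 1 - q / 2 := by linarith
  calc G (n * t) = (G (n * t) ^ θ) ^ (1 / θ) := by
        rw [← Real.rpow_mul (hG _), mul_one_div_cancel hθ0.ne', Real.rpow_one]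
    _ ≤ (1 - q / 2) ^ (1 / θ) :=
        Real.rpow_le_rpow (Real.rpow_nonneg (hG _) _) hk2 (by positivity)
    _ ≤ (1 - q / 2) ^ (n / 2) :=
        Real.rpow_le_rpow_of_exponent_ge hq2 (by linarith) hθ2

end ball

end Crest.Agent.R151.G338
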