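import Crest.Agent.R151.V8
import Crest.Agent.R151.A565a
import Crest.Agent.R151.G338a

/-!
# R151, block V12 (helper52): conditioning on a (random) set of edges, Fubini form

`glue E s t` = `s` on `E`, `t` off `E`. If `s`, `t` are independent environments and `E` is
deterministic given an independent parameter `q`, then `glue (E q) s t` is an environment
independent of `q`: `E [f | s on E] = ∫ f (glue E s t) dt`.
-/

set_option autoImplicit false
set_option linter.unusedSectionVars false

open MeasureTheory ProbabilityTheory Set Filter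
open scoped ENNReal Topology
open Crest.ProbabilityR.FirstPassage

namespace Crest.Agent.R151.V

section glue

variable {I : Type*} {X : Type*} [MeasurableSpace X] (G : Measure X) [IsProbabilityMeasure G]

open Classical in
/-- `s` on `E`, `t` off `E` -/
noncomputable def glue (E : Set I) (s t : I → X) : I → X := fun i => if i ∈ E then s i else t i

lemma glue_of_mem {E : Set I} {i : I} (h : i ∈ E) (s t : I → X) : glue E s t i = s i := by
  simp [glue, h]

lemma glue_of_notMem {E : Set I} {i : I} (h : i ∉ E) (s t : I → X) : glue E s t i = t i := by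
  simp [glue, h]

@[simp] lemma glue_self (E : Set I) (s : I → X) : glue E s s = s := by
  funext i; by_cases h : i ∈ E <;> simp [glue, h]

lemma glue_nonneg {E : Set I} {s t : I → ℝ} (hs : ∀ i, 0 ≤ s i) (ht : ∀ i, 0 ≤ t i) (i : I) :
    0 ≤ glue E s t i := by
  by_cases h : i ∈ E
  · rw [glue_of_mem h]; exact hs i
  · rw [glue_of_notMem h]; exact ht i

lemma measurable_glue (E : Set I) : Measurable fun p : (I → X) × (I → X) => glue E p.1 p.2 := by
  rw [measurable_pi_iff]
  intro i
  by_cases h : i ∈ E
  · simp only [glue, h, if_true]; fun_prop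
  · simp only [glue, h, if_false]; fun_prop

/-- random set version -/
lemma measurable_glue_rand {Q : Type*} [MeasurableSpace Q] {E : Q → Set I}
    (hE : ∀ i, MeasurableSet {q | i ∈ E q}) :
    Measurable fun p : (Q × (I → X)) × (I → X) => glue (E p.1.1) p.1.2 p.2 := by
  classical
  rw [measurable_pi_iff]
  intro i
  have : (fun p : (Q × (I → X)) × (I → X) => glue (E p.1.1) p.1.2 p.2 i) =
      fun p => if p.1.1 ∈ {q | i ∈ E q} then p.1.2 i else p.2 i := by
    funext p
    simp only [glue, Set.mem_ofPred_eq]
  rw [this]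
  exact Measurable.ite ((measurable_fst.comp measurable_fst) (hE i)) (by fun_prop) (by fun_prop)

theorem mp_glue (E : Set I) : MeasurePreserving (fun p : (I → X) × (I → X) => glue E p.1 p.2)
    ((Measure.infinitePi fun _ : I => G).prod (Measure.infinitePi fun _ : I => G))
    (Measure.infinitePi fun _ : I => G) := by
  classical
  refine ⟨measurable_glue E, ?_⟩
  have hz : Measurable (fun (p : (I → X) × (I → X)) i => (p.1 i, p.2 i)) := by
    rw [measurable_pi_iff]
    intro i
    fun_prop
  have hf : ∀ i : I, Measurable (fun p : X × X => if i ∈ E then p.1 else p.2) := by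
    intro i
    by_cases hi : i ∈ E
    · simp only [hi, if_true]; exact measurable_fst
    · simp only [hi, if_false]; exact measurable_snd
  have hF : Measurable (fun (x : I → X × X) i => if i ∈ E then (x i).1 else (x i).2) := by
    rw [measurable_pi_iff]
    intro i
    exact (hf i).comp (measurable_pi_apply i)
  have e1 := Measure.infinitePi_map_pi (fun _ : I => G.prod G)
      (f := fun i p => if i ∈ E then p.1 else p.2) hf
  have e2 : (fun p : (I → X) × (I → X) => glue E p.1 p.2) =
      (fun (x : I → X × X) i => if i ∈ E then (x i).1 else (x i).2) ∘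
        (fun (p : (I → X) × (I → X)) i => (p.1 i, p.2 i)) := by
    funext p i
    simp [glue]
  rw [e2, ← Measure.map_map hF hz, map_zip G G]
  refine e1.trans ?_
  have e3 : ∀ i : I, (G.prod G).map (fun p : X × X => if i ∈ E then p.1 else p.2) = G := by
    intro i
    by_cases hi : i ∈ E
    · simp only [hi, if_true]
      exact Measure.map_fst_prod.trans (by simp)
    · simp only [hi, if_false]
      exact Measure.map_snd_prod.trans (by simp)
  simp_rw [e3]

variable {Q : Type*} [MeasurableSpace Q] (ν : Measure Q) [IsProbabilityMeasure ν]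

/-- random set version: `((q, s), t) ↦ (q, glue (E q) s t)` preserves `ν ⊗ μ`. -/
theorem mp_glue_rand {E : Q → Set I} (hE : ∀ i, MeasurableSet {q | i ∈ E q}) :
    MeasurePreserving (fun p : (Q × (I → X)) × (I → X) => (p.1.1, glue (E p.1.1) p.1.2 p.2))
      ((ν.prod (Measure.infinitePi fun _ : I => G)).prod (Measure.infinitePi fun _ : I => G))
      (ν.prod (Measure.infinitePi fun _ : I => G)) := by
  set μ := Measure.infinitePi fun _ : I => G with hμ
  have hm : Measurable (fun p : (Q × (I → X)) × (I → X) => (p.1.1, glue (E p.1.1) p.1.2 p.2)) :=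
    (measurable_fst.comp measurable_fst).prodMk (measurable_glue_rand hE)
  refine ⟨hm, ?_⟩
  ext A hA
  rw [Measure.map_apply hm hA, Measure.prod_apply (hm hA), Measure.prod_apply hA,
    lintegral_prod _ (measurable_measure_prodMk_left (hm hA)).aemeasurable]
  apply lintegral_congr
  intro q
  have h1 := (mp_glue G (E q)).measure_preimage
    (s := Prod.mk q ⁻¹' A) (measurable_prodMk_left hA).nullMeasurableSet
  rw [← h1, Measure.prod_apply ((measurable_glue (E q)) (measurable_prodMk_left hA))]
  rfl

/-- Fubini form of the conditional expectation, nonnegative functions -/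
theorem lintegral_glue_rand {E : Q → Set I} (hE : ∀ i, MeasurableSet {q | i ∈ E q})
    {f : Q × (I → X) → ℝ≥0∞} (hf : Measurable f) :
    ∫⁻ p, ∫⁻ t, f (p.1, glue (E p.1) p.2 t) ∂(Measure.infinitePi fun _ : I => G)
      ∂(ν.prod (Measure.infinitePi fun _ : I => G)) =
      ∫⁻ p, f p ∂(ν.prod (Measure.infinitePi fun _ : I => G)) := by
  have hmp := mp_glue_rand G ν hE
  rw [← hmp.lintegral_comp hf]
  exact (lintegral_prod _ (hf.comp hmp.measurable).aemeasurable).symm

theorem integrable_glue_rand {E : Q → Set I} (hE : ∀ i, MeasurableSet {q | i ∈ E q})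
    {f : Q × (I → X) → ℝ} (hf : Integrable f (ν.prod (Measure.infinitePi fun _ : I => G))) :
    Integrable (fun p : (Q × (I → X)) × (I → X) => f (p.1.1, glue (E p.1.1) p.1.2 p.2))
      ((ν.prod (Measure.infinitePi fun _ : I => G)).prod (Measure.infinitePi fun _ : I => G)) :=
  (mp_glue_rand G ν hE).integrable_comp_of_integrable hf

/-- Fubini form of the conditional expectation, integrable functions -/
theorem integral_glue_rand {E : Q → Set I} (hE : ∀ i, MeasurableSet {q | i ∈ E q})
    {f : Q × (I → X) → ℝ} (hf : Integrable f (ν.prod (Measure.infinitePi fun _ : I => G))) :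
    ∫ p, ∫ t, f (p.1, glue (E p.1) p.2 t) ∂(Measure.infinitePi fun _ : I => G)
      ∂(ν.prod (Measure.infinitePi fun _ : I => G)) =
      ∫ p, f p ∂(ν.prod (Measure.infinitePi fun _ : I => G)) := by
  have hmp := mp_glue_rand G ν hE
  have h1 := integral_prod _ (integrable_glue_rand G ν hE hf)
  have h2 : ∫ p, f (p.1.1, glue (E p.1.1) p.1.2 p.2)
      ∂((ν.prod (Measure.infinitePi fun _ : I => G)).prod (Measure.infinitePi fun _ : I => G)) =
      ∫ p, f p ∂(ν.prod (Measure.infinitePi fun _ : I => G)) := by
    have h3 := integral_map (f := f) hmp.measurable.aemeasurable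
      (by rw [hmp.map_eq]; exact hf.aestronglyMeasurable)
    rw [hmp.map_eq] at h3
    exact h3.symm
  rw [← h2, h1]

theorem ae_glue_rand {E : Q → Set I} (hE : ∀ i, MeasurableSet {q | i ∈ E q})
    {P : Q × (I → X) → Prop} (hP : ∀ᵐ p ∂(ν.prod (Measure.infinitePi fun _ : I => G)), P p) :
    ∀ᵐ p ∂(ν.prod (Measure.infinitePi fun _ : I => G)),
      ∀ᵐ t ∂(Measure.infinitePi fun _ : I => G), P (p.1, glue (E p.1) p.2 t) :=
  Measure.ae_ae_of_ae_prod ((mp_glue_rand G ν hE).quasiMeasurePreserving.ae hP)

end glue

section cond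

variable {G : Measure ℝ} [IsProbabilityMeasure G] {Q : Type*} [MeasurableSpace Q]
  (ν : Measure Q) [IsProbabilityMeasure ν]

/-- for a fixed parameter: conditionally independent functions -/
theorem cond_indep_fixed (E E1 E2 : Set (Sym2 (ℤ × ℤ))) (hd : Disjoint E1 E2)
    {f g : Environment → ℝ} (hf : Measurable f) (hg : Measurable g)
    (hfE : DependsOn f (E ∪ E1)) (hgE : DependsOn g (E ∪ E2)) (s : Environment)
    (hfi : Integrable (fun t => f (glue E s t)) (iidLaw G))
    (hgi : Integrable (fun t => g (glue E s t)) (iidLaw G)) :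
    ∫ t, |f (glue E s t) - ∫ t', g (glue E s t') ∂(iidLaw G)| ∂(iidLaw G) ≤
      ∫ t, |f (glue E s t) - g (glue E s t)| ∂(iidLaw G) := by
  have hm : Measurable fun t : Environment => glue E s t :=
    (measurable_glue E).comp (measurable_const.prodMk measurable_id)
  refine G338.integral_abs_sub_integral_le (hf.comp hm) (hg.comp hm) hfi hgi ?_
  have hdep : ∀ {h : Environment → ℝ} {F : Set (Sym2 (ℤ × ℤ))}, DependsOn h (E ∪ F) →
      DependsOn (fun t => h (glue E s t)) F := by
    intro h F hh t t' htt
    apply hh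
    intro e he
    by_cases heE : e ∈ E
    · rw [glue_of_mem heE, glue_of_mem heE]
    · rw [glue_of_notMem heE, glue_of_notMem heE]
      rcases he with he | he
      · exact absurd he heE
      · exact htt e he
  exact A.indepFun_of_dependsOn G (hf.comp hm) (hg.comp hm) (hdep hfE) (hdep hgE) hd

/-- **R8**: two functions which are conditionally independent given the edges in `E q`:
`E |f - E (g | S)| ≤ E |f - g|`. -/
theorem cond_indep {E E1 E2 : Q → Set (Sym2 (ℤ × ℤ))} (hE : ∀ i, MeasurableSet {q | i ∈ E q})
    (hd : ∀ q, Disjoint (E1 q) (E2 q)) {f g : Q × Environment → ℝ} (hf : Measurable f)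
    (hg : Measurable g) (hfE : ∀ q, DependsOn (fun t => f (q, t)) (E q ∪ E1 q))
    (hgE : ∀ q, DependsOn (fun t => g (q, t)) (E q ∪ E2 q))
    (hfi : Integrable f (ν.prod (iidLaw G))) (hgi : Integrable g (ν.prod (iidLaw G))) :
    ∫ p, ∫ t, |f (p.1, glue (E p.1) p.2 t) - ∫ t', g (p.1, glue (E p.1) p.2 t') ∂(iidLaw G)|
      ∂(iidLaw G) ∂(ν.prod (iidLaw G)) ≤ ∫ p, |f p - g p| ∂(ν.prod (iidLaw G)) := by
  have hfi' := integrable_glue_rand G ν hE hfi
  have hgi' := integrable_glue_rand G ν hE hgi
  have hdi := (hfi.sub hgi).abs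
  have h0 := integral_glue_rand G ν hE hdi
  have e1 : ∀ᵐ p ∂(ν.prod (iidLaw G)), Integrable (fun t => f (p.1, glue (E p.1) p.2 t)) (iidLaw G) :=
    hfi'.prod_right_ae
  have e2 : ∀ᵐ p ∂(ν.prod (iidLaw G)), Integrable (fun t => g (p.1, glue (E p.1) p.2 t)) (iidLaw G) :=
    hgi'.prod_right_ae
  change ∫ p, ∫ t, |f (p.1, glue (E p.1) p.2 t) - g (p.1, glue (E p.1) p.2 t)| ∂(iidLaw G)
    ∂(ν.prod (iidLaw G)) = ∫ p, |f p - g p| ∂(ν.prod (iidLaw G)) at h0
  rw [← h0]
  have hdi' := integrable_glue_rand G ν hE hdi
  apply integral_mono_of_nonneg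
  · exact Eventually.of_forall fun p => integral_nonneg fun t => abs_nonneg _
  · exact hdi'.integral_prod_left
  · filter_upwards [e1, e2] with p h1 h2
    exact cond_indep_fixed (E p.1) (E1 p.1) (E2 p.1) (hd p.1)
      (hf.comp (measurable_prodMk_left (x := p.1))) (hg.comp (measurable_prodMk_left (x := p.1)))
      (hfE p.1) (hgE p.1) p.2 h1 h2

/-- the conditional expectation `ρ` is measurable -/
lemma measurable_cond {E : Q → Set (Sym2 (ℤ × ℤ))} (hE : ∀ i, MeasurableSet {q | i ∈ E q})
    {g : Q × Environment → ℝ} (hg : Measurable g) :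
    Measurable fun p : Q × Environment => ∫ t, g (p.1, glue (E p.1) p.2 t) ∂(iidLaw G) := by
  have h1 : Measurable (fun p : (Q × Environment) × Environment =>
      g (p.1.1, glue (E p.1.1) p.1.2 p.2)) :=
    hg.comp ((measurable_fst.comp measurable_fst).prodMk (measurable_glue_rand hE))
  exact h1.stronglyMeasurable.integral_prod_right.measurable

/-- conditional probabilities are measurable -/
lemma measurable_cond_prob {E : Q → Set (Sym2 (ℤ × ℤ))} (hE : ∀ i, MeasurableSet {q | i ∈ E q})
    {A : Set (Q × Environment)} (hA : MeasurableSet A) :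
    Measurable fun p : Q × Environment =>
      (iidLaw G) {t | (p.1, glue (E p.1) p.2 t) ∈ A} := by
  have h1 : Measurable (fun p : (Q × Environment) × Environment =>
      (p.1.1, glue (E p.1.1) p.1.2 p.2)) :=
    (measurable_fst.comp measurable_fst).prodMk (measurable_glue_rand hE)
  exact measurable_measure_prodMk_left (h1 hA)

/-- Markov: the set of strip environments for which a conditional expectation is large -/
theorem markov_cond {E : Q → Set (Sym2 (ℤ × ℤ))} (hE : ∀ i, MeasurableSet {q | i ∈ E q})
    {f : Q × Environment → ℝ≥0∞} (hf : Measurable f) {c : ℝ≥0∞} (hc0 : c ≠ 0) (hc : c ≠ ∞) :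
    (ν.prod (iidLaw G)) {p | c ≤ ∫⁻ t, f (p.1, glue (E p.1) p.2 t) ∂(iidLaw G)} ≤
      (∫⁻ p, f p ∂(ν.prod (iidLaw G))) / c := by
  have h1 : Measurable (fun p : (Q × Environment) × Environment =>
      f (p.1.1, glue (E p.1.1) p.1.2 p.2)) :=
    hf.comp ((measurable_fst.comp measurable_fst).prodMk (measurable_glue_rand hE))
  have h2 := meas_ge_le_lintegral_div (μ := ν.prod (iidLaw G))
    (f := fun p : Q × Environment => ∫⁻ t, f (p.1, glue (E p.1) p.2 t) ∂(iidLaw G))
    h1.lintegral_prod_right'.aemeasurable hc0 hc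
  have h3 := lintegral_glue_rand G ν hE hf
  change ∫⁻ p, ∫⁻ t, f (p.1, glue (E p.1) p.2 t) ∂(iidLaw G) ∂(ν.prod (iidLaw G)) = _ at h3
  rw [h3] at h2
  exact h2

end cond

end Crest.Agent.R151.V
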