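import Crest.Agent.R151.Q2
import Crest.Agent.R151.R78E
import Crest.Agent.R151.R78P

/-!
# R151 (S0214 part 2): ROW LAW, definitions, measurability (helper338)

For a system of highways `h : Hwy F`, a displacement `d` (base point of the upper highway relative
to the base point of the lower one), phases `φ = (u, u')`:
* `rg F I θ` : vertices with `al ∈ I`;
* `h.Lo θ t φ`, `h.Up d θ t φ` : the two highways of the row;
* `h.hk d I s s' θ t φ` : hull kernel (`R78.hull`), labels relative to the own base points;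
* `h.hkY`, `h.gK`, `h.gY` : excess form, full plane kernel `R78.gapK` and its excess form;
* `h.sk d I J L s s'` : `R#`, gauge = hull over the window `J` from label `-L` to label `L`.
-/

set_option autoImplicit false
set_option linter.unusedSectionVars false

open MeasureTheory Filter ProbabilityTheory Topology
open Crest.ProbabilityR.FirstPassage

namespace Crest.Agent.R151

namespace G338

/-- measurability of an infimum over a countable random index set -/
theorem measurable_sInf_aux {ι α Ω : Type*} [Countable ι] [ConditionallyCompleteLinearOrder α]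
    [TopologicalSpace α] [OrderTopology α] [SecondCountableTopology α] [MeasurableSpace α]
    [BorelSpace α] [MeasurableSpace Ω] {P : ι → Ω → Prop} (hP : ∀ i, MeasurableSet {ω | P i ω})
    {f : ι → Ω → α} (hf : ∀ i, Measurable (f i)) :
    Measurable fun ω => sInf {c | ∃ i, P i ω ∧ c = f i ω} := by
  classical
  intro s hs
  have hset : (fun ω => sInf {c | ∃ i, P i ω ∧ c = f i ω}) ⁻¹' s =
      (⋃ i0, ({ω | P i0 ω} ∩ (fun ω => ⨅ i, if P i ω then f i ω else f i0 ω) ⁻¹' s)) ∪
        ((⋃ i0, {ω | P i0 ω})ᶜ ∩ {_ω | sInf (∅ : Set α) ∈ s}) := by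
    ext ω
    simp only [Set.mem_preimage, Set.mem_union, Set.mem_iUnion, Set.mem_inter_iff,
      Set.mem_compl_iff, not_exists]
    have key : ∀ i0, P i0 ω → sInf {c | ∃ i, P i ω ∧ c = f i ω} =
        ⨅ i, if P i ω then f i ω else f i0 ω := by
      intro i0 hi0
      unfold iInf
      congr 1
      ext c
      constructor
      · rintro ⟨i, hi, rfl⟩
        exact ⟨i, by simp [hi]⟩
      · rintro ⟨i, hi⟩
        simp only at hi
        by_cases h : P i ω
        · rw [if_pos h] at hi; exact ⟨i, h, hi.symm⟩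
        · rw [if_neg h] at hi; exact ⟨i0, hi0, hi.symm⟩
    constructor
    · intro h
      by_cases hne : ∃ i0, P i0 ω
      · obtain ⟨i0, hi0⟩ := hne
        left
        refine ⟨i0, hi0, ?_⟩
        rw [← key i0 hi0]; exact h
      · right
        push Not at hne
        refine ⟨hne, ?_⟩
        have : {c | ∃ i, P i ω ∧ c = f i ω} = (∅ : Set α) := by
          ext c; simp [hne]
        rw [this] at h
        exact h
    · rintro (⟨i0, hi0, h⟩ | ⟨hne, h⟩)
      · rw [key i0 hi0]; exact h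
      · have : {c | ∃ i, P i ω ∧ c = f i ω} = (∅ : Set α) := by
          ext c
          simp only [Set.mem_ofPred_eq, Set.mem_empty_iff_false, iff_false, not_exists, not_and]
          intro i hi
          exact absurd hi (hne i)
        rw [this]; exact h
  rw [hset]
  refine MeasurableSet.union (MeasurableSet.iUnion fun i0 => (hP i0).inter ?_)
    ((MeasurableSet.iUnion hP).compl.inter (by measurability))
  have : Measurable fun ω => ⨅ i, if P i ω then f i ω else f i0 ω :=
    Measurable.iInf fun i => Measurable.ite (hP i) (hf i) (hf i0)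
  exact this hs

end G338

namespace Q

open K R78 B710 G338

variable {μ : ℝ × ℝ → ℝ}

/-- vertices whose `al`-coordinate is in `I` -/
def rg (F : FlatData μ) (I : Set ℝ) (θ : ℝ × ℝ) : Set (ℤ × ℤ) := {z | F.al (pos θ z) ∈ I}

namespace Hwy

variable {F : FlatData μ} (h : Hwy F)

/-- lower highway of a row -/
def Lo (θ : ℝ × ℝ) (t : Environment) (φ : ℝ × ℝ) : ℤ → ℤ × ℤ := h.H φ.1 θ t

/-- upper highway of a row (displacement `d`) -/
def Up (d θ : ℝ × ℝ) (t : Environment) (φ : ℝ × ℝ) : ℤ → ℤ × ℤ := h.H φ.2 (θ - d) t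

/-- index of the label `s` on the lower highway -/
noncomputable def iL (s : ℝ) (θ : ℝ × ℝ) (t : Environment) (φ : ℝ × ℝ) : ℤ := h.ix s φ.1 θ t

/-- index of the label `s` on the upper highway -/
noncomputable def iU (d : ℝ × ℝ) (s : ℝ) (θ : ℝ × ℝ) (t : Environment) (φ : ℝ × ℝ) : ℤ :=
  h.ix s φ.2 (θ - d) t

/-- hull kernel of the row with displacement `d`, region `al ∈ I`, labels `s → s'` -/
noncomputable def hk (d : ℝ × ℝ) (I : Set ℝ) (s s' : ℝ) (θ : ℝ × ℝ) (t : Environment)
    (φ : ℝ × ℝ) : ℝ :=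
  hull t (h.Lo θ t φ) (h.Up d θ t φ) (rg F I θ) (h.iL s θ t φ) (h.iU d s' θ t φ)

/-- hull kernel, excess form -/
noncomputable def hkY (d : ℝ × ℝ) (I : Set ℝ) (s s' : ℝ) (θ : ℝ × ℝ) (t : Environment)
    (φ : ℝ × ℝ) : ℝ :=
  hullY t (phi F) (h.Lo θ t φ) (h.Up d θ t φ) (rg F I θ) (h.iL s θ t φ) (h.iU d s' θ t φ)

/-- full plane kernel -/
noncomputable def gK (d : ℝ × ℝ) (s s' : ℝ) (θ : ℝ × ℝ) (t : Environment) (φ : ℝ × ℝ) : ℝ :=
  gapK t (h.Lo θ t φ) (h.Up d θ t φ) (h.iL s θ t φ) (h.iU d s' θ t φ)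

/-- full plane kernel, excess form -/
noncomputable def gY (d : ℝ × ℝ) (s s' : ℝ) (θ : ℝ × ℝ) (t : Environment) (φ : ℝ × ℝ) : ℝ :=
  ptY t (phi F) (h.Lo θ t φ (h.iL s θ t φ)) (h.Up d θ t φ (h.iU d s' θ t φ))

/-- `R#` : hull kernel minus the gauge (hull over the window `J` from label `-L` to label `L`) -/
noncomputable def sk (d : ℝ × ℝ) (I J : Set ℝ) (L s s' : ℝ) (θ : ℝ × ℝ) (t : Environment)
    (φ : ℝ × ℝ) : ℝ :=
  h.hk d I s s' θ t φ - h.hk d J (-L) L θ t φ

lemma al_Up (d θ : ℝ × ℝ) (z : ℤ × ℤ) : F.al (pos (θ - d) z) = F.al (pos θ z) - F.al d := by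
  unfold pos
  rw [← map_sub]
  congr 1
  abel

/-! ### Measurability -/

section meas

variable {Ω : Type*} [MeasurableSpace Ω] {u : Ω → ℝ} {θ : Ω → ℝ × ℝ} {t : Ω → Environment}

/-- the random objects: measurable bi-infinite sequence -/
lemma meas_H (hu : Measurable u) (hθ : Measurable θ) (ht : Measurable t) (k : ℤ) :
    Measurable fun ω => h.H (u ω) (θ ω) (t ω) k :=
  (h.meas k).comp (hu.prodMk (hθ.prodMk ht))

lemma meas_pos (hθ : Measurable θ) {x : Ω → ℤ × ℤ} (hx : Measurable x) :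
    Measurable fun ω => pos (θ ω) (x ω) := by
  unfold pos
  refine Measurable.add ?_ hθ
  have : Measurable (toR) := measurable_of_countable _
  exact this.comp hx

lemma meas_ix (s : ℝ) (hu : Measurable u) (hθ : Measurable θ) (ht : Measurable t) :
    Measurable fun ω => h.ix s (u ω) (θ ω) (t ω) := by
  have e : (fun ω => h.ix s (u ω) (θ ω) (t ω)) = fun ω => sInf {c : ℤ | ∃ k : ℤ,
      s ≤ F.al (pos (θ ω) (h.H (u ω) (θ ω) (t ω) k)) ∧ c = (fun (k : ℤ) (_ : Ω) => k) k ω} := by
    funext ω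
    unfold ix firstGe
    congr 1
    ext c
    simp
  rw [e]
  refine measurable_sInf_aux (fun k => ?_) (fun k => measurable_const)
  refine measurableSet_le measurable_const ?_
  exact F.al.continuous.measurable.comp (meas_pos hθ (h.meas_H hu hθ ht k))

end meas

end Hwy

section meas2

variable {Ω : Type*} [MeasurableSpace Ω]

lemma measurable_edge_at {t : Ω → Environment} {x y : Ω → ℤ × ℤ} (ht : Measurable t)
    (hx : Measurable x) (hy : Measurable y) : Measurable fun ω => t ω s(x ω, y ω) := by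
  have hm : Measurable fun q : ((ℤ × ℤ) × (ℤ × ℤ)) × Environment => q.2 s(q.1.1, q.1.2) := by
    refine measurable_from_prod_countable_right fun m => ?_
    exact (measurable_pi_apply s(m.1, m.2) : Measurable fun t : Environment => t s(m.1, m.2))
  exact hm.comp ((hx.prodMk hy).prodMk ht)

/-- measurability of the cost potential of a random sequence at a fixed index -/
lemma measurable_hc {t : Ω → Environment} {H : Ω → ℤ → ℤ × ℤ} (ht : Measurable t)
    (hH : ∀ k, Measurable fun ω => H ω k) (z : ℤ) : Measurable fun ω => hc (t ω) (H ω) z := by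
  cases z with
  | ofNat n =>
    simp only [hc, stepc]
    exact Finset.measurable_sum _ fun k _ => measurable_edge_at ht (hH _) (hH _)
  | negSucc n =>
    simp only [hc, stepc]
    exact (Finset.measurable_sum _ fun k _ => measurable_edge_at ht (hH _) (hH _)).neg

/-- composition with a random index -/
lemma measurable_at {α : Type*} [MeasurableSpace α] {f : Ω → ℤ → α}
    (hf : ∀ k, Measurable fun ω => f ω k) {i : Ω → ℤ} (hi : Measurable i) :
    Measurable fun ω => f ω (i ω) := by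
  have hm : Measurable fun q : ℤ × Ω => f q.2 q.1 := measurable_from_prod_countable_right hf
  exact hm.comp (hi.prodMk measurable_id)

lemma measurable_walkCost' {t : Ω → Environment} (ht : Measurable t) {x y : ℤ × ℤ}
    (g : squareLattice.Walk x y) : Measurable fun ω => walkCost (t ω) g :=
  (measurable_walkCost g).comp ht

/-- measurability of the hull of two random sequences -/
theorem measurable_hull {t : Ω → Environment} {H H' : Ω → ℤ → ℤ × ℤ} {A : Ω → Set (ℤ × ℤ)}
    {i j : Ω → ℤ} (ht : Measurable t) (hH : ∀ k, Measurable fun ω => H ω k)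
    (hH' : ∀ k, Measurable fun ω => H' ω k) (hA : ∀ v, MeasurableSet {ω | v ∈ A ω})
    (hi : Measurable i) (hj : Measurable j) :
    Measurable fun ω => hull (t ω) (H ω) (H' ω) (A ω) (i ω) (j ω) := by
  classical
  have hmemfin : ∀ (f : Ω → ℤ × ℤ) (_ : Measurable f) (l : List (ℤ × ℤ)),
      MeasurableSet {ω | f ω ∉ l} := by
    intro f hf l
    have : {ω | f ω ∉ l} = f ⁻¹' {v | v ∉ l} := rfl
    rw [this]
    exact hf (Set.to_countable _).measurableSet
  have e : (fun ω => hull (t ω) (H ω) (H' ω) (A ω) (i ω) (j ω)) = fun ω => sInf {c : ℝ |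
      ∃ q : (Σ zw : (ℤ × ℤ) × ((ℤ × ℤ) × (ℤ × ℤ)), squareLattice.Walk zw.2.1 zw.2.2),
        (i ω ≤ q.1.1.1 ∧ q.1.1.2 ≤ j ω ∧ H ω q.1.1.1 = q.1.2.1 ∧ H' ω q.1.1.2 = q.1.2.2 ∧
          (∀ v ∈ q.2.support, v ∈ A ω) ∧ (∀ k, H ω k ∉ q.2.support.tail) ∧
          (∀ k, H' ω k ∉ q.2.support.dropLast)) ∧
        c = hc (t ω) (H ω) q.1.1.1 + walkCost (t ω) q.2 - hc (t ω) (H' ω) q.1.1.2} := by
    funext ω
    unfold hull
    congr 1
    ext c
    constructor
    · rintro ⟨z, w, hz, hw, g, hg, rfl⟩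
      exact ⟨⟨((z, w), (H ω z, H' ω w)), g⟩, ⟨hz, hw, rfl, rfl, hg.sub, hg.fst, hg.snd⟩, rfl⟩
    · rintro ⟨⟨⟨⟨z, w⟩, ⟨p, q⟩⟩, g⟩, ⟨hz, hw, h1, h2, h3, h4, h5⟩, rfl⟩
      simp only at h1 h2 g
      subst h1
      subst h2
      exact ⟨z, w, hz, hw, g, ⟨h3, h4, h5⟩, rfl⟩
  rw [e]
  refine measurable_sInf_aux (fun q => ?_) (fun q => ?_)
  · refine MeasurableSet.inter (measurableSet_le hi measurable_const) ?_
    refine MeasurableSet.inter (measurableSet_le measurable_const hj) ?_
    refine MeasurableSet.inter (measurableSet_eq_fun (hH _) measurable_const) ?_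
    refine MeasurableSet.inter (measurableSet_eq_fun (hH' _) measurable_const) ?_
    refine MeasurableSet.inter ?_ (MeasurableSet.inter ?_ ?_)
    · have : {ω | ∀ v ∈ q.2.support, v ∈ A ω} = ⋂ v ∈ q.2.support, {ω | v ∈ A ω} := by
        ext ω; simp
      show MeasurableSet {ω | ∀ v ∈ q.2.support, v ∈ A ω}
      rw [this]
      exact MeasurableSet.biInter (Set.to_countable {v | v ∈ q.2.support}) fun v _ => hA v
    · show MeasurableSet {ω | ∀ k, H ω k ∉ q.2.support.tail}
      rw [show {ω | ∀ k, H ω k ∉ q.2.support.tail} = ⋂ k, {ω | H ω k ∉ q.2.support.tail} by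
        ext ω; simp]
      exact MeasurableSet.iInter fun k => hmemfin _ (hH k) _
    · show MeasurableSet {ω | ∀ k, H' ω k ∉ q.2.support.dropLast}
      rw [show {ω | ∀ k, H' ω k ∉ q.2.support.dropLast} =
        ⋂ k, {ω | H' ω k ∉ q.2.support.dropLast} by ext ω; simp]
      exact MeasurableSet.iInter fun k => hmemfin _ (hH' k) _
  · exact ((measurable_hc ht hH _).add (measurable_walkCost' ht q.2)).sub (measurable_hc ht hH' _)

end meas2

namespace Hwy

variable {F : FlatData μ} (h : Hwy F)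

section meas3

variable {Ω : Type*} [MeasurableSpace Ω] {θ : Ω → ℝ × ℝ} {t : Ω → Environment} {φ : Ω → ℝ × ℝ}
  (hθ : Measurable θ) (ht : Measurable t) (hφ : Measurable φ)
include hθ ht hφ

lemma meas_Lo (k : ℤ) : Measurable fun ω => h.Lo (θ ω) (t ω) (φ ω) k :=
  h.meas_H (measurable_fst.comp hφ) hθ ht k

lemma meas_Up (d : ℝ × ℝ) (k : ℤ) : Measurable fun ω => h.Up d (θ ω) (t ω) (φ ω) k :=
  h.meas_H (measurable_snd.comp hφ) (hθ.sub_const d) ht k

lemma meas_iL (s : ℝ) : Measurable fun ω => h.iL s (θ ω) (t ω) (φ ω) :=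
  h.meas_ix s (measurable_fst.comp hφ) hθ ht

lemma meas_iU (d : ℝ × ℝ) (s : ℝ) : Measurable fun ω => h.iU d s (θ ω) (t ω) (φ ω) :=
  h.meas_ix s (measurable_snd.comp hφ) (hθ.sub_const d) ht

omit hφ ht in
lemma meas_rg {I : Set ℝ} (hI : MeasurableSet I) (v : ℤ × ℤ) :
    MeasurableSet {ω | v ∈ rg F I (θ ω)} := by
  have : Measurable fun ω => F.al (pos (θ ω) v) :=
    F.al.continuous.measurable.comp (meas_pos hθ measurable_const)
  exact this hI

theorem meas_hk (d : ℝ × ℝ) {I : Set ℝ} (hI : MeasurableSet I) (s s' : ℝ) :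
    Measurable fun ω => h.hk d I s s' (θ ω) (t ω) (φ ω) :=
  measurable_hull ht (h.meas_Lo hθ ht hφ) (h.meas_Up hθ ht hφ d) (meas_rg hθ hI)
    (h.meas_iL hθ ht hφ s) (h.meas_iU hθ ht hφ d s')

lemma meas_hp {H : Ω → ℤ → ℤ × ℤ} (hH : ∀ k, Measurable fun ω => H ω k) {i : Ω → ℤ}
    (hi : Measurable i) : Measurable fun ω => hp (t ω) (phi F) (H ω) (i ω) := by
  unfold hp
  refine (measurable_at (fun k => measurable_hc ht hH k) hi).sub ?_
  have : Measurable (phi F) := measurable_of_countable _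
  exact this.comp (measurable_at hH hi)

theorem meas_hkY (d : ℝ × ℝ) {I : Set ℝ} (hI : MeasurableSet I) (s s' : ℝ) :
    Measurable fun ω => h.hkY d I s s' (θ ω) (t ω) (φ ω) := by
  unfold hkY hullY
  refine ((h.meas_hk hθ ht hφ d hI s s').sub ?_).add ?_
  · exact meas_hp hθ ht hφ (h.meas_Lo hθ ht hφ) (h.meas_iL hθ ht hφ s)
  · exact meas_hp hθ ht hφ (h.meas_Up hθ ht hφ d) (h.meas_iU hθ ht hφ d s')

theorem meas_sk (d : ℝ × ℝ) {I J : Set ℝ} (hI : MeasurableSet I) (hJ : MeasurableSet J)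
    (L s s' : ℝ) : Measurable fun ω => h.sk d I J L s s' (θ ω) (t ω) (φ ω) :=
  (h.meas_hk hθ ht hφ d hI s s').sub (h.meas_hk hθ ht hφ d hJ (-L) L)

lemma meas_pt {x y : Ω → ℤ × ℤ} (hx : Measurable x) (hy : Measurable y) :
    Measurable fun ω => passageTime (t ω) (x ω) (y ω) := by
  have h : Measurable fun q : ((ℤ × ℤ) × (ℤ × ℤ)) × Environment =>
      passageTime q.2 q.1.1 q.1.2 := by
    refine measurable_from_prod_countable_right fun m => ?_
    exact measurable_pt m.1 m.2
  exact h.comp ((hx.prodMk hy).prodMk ht)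

theorem meas_gK (d : ℝ × ℝ) (s s' : ℝ) :
    Measurable fun ω => h.gK d s s' (θ ω) (t ω) (φ ω) := by
  unfold gK gapK
  have hx := measurable_at (h.meas_Lo hθ ht hφ) (h.meas_iL hθ ht hφ s)
  have hy := measurable_at (h.meas_Up hθ ht hφ d) (h.meas_iU hθ ht hφ d s')
  refine ((measurable_at (fun k => measurable_hc ht (h.meas_Lo hθ ht hφ) k)
    (h.meas_iL hθ ht hφ s)).add (meas_pt hθ ht hφ hx hy)).sub ?_
  exact measurable_at (fun k => measurable_hc ht (h.meas_Up hθ ht hφ d) k)
    (h.meas_iU hθ ht hφ d s')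

theorem meas_gY (d : ℝ × ℝ) (s s' : ℝ) :
    Measurable fun ω => h.gY d s s' (θ ω) (t ω) (φ ω) := by
  unfold gY ptY
  have hx := measurable_at (h.meas_Lo hθ ht hφ) (h.meas_iL hθ ht hφ s)
  have hy := measurable_at (h.meas_Up hθ ht hφ d) (h.meas_iU hθ ht hφ d s')
  have hphi : Measurable (phi F) := measurable_of_countable _
  exact (meas_pt hθ ht hφ hx hy).sub ((hphi.comp hy).sub (hphi.comp hx))

end meas3

end Hwy

end Q

end Crest.Agent.R151
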