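import Crest.Agent.R151.Q2

/-!
# R151 / S0214 part 2, Q4 — the principle `E ≥ 0` (P0) (owner helper777)

`CovV X R` : a measurable covariant random vertex `X θ t φ` (offset, environment, phase) at distance
at most `R` from its base point.  With i.i.d. phases,
`μ v ≤ E T(X ξ, X (ξ - v))` and `E (displacement) = v`, hence `0 ≤ E (excess)`.
-/

set_option autoImplicit false

open MeasureTheory Filter ProbabilityTheory Topology
open Crest.ProbabilityR.FirstPassage
open Crest.Agent.R151.K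

namespace Crest.Agent.R151.Q

open B710 (FlatData)

variable {G : Measure ℝ} [IsProbabilityMeasure G] {μ : ℝ × ℝ → ℝ}
variable {Φ Ψ : Type*} [MeasurableSpace Φ] [MeasurableSpace Ψ]

/-- covariant random vertex with phase, at distance at most `R` from its base point -/
structure CovV (X : ℝ × ℝ → Environment → Φ → ℤ × ℤ) (R : ℝ) : Prop where
  meas : Measurable fun q : ((ℝ × ℝ) × Environment) × Φ => X q.1.1 q.1.2 q.2
  cov : ∀ (m : ℤ × ℤ) (θ : ℝ × ℝ) (t : Environment) (φ : Φ),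
    X (θ + toR m) (act (tr m) t) φ = X θ t φ - m
  bdd : ∀ θ t φ, ‖pos θ (X θ t φ)‖ ≤ R

/-- random shift with an independent parameter -/
lemma integral_shift_prod {F : ℝ × ℝ → Environment → Ψ → ℝ} {ν : Measure Ψ}
    [IsProbabilityMeasure ν] (hF : ∀ ψ, Inv fun θ t => F θ t ψ)
    (hm : Measurable fun q : ((ℝ × ℝ) × Environment) × Ψ => F q.1.1 q.1.2 q.2) (v : ℝ × ℝ) :
    ∫ q, F (q.1.1 + v) q.1.2 q.2 ∂((P0 G).prod ν) = ∫ q, F q.1.1 q.1.2 q.2 ∂((P0 G).prod ν) := by
  have hp : MeasurePreserving (Prod.map (S v) (id : Ψ → Ψ)) ((P0 G).prod ν) ((P0 G).prod ν) :=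
    (mp_S v).prod (MeasurePreserving.id ν)
  have h := mp_integral hp (g := fun q => F q.1.1 q.1.2 q.2) hm.aestronglyMeasurable
  rw [← h]
  refine integral_congr_ae (ae_of_all _ fun q => ?_)
  exact (hF q.2).shift v q.1

lemma integrable_shift_prod {F : ℝ × ℝ → Environment → Ψ → ℝ} {ν : Measure Ψ}
    [IsProbabilityMeasure ν] (hF : ∀ ψ, Inv fun θ t => F θ t ψ) (v : ℝ × ℝ)
    (hi : Integrable (fun q : ((ℝ × ℝ) × Environment) × Ψ => F q.1.1 q.1.2 q.2)
      ((P0 G).prod ν)) :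
    Integrable (fun q : ((ℝ × ℝ) × Environment) × Ψ => F (q.1.1 + v) q.1.2 q.2)
      ((P0 G).prod ν) := by
  have hp : MeasurePreserving (Prod.map (S v) (id : Ψ → Ψ)) ((P0 G).prod ν) ((P0 G).prod ν) :=
    (mp_S v).prod (MeasurePreserving.id ν)
  have h := hp.integrable_comp_of_integrable hi
  refine h.congr (ae_of_all _ fun q => ?_)
  exact ((hF q.2).shift v q.1).symm

/-- vertices near the base point are in a fixed box -/
lemma mem_box_of_pos {ξ v : ℝ × ℝ} (hξ : ξ ∈ Set.Ico (0 : ℝ) 1 ×ˢ Set.Ico (0 : ℝ) 1) {R : ℝ}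
    {z : ℤ × ℤ} (h : ‖pos (ξ - v) z‖ ≤ R) {N : ℕ} (hN : R + ‖v‖ + 1 ≤ N) : z ∈ box N := by
  obtain ⟨⟨h1, h2⟩, ⟨h3, h4⟩⟩ := hξ
  have ha : |(z.1 : ℝ) + (ξ.1 - v.1)| ≤ R := (norm_fst_le _).trans h
  have hb : |(z.2 : ℝ) + (ξ.2 - v.2)| ≤ R := (norm_snd_le _).trans h
  have hva : |v.1| ≤ ‖v‖ := norm_fst_le v
  have hvb : |v.2| ≤ ‖v‖ := norm_snd_le v
  rw [abs_le] at ha hb hva hvb
  rw [mem_box]
  have e1 : (z.1 : ℝ) ≤ N := by linarith
  have e2 : -(N : ℝ) ≤ z.1 := by linarith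
  have e3 : (z.2 : ℝ) ≤ N := by linarith
  have e4 : -(N : ℝ) ≤ z.2 := by linarith
  refine ⟨⟨?_, ?_⟩, ⟨?_, ?_⟩⟩
  · exact_mod_cast e2
  · exact_mod_cast e1
  · exact_mod_cast e4
  · exact_mod_cast e3

/-- a crude bound for all the passage times in a box -/
noncomputable def BB (N : ℕ) (t : Environment) : ℝ :=
  ∑ z ∈ box N, ∑ z' ∈ box N, passageTime t z z'

lemma le_BB {t : Environment} (ht : Nn t) {N : ℕ} {z z' : ℤ × ℤ} (hz : z ∈ box N)
    (hz' : z' ∈ box N) : passageTime t z z' ≤ BB N t := by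
  unfold BB
  refine le_trans ?_ (Finset.single_le_sum (f := fun z => ∑ z' ∈ box N, passageTime t z z')
    (fun z _ => Finset.sum_nonneg fun z' _ => pt_nonneg ht z z') hz)
  exact Finset.single_le_sum (f := fun z' => passageTime t z z')
    (fun z' _ => pt_nonneg ht z z') hz'

lemma BB_nonneg {t : Environment} (ht : Nn t) (N : ℕ) : 0 ≤ BB N t :=
  Finset.sum_nonneg fun z _ => Finset.sum_nonneg fun z' _ => pt_nonneg ht z z'

lemma measurable_ptr {α : Type*} [MeasurableSpace α] {T : α → Environment} {x y : α → ℤ × ℤ}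
    (hT : Measurable T) (hx : Measurable x) (hy : Measurable y) :
    Measurable fun a => passageTime (T a) (x a) (y a) := by
  have h : Measurable fun q : ((ℤ × ℤ) × (ℤ × ℤ)) × Environment =>
      passageTime q.2 q.1.1 q.1.2 := by
    refine measurable_from_prod_countable_right fun m => ?_
    exact measurable_pt m.1 m.2
  exact h.comp ((hx.prodMk hy).prodMk hT)

section

variable (h0 : G (Set.Iio 0) = 0) (h2 : Integrable (fun x : ℝ => x ^ 2) G)
include h0 h2

lemma integrable_BB (N : ℕ) : Integrable (BB N) (iidLaw G) := by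
  unfold BB
  exact integrable_finsetSum _ fun z _ => integrable_finsetSum _ fun z' _ =>
    integrable_pt h0 h2 z z'

omit h2 in
lemma ae_P0_Nn {ν : Measure Ψ} [SFinite ν] :
    ∀ᵐ q ∂((P0 G).prod ν), Nn q.1.2 ∧ q.1.1 ∈ Set.Ico (0 : ℝ) 1 ×ˢ Set.Ico (0 : ℝ) 1 := by
  have h1 : ∀ᵐ p ∂(P0 G), Nn p.2 ∧ p.1 ∈ Set.Ico (0 : ℝ) 1 ×ˢ Set.Ico (0 : ℝ) 1 := by
    have ha : ∀ᵐ p ∂(P0 G), Nn p.2 := by
      unfold P0
      exact (Measure.quasiMeasurePreserving_snd (μ := UU2) (ν := iidLaw G)).ae (ae_Nn h0)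
    have hb : ∀ᵐ p ∂(P0 G), p.1 ∈ Set.Ico (0 : ℝ) 1 ×ˢ Set.Ico (0 : ℝ) 1 := by
      unfold P0
      exact (Measure.quasiMeasurePreserving_fst (μ := UU2) (ν := iidLaw G)).ae ae_UU2
    filter_upwards [ha, hb] with p h h' using ⟨h, h'⟩
  exact (Measure.quasiMeasurePreserving_fst (μ := P0 G) (ν := ν)).ae h1

/-- integrability of the passage time between bounded covariant vertices -/
lemma integrable_ptX {ν : Measure Ψ} [IsProbabilityMeasure ν]
    {X X' : ((ℝ × ℝ) × Environment) × Ψ → ℤ × ℤ} (hX : Measurable X) (hX' : Measurable X')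
    {R R' : ℝ} {v v' : ℝ × ℝ} (hR : ∀ q, ‖pos (q.1.1 - v) (X q)‖ ≤ R)
    (hR' : ∀ q, ‖pos (q.1.1 - v') (X' q)‖ ≤ R') :
    Integrable (fun q => passageTime q.1.2 (X q) (X' q)) ((P0 G).prod ν) := by
  obtain ⟨N, hN⟩ := exists_nat_ge (max (R + ‖v‖ + 1) (R' + ‖v'‖ + 1))
  have hint : Integrable (fun q : ((ℝ × ℝ) × Environment) × Ψ => BB N q.1.2)
      ((P0 G).prod ν) := by
    have ha : Integrable (fun p : (ℝ × ℝ) × Environment => BB N p.2) (P0 G) := by
      unfold P0
      exact (integrable_BB h0 h2 N).comp_snd UU2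
    exact ha.comp_fst ν
  refine hint.mono' (measurable_ptr (measurable_snd.comp measurable_fst) hX hX').aestronglyMeasurable
    ?_
  filter_upwards [ae_P0_Nn h0] with q hq
  rw [Real.norm_eq_abs, abs_of_nonneg (pt_nonneg hq.1 _ _)]
  exact le_BB hq.1 (mem_box_of_pos hq.2 (hR q) ((le_max_left _ _).trans hN))
    (mem_box_of_pos hq.2 (hR' q) ((le_max_right _ _).trans hN))

end

/-- mean passage time between `X` and its translate by `v` with an independent phase -/
noncomputable def eX (G : Measure ℝ) (π : Measure Φ) (X : ℝ × ℝ → Environment → Φ → ℤ × ℤ)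
    (v : ℝ × ℝ) : ℝ :=
  ∫ q, passageTime q.1.2 (X q.1.1 q.1.2 q.2.1) (X (q.1.1 - v) q.1.2 q.2.2)
    ∂((P0 G).prod (π.prod π))

section

variable {π : Measure Φ} [IsProbabilityMeasure π] {X : ℝ × ℝ → Environment → Φ → ℤ × ℤ} {R : ℝ}
  (hX : CovV X R) (h0 : G (Set.Iio 0) = 0) (h2 : Integrable (fun x : ℝ => x ^ 2) G)

lemma CovV.meas' (hX : CovV X R) {α : Type*} [MeasurableSpace α] {a : α → ℝ × ℝ}
    {b : α → Environment} {c : α → Φ} (ha : Measurable a) (hb : Measurable b)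
    (hc : Measurable c) : Measurable fun q => X (a q) (b q) (c q) :=
  hX.meas.comp ((ha.prodMk hb).prodMk hc)

include hX h0 h2

/-- integrability of the basic passage time -/
lemma CovV.integrable_pt (v : ℝ × ℝ) :
    Integrable (fun q : ((ℝ × ℝ) × Environment) × (Φ × Φ) =>
      passageTime q.1.2 (X q.1.1 q.1.2 q.2.1) (X (q.1.1 - v) q.1.2 q.2.2))
      ((P0 G).prod (π.prod π)) := by
  refine integrable_ptX h0 h2 (v := 0) (v' := v) (R := R) (R' := R) ?_ ?_ ?_ ?_
  · exact hX.meas' (by fun_prop) (by fun_prop) (by fun_prop)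
  · exact hX.meas' (by fun_prop) (by fun_prop) (by fun_prop)
  · intro q; rw [sub_zero]; exact hX.bdd _ _ _
  · intro q; exact hX.bdd _ _ _

lemma eX_add_le (v v' : ℝ × ℝ) : eX G π X (v + v') ≤ eX G π X v + eX G π X v' := by
  set ν : Measure (Φ × Φ × Φ) := π.prod (π.prod π) with hν
  have m1 : MeasurePreserving (Prod.map (id : (ℝ × ℝ) × Environment → _)
      (fun f : Φ × Φ × Φ => (f.1, f.2.1))) ((P0 G).prod ν) ((P0 G).prod (π.prod π)) :=
    (MeasurePreserving.id _).prod ((MeasurePreserving.id π).prod measurePreserving_fst)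
  have m2 : MeasurePreserving (Prod.map (id : (ℝ × ℝ) × Environment → _)
      (fun f : Φ × Φ × Φ => f.2)) ((P0 G).prod ν) ((P0 G).prod (π.prod π)) :=
    (MeasurePreserving.id _).prod measurePreserving_snd
  have m3 : MeasurePreserving (Prod.map (id : (ℝ × ℝ) × Environment → _)
      (fun f : Φ × Φ × Φ => (f.1, f.2.2))) ((P0 G).prod ν) ((P0 G).prod (π.prod π)) :=
    (MeasurePreserving.id _).prod ((MeasurePreserving.id π).prod measurePreserving_snd)
  have i1 := m1.integrable_comp_of_integrable (hX.integrable_pt h0 h2 (π := π) v)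
  have i3 := m3.integrable_comp_of_integrable (hX.integrable_pt h0 h2 (π := π) (v + v'))
  -- the second leg
  set F : ℝ × ℝ → Environment → Φ × Φ → ℝ := fun θ t f =>
    passageTime t (X θ t f.1) (X (θ - v') t f.2) with hF
  have hFinv : ∀ f, Inv fun θ t => F θ t f := by
    intro f m θ t
    simp only [hF]
    have e : θ + toR m - v' = (θ - v') + toR m := by abel
    rw [e, hX.cov, hX.cov, pt_act, tr_apply, tr_apply, sub_add_cancel, sub_add_cancel]
  have hFm : Measurable fun q : ((ℝ × ℝ) × Environment) × (Φ × Φ) => F q.1.1 q.1.2 q.2 := by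
    refine measurable_ptr (by fun_prop) (hX.meas' (by fun_prop) (by fun_prop) (by fun_prop))
      (hX.meas' (by fun_prop) (by fun_prop) (by fun_prop))
  have i2 := m2.integrable_comp_of_integrable
    (integrable_shift_prod (G := G) (ν := π.prod π) hFinv (-v) (hX.integrable_pt h0 h2 v'))
  have e1 : eX G π X v = ∫ q, passageTime q.1.2 (X q.1.1 q.1.2 q.2.1)
      (X (q.1.1 - v) q.1.2 q.2.2.1) ∂((P0 G).prod ν) := by
    unfold eX
    rw [← mp_integral m1 (hX.integrable_pt h0 h2 (π := π) v).aestronglyMeasurable]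
    rfl
  have e3 : eX G π X (v + v') = ∫ q, passageTime q.1.2 (X q.1.1 q.1.2 q.2.1)
      (X (q.1.1 - (v + v')) q.1.2 q.2.2.2) ∂((P0 G).prod ν) := by
    unfold eX
    rw [← mp_integral m3 (hX.integrable_pt h0 h2 (π := π) (v + v')).aestronglyMeasurable]
    rfl
  have e2 : eX G π X v' = ∫ q, passageTime q.1.2 (X (q.1.1 - v) q.1.2 q.2.2.1)
      (X (q.1.1 - (v + v')) q.1.2 q.2.2.2) ∂((P0 G).prod ν) := by
    have ha : eX G π X v' = ∫ q, F (q.1.1 + -v) q.1.2 q.2 ∂((P0 G).prod (π.prod π)) := by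
      rw [integral_shift_prod hFinv hFm]; rfl
    rw [ha, ← mp_integral m2 (integrable_shift_prod (G := G) (ν := π.prod π) hFinv (-v)
      (hX.integrable_pt h0 h2 v')).aestronglyMeasurable]
    refine integral_congr_ae (ae_of_all _ fun q => ?_)
    simp only [hF, Prod.map_fst, Prod.map_snd, id_eq, ← sub_eq_add_neg, sub_sub]
  rw [e1, e2, e3]
  have i1' : Integrable (fun q : ((ℝ × ℝ) × Environment) × (Φ × Φ × Φ) =>
      passageTime q.1.2 (X q.1.1 q.1.2 q.2.1) (X (q.1.1 - v) q.1.2 q.2.2.1))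
      ((P0 G).prod ν) := i1
  have i2' : Integrable (fun q : ((ℝ × ℝ) × Environment) × (Φ × Φ × Φ) =>
      passageTime q.1.2 (X (q.1.1 - v) q.1.2 q.2.2.1) (X (q.1.1 - (v + v')) q.1.2 q.2.2.2))
      ((P0 G).prod ν) := by
    refine i2.congr (ae_of_all _ fun q => ?_)
    simp only [hF, Function.comp_apply, Prod.map_fst, Prod.map_snd, id_eq, ← sub_eq_add_neg,
      sub_sub]
  rw [← integral_add i1' i2']
  refine integral_mono_ae i3 (i1'.add i2') ?_
  filter_upwards [ae_P0_Nn (Ψ := Φ × Φ × Φ) (ν := ν) h0] with q hq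
  exact pt_triangle hq.1 _ _ _

lemma eX_nsmul_le (v : ℝ × ℝ) (n : ℕ) : eX G π X (((n : ℝ) + 1) • v) ≤ ((n : ℝ) + 1) * eX G π X v := by
  induction n with
  | zero => simp
  | succ n ih =>
    have e : (((n + 1 : ℕ) : ℝ) + 1) • v = ((n : ℝ) + 1) • v + v := by
      push_cast; rw [add_smul ((n : ℝ) + 1) 1 v, one_smul]
    rw [e]
    refine (eX_add_le hX h0 h2 _ _).trans ?_
    push_cast
    linarith


/-- lower bound up to a constant -/
lemma le_eX (hμ : IsTC G μ) : ∃ C : ℝ, ∀ v : ℝ × ℝ, μ v - C ≤ eX G π X v := by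
  obtain ⟨N, hN⟩ := exists_nat_ge (R + 1 + 1)
  refine ⟨2 * (∫ z, z ∂G) + ∑ z ∈ box N, ET G z + ∑ z ∈ box N, ET G z, fun v => ?_⟩
  set q0 := flo2 v with hq0
  set ν := π.prod π with hν
  -- the three comparison functions
  have j1 : Integrable (fun q : ((ℝ × ℝ) × Environment) × (Φ × Φ) => passageTime q.1.2 0 q0)
      ((P0 G).prod ν) := by
    have : Integrable (fun p : (ℝ × ℝ) × Environment => passageTime p.2 0 q0) (P0 G) := by
      unfold P0; exact (K.integrable_pt h0 h2 0 q0).comp_snd UU2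
    exact this.comp_fst ν
  have j2 : Integrable (fun q : ((ℝ × ℝ) × Environment) × (Φ × Φ) =>
      ∑ z ∈ box N, passageTime q.1.2 0 z) ((P0 G).prod ν) := by
    have : Integrable (fun p : (ℝ × ℝ) × Environment => ∑ z ∈ box N, passageTime p.2 0 z)
        (P0 G) := by
      unfold P0
      exact (integrable_finsetSum _ fun z _ => K.integrable_pt h0 h2 0 z).comp_snd UU2
    exact this.comp_fst ν
  have j3 : Integrable (fun q : ((ℝ × ℝ) × Environment) × (Φ × Φ) =>
      ∑ z ∈ box N, passageTime q.1.2 q0 (z + q0)) ((P0 G).prod ν) := by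
    have : Integrable (fun p : (ℝ × ℝ) × Environment =>
        ∑ z ∈ box N, passageTime p.2 q0 (z + q0)) (P0 G) := by
      unfold P0
      exact (integrable_finsetSum _ fun z _ => K.integrable_pt h0 h2 q0 (z + q0)).comp_snd UU2
    exact this.comp_fst ν
  have hsnd : ∀ f : Environment → ℝ, AEStronglyMeasurable f (iidLaw G) →
      ∫ q : ((ℝ × ℝ) × Environment) × (Φ × Φ), f q.1.2 ∂((P0 G).prod ν) = ∫ t, f t ∂(iidLaw G) := by
    intro f hf
    have hp : MeasurePreserving (fun q : ((ℝ × ℝ) × Environment) × (Φ × Φ) => q.1.2)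
        ((P0 G).prod ν) (iidLaw G) :=
      (measurePreserving_snd (μ := UU2) (ν := iidLaw G)).comp measurePreserving_fst
    exact mp_integral hp hf
  have hpt : ∀ᵐ q ∂((P0 G).prod ν), passageTime q.1.2 0 q0 -
      (∑ z ∈ box N, passageTime q.1.2 0 z) - (∑ z ∈ box N, passageTime q.1.2 q0 (z + q0)) ≤
      passageTime q.1.2 (X q.1.1 q.1.2 q.2.1) (X (q.1.1 - v) q.1.2 q.2.2) := by
    filter_upwards [ae_P0_Nn (Ψ := Φ × Φ) (ν := ν) h0] with q hq
    obtain ⟨ht, hξ⟩ := hq
    have hx0 : X q.1.1 q.1.2 q.2.1 ∈ box N := by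
      refine mem_box_of_pos (v := 0) hξ (R := R) ?_ ?_
      · rw [sub_zero]; exact hX.bdd _ _ _
      · rw [norm_zero]; linarith
    have hx1 : X (q.1.1 - v) q.1.2 q.2.2 - q0 ∈ box N := by
      refine mem_box_of_pos (v := frac2 v) hξ (R := R) ?_ ?_
      · have := hX.bdd (q.1.1 - v) q.1.2 q.2.2
        have e : pos (q.1.1 - frac2 v) (X (q.1.1 - v) q.1.2 q.2.2 - q0)
            = pos (q.1.1 - v) (X (q.1.1 - v) q.1.2 q.2.2) := by
          rw [frac2_eq]
          unfold pos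
          refine Prod.ext ?_ ?_ <;> simp [toR, hq0] <;> ring
        rw [e]; exact this
      · have : ‖frac2 v‖ ≤ 1 := by
          rw [Prod.norm_def]
          refine max_le ?_ ?_
          · show ‖Int.fract v.1‖ ≤ 1
            rw [Real.norm_eq_abs, abs_of_nonneg (Int.fract_nonneg _)]
            exact (Int.fract_lt_one _).le
          · show ‖Int.fract v.2‖ ≤ 1
            rw [Real.norm_eq_abs, abs_of_nonneg (Int.fract_nonneg _)]
            exact (Int.fract_lt_one _).le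
        linarith
    have a1 : passageTime q.1.2 0 (X q.1.1 q.1.2 q.2.1) ≤ ∑ z ∈ box N, passageTime q.1.2 0 z :=
      Finset.single_le_sum (f := fun z => passageTime q.1.2 0 z)
        (fun z _ => pt_nonneg ht 0 z) hx0
    have a2 : passageTime q.1.2 q0 (X (q.1.1 - v) q.1.2 q.2.2) ≤
        ∑ z ∈ box N, passageTime q.1.2 q0 (z + q0) := by
      have := Finset.single_le_sum (f := fun z => passageTime q.1.2 q0 (z + q0))
        (fun z _ => pt_nonneg ht q0 (z + q0)) hx1
      simpa using this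
    have b1 := pt_triangle ht 0 (X q.1.1 q.1.2 q.2.1) q0
    have b2 := pt_triangle ht (X q.1.1 q.1.2 q.2.1) (X (q.1.1 - v) q.1.2 q.2.2) q0
    rw [pt_symm ht (X (q.1.1 - v) q.1.2 q.2.2) q0] at b2
    linarith
  have j12 : Integrable (fun q : ((ℝ × ℝ) × Environment) × (Φ × Φ) =>
      passageTime q.1.2 0 q0 - ∑ z ∈ box N, passageTime q.1.2 0 z) ((P0 G).prod ν) := j1.sub j2
  have j123 : Integrable (fun q : ((ℝ × ℝ) × Environment) × (Φ × Φ) =>
      passageTime q.1.2 0 q0 - (∑ z ∈ box N, passageTime q.1.2 0 z) -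
        ∑ z ∈ box N, passageTime q.1.2 q0 (z + q0)) ((P0 G).prod ν) := j12.sub j3
  have key := integral_mono_ae j123 (hX.integrable_pt h0 h2 (π := π) v) hpt
  rw [integral_sub j12 j3, integral_sub j1 j2,
    hsnd (fun t => passageTime t 0 q0) (measurable_pt _ _).aestronglyMeasurable,
    hsnd (fun t => ∑ z ∈ box N, passageTime t 0 z)
      (Finset.measurable_sum _ fun z _ => measurable_pt _ _).aestronglyMeasurable,
    hsnd (fun t => ∑ z ∈ box N, passageTime t q0 (z + q0))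
      (Finset.measurable_sum _ fun z _ => measurable_pt _ _).aestronglyMeasurable,
    integral_finsetSum _ fun z _ => K.integrable_pt h0 h2 0 z,
    integral_finsetSum _ fun z _ => K.integrable_pt h0 h2 q0 (z + q0)] at key
  simp only [integral_pt, sub_zero, add_sub_cancel_right] at key
  have hμ1 := mu_le_ET h0 h2 hμ q0
  have hμ2 := abs_mu_sub_le h0 h2 hμ v (toR q0)
  have hm : (0 : ℝ) ≤ ∫ z, z ∂G := integral_nonneg_of_ae (ae_nonneg h0)
  have hl : l1 (v - toR q0) ≤ 2 := by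
    have e : v - toR q0 = frac2 v := by
      rw [frac2_eq, hq0]; refine Prod.ext ?_ ?_ <;> simp [toR] <;> ring
    rw [e]
    have h1 : |Int.fract v.1| ≤ 1 := by
      rw [abs_of_nonneg (Int.fract_nonneg _)]; exact (Int.fract_lt_one _).le
    have h2 : |Int.fract v.2| ≤ 1 := by
      rw [abs_of_nonneg (Int.fract_nonneg _)]; exact (Int.fract_lt_one _).le
    show |Int.fract v.1| + |Int.fract v.2| ≤ 2
    linarith
  have hμ3 : μ v - μ (toR q0) ≤ (∫ z, z ∂G) * 2 :=
    (le_abs_self _).trans (hμ2.trans (mul_le_mul_of_nonneg_left hl hm))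
  unfold eX
  linarith

/-- **(P0)**: the mean passage time to the translate by `v` is at least `μ v`. -/
theorem mu_le_eX (hμ : IsTC G μ) (v : ℝ × ℝ) : μ v ≤ eX G π X v := by
  obtain ⟨C, hC⟩ := le_eX (π := π) hX h0 h2 hμ
  have h : ∀ n : ℕ, μ v - C / ((n : ℝ) + 1) ≤ eX G π X v := by
    intro n
    have hn : (0 : ℝ) < (n : ℝ) + 1 := by positivity
    have h1 := eX_nsmul_le (π := π) hX h0 h2 v n
    have h3 := hC (((n : ℝ) + 1) • v)
    rw [mu_smul h0 h2 hμ hn.le] at h3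
    rw [sub_le_iff_le_add, ← sub_le_iff_le_add', ]
    rw [le_div_iff₀ hn]
    nlinarith
  have hlim : Tendsto (fun n : ℕ => μ v - C / ((n : ℝ) + 1)) atTop (𝓝 (μ v - 0)) := by
    refine tendsto_const_nhds.sub ?_
    exact tendsto_const_nhds.div_atTop
      (tendsto_atTop_add_const_right _ _ tendsto_natCast_atTop_atTop)
  rw [sub_zero] at hlim
  exact le_of_tendsto' hlim h

end

section

variable {π : Measure Φ} [IsProbabilityMeasure π] {X : ℝ × ℝ → Environment → Φ → ℤ × ℤ} {R : ℝ}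
  (hX : CovV X R)

include hX

lemma CovV.measurable_pos (w : ℝ × ℝ) : Measurable fun q : ((ℝ × ℝ) × Environment) × Φ =>
    pos (q.1.1 - w) (X (q.1.1 - w) q.1.2 q.2) := by
  have h1 : Measurable fun q : ((ℝ × ℝ) × Environment) × Φ => X (q.1.1 - w) q.1.2 q.2 :=
    hX.meas' (by fun_prop) (by fun_prop) (by fun_prop)
  have h2 : Measurable (toR : ℤ × ℤ → ℝ × ℝ) := measurable_of_countable _
  exact (h2.comp h1).add (by fun_prop)

lemma CovV.integrable_pos (ν : Measure Φ) [IsProbabilityMeasure ν] (f : ℝ × ℝ →L[ℝ] ℝ)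
    (w : ℝ × ℝ) : Integrable (fun q : ((ℝ × ℝ) × Environment) × Φ =>
      f (pos (q.1.1 - w) (X (q.1.1 - w) q.1.2 q.2))) ((P0 G).prod ν) := by
  refine Integrable.of_bound (f.continuous.measurable.comp
    (hX.measurable_pos w)).aestronglyMeasurable (‖f‖ * R) (ae_of_all _ fun q => ?_)
  exact (f.le_opNorm _).trans (mul_le_mul_of_nonneg_left (hX.bdd _ _ _) (norm_nonneg _))

/-- mean of the position relative to the base point does not depend on the base point -/
lemma CovV.integral_pos (ν : Measure Φ) [IsProbabilityMeasure ν] (f : ℝ × ℝ →L[ℝ] ℝ)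
    (w : ℝ × ℝ) : ∫ q, f (pos (q.1.1 - w) (X (q.1.1 - w) q.1.2 q.2)) ∂((P0 G).prod ν) =
      ∫ q, f (pos q.1.1 (X q.1.1 q.1.2 q.2)) ∂((P0 G).prod ν) := by
  have hinv : ∀ φ, Inv fun θ t => f (pos θ (X θ t φ)) := by
    intro φ m θ t
    simp only
    rw [hX.cov]
    congr 1
    unfold pos
    refine Prod.ext ?_ ?_ <;> simp [toR]
  have hm : Measurable fun q : ((ℝ × ℝ) × Environment) × Φ => f (pos q.1.1 (X q.1.1 q.1.2 q.2)) := by
    have := f.continuous.measurable.comp (hX.measurable_pos 0)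
    simp only [sub_zero] at this
    exact this
  have := integral_shift_prod (G := G) (ν := ν) hinv hm (-w)
  simpa [sub_eq_add_neg] using this

/-- the displacement between `X` and its translate by `v` has mean `v` -/
lemma CovV.integral_disp (f : ℝ × ℝ →L[ℝ] ℝ) (v : ℝ × ℝ) :
    Integrable (fun q : ((ℝ × ℝ) × Environment) × (Φ × Φ) =>
      f (toR (X (q.1.1 - v) q.1.2 q.2.2)) - f (toR (X q.1.1 q.1.2 q.2.1)))
      ((P0 G).prod (π.prod π)) ∧
    ∫ q, (f (toR (X (q.1.1 - v) q.1.2 q.2.2)) - f (toR (X q.1.1 q.1.2 q.2.1)))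
      ∂((P0 G).prod (π.prod π)) = f v := by
  have m1 : MeasurePreserving (Prod.map (id : (ℝ × ℝ) × Environment → _)
      (fun f : Φ × Φ => f.1)) ((P0 G).prod (π.prod π)) ((P0 G).prod π) :=
    (MeasurePreserving.id _).prod measurePreserving_fst
  have m2 : MeasurePreserving (Prod.map (id : (ℝ × ℝ) × Environment → _)
      (fun f : Φ × Φ => f.2)) ((P0 G).prod (π.prod π)) ((P0 G).prod π) :=
    (MeasurePreserving.id _).prod measurePreserving_snd
  have i1 : Integrable (fun q : ((ℝ × ℝ) × Environment) × (Φ × Φ) =>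
      f (pos q.1.1 (X q.1.1 q.1.2 q.2.1))) ((P0 G).prod (π.prod π)) := by
    have h := hX.integrable_pos (G := G) π f 0
    simp only [sub_zero] at h
    exact m1.integrable_comp_of_integrable h
  have i2 : Integrable (fun q : ((ℝ × ℝ) × Environment) × (Φ × Φ) =>
      f (pos (q.1.1 - v) (X (q.1.1 - v) q.1.2 q.2.2))) ((P0 G).prod (π.prod π)) :=
    m2.integrable_comp_of_integrable (hX.integrable_pos (G := G) π f v)
  have e : ∀ q : ((ℝ × ℝ) × Environment) × (Φ × Φ),
      f (toR (X (q.1.1 - v) q.1.2 q.2.2)) - f (toR (X q.1.1 q.1.2 q.2.1)) =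
      f (pos (q.1.1 - v) (X (q.1.1 - v) q.1.2 q.2.2)) - f (pos q.1.1 (X q.1.1 q.1.2 q.2.1))
        + f v := by
    intro q
    simp only [pos, map_add, map_sub]
    ring
  simp only [e]
  have i3 : Integrable (fun q : ((ℝ × ℝ) × Environment) × (Φ × Φ) =>
      f (pos (q.1.1 - v) (X (q.1.1 - v) q.1.2 q.2.2)) - f (pos q.1.1 (X q.1.1 q.1.2 q.2.1)))
      ((P0 G).prod (π.prod π)) := i2.sub i1
  refine ⟨i3.add (integrable_const _), ?_⟩
  rw [integral_add i3 (integrable_const _), integral_sub i2 i1]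
  have e1 : ∫ q, f (pos q.1.1 (X q.1.1 q.1.2 q.2.1)) ∂((P0 G).prod (π.prod π)) =
      ∫ q, f (pos q.1.1 (X q.1.1 q.1.2 q.2)) ∂((P0 G).prod π) := by
    have h := hX.integrable_pos (G := G) π f 0
    simp only [sub_zero] at h
    exact mp_integral m1 h.aestronglyMeasurable
  have e2 : ∫ q, f (pos (q.1.1 - v) (X (q.1.1 - v) q.1.2 q.2.2)) ∂((P0 G).prod (π.prod π)) =
      ∫ q, f (pos (q.1.1 - v) (X (q.1.1 - v) q.1.2 q.2)) ∂((P0 G).prod π) :=
    mp_integral m2 (hX.integrable_pos (G := G) π f v).aestronglyMeasurable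
  rw [e1, e2, hX.integral_pos, integral_const]
  simp

/-- **(P0), excess form** -/
theorem CovV.zero_le (h0 : G (Set.Iio 0) = 0) (h2 : Integrable (fun x : ℝ => x ^ 2) G)
    (hμ : IsTC G μ) (F : FlatData μ) (v : ℝ × ℝ) :
    Integrable (fun q : ((ℝ × ℝ) × Environment) × (Φ × Φ) =>
      passageTime q.1.2 (X q.1.1 q.1.2 q.2.1) (X (q.1.1 - v) q.1.2 q.2.2) -
        (phi F (X (q.1.1 - v) q.1.2 q.2.2) - phi F (X q.1.1 q.1.2 q.2.1)))
      ((P0 G).prod (π.prod π)) ∧
    0 ≤ ∫ q, (passageTime q.1.2 (X q.1.1 q.1.2 q.2.1) (X (q.1.1 - v) q.1.2 q.2.2) -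
        (phi F (X (q.1.1 - v) q.1.2 q.2.2) - phi F (X q.1.1 q.1.2 q.2.1)))
      ∂((P0 G).prod (π.prod π)) := by
  have h1 := hX.integrable_pt h0 h2 (π := π) v
  obtain ⟨h3, h4⟩ := hX.integral_disp (G := G) (π := π) F.ρ v
  refine ⟨h1.sub h3, ?_⟩
  have h5 := integral_sub h1 h3
  have h6 := mu_le_eX (π := π) hX h0 h2 hμ v
  have h7 := F.ρ_le v
  unfold phi
  rw [h5, h4]
  unfold eX at h6
  linarith

end

end Crest.Agent.R151.Q
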