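import Crest.Agent.R151.M192b
import Crest.Agent.R151.G338g
import Crest.Agent.R151.K5
import Crest.Agent.R151.Q4

/-!
# R151 (S0214 part 2): labels of highways, linear cost of backward moves in a gap (helper338)
-/

set_option autoImplicit false
set_option linter.unusedSectionVars false

open MeasureTheory Filter ProbabilityTheory Topology
open Crest.ProbabilityR.FirstPassage

namespace Crest.Agent.R151

namespace Q

open K R78 B710 G338

variable {μ : ℝ × ℝ → ℝ} {F : FlatData μ}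

/-- bound for the coordinates `al`, `be` of vectors of norm at most `1` -/
noncomputable def cF (F : FlatData μ) : ℝ := ‖F.al‖ + ‖F.be‖

lemma cF_nonneg (F : FlatData μ) : 0 ≤ cF F := by unfold cF; positivity

lemma abs_al_le' (F : FlatData μ) {v : ℝ × ℝ} (hv : ‖v‖ ≤ 1) : |F.al v| ≤ cF F := by
  have h1 := F.al.le_opNorm v
  rw [Real.norm_eq_abs] at h1
  have h2 : ‖F.al‖ * ‖v‖ ≤ ‖F.al‖ * 1 := mul_le_mul_of_nonneg_left hv (norm_nonneg _)
  unfold cF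
  linarith [norm_nonneg F.be]

lemma abs_be_le' (F : FlatData μ) {v : ℝ × ℝ} (hv : ‖v‖ ≤ 1) : |F.be v| ≤ cF F := by
  have h1 := F.be.le_opNorm v
  rw [Real.norm_eq_abs] at h1
  have h2 : ‖F.be‖ * ‖v‖ ≤ ‖F.be‖ * 1 := mul_le_mul_of_nonneg_left hv (norm_nonneg _)
  unfold cF
  linarith [norm_nonneg F.al]

lemma norm_jitter {η : ℝ × ℝ} (h : η ∈ Set.Ico (0 : ℝ) 1 ×ˢ Set.Ico (0 : ℝ) 1) : ‖η‖ ≤ 1 := by
  obtain ⟨⟨h1, h2⟩, ⟨h3, h4⟩⟩ := h
  rw [Prod.norm_def]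
  refine max_le ?_ ?_
  · rw [Real.norm_eq_abs, abs_of_nonneg h1]; exact h2.le
  · rw [Real.norm_eq_abs, abs_of_nonneg h3]; exact h4.le

lemma norm_toR_adj {x y : ℤ × ℤ} (h : squareLattice.Adj x y) : ‖toR y - toR x‖ ≤ 1 := by
  obtain ⟨d, rfl⟩ := exists_dir h
  have : toR (x + dir d) - toR x = toR (dir d) := by
    simp [toR]
  rw [this]
  fin_cases d <;> simp [dir, toR, Prod.norm_def]

lemma pos_sub_pos (θ : ℝ × ℝ) (x y : ℤ × ℤ) : pos θ y - pos θ x = toR (y - x) := by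
  unfold pos
  simp [toR]

/-- norm from the two coordinates -/
lemma norm_le_coord (F : FlatData μ) (v : ℝ × ℝ) :
    ‖v‖ ≤ |F.al v| * ‖F.a‖ + |F.be v| * ‖F.b‖ := by
  have h := F.decomp v
  calc ‖v‖ = ‖F.al v • F.a + F.be v • F.b‖ := by rw [h]
    _ ≤ ‖F.al v • F.a‖ + ‖F.be v • F.b‖ := norm_add_le _ _
    _ = _ := by rw [norm_smul, norm_smul, Real.norm_eq_abs, Real.norm_eq_abs]

namespace Hwy

variable (h : Hwy F) {u s : ℝ} {θ : ℝ × ℝ} {t : Environment} {k : ℤ}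

lemma ix_set (s u : ℝ) (θ : ℝ × ℝ) (t : Environment) :
    {k : ℤ | s ≤ F.al (pos θ (h.H u θ t k))}.Nonempty ∧
      BddBelow {k : ℤ | s ≤ F.al (pos θ (h.H u θ t k))} := by
  constructor
  · exact ((h.top u θ t).eventually_ge_atTop s).exists
  · obtain ⟨K0, hK0⟩ := (eventually_atBot.1 ((h.bot u θ t).eventually_lt_atBot s))
    refine ⟨K0, fun k hk => ?_⟩
    by_contra hlt
    rw [not_le] at hlt
    have h1 := hK0 k hlt.le
    have h2 : s ≤ F.al (pos θ (h.H u θ t k)) := hk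
    linarith

lemma ix_spec (s u : ℝ) (θ : ℝ × ℝ) (t : Environment) :
    s ≤ F.al (pos θ (h.H u θ t (h.ix s u θ t))) := by
  obtain ⟨h1, h2⟩ := h.ix_set s u θ t
  exact Int.csInf_mem h1 h2

lemma ix_le (hk : s ≤ F.al (pos θ (h.H u θ t k))) : h.ix s u θ t ≤ k :=
  csInf_le (h.ix_set s u θ t).2 hk

lemma al_lt_of_lt_ix (hk : k < h.ix s u θ t) : F.al (pos θ (h.H u θ t k)) < s := by
  by_contra hc
  rw [not_lt] at hc
  exact absurd (h.ix_le hc) (not_le.2 hk)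

lemma al_ge_of_ix_le (hk : h.ix s u θ t ≤ k) : s - h.κ ≤ F.al (pos θ (h.H u θ t k)) := by
  have h1 := h.back u θ t _ _ hk
  have h2 := h.ix_spec s u θ t
  linarith

lemma lt_ix_of_al_lt (hk : F.al (pos θ (h.H u θ t k)) < s - h.κ) : k < h.ix s u θ t := by
  by_contra hc
  rw [not_lt] at hc
  have := h.al_ge_of_ix_le hc
  linarith

lemma ix_mono {s s' : ℝ} (hs : s ≤ s') (u : ℝ) (θ : ℝ × ℝ) (t : Environment) :
    h.ix s u θ t ≤ h.ix s' u θ t := by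
  apply h.ix_le
  exact hs.trans (h.ix_spec s' u θ t)

lemma al_x_le (s u : ℝ) (θ : ℝ × ℝ) (t : Environment) :
    F.al (pos θ (h.H u θ t (h.ix s u θ t))) ≤ s + cF F := by
  have h1 : F.al (pos θ (h.H u θ t (h.ix s u θ t - 1))) < s := h.al_lt_of_lt_ix (by omega)
  have hadj := (h.isHwy u θ t).adj (h.ix s u θ t - 1)
  rw [sub_add_cancel] at hadj
  have h2 := norm_toR_adj hadj
  have h3 := abs_al_le' F h2
  have h4 : pos θ (h.H u θ t (h.ix s u θ t)) = pos θ (h.H u θ t (h.ix s u θ t - 1)) +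
      (toR (h.H u θ t (h.ix s u θ t)) - toR (h.H u θ t (h.ix s u θ t - 1))) := by
    unfold pos; abel
  rw [h4, map_add]
  linarith [le_abs_self (F.al (toR (h.H u θ t (h.ix s u θ t)) -
    toR (h.H u θ t (h.ix s u θ t - 1))))]

lemma wH_nonneg' : 0 ≤ h.wH := by
  have h1 := h.strip 0 0 (fun _ => 0) 0
  have h2 := abs_nonneg (F.be (pos 0 (h.H 0 0 (fun _ => 0) 0)))
  linarith

end Hwy

/-! ### positions near the base point are in a box -/

lemma norm_pos_nr' (θ : ℝ × ℝ) : ‖pos θ (nr θ)‖ ≤ 1 / 2 := by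
  rw [Prod.norm_def]
  refine max_le ?_ ?_
  · show ‖((-round θ.1 : ℤ) : ℝ) + θ.1‖ ≤ 1 / 2
    have := abs_sub_round θ.1
    rw [Real.norm_eq_abs]
    push_cast
    rw [show -(round θ.1 : ℝ) + θ.1 = θ.1 - round θ.1 by ring]
    exact this
  · show ‖((-round θ.2 : ℤ) : ℝ) + θ.2‖ ≤ 1 / 2
    have := abs_sub_round θ.2
    rw [Real.norm_eq_abs]
    push_cast
    rw [show -(round θ.2 : ℝ) + θ.2 = θ.2 - round θ.2 by ring]
    exact this

lemma sub_nr_mem_box {θ : ℝ × ℝ} {z : ℤ × ℤ} {R : ℝ} {N : ℕ} (h : ‖pos θ z‖ ≤ R)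
    (hN : R + 1 ≤ N) : z - nr θ ∈ box N := by
  have h1 := norm_pos_nr' θ
  have h2 : toR (z - nr θ) = pos θ z - pos θ (nr θ) := (pos_sub_pos θ (nr θ) z).symm
  have h3 : ‖toR (z - nr θ)‖ ≤ N := by
    rw [h2]
    refine (norm_sub_le _ _).trans ?_
    linarith
  have ha : |((z - nr θ).1 : ℝ)| ≤ N := (norm_fst_le (toR (z - nr θ))).trans h3
  have hb : |((z - nr θ).2 : ℝ)| ≤ N := (norm_snd_le (toR (z - nr θ))).trans h3
  rw [abs_le] at ha hb
  rw [mem_box]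
  refine ⟨⟨?_, ?_⟩, ⟨?_, ?_⟩⟩
  · exact_mod_cast ha.1
  · exact_mod_cast ha.2
  · exact_mod_cast hb.1
  · exact_mod_cast hb.2

/-- the shape deviation in the box of radius `N` around the base point -/
noncomputable def devB (μ : ℝ × ℝ → ℝ) (N : ℕ) (θ : ℝ × ℝ) (t : Environment) : ℝ :=
  dev μ N (act (tr (nr θ)) t)

lemma ptY_bounds (F : FlatData μ) {θ : ℝ × ℝ} {t : Environment} {N : ℕ} {x y : ℤ × ℤ} {R : ℝ}
    (hx : ‖pos θ x‖ ≤ R) (hy : ‖pos θ y‖ ≤ R) (hN : R + 1 ≤ N) :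
    |ptY t (phi F) x y - F.ψ (toR (y - x))| ≤ devB μ N θ t := by
  have h1 := le_dev μ (act (tr (nr θ)) t) (sub_nr_mem_box hx hN) (sub_nr_mem_box hy hN)
  rw [pt_act, tr_apply, tr_apply, sub_add_cancel, sub_add_cancel] at h1
  have e : y - nr θ - (x - nr θ) = y - x := by abel
  rw [e] at h1
  unfold devB
  refine le_trans (le_of_eq ?_) h1
  congr 1
  unfold ptY phi FlatData.ψ
  have : F.ρ (toR y) - F.ρ (toR x) = F.ρ (toR (y - x)) := by
    rw [← map_sub]; congr 1; simp [toR]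
  rw [this]; ring

/-- moving left costs: `c A ≤ ψ v` if `al v ≤ -A`, `|be v| ≤ A` -/
lemma exists_psi_low (hμ : NormLike μ) (F : FlatData μ) : ∃ c : ℝ, 0 < c ∧
    ∀ (v : ℝ × ℝ) (A : ℝ), 0 ≤ A → F.al v ≤ -A → |F.be v| ≤ A → c * A ≤ F.ψ v := by
  have hab : 0 < ‖F.a‖ + ‖F.b‖ := by
    have ha : F.a ≠ 0 := by
      intro h0
      have := F.al_a
      rw [h0, map_zero] at this
      norm_num at this
    have := norm_pos_iff.2 ha
    positivity
  have hal : 0 < ‖F.al‖ := by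
    rw [norm_pos_iff]
    intro h0
    have := F.al_a
    rw [h0] at this
    simp at this
  obtain ⟨c, hc, hl⟩ := F.ψ_lower_al hμ (δ := 1 / (‖F.a‖ + ‖F.b‖)) (by positivity)
  refine ⟨c / ‖F.al‖, by positivity, fun v A hA h1 h2 => ?_⟩
  have h3 : A ≤ |F.al v| := by rw [abs_of_nonpos (by linarith)]; linarith
  have h4 : ‖v‖ ≤ |F.al v| * (‖F.a‖ + ‖F.b‖) := by
    refine (norm_le_coord F v).trans ?_
    rw [mul_add]
    have := mul_le_mul_of_nonneg_right (h2.trans h3) (norm_nonneg F.b)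
    linarith
  have h5 : F.al v ≤ -(1 / (‖F.a‖ + ‖F.b‖) * ‖v‖) := by
    have e : F.al v = -|F.al v| := by rw [abs_of_nonpos (by linarith)]; ring
    rw [e, neg_le_neg_iff, one_div, inv_mul_le_iff₀ hab]
    linarith
  have h6 := hl v h5
  have h7 : A ≤ ‖F.al‖ * ‖v‖ := by
    have := F.al.le_opNorm v
    rw [Real.norm_eq_abs] at this
    linarith
  calc c / ‖F.al‖ * A ≤ c / ‖F.al‖ * (‖F.al‖ * ‖v‖) :=
        mul_le_mul_of_nonneg_left h7 (by positivity)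
    _ = c * ‖v‖ := by field_simp
    _ ≤ _ := h6

/-- **linear cost of a backward move in a gap** (deterministic) -/
theorem gp_ge {cψ : ℝ} {F : FlatData μ}
    (hpsi : ∀ (v : ℝ × ℝ) (A : ℝ), 0 ≤ A → F.al v ≤ -A → |F.be v| ≤ A → cψ * A ≤ F.ψ v)
    (hμ : NormLike μ) {t : Environment} (ht : Nn t) {H H' : ℤ → ℤ × ℤ} (hH : IsHwy H)
    (hH' : IsHwy H') {a b i z : ℤ} (hai : a ≤ i) (hzb : z ≤ b) {Δ : ℝ} (hΔ : 0 ≤ Δ)
    (h1 : F.al (toR (H' z - H i)) ≤ -Δ) (h2 : |F.be (toR (H' z - H i))| ≤ Δ)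
    (h3 : 0 ≤ F.al (toR (H' b - H a))) (h4 : 0 ≤ F.be (toR (H' b - H a)))
    {θ : ℝ × ℝ} {N : ℕ} {R : ℝ} (hN : R + 1 ≤ N) (ba : ‖pos θ (H a)‖ ≤ R)
    (bi : ‖pos θ (H i)‖ ≤ R) (bz : ‖pos θ (H' z)‖ ≤ R) (bb : ‖pos θ (H' b)‖ ≤ R) :
    cψ * Δ - 4 * devB μ N θ t ≤ gp t H H' a b i z := by
  rw [gp_eq t (phi F)]
  have e1 : ptY t (phi F) (H i) (H' z) = passageTime t (H i) (H' z) -
      (phi F (H' z) - phi F (H i)) := rfl
  have e2 : ptY t (phi F) (H a) (H' b) = passageTime t (H a) (H' b) -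
      (phi F (H' b) - phi F (H a)) := rfl
  rw [← e1, ← e2]
  have s1 : ptY t (phi F) (H a) (H i) ≤ hp t (phi F) H i - hp t (phi F) H a := by
    have := hH.pt_le ht hai
    unfold ptY hp; linarith
  have s2 : ptY t (phi F) (H' z) (H' b) ≤ hp t (phi F) H' b - hp t (phi F) H' z := by
    have := hH'.pt_le ht hzb
    unfold ptY hp; linarith
  have b1 := abs_le.1 (ptY_bounds F (t := t) ba bi hN)
  have b2 := abs_le.1 (ptY_bounds F (t := t) bi bz hN)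
  have b3 := abs_le.1 (ptY_bounds F (t := t) bz bb hN)
  have b4 := abs_le.1 (ptY_bounds F (t := t) ba bb hN)
  have p1 := F.ψ_nonneg (toR (H i - H a))
  have p3 := F.ψ_nonneg (toR (H' b - H' z))
  have p2 := hpsi _ Δ hΔ h1 h2
  have p4 : F.ψ (toR (H' b - H a)) = 0 := F.ψ_cone hμ h3 h4
  rw [p4] at b4
  linarith [b1.1, b2.1, b3.1, b4.2]

/-- routes are bounded below -/
lemma bddBelow_routes {t : Environment} (ht : Nn t) (H H' : ℤ → ℤ × ℤ) (A : Set (ℤ × ℤ))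
    (i j : ℤ) : BddBelow (routes t H H' A i j) := by
  refine ⟨hc t H i - hc t H' j, ?_⟩
  rintro c ⟨z, w, hz, hw, g, -, rfl⟩
  have h1 := hc_mono ht H hz
  have h2 := hc_mono ht H' hw
  have h3 := walkCost_nonneg ht g
  linarith

end Q

end Crest.Agent.R151
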