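import Crest.Agent.R151.E191A

/-!
# R151 / S0214 part 2, M192e — transfer of the row law along a map (owner helper192)

If `g : Ω → Ω'` carries `P` to `P'` on the sigma-algebra `m'`, then `R.Law P' m'` gives
`(R.comap g).Law P (m'.comap g)`.
-/

set_option autoImplicit false

open MeasureTheory ProbabilityTheory Set
open scoped ENNReal

namespace Crest.Agent.R151.E191

universe u w

namespace RowA

variable {Ω : Type u} {Ω' : Type w}

/-- pull-back of a row -/
def comap (R : RowA Ω') (g : Ω → Ω') : RowA Ω where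
  K s t ω := R.K s t (g ω)
  KL x ω := R.KL x (g ω)
  F w x ω := R.F w x (g ω)
  cell x ω := R.cell x (g ω)
  T := g ⁻¹' R.T

lemma comap_cross (R : RowA Ω') (g : Ω → Ω') (x : ℝ) (m : ℕ) (ω : Ω) :
    (R.comap g).cross x m ω = R.cross x m (g ω) := rfl

/-- `g` carries `P` to `P'` on the sigma-algebra `m'` -/
def Carry {mΩ : MeasurableSpace Ω} {mΩ' : MeasurableSpace Ω'} (P : Measure Ω) (P' : Measure Ω')
    (m' : MeasurableSpace Ω') (g : Ω → Ω') : Prop :=
  ∀ A, MeasurableSet[m'] A → P (g ⁻¹' A) = P' A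

section

variable {m' : MeasurableSpace Ω'} {mΩ : MeasurableSpace Ω} {mΩ' : MeasurableSpace Ω'}
  {P : Measure Ω} {P' : Measure Ω'} {g : Ω → Ω'}

lemma Carry.identDistrib {α : Type*} [MeasurableSpace α] (hc : Carry P P' m' g)
    (hm : m' ≤ mΩ') (hg : Measurable g) {X : Ω' → α} (hX : Measurable[m'] X) :
    IdentDistrib (fun ω => X (g ω)) X P P' where
  aemeasurable_fst := ((hX.mono hm le_rfl).comp hg).aemeasurable
  aemeasurable_snd := (hX.mono hm le_rfl).aemeasurable
  map_eq := by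
    ext s hs
    have h1 : Measurable fun ω => X (g ω) := (hX.mono hm le_rfl).comp hg
    rw [Measure.map_apply h1 hs, Measure.map_apply (hX.mono hm le_rfl) hs]
    exact hc _ (hX hs)

lemma Carry.real (hc : Carry P P' m' g) {A : Set Ω'} (hA : MeasurableSet[m'] A) :
    P.real (g ⁻¹' A) = P'.real A := by
  unfold Measure.real
  rw [hc A hA]

lemma Carry.setIntegral (hc : Carry P P' m' g) (hm : m' ≤ mΩ')
    (hg : Measurable g) {X : Ω' → ℝ} (hX : Measurable[m'] X) {A : Set Ω'}
    (hA : MeasurableSet[m'] A) : ∫ ω in g ⁻¹' A, X (g ω) ∂P = ∫ ω in A, X ω ∂P' := by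
  have h1 : Measurable[m'] (A.indicator X) := hX.indicator hA
  have h2 := (hc.identDistrib hm hg h1).integral_eq
  rw [integral_indicator (hm _ hA)] at h2
  rw [← h2, ← integral_indicator (hg (hm _ hA))]
  rfl

/-- **Transfer of the row law.** -/
theorem Law.comap {R : RowA Ω'} {C0 : ℝ} {n : ℕ} {δ v e : ℝ} (hc : Carry P P' m' g)
    (hm : m' ≤ mΩ') (hg : Measurable g) (h : R.Law P' m' C0 n δ v e) : (R.comap g).Law P (m'.comap g) C0 n δ v e := by
  have hcg : ∀ {X : Ω' → ℝ}, Measurable[m'] X → Measurable[m'.comap g] fun ω => X (g ω) :=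
    fun hX => hX.comp (comap_measurable g)
  have hF : ∀ w x, |x| ≤ v → Measurable[m'] (R.F w x) := h.F_meas
  have hcross : ∀ (x : ℝ) (m : ℕ), |x| ≤ v → |x + 3 * m / 16 + 1 / 32| ≤ v →
      Measurable[m'] (R.cross x m) := by
    intro x m hx hx2
    have hin : ∀ l : ℕ, l ≤ m → |x + 3 * l / 16| ≤ v := by
      intro l hl
      have h1 : (l : ℝ) ≤ m := by exact_mod_cast hl
      have h0 : (0 : ℝ) ≤ l := by positivity
      rw [abs_le] at hx hx2 ⊢
      constructor
      · linarith [hx.1]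
      · linarith [hx2.2]
    have hin2 : ∀ l : ℕ, l < m → |x + 3 * l / 16 + 7 / 32| ≤ v := by
      intro l hl
      have h1 : (l : ℝ) + 1 ≤ m := by exact_mod_cast hl
      have h0 : (0 : ℝ) ≤ l := by positivity
      rw [abs_le] at hx hx2 ⊢
      constructor
      · linarith [hx.1]
      · linarith [hx2.2]
    unfold RowA.cross
    refine Measurable.sub (Finset.measurable_fun_sum _ fun l hl => ?_)
      (Measurable.const_mul (Finset.measurable_fun_sum _ fun l hl => ?_) _)
    · exact h.cell_meas _ (hin l (Finset.mem_range.1 hl).le) (hin2 l (Finset.mem_range.1 hl))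
    · exact hF _ _ (hin l (Nat.lt_succ_iff.1 (Finset.mem_range.1 hl)))
  refine
    { K_meas := fun s t hs ht => hcg (h.K_meas s t hs ht)
      KL_meas := fun x h1 h2 => hcg (h.KL_meas x h1 h2)
      F_meas := fun w x hx => hcg (h.F_meas w x hx)
      cell_meas := fun x h1 h2 => hcg (h.cell_meas x h1 h2)
      T_meas := ⟨R.T, h.T_meas, rfl⟩
      T_prob := ?_
      K_nonneg := fun s t ω hs ht => h.K_nonneg s t _ hs ht
      K_mono := fun s s' t ω hs hs' ht hss => h.K_mono s s' t _ hs hs' ht hss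
      K_anti := fun s t t' ω hs ht ht' htt => h.K_anti s t t' _ hs ht ht' htt
      KL_nonneg := fun x ω h1 h2 => h.KL_nonneg x _ h1 h2
      F_nonneg := fun w x ω hx => h.F_nonneg w x _ hx
      F_tail := ?_
      F_int := ?_
      F_ui := ?_
      cell_small := ?_
      cells_large := ?_
      window := fun ω hω s t x m hs ht htx hxs => h.window _ hω s t x m hs ht htx hxs
      lane := fun ω hω x h1 h2 => h.lane _ hω x h1 h2 }
  · have := hc.real h.T_meas.compl
    show P.real (g ⁻¹' R.T)ᶜ ≤ e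
    rw [← preimage_compl, this]
    exact h.T_prob
  · intro w x y hw hx hy
    have hA : MeasurableSet[m'] ({ω | y * (C0 / w ^ 3) ≤ R.F w x ω} ∩ R.T) :=
      (measurableSet_le measurable_const (hF w x hx)).inter h.T_meas
    have := hc.real hA
    have e1 : {ω | y * (C0 / w ^ 3) ≤ (R.comap g).F w x ω} ∩ (R.comap g).T =
      g ⁻¹' ({ω | y * (C0 / w ^ 3) ≤ R.F w x ω} ∩ R.T) := rfl
    rw [e1, this]
    exact h.F_tail w x y hw hx hy
  · intro x hx
    exact (hc.identDistrib hm hg (hF _ x hx)).integrable_iff.2 (h.F_int x hx)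
  · intro x hx
    have := hc.setIntegral hm hg (hF (1 / (4 * n)) x hx) h.T_meas.compl
    show ∫ ω in (g ⁻¹' R.T)ᶜ, R.F (1 / (4 * n)) x (g ω) ∂P ≤ e
    rw [← preimage_compl, this]
    exact h.F_ui x hx
  · intro x y hx hx2 hy
    have hA : MeasurableSet[m'] ({ω | R.cell x ω ≤ y} ∩ R.T) :=
      (measurableSet_le (h.cell_meas x hx hx2) measurable_const).inter h.T_meas
    have := hc.real hA
    have e1 : {ω | (R.comap g).cell x ω ≤ y} ∩ (R.comap g).T =
      g ⁻¹' ({ω | R.cell x ω ≤ y} ∩ R.T) := rfl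
    rw [e1, this]
    exact h.cell_small x y hx hx2 hy
  · intro x m hx hx2
    have hA : MeasurableSet[m'] ({ω | R.cross x m ω ≤ m} ∩ R.T) :=
      (measurableSet_le (hcross x m hx hx2) measurable_const).inter h.T_meas
    have := hc.real hA
    have e1 : {ω | (R.comap g).cross x m ω ≤ m} ∩ (R.comap g).T =
      g ⁻¹' ({ω | R.cross x m ω ≤ m} ∩ R.T) := rfl
    rw [e1, this]
    exact h.cells_large x m hx hx2

/-- transfer of alternative 1 -/
theorem Cheap.comap {R : RowA Ω'} {C0 δ : ℝ} (hc : Carry P P' m' g)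
    (hm : m' ≤ mΩ') (hg : Measurable g)
    (hK : ∀ x : ℝ, -(1 / 16) ≤ x → x < 1 / 8 → Measurable[m'] (R.K x (x + 5 * δ)))
    (hT : MeasurableSet[m'] R.T)
    (h : R.Cheap P' C0 δ) : (R.comap g).Cheap P C0 δ where
  int := by
    intro x h1 h2
    have h3 := h.int x h1 h2
    have h4 : Measurable[m'] (R.T.indicator (R.K x (x + 5 * δ))) := (hK x h1 h2).indicator hT
    have h5 := (hc.identDistrib hm hg h4).integrable_iff
    rw [integrable_indicator_iff (hm _ hT)] at h5
    have h6 := h5.2 h3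
    have h7 : MeasurableSet (R.comap g).T := hg (hm _ hT)
    rw [← integrable_indicator_iff h7]
    exact h6
  mean := by
    intro x h1 h2
    have := hc.setIntegral hm hg (hK x h1 h2) hT
    show ∫ ω in g ⁻¹' R.T, R.K x (x + 5 * δ) (g ω) ∂P ≤ 1 / 32
    rw [this]
    exact h.mean x h1 h2
  tail := by
    intro x y h1 h2 hy
    have hA : MeasurableSet[m'] ({ω | y ≤ R.K x (x + 5 * δ) ω} ∩ R.T) :=
      (measurableSet_le measurable_const (hK x h1 h2)).inter hT
    have := hc.real hA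
    have e1 : {ω | y ≤ (R.comap g).K x (x + 5 * δ) ω} ∩ (R.comap g).T =
      g ⁻¹' ({ω | y ≤ R.K x (x + 5 * δ) ω} ∩ R.T) := rfl
    rw [e1, this]
    exact h.tail x y h1 h2 hy

/-- transfer of alternative 2 -/
theorem Costly.comap {R : RowA Ω'} {C0 δ v e : ℝ} (hc : Carry P P' m' g)
    (hK : ∀ s t : ℝ, |s| ≤ v → |t| ≤ v → Measurable[m'] (R.K s t)) (hT : MeasurableSet[m'] R.T)
    (h : R.Costly P' C0 δ v e) : (R.comap g).Costly P C0 δ v e := by
  intro x κ hx hx2 hκ
  have hA : MeasurableSet[m'] ({ω | R.K x (x + δ) ω ≤ κ} ∩ R.T) :=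
    (measurableSet_le (hK x _ hx hx2) measurable_const).inter hT
  have := hc.real hA
  have e1 : {ω | (R.comap g).K x (x + δ) ω ≤ κ} ∩ (R.comap g).T =
    g ⁻¹' ({ω | R.K x (x + δ) ω ≤ κ} ∩ R.T) := rfl
  rw [e1, this]
  exact h x κ hx hx2 hκ

end

end RowA

section strat

variable {Ω : Type u} {Ω' : Type w} {m' : MeasurableSpace Ω'} {mΩ : MeasurableSpace Ω}
  {mΩ' : MeasurableSpace Ω'} {P : Measure Ω} {P' : Measure Ω'} {g : Ω → Ω'}

/-- transfer of the strategy -/
def Strategy.comap {R : RowA Ω'} {C0 : ℝ} {n : ℕ} {δ v e : ℝ} (hc : RowA.Carry P P' m' g)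
    (hm : m' ≤ mΩ') (hg : Measurable g) (hL : R.Law P' m' C0 n δ v e) (hv : 1 / 8 ≤ v)
    (S : Strategy R P' m' C0 n δ e) : Strategy (R.comap g) P (m'.comap g) C0 n δ e where
  fA := S.fA
  fB := S.fB
  wmin := S.wmin
  Acr := S.Acr
  C' := S.C'
  wmin_pos := S.wmin_pos
  Acr_le := S.Acr_le
  low := S.low
  base_A := S.base_A
  base_B := S.base_B
  top := S.top
  recA := by
    rintro f hf N x h1 h2 _ ⟨B, hB, rfl⟩ hint
    have hxv : |x| ≤ v := by
      rw [abs_le]; constructor <;> linarith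
    have hKm := hL.KL_meas x h1 h2
    have hFm := hL.F_meas (1 / (4 * n)) x hxv
    have e1 : ∫ ω in (g ⁻¹' B)ᶜ, (R.comap g).KL x ω ∂P = ∫ ω in Bᶜ, R.KL x ω ∂P' := by
      rw [← preimage_compl]
      exact hc.setIntegral hm hg hKm hB.compl
    have e2 : ∫ ω in g ⁻¹' B, (R.comap g).F (1 / (4 * n)) x ω ∂P =
        ∫ ω in B, R.F (1 / (4 * n)) x ω ∂P' := hc.setIntegral hm hg hFm hB
    have e3 : P.real (g ⁻¹' B)ᶜ = P'.real Bᶜ := by
      rw [← preimage_compl]
      exact hc.real hB.compl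
    have e4 : P.real (g ⁻¹' B) = P'.real B := hc.real hB
    have hint' : IntegrableOn (R.KL x) Bᶜ P' := by
      have h4 : Measurable[m'] (Bᶜ.indicator (R.KL x)) := hKm.indicator hB.compl
      have h5 := (hc.identDistrib hm hg h4).integrable_iff
      rw [integrable_indicator_iff (hm _ hB.compl)] at h5
      rw [← h5]
      have h6 : IntegrableOn ((R.comap g).KL x) (g ⁻¹' B)ᶜ P := hint
      rw [← preimage_compl, ← integrable_indicator_iff (hg (hm _ hB.compl))] at h6
      exact h6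
    rw [e1, e2, e3, e4]
    exact S.recA f hf N x h1 h2 B hB hint'
  recB := S.recB

end strat

end Crest.Agent.R151.E191
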