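import Crest.Agent.R151.M192d
import Crest.Agent.R151.M192e
import Crest.Agent.R151.G338h

/-!
# R151 / S0214 part 2, M192f — the row instance `rowA` of `E191.RowA` (owner helper192)

Row space `Row (ℝ × ℝ) = ((θ, t), (u, u'))`, law `(P0 G).prod (UU.prod UU)`, sigma-algebra
`mB h d = mIL _ (fun θ => edgesIn (h.band d θ))`.  `pe t` = positive part of `t` (so that the fields
"for all `ω`" hold).  Gauge: region `univ`, labels `±L`.
-/

set_option autoImplicit false

open MeasureTheory Filter ProbabilityTheory Topology Set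
open Crest.ProbabilityR.FirstPassage
open scoped ENNReal

namespace Crest.Agent.R151.M192

open Crest.Agent.R151.K
open Q (pos Hwy Inv P0 UU UU2 rg bddBelow_routes)
open R78 (hull routes hull_mono routes_mono)
open B710 (FlatData)

/-! ### Positive part of the environment -/

/-- positive part of the environment -/
noncomputable def pe (t : Environment) : Environment := fun e => max (t e) 0

lemma pe_nn (t : Environment) : Nn (pe t) := fun _ => le_max_right _ _

lemma pe_of_nn {t : Environment} (ht : Nn t) : pe t = t := funext fun e => max_eq_left (ht e)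

lemma pe_act (m : ℤ × ℤ) (t : Environment) : pe (act (tr m) t) = act (tr m) (pe t) := rfl

lemma measurable_pe : Measurable pe :=
  measurable_pi_iff.2 fun e => (measurable_pi_apply e).max measurable_const

lemma pe_congr {E : Set (Sym2 (ℤ × ℤ))} {t t' : Environment} (h : ∀ e ∈ E, t e = t' e) :
    ∀ e ∈ E, pe t e = pe t' e := fun e he => by unfold pe; rw [h e he]

lemma ae_pe {G : Measure ℝ} [IsProbabilityMeasure G] (h0 : G (Iio 0) = 0) :
    ∀ᵐ t ∂(iidLaw G), pe t = t := by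
  filter_upwards [ae_Nn h0] with t ht using pe_of_nn ht

/-- on every space `P0 G × ν` the positive part may be dropped -/
lemma ae_pe_prod {G : Measure ℝ} [IsProbabilityMeasure G] (h0 : G (Iio 0) = 0) {Φ : Type*}
    [MeasurableSpace Φ] (ν : Measure Φ) [SFinite ν] :
    ∀ᵐ q ∂((P0 G).prod ν), pe q.1.2 = q.1.2 := by
  have h1 : ∀ᵐ p ∂(P0 G), pe p.2 = p.2 :=
    (Measure.quasiMeasurePreserving_snd (μ := UU2) (ν := iidLaw G)).ae (ae_pe h0)
  exact (Measure.quasiMeasurePreserving_fst (μ := P0 G) (ν := ν)).ae h1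

lemma Inv.pe {α : Type*} {f : ℝ × ℝ → Environment → α} (hf : Inv f) :
    Inv fun θ t => f θ (pe t) := fun m θ t => hf m θ (M192.pe t)

lemma dependsOn_pe {α : Type*} {f : Environment → α} {E : Set (Sym2 (ℤ × ℤ))}
    (hf : DependsOn f E) : DependsOn (fun t => f (pe t)) E := fun _ _ h => hf (pe_congr h)

/-! ### Existence of routes -/

variable {μ : ℝ × ℝ → ℝ} {F : FlatData μ}

/-- routes exist: straight up at `al = σ₁`, then horizontally, then straight up at `al = σ₂` -/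
def Routable (h : Hwy F) (d : ℝ × ℝ) (C : ℝ) : Prop :=
  ∀ (I : Set ℝ) (σ₁ σ₂ : ℝ) (θ : ℝ × ℝ) (t : Environment) (φ : ℝ × ℝ) (i j : ℤ),
    Icc (min σ₁ σ₂ - C) (max σ₁ σ₂ + C) ⊆ I → i ≤ h.iL (σ₁ - C) θ t φ →
    h.iU d (σ₂ + C + h.κ) θ t φ ≤ j →
    (routes t (h.Lo θ t φ) (h.Up d θ t φ) (rg F I θ) i j).Nonempty

lemma rg_mono {I J : Set ℝ} (h : I ⊆ J) (θ : ℝ × ℝ) : rg F I θ ⊆ rg F J θ := fun _ hz => h hz

lemma iL_mono (h : Hwy F) {s s' : ℝ} (hs : s ≤ s') (θ : ℝ × ℝ) (t : Environment) (φ : ℝ × ℝ) :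
    h.iL s θ t φ ≤ h.iL s' θ t φ := h.ix_mono hs _ _ _

lemma iU_mono (h : Hwy F) (d : ℝ × ℝ) {s s' : ℝ} (hs : s ≤ s') (θ : ℝ × ℝ) (t : Environment)
    (φ : ℝ × ℝ) : h.iU d s θ t φ ≤ h.iU d s' θ t φ := h.ix_mono hs _ _ _

/-- monotonicity of the hull kernel in the region and the labels -/
lemma hk_le_hk {h : Hwy F} {d : ℝ × ℝ} {C : ℝ} (hR : Routable h d C) {I J : Set ℝ} (hIJ : I ⊆ J)
    {s r s' r' : ℝ} (hs : s ≤ s') (hr : r' ≤ r) {σ₁ σ₂ : ℝ}
    (hI : Icc (min σ₁ σ₂ - C) (max σ₁ σ₂ + C) ⊆ I) (h1 : s' ≤ σ₁ - C)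
    (h2 : σ₂ + C + h.κ ≤ r') {θ : ℝ × ℝ} {t : Environment} (ht : Nn t) (φ : ℝ × ℝ) :
    h.hk d J s r θ t φ ≤ h.hk d I s' r' θ t φ := by
  unfold Hwy.hk
  exact hull_mono (bddBelow_routes ht _ _ _ _ _)
    (hR I σ₁ σ₂ θ t φ _ _ hI (iL_mono h h1 θ t φ) (iU_mono h d h2 θ t φ))
    (rg_mono hIJ θ) (iL_mono h hs θ t φ) (iU_mono h d hr θ t φ)

/-- the same for arbitrary regions containing everything -/
lemma sk_nonneg {h : Hwy F} {d : ℝ × ℝ} {C : ℝ} (hR : Routable h d C) {I : Set ℝ} {L : ℝ}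
    {s r : ℝ} (hs : -L ≤ s) (hr : r ≤ L) {σ₁ σ₂ : ℝ}
    (hI : Icc (min σ₁ σ₂ - C) (max σ₁ σ₂ + C) ⊆ I) (h1 : s ≤ σ₁ - C)
    (h2 : σ₂ + C + h.κ ≤ r) {θ : ℝ × ℝ} {t : Environment} (ht : Nn t) (φ : ℝ × ℝ) :
    0 ≤ h.sk d I univ L s r θ t φ := by
  have := hk_le_hk hR (subset_univ I) hs hr hI h1 h2 (θ := θ) ht φ
  unfold Hwy.sk; linarith

lemma sk_le_sk {h : Hwy F} {d : ℝ × ℝ} {C : ℝ} (hR : Routable h d C) {I J : Set ℝ} {L : ℝ}
    (hIJ : I ⊆ J) {s r s' r' : ℝ} (hs : s ≤ s') (hr : r' ≤ r) {σ₁ σ₂ : ℝ}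
    (hI : Icc (min σ₁ σ₂ - C) (max σ₁ σ₂ + C) ⊆ I) (h1 : s' ≤ σ₁ - C)
    (h2 : σ₂ + C + h.κ ≤ r') {θ : ℝ × ℝ} {t : Environment} (ht : Nn t) (φ : ℝ × ℝ) :
    h.sk d J univ L s r θ t φ ≤ h.sk d I univ L s' r' θ t φ := by
  have := hk_le_hk hR hIJ hs hr hI h1 h2 (θ := θ) ht φ
  unfold Hwy.sk; linarith

/-! ### The row instance -/

/-- sigma-algebra of a row with displacement `d` -/
@[instance_reducible] def mB (h : Hwy F) (d : ℝ × ℝ) : MeasurableSpace (Row (ℝ × ℝ)) :=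
  mIL (ℝ × ℝ) fun θ => edgesIn (h.band d θ)

lemma mB_le (h : Hwy F) (d : ℝ × ℝ) :
    mB h d ≤ (inferInstance : MeasurableSpace (Row (ℝ × ℝ))) := mIL_le _

/-- normalised sharp kernel of a row, positive part of the environment -/
noncomputable def skp (h : Hwy F) (y l L : ℝ) (I : Set ℝ) (s r : ℝ) (q : Row (ℝ × ℝ)) : ℝ :=
  h.sk (y • F.b) I univ L s r q.1.1 (pe q.1.2) q.2 / l

lemma ae_skp {G : Measure ℝ} [IsProbabilityMeasure G] (h0 : G (Iio 0) = 0) (h : Hwy F)
    (y l L : ℝ) (I : Set ℝ) (s r : ℝ) :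
    ∀ᵐ q ∂((P0 G).prod (UU.prod UU)), skp h y l L I s r q =
      h.sk (y • F.b) I univ L s r q.1.1 q.1.2 q.2 / l := by
  filter_upwards [ae_pe_prod h0 (UU.prod UU)] with q hq
  unfold skp
  rw [hq]

open Classical in
/-- **the row instance** -/
noncomputable def rowA (h : Hwy F) (W L y l c δ : ℝ) (T : Set (Row (ℝ × ℝ))) :
    E191.RowA (Row (ℝ × ℝ)) where
  K s t q := skp h y l L univ (s * W) (t * W) q
  KL x q := skp h y l L (Icc (-(7 / 16 * W)) (7 / 16 * W)) (x * W) ((x + 5 * δ) * W) q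
  F w x q := if 4 * c ≤ w * W ∧ w ≤ 1 then
    skp h y l L (Icc (x * W + c) ((x + w) * W - c)) (x * W + c) ((x + w) * W - c) q else 0
  cell x q := skp h y l L (Icc (x * W) ((x + 7 / 32) * W)) ((x + 6 / 32) * W) ((x + 1 / 32) * W) q
  T := T

lemma be_smul_b (F : FlatData μ) (y : ℝ) : F.be (y • F.b) = y := by
  rw [map_smul, F.be_b, smul_eq_mul, mul_one]

lemma measurable_skp (h : Hwy F) {y : ℝ} (hy : h.wH < y) (l L : ℝ) {I : Set ℝ}
    (hI : MeasurableSet I) (s r : ℝ) : Measurable[mB h (y • F.b)] (skp h y l L I s r) := by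
  refine measurable_mIL (E := fun θ => edgesIn (h.band (y • F.b) θ))
    (X := fun θ t φ => h.sk (y • F.b) I univ L s r θ (pe t) φ / l) ?_ (fun φ => ?_)
    (fun θ φ => ?_)
  · refine Measurable.div_const ?_ _
    exact h.meas_sk (measurable_fst.comp measurable_fst)
      (measurable_pe.comp (measurable_snd.comp measurable_fst)) measurable_snd _ hI
      MeasurableSet.univ _ _ _
  · intro m θ t
    have := h.sk_inv (y • F.b) I univ L s r φ m θ (pe t)
    simp only at this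
    simp only [pe_act, this]
  · intro t t' htt
    have := h.sk_loc (d := y • F.b) (by rw [be_smul_b]; exact hy) I univ L s r θ φ
      (pe_congr htt)
    simp only at this
    simp only [this]

/-- parameters of the row instance -/
structure RowOK (h : Hwy F) (W L y l c δ v C : ℝ) : Prop where
  W_pos : 0 < W
  l_pos : 0 < l
  wH_lt : h.wH < y
  C_nonneg : 0 ≤ C
  routable : Routable h (y • F.b) C
  c_ge : C + h.κ ≤ c
  L_ge : (v + 1) * W ≤ L
  v_ge : 1 ≤ v
  δ_nonneg : 0 ≤ δ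
  δ_le : δ ≤ 1 / 32
  small : 2 * C + h.κ ≤ W / 16

variable {h : Hwy F} {W L y l c δ v C : ℝ} {T : Set (Row (ℝ × ℝ))}

namespace RowOK

variable (hO : RowOK h W L y l c δ v C)
include hO

lemma lab {x : ℝ} (hx : |x| ≤ v + 1) : -L ≤ x * W ∧ x * W ≤ L := by
  have h1 := hO.W_pos
  have h2 := hO.L_ge
  rw [abs_le] at hx
  constructor
  · have := mul_le_mul_of_nonneg_right hx.1 h1.le
    linarith
  · have := mul_le_mul_of_nonneg_right hx.2 h1.le
    linarith

theorem K_nonneg (s r : ℝ) (q : Row (ℝ × ℝ)) (hs : |s| ≤ v) (hr : |r| ≤ v) :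
    0 ≤ (rowA h W L y l c δ T).K s r q := by
  have h1 := hO.lab (x := s) (by linarith)
  have h2 := hO.lab (x := r) (by linarith)
  refine div_nonneg ?_ hO.l_pos.le
  exact sk_nonneg hO.routable h1.1 h2.2 (σ₁ := s * W + C) (σ₂ := r * W - C - h.κ)
    (subset_univ _) (by linarith) (by linarith) (pe_nn _) _

theorem K_mono (s s' r : ℝ) (q : Row (ℝ × ℝ)) (hss : s ≤ s') :
    (rowA h W L y l c δ T).K s r q ≤ (rowA h W L y l c δ T).K s' r q := by
  refine div_le_div_of_nonneg_right ?_ hO.l_pos.le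
  exact sk_le_sk hO.routable subset_rfl (mul_le_mul_of_nonneg_right hss hO.W_pos.le) le_rfl
    (σ₁ := s' * W + C) (σ₂ := r * W - C - h.κ) (subset_univ _) (by linarith) (by linarith)
    (pe_nn _) _

theorem K_anti (s r r' : ℝ) (q : Row (ℝ × ℝ)) (hrr : r ≤ r') :
    (rowA h W L y l c δ T).K s r' q ≤ (rowA h W L y l c δ T).K s r q := by
  refine div_le_div_of_nonneg_right ?_ hO.l_pos.le
  exact sk_le_sk hO.routable subset_rfl le_rfl (mul_le_mul_of_nonneg_right hrr hO.W_pos.le)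
    (σ₁ := s * W + C) (σ₂ := r * W - C - h.κ) (subset_univ _) (by linarith) (by linarith)
    (pe_nn _) _

theorem KL_nonneg (x : ℝ) (q : Row (ℝ × ℝ)) (h1 : -(1 / 16) ≤ x) (h2 : x < 1 / 8) :
    0 ≤ (rowA h W L y l c δ T).KL x q := by
  have hW := hO.W_pos
  have hδ := hO.δ_nonneg
  have hδ2 := hO.δ_le
  have hv := hO.v_ge
  have hsm := hO.small
  have hC := hO.C_nonneg
  have hκ := h.κ_nonneg
  have a1 := hO.lab (x := x) (by rw [abs_le]; constructor <;> linarith)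
  have a2 := hO.lab (x := x + 5 * δ) (by rw [abs_le]; constructor <;> linarith)
  have b1 : -(1 / 16) * W ≤ x * W := mul_le_mul_of_nonneg_right h1 hW.le
  have b2 : x * W ≤ 1 / 8 * W := mul_le_mul_of_nonneg_right h2.le hW.le
  have b3 : δ * W ≤ 1 / 32 * W := mul_le_mul_of_nonneg_right hδ2 hW.le
  have b4 : 0 ≤ δ * W := mul_nonneg hδ hW.le
  refine div_nonneg ?_ hO.l_pos.le
  refine sk_nonneg hO.routable a1.1 a2.2 (σ₁ := x * W + C) (σ₂ := (x + 5 * δ) * W - C - h.κ)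
    (Icc_subset_Icc ?_ ?_) (by linarith) (by linarith) (pe_nn _) _
  · rw [le_sub_iff_add_le, le_min_iff]
    constructor <;> nlinarith
  · rw [← le_sub_iff_add_le, max_le_iff]
    constructor <;> nlinarith

theorem F_nonneg (w x : ℝ) (q : Row (ℝ × ℝ)) (hx : |x| ≤ v) :
    0 ≤ (rowA h W L y l c δ T).F w x q := by
  have hW := hO.W_pos
  have hC := hO.C_nonneg
  have hκ := h.κ_nonneg
  have hc := hO.c_ge
  show 0 ≤ if 4 * c ≤ w * W ∧ w ≤ 1 then _ else (0 : ℝ)
  split_ifs with hw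
  · have a1 := hO.lab (x := x) (by linarith)
    have a2 := hO.lab (x := x + w) (by
      rw [abs_le] at hx ⊢
      have : 0 ≤ w := by
        by_contra hneg
        push Not at hneg
        have := mul_neg_of_neg_of_pos hneg hW
        linarith [hw.1]
      constructor <;> linarith [hx.1, hx.2, hw.2])
    refine div_nonneg ?_ hO.l_pos.le
    have e : (x + w) * W = x * W + w * W := by ring
    refine sk_nonneg hO.routable (by linarith [a1.1]) (by linarith [a2.2])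
      (σ₁ := x * W + c + C) (σ₂ := (x + w) * W - c - C - h.κ)
      (Icc_subset_Icc ?_ ?_) (by linarith) (by linarith) (pe_nn _) _
    · rw [le_sub_iff_add_le, le_min_iff]
      constructor
      · linarith
      · rw [e]; linarith [hw.1]
    · rw [← le_sub_iff_add_le, max_le_iff]
      constructor
      · rw [e]; linarith [hw.1]
      · linarith
  · exact le_rfl

/-- **The row law from its probabilistic and planar fields.** -/
theorem law (hT : MeasurableSet[mB h (y • F.b)] T) {P : Measure (Row (ℝ × ℝ))} {C0 e : ℝ} {n : ℕ}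
    (T_prob : P.real Tᶜ ≤ e)
    (F_tail : ∀ w x y' : ℝ, (w = 1 / 32 ∨ w = 1 / (4 * n)) → |x| ≤ v → 0 ≤ y' →
      P.real ({ω | y' * (C0 / w ^ 3) ≤ (rowA h W L y l c δ T).F w x ω} ∩ T) ≤
        C0 * Real.exp (-y' / C0))
    (F_int : ∀ x : ℝ, |x| ≤ v → Integrable ((rowA h W L y l c δ T).F (1 / (4 * n)) x) P)
    (F_ui : ∀ x : ℝ, |x| ≤ v → ∫ ω in Tᶜ, (rowA h W L y l c δ T).F (1 / (4 * n)) x ω ∂P ≤ e)
    (cell_small : ∀ x y' : ℝ, |x| ≤ v → |x + 7 / 32| ≤ v → 0 ≤ y' →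
      P.real ({ω | (rowA h W L y l c δ T).cell x ω ≤ y'} ∩ T) ≤ C0 * y' / n ^ 5 + e)
    (cells_large : ∀ (x : ℝ) (m : ℕ), |x| ≤ v → |x + 3 * m / 16 + 1 / 32| ≤ v →
      P.real ({ω | (rowA h W L y l c δ T).cross x m ω ≤ m} ∩ T) ≤
        Real.exp (-((Real.log n / C0 - C0) * m)))
    (window : ∀ ω ∈ T, ∀ (s t x : ℝ) (m : ℕ), |s| ≤ v → |t| ≤ v → t ≤ x →
      x + 3 * m / 16 + 1 / 32 ≤ s →
      (rowA h W L y l c δ T).cross x m ω ≤ (rowA h W L y l c δ T).K s t ω)
    (lane : ∀ ω ∈ T, ∀ x : ℝ, -(1 / 16) ≤ x → x < 1 / 8 →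
      min ((rowA h W L y l c δ T).KL x ω) (min ((rowA h W L y l c δ T).cross (5 / 32) 1 ω)
        ((rowA h W L y l c δ T).cross (-(11 / 32)) 1 ω)) ≤
        (rowA h W L y l c δ T).K x (x + 5 * δ) ω) :
    (rowA h W L y l c δ T).Law P (mB h (y • F.b)) C0 n δ v e where
  K_meas s t _ _ := measurable_skp h hO.wH_lt l L MeasurableSet.univ _ _
  KL_meas x _ _ := measurable_skp h hO.wH_lt l L measurableSet_Icc _ _
  F_meas w x _ := by
    by_cases hw : 4 * c ≤ w * W ∧ w ≤ 1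
    · have : (rowA h W L y l c δ T).F w x =
          skp h y l L (Icc (x * W + c) ((x + w) * W - c)) (x * W + c) ((x + w) * W - c) := by
        funext q; exact if_pos hw
      rw [this]
      exact measurable_skp h hO.wH_lt l L measurableSet_Icc _ _
    · have : (rowA h W L y l c δ T).F w x = fun _ => 0 := by
        funext q; exact if_neg hw
      rw [this]
      exact @measurable_const _ _ _ (mB h (y • F.b)) _
  cell_meas x _ _ := measurable_skp h hO.wH_lt l L measurableSet_Icc _ _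
  T_meas := hT
  T_prob := T_prob
  K_nonneg s t ω hs ht := hO.K_nonneg s t ω hs ht
  K_mono s s' t ω _ _ _ hss := hO.K_mono s s' t ω hss
  K_anti s t t' ω _ _ _ htt := hO.K_anti s t t' ω htt
  KL_nonneg x ω h1 h2 := hO.KL_nonneg x ω h1 h2
  F_nonneg w x ω hx := hO.F_nonneg w x ω hx
  F_tail := F_tail
  F_int := F_int
  F_ui := F_ui
  cell_small := cell_small
  cells_large := cells_large
  window := window
  lane := lane

end RowOK

end Crest.Agent.R151.M192
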