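import Mathlib

/-!
# R151 / S0214 part 2, E191A — interface of the probabilistic endgame (owner helper191)

Everything is normalised: lengths in units of `W`, costs in units of
`l := (pitch of the A-rows) * (excess rate of the b-lane of width W)`.
Positions are labels (values of `al / W`).  Parameters, in the order in which they are chosen:
`C0` (universal constant), `θ < 1`, `n` (with `M = n ^ 5`, `c₁ = 1 / n`, `M_f = C0 n ^ 4`), `δ`,
`v`, `e`.

* rows of type A: height `≈ h / 2`;  rows of type B: height `≈ h` (replacing exactly two A-rows);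
* `h` is the minimal height such that the median of the lane cost of a fall `W / 8` is
  `≤ n ^ 5 l_h`.
-/

set_option autoImplicit false

namespace Crest.Agent.R151.E191

open MeasureTheory ProbabilityTheory Set

universe u

/-- The random objects attached to one row of type A. -/
structure RowA (Ω : Type u) where
  /-- `K s t` : normalised cost `R#` (full window) from the position `s` of the lower highway to
  the position `t` of the upper highway -/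
  K : ℝ → ℝ → Ω → ℝ
  /-- `KL x` : the same from `x` to `x + 5 δ`, crossings restricted to the lane `[-7/16, 7/16]` -/
  KL : ℝ → Ω → ℝ
  /-- fences: `F w x` = `R#` from `x` to `x + w`, crossings restricted to the lane `[x, x + w]` -/
  F : ℝ → ℝ → Ω → ℝ
  /-- cells: `cell x` = `R#` from `x + 6/32` to `x + 1/32`, crossings restricted to the lane
  `[x, x + 7/32]` -/
  cell : ℝ → Ω → ℝ
  /-- typical rows -/
  T : Set Ω

namespace RowA

variable {Ω : Type u} (R : RowA Ω)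

/-- Lower bound for the cost of a route crossing leftwards the `m` consecutive cells
`[x + 3 l / 16, x + 3 l / 16 + 7 / 32]`, `l < m`. -/
noncomputable def cross (x : ℝ) (m : ℕ) (ω : Ω) : ℝ :=
  ∑ l ∈ Finset.range m, R.cell (x + 3 * l / 16) ω -
    2 * ∑ l ∈ Finset.range (m + 1), R.F (1 / 32) (x + 3 * l / 16) ω

/-- Law of one A-row; `m` = sigma-algebra of the row. -/
structure Law [MeasurableSpace Ω] (P : Measure Ω) (m : MeasurableSpace Ω)
    (C0 : ℝ) (n : ℕ) (δ v e : ℝ) : Prop where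
  K_meas : ∀ s t, |s| ≤ v → |t| ≤ v → Measurable[m] (R.K s t)
  KL_meas : ∀ x, -(1 / 16) ≤ x → x < 1 / 8 → Measurable[m] (R.KL x)
  F_meas : ∀ w x, |x| ≤ v → Measurable[m] (R.F w x)
  cell_meas : ∀ x, |x| ≤ v → |x + 7 / 32| ≤ v → Measurable[m] (R.cell x)
  T_meas : MeasurableSet[m] R.T
  T_prob : P.real R.Tᶜ ≤ e
  K_nonneg : ∀ s t ω, |s| ≤ v → |t| ≤ v → 0 ≤ R.K s t ω
  K_mono : ∀ s s' t ω, |s| ≤ v → |s'| ≤ v → |t| ≤ v → s ≤ s' → R.K s t ω ≤ R.K s' t ω
  K_anti : ∀ s t t' ω, |s| ≤ v → |t| ≤ v → |t'| ≤ v → t ≤ t' → R.K s t' ω ≤ R.K s t ω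
  KL_nonneg : ∀ x ω, -(1 / 16) ≤ x → x < 1 / 8 → 0 ≤ R.KL x ω
  F_nonneg : ∀ w x ω, |x| ≤ v → 0 ≤ R.F w x ω
  /-- exponential tail of the fences on typical rows -/
  F_tail : ∀ w x y : ℝ, (w = 1 / 32 ∨ w = 1 / (4 * n)) → |x| ≤ v → 0 ≤ y →
    P.real ({ω | y * (C0 / w ^ 3) ≤ R.F w x ω} ∩ R.T) ≤ C0 * Real.exp (-y / C0)
  F_int : ∀ x : ℝ, |x| ≤ v → Integrable (R.F (1 / (4 * n)) x) P
  /-- uniform integrability of the fences: atypical rows do not matter -/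
  F_ui : ∀ x : ℝ, |x| ≤ v → ∫ ω in R.Tᶜ, R.F (1 / (4 * n)) x ω ∂P ≤ e
  /-- small ball for the cells, from `median > n ^ 5 l` at height `h / 2` and (T1) -/
  cell_small : ∀ x y : ℝ, |x| ≤ v → |x + 7 / 32| ≤ v → 0 ≤ y →
    P.real ({ω | R.cell x ω ≤ y} ∩ R.T) ≤ C0 * y / n ^ 5 + e
  /-- large deviations for `m` consecutive cells -/
  cells_large : ∀ (x : ℝ) (m : ℕ), |x| ≤ v → |x + 3 * m / 16 + 1 / 32| ≤ v →
    P.real ({ω | R.cross x m ω ≤ m} ∩ R.T) ≤ Real.exp (-((Real.log n / C0 - C0) * m))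
  /-- window inequality (8.1) -/
  window : ∀ ω ∈ R.T, ∀ (s t x : ℝ) (m : ℕ), |s| ≤ v → |t| ≤ v → t ≤ x →
    x + 3 * m / 16 + 1 / 32 ≤ s → R.cross x m ω ≤ R.K s t ω
  /-- an optimal route `x → x + 5 δ` stays in the lane or crosses leftwards the cell
  `[5/32, 12/32]` or the cell `[-11/32, -4/32]` -/
  lane : ∀ ω ∈ R.T, ∀ x : ℝ, -(1 / 16) ≤ x → x < 1 / 8 →
    min (R.KL x ω) (min (R.cross (5 / 32) 1 ω) (R.cross (-(11 / 32)) 1 ω)) ≤
      R.K x (x + 5 * δ) ω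

/-- Alternative 1: rows are cheap (leads to the strategy). -/
structure Cheap [MeasurableSpace Ω] (P : Measure Ω) (C0 δ : ℝ) : Prop where
  int : ∀ x : ℝ, -(1 / 16) ≤ x → x < 1 / 8 → IntegrableOn (R.K x (x + 5 * δ)) R.T P
  mean : ∀ x : ℝ, -(1 / 16) ≤ x → x < 1 / 8 → ∫ ω in R.T, R.K x (x + 5 * δ) ω ∂P ≤ 1 / 32
  tail : ∀ x y : ℝ, -(1 / 16) ≤ x → x < 1 / 8 → 0 ≤ y →
    P.real ({ω | y ≤ R.K x (x + 5 * δ) ω} ∩ R.T) ≤ C0 * Real.exp (-y / C0)

/-- Alternative 2: small ball for the full kernel `x → x + δ` (leads to Peierls). -/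
def Costly [MeasurableSpace Ω] (P : Measure Ω) (C0 δ v e : ℝ) : Prop :=
  ∀ x κ : ℝ, |x| ≤ v → |x + δ| ≤ v → 0 ≤ κ →
    P.real ({ω | R.K x (x + δ) ω ≤ κ} ∩ R.T) ≤ C0 * κ + e

end RowA

/-- The value functions of the strategies.  `fA N x` (resp. `fB N x`) = mean excess (plus gauge
`p (x)`), in units of `l`, of an optimal walk in the b-lane `|al| ≤ W / 2`, above the base line of
row `0`, from the position `x` of the lower highway of the A-row (resp. B-row) at the height of row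
`0` to the end, `N` pitches of A-rows higher.
In each inequality the two branches lead to the SAME type of next row (`f` = `fA` or `fB`), so that
the gauge sum does not depend on the branch. -/
structure Strategy {Ω : Type u} [MeasurableSpace Ω] (R : RowA Ω) (P : Measure Ω)
    (m : MeasurableSpace Ω) (C0 : ℝ) (n : ℕ) (δ e : ℝ) where
  fA : ℕ → ℝ → ℝ
  fB : ℕ → ℝ → ℝ
  /-- minimal width of a fence of a B-row (in units of `W`, i.e. `const / W`) -/
  wmin : ℝ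
  /-- crude cost (in units of `l`) of a displacement `O(W)` -/
  Acr : ℝ
  C' : ℝ
  wmin_pos : 0 < wmin
  Acr_le : Acr + 152 ≤ 1 / (4 * wmin) ^ 3
  /-- definition of the rate of the lane -/
  low : ∀ N : ℕ, N - C' ≤ fA N 0
  base_A : ∀ N ≤ 1, ∀ x : ℝ, -(1 / 16) ≤ x → x < 1 / 8 → fA N x ≤ C'
  base_B : ∀ N ≤ 1, ∀ x : ℝ, 0 ≤ x → x < 3 / 16 → fB N x ≤ C'
  top : ∀ (N : ℕ) (x : ℝ), 0 ≤ x → x < 3 / 16 → fB N x ≤ fA N 0 + Acr
  /-- one A-row (then a gap fence of width `δ`): on `Bᶜ` the lane route `x → x + 5 δ`, on `B` a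
  fence of width `1 / (4 n)` -/
  recA : ∀ f, (f = fA ∨ f = fB) → ∀ (N : ℕ) (x : ℝ), -(1 / 16) ≤ x → x < 1 / 8 →
    ∀ B : Set Ω, MeasurableSet[m] B → IntegrableOn (R.KL x) Bᶜ P →
    fA (N + 1) x ≤ ∫ ω in Bᶜ, R.KL x ω ∂P + ∫ ω in B, R.F (1 / (4 * n)) x ω ∂P + e +
      P.real Bᶜ * f N (x + 6 * δ) + P.real B * f N (x + 1 / (4 * n) + δ)
  /-- one B-row: on typical B-rows a fall `1 / (2 n)` (conditional mean cost `≤ C0 n ^ 4`), on
  atypical B-rows a fence of width `w` (mean cost on the atypical event `≤ e / w ^ 3`); then a gap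
  fence of width `δ`, resp. `w / 2`; `p` = probability of an atypical B-row -/
  recB : ∀ f, (f = fA ∨ f = fB) → ∀ (N : ℕ) (x w : ℝ), 0 ≤ x → x < 3 / 16 → wmin ≤ w →
    w ≤ (3 / 16 - x) / 2 → ∃ p : ℝ, 0 ≤ p ∧ p ≤ e ∧
    fB (N + 2) x ≤ C0 * n ^ 4 + e / w ^ 3 + (1 - p) * f N (x - 1 / (2 * n) + δ) +
      p * f N (x + 3 * w / 2)

/-- Existence of cheap walks in the lane of width `≈ v W` crossing many A-rows, decomposed along
the rows: `z k` position on the lower highway of row `k`, `w k` position on the upper highway of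
row `k`, `gap k` = normalised cost of the piece `w k → z (k + 1)`. -/
structure Paths {Ω : Type u} [MeasurableSpace Ω] (R : ℕ → RowA Ω) (P : Measure Ω)
    (C0 θ δ v e : ℝ) where
  C' : ℝ
  /-- good gaps -/
  GD : ℕ → Set Ω
  GD_meas : ∀ k, MeasurableSet (GD k)
  GD_prob : ∀ k, P.real (GD k)ᶜ ≤ e
  path : ∀ N : ℕ, ∃ Y : Ω → ℝ, Integrable Y P ∧ ∫ ω, Y ω ∂P ≤ (C0 * v ^ (θ - 1) + e) * N + C' ∧
    ∀ᵐ ω ∂P, ∃ z w gap : ℕ → ℝ, (∀ k ≤ N, |z k| ≤ v) ∧ (∀ k < N, |w k| ≤ v) ∧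
      (∀ k < N, 0 ≤ gap k) ∧
      (∀ k < N, ω ∈ GD k → δ / 8 < w k - z (k + 1) → (w k - z (k + 1)) / e ≤ gap k) ∧
      ∑ k ∈ Finset.range N, (R k).K (z k) (w k) ω + ∑ k ∈ Finset.range N, gap k ≤ Y ω

/-- The data of the endgame. -/
structure Model (C0 θ : ℝ) (n : ℕ) (δ v e : ℝ) where
  Ω : Type u
  mΩ : MeasurableSpace Ω
  P : Measure Ω
  prob : IsProbabilityMeasure P
  /-- sigma-algebras of the rows -/
  m : ℕ → MeasurableSpace Ω
  m_le : ∀ k, m k ≤ mΩ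
  indep : iIndep m P
  R : ℕ → RowA Ω
  law : ∀ k, (R k).Law P (m k) C0 n δ v e
  dich : (R 0).Cheap P C0 δ ∨ ∀ k, (R k).Costly P C0 δ v e
  strat : Strategy (R 0) P (m 0) C0 n δ e
  paths : Paths R P C0 θ δ v e

/-- The endgame theorem (to be proved in E191B-E191E). -/
def Endgame : Prop :=
  ∀ C0 θ : ℝ, 1 ≤ C0 → θ < 1 → ∃ n0 : ℕ, ∀ n ≥ n0, ∃ δ0 > 0, ∀ δ : ℝ, 0 < δ → δ ≤ δ0 →
    ∃ v0 : ℝ, ∀ v ≥ v0, ∃ e0 > 0, ∀ e : ℝ, 0 < e → e ≤ e0 → IsEmpty (Model.{u} C0 θ n δ v e)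

end Crest.Agent.R151.E191
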