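import Crest.Agent.R151.Q2
import Crest.Agent.R151.A565a
import Crest.Agent.R151.V3

/-!
# R151/J69b — jitter and independence of the private rows (owner helper69)

* `mp_frac2_neg`, `lintegral_jitter`: the jitter makes the offset of a row uniform.
* `lintegral_row_mul`: a row functional (with its own jitter and its own phases) is independent of
  everything that reads other edges, other phases and the global shift `ξ`.
* `indepFun_row`, `map_row`: the same on the stack space
  `(P0 G).prod (infinitePi fun _ : I => UU2.prod ν)`.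
-/

set_option autoImplicit false

open MeasureTheory Filter ProbabilityTheory
open Crest.ProbabilityR.FirstPassage
open Crest.Agent.R151.K Crest.Agent.R151.Q
open scoped ENNReal

namespace Crest.Agent.R151.J69

/-! ### Reflection of the uniform law -/

/-- `x ↦ fract (v - x)` preserves the uniform law. -/
lemma mp_fract_neg (v : ℝ) : MeasurePreserving (fun x : ℝ => Int.fract (v - x)) UU UU := by
  -- reflection `x ↦ 1 - x`
  have h1 : MeasurePreserving (fun x : ℝ => Int.fract (0 - x)) UU UU := by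
    refine ⟨measurable_fract.comp (measurable_const.sub measurable_id), ?_⟩
    have hI : UU = volume.restrict (Set.Ioo (0 : ℝ) 1) := by
      unfold UU
      exact (Measure.restrict_congr_set Ioo_ae_eq_Ico).symm
    have h2 : Measure.map (fun x : ℝ => Int.fract (0 - x)) UU =
        Measure.map (fun x : ℝ => 1 - x) (volume.restrict (Set.Ioo (0 : ℝ) 1)) := by
      rw [hI]
      apply Measure.map_congr
      filter_upwards [ae_restrict_mem measurableSet_Ioo] with x hx
      have : (0 : ℝ) - x = (1 - x) + ((-1 : ℤ) : ℝ) := by push_cast; ring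
      rw [this, Int.fract_add_intCast, Int.fract_eq_self]
      exact ⟨by linarith [hx.2], by linarith [hx.1]⟩
    rw [h2]
    have h3 : (fun x : ℝ => 1 - x) ⁻¹' (Set.Ioo (0 : ℝ) 1) = Set.Ioo (0 : ℝ) 1 := by
      ext x; simp only [Set.mem_preimage, Set.mem_Ioo]
      constructor <;> intro h <;> constructor <;> linarith [h.1, h.2]
    have h4 := Measure.restrict_map (μ := (volume : Measure ℝ))
      (show Measurable fun x : ℝ => 1 - x from measurable_const.sub measurable_id)
      (measurableSet_Ioo (a := (0 : ℝ)) (b := 1))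
    rw [h3] at h4
    rw [← h4, (Measure.measurePreserving_sub_left volume (1 : ℝ)).map_eq, hI]
  have h5 : (fun x : ℝ => Int.fract (v - x)) =
      (fun x : ℝ => Int.fract (x + v)) ∘ (fun x : ℝ => Int.fract (0 - x)) := by
    funext x
    simp only [Function.comp_apply]
    have : (0 - x) + v = Int.fract (0 - x) + v + (⌊0 - x⌋ : ℤ) := by
      have := Int.floor_add_fract (0 - x); linarith
    have h6 : Int.fract (v - x) = Int.fract ((0 - x) + v) := by congr 1; ring
    rw [h6, this, Int.fract_add_intCast]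
  rw [h5]
  exact (mp_fract v).comp h1

lemma mp_frac2_neg (v : ℝ × ℝ) : MeasurePreserving (fun x : ℝ × ℝ => frac2 (v - x)) UU2 UU2 := by
  unfold UU2
  exact (mp_fract_neg v.1).prod (mp_fract_neg v.2)

/-- average of a periodic function over the jitter -/
lemma lintegral_jitter {F : ℝ × ℝ → ℝ≥0∞} (hF : Measurable F)
    (hper : ∀ (m : ℤ × ℤ) (θ : ℝ × ℝ), F (θ + toR m) = F θ) (v : ℝ × ℝ) :
    ∫⁻ η, F (v - η) ∂UU2 = ∫⁻ θ, F θ ∂UU2 := by
  have h : ∀ η, F (v - η) = F (frac2 (v - η)) := by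
    intro η
    rw [frac2_eq, hper]
  simp_rw [h]
  exact (mp_frac2_neg v).lintegral_comp hF

variable {G : Measure ℝ} [IsProbabilityMeasure G]

/-- independence of functions of disjoint sets of edges -/
lemma lintegral_mul_dependsOn {f g : Environment → ℝ≥0∞} {E E' : Set (Sym2 (ℤ × ℤ))}
    (hf : Measurable f) (hg : Measurable g) (hfE : DependsOn f E) (hgE : DependsOn g E')
    (h : Disjoint E E') :
    ∫⁻ t, f t * g t ∂(iidLaw G) = (∫⁻ t, f t ∂(iidLaw G)) * ∫⁻ t, g t ∂(iidLaw G) :=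
  lintegral_mul_eq_lintegral_mul_lintegral_of_indepFun hf hg
    (A.indepFun_of_dependsOn G hf hg hfE hgE h)

/-- **Jitter + disjoint edges.** -/
theorem lintegral_row_mul {Φ Ψ : Type*} [MeasurableSpace Φ] [MeasurableSpace Ψ]
    (ν : Measure Φ) [IsProbabilityMeasure ν] (π : Measure Ψ) [IsProbabilityMeasure π]
    {f : ℝ × ℝ → Environment → Φ → ℝ≥0∞}
    (hf : Measurable fun q : ((ℝ × ℝ) × Environment) × Φ => f q.1.1 q.1.2 q.2)
    (hinv : ∀ φ, Inv fun θ t => f θ t φ)
    {g : ℝ × ℝ → Environment → Ψ → ℝ≥0∞}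
    (hg : Measurable fun q : ((ℝ × ℝ) × Environment) × Ψ => g q.1.1 q.1.2 q.2)
    {E E' : ℝ × ℝ → Set (Sym2 (ℤ × ℤ))}
    (hfE : ∀ θ φ, DependsOn (fun t => f θ t φ) (E θ))
    (hgE : ∀ ξ ψ, DependsOn (fun t => g ξ t ψ) (E' ξ)) (B : ℝ × ℝ)
    (hdisj : ∀ ξ η, η ∈ Set.Ico (0 : ℝ) 1 ×ˢ Set.Ico (0 : ℝ) 1 →
      Disjoint (E (ξ - B - η)) (E' ξ)) :
    ∫⁻ q : ((ℝ × ℝ) × Environment) × (((ℝ × ℝ) × Φ) × Ψ),
        f (q.1.1 - B - q.2.1.1) q.1.2 q.2.1.2 * g q.1.1 q.1.2 q.2.2
        ∂((P0 G).prod ((UU2.prod ν).prod π)) =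
      (∫⁻ q, f q.1.1 q.1.2 q.2 ∂((P0 G).prod ν)) * ∫⁻ q, g q.1.1 q.1.2 q.2 ∂((P0 G).prod π) := by
  -- measurability of the pieces
  have hf' : ∀ θ φ, Measurable fun t => f θ t φ := fun θ φ =>
    hf.comp ((measurable_const.prodMk measurable_id).prodMk measurable_const)
  have hg' : ∀ ξ ψ, Measurable fun t => g ξ t ψ := fun ξ ψ =>
    hg.comp ((measurable_const.prodMk measurable_id).prodMk measurable_const)
  let Fb : (ℝ × ℝ) × Φ → ℝ≥0∞ := fun p => ∫⁻ t, f p.1 t p.2 ∂(iidLaw G)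
  let Gb : (ℝ × ℝ) × Ψ → ℝ≥0∞ := fun p => ∫⁻ t, g p.1 t p.2 ∂(iidLaw G)
  have hFbm : Measurable Fb := by
    refine Measurable.lintegral_prod_right' (f := fun q : ((ℝ × ℝ) × Φ) × Environment =>
      f q.1.1 q.2 q.1.2) ?_
    exact hf.comp (((measurable_fst.comp measurable_fst).prodMk measurable_snd).prodMk
      (measurable_snd.comp measurable_fst))
  have hGbm : Measurable Gb := by
    refine Measurable.lintegral_prod_right' (f := fun q : ((ℝ × ℝ) × Ψ) × Environment =>
      g q.1.1 q.2 q.1.2) ?_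
    exact hg.comp (((measurable_fst.comp measurable_fst).prodMk measurable_snd).prodMk
      (measurable_snd.comp measurable_fst))
  have hper : ∀ φ (m : ℤ × ℤ) (θ : ℝ × ℝ), Fb (θ + toR m, φ) = Fb (θ, φ) := by
    intro φ m θ
    have h1 := (mp_act (G := G) (tr m)).lintegral_comp (hf' (θ + toR m) φ)
    have h2 : ∀ t, f (θ + toR m) (act (tr m) t) φ = f θ t φ := fun t => hinv φ m θ t
    simp_rw [h2] at h1
    exact h1.symm
  -- the integrand
  have hH : Measurable fun q : ((ℝ × ℝ) × Environment) × (((ℝ × ℝ) × Φ) × Ψ) =>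
      f (q.1.1 - B - q.2.1.1) q.1.2 q.2.1.2 * g q.1.1 q.1.2 q.2.2 := by
    refine Measurable.mul ?_ ?_
    · refine hf.comp (Measurable.prodMk (Measurable.prodMk ?_ ?_) ?_)
      · exact ((measurable_fst.comp measurable_fst).sub_const B).sub
          (measurable_fst.comp (measurable_fst.comp measurable_snd))
      · exact measurable_snd.comp measurable_fst
      · exact measurable_snd.comp (measurable_fst.comp measurable_snd)
    · exact hg.comp (measurable_fst.prodMk (measurable_snd.comp measurable_snd))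
  rw [lintegral_prod _ hH.aemeasurable]
  have hH2 : Measurable fun p : (ℝ × ℝ) × Environment =>
      ∫⁻ r : ((ℝ × ℝ) × Φ) × Ψ, f (p.1 - B - r.1.1) p.2 r.1.2 * g p.1 p.2 r.2
        ∂((UU2.prod ν).prod π) := hH.lintegral_prod_right'
  unfold P0
  rw [lintegral_prod _ hH2.aemeasurable]
  have hinner : ∀ ξ : ℝ × ℝ, ∫⁻ t, ∫⁻ r : ((ℝ × ℝ) × Φ) × Ψ,
      f (ξ - B - r.1.1) t r.1.2 * g ξ t r.2 ∂((UU2.prod ν).prod π) ∂(iidLaw G) =
      (∫⁻ q, f q.1.1 q.1.2 q.2 ∂((UU2.prod (iidLaw G)).prod ν)) * ∫⁻ ψ, Gb (ξ, ψ) ∂π := by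
    intro ξ
    have hHξ : Measurable fun q : Environment × (((ℝ × ℝ) × Φ) × Ψ) =>
        f (ξ - B - q.2.1.1) q.1 q.2.1.2 * g ξ q.1 q.2.2 :=
      hH.comp ((measurable_const.prodMk measurable_fst).prodMk measurable_snd)
    rw [lintegral_lintegral_swap (f := fun (t : Environment) (r : ((ℝ × ℝ) × Φ) × Ψ) =>
      f (ξ - B - r.1.1) t r.1.2 * g ξ t r.2) hHξ.aemeasurable]
    have hae : ∀ᵐ r : ((ℝ × ℝ) × Φ) × Ψ ∂((UU2.prod ν).prod π),
        r.1.1 ∈ Set.Ico (0 : ℝ) 1 ×ˢ Set.Ico (0 : ℝ) 1 := by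
      have h1 : ∀ᵐ r : (ℝ × ℝ) × Φ ∂(UU2.prod ν),
          r.1 ∈ Set.Ico (0 : ℝ) 1 ×ˢ Set.Ico (0 : ℝ) 1 :=
        (Measure.quasiMeasurePreserving_fst (μ := UU2) (ν := ν)).ae ae_UU2
      exact (Measure.quasiMeasurePreserving_fst (μ := UU2.prod ν) (ν := π)).ae h1
    have hstep : ∫⁻ r : ((ℝ × ℝ) × Φ) × Ψ, ∫⁻ t, f (ξ - B - r.1.1) t r.1.2 * g ξ t r.2
        ∂(iidLaw G) ∂((UU2.prod ν).prod π) =
        ∫⁻ r : ((ℝ × ℝ) × Φ) × Ψ, Fb (ξ - B - r.1.1, r.1.2) * Gb (ξ, r.2)
          ∂((UU2.prod ν).prod π) := by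
      refine lintegral_congr_ae ?_
      filter_upwards [hae] with r hr
      exact lintegral_mul_dependsOn (hf' _ _) (hg' _ _) (hfE _ _) (hgE _ _) (hdisj ξ r.1.1 hr)
    rw [hstep, lintegral_prod_mul (f := fun p : (ℝ × ℝ) × Φ => Fb (ξ - B - p.1, p.2))
      (g := fun ψ => Gb (ξ, ψ))]
    · congr 1
      have hm1 : Measurable fun p : (ℝ × ℝ) × Φ => Fb (ξ - B - p.1, p.2) :=
        hFbm.comp ((measurable_const.sub measurable_fst).prodMk measurable_snd)
      rw [lintegral_prod_symm _ hm1.aemeasurable]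
      have h3 : ∀ φ, ∫⁻ η, Fb (ξ - B - η, φ) ∂UU2 = ∫⁻ θ, Fb (θ, φ) ∂UU2 := fun φ =>
        lintegral_jitter (F := fun θ => Fb (θ, φ)) (hFbm.comp (measurable_id.prodMk measurable_const))
          (hper φ) (ξ - B)
      simp_rw [h3]
      rw [lintegral_prod_symm _ hf.aemeasurable]
      refine lintegral_congr fun φ => ?_
      have hfφ : Measurable fun p : (ℝ × ℝ) × Environment => f p.1 p.2 φ :=
        hf.comp (measurable_id.prodMk measurable_const)
      rw [lintegral_prod _ hfφ.aemeasurable]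
    · exact (hFbm.comp ((measurable_const.sub measurable_fst).prodMk measurable_snd)).aemeasurable
    · exact (hGbm.comp (measurable_const.prodMk measurable_id)).aemeasurable
  simp_rw [hinner]
  have hGm : Measurable fun ξ : ℝ × ℝ => ∫⁻ ψ, Gb (ξ, ψ) ∂π := hGbm.lintegral_prod_right'
  rw [lintegral_const_mul _ hGm]
  congr 1
  rw [lintegral_prod_symm _ hg.aemeasurable]
  have h4 : ∀ ψ, ∫⁻ p, g p.1 p.2 ψ ∂(UU2.prod (iidLaw G)) = ∫⁻ ξ, Gb (ξ, ψ) ∂UU2 := by
    intro ψ
    have hgψ : Measurable fun p : (ℝ × ℝ) × Environment => g p.1 p.2 ψ :=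
      hg.comp (measurable_id.prodMk measurable_const)
    rw [lintegral_prod _ hgψ.aemeasurable]
  simp_rw [h4]
  exact lintegral_lintegral_swap hGbm.aemeasurable

/-! ### Rows with one other group of phases -/

section rowsec

variable {Φ Ψ : Type*} [MeasurableSpace Φ] [MeasurableSpace Ψ]
  (ν : Measure Φ) [IsProbabilityMeasure ν] (π : Measure Ψ) [IsProbabilityMeasure π]
  {α β : Type*} [MeasurableSpace α] [MeasurableSpace β]

omit [MeasurableSpace Ψ] in
/-- law of the jittered row functional (nonnegative functionals) -/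
theorem lintegral_row {f : ℝ × ℝ → Environment → Φ → ℝ≥0∞}
    (hf : Measurable fun q : ((ℝ × ℝ) × Environment) × Φ => f q.1.1 q.1.2 q.2)
    (hinv : ∀ φ, Inv fun θ t => f θ t φ) (B : ℝ × ℝ) :
    ∫⁻ q : ((ℝ × ℝ) × Environment) × ((ℝ × ℝ) × Φ), f (q.1.1 - B - q.2.1) q.1.2 q.2.2
        ∂((P0 G).prod (UU2.prod ν)) =
      ∫⁻ q, f q.1.1 q.1.2 q.2 ∂((P0 G).prod ν) := by
  have h := lintegral_row_mul (G := G) ν UU hf hinv (g := fun _ _ _ => 1)
    measurable_const (E := fun _ => Set.univ) (E' := fun _ => ∅)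
    (fun θ φ t t' h => by
      have : t = t' := funext fun e => h e (Set.mem_univ e)
      simp [this]) (fun _ _ _ _ _ => rfl) B (fun _ _ _ => Set.disjoint_empty _)
  simp only [mul_one, lintegral_const, measure_univ] at h
  rw [← h]
  have hmp : MeasurePreserving (Prod.map (id : (ℝ × ℝ) × Environment → _)
      (Prod.fst : ((ℝ × ℝ) × Φ) × ℝ → (ℝ × ℝ) × Φ))
      ((P0 G).prod ((UU2.prod ν).prod UU)) ((P0 G).prod (UU2.prod ν)) :=
    (MeasurePreserving.id _).prod measurePreserving_fst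
  have hF : Measurable fun q : ((ℝ × ℝ) × Environment) × ((ℝ × ℝ) × Φ) =>
      f (q.1.1 - B - q.2.1) q.1.2 q.2.2 := by
    refine hf.comp (Measurable.prodMk (Measurable.prodMk ?_ ?_) ?_)
    · exact ((measurable_fst.comp measurable_fst).sub_const B).sub
        (measurable_fst.comp measurable_snd)
    · exact measurable_snd.comp measurable_fst
    · exact measurable_snd.comp measurable_snd
  rw [← hmp.lintegral_comp hF]
  rfl

lemma measurable_row {X : ℝ × ℝ → Environment → Φ → α}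
    (hX : Measurable fun q : ((ℝ × ℝ) × Environment) × Φ => X q.1.1 q.1.2 q.2) (B : ℝ × ℝ) :
    Measurable fun q : ((ℝ × ℝ) × Environment) × ((ℝ × ℝ) × Φ) =>
      X (q.1.1 - B - q.2.1) q.1.2 q.2.2 := by
  refine hX.comp (Measurable.prodMk (Measurable.prodMk ?_ ?_) ?_)
  · exact ((measurable_fst.comp measurable_fst).sub_const B).sub (measurable_fst.comp measurable_snd)
  · exact measurable_snd.comp measurable_fst
  · exact measurable_snd.comp measurable_snd

/-- the law of a jittered row functional is the row law -/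
theorem map_row {X : ℝ × ℝ → Environment → Φ → α}
    (hX : Measurable fun q : ((ℝ × ℝ) × Environment) × Φ => X q.1.1 q.1.2 q.2)
    (hinv : ∀ φ, Inv fun θ t => X θ t φ) (B : ℝ × ℝ) :
    ((P0 G).prod (UU2.prod ν)).map (fun q : ((ℝ × ℝ) × Environment) × ((ℝ × ℝ) × Φ) =>
      X (q.1.1 - B - q.2.1) q.1.2 q.2.2) = ((P0 G).prod ν).map fun q => X q.1.1 q.1.2 q.2 := by
  have hXm := measurable_row hX B
  ext s hs
  rw [Measure.map_apply hXm hs, Measure.map_apply hX hs]
  have hind : Measurable (s.indicator (fun _ => (1 : ℝ≥0∞)) : α → ℝ≥0∞) :=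
    measurable_const.indicator hs
  have h := lintegral_row (G := G) ν (f := fun θ t φ => s.indicator (fun _ => (1 : ℝ≥0∞)) (X θ t φ))
    (hind.comp hX) (fun φ m θ t => by
      have := hinv φ m θ t
      simp only at this ⊢
      rw [this]) B
  rw [← lintegral_indicator_one (hXm hs), ← lintegral_indicator_one (hX hs)]
  exact h

theorem integral_row {X : ℝ × ℝ → Environment → Φ → ℝ}
    (hX : Measurable fun q : ((ℝ × ℝ) × Environment) × Φ => X q.1.1 q.1.2 q.2)
    (hinv : ∀ φ, Inv fun θ t => X θ t φ) (B : ℝ × ℝ) :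
    ∫ q, X (q.1.1 - B - q.2.1) q.1.2 q.2.2 ∂((P0 G).prod (UU2.prod ν)) =
      ∫ q, X q.1.1 q.1.2 q.2 ∂((P0 G).prod ν) := by
  have h := map_row (G := G) ν hX hinv B
  have h1 := integral_map (μ := (P0 G).prod (UU2.prod ν)) (measurable_row hX B).aemeasurable
    (f := fun x : ℝ => x) aestronglyMeasurable_id
  have h2 := integral_map (μ := (P0 G).prod ν) hX.aemeasurable
    (f := fun x : ℝ => x) aestronglyMeasurable_id
  rw [← h1, h, h2]

theorem integrable_row {X : ℝ × ℝ → Environment → Φ → ℝ}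
    (hX : Measurable fun q : ((ℝ × ℝ) × Environment) × Φ => X q.1.1 q.1.2 q.2)
    (hinv : ∀ φ, Inv fun θ t => X θ t φ) (B : ℝ × ℝ)
    (hi : Integrable (fun q => X q.1.1 q.1.2 q.2) ((P0 G).prod ν)) :
    Integrable (fun q => X (q.1.1 - B - q.2.1) q.1.2 q.2.2) ((P0 G).prod (UU2.prod ν)) := by
  have h := map_row (G := G) ν hX hinv B
  have h2 : Integrable (fun x : ℝ => x) (((P0 G).prod ν).map fun q => X q.1.1 q.1.2 q.2) :=
    (integrable_map_measure aestronglyMeasurable_id hX.aemeasurable).2 hi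
  rw [← h] at h2
  exact (integrable_map_measure aestronglyMeasurable_id (measurable_row hX B).aemeasurable).1 h2

/-- **independence of a jittered row functional and of everything that reads other edges, other
phases and the global shift** -/
theorem indepFun_row {X : ℝ × ℝ → Environment → Φ → α}
    (hX : Measurable fun q : ((ℝ × ℝ) × Environment) × Φ => X q.1.1 q.1.2 q.2)
    (hinv : ∀ φ, Inv fun θ t => X θ t φ)
    {Y : ℝ × ℝ → Environment → Ψ → β}
    (hY : Measurable fun q : ((ℝ × ℝ) × Environment) × Ψ => Y q.1.1 q.1.2 q.2)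
    {E E' : ℝ × ℝ → Set (Sym2 (ℤ × ℤ))}
    (hXE : ∀ θ φ, DependsOn (fun t => X θ t φ) (E θ))
    (hYE : ∀ ξ ψ, DependsOn (fun t => Y ξ t ψ) (E' ξ)) (B : ℝ × ℝ)
    (hdisj : ∀ ξ η, η ∈ Set.Ico (0 : ℝ) 1 ×ˢ Set.Ico (0 : ℝ) 1 →
      Disjoint (E (ξ - B - η)) (E' ξ)) :
    IndepFun (fun q : ((ℝ × ℝ) × Environment) × (((ℝ × ℝ) × Φ) × Ψ) =>
        X (q.1.1 - B - q.2.1.1) q.1.2 q.2.1.2)
      (fun q => Y q.1.1 q.1.2 q.2.2) ((P0 G).prod ((UU2.prod ν).prod π)) := by
  have hXm : Measurable fun q : ((ℝ × ℝ) × Environment) × (((ℝ × ℝ) × Φ) × Ψ) =>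
      X (q.1.1 - B - q.2.1.1) q.1.2 q.2.1.2 :=
    (measurable_row hX B).comp (measurable_fst.prodMk (measurable_fst.comp measurable_snd))
  have hYm : Measurable fun q : ((ℝ × ℝ) × Environment) × (((ℝ × ℝ) × Φ) × Ψ) =>
      Y q.1.1 q.1.2 q.2.2 :=
    hY.comp (measurable_fst.prodMk (measurable_snd.comp measurable_snd))
  rw [indepFun_iff_measure_inter_preimage_eq_mul]
  intro s u hs hu
  have hinds : Measurable (s.indicator (fun _ => (1 : ℝ≥0∞)) : α → ℝ≥0∞) :=
    measurable_const.indicator hs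
  have hindu : Measurable (u.indicator (fun _ => (1 : ℝ≥0∞)) : β → ℝ≥0∞) :=
    measurable_const.indicator hu
  have hI1 : ∀ φ, Inv fun θ t => s.indicator (fun _ => (1 : ℝ≥0∞)) (X θ t φ) := fun φ m θ t => by
    have := hinv φ m θ t
    simp only at this ⊢
    rw [this]
  have h := lintegral_row_mul (G := G) ν π
    (f := fun θ t φ => s.indicator (fun _ => (1 : ℝ≥0∞)) (X θ t φ))
    (hinds.comp hX) hI1
    (g := fun ξ t ψ => u.indicator (fun _ => (1 : ℝ≥0∞)) (Y ξ t ψ)) (hindu.comp hY)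
    (E := E) (E' := E')
    (fun θ φ t t' h => by
      have := hXE θ φ h
      simp only at this ⊢
      rw [this])
    (fun ξ ψ t t' h => by
      have := hYE ξ ψ h
      simp only at this ⊢
      rw [this]) B hdisj
  -- the two marginals
  have hmp1 : MeasurePreserving (Prod.map (id : (ℝ × ℝ) × Environment → _)
      (Prod.fst : ((ℝ × ℝ) × Φ) × Ψ → (ℝ × ℝ) × Φ))
      ((P0 G).prod ((UU2.prod ν).prod π)) ((P0 G).prod (UU2.prod ν)) :=
    (MeasurePreserving.id _).prod measurePreserving_fst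
  have hmp2 : MeasurePreserving (Prod.map (id : (ℝ × ℝ) × Environment → _)
      (Prod.snd : ((ℝ × ℝ) × Φ) × Ψ → Ψ))
      ((P0 G).prod ((UU2.prod ν).prod π)) ((P0 G).prod π) :=
    (MeasurePreserving.id _).prod measurePreserving_snd
  have h2 := lintegral_row (G := G) ν
    (f := fun θ t φ => s.indicator (fun _ => (1 : ℝ≥0∞)) (X θ t φ)) (hinds.comp hX) hI1 B
  have h2' := (hmp1.lintegral_comp (f := fun q : ((ℝ × ℝ) × Environment) × ((ℝ × ℝ) × Φ) =>
    s.indicator (fun _ => (1 : ℝ≥0∞)) (X (q.1.1 - B - q.2.1) q.1.2 q.2.2))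
    (hinds.comp (measurable_row hX B))).trans h2
  have h3 := hmp2.lintegral_comp (f := fun q => u.indicator (fun _ => (1 : ℝ≥0∞))
    (Y q.1.1 q.1.2 q.2)) (hindu.comp hY)
  rw [← h2', ← h3] at h
  rw [← lintegral_indicator_one ((hXm hs).inter (hYm hu)), ← lintegral_indicator_one (hXm hs),
    ← lintegral_indicator_one (hYm hu)]
  refine Eq.trans (lintegral_congr fun q => ?_) h
  by_cases h1 : X (q.1.1 - B - q.2.1.1) q.1.2 q.2.1.2 ∈ s <;>
    by_cases h2 : Y q.1.1 q.1.2 q.2.2 ∈ u <;> simp [Set.indicator, h1, h2]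

end rowsec

/-! ### The stack space -/

section stack

variable {I : Type*} [DecidableEq I] {Φ : Type*} [MeasurableSpace Φ] (ν : Measure Φ)
  [IsProbabilityMeasure ν]

/-- resampling the phases with index `k` -/
lemma mp_update_phase (k : I) :
    MeasurePreserving (fun q : ((ℝ × ℝ) × Environment) × (((ℝ × ℝ) × Φ) × (I → (ℝ × ℝ) × Φ)) =>
        (q.1, Function.update q.2.2 k q.2.1))
      ((P0 G).prod ((UU2.prod ν).prod (Measure.infinitePi fun _ : I => UU2.prod ν)))
      ((P0 G).prod (Measure.infinitePi fun _ : I => UU2.prod ν)) := by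
  have h1 := (V.mp_update (I := I) (UU2.prod ν) k).comp
    (Measure.measurePreserving_swap (μ := UU2.prod ν)
      (ν := Measure.infinitePi fun _ : I => UU2.prod ν))
  exact (MeasurePreserving.id (P0 G)).prod h1

/-- **A private row is independent of everything else** (product of nonnegative functionals). -/
theorem lintegral_stack_mul (k : I) {f : ℝ × ℝ → Environment → Φ → ℝ≥0∞}
    (hf : Measurable fun q : ((ℝ × ℝ) × Environment) × Φ => f q.1.1 q.1.2 q.2)
    (hinv : ∀ φ, Inv fun θ t => f θ t φ)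
    {g : ℝ × ℝ → Environment → (I → (ℝ × ℝ) × Φ) → ℝ≥0∞}
    (hg : Measurable fun q : ((ℝ × ℝ) × Environment) × (I → (ℝ × ℝ) × Φ) => g q.1.1 q.1.2 q.2)
    (hgk : ∀ ξ t ψ x, g ξ t (Function.update ψ k x) = g ξ t ψ)
    {E E' : ℝ × ℝ → Set (Sym2 (ℤ × ℤ))}
    (hfE : ∀ θ φ, DependsOn (fun t => f θ t φ) (E θ))
    (hgE : ∀ ξ ψ, DependsOn (fun t => g ξ t ψ) (E' ξ)) (B : ℝ × ℝ)
    (hdisj : ∀ ξ η, η ∈ Set.Ico (0 : ℝ) 1 ×ˢ Set.Ico (0 : ℝ) 1 →
      Disjoint (E (ξ - B - η)) (E' ξ)) :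
    ∫⁻ q : ((ℝ × ℝ) × Environment) × (I → (ℝ × ℝ) × Φ),
        f (q.1.1 - B - (q.2 k).1) q.1.2 (q.2 k).2 * g q.1.1 q.1.2 q.2
        ∂((P0 G).prod (Measure.infinitePi fun _ : I => UU2.prod ν)) =
      (∫⁻ q, f q.1.1 q.1.2 q.2 ∂((P0 G).prod ν)) *
        ∫⁻ q, g q.1.1 q.1.2 q.2 ∂((P0 G).prod (Measure.infinitePi fun _ : I => UU2.prod ν)) := by
  have hF : Measurable fun q : ((ℝ × ℝ) × Environment) × (I → (ℝ × ℝ) × Φ) =>
      f (q.1.1 - B - (q.2 k).1) q.1.2 (q.2 k).2 := by
    refine hf.comp (Measurable.prodMk (Measurable.prodMk ?_ ?_) ?_)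
    · exact ((measurable_fst.comp measurable_fst).sub_const B).sub
        (measurable_fst.comp ((measurable_pi_apply k).comp measurable_snd))
    · exact measurable_snd.comp measurable_fst
    · exact measurable_snd.comp ((measurable_pi_apply k).comp measurable_snd)
  have hFg : Measurable fun q : ((ℝ × ℝ) × Environment) × (I → (ℝ × ℝ) × Φ) =>
      f (q.1.1 - B - (q.2 k).1) q.1.2 (q.2 k).2 * g q.1.1 q.1.2 q.2 := hF.mul hg
  rw [← (mp_update_phase (G := G) ν k).lintegral_comp hFg]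
  simp only [Function.update_self, hgk]
  exact lintegral_row_mul ν (Measure.infinitePi fun _ : I => UU2.prod ν) hf hinv hg hfE hgE B hdisj

/-- the law of a private row in the stack is the row law -/
theorem lintegral_stack (k : I) {f : ℝ × ℝ → Environment → Φ → ℝ≥0∞}
    (hf : Measurable fun q : ((ℝ × ℝ) × Environment) × Φ => f q.1.1 q.1.2 q.2)
    (hinv : ∀ φ, Inv fun θ t => f θ t φ) (B : ℝ × ℝ) :
    ∫⁻ q : ((ℝ × ℝ) × Environment) × (I → (ℝ × ℝ) × Φ), f (q.1.1 - B - (q.2 k).1) q.1.2 (q.2 k).2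
        ∂((P0 G).prod (Measure.infinitePi fun _ : I => UU2.prod ν)) =
      ∫⁻ q, f q.1.1 q.1.2 q.2 ∂((P0 G).prod ν) := by
  have h := lintegral_stack_mul (G := G) ν k hf hinv (g := fun _ _ _ => 1)
    measurable_const (fun _ _ _ _ => rfl) (E := fun _ => Set.univ) (E' := fun _ => ∅)
    (fun θ φ t t' h => by
      have : t = t' := funext fun e => h e (Set.mem_univ e)
      simp [this]) (fun _ _ _ _ _ => rfl) B (fun _ _ _ => Set.disjoint_empty _)
  simpa using h

variable {α β : Type*} [MeasurableSpace α] [MeasurableSpace β]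

/-- the law of a private row functional in the stack -/
theorem map_stack (k : I) {X : ℝ × ℝ → Environment → Φ → α}
    (hX : Measurable fun q : ((ℝ × ℝ) × Environment) × Φ => X q.1.1 q.1.2 q.2)
    (hinv : ∀ φ, Inv fun θ t => X θ t φ) (B : ℝ × ℝ) :
    ((P0 G).prod (Measure.infinitePi fun _ : I => UU2.prod ν)).map
        (fun q : ((ℝ × ℝ) × Environment) × (I → (ℝ × ℝ) × Φ) =>
          X (q.1.1 - B - (q.2 k).1) q.1.2 (q.2 k).2) =
      ((P0 G).prod ν).map fun q => X q.1.1 q.1.2 q.2 := by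
  have hXm : Measurable fun q : ((ℝ × ℝ) × Environment) × (I → (ℝ × ℝ) × Φ) =>
      X (q.1.1 - B - (q.2 k).1) q.1.2 (q.2 k).2 := by
    refine hX.comp (Measurable.prodMk (Measurable.prodMk ?_ ?_) ?_)
    · exact ((measurable_fst.comp measurable_fst).sub_const B).sub
        (measurable_fst.comp ((measurable_pi_apply k).comp measurable_snd))
    · exact measurable_snd.comp measurable_fst
    · exact measurable_snd.comp ((measurable_pi_apply k).comp measurable_snd)
  ext s hs
  rw [Measure.map_apply hXm hs, Measure.map_apply hX hs]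
  have hind : Measurable (s.indicator (fun _ => (1 : ℝ≥0∞)) : α → ℝ≥0∞) :=
    measurable_const.indicator hs
  have h := lintegral_stack (G := G) ν k (f := fun θ t φ => s.indicator (fun _ => (1 : ℝ≥0∞)) (X θ t φ))
    (hind.comp hX) (fun φ m θ t => by
      have := hinv φ m θ t
      simp only at this ⊢
      rw [this]) B
  rw [← lintegral_indicator_one (hXm hs), ← lintegral_indicator_one (hX hs)]
  exact h

/-- **A private row functional is independent of everything that reads other edges, other phases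
and the global shift.** -/
theorem indepFun_stack (k : I) {X : ℝ × ℝ → Environment → Φ → α}
    (hX : Measurable fun q : ((ℝ × ℝ) × Environment) × Φ => X q.1.1 q.1.2 q.2)
    (hinv : ∀ φ, Inv fun θ t => X θ t φ)
    {Y : ℝ × ℝ → Environment → (I → (ℝ × ℝ) × Φ) → β}
    (hY : Measurable fun q : ((ℝ × ℝ) × Environment) × (I → (ℝ × ℝ) × Φ) => Y q.1.1 q.1.2 q.2)
    (hYk : ∀ ξ t ψ x, Y ξ t (Function.update ψ k x) = Y ξ t ψ)
    {E E' : ℝ × ℝ → Set (Sym2 (ℤ × ℤ))}
    (hXE : ∀ θ φ, DependsOn (fun t => X θ t φ) (E θ))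
    (hYE : ∀ ξ ψ, DependsOn (fun t => Y ξ t ψ) (E' ξ)) (B : ℝ × ℝ)
    (hdisj : ∀ ξ η, η ∈ Set.Ico (0 : ℝ) 1 ×ˢ Set.Ico (0 : ℝ) 1 →
      Disjoint (E (ξ - B - η)) (E' ξ)) :
    IndepFun (fun q : ((ℝ × ℝ) × Environment) × (I → (ℝ × ℝ) × Φ) =>
        X (q.1.1 - B - (q.2 k).1) q.1.2 (q.2 k).2)
      (fun q => Y q.1.1 q.1.2 q.2)
      ((P0 G).prod (Measure.infinitePi fun _ : I => UU2.prod ν)) := by
  have hXm : Measurable fun q : ((ℝ × ℝ) × Environment) × (I → (ℝ × ℝ) × Φ) =>
      X (q.1.1 - B - (q.2 k).1) q.1.2 (q.2 k).2 := by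
    refine hX.comp (Measurable.prodMk (Measurable.prodMk ?_ ?_) ?_)
    · exact ((measurable_fst.comp measurable_fst).sub_const B).sub
        (measurable_fst.comp ((measurable_pi_apply k).comp measurable_snd))
    · exact measurable_snd.comp measurable_fst
    · exact measurable_snd.comp ((measurable_pi_apply k).comp measurable_snd)
  rw [indepFun_iff_measure_inter_preimage_eq_mul]
  intro s u hs hu
  have hinds : Measurable (s.indicator (fun _ => (1 : ℝ≥0∞)) : α → ℝ≥0∞) :=
    measurable_const.indicator hs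
  have hindu : Measurable (u.indicator (fun _ => (1 : ℝ≥0∞)) : β → ℝ≥0∞) :=
    measurable_const.indicator hu
  have h := lintegral_stack_mul (G := G) ν k
    (f := fun θ t φ => s.indicator (fun _ => (1 : ℝ≥0∞)) (X θ t φ))
    (hinds.comp hX) (fun φ m θ t => by
      have := hinv φ m θ t
      simp only at this ⊢
      rw [this])
    (g := fun ξ t ψ => u.indicator (fun _ => (1 : ℝ≥0∞)) (Y ξ t ψ)) (hindu.comp hY)
    (fun ξ t ψ x => by simp only [hYk]) (E := E) (E' := E')
    (fun θ φ t t' h => by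
      have := hXE θ φ h
      simp only at this ⊢
      rw [this])
    (fun ξ ψ t t' h => by
      have := hYE ξ ψ h
      simp only at this ⊢
      rw [this]) B hdisj
  have h2 := lintegral_stack (G := G) ν k
    (f := fun θ t φ => s.indicator (fun _ => (1 : ℝ≥0∞)) (X θ t φ))
    (hinds.comp hX) (fun φ m θ t => by
      have := hinv φ m θ t
      simp only at this ⊢
      rw [this]) B
  rw [← h2] at h
  rw [← lintegral_indicator_one ((hXm hs).inter (hY hu)), ← lintegral_indicator_one (hXm hs),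
    ← lintegral_indicator_one (hY hu)]
  refine Eq.trans (lintegral_congr fun q => ?_) h
  by_cases h1 : X (q.1.1 - B - (q.2 k).1) q.1.2 (q.2 k).2 ∈ s <;>
    by_cases h2 : Y q.1.1 q.1.2 q.2 ∈ u <;> simp [Set.indicator, h1, h2]

end stack

end Crest.Agent.R151.J69

namespace Crest.Agent.R151.J69

/-- edges inside disjoint regions are disjoint -/
lemma disjoint_edgesIn {R R' : Set (ℤ × ℤ)} (h : Disjoint R R') :
    Disjoint (edgesIn R) (edgesIn R') := by
  rw [Set.disjoint_left]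
  intro e he he'
  induction e with
  | _ x y => exact (Set.disjoint_left.1 h) (mem_edgesIn.1 he).1 (mem_edgesIn.1 he').1

end Crest.Agent.R151.J69
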