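import Crest.Agent.R151.M192c
import Crest.Agent.R151.J69b
import Crest.Agent.R151.E191A

/-!
# R151 / S0214 part 2, M192d — stack of private rows: product formula, independence, transfer of
the row law (owner helper192)
-/

set_option autoImplicit false

open MeasureTheory Filter ProbabilityTheory Topology Set
open Crest.ProbabilityR.FirstPassage
open scoped ENNReal

namespace Crest.Agent.R151.M192

open Crest.Agent.R151.K
open Q (pos Hwy Inv P0 UU UU2 ae_UU2)

lemma indicator_congr_mem {α : Type*} {A : Set α} {x y : α} (h : (x ∈ A) = (y ∈ A)) :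
    A.indicator (fun _ => (1 : ℝ≥0∞)) x = A.indicator (fun _ => 1) y := by
  by_cases hy : y ∈ A
  · rw [Set.indicator_of_mem hy, Set.indicator_of_mem (h ▸ hy)]
  · rw [Set.indicator_of_notMem hy, Set.indicator_of_notMem (fun hx => hy (h ▸ hx))]

section stack

variable {Φ : Type*} [MeasurableSpace Φ]

/-- one row: `((offset, environment), phase)` -/
abbrev Row (Φ : Type*) : Type _ := ((ℝ × ℝ) × Environment) × Φ

/-- the stack space: `((ξ, t), (jitter, phase) of every row)` -/
abbrev St (Φ : Type*) : Type _ := ((ℝ × ℝ) × Environment) × (ℕ → (ℝ × ℝ) × Φ)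

/-- law of the stack space -/
noncomputable def PS (G : Measure ℝ) (ν : Measure Φ) : Measure (St Φ) :=
  (P0 G).prod (Measure.infinitePi fun _ : ℕ => UU2.prod ν)

/-- row `k` of the stack with base points `B` -/
def rq (B : ℕ → ℝ × ℝ) (k : ℕ) (ω : St Φ) : Row Φ :=
  ((ω.1.1 - B k - (ω.2 k).1, ω.1.2), (ω.2 k).2)

lemma measurable_rq (B : ℕ → ℝ × ℝ) (k : ℕ) : Measurable (rq (Φ := Φ) B k) := by
  unfold rq
  refine Measurable.prodMk (Measurable.prodMk ?_ ?_) ?_
  · exact ((measurable_fst.comp measurable_fst).sub_const (B k)).sub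
      (measurable_fst.comp ((measurable_pi_apply k).comp measurable_snd))
  · exact measurable_snd.comp measurable_fst
  · exact measurable_snd.comp ((measurable_pi_apply k).comp measurable_snd)

/-- the sigma-algebra of the invariant events that read only the edges of `E θ` -/
@[instance_reducible] def mIL (Φ : Type*) [MeasurableSpace Φ]
    (E : ℝ × ℝ → Set (Sym2 (ℤ × ℤ))) : MeasurableSpace (Row Φ) where
  MeasurableSet' A := MeasurableSet A ∧ (∀ φ, Inv fun θ t => (((θ, t), φ) : Row Φ) ∈ A) ∧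
    ∀ θ φ, DependsOn (fun t => (((θ, t), φ) : Row Φ) ∈ A) (E θ)
  measurableSet_empty := ⟨MeasurableSet.empty, fun _ _ _ _ => rfl, fun _ _ _ _ _ => rfl⟩
  measurableSet_compl A := by
    rintro ⟨h1, h2, h3⟩
    refine ⟨h1.compl, fun φ m θ t => ?_, fun θ φ t t' htt => ?_⟩
    · have := h2 φ m θ t
      simp only at this
      simp only [Set.mem_compl_iff, this]
    · have := h3 θ φ htt
      simp only at this
      simp only [Set.mem_compl_iff, this]
  measurableSet_iUnion A := by
    intro hA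
    refine ⟨MeasurableSet.iUnion fun i => (hA i).1, fun φ m θ t => ?_, fun θ φ t t' htt => ?_⟩
    · have : ∀ i, ((((θ + toR m, act (tr m) t), φ) : Row Φ) ∈ A i) =
          ((((θ, t), φ) : Row Φ) ∈ A i) := fun i => (hA i).2.1 φ m θ t
      simp only [Set.mem_iUnion, this]
    · have : ∀ i, ((((θ, t), φ) : Row Φ) ∈ A i) = ((((θ, t'), φ) : Row Φ) ∈ A i) :=
        fun i => (hA i).2.2 θ φ htt
      simp only [Set.mem_iUnion, this]

lemma measurableSet_mIL {E : ℝ × ℝ → Set (Sym2 (ℤ × ℤ))} {A : Set (Row Φ)} :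
    MeasurableSet[mIL Φ E] A ↔ MeasurableSet A ∧
      (∀ φ, Inv fun θ t => (((θ, t), φ) : Row Φ) ∈ A) ∧
      ∀ θ φ, DependsOn (fun t => (((θ, t), φ) : Row Φ) ∈ A) (E θ) := Iff.rfl

lemma mIL_le (E : ℝ × ℝ → Set (Sym2 (ℤ × ℤ))) :
    mIL Φ E ≤ (inferInstance : MeasurableSpace (Row Φ)) := fun _ h => h.1

/-- measurable invariant local functions are measurable for `mIL` -/
lemma measurable_mIL {α : Type*} [MeasurableSpace α] {E : ℝ × ℝ → Set (Sym2 (ℤ × ℤ))}
    {X : ℝ × ℝ → Environment → Φ → α} (hX : Measurable fun q : Row Φ => X q.1.1 q.1.2 q.2)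
    (hinv : ∀ φ, Inv fun θ t => X θ t φ) (hdep : ∀ θ φ, DependsOn (fun t => X θ t φ) (E θ)) :
    Measurable[mIL Φ E] fun q : Row Φ => X q.1.1 q.1.2 q.2 := by
  intro s hs
  refine ⟨hX hs, fun φ m θ t => ?_, fun θ φ t t' htt => ?_⟩
  · have := hinv φ m θ t
    simp only at this
    simp only [Set.mem_preimage, this]
  · have := hdep θ φ htt
    simp only at this
    simp only [Set.mem_preimage, this]

variable {G : Measure ℝ} [IsProbabilityMeasure G] {ν : Measure Φ} [IsProbabilityMeasure ν]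

instance : IsProbabilityMeasure (PS G ν) := by unfold PS; infer_instance

/-- almost surely all the jitters are in the unit square -/
lemma ae_jitter : ∀ᵐ ω ∂(PS G ν), ∀ k, (ω.2 k).1 ∈ Ico (0 : ℝ) 1 ×ˢ Ico (0 : ℝ) 1 := by
  rw [ae_all_iff]
  intro k
  have h1 : MeasurePreserving (fun ω : St Φ => ω.2 k) (PS G ν) (UU2.prod ν) :=
    (measurePreserving_eval_infinitePi (fun _ : ℕ => UU2.prod ν) k).comp measurePreserving_snd
  have h2 : MeasurePreserving (fun ω : St Φ => (ω.2 k).1) (PS G ν) UU2 :=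
    measurePreserving_fst.comp h1
  exact h2.quasiMeasurePreserving.ae ae_UU2

/-- **Product formula for the rows of the stack.** -/
theorem lintegral_stack_prod {B : ℕ → ℝ × ℝ} {E : ℝ × ℝ → Set (Sym2 (ℤ × ℤ))}
    (hE : ∀ j k, j ≠ k → ∀ ξ η η', η ∈ Ico (0 : ℝ) 1 ×ˢ Ico (0 : ℝ) 1 →
      η' ∈ Ico (0 : ℝ) 1 ×ˢ Ico (0 : ℝ) 1 → Disjoint (E (ξ - B j - η)) (E (ξ - B k - η')))
    {f : ℕ → Row Φ → ℝ≥0∞} (S : Finset ℕ) (hf : ∀ k ∈ S, Measurable (f k))
    (hinv : ∀ k ∈ S, ∀ φ, Inv fun θ t => f k ((θ, t), φ))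
    (hdep : ∀ k ∈ S, ∀ θ φ, DependsOn (fun t => f k ((θ, t), φ)) (E θ)) :
    ∫⁻ ω, ∏ k ∈ S, f k (rq B k ω) ∂(PS G ν) = ∏ k ∈ S, ∫⁻ q, f k q ∂((P0 G).prod ν) := by
  classical
  induction S using Finset.induction_on with
  | empty => simp
  | insert k S hk ih =>
    have ih' := ih (fun j hj => hf j (Finset.mem_insert_of_mem hj))
      (fun j hj => hinv j (Finset.mem_insert_of_mem hj))
      (fun j hj => hdep j (Finset.mem_insert_of_mem hj))
    set sq : Set (ℝ × ℝ) := Ico (0 : ℝ) 1 ×ˢ Ico (0 : ℝ) 1 with hsq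
    have hsqm : MeasurableSet sq := measurableSet_Ico.prod measurableSet_Ico
    let g : ℝ × ℝ → Environment → (ℕ → (ℝ × ℝ) × Φ) → ℝ≥0∞ := fun ξ t ψ =>
      ∏ j ∈ S, (sq.indicator (fun _ => (1 : ℝ≥0∞)) (ψ j).1 *
        f j ((ξ - B j - (ψ j).1, t), (ψ j).2))
    have hg : Measurable fun q : ((ℝ × ℝ) × Environment) × (ℕ → (ℝ × ℝ) × Φ) =>
        g q.1.1 q.1.2 q.2 := by
      refine Finset.measurable_prod _ fun j hj => ?_
      refine Measurable.mul ?_ ?_
      · exact (measurable_const.indicator hsqm).comp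
          (measurable_fst.comp ((measurable_pi_apply j).comp measurable_snd))
      · exact (hf j (Finset.mem_insert_of_mem hj)).comp (measurable_rq B j)
    have hgk : ∀ ξ t ψ x, g ξ t (Function.update ψ k x) = g ξ t ψ := by
      intro ξ t ψ x
      refine Finset.prod_congr rfl fun j hj => ?_
      have : j ≠ k := fun e => hk (e ▸ hj)
      simp only [Function.update_of_ne this]
    have hgE : ∀ ξ ψ, DependsOn (fun t => g ξ t ψ) (⋃ j ∈ S, ⋃ η ∈ sq, E (ξ - B j - η)) := by
      intro ξ ψ t t' htt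
      refine Finset.prod_congr rfl fun j hj => ?_
      by_cases hη : (ψ j).1 ∈ sq
      · have := hdep j (Finset.mem_insert_of_mem hj) (ξ - B j - (ψ j).1) (ψ j).2
          (x := t) (y := t') (fun e he => htt e (by
            simp only [Set.mem_iUnion]
            exact ⟨j, hj, _, hη, he⟩))
        simp only at this
        rw [this]
      · simp [Set.indicator, hη]
    have key := J69.lintegral_stack_mul (G := G) (I := ℕ) ν k
      (f := fun θ t φ => f k ((θ, t), φ)) (hf k (Finset.mem_insert_self _ _))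
      (hinv k (Finset.mem_insert_self _ _)) (g := g) hg hgk
      (hdep k (Finset.mem_insert_self _ _)) hgE (B k) (by
        intro ξ η hη
        rw [Set.disjoint_iUnion_right]
        intro j
        rw [Set.disjoint_iUnion_right]
        intro hj
        rw [Set.disjoint_iUnion_right]
        intro η'
        rw [Set.disjoint_iUnion_right]
        intro hη'
        exact hE k j (fun e => hk (e ▸ hj)) ξ η η' hη hη')
    rw [Finset.prod_insert hk]
    have e1 : ∫⁻ ω, ∏ j ∈ insert k S, f j (rq B j ω) ∂(PS G ν) =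
        ∫⁻ q : ((ℝ × ℝ) × Environment) × (ℕ → (ℝ × ℝ) × Φ),
          f k ((q.1.1 - B k - (q.2 k).1, q.1.2), (q.2 k).2) * g q.1.1 q.1.2 q.2
            ∂((P0 G).prod (Measure.infinitePi fun _ : ℕ => UU2.prod ν)) := by
      refine lintegral_congr_ae ?_
      filter_upwards [ae_jitter (G := G) (ν := ν)] with ω hω
      rw [Finset.prod_insert hk]
      congr 1
      refine Finset.prod_congr rfl fun j hj => ?_
      have := hω j
      simp only [rq]
      rw [Set.indicator_of_mem this, one_mul]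
    have e2 : ∫⁻ q : ((ℝ × ℝ) × Environment) × (ℕ → (ℝ × ℝ) × Φ), g q.1.1 q.1.2 q.2
            ∂((P0 G).prod (Measure.infinitePi fun _ : ℕ => UU2.prod ν)) =
        ∫⁻ ω, ∏ j ∈ S, f j (rq B j ω) ∂(PS G ν) := by
      refine lintegral_congr_ae ?_
      filter_upwards [ae_jitter (G := G) (ν := ν)] with ω hω
      refine Finset.prod_congr rfl fun j hj => ?_
      have := hω j
      simp only [rq]
      rw [Set.indicator_of_mem this, one_mul]
    rw [e1, key, e2, ih']

/-- law of one row of the stack -/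
theorem lintegral_stack_one (B : ℕ → ℝ × ℝ) (k : ℕ) {f : Row Φ → ℝ≥0∞} (hf : Measurable f)
    (hinv : ∀ φ, Inv fun θ t => f ((θ, t), φ)) :
    ∫⁻ ω, f (rq B k ω) ∂(PS G ν) = ∫⁻ q, f q ∂((P0 G).prod ν) :=
  J69.lintegral_stack (G := G) (I := ℕ) ν k (f := fun θ t φ => f ((θ, t), φ)) hf hinv (B k)

/-- law of one row of the stack, events -/
theorem stack_measure (B : ℕ → ℝ × ℝ) (k : ℕ) {E : ℝ × ℝ → Set (Sym2 (ℤ × ℤ))} {A : Set (Row Φ)}
    (hA : MeasurableSet[mIL Φ E] A) :
    (PS G ν) (rq B k ⁻¹' A) = ((P0 G).prod ν) A := by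
  have h := lintegral_stack_one (G := G) (ν := ν) B k
    (f := A.indicator fun _ => 1) (measurable_const.indicator hA.1)
    (fun φ m θ t => indicator_congr_mem (hA.2.1 φ m θ t))
  rw [lintegral_indicator hA.1] at h
  simp only [lintegral_const, one_mul, Measure.restrict_apply MeasurableSet.univ,
    Set.univ_inter] at h
  rw [← h]
  have : (fun ω : St Φ => A.indicator (fun _ => (1 : ℝ≥0∞)) (rq B k ω)) =
      (rq B k ⁻¹' A).indicator fun _ => 1 := by
    funext ω; rfl
  rw [this, lintegral_indicator (measurable_rq B k hA.1)]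
  simp

/-- sigma-algebra of row `k` -/
@[instance_reducible] def mrow (Φ : Type*) [MeasurableSpace Φ] (B : ℕ → ℝ × ℝ)
    (E : ℝ × ℝ → Set (Sym2 (ℤ × ℤ))) (k : ℕ) : MeasurableSpace (St Φ) :=
  (mIL Φ E).comap (rq B k)

lemma mrow_le (B : ℕ → ℝ × ℝ) (E : ℝ × ℝ → Set (Sym2 (ℤ × ℤ))) (k : ℕ) :
    mrow Φ B E k ≤ (inferInstance : MeasurableSpace (St Φ)) := by
  rintro _ ⟨A, hA, rfl⟩
  exact measurable_rq B k hA.1

/-- **The rows of the stack are independent.** -/
theorem iIndep_mrow {B : ℕ → ℝ × ℝ} {E : ℝ × ℝ → Set (Sym2 (ℤ × ℤ))}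
    (hE : ∀ j k, j ≠ k → ∀ ξ η η', η ∈ Ico (0 : ℝ) 1 ×ˢ Ico (0 : ℝ) 1 →
      η' ∈ Ico (0 : ℝ) 1 ×ˢ Ico (0 : ℝ) 1 → Disjoint (E (ξ - B j - η)) (E (ξ - B k - η'))) :
    iIndep (mrow Φ B E) (PS G ν) := by
  classical
  rw [iIndep_iff]
  intro S A hA
  choose! A' hA' using hA
  have h := lintegral_stack_prod (G := G) (ν := ν) hE S
    (f := fun k => (A' k).indicator fun _ => 1)
    (fun k hk => measurable_const.indicator (hA' k hk).1.1)
    (fun k hk φ m θ t => indicator_congr_mem ((hA' k hk).1.2.1 φ m θ t))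
    (fun k hk θ φ t t' htt => indicator_congr_mem ((hA' k hk).1.2.2 θ φ htt))
  have e1 : ∫⁻ ω, ∏ k ∈ S, (A' k).indicator (fun _ => (1 : ℝ≥0∞)) (rq B k ω) ∂(PS G ν) =
      (PS G ν) (⋂ k ∈ S, A k) := by
    have hm : MeasurableSet (⋂ k ∈ S, A k) := by
      refine Finset.measurableSet_biInter S fun k hk => ?_
      rw [← (hA' k hk).2]
      exact measurable_rq B k (hA' k hk).1.1
    rw [← lintegral_indicator_one hm]
    refine lintegral_congr fun ω => ?_
    by_cases hω : ω ∈ ⋂ k ∈ S, A k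
    · rw [Set.indicator_of_mem hω]
      refine Finset.prod_eq_one fun k hk => ?_
      rw [Set.indicator_of_mem]
      have := Set.mem_iInter₂.1 hω k hk
      rw [← (hA' k hk).2] at this
      exact this
    · rw [Set.indicator_of_notMem hω]
      simp only [Set.mem_iInter, not_forall] at hω
      obtain ⟨k, hk, hω⟩ := hω
      refine Finset.prod_eq_zero hk ?_
      rw [Set.indicator_of_notMem]
      intro hc
      apply hω
      rw [← (hA' k hk).2]
      exact hc
  have e2 : ∏ k ∈ S, ∫⁻ q, (A' k).indicator (fun _ => (1 : ℝ≥0∞)) q ∂((P0 G).prod ν) =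
      ∏ k ∈ S, (PS G ν) (A k) := by
    refine Finset.prod_congr rfl fun k hk => ?_
    rw [← (hA' k hk).2, stack_measure (G := G) (ν := ν) B k (hA' k hk).1,
      lintegral_indicator (hA' k hk).1.1]
    simp
  rw [← e1, ← e2]
  exact h

end stack

end Crest.Agent.R151.M192
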