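import Crest.Agent.R151.V14
import Crest.Agent.R151.M192d

/-!
# R151/V15 — conditioning on the strips, on the one-row space (owner helper52)

`Row Φ = ((θ, t), φ)`, law `PΦ := (P0 G).prod ν`; `E θ` = edges of the two highway strips.
* `cs E p t` : keep `θ`, the phases and the strips of `p`, fresh weights `t` elsewhere;
* `lintegral_cs`, `integral_cs`, `ae_cs` : Fubini form of the conditional expectation;
* `SInv E A` : `A` is in `σ(S)`; `prob_inter_le`, `lintegral_inter_le`, `integral_inter_le` ;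
* `typ G E κ N c` : points at which the conditional probability of `N` is at most `c`
  (`N` may depend on additional independent randomness of law `κ`); `typ_compl_le` (Markov).
* `SData` : `X` log-concave given `S`, `0 ≤ X - D`; `SData.tail`, `.small_ball`, `.mean`, `.mean'`,
  `.ui`.
-/

set_option autoImplicit false
set_option linter.unusedSectionVars false

open MeasureTheory ProbabilityTheory Set
open scoped ENNReal
open Crest.ProbabilityR.FirstPassage

namespace Crest.Agent.R151.V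

open Crest.Agent.R151.K
open Q (pos Hwy P0 UU UU2 phi rg Inv)
open M192 (Row mIL)

variable {Φ : Type*} [MeasurableSpace Φ]

/-- keep the offset, the phases and the edges of `E θ`, take fresh weights elsewhere -/
noncomputable def cs (E : ℝ × ℝ → Set (Sym2 (ℤ × ℤ))) (p : Row Φ) (t : Environment) : Row Φ :=
  ((p.1.1, glue (E p.1.1) p.1.2 t), p.2)

variable {E : ℝ × ℝ → Set (Sym2 (ℤ × ℤ))}

@[simp] lemma cs_cs (p : Row Φ) (t t' : Environment) : cs E (cs E p t) t' = cs E p t' := by
  unfold cs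
  simp only [glue_glue]

/-- events of `σ(S)` -/
def SInv (E : ℝ × ℝ → Set (Sym2 (ℤ × ℤ))) (A : Set (Row Φ)) : Prop :=
  ∀ p t, cs E p t ∈ A ↔ p ∈ A

lemma SInv.inter {A B : Set (Row Φ)} (hA : SInv E A) (hB : SInv E B) : SInv E (A ∩ B) :=
  fun p t => and_congr (hA p t) (hB p t)

lemma SInv.compl {A : Set (Row Φ)} (hA : SInv E A) : SInv E Aᶜ :=
  fun p t => not_congr (hA p t)

lemma SInv.iInter {ι : Sort*} {A : ι → Set (Row Φ)} (hA : ∀ i, SInv E (A i)) :
    SInv E (⋂ i, A i) := by
  intro p t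
  simp only [mem_iInter]
  exact forall_congr' fun i => hA i p t

lemma measurable_cs (hE : ∀ e, MeasurableSet {θ | e ∈ E θ}) :
    Measurable fun x : Row Φ × Environment => cs E x.1 x.2 := by
  unfold cs
  refine Measurable.prodMk (Measurable.prodMk ?_ ?_) ?_
  · exact measurable_fst.comp (measurable_fst.comp measurable_fst)
  · have h1 := measurable_glue_rand (X := ℝ) hE
    exact h1.comp (Measurable.prodMk (Measurable.prodMk
      (measurable_fst.comp (measurable_fst.comp measurable_fst))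
      (measurable_snd.comp (measurable_fst.comp measurable_fst))) measurable_snd)
  · exact measurable_snd.comp measurable_fst

lemma measurable_cs_right (E : ℝ × ℝ → Set (Sym2 (ℤ × ℤ))) (p : Row Φ) :
    Measurable fun t => cs E p t := by
  unfold cs
  refine Measurable.prodMk (Measurable.prodMk measurable_const ?_) measurable_const
  exact (measurable_glue (E p.1.1)).comp (measurable_const.prodMk measurable_id)

variable {G : Measure ℝ} [IsProbabilityMeasure G] {ν : Measure Φ} [IsProbabilityMeasure ν]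

/-- the Fubini form, as a measure preserving map -/
theorem mp_cs (hE : ∀ e, MeasurableSet {θ | e ∈ E θ}) :
    MeasurePreserving (fun x : Row Φ × Environment => cs E x.1 x.2)
      (((P0 G).prod ν).prod (iidLaw G)) ((P0 G).prod ν) := by
  refine ⟨measurable_cs hE, ?_⟩
  ext A hA
  rw [Measure.map_apply (measurable_cs hE) hA]
  have hm1 : MeasurableSet ((fun x : Row Φ × Environment => cs E x.1 x.2) ⁻¹' A) :=
    measurable_cs hE hA
  -- left side as an iterated integral
  have key : ∀ f : Row Φ → ℝ≥0∞, Measurable f →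
      ∫⁻ p, ∫⁻ t, f (cs E p t) ∂(iidLaw G) ∂((P0 G).prod ν) = ∫⁻ p, f p ∂((P0 G).prod ν) := by
    intro f hf
    have hmc : Measurable fun p : Row Φ => ∫⁻ t, f (cs E p t) ∂(iidLaw G) :=
      (hf.comp (measurable_cs hE)).lintegral_prod_right'
    rw [lintegral_prod_symm _ hmc.aemeasurable, lintegral_prod_symm _ hf.aemeasurable]
    refine lintegral_congr fun φ => ?_
    have h1 := lintegral_glue_rand G UU2 hE (f := fun q : (ℝ × ℝ) × Environment => f (q, φ))
      (hf.comp (measurable_id.prodMk measurable_const))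
    exact h1
  have h2 := key (A.indicator 1) (measurable_one.indicator hA)
  rw [lintegral_indicator_one hA] at h2
  rw [← h2, ← lintegral_indicator_one hm1,
    lintegral_prod _ (measurable_one.indicator hm1).aemeasurable]
  rfl

theorem lintegral_cs (hE : ∀ e, MeasurableSet {θ | e ∈ E θ}) {f : Row Φ → ℝ≥0∞}
    (hf : Measurable f) :
    ∫⁻ p, ∫⁻ t, f (cs E p t) ∂(iidLaw G) ∂((P0 G).prod ν) = ∫⁻ p, f p ∂((P0 G).prod ν) := by
  have h1 := (mp_cs (G := G) (ν := ν) hE).lintegral_comp hf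
  rw [← h1]
  exact (lintegral_prod _ (hf.comp (measurable_cs hE)).aemeasurable).symm

theorem integrable_cs (hE : ∀ e, MeasurableSet {θ | e ∈ E θ}) {f : Row Φ → ℝ}
    (hf : Integrable f ((P0 G).prod ν)) :
    Integrable (fun x : Row Φ × Environment => f (cs E x.1 x.2))
      (((P0 G).prod ν).prod (iidLaw G)) :=
  (mp_cs hE).integrable_comp_of_integrable hf

theorem integral_cs (hE : ∀ e, MeasurableSet {θ | e ∈ E θ}) {f : Row Φ → ℝ}
    (hf : Integrable f ((P0 G).prod ν)) :
    ∫ p, ∫ t, f (cs E p t) ∂(iidLaw G) ∂((P0 G).prod ν) = ∫ p, f p ∂((P0 G).prod ν) := by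
  have h1 := integral_prod _ (integrable_cs hE hf)
  rw [← h1]
  have h2 := (mp_cs (G := G) (ν := ν) hE).map_eq
  conv_rhs => rw [← h2]
  rw [integral_map (measurable_cs hE).aemeasurable]
  rw [h2]
  exact hf.aestronglyMeasurable

theorem ae_cs (hE : ∀ e, MeasurableSet {θ | e ∈ E θ}) {P : Row Φ → Prop}
    (hP : ∀ᵐ p ∂((P0 G).prod ν), P p) :
    ∀ᵐ p ∂((P0 G).prod ν), ∀ᵐ t ∂(iidLaw G), P (cs E p t) :=
  Measure.ae_ae_of_ae_prod ((mp_cs hE).quasiMeasurePreserving.ae hP)

/-- conditional bound on `A ∈ σ(S)` ⟹ unconditional bound, `ℝ≥0∞` version -/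
theorem lintegral_inter_le (hE : ∀ e, MeasurableSet {θ | e ∈ E θ}) {A : Set (Row Φ)}
    (hA : MeasurableSet A) (hS : SInv E A) {f : Row Φ → ℝ≥0∞} (hf : Measurable f) {c : ℝ≥0∞}
    (h : ∀ᵐ p ∂((P0 G).prod ν), p ∈ A → ∫⁻ t, f (cs E p t) ∂(iidLaw G) ≤ c) :
    ∫⁻ p in A, f p ∂((P0 G).prod ν) ≤ c * ((P0 G).prod ν) A := by
  rw [← lintegral_indicator hA, ← lintegral_cs hE (hf.indicator hA)]
  have h1 : ∀ p : Row Φ, ∫⁻ t, A.indicator f (cs E p t) ∂(iidLaw G) =
      A.indicator (fun p => ∫⁻ t, f (cs E p t) ∂(iidLaw G)) p := by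
    intro p
    by_cases hp : p ∈ A
    · rw [indicator_of_mem hp]
      refine lintegral_congr fun t => ?_
      rw [indicator_of_mem ((hS p t).2 hp)]
    · rw [indicator_of_notMem hp]
      rw [← lintegral_zero (μ := iidLaw G)]
      refine lintegral_congr fun t => ?_
      rw [indicator_of_notMem (fun h => hp ((hS p t).1 h))]
  simp only [h1]
  rw [lintegral_indicator hA, ← setLIntegral_const]
  refine lintegral_mono_ae ?_
  rw [ae_restrict_iff' hA]
  exact h

/-- conditional probability bound on `A ∈ σ(S)` ⟹ `P (B ∩ A) ≤ c` -/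
theorem prob_inter_le (hE : ∀ e, MeasurableSet {θ | e ∈ E θ}) {A B : Set (Row Φ)}
    (hA : MeasurableSet A) (hS : SInv E A) (hB : MeasurableSet B) {c : ℝ} (hc : 0 ≤ c)
    (h : ∀ᵐ p ∂((P0 G).prod ν), p ∈ A → (iidLaw G).real {t | cs E p t ∈ B} ≤ c) :
    ((P0 G).prod ν).real (B ∩ A) ≤ c := by
  have h1 := lintegral_inter_le (G := G) (ν := ν) hE hA hS (f := B.indicator 1)
    (measurable_one.indicator hB) (c := ENNReal.ofReal c) (by
      filter_upwards [h] with p hp hpA
      have hm : MeasurableSet {t | cs E p t ∈ B} := measurable_cs_right E p hB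
      have h2 : ∫⁻ t, B.indicator (1 : Row Φ → ℝ≥0∞) (cs E p t) ∂(iidLaw G) =
          (iidLaw G) {t | cs E p t ∈ B} := by
        rw [← lintegral_indicator_one hm]
        rfl
      rw [h2]
      exact (ENNReal.le_ofReal_iff_toReal_le (measure_ne_top _ _) hc).2 (hp hpA))
  rw [lintegral_indicator_one hB, Measure.restrict_apply hB] at h1
  have h3 : ENNReal.ofReal c * ((P0 G).prod ν) A ≤ ENNReal.ofReal c :=
    mul_le_of_le_one_right zero_le prob_le_one
  exact (ENNReal.le_ofReal_iff_toReal_le (measure_ne_top _ _) hc).1 (h1.trans h3)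

/-- conditional mean bound on `A ∈ σ(S)` ⟹ `∫_A f ≤ c`, for `f ≥ 0` -/
theorem integral_inter_le (hE : ∀ e, MeasurableSet {θ | e ∈ E θ}) {A : Set (Row Φ)}
    (hA : MeasurableSet A) (hS : SInv E A) {f : Row Φ → ℝ} (hf : Measurable f)
    (hf0 : ∀ᵐ p ∂((P0 G).prod ν), 0 ≤ f p) {c : ℝ} (hc : 0 ≤ c)
    (h : ∀ᵐ p ∂((P0 G).prod ν), p ∈ A →
      ∫⁻ t, ENNReal.ofReal (f (cs E p t)) ∂(iidLaw G) ≤ ENNReal.ofReal c) :
    IntegrableOn f A ((P0 G).prod ν) ∧ ∫ p in A, f p ∂((P0 G).prod ν) ≤ c := by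
  have h1 := lintegral_inter_le (G := G) (ν := ν) hE hA hS (f := fun p => ENNReal.ofReal (f p))
    (ENNReal.measurable_ofReal.comp hf) h
  have h3 : ENNReal.ofReal c * ((P0 G).prod ν) A ≤ ENNReal.ofReal c :=
    mul_le_of_le_one_right zero_le prob_le_one
  have h4 := h1.trans h3
  have h5 : 0 ≤ᵐ[((P0 G).prod ν).restrict A] f := ae_restrict_of_ae hf0
  refine ⟨⟨hf.aestronglyMeasurable, ?_⟩, ?_⟩
  · rw [hasFiniteIntegral_iff_ofReal h5]
    exact lt_of_le_of_lt h4 ENNReal.ofReal_lt_top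
  · rw [integral_eq_lintegral_of_nonneg_ae h5 hf.aestronglyMeasurable]
    exact ENNReal.toReal_le_of_le_ofReal hc h4

/-! ### Typical points -/

section typ

variable {Ω : Type*} [MeasurableSpace Ω] {κ : Measure Ω} [IsProbabilityMeasure κ]

/-- the points at which the conditional probability of `N` is at most `c` -/
def typ (G : Measure ℝ) (E : ℝ × ℝ → Set (Sym2 (ℤ × ℤ))) (κ : Measure Ω)
    (N : Set (Row Φ × Ω)) (c : ℝ) : Set (Row Φ) :=
  {p | ((iidLaw G).prod κ).real {x | (cs E p x.1, x.2) ∈ N} ≤ c}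

lemma measurable_condProb (hE : ∀ e, MeasurableSet {θ | e ∈ E θ}) {N : Set (Row Φ × Ω)}
    (hN : MeasurableSet N) :
    Measurable fun p : Row Φ => ((iidLaw G).prod κ) {x | (cs E p x.1, x.2) ∈ N} := by
  have h1 : Measurable fun y : Row Φ × (Environment × Ω) => (cs E y.1 y.2.1, y.2.2) :=
    ((measurable_cs hE).comp (measurable_fst.prodMk (measurable_fst.comp measurable_snd))).prodMk
      (measurable_snd.comp measurable_snd)
  exact measurable_measure_prodMk_left (h1 hN)

lemma measurableSet_typ (hE : ∀ e, MeasurableSet {θ | e ∈ E θ}) {N : Set (Row Φ × Ω)}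
    (hN : MeasurableSet N) (c : ℝ) : MeasurableSet (typ G E κ N c) :=
  measurableSet_le (measurable_condProb hE hN).ennreal_toReal measurable_const

lemma sInv_typ (N : Set (Row Φ × Ω)) (c : ℝ) : SInv E (typ G E κ N c) := by
  intro p t
  simp only [typ, mem_ofPred_eq, cs_cs]

lemma sInv_depends {A : Set (Row Φ)} (hS : SInv E A) (θ : ℝ × ℝ) (φ : Φ) :
    DependsOn (fun t => ((θ, t), φ) ∈ A) (E θ) := by
  intro t t' htt
  have h1 : cs E ((θ, t), φ) t = ((θ, t), φ) := by
    unfold cs; simp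
  have h2 : cs E ((θ, t'), φ) t = ((θ, t), φ) := by
    unfold cs
    simp only [Prod.mk.injEq, and_true, true_and]
    funext e
    by_cases he : e ∈ E θ
    · rw [glue_of_mem he]; exact (htt e he).symm
    · rw [glue_of_notMem he]
  have h3 := hS ((θ, t'), φ) t
  rw [h2] at h3
  exact propext h3

theorem typ_compl_le (hE : ∀ e, MeasurableSet {θ | e ∈ E θ}) {N : Set (Row Φ × Ω)}
    (hN : MeasurableSet N) {c : ℝ} (hc : 0 < c) :
    ((P0 G).prod ν).real (typ G E κ N c)ᶜ ≤ (((P0 G).prod ν).prod κ).real N / c := by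
  set P := (P0 G).prod ν with hP
  have e1 : ∫⁻ p, ((iidLaw G).prod κ) {x | (cs E p x.1, x.2) ∈ N} ∂P = (P.prod κ) N := by
    have hmN : Measurable fun p : Row Φ => κ {ω | (p, ω) ∈ N} := measurable_measure_prodMk_left hN
    rw [Measure.prod_apply hN]
    have h0 : (∫⁻ p : Row Φ, κ (Prod.mk p ⁻¹' N) ∂P) = ∫⁻ p : Row Φ, κ {ω | (p, ω) ∈ N} ∂P := rfl
    rw [h0, ← lintegral_cs hE hmN]
    refine lintegral_congr fun p => ?_
    have h1 : Measurable fun x : Environment × Ω => (cs E p x.1, x.2) :=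
      ((measurable_cs_right E p).comp measurable_fst).prodMk measurable_snd
    exact Measure.prod_apply (h1 hN)
  have h2 := mul_meas_ge_le_lintegral₀ (μ := P)
    (f := fun p => ((iidLaw G).prod κ) {x | (cs E p x.1, x.2) ∈ N})
    (measurable_condProb hE hN).aemeasurable (ENNReal.ofReal c)
  rw [e1] at h2
  have h3 : (typ G E κ N c)ᶜ ⊆
      {p | ENNReal.ofReal c ≤ ((iidLaw G).prod κ) {x | (cs E p x.1, x.2) ∈ N}} := by
    intro p hp
    simp only [typ, mem_compl_iff, mem_ofPred_eq, not_le] at hp ⊢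
    exact ENNReal.ofReal_le_of_le_toReal hp.le
  rw [le_div_iff₀ hc, mul_comm]
  have h4 : ENNReal.ofReal c * P (typ G E κ N c)ᶜ ≤ (P.prod κ) N :=
    (mul_le_mul_right (measure_mono h3) _).trans h2
  have h5 := ENNReal.toReal_mono (measure_ne_top _ _) h4
  rwa [ENNReal.toReal_mul, ENNReal.toReal_ofReal hc.le] at h5

end typ

/-! ### Invariance and locality of the typical sets -/

/-- covariance of the edge sets -/
def ECov (E : ℝ × ℝ → Set (Sym2 (ℤ × ℤ))) : Prop :=
  ∀ (m : ℤ × ℤ) (θ : ℝ × ℝ) (e : Sym2 (ℤ × ℤ)), e ∈ E (θ + toR m) ↔ Sym2.map (tr m) e ∈ E θ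

lemma glue_act (hEc : ECov E) (m : ℤ × ℤ) (θ : ℝ × ℝ) (t t' : Environment) :
    glue (E (θ + toR m)) (act (tr m) t) (act (tr m) t') = act (tr m) (glue (E θ) t t') := by
  funext e
  by_cases he : e ∈ E (θ + toR m)
  · rw [glue_of_mem he]
    have h2 := (hEc m θ e).1 he
    show t (Sym2.map (tr m) e) = glue (E θ) t t' (Sym2.map (tr m) e)
    rw [glue_of_mem h2]
  · rw [glue_of_notMem he]
    have h2 : Sym2.map (tr m) e ∉ E θ := fun h => he ((hEc m θ e).2 h)
    show t' (Sym2.map (tr m) e) = glue (E θ) t t' (Sym2.map (tr m) e)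
    rw [glue_of_notMem h2]

lemma cs_act (hEc : ECov E) (m : ℤ × ℤ) (θ : ℝ × ℝ) (t t' : Environment) (φ : Φ) :
    cs E ((θ + toR m, act (tr m) t), φ) (act (tr m) t') =
      ((θ + toR m, act (tr m) (glue (E θ) t t')), φ) := by
  unfold cs
  simp only [glue_act hEc]

theorem inv_typ {Ω : Type*} [MeasurableSpace Ω] {κ : Measure Ω} [IsProbabilityMeasure κ]
    (hEc : ECov E)
    {N : Set (Row Φ × Ω)} (hN : MeasurableSet N)
    (hNi : ∀ ω φ, Inv fun θ t => ((((θ, t), φ), ω) : Row Φ × Ω) ∈ N) (c : ℝ) (φ : Φ) :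
    Inv fun θ t => (((θ, t), φ) : Row Φ) ∈ typ G E κ N c := by
  intro m θ t
  simp only [typ, mem_ofPred_eq]
  have hf : Measurable fun x : Environment × Ω =>
      (cs E ((θ + toR m, act (tr m) t), φ) x.1, x.2) :=
    ((measurable_cs_right E _).comp measurable_fst).prodMk measurable_snd
  have hmp : MeasurePreserving (fun x : Environment × Ω => (act (tr m) x.1, x.2))
      ((iidLaw G).prod κ) ((iidLaw G).prod κ) := by
    have := (mp_act (G := G) (tr m)).prod (MeasurePreserving.id κ)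
    exact this
  have h1 := hmp.measureReal_preimage (hf hN).nullMeasurableSet
  have h2 : (fun x : Environment × Ω => (act (tr m) x.1, x.2)) ⁻¹'
      ((fun x : Environment × Ω => (cs E ((θ + toR m, act (tr m) t), φ) x.1, x.2)) ⁻¹' N) =
      {x : Environment × Ω | (cs E ((θ, t), φ) x.1, x.2) ∈ N} := by
    ext x
    simp only [mem_preimage, mem_ofPred_eq]
    rw [cs_act hEc]
    have := hNi x.2 φ m θ (glue (E θ) t x.1)
    simp only at this
    rw [this]
    rfl
  rw [h2] at h1
  have h3 : ((iidLaw G).prod κ).real {x : Environment × Ω |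
      (cs E ((θ + toR m, act (tr m) t), φ) x.1, x.2) ∈ N} =
      ((iidLaw G).prod κ).real {x : Environment × Ω | (cs E ((θ, t), φ) x.1, x.2) ∈ N} := h1.symm
  exact propext (by rw [h3])

/-- typical sets are measurable for the sigma-algebra of the row -/
theorem measurableSet_typ_mIL {Ω : Type*} [MeasurableSpace Ω] {κ : Measure Ω}
    [IsProbabilityMeasure κ] (hE : ∀ e, MeasurableSet {θ | e ∈ E θ}) (hEc : ECov E)
    {N : Set (Row Φ × Ω)} (hN : MeasurableSet N)
    (hNi : ∀ ω φ, Inv fun θ t => ((((θ, t), φ), ω) : Row Φ × Ω) ∈ N) (c : ℝ)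
    {E' : ℝ × ℝ → Set (Sym2 (ℤ × ℤ))} (hEE : ∀ θ, E θ ⊆ E' θ) :
    MeasurableSet[mIL Φ E'] (typ G E κ N c) := by
  rw [M192.measurableSet_mIL]
  refine ⟨measurableSet_typ hE hN c, fun φ => inv_typ hEc hN hNi c φ, fun θ φ => ?_⟩
  intro t t' htt
  exact sInv_depends (sInv_typ N c) θ φ fun e he => htt e (hEE θ he)

section E0

variable {μ : ℝ × ℝ → ℝ} {F : B710.FlatData μ} (h : Hwy F)

lemma eCov_E0 (d : ℝ × ℝ) : ECov (E0 h d) := by
  intro m θ e
  induction e with
  | h x y =>
    rw [Sym2.map_mk]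
    simp only [E0, mem_union, mem_edgesIn, mem_ofPred_eq, M192.pos_add_toR, tr_apply]
    have h2 : θ + toR m - d = (θ - d) + toR m := by abel
    rw [h2]
    simp only [M192.pos_add_toR]

lemma E0_subset_band {d : ℝ × ℝ} (hd : h.wH < F.be d) (θ : ℝ × ℝ) :
    E0 h d θ ⊆ edgesIn (h.band d θ) := by
  have hw := h.wH_nonneg
  intro e he
  induction e with
  | h x y =>
    rcases he with he | he
    · rw [mem_edgesIn] at he ⊢
      have key : ∀ z : ℤ × ℤ, |F.be (pos θ z)| ≤ h.wH / 2 → z ∈ h.band d θ := by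
        intro z hz
        rw [abs_le] at hz
        exact ⟨by linarith [hz.1], by linarith [hz.2]⟩
      exact ⟨key x he.1, key y he.2⟩
    · rw [mem_edgesIn] at he ⊢
      have key : ∀ z : ℤ × ℤ, |F.be (pos (θ - d) z)| ≤ h.wH / 2 → z ∈ h.band d θ := by
        intro z hz
        rw [Hwy.be_pos_sub, abs_le] at hz
        exact ⟨by linarith [hz.1], by linarith [hz.2]⟩
      exact ⟨key x he.1, key y he.2⟩

end E0

end Crest.Agent.R151.V
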