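import Crest.Agent.R151.CL684
import Crest.Agent.R151.V15
import Crest.Agent.R151.M192f

/-!
# R151 / S0214 part 2, CL684b — the field `cells_large` of the row instance (owner helper684)

From conditional (given the strips) one-cell and one-fence bounds on a typical set `TS ∈ σ(S)`, with
the gauge replaced by an `S`-measurable `ρ` (`|gauge - ρ| ≤ A ≤ l` on `T ⊆ TS`), the field
`cells_large` of `(M192.rowA h W L y l c δ T).Law`.
-/

set_option autoImplicit false
set_option maxHeartbeats 400000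

open MeasureTheory ProbabilityTheory Filter Set
open scoped ENNReal
open Crest.ProbabilityR.FirstPassage

namespace Crest.Agent.R151.CL

open Crest.Agent.R151.K
open B710 (FlatData)
open Q (Hwy P0 UU UU2 rg pos)
open V (glue E0 cs SInv)
open M192 (Row pe skp rowA RowOK)

variable {μ : ℝ × ℝ → ℝ} {F : FlatData μ}

/-- hull kernel, as a function on rows -/
noncomputable def hkq (h : Hwy F) (d : ℝ × ℝ) (I : Set ℝ) (a b : ℝ) (q : Row (ℝ × ℝ)) : ℝ :=
  h.hk d I a b q.1.1 q.1.2 q.2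

/-- hull of the cell at `x` -/
noncomputable def cellk (h : Hwy F) (W : ℝ) (d : ℝ × ℝ) (x : ℝ) : Row (ℝ × ℝ) → ℝ :=
  hkq h d (Icc (x * W) ((x + 7 / 32) * W)) ((x + 6 / 32) * W) ((x + 1 / 32) * W)

/-- hull of the fence of width `w` at `x` -/
noncomputable def fenk (h : Hwy F) (W c w : ℝ) (d : ℝ × ℝ) (x : ℝ) : Row (ℝ × ℝ) → ℝ :=
  hkq h d (Icc (x * W + c) ((x + w) * W - c)) (x * W + c) ((x + w) * W - c)

lemma measurable_hkq (h : Hwy F) (d : ℝ × ℝ) {I : Set ℝ} (hI : MeasurableSet I) (a b : ℝ) :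
    Measurable (hkq h d I a b) :=
  h.meas_hk (measurable_fst.comp measurable_fst) (measurable_snd.comp measurable_fst)
    measurable_snd d hI a b

lemma dep_hkq (h : Hwy F) (d : ℝ × ℝ) (I : Set ℝ) (a b : ℝ) (θ φ : ℝ × ℝ) :
    DependsOn (fun t => hkq h d I a b ((θ, t), φ)) (E0 h d θ ∪ edgesIn (rg F I θ)) :=
  V.dep_hk h d I a b θ φ

variable {h : Hwy F} {W L y l c δ v C : ℝ} {T : Set (Row (ℝ × ℝ))}

lemma cell_nonneg (hO : RowOK h W L y l c δ v C) (hc4 : 4 * c ≤ 1 / 32 * W) {x : ℝ}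
    (h1 : |x| ≤ v) (h2 : |x + 7 / 32| ≤ v) (q : Row (ℝ × ℝ)) :
    0 ≤ (rowA h W L y l c δ T).cell x q := by
  have hW := hO.W_pos
  have hC := hO.C_nonneg
  have hκ := h.κ_nonneg
  have hc := hO.c_ge
  rw [abs_le] at h1 h2
  have a1 := hO.lab (x := x + 6 / 32) (by rw [abs_le]; constructor <;> linarith [h1.1, h2.2])
  have a2 := hO.lab (x := x + 1 / 32) (by rw [abs_le]; constructor <;> linarith [h1.1, h2.2])
  refine div_nonneg ?_ hO.l_pos.le
  refine M192.sk_nonneg hO.routable a1.1 a2.2 (σ₁ := (x + 6 / 32) * W + C)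
    (σ₂ := (x + 1 / 32) * W - C - h.κ) (Icc_subset_Icc ?_ ?_) (by linarith) (by linarith)
    (M192.pe_nn _) _
  · rw [le_sub_iff_add_le, le_min_iff]
    constructor <;> nlinarith
  · rw [← le_sub_iff_add_le, max_le_iff]
    constructor <;> nlinarith

lemma disjoint_Icc_of_lt {a b a' b' : ℝ} (hb : b < a') : Disjoint (Icc a b) (Icc a' b') := by
  rw [Set.disjoint_left]
  rintro z ⟨-, h1⟩ ⟨h2, -⟩
  linarith

/-- functions of hulls over disjoint lanes are conditionally independent -/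
theorem iIndepFun_hkq (h : Hwy F) (G : Measure ℝ) [IsProbabilityMeasure G] (d : ℝ × ℝ)
    (I : ℕ → Set ℝ) (hI : ∀ i, MeasurableSet (I i)) (hd : ∀ i j, i < j → Disjoint (I i) (I j))
    (a b : ℕ → ℝ) {ψ : ℝ → ℝ} (hψ : Measurable ψ) (p : Row (ℝ × ℝ)) :
    iIndepFun (fun (i : ℕ) (t : Environment) => ψ (hkq h d (I i) (a i) (b i)
      (cs (E0 h d) p t))) (iidLaw G) := by
  have key := iIndepFun_glue G (E0 := E0 h d p.1.1)
      (D := fun i : ℕ => E0 h d p.1.1 ∪ edgesIn (rg F (I i) p.1.1))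
      (f := fun i t => ψ (hkq h d (I i) (a i) (b i) ((p.1.1, t), p.2))) ?_ ?_ ?_ p.1.2
  · exact key
  · have hdis : ∀ i j, Disjoint (I i) (I j) →
        Disjoint ((E0 h d p.1.1 ∪ edgesIn (rg F (I i) p.1.1)) \ E0 h d p.1.1)
          ((E0 h d p.1.1 ∪ edgesIn (rg F (I j) p.1.1)) \ E0 h d p.1.1) := by
      intro i j hIJ
      refine (V.disjoint_rg (F := F) hIJ p.1.1).mono ?_ ?_
      · rintro e ⟨he1 | he1, he2⟩
        · exact absurd he1 he2
        · exact he1
      · rintro e ⟨he1 | he1, he2⟩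
        · exact absurd he1 he2
        · exact he1
    intro i j hij
    rcases lt_or_gt_of_ne hij with h1 | h1
    · exact hdis i j (hd i j h1)
    · exact hdis i j (hd j i h1).symm
  · intro i
    refine hψ.comp ((measurable_hkq h d (hI i) _ _).comp ?_)
    exact (measurable_const.prodMk measurable_id).prodMk measurable_const
  · intro i t t' htt
    have := dep_hkq h d (I i) (a i) (b i) p.1.1 p.2 htt
    simp only at this
    simp only [this]

theorem cells_large_rowA {G : Measure ℝ} [IsProbabilityMeasure G] (h0 : G (Iio 0) = 0)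
    (hO : RowOK h W L y l c δ v C) (hc4 : 4 * c ≤ 1 / 32 * W) {n : ℕ} (hn : 1 ≤ n)
    {TS : Set (Row (ℝ × ℝ))} (hTS : MeasurableSet TS) (hTSi : SInv (E0 h (y • F.b)) TS)
    {ρ : Row (ℝ × ℝ) → ℝ} (hρ : Measurable ρ) (hρi : ∀ p t, ρ (cs (E0 h (y • F.b)) p t) = ρ p)
    {A : ℝ} (hA : A ≤ l)
    (hT : T ⊆ TS ∩ {q | |hkq h (y • F.b) univ (-L) L q - ρ q| ≤ A})
    {C1 : ℝ} (hC1 : 1 ≤ C1)
    (hsm : ∀ x : ℝ, |x| ≤ v → |x + 7 / 32| ≤ v → ∀ᵐ p ∂((P0 G).prod (UU.prod UU)), p ∈ TS →
      ∀ y' : ℝ, 0 ≤ y' → (iidLaw G).real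
        {t | cellk h W (y • F.b) x (cs (E0 h (y • F.b)) p t) - ρ p ≤ y' * l} ≤
        C1 * (y' + 1) / (n : ℝ) ^ 5)
    (htl : ∀ x : ℝ, |x| ≤ v → ∀ᵐ p ∂((P0 G).prod (UU.prod UU)), p ∈ TS →
      ∀ y' : ℝ, 0 ≤ y' → (iidLaw G).real
        {t | y' * l ≤ fenk h W c (1 / 32) (y • F.b) x (cs (E0 h (y • F.b)) p t) - ρ p} ≤
        C1 * Real.exp (-y' / C1))
    (x : ℝ) (m : ℕ) (hx : |x| ≤ v) (hxm : |x + 3 * m / 16 + 1 / 32| ≤ v) :
    ((P0 G).prod (UU.prod UU)).real ({ω | (rowA h W L y l c δ T).cross x m ω ≤ m} ∩ T) ≤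
      Real.exp (-((Real.log n / C2 (3 * C1) - C2 (3 * C1)) * m)) := by
  obtain ⟨d, hd⟩ : ∃ d : ℝ × ℝ, d = y • F.b := ⟨_, rfl⟩
  rw [← hd] at hTSi hρi hT hsm htl
  have hl := hO.l_pos
  have hW := hO.W_pos
  have hC := hO.C_nonneg
  have hκ := h.κ_nonneg
  have hcc := hO.c_ge
  have hC10 : 0 < C1 := by linarith
  rw [abs_le] at hx hxm
  -- the reduced cells and fences
  obtain ⟨X, hX⟩ : ∃ X : ℕ → Row (ℝ × ℝ) → ℝ, X = fun (i : ℕ) q =>
    max 0 ((cellk h W d (x + 3 * (i : ℝ) / 16) q - ρ q - A) / l) := ⟨_, rfl⟩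
  obtain ⟨Y, hY⟩ : ∃ Y : ℕ → Row (ℝ × ℝ) → ℝ, Y = fun (i : ℕ) q =>
    (fenk h W c (1 / 32) d (x + 3 * (i : ℝ) / 16) q - ρ q + A) / l := ⟨_, rfl⟩
  have hXm : ∀ i, Measurable (X i) := by
    intro i
    rw [hX]
    exact measurable_const.max ((((measurable_hkq h d measurableSet_Icc _ _).sub hρ).sub_const
      A).div_const l)
  have hYm : ∀ i, Measurable (Y i) := by
    intro i
    rw [hY]
    exact (((measurable_hkq h d measurableSet_Icc _ _).sub hρ).add_const A).div_const l
  -- positions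
  have hpos : ∀ i : ℕ, i ≤ m → |x + 3 * (i : ℝ) / 16| ≤ v := by
    intro i hi
    have h1 : (i : ℝ) ≤ m := by exact_mod_cast hi
    have h2 : (0 : ℝ) ≤ i := Nat.cast_nonneg i
    rw [abs_le]
    constructor <;> linarith
  have hpos' : ∀ i : ℕ, i < m → |x + 3 * (i : ℝ) / 16 + 7 / 32| ≤ v := by
    intro i hi
    have h1 : (i : ℝ) + 1 ≤ m := by exact_mod_cast hi
    have h2 : (0 : ℝ) ≤ i := Nat.cast_nonneg i
    rw [abs_le]
    constructor <;> linarith
  -- reduction
  have hred : ((P0 G).prod (UU.prod UU)).real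
      ({ω | (rowA h W L y l c δ T).cross x m ω ≤ m} ∩ T) ≤
      ((P0 G).prod (UU.prod UU)).real ({q | ∑ i ∈ Finset.range m, X i q -
        2 * ∑ i ∈ Finset.range (m + 1), Y i q ≤ m} ∩ TS) := by
    refine ENNReal.toReal_mono (measure_ne_top _ _) (measure_mono_ae ?_)
    filter_upwards [M192.ae_pe_prod h0 (UU.prod UU)] with q hq hqT
    obtain ⟨hq1, hq2⟩ := hqT
    obtain ⟨hq3, hq4⟩ := hT hq2
    refine ⟨?_, hq3⟩
    simp only [Set.mem_ofPred_eq] at hq1 hq4 ⊢
    refine le_trans ?_ hq1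
    unfold E191.RowA.cross
    rw [abs_le] at hq4
    have hskp : ∀ I a b, skp h y l L I a b q = (hkq h d I a b q - hkq h d univ (-L) L q) / l := by
      intro I a b
      unfold skp hkq Hwy.sk
      rw [hq, hd]
    have e1 : ∀ i ∈ Finset.range m, X i q ≤ (rowA h W L y l c δ T).cell (x + 3 * i / 16) q := by
      intro i hi
      rw [hX]
      refine max_le (cell_nonneg hO hc4 (hpos i (Finset.mem_range.1 hi).le)
        (hpos' i (Finset.mem_range.1 hi)) q) ?_
      show _ ≤ skp h y l L _ _ _ q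
      rw [hskp]
      refine div_le_div_of_nonneg_right ?_ hl.le
      unfold cellk
      linarith [hq4.2]
    have e2 : ∀ i ∈ Finset.range (m + 1),
        (rowA h W L y l c δ T).F (1 / 32) (x + 3 * i / 16) q ≤ Y i q := by
      intro i hi
      rw [hY]
      have : (rowA h W L y l c δ T).F (1 / 32) (x + 3 * i / 16) q = skp h y l L
          (Icc ((x + 3 * i / 16) * W + c) ((x + 3 * i / 16 + 1 / 32) * W - c))
          ((x + 3 * i / 16) * W + c) ((x + 3 * i / 16 + 1 / 32) * W - c) q :=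
        if_pos ⟨hc4, by norm_num⟩
      rw [this, hskp]
      refine div_le_div_of_nonneg_right ?_ hl.le
      unfold fenk
      linarith [hq4.1]
    have e3 := Finset.sum_le_sum e1
    have e4 := Finset.sum_le_sum e2
    linarith
  refine hred.trans ?_
  refine V.prob_inter_le (V.measurableSet_E0 h d) hTS hTSi
    (measurableSet_le ((Finset.measurable_sum _ fun i _ => hXm i).sub
      ((Finset.measurable_sum _ fun i _ => hYm i).const_mul 2)) measurable_const)
    (Real.exp_pos _).le ?_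
  have hsm' : ∀ᵐ p ∂((P0 G).prod (UU.prod UU)), ∀ i : ℕ, i < m → p ∈ TS →
      ∀ y' : ℝ, 0 ≤ y' → (iidLaw G).real
        {t | cellk h W d (x + 3 * (i : ℝ) / 16) (cs (E0 h d) p t) - ρ p ≤ y' * l} ≤
        C1 * (y' + 1) / (n : ℝ) ^ 5 := by
    rw [ae_all_iff]
    intro i
    by_cases hi : i < m
    · filter_upwards [hsm _ (hpos i hi.le) (hpos' i hi)] with p hp _ using hp
    · exact Eventually.of_forall fun p h => absurd h hi
  have htl' : ∀ᵐ p ∂((P0 G).prod (UU.prod UU)), ∀ i : ℕ, i ≤ m → p ∈ TS →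
      ∀ y' : ℝ, 0 ≤ y' → (iidLaw G).real
        {t | y' * l ≤ fenk h W c (1 / 32) d (x + 3 * (i : ℝ) / 16) (cs (E0 h d) p t) - ρ p} ≤
        C1 * Real.exp (-y' / C1) := by
    rw [ae_all_iff]
    intro i
    by_cases hi : i ≤ m
    · filter_upwards [htl _ (hpos i hi)] with p hp _ using hp
    · exact Eventually.of_forall fun p h => absurd h hi
  filter_upwards [hsm', htl'] with p hps hpt hp
  have hcsm := V.measurable_cs_right (E0 h d) p
  have hcell : ∀ i j : ℕ, i + 2 ≤ j →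
      Disjoint (Icc ((x + 3 * (i : ℝ) / 16) * W) ((x + 3 * (i : ℝ) / 16 + 7 / 32) * W))
        (Icc ((x + 3 * (j : ℝ) / 16) * W) ((x + 3 * (j : ℝ) / 16 + 7 / 32) * W)) := by
    intro i j hij
    have h1 : (i : ℝ) + 2 ≤ j := by exact_mod_cast hij
    refine disjoint_Icc_of_lt (mul_lt_mul_of_pos_right ?_ hW)
    linarith
  have hψX : Measurable fun u : ℝ => max 0 ((u - ρ p - A) / l) := by fun_prop
  have hψY : Measurable fun u : ℝ => (u - ρ p + A) / l := by fun_prop
  refine cells_large (μ := iidLaw G) (C := 3 * C1) (by linarith) hn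
    (X := fun i t => X i (cs (E0 h d) p t)) (Y := fun i t => Y i (cs (E0 h d) p t))
    (fun i => (hXm i).comp hcsm) (fun i => (hYm i).comp hcsm) ?_ ?_ ?_ ?_ ?_ ?_
  · intro i _
    refine Eventually.of_forall fun t => ?_
    rw [hX]
    exact le_max_left _ _
  · have key := iIndepFun_hkq h G d
      (fun i => Icc ((x + 3 * ((2 * i : ℕ) : ℝ) / 16) * W)
        ((x + 3 * ((2 * i : ℕ) : ℝ) / 16 + 7 / 32) * W)) (fun i => measurableSet_Icc)
      (fun i j hij => hcell _ _ (by omega))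
      (fun i => (x + 3 * ((2 * i : ℕ) : ℝ) / 16 + 6 / 32) * W)
      (fun i => (x + 3 * ((2 * i : ℕ) : ℝ) / 16 + 1 / 32) * W) hψX p
    have e : (fun (i : ℕ) (t : Environment) => X (2 * i) (cs (E0 h d) p t)) =
        fun i t => max 0 ((cellk h W d (x + 3 * ((2 * i : ℕ) : ℝ) / 16) (cs (E0 h d) p t) -
          ρ p - A) / l) := by
      funext i t
      rw [hX]
      simp only [hρi]
    rw [e]
    exact key
  · have key := iIndepFun_hkq h G d
      (fun i => Icc ((x + 3 * ((2 * i + 1 : ℕ) : ℝ) / 16) * W)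
        ((x + 3 * ((2 * i + 1 : ℕ) : ℝ) / 16 + 7 / 32) * W)) (fun i => measurableSet_Icc)
      (fun i j hij => hcell _ _ (by omega))
      (fun i => (x + 3 * ((2 * i + 1 : ℕ) : ℝ) / 16 + 6 / 32) * W)
      (fun i => (x + 3 * ((2 * i + 1 : ℕ) : ℝ) / 16 + 1 / 32) * W) hψX p
    have e : (fun (i : ℕ) (t : Environment) => X (2 * i + 1) (cs (E0 h d) p t)) =
        fun i t => max 0 ((cellk h W d (x + 3 * ((2 * i + 1 : ℕ) : ℝ) / 16)
          (cs (E0 h d) p t) - ρ p - A) / l) := by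
      funext i t
      rw [hX]
      simp only [hρi]
    rw [e]
    exact key
  · have key := iIndepFun_hkq h G d
      (fun i => Icc ((x + 3 * (i : ℝ) / 16) * W + c) ((x + 3 * (i : ℝ) / 16 + 1 / 32) * W - c))
      (fun i => measurableSet_Icc) (fun i j hij => by
        have h1 : (i : ℝ) + 1 ≤ j := by exact_mod_cast hij
        refine disjoint_Icc_of_lt ?_
        have h2 : (x + 3 * (i : ℝ) / 16 + 1 / 32) * W ≤ (x + 3 * (j : ℝ) / 16) * W := by
          refine mul_le_mul_of_nonneg_right ?_ hW.le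
          linarith
        have h3 : 0 < c ∨ c = 0 := by
          rcases (show 0 ≤ c by linarith).lt_or_eq with h | h
          · exact Or.inl h
          · exact Or.inr h.symm
        have h4 : (x + 3 * (i : ℝ) / 16 + 1 / 32) * W < (x + 3 * (j : ℝ) / 16) * W := by
          refine mul_lt_mul_of_pos_right ?_ hW
          linarith
        linarith)
      (fun i => (x + 3 * (i : ℝ) / 16) * W + c)
      (fun i => (x + 3 * (i : ℝ) / 16 + 1 / 32) * W - c) hψY p
    have e : (fun (i : ℕ) (t : Environment) => Y i (cs (E0 h d) p t)) =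
        fun (i : ℕ) t => (fenk h W c (1 / 32) d (x + 3 * (i : ℝ) / 16) (cs (E0 h d) p t) -
          ρ p + A) / l := by
      funext i t
      rw [hY]
      simp only [hρi]
    rw [e]
    exact key
  · intro i hi y' hy'
    have h1 := hps i hi hp (y' + 1) (by linarith)
    refine (measureReal_mono ?_ (measure_ne_top _ _)).trans (h1.trans ?_)
    · intro t ht
      simp only [Set.mem_ofPred_eq] at ht ⊢
      rw [hX] at ht
      simp only [hρi] at ht
      have h2 := (le_max_right _ _).trans ht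
      rw [div_le_iff₀ hl] at h2
      linarith
    · have : (0 : ℝ) < (n : ℝ) ^ 5 := by
        have : (0 : ℝ) < n := by exact_mod_cast hn
        positivity
      rw [div_le_div_iff_of_pos_right this]
      nlinarith
  · intro i hi y' hy'
    by_cases hy1 : 1 ≤ y'
    · have h1 := hpt i hi hp (y' - 1) (by linarith)
      refine (measureReal_mono ?_ (measure_ne_top _ _)).trans (h1.trans ?_)
      · intro t ht
        simp only [Set.mem_ofPred_eq] at ht ⊢
        rw [hY] at ht
        simp only [hρi] at ht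
        rw [le_div_iff₀ hl] at ht
        linarith
      · have h2 : -(y' - 1) / C1 ≤ 1 + -y' / (3 * C1) := by
          rw [div_le_iff₀ hC10]
          have : (1 + -y' / (3 * C1)) * C1 = C1 - y' / 3 := by field_simp; ring
          rw [this]
          linarith
        have h3 : Real.exp 1 ≤ 3 := by linarith [Real.exp_one_lt_d9]
        calc C1 * Real.exp (-(y' - 1) / C1) ≤ C1 * Real.exp (1 + -y' / (3 * C1)) :=
              mul_le_mul_of_nonneg_left (Real.exp_le_exp.2 h2) hC10.le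
          _ = C1 * (Real.exp 1 * Real.exp (-y' / (3 * C1))) := by rw [Real.exp_add]
          _ ≤ C1 * (3 * Real.exp (-y' / (3 * C1))) := by
              refine mul_le_mul_of_nonneg_left ?_ hC10.le
              exact mul_le_mul_of_nonneg_right h3 (Real.exp_pos _).le
          _ = 3 * C1 * Real.exp (-y' / (3 * C1)) := by ring
    · push Not at hy1
      refine measureReal_le_one.trans ?_
      have h2 : -(1 / 3) ≤ -y' / (3 * C1) := by
        rw [neg_div, neg_le_neg_iff, div_le_iff₀ (by linarith)]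
        linarith
      have h3 := Real.add_one_le_exp (-(1 / 3) : ℝ)
      have h4 := Real.exp_le_exp.2 h2
      nlinarith

end Crest.Agent.R151.CL
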