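import Crest.Agent.R151.V16

/-!
# R151/V17 — uniform integrability, and the passage closeness ⟹ typical strips (owner helper52)

* `SData.ui` : `∫ R#` over the atypical rows is small (F_ui);
* `le_condProb` : on `typ N c`, `N ⊇ I ∩ Bᶜ`, the conditional probability of `B` is at least the
  conditional probability of the inner event `I` minus `c`;
* `SData.T1`, `SData.T2_tail`, `SData.T2_mean`, `SData.T2_mean'` : (7.1), (7.2) of P2_v2 / (T1), (T2)
  of PR777 in the final unconditional form, for any `A ∈ σ(S)` inside the typical sets.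
-/

set_option autoImplicit false
set_option linter.unusedSectionVars false

open MeasureTheory ProbabilityTheory Set
open scoped ENNReal
open Crest.ProbabilityR.FirstPassage

namespace Crest.Agent.R151.V

open Crest.Agent.R151.K
open Q (P0)
open M192 (Row)

variable {Φ : Type*} [MeasurableSpace Φ] {E : ℝ × ℝ → Set (Sym2 (ℤ × ℤ))}
  {G : Measure ℝ} [IsProbabilityMeasure G] {ν : Measure Φ} [IsProbabilityMeasure ν]
  {X D : Row Φ → ℝ} {Ω : Type*} [MeasurableSpace Ω] {κ : Measure Ω} [IsProbabilityMeasure κ]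

/-- the part `S` atypical: `R# ≤ V + err`, `V` = inner cost, whose conditional mean is `≤ m` -/
theorem SData.ui_atyp (h : SData G ν E X D) {A : Set (Row Φ)} (hA : MeasurableSet A)
    (hS : SInv E A) {m : ℝ} {V err : Row Φ × Ω → ℝ} (hV : Measurable V)
    (hVm : ∀ᵐ p ∂((P0 G).prod ν), ∫⁻ x, ENNReal.ofReal (V (cs E p x.1, x.2))
      ∂((iidLaw G).prod κ) ≤ ENNReal.ofReal m)
    (hei : Integrable err (((P0 G).prod ν).prod κ))
    (hle : ∀ᵐ y ∂(((P0 G).prod ν).prod κ), X y.1 - D y.1 ≤ V y + err y) :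
    ∫⁻ p in A, ENNReal.ofReal (X p - D p) ∂((P0 G).prod ν) ≤
      ENNReal.ofReal m * ((P0 G).prod ν) A +
        ENNReal.ofReal (∫ y, |err y| ∂(((P0 G).prod ν).prod κ)) := by
  set P := (P0 G).prod ν with hP
  have hVo : Measurable fun y => ENNReal.ofReal (V y) := ENNReal.measurable_ofReal.comp hV
  have hW : Measurable fun p : Row Φ => ∫⁻ ω, ENNReal.ofReal (V (p, ω)) ∂κ :=
    hVo.lintegral_prod_right'
  have hle' := Measure.ae_ae_of_ae_prod hle
  have h1 : ∀ᵐ p ∂P, ENNReal.ofReal (X p - D p) ≤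
      ∫⁻ ω, ENNReal.ofReal (V (p, ω)) ∂κ + ∫⁻ ω, ENNReal.ofReal |err (p, ω)| ∂κ := by
    filter_upwards [hle'] with p hp
    have hVp : Measurable fun ω => ENNReal.ofReal (V (p, ω)) :=
      hVo.comp (measurable_const.prodMk measurable_id)
    rw [← lintegral_add_left hVp]
    calc ENNReal.ofReal (X p - D p) = ∫⁻ _, ENNReal.ofReal (X p - D p) ∂κ := by
          rw [lintegral_const, measure_univ, mul_one]
      _ ≤ _ := by
          refine lintegral_mono_ae ?_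
          filter_upwards [hp] with ω hω
          calc ENNReal.ofReal (X p - D p) ≤ ENNReal.ofReal (V (p, ω) + |err (p, ω)|) :=
                ENNReal.ofReal_le_ofReal (hω.trans (by
                  have := le_abs_self (err (p, ω)); linarith))
            _ ≤ _ := ENNReal.ofReal_add_le
  have h2 : ∫⁻ p in A, ∫⁻ ω, ENNReal.ofReal (V (p, ω)) ∂κ ∂P ≤ ENNReal.ofReal m * P A := by
    refine lintegral_inter_le (G := G) (ν := ν) h.hE hA hS hW ?_
    filter_upwards [hVm] with p hp _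
    have h3 : Measurable fun x : Environment × Ω => ENNReal.ofReal (V (cs E p x.1, x.2)) :=
      hVo.comp (((measurable_cs_right E p).comp measurable_fst).prodMk measurable_snd)
    rw [lintegral_prod _ h3.aemeasurable] at hp
    exact hp
  have h4 : ∫⁻ p in A, ∫⁻ ω, ENNReal.ofReal |err (p, ω)| ∂κ ∂P ≤
      ENNReal.ofReal (∫ y, |err y| ∂(P.prod κ)) := by
    refine (setLIntegral_le_lintegral _ _).trans ?_
    rw [ofReal_integral_eq_lintegral_ofReal hei.abs (ae_of_all _ fun _ => abs_nonneg _)]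
    have hma : AEMeasurable (fun y => ENNReal.ofReal |err y|) (P.prod κ) :=
      ENNReal.measurable_ofReal.comp_aemeasurable hei.abs.aestronglyMeasurable.aemeasurable
    exact le_of_eq (lintegral_prod _ hma).symm
  calc ∫⁻ p in A, ENNReal.ofReal (X p - D p) ∂P
      ≤ ∫⁻ p in A, (∫⁻ ω, ENNReal.ofReal (V (p, ω)) ∂κ +
          ∫⁻ ω, ENNReal.ofReal |err (p, ω)| ∂κ) ∂P :=
        lintegral_mono_ae (ae_restrict_of_ae h1)
    _ = ∫⁻ p in A, ∫⁻ ω, ENNReal.ofReal (V (p, ω)) ∂κ ∂P +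
          ∫⁻ p in A, ∫⁻ ω, ENNReal.ofReal |err (p, ω)| ∂κ ∂P := lintegral_add_left hW _
    _ ≤ _ := add_le_add h2 h4

/-- the part `S` typical, `|D| > d` -/
theorem SData.ui_typ (h : SData G ν E X D) {A : Set (Row Φ)} (hA : MeasurableSet A)
    (hS : SInv E A) {d δ τ q : ℝ} (hd : 0 < d) (hτ : 0 ≤ τ) (hδ : δ ≤ q / 4) (hq0 : 0 < q)
    (hq1 : q ≤ 1)
    (hD : ∀ᵐ p ∂((P0 G).prod ν), p ∈ A → (iidLaw G).real {t | d < |D (cs E p t)|} ≤ δ)
    (hZ : ∀ᵐ p ∂((P0 G).prod ν), p ∈ A →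
      q ≤ (iidLaw G).real {t | X (cs E p t) - D (cs E p t) ≤ τ}) {b : ℝ} (hb : τ + 2 * d ≤ b) :
    ∫⁻ p in A ∩ {p | d < |D p|}, ENNReal.ofReal (X p - D p) ∂((P0 G).prod ν) ≤
      ENNReal.ofReal (∫ p, |D p| ∂((P0 G).prod ν) + b * ((∫ p, |D p| ∂((P0 G).prod ν)) / d) +
        (τ + 3 * d) * (2 / q) * Real.exp (-(q / 2) * (b / (τ + 3 * d)))) := by
  set P := (P0 G).prod ν with hP
  set T : Set (Row Φ) := {p | d < |D p|} with hT
  have hTm : MeasurableSet T := measurableSet_lt measurable_const h.hD.abs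
  have hb0 : 0 ≤ b := by linarith
  have hI0 : 0 ≤ ∫ p, |D p| ∂P := integral_nonneg fun _ => abs_nonneg _
  have hpos : 0 < τ + 3 * d := by linarith
  have hXo : Measurable fun p => ENNReal.ofReal (X p - b) :=
    ENNReal.measurable_ofReal.comp (h.hX.sub_const b)
  have h1 : ∫⁻ p in A, ENNReal.ofReal (X p - b) ∂P ≤
      ENNReal.ofReal ((τ + 3 * d) * (2 / q) * Real.exp (-(q / 2) * (b / (τ + 3 * d)))) := by
    have h2 := lintegral_inter_le (G := G) (ν := ν) h.hE hA hS hXo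
      (c := ENNReal.ofReal ((τ + 3 * d) * (2 / q) * Real.exp (-(q / 2) * (b / (τ + 3 * d))))) (by
        filter_upwards [h.lc, h.cond_err hD, hZ] with p hlc herr hz hpA
        have h3 := hlc.pert_lintegral (h.hX.comp (measurable_cs_right E p)) (Z := fun t =>
          X (cs E p t) - D (cs E p t)) hd hτ hδ hq0 hq1 (herr hpA) (hz hpA) hb
        refine h3.trans (ENNReal.ofReal_le_ofReal ?_)
        refine mul_le_mul_of_nonneg_left ?_ (by positivity)
        have h4 := one_sub_pow_le (q := q) (x := (b + d) / (τ + 3 * d)) hq1 (by positivity)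
        refine h4.trans (Real.exp_le_exp.2 ?_)
        have h5 : b / (τ + 3 * d) ≤ (b + d) / (τ + 3 * d) := by gcongr; linarith
        nlinarith)
    exact h2.trans (mul_le_of_le_one_right zero_le prob_le_one)
  have hPT : P T ≤ ENNReal.ofReal ((∫ p, |D p| ∂P) / d) := by
    have h2 : P.real T ≤ (∫ p, |D p| ∂P) / d := by
      rw [le_div_iff₀ hd, mul_comm]
      have h3 := mul_meas_ge_le_integral_of_nonneg (μ := P) (f := fun p => |D p|)
        (ae_of_all _ fun p => abs_nonneg _) h.hDi.abs d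
      refine le_trans ?_ h3
      refine mul_le_mul_of_nonneg_left ?_ hd.le
      exact measureReal_mono (fun p (hp : d < |D p|) => hp.le) (measure_ne_top _ _)
    exact (ENNReal.le_ofReal_iff_toReal_le (measure_ne_top _ _) (by positivity)).2 h2
  have hDo : Measurable fun p => ENNReal.ofReal |D p| :=
    ENNReal.measurable_ofReal.comp h.hD.abs
  calc ∫⁻ p in A ∩ T, ENNReal.ofReal (X p - D p) ∂P
      ≤ ∫⁻ p in A ∩ T, (ENNReal.ofReal |D p| + (ENNReal.ofReal b +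
          ENNReal.ofReal (X p - b))) ∂P := by
        refine lintegral_mono fun p => ?_
        have h3 : X p - D p ≤ |D p| + (b + max (X p - b) 0) := by
          have := neg_abs_le (D p)
          have := le_max_left (X p - b) 0
          linarith
        calc ENNReal.ofReal (X p - D p)
            ≤ ENNReal.ofReal (|D p| + (b + max (X p - b) 0)) := ENNReal.ofReal_le_ofReal h3
          _ = _ := by
            rw [ENNReal.ofReal_add (abs_nonneg _) (by positivity),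
              ENNReal.ofReal_add hb0 (le_max_right _ _), ENNReal.ofReal_max]
            simp
    _ = ∫⁻ p in A ∩ T, ENNReal.ofReal |D p| ∂P + (ENNReal.ofReal b * P (A ∩ T) +
          ∫⁻ p in A ∩ T, ENNReal.ofReal (X p - b) ∂P) := by
        rw [lintegral_add_left hDo, lintegral_add_left measurable_const, setLIntegral_const]
    _ ≤ ∫⁻ p, ENNReal.ofReal |D p| ∂P + (ENNReal.ofReal b * P T +
          ∫⁻ p in A, ENNReal.ofReal (X p - b) ∂P) := by
        refine add_le_add (setLIntegral_le_lintegral _ _) (add_le_add ?_ ?_)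
        · exact mul_le_mul_right (measure_mono inter_subset_right) _
        · exact lintegral_mono_set inter_subset_left
    _ ≤ ENNReal.ofReal (∫ p, |D p| ∂P) +
          (ENNReal.ofReal b * ENNReal.ofReal ((∫ p, |D p| ∂P) / d) +
          ENNReal.ofReal ((τ + 3 * d) * (2 / q) *
            Real.exp (-(q / 2) * (b / (τ + 3 * d))))) := by
        rw [h.lintegral_abs]
        gcongr
    _ = _ := by
        rw [← ENNReal.ofReal_mul hb0, ← ENNReal.ofReal_add (by positivity) (by positivity),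
          ← ENNReal.ofReal_add hI0 (by positivity)]
        congr 1
        ring

/-- **uniform integrability** (`F_ui`): the atypical rows -/
theorem SData.ui (h : SData G ν E X D) {A : Set (Row Φ)} (hA : MeasurableSet A)
    (hS : SInv E A) {d δ τ q : ℝ} (hd : 0 < d) (hτ : 0 ≤ τ) (hδ : δ ≤ q / 4) (hq0 : 0 < q)
    (hq1 : q ≤ 1)
    (hD : ∀ᵐ p ∂((P0 G).prod ν), p ∈ A → (iidLaw G).real {t | d < |D (cs E p t)|} ≤ δ)
    (hZ : ∀ᵐ p ∂((P0 G).prod ν), p ∈ A →
      q ≤ (iidLaw G).real {t | X (cs E p t) - D (cs E p t) ≤ τ})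
    {m : ℝ} (hm : 0 ≤ m) {V err : Row Φ × Ω → ℝ} (hV : Measurable V)
    (hVm : ∀ᵐ p ∂((P0 G).prod ν), ∫⁻ x, ENNReal.ofReal (V (cs E p x.1, x.2))
      ∂((iidLaw G).prod κ) ≤ ENNReal.ofReal m)
    (hei : Integrable err (((P0 G).prod ν).prod κ))
    (hle : ∀ᵐ y ∂(((P0 G).prod ν).prod κ), X y.1 - D y.1 ≤ V y + err y)
    {b : ℝ} (hb : τ + 2 * d ≤ b) :
    IntegrableOn (fun p => X p - D p) (A ∩ {p | |D p| ≤ d})ᶜ ((P0 G).prod ν) ∧
      ∫ p in (A ∩ {p | |D p| ≤ d})ᶜ, (X p - D p) ∂((P0 G).prod ν) ≤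
        m * ((P0 G).prod ν).real Aᶜ + ∫ y, |err y| ∂(((P0 G).prod ν).prod κ) +
        (∫ p, |D p| ∂((P0 G).prod ν) + b * ((∫ p, |D p| ∂((P0 G).prod ν)) / d) +
        (τ + 3 * d) * (2 / q) * Real.exp (-(q / 2) * (b / (τ + 3 * d)))) := by
  set P := (P0 G).prod ν with hP
  have hI0 : 0 ≤ ∫ p, |D p| ∂P := integral_nonneg fun _ => abs_nonneg _
  have hJ0 : 0 ≤ ∫ y, |err y| ∂(P.prod κ) := integral_nonneg fun _ => abs_nonneg _
  have hb0 : 0 ≤ b := by linarith
  have hpos : 0 < τ + 3 * d := by linarith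
  have h1 := h.ui_atyp (κ := κ) hA.compl hS.compl (m := m) hV hVm hei hle
  have h2 := h.ui_typ hA hS hd hτ hδ hq0 hq1 hD hZ hb
  have hsub : (A ∩ {p | |D p| ≤ d})ᶜ ⊆ Aᶜ ∪ (A ∩ {p | d < |D p|}) := by
    intro p hp
    by_cases hpA : p ∈ A
    · right
      refine ⟨hpA, ?_⟩
      by_contra hcon
      simp only [mem_ofPred_eq, not_lt] at hcon
      exact hp ⟨hpA, hcon⟩
    · exact Or.inl hpA
  refine toReal_bound (h.hX.sub h.hD) h.nonneg (by positivity) ?_
  calc ∫⁻ p in (A ∩ {p | |D p| ≤ d})ᶜ, ENNReal.ofReal (X p - D p) ∂P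
      ≤ ∫⁻ p in Aᶜ ∪ (A ∩ {p | d < |D p|}), ENNReal.ofReal (X p - D p) ∂P :=
        lintegral_mono_set hsub
    _ ≤ ∫⁻ p in Aᶜ, ENNReal.ofReal (X p - D p) ∂P +
          ∫⁻ p in A ∩ {p | d < |D p|}, ENNReal.ofReal (X p - D p) ∂P :=
        lintegral_union_le _ _ _
    _ ≤ _ := by
        refine (add_le_add h1 h2).trans ?_
        have e1 : P Aᶜ = ENNReal.ofReal (P.real Aᶜ) := (ofReal_measureReal).symm
        rw [e1, ← ENNReal.ofReal_mul hm, ← ENNReal.ofReal_add (by positivity) hJ0,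
          ← ENNReal.ofReal_add (by positivity) (by positivity)]

/-! ### closeness ⟹ typical -/

/-- on `typ N c`, `N ⊇ I ∩ Bᶜ` -/
lemma le_condProb {I N : Set (Row Φ × Ω)} {B : Set (Row Φ)} (hN : ∀ y ∈ I, y.1 ∉ B → y ∈ N)
    {c q0 : ℝ} {p : Row Φ} (hp : p ∈ typ G E κ N c)
    (hq : q0 ≤ ((iidLaw G).prod κ).real {x | (cs E p x.1, x.2) ∈ I}) :
    q0 - c ≤ (iidLaw G).real {t | cs E p t ∈ B} := by
  have h1 : ((iidLaw G).prod κ).real {x | (cs E p x.1, x.2) ∈ I} ≤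
      ((iidLaw G).prod κ).real ({t | cs E p t ∈ B} ×ˢ univ) +
        ((iidLaw G).prod κ).real {x | (cs E p x.1, x.2) ∈ N} := by
    refine (measureReal_mono ?_ (measure_ne_top _ _)).trans (measureReal_union_le _ _)
    intro x hx
    by_cases hB : cs E p x.1 ∈ B
    · exact Or.inl ⟨hB, mem_univ _⟩
    · exact Or.inr (hN _ hx hB)
  have h2 : ((iidLaw G).prod κ).real ({t | cs E p t ∈ B} ×ˢ univ) =
      (iidLaw G).real {t | cs E p t ∈ B} := by
    unfold Measure.real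
    rw [Measure.prod_prod, measure_univ, mul_one]
  have h3 : ((iidLaw G).prod κ).real {x | (cs E p x.1, x.2) ∈ N} ≤ c := hp
  linarith

/-- on `typ {d < |D|} δ` -/
lemma condD_of_typ {d δ : ℝ} {p : Row Φ}
    (hp : p ∈ typ G E κ {y : Row Φ × Ω | d < |D y.1|} δ) :
    (iidLaw G).real {t | d < |D (cs E p t)|} ≤ δ := by
  have h2 : ((iidLaw G).prod κ).real {x : Environment × Ω | d < |D (cs E p x.1)|} =
      (iidLaw G).real {t | d < |D (cs E p t)|} := by
    have : {x : Environment × Ω | d < |D (cs E p x.1)|} =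
        {t | d < |D (cs E p t)|} ×ˢ univ := by
      ext x; simp
    rw [this]
    unfold Measure.real
    rw [Measure.prod_prod, measure_univ, mul_one]
  rw [← h2]
  exact hp

/-- **(T1)**: the inner event `I = {t₀ ≤ inner cost}` has conditional probability `≥ q0`, the
failure event `N ⊇ I ∩ {R# < t₀'}` is conditionally small on `A`. -/
theorem SData.T1 (h : SData G ν E X D) {A : Set (Row Φ)} (hA : MeasurableSet A)
    (hS : SInv E A) {d δ t₀ q c : ℝ} (hd : 0 < d) (ht : 0 < t₀) (hδ : δ ≤ 1 / 2) (hδ0 : 0 ≤ δ)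
    (hq0 : 0 < q) (hq1 : q ≤ 1) {I N : Set (Row Φ × Ω)}
    (hA1 : A ⊆ typ G E κ {y : Row Φ × Ω | d < |D y.1|} δ) (hA2 : A ⊆ typ G E κ N c)
    (hN : ∀ y ∈ I, X y.1 - D y.1 < t₀ → y ∈ N)
    (hI : ∀ᵐ p ∂((P0 G).prod ν),
      q + δ + c ≤ ((iidLaw G).prod κ).real {x | (cs E p x.1, x.2) ∈ I}) {a : ℝ} (ha : 0 ≤ a) :
    ((P0 G).prod ν).real ({p | X p - D p ≤ a} ∩ A) ≤
      3 * δ + (a + 3 * d) / t₀ * Real.log (3 / q) := by
  refine h.small_ball hA hS hd ht hδ hδ0 hq0 hq1 ?_ ?_ ha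
  · exact ae_of_all _ fun p hp => condD_of_typ (κ := κ) (hA1 hp)
  · filter_upwards [hI] with p hp hpA
    have h1 := le_condProb (B := {p | t₀ ≤ X p - D p}) (fun y hy hyB => hN y hy
      (not_le.1 hyB)) (hA2 hpA) hp
    have h2 : q + δ + c - c = q + δ := by ring
    rw [h2] at h1
    exact h1

/-- **(T2)**, tail: the inner event `I = {inner cost ≤ τ'}` has conditional probability `≥ q + c`,
the failure event `N ⊇ I ∩ {τ < R#}` is conditionally small on `A`. -/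
theorem SData.T2_tail (h : SData G ν E X D) {A : Set (Row Φ)} (hA : MeasurableSet A)
    (hS : SInv E A) {d δ τ q c : ℝ} (hd : 0 < d) (hτ : 0 ≤ τ) (hδ : δ ≤ q / 4) (hq0 : 0 ≤ q)
    (hq1 : q ≤ 1) {I N : Set (Row Φ × Ω)}
    (hA1 : A ⊆ typ G E κ {y : Row Φ × Ω | d < |D y.1|} δ) (hA2 : A ⊆ typ G E κ N c)
    (hN : ∀ y ∈ I, τ < X y.1 - D y.1 → y ∈ N)
    (hI : ∀ᵐ p ∂((P0 G).prod ν),
      q + c ≤ ((iidLaw G).prod κ).real {x | (cs E p x.1, x.2) ∈ I}) {a : ℝ} (ha : 0 ≤ a) :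
    ((P0 G).prod ν).real ({p | a ≤ X p - D p} ∩ (A ∩ {p | |D p| ≤ d})) ≤
      2 * Real.exp (-(q / 2) * (a / (τ + 3 * d))) := by
  refine h.tail hA hS hd hτ hδ hq0 hq1 ?_ ?_ ha
  · exact ae_of_all _ fun p hp => condD_of_typ (κ := κ) (hA1 hp)
  · filter_upwards [hI] with p hp hpA
    have h1 := le_condProb (B := {p | X p - D p ≤ τ}) (fun y hy hyB => hN y hy
      (not_le.1 hyB)) (hA2 hpA) hp
    have h2 : q + c - c = q := by ring
    rw [h2] at h1
    exact h1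

/-- **(T2)**, mean -/
theorem SData.T2_mean (h : SData G ν E X D) {A : Set (Row Φ)} (hA : MeasurableSet A)
    (hS : SInv E A) {d δ τ q c : ℝ} (hd : 0 < d) (hτ : 0 ≤ τ) (hδ : δ ≤ q / 4) (hq0 : 0 < q)
    (hq1 : q ≤ 1) {I N : Set (Row Φ × Ω)}
    (hA1 : A ⊆ typ G E κ {y : Row Φ × Ω | d < |D y.1|} δ) (hA2 : A ⊆ typ G E κ N c)
    (hN : ∀ y ∈ I, τ < X y.1 - D y.1 → y ∈ N)
    (hI : ∀ᵐ p ∂((P0 G).prod ν),
      q + c ≤ ((iidLaw G).prod κ).real {x | (cs E p x.1, x.2) ∈ I}) :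
    IntegrableOn (fun p => X p - D p) A ((P0 G).prod ν) ∧
      ∫ p in A, (X p - D p) ∂((P0 G).prod ν) ≤
        ∫ p, |D p| ∂((P0 G).prod ν) + (4 / q) * (τ + 3 * d) := by
  refine h.mean hA hS hd hτ hδ hq0 hq1 ?_ ?_
  · exact ae_of_all _ fun p hp => condD_of_typ (κ := κ) (hA1 hp)
  · filter_upwards [hI] with p hp hpA
    have h1 := le_condProb (B := {p | X p - D p ≤ τ}) (fun y hy hyB => hN y hy
      (not_le.1 hyB)) (hA2 hpA) hp
    have h2 : q + c - c = q := by ring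
    rw [h2] at h1
    exact h1

/-- **(T2)**, mean with the sharp constant -/
theorem SData.T2_mean' (h : SData G ν E X D) {A : Set (Row Φ)} (hA : MeasurableSet A)
    (hS : SInv E A) {d δ τ c : ℝ} (hd : 0 < d) (hτ : 0 ≤ τ) (hδ : δ ≤ 1 / 16)
    {I N : Set (Row Φ × Ω)}
    (hA1 : A ⊆ typ G E κ {y : Row Φ × Ω | d < |D y.1|} δ) (hA2 : A ⊆ typ G E κ N c)
    (hN : ∀ y ∈ I, τ < X y.1 - D y.1 → y ∈ N)
    (hI : ∀ᵐ p ∂((P0 G).prod ν),
      7 / 8 + c ≤ ((iidLaw G).prod κ).real {x | (cs E p x.1, x.2) ∈ I}) :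
    IntegrableOn (fun p => X p - D p) A ((P0 G).prod ν) ∧
      ∫ p in A, (X p - D p) ∂((P0 G).prod ν) ≤
        ∫ p, |D p| ∂((P0 G).prod ν) + 3 / 2 * (τ + 3 * d) := by
  refine h.mean' hA hS hd hτ hδ ?_ ?_
  · exact ae_of_all _ fun p hp => condD_of_typ (κ := κ) (hA1 hp)
  · filter_upwards [hI] with p hp hpA
    have h1 := le_condProb (B := {p | X p - D p ≤ τ}) (fun y hy hyB => hN y hy
      (not_le.1 hyB)) (hA2 hpA) hp
    have h2 : 7 / 8 + c - c = 7 / 8 := by ring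
    rw [h2] at h1
    exact h1

/-- `T2_ui` : uniform integrability from the closeness -/
theorem SData.T2_ui (h : SData G ν E X D) {A : Set (Row Φ)} (hA : MeasurableSet A)
    (hS : SInv E A) {d δ τ q c : ℝ} (hd : 0 < d) (hτ : 0 ≤ τ) (hδ : δ ≤ q / 4) (hq0 : 0 < q)
    (hq1 : q ≤ 1) {I N : Set (Row Φ × Ω)}
    (hA1 : A ⊆ typ G E κ {y : Row Φ × Ω | d < |D y.1|} δ) (hA2 : A ⊆ typ G E κ N c)
    (hN : ∀ y ∈ I, τ < X y.1 - D y.1 → y ∈ N)
    (hI : ∀ᵐ p ∂((P0 G).prod ν),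
      q + c ≤ ((iidLaw G).prod κ).real {x | (cs E p x.1, x.2) ∈ I})
    {m : ℝ} (hm : 0 ≤ m) {V err : Row Φ × Ω → ℝ} (hV : Measurable V)
    (hVm : ∀ᵐ p ∂((P0 G).prod ν), ∫⁻ x, ENNReal.ofReal (V (cs E p x.1, x.2))
      ∂((iidLaw G).prod κ) ≤ ENNReal.ofReal m)
    (hei : Integrable err (((P0 G).prod ν).prod κ))
    (hle : ∀ᵐ y ∂(((P0 G).prod ν).prod κ), X y.1 - D y.1 ≤ V y + err y)
    {b : ℝ} (hb : τ + 2 * d ≤ b) :
    IntegrableOn (fun p => X p - D p) (A ∩ {p | |D p| ≤ d})ᶜ ((P0 G).prod ν) ∧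
      ∫ p in (A ∩ {p | |D p| ≤ d})ᶜ, (X p - D p) ∂((P0 G).prod ν) ≤
        m * ((P0 G).prod ν).real Aᶜ + ∫ y, |err y| ∂(((P0 G).prod ν).prod κ) +
        (∫ p, |D p| ∂((P0 G).prod ν) + b * ((∫ p, |D p| ∂((P0 G).prod ν)) / d) +
        (τ + 3 * d) * (2 / q) * Real.exp (-(q / 2) * (b / (τ + 3 * d)))) := by
  refine h.ui hA hS hd hτ hδ hq0 hq1 ?_ ?_ hm hV hVm hei hle hb
  · exact ae_of_all _ fun p hp => condD_of_typ (κ := κ) (hA1 hp)
  · filter_upwards [hI] with p hp hpA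
    have h1 := le_condProb (B := {p | X p - D p ≤ τ}) (fun y hy hyB => hN y hy
      (not_le.1 hyB)) (hA2 hpA) hp
    have h2 : q + c - c = q := by ring
    rw [h2] at h1
    exact h1

end Crest.Agent.R151.V
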