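import Crest.Agent.R151.CL684b
import Crest.Agent.R151.V17

/-!
# R151 / S0214 part 2, CL684c — conditional forms of (T1), (T2) (owner helper684)

`SData.cond_small`, `SData.cond_tail` : for a.e. `p ∈ A` (typical strips) the conditional law of
`X = hull - ρ` has small balls and an exponential tail; `cells_large_of_typ` : the field
`cells_large` of the row instance from the typical sets.
-/

set_option autoImplicit false
set_option maxHeartbeats 400000

open MeasureTheory ProbabilityTheory Filter Set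
open scoped ENNReal
open Crest.ProbabilityR.FirstPassage

namespace Crest.Agent.R151.V

open Crest.Agent.R151.K
open Q (P0)
open M192 (Row)

variable {Φ : Type*} [MeasurableSpace Φ] {E : ℝ × ℝ → Set (Sym2 (ℤ × ℤ))}
  {G : Measure ℝ} [IsProbabilityMeasure G] {ν : Measure Φ} [IsProbabilityMeasure ν]
  {Ω : Type*} [MeasurableSpace Ω] {κ : Measure Ω} [IsProbabilityMeasure κ]
  {X D : Row Φ → ℝ}

/-- conditional form of (T1) for the log-concave variable itself -/
theorem SData.cond_small (h : SData G ν E X D) {A : Set (Row Φ)} {d δ t₀ q c : ℝ} (hd : 0 < d)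
    (ht : 0 < t₀) (hδ : δ ≤ 1 / 2) (hq0 : 0 < q) (hq1 : q ≤ 1) {I N : Set (Row Φ × Ω)}
    (hA1 : A ⊆ typ G E κ {y : Row Φ × Ω | d < |D y.1|} δ) (hA2 : A ⊆ typ G E κ N c)
    (hN : ∀ y ∈ I, X y.1 - D y.1 < t₀ → y ∈ N)
    (hI : ∀ᵐ p ∂((P0 G).prod ν),
      q + δ + c ≤ ((iidLaw G).prod κ).real {x | (cs E p x.1, x.2) ∈ I}) :
    ∀ᵐ p ∂((P0 G).prod ν), p ∈ A → ∀ a, 0 ≤ a →
      (iidLaw G).real {t | X (cs E p t) ≤ a} ≤
        4 * δ + (a + 4 * d) / t₀ * Real.log (3 / q) := by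
  have hD : ∀ᵐ p ∂((P0 G).prod ν), p ∈ A → (iidLaw G).real {t | d < |D (cs E p t)|} ≤ δ :=
    ae_of_all _ fun p hp => condD_of_typ (κ := κ) (hA1 hp)
  filter_upwards [h.lc, h.cond_err hD, hI, hD] with p hlc herr hp hDp hpA a ha
  have hXm := h.hX.comp (measurable_cs_right E p)
  have h1 := le_condProb (B := {p | t₀ ≤ X p - D p}) (fun y hy hyB => hN y hy
    (not_le.1 hyB)) (hA2 hpA) hp
  have h2 : q + δ + c - c = q + δ := by ring
  rw [h2] at h1
  have h3 := hlc.pert_small_ball' hXm (Z := fun t => X (cs E p t) - D (cs E p t)) (a := a + d)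
    hd ht (by linarith) hδ hq0 hq1 (herr hpA) h1
  have h4 : (iidLaw G).real {t | X (cs E p t) ≤ a} ≤
      (iidLaw G).real {t | X (cs E p t) - D (cs E p t) ≤ a + d} +
        (iidLaw G).real {t | d < |D (cs E p t)|} := by
    refine (measureReal_mono ?_ (measure_ne_top _ _)).trans (measureReal_union_le _ _)
    intro t ht
    simp only [Set.mem_union, Set.mem_ofPred_eq] at ht ⊢
    by_contra hcon
    push Not at hcon
    have h5 := neg_abs_le (D (cs E p t))
    linarith [hcon.1, hcon.2]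
  have h6 := hDp hpA
  have h7 : a + d + 3 * d = a + 4 * d := by ring
  rw [h7] at h3
  linarith

/-- conditional form of (T2) for the log-concave variable itself -/
theorem SData.cond_tail (h : SData G ν E X D) {A : Set (Row Φ)} {d δ τ q c : ℝ} (hd : 0 < d)
    (hτ : 0 ≤ τ) (hδ : δ ≤ q / 4) (hq0 : 0 ≤ q) (hq1 : q ≤ 1) {I N : Set (Row Φ × Ω)}
    (hA1 : A ⊆ typ G E κ {y : Row Φ × Ω | d < |D y.1|} δ) (hA2 : A ⊆ typ G E κ N c)
    (hN : ∀ y ∈ I, τ < X y.1 - D y.1 → y ∈ N)
    (hI : ∀ᵐ p ∂((P0 G).prod ν),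
      q + c ≤ ((iidLaw G).prod κ).real {x | (cs E p x.1, x.2) ∈ I}) :
    ∀ᵐ p ∂((P0 G).prod ν), p ∈ A → ∀ a, 0 ≤ a →
      (iidLaw G).real {t | a ≤ X (cs E p t)} ≤
        2 * Real.exp (-(q / 2) * (a / (τ + 3 * d))) := by
  have hD : ∀ᵐ p ∂((P0 G).prod ν), p ∈ A → (iidLaw G).real {t | d < |D (cs E p t)|} ≤ δ :=
    ae_of_all _ fun p hp => condD_of_typ (κ := κ) (hA1 hp)
  filter_upwards [h.lc, h.cond_err hD, hI] with p hlc herr hp hpA a ha
  have hXm := h.hX.comp (measurable_cs_right E p)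
  have h1 := le_condProb (B := {p | X p - D p ≤ τ}) (fun y hy hyB => hN y hy
    (not_le.1 hyB)) (hA2 hpA) hp
  have h2 : q + c - c = q := by ring
  rw [h2] at h1
  have h3 := hlc.pert_tail_X hXm (Z := fun t => X (cs E p t) - D (cs E p t)) (a := a + d)
    hd hτ hδ hq0 hq1 (herr hpA) h1 (by linarith)
  have h4 : {t | a + d - d ≤ X (cs E p t)} = {t | a ≤ X (cs E p t)} := by
    ext t; simp
  rw [h4] at h3
  refine h3.trans ?_
  refine mul_le_mul_of_nonneg_left (Real.exp_le_exp.2 ?_) (by norm_num)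
  have hpos : 0 < τ + 3 * d := by linarith
  have h5 : a / (τ + 3 * d) ≤ (a + d) / (τ + 3 * d) := by gcongr; linarith
  nlinarith

end Crest.Agent.R151.V
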