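import Crest.Agent.R151.G338n

/-!
# R151 (S0214 part 2): (T1), (T2) on the names of V15-V21 (helper338)

* `le_sko` : deterministic lower bound of `R#` of the outer row (one environment), `sko_le` upper;
* `condI_prob`, `condI_lintegral` : law of the inner row given `p`;
* `T1c`, `T2c`, `T2c_lintegral` : conditional statements for every `p` in the typical sets;
* `ae_sko_le`, `ae_condI` : inputs of `SData.mean_all`.
-/

set_option autoImplicit false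
set_option linter.unusedSectionVars false

open MeasureTheory Filter ProbabilityTheory Topology
open scoped ENNReal
open Crest.ProbabilityR.FirstPassage

namespace Crest.Agent.R151

namespace Q

open K R78 B710 G338 M192

variable {μ : ℝ × ℝ → ℝ} {F : FlatData μ}

/-- labels, regions and sizes for the lower bound: outer labels `s → s'` with crossings in `I`,
inner labels `σ → σ'` (relative to the inner row, moved by `c`) with crossings in `I'` -/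
structure LowData (h : Hwy F) (y g c Λ L : ℝ) (I I' : Set ℝ) (s s' σ σ' Δ : ℝ) (N : ℕ) : Prop where
  geo : Geo h y g c Λ L
  hIJ : I ⊆ Jw Λ
  hII' : ∀ x ∈ I, ∀ u, |u| ≤ cF F → x - c - u ∈ I'
  hs1 : -L ≤ s
  hs2 : s ≤ L
  hs3 : -L ≤ s'
  hs4 : s' ≤ L
  hσ : σ ≤ s - c - cF F - Δ
  hσ' : s' - c + 2 * cF F + h.κ + Δ ≤ σ'
  hΔ : g + cF F + h.wH ≤ Δ
  hN : (L + 2 * cF F + |c|) * ‖F.a‖ + (h.wH + g + cF F) * ‖F.b‖ + 1 ≤ N
  hne : Rt h (dOv F y g) I s s'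
  hneJ : Rt h (dOv F y g) (Jw Λ) (-L) L

/-- deterministic lower bound -/
theorem le_sko (hμ : NormLike μ) {cψ : ℝ}
    (hpsi : ∀ (v : ℝ × ℝ) (A : ℝ), 0 ≤ A → F.al v ≤ -A → |F.be v| ≤ A → cψ * A ≤ F.ψ v)
    {h : Hwy F} {y g c Λ L : ℝ} {I I' : Set ℝ} {s s' σ σ' Δ : ℝ} {N : ℕ}
    (H : LowData h y g c Λ L I I' s s' σ σ' Δ N) {q : RowS} (hq : Nn q.1.2)
    {r : (ℝ × ℝ) × (ℝ × ℝ)} (hη : ‖r.1‖ ≤ 1) :
    min (obI h y g c I' L σ σ' q.1.1 q.1.2 q.2 r)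
        (cψ * Δ - 4 * obD F y g N q.1.1 q.1.2 q.2 r) + obK h y g c Λ L q.1.1 q.1.2 q.2 r ≤
      sko h y g I L s s' q := by
  have hg := H.geo
  have hcF := cF_nonneg F
  have hwH := h.wH_nonneg'
  have hgb := hg.g_big
  have hΔ := H.hΔ
  have hN := H.hN
  have hσ := H.hσ
  have hσ' := H.hσ'
  have ha1 := abs_le.1 (abs_al_le' F hη)
  have hb1 := abs_le.1 (abs_be_le' F hη)
  have hac : |F.al (offv F g c r.1)| ≤ |c| + cF F := by
    rw [al_offv]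
    exact (abs_add_le _ _).trans (add_le_add le_rfl (abs_al_le' F hη))
  have hbc : |F.be (offv F g c r.1)| ≤ g + cF F := by
    rw [be_offv, abs_le]; constructor <;> linarith [hb1.1, hb1.2]
  have hac' : |F.al (Hwy.dU (offv F g c r.1) (y • F.b) (dOv F y g))| ≤ |c| + cF F := by
    rw [al_dU, show -c - F.al r.1 = -(c + F.al r.1) by ring, abs_neg]
    exact (abs_add_le _ _).trans (add_le_add le_rfl (abs_al_le' F hη))
  have hbc' : |F.be (Hwy.dU (offv F g c r.1) (y • F.b) (dOv F y g))| ≤ g + cF F := by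
    rw [be_dU, abs_le]; constructor <;> linarith [hb1.1, hb1.2]
  have hR : ∀ a b : ℝ, a ≤ |c| + cF F → b ≤ g + cF F → Hwy.Rgap F h.wH L a b + 1 ≤ N := by
    intro a b ha hb
    unfold Hwy.Rgap
    have h1 := mul_le_mul_of_nonneg_right (show L + cF F + a ≤ L + 2 * cF F + |c| by linarith)
      (norm_nonneg F.a)
    have h2 := mul_le_mul_of_nonneg_right (show h.wH + b ≤ h.wH + g + cF F by linarith)
      (norm_nonneg F.b)
    linarith
  have key := Hwy.lower_close (h := h) (off := offv F g c r.1) (dI := y • F.b)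
    (dO := dOv F y g) (θ := q.1.1) (t := q.1.2) (φ := q.2) (φ₁ := r.2)
    hpsi hμ hq (hg.sep4 hη) (hg.winC hη) (I := I) (I' := I') (J := Jw Λ)
    (fun x hx => abs_le_of_mem_Jw hx) H.hIJ
    (fun x hx => by
      rw [al_offv, ← sub_sub]
      exact H.hII' x hx _ (abs_al_le' F hη))
    H.hs1 H.hs2 H.hs3 H.hs4 (σ := σ) (σ' := σ') (Δ := Δ)
    (by rw [al_offv]; linarith [ha1.2])
    (by rw [al_dU]; linarith [ha1.1])
    (by linarith)
    (by rw [be_offv]; linarith [hb1.2])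
    (by rw [be_dU]; linarith [hb1.1])
    (N := N) (hR _ _ hac hbc) (hR _ _ hac' hbc') (H.hne _ _ _)
  have hJ := Hwy.hk_mono (h := h) (θ := q.1.1) (t := q.1.2) (φ := q.2) hq
    (dOv F y g) (Set.subset_univ (Jw Λ)) (le_refl (-L)) (le_refl L) (H.hneJ _ _ _)
  have e1 : sko h y g I L s s' q = h.hk (dOv F y g) I s s' q.1.1 q.1.2 q.2 -
      h.hk (dOv F y g) Set.univ (-L) L q.1.1 q.1.2 q.2 := rfl
  have e2 : obI h y g c I' L σ σ' q.1.1 q.1.2 q.2 r =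
      h.sk (y • F.b) I' Set.univ L σ σ' (q.1.1 - offv F g c r.1) q.1.2 r.2 := rfl
  have e3 : obD F y g N q.1.1 q.1.2 q.2 r =
      max (devB μ N q.1.1 q.1.2) (devB μ N (q.1.1 - dOv F y g) q.1.2) := rfl
  have e4 : obK h y g c Λ L q.1.1 q.1.2 q.2 r =
      h.K0 (offv F g c r.1) (y • F.b) (dOv F y g) (Jw Λ) L q.1.1 q.1.2 q.2 r.2 := rfl
  rw [e1, e2, e3, e4]
  linarith

/-- labels, regions and sizes for the upper bound: outer labels `s → s'`, crossings in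
`Icc (α - κ) (β + κ)`; inner labels `σ → σ'`, crossings in `Icc αi βi`; fences of the gaps:
`a₀ → b₀` in `Icc α₀ β₀` and `a₁ → b₁` in `Icc α₁ β₁` -/
structure UpData (h : Hwy F) (y g c Λ L α β s s' αi βi σ σ' α₀ β₀ a₀ b₀ α₁ β₁ a₁ b₁ : ℝ) : Prop
    where
  geo : Geo h y g c Λ L
  hs1 : -L ≤ s
  hs4 : s' ≤ L
  hα₀ : α ≤ α₀
  hβ₀ : β₀ ≤ β
  ha₀ : s ≤ a₀
  hb₀ : b₀ ≤ σ
  hα₁ : α ≤ α₁
  hβ₁ : β₁ ≤ β
  ha₁ : σ' ≤ a₁
  hb₁ : b₁ ≤ s'
  hαi : α + cF F - c ≤ αi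
  hβi : βi ≤ β - cF F - c
  hne0 : ∀ η, ‖η‖ ≤ 1 → Rt h (offv F g c η) (Set.Icc α₀ β₀) a₀ b₀
  hne2 : ∀ η, ‖η‖ ≤ 1 → Rt h (Hwy.dU (offv F g c η) (y • F.b) (dOv F y g)) (Iup F y g c α₁ β₁ η)
    a₁ b₁
  hnei : Rt h (y • F.b) (Set.Icc αi βi) σ σ'
  hne : Rt h (dOv F y g) (Set.Icc (α - h.κ) (β + h.κ)) s s'
  hneJ : Rt h (dOv F y g) (Jw Λ) (-L) L

section upd

variable {h : Hwy F} {y g c Λ L α β s s' αi βi σ σ' α₀ β₀ a₀ b₀ α₁ β₁ a₁ b₁ : ℝ}

/-- deterministic upper bound -/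
theorem UpData.sko_le (H : UpData h y g c Λ L α β s s' αi βi σ σ' α₀ β₀ a₀ b₀ α₁ β₁ a₁ b₁)
    {q : RowS} (hq : Nn q.1.2) {r : (ℝ × ℝ) × (ℝ × ℝ)} (hη : ‖r.1‖ ≤ 1) :
    sko h y g (Set.Icc (α - h.κ) (β + h.κ)) L s s' q ≤
      obI h y g c (Set.Icc αi βi) L σ σ' q.1.1 q.1.2 q.2 r +
      (obLo h g c α₀ β₀ L a₀ b₀ q.1.1 q.1.2 q.2 r + obUp h y g c α₁ β₁ L a₁ b₁ q.1.1 q.1.2 q.2 r +
        obJ h y g Λ L q.1.1 q.1.2 q.2 r) := by
  have key := Q.sko_le H.geo H.hα₀ H.hβ₀ H.ha₀ H.hb₀ H.hα₁ H.hβ₁ H.ha₁ H.hb₁ H.hαi H.hβi H.hne0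
    H.hne2 H.hnei H.hneJ hq (r := r) hη
  have e : h.sk (y • F.b) (Set.Icc αi βi) Set.univ L σ σ' (q.1.1 - offv F g c r.1) q.1.2 r.2 =
    obI h y g c (Set.Icc αi βi) L σ σ' q.1.1 q.1.2 q.2 r := rfl
  rw [e] at key
  linarith

end upd

/-! ### Law of the inner row given `p` -/

lemma mp_fr {G : Measure ℝ} [IsProbabilityMeasure G] :
    MeasurePreserving (fun x : Environment × ((ℝ × ℝ) × (ℝ × ℝ)) =>
      (((x.2.1, x.1), x.2.2) : RowS)) ((iidLaw G).prod PF) (PR G) := by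
  have h1 := mp_assoc' (iidLaw G) UU2 (UU.prod UU)
  have h2 : MeasurePreserving (fun x : (Environment × (ℝ × ℝ)) × (ℝ × ℝ) =>
      (((x.1.2, x.1.1), x.2) : RowS)) (((iidLaw G).prod UU2).prod (UU.prod UU)) (PR G) :=
    (mp_swp (iidLaw G) UU2).prod (MeasurePreserving.id (UU.prod UU))
  exact h2.comp h1

section cond

variable {h : Hwy F} {y g c Λ L : ℝ}

/-- **law of the inner row given `p`**, probability form -/
theorem condI_prob {G : Measure ℝ} [IsProbabilityMeasure G] (hg : Geo h y g c Λ L) {I : Set ℝ}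
    (hI : MeasurableSet I) (s s' : ℝ) (p : RowS) {B : Set ℝ} (hB : MeasurableSet B) :
    ((iidLaw G).prod PF).real {x | obI h y g c I L s s' (V.cs (V.E0 h (dOv F y g)) p x.1).1.1
      (V.cs (V.E0 h (dOv F y g)) p x.1).1.2 (V.cs (V.E0 h (dOv F y g)) p x.1).2 x.2 ∈ B} =
    (PR G).real {q | ski h y I L s s' q ∈ B} := by
  rw [← inner_ski hg hI s s' p hB]
  have hm : MeasurableSet {r : RowS | h.sk (y • F.b) I Set.univ L s s' (p.1.1 - offv F g c r.1.1)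
      (cenv h (dOv F y g) p r) r.2 ∈ B} := by
    have h1 : Measurable fun r : RowS => h.sk (y • F.b) I Set.univ L s s'
        (p.1.1 - offv F g c r.1.1) (cenv h (dOv F y g) p r) r.2 :=
      h.meas_sk ((measurable_offv F g c measurable_fst.fst).const_sub _)
        (measurable_cenv h (dOv F y g) measurable_const measurable_id) measurable_snd (y • F.b) hI
        MeasurableSet.univ L s s'
    exact h1 hB
  unfold Measure.real
  rw [← (mp_fr (G := G)).measure_preimage hm.nullMeasurableSet]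
  rfl

/-- **law of the inner row given `p`**, integral form -/
theorem condI_lintegral {G : Measure ℝ} [IsProbabilityMeasure G] (hg : Geo h y g c Λ L)
    {I : Set ℝ} (hI : MeasurableSet I) (s s' : ℝ) (p : RowS) {f : ℝ → ℝ≥0∞} (hf : Measurable f) :
    ∫⁻ x, f (obI h y g c I L s s' (V.cs (V.E0 h (dOv F y g)) p x.1).1.1
      (V.cs (V.E0 h (dOv F y g)) p x.1).1.2 (V.cs (V.E0 h (dOv F y g)) p x.1).2 x.2)
      ∂((iidLaw G).prod PF) = ∫⁻ q, f (ski h y I L s s' q) ∂(PR G) := by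
  have hyb : h.wH < F.be (y • F.b) := by simpa using hg.y_big
  have key := inner_law (G := G) h (dOv F y g)
    (f := fun θ t φ => f (h.sk (y • F.b) I Set.univ L s s' θ t φ))
    (hf.comp (measurable_ski h y hI L s s'))
    (fun φ m θ t => congrArg f (Hwy.sk_inv h _ I Set.univ L s s' φ m θ t))
    (E := fun θ => edgesIn (h.band (y • F.b) θ))
    (fun θ φ t t' htt => congrArg f (Hwy.sk_loc h hyb I Set.univ L s s' θ φ htt))
    (g • F.b + c • F.a) p (fun η hη => hg.disj p.1.1 (norm_jitter hη))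
  have hm : Measurable fun r : RowS => f (h.sk (y • F.b) I Set.univ L s s'
      (p.1.1 - offv F g c r.1.1) (cenv h (dOv F y g) p r) r.2) :=
    hf.comp (h.meas_sk ((measurable_offv F g c measurable_fst.fst).const_sub _)
        (measurable_cenv h (dOv F y g) measurable_const measurable_id) measurable_snd (y • F.b) hI
        MeasurableSet.univ L s s')
  have key2 := (mp_fr (G := G)).lintegral_comp hm
  exact key2.trans key

/-- nonnegativity of the resampled environment -/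
lemma ae_nn_cs {G : Measure ℝ} [IsProbabilityMeasure G] (h0 : G (Set.Iio 0) = 0) {d : ℝ × ℝ}
    {p : RowS} (hp : p ∈ V.posS h d) :
    ∀ᵐ t ∂(iidLaw G), Nn (V.cs (V.E0 h d) p t).1.2 := by
  filter_upwards [K.ae_Nn h0] with t ht e
  by_cases he : e ∈ V.E0 h d p.1.1
  · show 0 ≤ V.glue (V.E0 h d p.1.1) p.1.2 t e
    rw [V.glue_of_mem he]; exact hp e he
  · show 0 ≤ V.glue (V.E0 h d p.1.1) p.1.2 t e
    rw [V.glue_of_notMem he]; exact ht e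

lemma ae_PF_jit : ∀ᵐ ω ∂PF, ‖ω.1‖ ≤ 1 := by
  have := Measure.quasiMeasurePreserving_fst (μ := UU2) (ν := UU.prod UU) |>.ae ae_UU2
  exact this.mono fun x hx => norm_jitter hx

/-- inner event with the almost sure conditions -/
theorem condI_good {G : Measure ℝ} [IsProbabilityMeasure G] (h0 : G (Set.Iio 0) = 0)
    (hg : Geo h y g c Λ L) {I : Set ℝ}
    (hI : MeasurableSet I) (s s' : ℝ) {p : RowS} (hp : p ∈ V.posS h (dOv F y g)) {B : Set ℝ}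
    (hB : MeasurableSet B) :
    (PR G).real {q | ski h y I L s s' q ∈ B} ≤
    ((iidLaw G).prod PF).real {x | (V.cs (V.E0 h (dOv F y g)) p x.1, x.2) ∈
      {w : RowS × ((ℝ × ℝ) × (ℝ × ℝ)) | Nn w.1.1.2 ∧ ‖w.2.1‖ ≤ 1 ∧
        obI h y g c I L s s' w.1.1.1 w.1.1.2 w.1.2 w.2 ∈ B}} := by
  rw [← condI_prob hg hI s s' p hB]
  apply real_mono_ae
  have a1 : ∀ᵐ x ∂((iidLaw G).prod PF), Nn (V.cs (V.E0 h (dOv F y g)) p x.1).1.2 :=
    Measure.quasiMeasurePreserving_fst.ae (ae_nn_cs h0 hp)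
  have a2 : ∀ᵐ x ∂((iidLaw G).prod PF), ‖x.2.1‖ ≤ 1 :=
    Measure.quasiMeasurePreserving_snd.ae ae_PF_jit
  filter_upwards [a1, a2] with x h1 h2 h3
  exact ⟨h1, h2, h3⟩

end cond

/-- union of two failure events -/
lemma typ_union {Φ Ω : Type*} [MeasurableSpace Φ] [MeasurableSpace Ω] {G : Measure ℝ}
    [IsProbabilityMeasure G] {E : ℝ × ℝ → Set (Sym2 (ℤ × ℤ))} {κ : Measure Ω}
    [IsProbabilityMeasure κ] {N1 N2 : Set (Row Φ × Ω)} {c1 c2 : ℝ} {p : Row Φ}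
    (h1 : p ∈ V.typ G E κ N1 c1) (h2 : p ∈ V.typ G E κ N2 c2) :
    p ∈ V.typ G E κ (N1 ∪ N2) (c1 + c2) := by
  have h3 := measureReal_union_le (μ := (iidLaw G).prod κ)
    {x : Environment × Ω | (V.cs E p x.1, x.2) ∈ N1} {x | (V.cs E p x.1, x.2) ∈ N2}
  have h1' : ((iidLaw G).prod κ).real {x | (V.cs E p x.1, x.2) ∈ N1} ≤ c1 := h1
  have h2' : ((iidLaw G).prod κ).real {x | (V.cs E p x.1, x.2) ∈ N2} ≤ c2 := h2
  show ((iidLaw G).prod κ).real {x | (V.cs E p x.1, x.2) ∈ N1 ∪ N2} ≤ c1 + c2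
  have e : {x : Environment × Ω | (V.cs E p x.1, x.2) ∈ N1 ∪ N2} =
      {x | (V.cs E p x.1, x.2) ∈ N1} ∪ {x | (V.cs E p x.1, x.2) ∈ N2} := rfl
  rw [e]
  linarith

/-- **(T1)** for every typical `p`: `R#` and `hull - ρ` -/
theorem T1c {r₀ : ℝ} (hr : 0 < r₀) [IsProbabilityMeasure (gammaMeasure 1 r₀)]
    (h0 : gammaMeasure 1 r₀ (Set.Iio 0) = 0) (hμ : NormLike μ) {cψ : ℝ}
    (hpsi : ∀ (v : ℝ × ℝ) (A : ℝ), 0 ≤ A → F.al v ≤ -A → |F.be v| ≤ A → cψ * A ≤ F.ψ v)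
    {h : Hwy F} {y g c Λ L : ℝ} {I I' : Set ℝ} {s s' σ σ' Δ : ℝ} {N : ℕ}
    (H : LowData h y g c Λ L I I' s s' σ σ' Δ N) (hI : MeasurableSet I)
    (hI' : MeasurableSet I') {ρ : RowS → ℝ} (hρm : Measurable ρ)
    (hρS : ∀ p t, ρ (V.cs (V.E0 h (dOv F y g)) p t) = ρ p)
    {A B e τ q₀ a : ℝ} (hA : 0 < A) (he : 0 ≤ e) (hτ : A < τ) (hτB : τ ≤ cψ * Δ - 4 * B)
    (hq0 : 0 < q₀) (hq : 6 * e ≤ q₀) (ha : 0 ≤ a) {p : RowS}
    (hpos : p ∈ V.posS h (dOv F y g))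
    (hK : p ∈ V.typ (gammaMeasure 1 r₀) (V.E0 h (dOv F y g)) PF (NS (obK h y g c Λ L) A) e)
    (hD : p ∈ V.typ (gammaMeasure 1 r₀) (V.E0 h (dOv F y g)) PF (NS (obD F y g N) B) e)
    (hG : p ∈ V.typ (gammaMeasure 1 r₀) (V.E0 h (dOv F y g)) PF (NS (obG h y g L ρ) A) e)
    (hin : q₀ ≤ (PR (gammaMeasure 1 r₀)).real {q | τ ≤ ski h y I' L σ σ' q}) :
    (iidLaw (gammaMeasure 1 r₀)).real
        {t | sko h y g I L s s' (V.cs (V.E0 h (dOv F y g)) p t) ≤ a} ≤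
      3 * e + (a + 3 * A) / (τ - A) * Real.log (6 / q₀) ∧
    (iidLaw (gammaMeasure 1 r₀)).real
        {t | V.hkR h (dOv F y g) I s s' (V.cs (V.E0 h (dOv F y g)) p t) - ρ p ≤ a} ≤
      4 * e + (a + 4 * A) / (τ - A) * Real.log (6 / q₀) := by
  set G := gammaMeasure 1 r₀ with hGdef
  set E := V.E0 h (dOv F y g) with hEdef
  have hq1 : q₀ ≤ 1 := hin.trans measureReal_le_one
  set X : RowS → ℝ := fun q => V.hkR h (dOv F y g) I s s' q - ρ q with hX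
  set D : RowS → ℝ := fun q => V.hkR h (dOv F y g) Set.univ (-L) L q - ρ q with hDdef
  have hXm : Measurable X := (V.measurable_hkR h (dOv F y g) hI s s').sub hρm
  have hlc : V.LC (iidLaw G) (fun t => X (V.cs E p t)) := by
    have h1 := (V.LC_hk' h hr I s s' hpos (H.hne _ _ _)).sub_const (ρ p)
    have e1 : (fun t => X (V.cs E p t)) = fun t =>
        V.hkR h (dOv F y g) I s s' (V.cs (V.E0 h (dOv F y g)) p t) - ρ p := by
      funext t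
      simp only [hX]
      rw [hρS]
    rw [e1]; exact h1
  have hnn : ∀ᵐ t ∂(iidLaw G), 0 ≤ X (V.cs E p t) - D (V.cs E p t) := by
    filter_upwards [V.nonneg_hk' h h0 (I := I) (L := L) (a := s) (b := s') H.hs1 H.hs4 hpos
      (H.hne _ _ _)] with t ht
    simp only [hX, hDdef]
    linarith
  have hsub : ∀ q, X q - D q = sko h y g I L s s' q := by
    intro q
    simp only [hX, hDdef]
    show V.hkR h (dOv F y g) I s s' q - ρ q - (V.hkR h (dOv F y g) Set.univ (-L) L q - ρ q) =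
      V.hkR h (dOv F y g) I s s' q - V.hkR h (dOv F y g) Set.univ (-L) L q
    ring
  have hN : ∀ w ∈ {w : RowS × ((ℝ × ℝ) × (ℝ × ℝ)) | Nn w.1.1.2 ∧ ‖w.2.1‖ ≤ 1 ∧
        obI h y g c I' L σ σ' w.1.1.1 w.1.1.2 w.1.2 w.2 ∈ Set.Ici τ},
      X w.1 - D w.1 < τ - A → w ∈ NS (obK h y g c Λ L) A ∪ NS (obD F y g N) B := by
    rintro w ⟨w1, w2, w3⟩ hlt
    by_contra hcon
    rw [Set.mem_union, not_or] at hcon
    obtain ⟨c1, c2⟩ := hcon
    have c1' : |obK h y g c Λ L w.1.1.1 w.1.1.2 w.1.2 w.2| ≤ A := not_lt.1 c1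
    have c2' : |obD F y g N w.1.1.1 w.1.1.2 w.1.2 w.2| ≤ B := not_lt.1 c2
    have key := le_sko hμ hpsi H w1 (r := w.2) w2
    rw [hsub] at hlt
    have k1 := (abs_le.1 c1').1
    have k2 := (abs_le.1 c2').2
    have w3' : τ ≤ obI h y g c I' L σ σ' w.1.1.1 w.1.1.2 w.1.2 w.2 := w3
    have hmin : τ ≤ min (obI h y g c I' L σ σ' w.1.1.1 w.1.1.2 w.1.2 w.2)
        (cψ * Δ - 4 * obD F y g N w.1.1.1 w.1.1.2 w.1.2 w.2) := le_min w3' (by linarith)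
    linarith
  have hIn := (condI_good h0 H.geo hI' σ σ' hpos (B := Set.Ici τ) measurableSet_Ici)
  have hIn' : q₀ ≤ ((iidLaw G).prod PF).real {x | (V.cs E p x.1, x.2) ∈
      {w : RowS × ((ℝ × ℝ) × (ℝ × ℝ)) | Nn w.1.1.2 ∧ ‖w.2.1‖ ≤ 1 ∧
        obI h y g c I' L σ σ' w.1.1.1 w.1.1.2 w.1.2 w.2 ∈ Set.Ici τ}} := hin.trans hIn
  have hq2 : q₀ / 2 ≤ q₀ - 3 * e := by linarith
  have hqq : (q₀ - 3 * e) + e + (e + e) ≤ ((iidLaw G).prod PF).real {x | (V.cs E p x.1, x.2) ∈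
      {w : RowS × ((ℝ × ℝ) × (ℝ × ℝ)) | Nn w.1.1.2 ∧ ‖w.2.1‖ ≤ 1 ∧
        obI h y g c I' L σ σ' w.1.1.1 w.1.1.2 w.1.2 w.2 ∈ Set.Ici τ}} := by linarith
  have hlog : Real.log (3 / (q₀ - 3 * e)) ≤ Real.log (6 / q₀) := by
    have h7 : 0 < q₀ - 3 * e := by linarith
    apply Real.log_le_log (by positivity)
    rw [div_le_div_iff₀ h7 hq0]
    linarith
  have hA1 : p ∈ V.typ G E PF {w : RowS × ((ℝ × ℝ) × (ℝ × ℝ)) | A < |D w.1|} e := hG
  constructor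
  · have r1 := V.cond_T1 hXm hlc hnn (d := A) (δ := e) (t₀ := τ - A) (q := q₀ - 3 * e)
      (c := e + e) hA (by linarith) (by linarith) (by linarith) (by linarith)
      hA1 (typ_union hK hD) hN hqq ha
    have e1 : {t | X (V.cs E p t) - D (V.cs E p t) ≤ a} =
        {t | sko h y g I L s s' (V.cs E p t) ≤ a} := by
      ext t; simp only [hsub]
    rw [e1] at r1
    refine r1.trans ?_
    have h8 : 0 ≤ (a + 3 * A) / (τ - A) := div_nonneg (by linarith) (by linarith)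
    have := mul_le_mul_of_nonneg_left hlog h8
    linarith
  · have r1 := V.cond_T1X hXm hlc hnn (d := A) (δ := e) (t₀ := τ - A) (q := q₀ - 3 * e)
      (c := e + e) hA (by linarith) (by linarith) (by linarith) (by linarith)
      hA1 (typ_union hK hD) hN hqq ha
    have e1 : {t | X (V.cs E p t) ≤ a} =
        {t | V.hkR h (dOv F y g) I s s' (V.cs E p t) - ρ p ≤ a} := by
      ext t
      show V.hkR h (dOv F y g) I s s' (V.cs E p t) - ρ (V.cs E p t) ≤ a ↔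
        V.hkR h (dOv F y g) I s s' (V.cs E p t) - ρ p ≤ a
      rw [hρS]
    rw [e1] at r1
    refine r1.trans ?_
    have h8 : 0 ≤ (a + 4 * A) / (τ - A) := div_nonneg (by linarith) (by linarith)
    have := mul_le_mul_of_nonneg_left hlog h8
    linarith

section T2

variable {h : Hwy F} {y g c Λ L α β s s' αi βi σ σ' α₀ β₀ a₀ b₀ α₁ β₁ a₁ b₁ : ℝ}

/-- common part of the (T2) statements -/
lemma T2_aux {r₀ : ℝ} (hr : 0 < r₀) [IsProbabilityMeasure (gammaMeasure 1 r₀)]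
    (h0 : gammaMeasure 1 r₀ (Set.Iio 0) = 0)
    (H : UpData h y g c Λ L α β s s' αi βi σ σ' α₀ β₀ a₀ b₀ α₁ β₁ a₁ b₁)
    {ρ : RowS → ℝ} (hρS : ∀ p t, ρ (V.cs (V.E0 h (dOv F y g)) p t) = ρ p)
    {A τ q₀ : ℝ} {p : RowS} (hpos : p ∈ V.posS h (dOv F y g))
    (hin : q₀ ≤ (PR (gammaMeasure 1 r₀)).real {q | ski h y (Set.Icc αi βi) L σ σ' q ≤ τ}) :
    V.LC (iidLaw (gammaMeasure 1 r₀)) (fun t => V.hkR h (dOv F y g)
      (Set.Icc (α - h.κ) (β + h.κ)) s s' (V.cs (V.E0 h (dOv F y g)) p t) -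
        ρ (V.cs (V.E0 h (dOv F y g)) p t)) ∧
    (∀ᵐ t ∂(iidLaw (gammaMeasure 1 r₀)), 0 ≤ (V.hkR h (dOv F y g)
      (Set.Icc (α - h.κ) (β + h.κ)) s s' (V.cs (V.E0 h (dOv F y g)) p t) -
        ρ (V.cs (V.E0 h (dOv F y g)) p t)) - (V.hkR h (dOv F y g) Set.univ (-L) L
        (V.cs (V.E0 h (dOv F y g)) p t) - ρ (V.cs (V.E0 h (dOv F y g)) p t))) ∧
    (∀ w ∈ {w : RowS × ((ℝ × ℝ) × (ℝ × ℝ)) | Nn w.1.1.2 ∧ ‖w.2.1‖ ≤ 1 ∧
        obI h y g c (Set.Icc αi βi) L σ σ' w.1.1.1 w.1.1.2 w.1.2 w.2 ∈ Set.Iic τ},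
      τ + 3 * A < (V.hkR h (dOv F y g) (Set.Icc (α - h.κ) (β + h.κ)) s s' w.1 - ρ w.1) -
        (V.hkR h (dOv F y g) Set.univ (-L) L w.1 - ρ w.1) →
      w ∈ NS (obLo h g c α₀ β₀ L a₀ b₀) A ∪ NS (obUp h y g c α₁ β₁ L a₁ b₁) A ∪
        NS (obJ h y g Λ L) A) ∧
    q₀ ≤ ((iidLaw (gammaMeasure 1 r₀)).prod PF).real {x |
      (V.cs (V.E0 h (dOv F y g)) p x.1, x.2) ∈
      {w : RowS × ((ℝ × ℝ) × (ℝ × ℝ)) | Nn w.1.1.2 ∧ ‖w.2.1‖ ≤ 1 ∧
        obI h y g c (Set.Icc αi βi) L σ σ' w.1.1.1 w.1.1.2 w.1.2 w.2 ∈ Set.Iic τ}} := by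
  refine ⟨?_, ?_, ?_, ?_⟩
  · have h1 := (V.LC_hk' h hr (Set.Icc (α - h.κ) (β + h.κ)) s s' hpos
      (H.hne _ _ _)).sub_const (ρ p)
    have e1 : (fun t => V.hkR h (dOv F y g)
      (Set.Icc (α - h.κ) (β + h.κ)) s s' (V.cs (V.E0 h (dOv F y g)) p t) -
        ρ (V.cs (V.E0 h (dOv F y g)) p t)) = fun t =>
        V.hkR h (dOv F y g) (Set.Icc (α - h.κ) (β + h.κ)) s s'
          (V.cs (V.E0 h (dOv F y g)) p t) - ρ p := by
      funext t
      rw [hρS]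
    rw [e1]; exact h1
  · filter_upwards [V.nonneg_hk' h h0 (I := Set.Icc (α - h.κ) (β + h.κ)) (L := L) (a := s)
      (b := s') H.hs1 H.hs4 hpos (H.hne _ _ _)] with t ht
    linarith
  · rintro w ⟨w1, w2, w3⟩ hlt
    by_contra hcon
    rw [Set.mem_union, Set.mem_union, not_or, not_or] at hcon
    obtain ⟨⟨c1, c2⟩, c3⟩ := hcon
    have c1' : |obLo h g c α₀ β₀ L a₀ b₀ w.1.1.1 w.1.1.2 w.1.2 w.2| ≤ A := not_lt.1 c1
    have c2' : |obUp h y g c α₁ β₁ L a₁ b₁ w.1.1.1 w.1.1.2 w.1.2 w.2| ≤ A := not_lt.1 c2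
    have c3' : |obJ h y g Λ L w.1.1.1 w.1.1.2 w.1.2 w.2| ≤ A := not_lt.1 c3
    have key := H.sko_le w1 (r := w.2) w2
    have w3' : obI h y g c (Set.Icc αi βi) L σ σ' w.1.1.1 w.1.1.2 w.1.2 w.2 ≤ τ := w3
    have e1 : sko h y g (Set.Icc (α - h.κ) (β + h.κ)) L s s' w.1 =
      V.hkR h (dOv F y g) (Set.Icc (α - h.κ) (β + h.κ)) s s' w.1 -
        V.hkR h (dOv F y g) Set.univ (-L) L w.1 := rfl
    rw [e1] at key
    have k1 := (abs_le.1 c1').2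
    have k2 := (abs_le.1 c2').2
    have k3 := (abs_le.1 c3').2
    linarith
  · exact hin.trans (condI_good h0 H.geo measurableSet_Icc σ σ' hpos (B := Set.Iic τ)
      measurableSet_Iic)

/-- **(T2)** for every typical `p`: exponential tail of `hull - ρ` -/
theorem T2c {r₀ : ℝ} (hr : 0 < r₀) [IsProbabilityMeasure (gammaMeasure 1 r₀)]
    (h0 : gammaMeasure 1 r₀ (Set.Iio 0) = 0)
    (H : UpData h y g c Λ L α β s s' αi βi σ σ' α₀ β₀ a₀ b₀ α₁ β₁ a₁ b₁)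
    {ρ : RowS → ℝ} (hρm : Measurable ρ)
    (hρS : ∀ p t, ρ (V.cs (V.E0 h (dOv F y g)) p t) = ρ p)
    {A e τ q₀ a : ℝ} (hA : 0 < A) (he : 0 ≤ e) (hτ : 0 ≤ τ) (hq0 : 0 < q₀) (hq : 8 * e ≤ q₀)
    (ha : 0 ≤ a) {p : RowS} (hpos : p ∈ V.posS h (dOv F y g))
    (hLo : p ∈ V.typ (gammaMeasure 1 r₀) (V.E0 h (dOv F y g)) PF
      (NS (obLo h g c α₀ β₀ L a₀ b₀) A) e)
    (hUp : p ∈ V.typ (gammaMeasure 1 r₀) (V.E0 h (dOv F y g)) PF
      (NS (obUp h y g c α₁ β₁ L a₁ b₁) A) e)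
    (hJ : p ∈ V.typ (gammaMeasure 1 r₀) (V.E0 h (dOv F y g)) PF (NS (obJ h y g Λ L) A) e)
    (hG : p ∈ V.typ (gammaMeasure 1 r₀) (V.E0 h (dOv F y g)) PF (NS (obG h y g L ρ) A) e)
    (hin : q₀ ≤ (PR (gammaMeasure 1 r₀)).real {q | ski h y (Set.Icc αi βi) L σ σ' q ≤ τ}) :
    (iidLaw (gammaMeasure 1 r₀)).real {t | a - A ≤ V.hkR h (dOv F y g)
        (Set.Icc (α - h.κ) (β + h.κ)) s s' (V.cs (V.E0 h (dOv F y g)) p t) - ρ p} ≤
      2 * Real.exp (-(q₀ / 4) * (a / (τ + 6 * A))) := by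
  obtain ⟨hlc, hnn, hN, hI⟩ := T2_aux hr h0 H hρS (A := A) hpos hin
  have hq1 : q₀ ≤ 1 := hin.trans measureReal_le_one
  set G := gammaMeasure 1 r₀ with hGdef
  set E := V.E0 h (dOv F y g) with hEdef
  have hXm : Measurable fun q : RowS =>
      V.hkR h (dOv F y g) (Set.Icc (α - h.κ) (β + h.κ)) s s' q - ρ q :=
    (V.measurable_hkR h (dOv F y g) measurableSet_Icc s s').sub hρm
  have hA1 : p ∈ V.typ G E PF {w : RowS × ((ℝ × ℝ) × (ℝ × ℝ)) |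
      A < |V.hkR h (dOv F y g) Set.univ (-L) L w.1 - ρ w.1|} e := hG
  have r1 := V.cond_T2X hXm (D := fun q => V.hkR h (dOv F y g) Set.univ (-L) L q - ρ q) hlc hnn
    (d := A) (δ := e) (τ := τ + 3 * A) (q := q₀ - 3 * e) (c := e + e + e) hA (by linarith)
    (by linarith) (by linarith) (by linarith) hA1 (typ_union (typ_union hLo hUp) hJ) hN
    (by linarith) ha
  have e1 : {t | a - A ≤ (fun q : RowS =>
      V.hkR h (dOv F y g) (Set.Icc (α - h.κ) (β + h.κ)) s s' q - ρ q) (V.cs E p t)} =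
      {t | a - A ≤ V.hkR h (dOv F y g) (Set.Icc (α - h.κ) (β + h.κ)) s s' (V.cs E p t) - ρ p} := by
    ext t
    show a - A ≤ V.hkR h (dOv F y g) (Set.Icc (α - h.κ) (β + h.κ)) s s' (V.cs E p t) -
      ρ (V.cs E p t) ↔
      a - A ≤ V.hkR h (dOv F y g) (Set.Icc (α - h.κ) (β + h.κ)) s s' (V.cs E p t) - ρ p
    rw [hρS]
  rw [e1] at r1
  refine r1.trans ?_
  have e2 : τ + 3 * A + 3 * A = τ + 6 * A := by ring
  rw [e2]
  have h9 : 0 ≤ a / (τ + 6 * A) := div_nonneg ha (by linarith)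
  have h10 : -((q₀ - 3 * e) / 2) * (a / (τ + 6 * A)) ≤ -(q₀ / 4) * (a / (τ + 6 * A)) :=
    mul_le_mul_of_nonneg_right (by linarith) h9
  have := Real.exp_le_exp.2 h10
  linarith

/-- (T2), excess over `b` -/
theorem T2c_lintegral {r₀ : ℝ} (hr : 0 < r₀) [IsProbabilityMeasure (gammaMeasure 1 r₀)]
    (h0 : gammaMeasure 1 r₀ (Set.Iio 0) = 0)
    (H : UpData h y g c Λ L α β s s' αi βi σ σ' α₀ β₀ a₀ b₀ α₁ β₁ a₁ b₁)
    {ρ : RowS → ℝ} (hρm : Measurable ρ)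
    (hρS : ∀ p t, ρ (V.cs (V.E0 h (dOv F y g)) p t) = ρ p)
    {A e τ q₀ b : ℝ} (hA : 0 < A) (he : 0 ≤ e) (hτ : 0 ≤ τ) (hq0 : 0 < q₀) (hq : 8 * e ≤ q₀)
    (hb : τ + 5 * A ≤ b) {p : RowS} (hpos : p ∈ V.posS h (dOv F y g))
    (hLo : p ∈ V.typ (gammaMeasure 1 r₀) (V.E0 h (dOv F y g)) PF
      (NS (obLo h g c α₀ β₀ L a₀ b₀) A) e)
    (hUp : p ∈ V.typ (gammaMeasure 1 r₀) (V.E0 h (dOv F y g)) PF
      (NS (obUp h y g c α₁ β₁ L a₁ b₁) A) e)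
    (hJ : p ∈ V.typ (gammaMeasure 1 r₀) (V.E0 h (dOv F y g)) PF (NS (obJ h y g Λ L) A) e)
    (hG : p ∈ V.typ (gammaMeasure 1 r₀) (V.E0 h (dOv F y g)) PF (NS (obG h y g L ρ) A) e)
    (hin : q₀ ≤ (PR (gammaMeasure 1 r₀)).real {q | ski h y (Set.Icc αi βi) L σ σ' q ≤ τ}) :
    ∫⁻ t, ENNReal.ofReal (V.hkR h (dOv F y g) (Set.Icc (α - h.κ) (β + h.κ)) s s'
        (V.cs (V.E0 h (dOv F y g)) p t) - ρ p - b) ∂(iidLaw (gammaMeasure 1 r₀)) ≤
      ENNReal.ofReal ((τ + 6 * A) * (4 / q₀) * Real.exp (-(q₀ / 4) * (b / (τ + 6 * A)))) := by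
  obtain ⟨hlc, hnn, hN, hI⟩ := T2_aux hr h0 H hρS (A := A) hpos hin
  have hq1 : q₀ ≤ 1 := hin.trans measureReal_le_one
  set G := gammaMeasure 1 r₀ with hGdef
  set E := V.E0 h (dOv F y g) with hEdef
  have hXm : Measurable fun q : RowS =>
      V.hkR h (dOv F y g) (Set.Icc (α - h.κ) (β + h.κ)) s s' q - ρ q :=
    (V.measurable_hkR h (dOv F y g) measurableSet_Icc s s').sub hρm
  have hA1 : p ∈ V.typ G E PF {w : RowS × ((ℝ × ℝ) × (ℝ × ℝ)) |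
      A < |V.hkR h (dOv F y g) Set.univ (-L) L w.1 - ρ w.1|} e := hG
  have r1 := V.cond_lintegral hXm (D := fun q => V.hkR h (dOv F y g) Set.univ (-L) L q - ρ q)
    hlc hnn (d := A) (δ := e) (τ := τ + 3 * A) (q := q₀ - 3 * e) (c := e + e + e) hA
    (by linarith) (by linarith) (by linarith) (by linarith) hA1
    (typ_union (typ_union hLo hUp) hJ) hN (by linarith) (b := b) (by linarith)
  have e1 : (fun t => ENNReal.ofReal ((fun q : RowS =>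
      V.hkR h (dOv F y g) (Set.Icc (α - h.κ) (β + h.κ)) s s' q - ρ q) (V.cs E p t) - b)) =
      fun t => ENNReal.ofReal (V.hkR h (dOv F y g) (Set.Icc (α - h.κ) (β + h.κ)) s s'
        (V.cs E p t) - ρ p - b) := by
    funext t
    simp only
    rw [hρS]
  rw [e1] at r1
  refine r1.trans (ENNReal.ofReal_le_ofReal ?_)
  have e2 : τ + 3 * A + 3 * A = τ + 6 * A := by ring
  rw [e2]
  have hb0 : 0 ≤ b := by linarith
  have h9 : 0 ≤ b / (τ + 6 * A) := div_nonneg hb0 (by linarith)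
  have h10 : -((q₀ - 3 * e) / 2) * (b / (τ + 6 * A)) ≤ -(q₀ / 4) * (b / (τ + 6 * A)) :=
    mul_le_mul_of_nonneg_right (by linarith) h9
  have h11 : 2 / (q₀ - 3 * e) ≤ 4 / q₀ := by
    rw [div_le_div_iff₀ (by linarith) hq0]
    linarith
  have h12 : 0 ≤ τ + 6 * A := by linarith
  exact mul_le_mul (mul_le_mul_of_nonneg_left h11 h12) (Real.exp_le_exp.2 h10)
    (Real.exp_pos _).le (by positivity)

/-- input `hle` of `SData.mean_all` -/
theorem UpData.ae_sko_le {G : Measure ℝ} [IsProbabilityMeasure G] (h0 : G (Set.Iio 0) = 0)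
    (H : UpData h y g c Λ L α β s s' αi βi σ σ' α₀ β₀ a₀ b₀ α₁ β₁ a₁ b₁) :
    ∀ᵐ w ∂((PR G).prod PF), sko h y g (Set.Icc (α - h.κ) (β + h.κ)) L s s' w.1 ≤
      obI h y g c (Set.Icc αi βi) L σ σ' w.1.1.1 w.1.1.2 w.1.2 w.2 +
      (obLo h g c α₀ β₀ L a₀ b₀ w.1.1.1 w.1.1.2 w.1.2 w.2 +
        obUp h y g c α₁ β₁ L a₁ b₁ w.1.1.1 w.1.1.2 w.1.2 w.2 +
        obJ h y g Λ L w.1.1.1 w.1.1.2 w.1.2 w.2) := by
  have a1 : ∀ᵐ w ∂((PR G).prod PF), Nn w.1.1.2 := by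
    have h1 : ∀ᵐ q ∂(PR G), Nn q.1.2 := ae_nn_fresh (K.ae_Nn h0)
    exact Measure.quasiMeasurePreserving_fst.ae h1
  have a2 : ∀ᵐ w ∂((PR G).prod PF), ‖w.2.1‖ ≤ 1 :=
    Measure.quasiMeasurePreserving_snd.ae ae_PF_jit
  filter_upwards [a1, a2] with w h1 h2
  exact H.sko_le h1 h2

end T2

end Q

end Crest.Agent.R151
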