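import Crest.Agent.R151.M56e

/-!
# R151 / S0214 part 2, M56f — mean cost of fences (R4) (helper56)

`fence_mean`: `E hkY ≤ y₂ * rate (β - α) + (s₂ - s + β - α + κ + 1 + al d) * ε`.
-/

set_option autoImplicit false

open MeasureTheory Filter ProbabilityTheory Topology
open Crest.ProbabilityR.FirstPassage

namespace Crest.Agent.R151.M56

open Crest.Agent.R151.K Crest.Agent.R151.Q
open R78 (V Wk IsHwy hc hp stepc hull routes IsOpen shp hullY ptY gapK IsStrip Frame IsPos Back Sep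
  IsStack)
open M192 (frame frame_al frame_be al_pos be_pos isStrip ix_cov pos_add_toR)
open B710 (FlatData)
open C710 (fn fn_nonneg abs_f_le l1_nr toR_sub' n1_le_of_l1 pL)

/-- law of the phases of the stack -/
noncomputable def PI : Measure (ℕ → ℝ) := Measure.infinitePi fun _ : ℕ => UU

instance : IsProbabilityMeasure PI := by unfold PI; infer_instance

lemma mp_pair {i j : ℕ} (hij : i ≠ j) :
    MeasurePreserving (fun u : ℕ → ℝ => (u i, u j)) PI (UU.prod UU) := by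
  have hind : iIndepFun (fun (n : ℕ) (u : ℕ → ℝ) => u n) PI := by
    unfold PI
    exact iIndepFun_infinitePi (P := fun _ : ℕ => UU) (X := fun _ x => x)
      (fun _ => measurable_id)
  have h1 := (indepFun_iff_map_prod_eq_prod_map_map (measurable_pi_apply i).aemeasurable
    (measurable_pi_apply j).aemeasurable).1 (hind.indepFun hij)
  have hm : ∀ n, Measure.map (fun u : ℕ → ℝ => u n) PI = UU := fun n =>
    (measurePreserving_eval_infinitePi (fun _ : ℕ => UU) n).map_eq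
  refine ⟨(measurable_pi_apply i).prodMk (measurable_pi_apply j), ?_⟩
  rw [h1, hm, hm]

variable {μ : ℝ × ℝ → ℝ} {F : FlatData μ} {h : Hwy F} {G : Measure ℝ} [IsProbabilityMeasure G]

/-- transfer from one row to the stack -/
lemma stack_transfer {f : ℝ × ℝ → Environment → ℝ × ℝ → ℝ}
    (hf : ∀ φ, Inv fun θ t => f θ t φ)
    (hm : Measurable fun q : ((ℝ × ℝ) × Environment) × (ℝ × ℝ) => f q.1.1 q.1.2 q.2)
    (hi : Integrable (fun q : ((ℝ × ℝ) × Environment) × (ℝ × ℝ) => f q.1.1 q.1.2 q.2) (nu G))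
    (w : ℝ × ℝ) {i j : ℕ} (hij : i ≠ j) :
    Integrable (fun q : ((ℝ × ℝ) × Environment) × (ℕ → ℝ) =>
      f (q.1.1 - w) q.1.2 (q.2 i, q.2 j)) ((P0 G).prod PI) ∧
    ∫ q, f (q.1.1 - w) q.1.2 (q.2 i, q.2 j) ∂((P0 G).prod PI) =
      ∫ q, f q.1.1 q.1.2 q.2 ∂(nu G) := by
  have hp : MeasurePreserving (Prod.map (id : (ℝ × ℝ) × Environment → _)
      (fun u : ℕ → ℝ => (u i, u j))) ((P0 G).prod PI) (nu G) :=
    (MeasurePreserving.id _).prod (mp_pair hij)
  have i1 : Integrable (fun q : ((ℝ × ℝ) × Environment) × (ℝ × ℝ) =>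
      f (q.1.1 + -w) q.1.2 q.2) (nu G) :=
    integrable_shift_prod (G := G) (ν := UU.prod UU) (F := f) hf (-w) hi
  have e1 : ∫ q, f (q.1.1 + -w) q.1.2 q.2 ∂(nu G) = ∫ q, f q.1.1 q.1.2 q.2 ∂(nu G) :=
    integral_shift_prod (G := G) (ν := UU.prod UU) (F := f) hf hm (-w)
  simp only [← sub_eq_add_neg] at i1 e1
  refine ⟨hp.integrable_comp_of_integrable i1, ?_⟩
  rw [← e1, ← mp_integral hp i1.aestronglyMeasurable]
  rfl

/-- upper bound of `eL` -/
lemma eL_upper (h0 : G (Set.Iio 0) = 0) (h2 : Integrable (fun x : ℝ => x ^ 2) G)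
    (hμ : IsTC G μ) (F : FlatData μ) {w : ℝ} (hw : 2 * fn F.al ≤ w) {η : ℝ} (hη : 0 < η) :
    ∃ C : ℝ, ∀ y : ℝ, 0 ≤ y → eL G F w y ≤ (rate G F w + η) * y + C := by
  have h3 := C710.rate_tendsto (G := G) h0 h2 hμ F hw
  have hr := C710.rate_nonneg (G := G) h0 h2 hμ F hw
  have h4 := h3.eventually_le_const (show rate G F w < rate G F w + η by linarith)
  obtain ⟨n0, hn0⟩ := eventually_atTop.1 h4
  set C1 : ℝ := (l1 F.b + 2) * (∫ z, z ∂G) + 1 with hC1
  have hm : (0 : ℝ) ≤ ∫ z, z ∂G := integral_nonneg_of_ae (ae_nonneg h0)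
  have hlb := l1_nonneg F.b
  have hC10 : 0 ≤ C1 := by rw [hC1]; positivity
  set C2 : ℝ := ((((n0 : ℝ) + 1) * l1 F.b + 2) * (∫ z, z ∂G)) with hC2
  have hC20 : 0 ≤ C2 := by rw [hC2]; positivity
  refine ⟨C1 + C2, fun y hy => ?_⟩
  have h5 : (⌊y⌋₊ : ℝ) ≤ y := Nat.floor_le hy
  have h6 : y < ⌊y⌋₊ + 1 := Nat.lt_floor_add_one y
  have h7 := C710.eL_diff (G := G) h0 h2 F hw (⌊y⌋₊ : ℝ) (y - ⌊y⌋₊)
    (by rw [abs_le]; constructor <;> linarith)
  rw [add_sub_cancel] at h7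
  rcases Nat.lt_or_ge ⌊y⌋₊ (n0 + 1) with hn | hn
  · have h8 := C710.eL_le (G := G) h0 h2 F hw y
    have h9 : y ≤ (n0 : ℝ) + 1 := by
      have : ((⌊y⌋₊ : ℕ) : ℝ) + 1 ≤ ((n0 + 1 : ℕ) : ℝ) := by exact_mod_cast hn
      push_cast at this
      linarith
    rw [abs_of_nonneg hy] at h8
    have h10 : (y * l1 F.b + 2) * (∫ z, z ∂G) ≤ C2 := by
      rw [hC2]
      gcongr
    have : 0 ≤ (rate G F w + η) * y := by positivity
    linarith
  · have h8 := hn0 ⌊y⌋₊ (by omega)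
    have hpos : (0 : ℝ) < ⌊y⌋₊ := by
      have : 0 < ⌊y⌋₊ := by omega
      exact_mod_cast this
    rw [div_le_iff₀ hpos] at h8
    have h9 : (rate G F w + η) * ⌊y⌋₊ ≤ (rate G F w + η) * y := by gcongr
    linarith

section main

variable {ε : ℝ} (hM : HwyMean G h ε) (h0 : G (Set.Iio 0) = 0)
  (h2 : Integrable (fun x : ℝ => x ^ 2) G) (hμ : IsTC G μ) {d : ℝ × ℝ} {y2 : ℝ}
  (hd : h.wH + 2 * mg F < F.be d) (hy : h.wH < y2 - F.be d)
  {α β s s2 : ℝ} {I : Set ℝ} (hImeas : MeasurableSet I) (hs : s ≤ α)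
  (hs2 : β + h.κ < s2 + F.al d) (hI : Set.Icc α β ⊆ I) (hw : 2 * fn F.al ≤ β - α)
include hM h0 h2 hμ hd hy hImeas hs hs2 hI hw

/-- the inequality for `N + 1` rows, in mean -/
lemma fence_N (hint : Integrable (fun q : ((ℝ × ℝ) × Environment) × (ℝ × ℝ) =>
      h.hkY d I s s2 q.1.1 q.1.2 q.2) (nu G)) (N : ℕ) :
    ((N : ℝ) + 1) * (∫ q, h.hkY d I s s2 q.1.1 q.1.2 q.2 ∂(nu G) -
      (s2 - s + β - α + h.κ + 1 + F.al d) * ε) ≤
    eL G F (β - α) (yN h d y2 N) + Cch h d α β := by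
  set c0 : ℝ := (α + β) / 2 with hc0
  set P := (P0 G).prod PI with hP
  -- the terms
  have t1 := fun k : ℕ => stack_transfer (G := G) (f := fun θ t φ => h.hkY d I s s2 θ t φ)
    (fun φ => h.hkY_inv d I s s2 φ)
    (h.meas_hkY (by fun_prop) (by fun_prop) (by fun_prop) d hImeas s s2) hint
    (Bk h c0 y2 k) (show 2 * k ≠ 2 * k + 1 by omega)
  have y1 := Y_lo (h := h) hM s (β + h.κ + 1) 0
  simp only [sub_zero] at y1
  have t2 := fun k : ℕ => stack_transfer (G := G)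
    (f := fun θ t φ => h.Y s (β + h.κ + 1) φ.1 θ t) (fun φ => Y_inv h _ _ φ.1)
    (measurable_Y h (by fun_prop) (by fun_prop) (by fun_prop) _ _) y1.1
    (Bk h c0 y2 k) (show 2 * k ≠ 2 * k + 1 by omega)
  have y3 := Y_lo (h := h) hM (α - F.al d) s2 0
  simp only [sub_zero] at y3
  have t3 := fun k : ℕ => stack_transfer (G := G)
    (f := fun θ t φ => h.Y (α - F.al d) s2 φ.1 θ t) (fun φ => Y_inv h _ _ φ.1)
    (measurable_Y h (by fun_prop) (by fun_prop) (by fun_prop) _ _) y3.1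
    (Bk h c0 y2 k + d) (show 2 * k + 1 ≠ 2 * k + 2 by omega)
  have t4 := fun k : ℕ => stack_transfer (G := G)
    (f := fun θ t φ => h.gY (y2 • F.b - d) (α - F.al d) (β + h.κ + 1) θ t φ)
    (fun φ => h.gY_inv _ _ _ φ)
    (h.meas_gY (by fun_prop) (by fun_prop) (by fun_prop) _ _ _)
    (gY_integrable h h0 h2 _ _ _) (Bk h c0 y2 k + d) (show 2 * k + 1 ≠ 2 * k + 2 by omega)
  have g0 := gY_nonneg (G := G) h h0 h2 hμ (y2 • F.b - d) (α - F.al d) (β + h.κ + 1)
  -- the left side of `chain_lower`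
  have ilane : Integrable (fun q : ((ℝ × ℝ) × Environment) × (ℕ → ℝ) =>
      pL F (β - α) (yN h d y2 N) q.1.1 q.1.2) P :=
    (C710.integrable_pL (G := G) h0 h2 F hw (yN h d y2 N)).comp_fst PI
  have ephi := C710.mean_disp (G := G) h0 h2 F F.ρ (yN h d y2 N)
  have hphi : ∀ ξ : ℝ × ℝ, phi F (nr (ξ - (yN h d y2 N) • F.b)) - phi F (nr ξ) =
      F.ρ (toR (nr (ξ - (yN h d y2 N) • F.b) - nr ξ)) := by
    intro ξ; unfold phi; rw [toR_sub', map_sub]
  have iphi : Integrable (fun q : ((ℝ × ℝ) × Environment) × (ℕ → ℝ) =>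
      phi F (nr (q.1.1 - (yN h d y2 N) • F.b)) - phi F (nr q.1.1)) P := by
    simp only [hphi]
    have i1 : Integrable (fun p : (ℝ × ℝ) × Environment =>
        F.ρ (toR (nr (p.1 - (yN h d y2 N) • F.b) - nr p.1))) (P0 G) := by
      unfold P0
      exact ephi.1.comp_fst (iidLaw G)
    exact i1.comp_fst PI
  have mlane : ∫ q, pL F (β - α) (yN h d y2 N) q.1.1 q.1.2 ∂P =
      eL G F (β - α) (yN h d y2 N) + yN h d y2 N := by
    have hp : MeasurePreserving (Prod.fst : ((ℝ × ℝ) × Environment) × (ℕ → ℝ) → _) P (P0 G) :=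
      measurePreserving_fst
    have := mp_integral hp
      (C710.integrable_pL (G := G) h0 h2 F hw (yN h d y2 N)).aestronglyMeasurable
    rw [this, C710.eL_eq]; ring
  have mphi : ∫ q : ((ℝ × ℝ) × Environment) × (ℕ → ℝ),
      (phi F (nr (q.1.1 - (yN h d y2 N) • F.b)) - phi F (nr q.1.1)) ∂P = yN h d y2 N := by
    simp only [hphi]
    have hp : MeasurePreserving (fun q : ((ℝ × ℝ) × Environment) × (ℕ → ℝ) => q.1.1) P UU2 := by
      have h3 : MeasurePreserving (Prod.fst : ((ℝ × ℝ) × Environment) × (ℕ → ℝ) → _) P (P0 G) :=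
        measurePreserving_fst
      have h4 : MeasurePreserving (Prod.fst : (ℝ × ℝ) × Environment → _) (P0 G) UU2 := by
        unfold P0; exact measurePreserving_fst
      exact h4.comp h3
    have := mp_integral hp ephi.1.aestronglyMeasurable
    rw [this, ephi.2, map_smul, F.ρ_b, smul_eq_mul, mul_one]
  -- integrate `chain_lower`
  have e5 : ∀ (ξ : ℝ × ℝ) (k : ℕ), ξ - Bk h c0 y2 k - d = ξ - (Bk h c0 y2 k + d) := by
    intro ξ k; rw [sub_sub]
  have hpt : ∀ᵐ q ∂P,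
      (∑ k ∈ Finset.range (N + 1), (h.hkY d I s s2 (q.1.1 - Bk h c0 y2 k) q.1.2
          (q.2 (2 * k), q.2 (2 * k + 1)) -
        h.Y s (β + h.κ + 1) (q.2 (2 * k)) (q.1.1 - Bk h c0 y2 k) q.1.2 -
        h.Y (α - F.al d) s2 (q.2 (2 * k + 1)) (q.1.1 - (Bk h c0 y2 k + d)) q.1.2) +
      ∑ k ∈ Finset.range N, h.gY (y2 • F.b - d) (α - F.al d) (β + h.κ + 1)
        (q.1.1 - (Bk h c0 y2 k + d)) q.1.2 (q.2 (2 * k + 1), q.2 (2 * k + 2))) ≤
      (pL F (β - α) (yN h d y2 N) q.1.1 q.1.2 -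
        (phi F (nr (q.1.1 - (yN h d y2 N) • F.b)) - phi F (nr q.1.1))) + Cch h d α β := by
    filter_upwards [ae_P0_Nn (Ψ := ℕ → ℝ) (ν := PI) h0] with q hq
    have := chain_lower hd hy hs hs2 hI hw hq.1 q.1.1 q.2 N
    simp only [tk, ph] at this
    rw [← hc0] at this
    simp only [e5] at this
    linarith
  have isum1 : Integrable (fun q : ((ℝ × ℝ) × Environment) × (ℕ → ℝ) =>
      ∑ k ∈ Finset.range (N + 1), (h.hkY d I s s2 (q.1.1 - Bk h c0 y2 k) q.1.2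
          (q.2 (2 * k), q.2 (2 * k + 1)) -
        h.Y s (β + h.κ + 1) (q.2 (2 * k)) (q.1.1 - Bk h c0 y2 k) q.1.2 -
        h.Y (α - F.al d) s2 (q.2 (2 * k + 1)) (q.1.1 - (Bk h c0 y2 k + d)) q.1.2)) P :=
    integrable_finsetSum _ fun k _ => ((t1 k).1.sub (t2 k).1).sub (t3 k).1
  have isum2 : Integrable (fun q : ((ℝ × ℝ) × Environment) × (ℕ → ℝ) =>
      ∑ k ∈ Finset.range N, h.gY (y2 • F.b - d) (α - F.al d) (β + h.κ + 1)
        (q.1.1 - (Bk h c0 y2 k + d)) q.1.2 (q.2 (2 * k + 1), q.2 (2 * k + 2))) P :=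
    integrable_finsetSum _ fun k _ => (t4 k).1
  have ilp : Integrable (fun q : ((ℝ × ℝ) × Environment) × (ℕ → ℝ) =>
      pL F (β - α) (yN h d y2 N) q.1.1 q.1.2 -
        (phi F (nr (q.1.1 - (yN h d y2 N) • F.b)) - phi F (nr q.1.1))) P := ilane.sub iphi
  have hfin := integral_mono_ae (isum1.add isum2)
    (ilp.add (integrable_const (Cch h d α β))) hpt
  simp only [Pi.add_apply] at hfin
  rw [integral_add isum1 isum2, integral_add ilp (integrable_const _),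
    integral_sub ilane iphi, mlane, mphi, integral_const, probReal_univ, one_smul] at hfin
  have j1 : ∫ q : ((ℝ × ℝ) × Environment) × (ℕ → ℝ),
      ∑ k ∈ Finset.range (N + 1), (h.hkY d I s s2 (q.1.1 - Bk h c0 y2 k) q.1.2
          (q.2 (2 * k), q.2 (2 * k + 1)) -
        h.Y s (β + h.κ + 1) (q.2 (2 * k)) (q.1.1 - Bk h c0 y2 k) q.1.2 -
        h.Y (α - F.al d) s2 (q.2 (2 * k + 1)) (q.1.1 - (Bk h c0 y2 k + d)) q.1.2) ∂P =
      ∑ k ∈ Finset.range (N + 1), ∫ q : ((ℝ × ℝ) × Environment) × (ℕ → ℝ),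
        (h.hkY d I s s2 (q.1.1 - Bk h c0 y2 k) q.1.2
          (q.2 (2 * k), q.2 (2 * k + 1)) -
        h.Y s (β + h.κ + 1) (q.2 (2 * k)) (q.1.1 - Bk h c0 y2 k) q.1.2 -
        h.Y (α - F.al d) s2 (q.2 (2 * k + 1)) (q.1.1 - (Bk h c0 y2 k + d)) q.1.2) ∂P :=
    integral_finsetSum _ fun k _ => ((t1 k).1.sub (t2 k).1).sub (t3 k).1
  rw [j1, integral_finsetSum _ fun k _ => (t4 k).1] at hfin
  have e6 : ∀ k ∈ Finset.range (N + 1), ∫ q : ((ℝ × ℝ) × Environment) × (ℕ → ℝ),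
      (h.hkY d I s s2 (q.1.1 - Bk h c0 y2 k) q.1.2 (q.2 (2 * k), q.2 (2 * k + 1)) -
        h.Y s (β + h.κ + 1) (q.2 (2 * k)) (q.1.1 - Bk h c0 y2 k) q.1.2 -
        h.Y (α - F.al d) s2 (q.2 (2 * k + 1)) (q.1.1 - (Bk h c0 y2 k + d)) q.1.2) ∂P =
      ∫ q, h.hkY d I s s2 q.1.1 q.1.2 q.2 ∂(nu G) -
      (s2 - s + β - α + h.κ + 1 + F.al d) * ε := by
    intro k _
    have i12 := (t1 k).1.sub (t2 k).1
    have s1 := integral_sub i12 (t3 k).1
    have s2' := integral_sub (t1 k).1 (t2 k).1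
    simp only [Pi.sub_apply] at s1 s2'
    rw [s1, s2', (t1 k).2, (t2 k).2, (t3 k).2, y1.2, y3.2]
    ring
  have e7 : 0 ≤ ∑ k ∈ Finset.range N, ∫ q : ((ℝ × ℝ) × Environment) × (ℕ → ℝ),
      h.gY (y2 • F.b - d) (α - F.al d) (β + h.κ + 1)
        (q.1.1 - (Bk h c0 y2 k + d)) q.1.2 (q.2 (2 * k + 1), q.2 (2 * k + 2)) ∂P := by
    refine Finset.sum_nonneg fun k _ => ?_
    rw [(t4 k).2]
    exact g0
  rw [Finset.sum_congr rfl e6, Finset.sum_const, Finset.card_range, nsmul_eq_mul] at hfin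
  push_cast at hfin
  linarith

/-- **R4: mean cost of a fence** -/
theorem fence_mean (hint : Integrable (fun q : ((ℝ × ℝ) × Environment) × (ℝ × ℝ) =>
      h.hkY d I s s2 q.1.1 q.1.2 q.2) (nu G)) :
    ∫ q, h.hkY d I s s2 q.1.1 q.1.2 q.2 ∂(nu G) ≤
      y2 * rate G F (β - α) + (s2 - s + β - α + h.κ + 1 + F.al d) * ε := by
  set M := ∫ q, h.hkY d I s s2 q.1.1 q.1.2 q.2 ∂(nu G) -
      (s2 - s + β - α + h.κ + 1 + F.al d) * ε with hMdef
  have hwH := wH_nonneg h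
  have hmg := one_le_mg F
  have hy2 : 0 < y2 := by linarith
  suffices hsuf : ∀ η : ℝ, 0 < η → M ≤ (rate G F (β - α) + η) * y2 by
    have : M ≤ rate G F (β - α) * y2 := by
      refine le_of_forall_pos_le_add fun δ hδ => ?_
      have := hsuf (δ / y2) (by positivity)
      rw [add_mul, div_mul_cancel₀ _ hy2.ne'] at this
      exact this
    rw [hMdef] at this
    linarith
  intro η hη
  obtain ⟨C, hC⟩ := eL_upper (G := G) h0 h2 hμ F hw hη
  have hr := C710.rate_nonneg (G := G) h0 h2 hμ F hw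
  set C1 : ℝ := H0 h + F.be d + h.wH / 2 + mg F with hC1
  have hH0 : 0 ≤ H0 h := by unfold H0; linarith
  have hkey : ∀ N : ℕ, ((N : ℝ) + 1) * M ≤
      (rate G F (β - α) + η) * y2 * ((N : ℝ) + 1) +
        ((rate G F (β - α) + η) * C1 + C + Cch h d α β) := by
    intro N
    have h3 := fence_N hM h0 h2 hμ hd hy hImeas hs hs2 hI hw hint N
    have hyN : 0 ≤ yN h d y2 N := by
      unfold yN
      have : (0 : ℝ) ≤ N * y2 := by positivity
      linarith
    have h4 := hC (yN h d y2 N) hyN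
    have h5 : (rate G F (β - α) + η) * yN h d y2 N ≤
        (rate G F (β - α) + η) * (y2 * ((N : ℝ) + 1) + C1) := by
      refine mul_le_mul_of_nonneg_left ?_ (by linarith)
      unfold yN
      rw [hC1]
      nlinarith
    linarith
  set D := (rate G F (β - α) + η) * C1 + C + Cch h d α β with hD
  have ht : Tendsto (fun N : ℕ => (rate G F (β - α) + η) * y2 + D / ((N : ℝ) + 1)) atTop
      (𝓝 ((rate G F (β - α) + η) * y2 + 0)) := by
    refine tendsto_const_nhds.add ?_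
    exact tendsto_const_nhds.div_atTop
      (tendsto_atTop_add_const_right _ _ tendsto_natCast_atTop_atTop)
  rw [add_zero] at ht
  refine ge_of_tendsto' ht fun N => ?_
  have hpos : (0 : ℝ) < (N : ℝ) + 1 := by positivity
  have h3 := hkey N
  have h4 : M * ((N : ℝ) + 1) ≤ ((rate G F (β - α) + η) * y2 + D / ((N : ℝ) + 1)) *
      ((N : ℝ) + 1) := by
    rw [add_mul, div_mul_cancel₀ _ hpos.ne']
    linarith
  exact le_of_mul_le_mul_right h4 hpos

end main

section main'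

variable {ε : ℝ} (hM : HwyMean G h ε) (h0 : G (Set.Iio 0) = 0)
  (h2 : Integrable (fun x : ℝ => x ^ 2) G) {d : ℝ × ℝ}
  (hd : h.wH + 2 * mg F < F.be d)
  {α β s s2 : ℝ} {I : Set ℝ} (hImeas : MeasurableSet I) (hs : s ≤ α)
  (hs2 : β + h.κ < s2 + F.al d) (hI : Set.Icc α β ⊆ I) (hw : 2 * mg F ≤ β - α)
include hM h0 h2 hd hImeas hs hs2 hI hw

/-- integrability of a fence -/
theorem fence_integrable : Integrable (fun q : ((ℝ × ℝ) × Environment) × (ℝ × ℝ) =>
    h.hkY d I s s2 q.1.1 q.1.2 q.2) (nu G) := by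
  refine hkY_integrable hM h0 h2 hd hImeas (σ₁ := (α + β) / 2) (σ₂ := (α + β) / 2)
    (by linarith) (by linarith) ?_
  rw [min_self, max_self]
  exact (Set.Icc_subset_Icc (by linarith) (by linarith)).trans hI

/-- a fence has nonnegative mean -/
theorem fence_nonneg (hμ : IsTC G μ) : 0 ≤ ∫ q, h.hkY d I s s2 q.1.1 q.1.2 q.2 ∂(nu G) := by
  refine hkY_nonneg hM h0 h2 hd hImeas (σ₁ := (α + β) / 2) (σ₂ := (α + β) / 2)
    (by linarith) (by linarith) ?_ hμ
  rw [min_self, max_self]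
  exact (Set.Icc_subset_Icc (by linarith) (by linarith)).trans hI

/-- **R4** for fences of width at least `2 mg F` -/
theorem fence_mean' (hμ : IsTC G μ) {y2 : ℝ} (hy : h.wH < y2 - F.be d) :
    ∫ q, h.hkY d I s s2 q.1.1 q.1.2 q.2 ∂(nu G) ≤
      y2 * rate G F (β - α) + (s2 - s + β - α + h.κ + 1 + F.al d) * ε := by
  have h1 := fn_nonneg F.al
  have h2' := fn_nonneg F.be
  have h3 : 2 * fn F.al ≤ β - α := by
    unfold mg at hw
    linarith
  exact fence_mean hM h0 h2 hμ hd hy hImeas hs hs2 hI h3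
    (fence_integrable hM h0 h2 hd hImeas hs hs2 hI hw)

end main'

section nonempty'

variable {d : ℝ × ℝ} (hd : h.wH + 2 * mg F < F.be d)
  {α β s s2 : ℝ} {I : Set ℝ} (hs : s ≤ α)
  (hs2 : β + h.κ < s2 + F.al d) (hI : Set.Icc α β ⊆ I) (hw : 2 * mg F ≤ β - α)
include hd hs hs2 hI hw

/-- the routes of a fence are nonempty -/
theorem fence_nonempty (θ : ℝ × ℝ) (t : Environment) (φ : ℝ × ℝ) :
    (routes t (h.Lo θ t φ) (h.Up d θ t φ) (rg F I θ) (h.iL s θ t φ) (h.iU d s2 θ t φ)).Nonempty := by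
  refine row_nonempty hd (σ₁ := (α + β) / 2) (σ₂ := (α + β) / 2)
    (by linarith) (by linarith) ?_ θ t φ
  rw [min_self, max_self]
  exact (Set.Icc_subset_Icc (by linarith) (by linarith)).trans hI

end nonempty'

end Crest.Agent.R151.M56
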