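import Crest.Agent.R151.G338a

/-!
R151, S0214 part 2, section 7: small balls and tails of `R#` for a fixed typical strip environment.

`Y = R(i → j) + gauge - ρ_S` has a log-concave survival function, `Sh = R# = Y - D`,
`D = R(-L → L) - ρ_S`.
-/

set_option autoImplicit false

open MeasureTheory ProbabilityTheory Set

namespace Crest.Agent.R151.G338

variable {Ω : Type*} [MeasurableSpace Ω] {μ : Measure Ω} [IsProbabilityMeasure μ]

/-- survival function -/
noncomputable def surv (μ : Measure Ω) (Y : Ω → ℝ) (x : ℝ) : ℝ := μ.real {ω | x ≤ Y ω}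

omit [IsProbabilityMeasure μ] in
theorem surv_nonneg (Y : Ω → ℝ) (x : ℝ) : 0 ≤ surv μ Y x := measureReal_nonneg

theorem real_mono_ae {s t : Set Ω} (h : ∀ᵐ ω ∂μ, ω ∈ s → ω ∈ t) : μ.real s ≤ μ.real t :=
  ENNReal.toReal_mono (measure_ne_top μ t) (measure_mono_ae h)

theorem surv_anti (Y : Ω → ℝ) {x y : ℝ} (h : x ≤ y) : surv μ Y y ≤ surv μ Y x :=
  measureReal_mono fun _ (hω : y ≤ _) => h.trans hω

theorem one_sub_surv {Y : Ω → ℝ} (hY : Measurable Y) (x : ℝ) :
    μ.real {ω | Y ω < x} = 1 - surv μ Y x := by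
  have : {ω | Y ω < x} = {ω | x ≤ Y ω}ᶜ := by ext ω; simp
  rw [this, probReal_compl_eq_one_sub (measurableSet_le measurable_const hY)]; rfl

/-- (7.1) for a fixed strip environment. -/
theorem small_ball {Y D : Ω → ℝ} (hY : Measurable Y) {A t q e κ : ℝ}
    (hA : 0 ≤ A) (ht : 0 < t) (hAt : 2 * A ≤ t) (hq : 0 < q) (hq1 : q ≤ 1) (he0 : 0 ≤ e)
    (heq : 2 * e ≤ q) (hκ : 0 < κ)
    (hlc : LogConc (surv μ Y))
    (hD : μ.real {ω | A < |D ω|} ≤ e)
    (h0 : ∀ᵐ ω ∂μ, 0 ≤ Y ω - D ω)
    (hbig : q ≤ μ.real {ω | t ≤ Y ω - D ω}) :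
    μ.real {ω | Y ω - D ω ≤ κ * t} ≤ 2 * e + 8 * (κ + A / t) * Real.log (2 / q) := by
  have hl2 : Real.log 2 ≤ Real.log (2 / q) :=
    Real.log_le_log (by norm_num) (by rw [le_div_iff₀ hq]; linarith)
  have hl2' : (0.69 : ℝ) < Real.log (2 / q) := by
    have := Real.log_two_gt_d9; linarith
  have hAt0 : 0 ≤ A / t := by positivity
  set t' : ℝ := t - A with ht'
  have ht'0 : 0 < t' := by rw [ht']; linarith
  set κ' : ℝ := (2 * κ * t + A) / t' with hκ'
  have hκ'0 : 0 ≤ κ' := by positivity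
  have hκ'le : κ' ≤ 4 * κ + 2 * (A / t) := by
    rw [hκ', div_le_iff₀ ht'0, ht']
    have e1 : (4 * κ + 2 * (A / t)) * (t - A) = 4 * κ * t - 4 * κ * A + 2 * A - 2 * (A / t) * A := by
      field_simp; ring
    rw [e1]
    have : A / t * A ≤ A / 2 := by
      have : A / t ≤ 1 / 2 := by rw [div_le_iff₀ ht]; linarith
      nlinarith
    nlinarith
  by_cases hκ1 : κ' ≤ 1
  · -- the main case
    have hG1 : 1 - e ≤ surv μ Y (-A) := by
      have h1 : μ.real {ω | Y ω < -A} ≤ μ.real {ω | A < |D ω|} := by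
        apply real_mono_ae
        filter_upwards [h0] with ω hω (h : Y ω < -A)
        show A < |D ω|
        rw [lt_abs]; right; linarith
      rw [one_sub_surv hY] at h1
      linarith
    have hG2 : q / 2 ≤ surv μ Y t' := by
      have h1 : {ω | t ≤ Y ω - D ω} ⊆ {ω | t' ≤ Y ω} ∪ {ω | A < |D ω|} := by
        intro ω (hω : t ≤ Y ω - D ω)
        by_cases h : A < |D ω|
        · exact Or.inr h
        · left
          push Not at h
          have := (abs_le.1 h).1
          show t' ≤ Y ω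
          rw [ht']; linarith
      have h2 := (measureReal_mono (μ := μ) h1).trans (measureReal_union_le _ _)
      unfold surv
      linarith
    have key := hlc.small_ball (A := A) (t := t') (q := q / 2) (e := e) (κ := κ') hA ht'0
      (by linarith) (by linarith) (by linarith) he0 hκ'0 hκ1 hG1 hG2
    have hx : κ' * t' = 2 * κ * t + A := by rw [hκ']; field_simp
    rw [hx] at key
    have h1 : {ω | Y ω - D ω ≤ κ * t} ⊆ {ω | Y ω < 2 * κ * t + A} ∪ {ω | A < |D ω|} := by
      intro ω (hω : Y ω - D ω ≤ κ * t)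
      by_cases h : A < |D ω|
      · exact Or.inr h
      · left
        push Not at h
        have := (abs_le.1 h).2
        show Y ω < 2 * κ * t + A
        have : 0 < κ * t := by positivity
        nlinarith
    have h2 := (measureReal_mono (μ := μ) h1).trans (measureReal_union_le _ _)
    rw [one_sub_surv hY] at h2
    have e1 : (1 : ℝ) / (q / 2) = 2 / q := by field_simp
    rw [e1] at key
    have h3 : κ' + A / t' ≤ 8 * (κ + A / t) := by
      have : A / t' ≤ 2 * (A / t) := by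
        rw [div_le_iff₀ ht'0, ht']
        have e2 : 2 * (A / t) * (t - A) = 2 * A - 2 * (A / t) * A := by field_simp
        rw [e2]
        have : A / t * A ≤ A / 2 := by
          have : A / t ≤ 1 / 2 := by rw [div_le_iff₀ ht]; linarith
          nlinarith
        linarith
      linarith
    have h4 : (κ' + A / t') * Real.log (2 / q) ≤ 8 * (κ + A / t) * Real.log (2 / q) :=
      mul_le_mul_of_nonneg_right h3 (by linarith)
    linarith
  · push Not at hκ1
    have h1 : (1 : ℝ) ≤ 8 * (κ + A / t) * Real.log (2 / q) := by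
      have : 1 < 4 * κ + 2 * (A / t) := lt_of_lt_of_le hκ1 hκ'le
      nlinarith
    have := measureReal_le_one (μ := μ) (s := {ω | Y ω - D ω ≤ κ * t})
    linarith

/-- tail of `Y` (the log-concave variable) in (7.2). -/
theorem tail_surv {Y D : Ω → ℝ} (hY : Measurable Y) {A t q e n : ℝ}
    (hA : 0 ≤ A) (ht : 0 < t) (hAt : A < t) (hq : 0 < q) (hq1 : q ≤ 1) (he0 : 0 ≤ e)
    (heq : 4 * e ≤ q) (hn : 1 ≤ n)
    (hlc : LogConc (surv μ Y))
    (hD : μ.real {ω | A < |D ω|} ≤ e)
    (h0 : ∀ᵐ ω ∂μ, 0 ≤ Y ω - D ω)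
    (hsmall : q ≤ μ.real {ω | Y ω - D ω ≤ t}) :
    surv μ Y (2 * n * t) ≤ (1 - q / 4) ^ (n / 2) := by
  have hG1 : 1 - e ≤ surv μ Y (-A) := by
    have h1 : μ.real {ω | Y ω < -A} ≤ μ.real {ω | A < |D ω|} := by
      apply real_mono_ae
      filter_upwards [h0] with ω hω (h : Y ω < -A)
      show A < |D ω|
      rw [lt_abs]; right; linarith
    rw [one_sub_surv hY] at h1
    linarith
  have hG2 : surv μ Y (2 * t) ≤ 1 - q / 2 := by
    have h1 : {ω | Y ω - D ω ≤ t} ⊆ {ω | Y ω < 2 * t} ∪ {ω | A < |D ω|} := by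
      intro ω (hω : Y ω - D ω ≤ t)
      by_cases h : A < |D ω|
      · exact Or.inr h
      · left
        push Not at h
        have := (abs_le.1 h).2
        show Y ω < 2 * t
        linarith
    have h2 := (measureReal_mono (μ := μ) h1).trans (measureReal_union_le _ _)
    rw [one_sub_surv hY] at h2
    linarith
  have := hlc.decay (fun x => surv_nonneg Y x) (A := A) (t := 2 * t) (q := q / 2) (e := e) (n := n)
    hA (by linarith) (by linarith) (by linarith) (by linarith) he0 (by linarith) hn hG1 hG2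
  have e1 : n * (2 * t) = 2 * n * t := by ring
  have e2 : (1 : ℝ) - q / 2 / 2 = 1 - q / 4 := by ring
  rw [e1, e2] at this
  exact this

/-- (7.2) tail of `R#` for a fixed strip environment. -/
theorem tail_sharp {Y D : Ω → ℝ} (hY : Measurable Y) {A t q e n : ℝ}
    (hA : 0 ≤ A) (ht : 0 < t) (hAt : A < t) (hq : 0 < q) (hq1 : q ≤ 1) (he0 : 0 ≤ e)
    (heq : 4 * e ≤ q) (hn : 1 ≤ n)
    (hlc : LogConc (surv μ Y))
    (hD : μ.real {ω | A < |D ω|} ≤ e)
    (h0 : ∀ᵐ ω ∂μ, 0 ≤ Y ω - D ω)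
    (hsmall : q ≤ μ.real {ω | Y ω - D ω ≤ t}) :
    μ.real {ω | 2 * n * t + A ≤ Y ω - D ω} ≤ (1 - q / 4) ^ (n / 2) + e := by
  have h := tail_surv hY hA ht hAt hq hq1 he0 heq hn hlc hD h0 hsmall
  have h1 : {ω | 2 * n * t + A ≤ Y ω - D ω} ⊆ {ω | 2 * n * t ≤ Y ω} ∪ {ω | A < |D ω|} := by
    intro ω (hω : 2 * n * t + A ≤ Y ω - D ω)
    by_cases h : A < |D ω|
    · exact Or.inr h
    · left
      push Not at h
      have := (abs_le.1 h).1
      show 2 * n * t ≤ Y ω
      linarith
  have h2 := (measureReal_mono (μ := μ) h1).trans (measureReal_union_le _ _)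
  unfold surv at h
  linarith

/-- mean of the positive part from a geometric tail -/
theorem integral_posPart_le {Y : Ω → ℝ} (hY : Measurable Y) {t r : ℝ} (ht : 0 < t)
    (hr0 : 0 ≤ r) (hr1 : r < 1) (h : ∀ n : ℕ, surv μ Y (2 * n * t) ≤ r ^ n) :
    Integrable (fun ω => max (Y ω) 0) μ ∧ ∫ ω, max (Y ω) 0 ∂μ ≤ 2 * t / (1 - r) := by
  have hm : Measurable fun ω => max (Y ω) 0 := hY.max measurable_const
  have key : ∫⁻ ω, ENNReal.ofReal (max (Y ω) 0) ∂μ ≤ ENNReal.ofReal (2 * t / (1 - r)) := by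
    have hpt : ∀ ω, ENNReal.ofReal (max (Y ω) 0) ≤
        ∑' n : ℕ, {ω | 2 * (n : ℝ) * t ≤ Y ω}.indicator (fun _ => ENNReal.ofReal (2 * t)) ω := by
      intro ω
      rcases lt_or_ge (Y ω) 0 with hlt | hge
      · rw [max_eq_right hlt.le]; simp
      · rw [max_eq_left hge]
        set N := ⌊Y ω / (2 * t)⌋₊ with hN
        have h2 : Y ω ≤ (N + 1) * (2 * t) := by
          have := Nat.lt_floor_add_one (Y ω / (2 * t))
          rw [← hN, div_lt_iff₀ (by linarith)] at this
          exact this.le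
        have h3 : ∑ n ∈ Finset.range (N + 1),
            {ω | 2 * (n : ℝ) * t ≤ Y ω}.indicator (fun _ => ENNReal.ofReal (2 * t)) ω =
            ∑ n ∈ Finset.range (N + 1), ENNReal.ofReal (2 * t) := by
          refine Finset.sum_congr rfl fun n hn => ?_
          rw [Set.indicator_of_mem]
          show 2 * (n : ℝ) * t ≤ Y ω
          have h4 : (n : ℝ) ≤ N := by exact_mod_cast Nat.lt_succ_iff.1 (Finset.mem_range.1 hn)
          have h5 : (N : ℝ) ≤ Y ω / (2 * t) := Nat.floor_le (by positivity)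
          have h6 : (n : ℝ) ≤ Y ω / (2 * t) := h4.trans h5
          rw [le_div_iff₀ (by linarith)] at h6
          linarith
        calc ENNReal.ofReal (Y ω) ≤ ENNReal.ofReal ((N + 1) * (2 * t)) := ENNReal.ofReal_le_ofReal h2
          _ = ∑ n ∈ Finset.range (N + 1), ENNReal.ofReal (2 * t) := by
              rw [Finset.sum_const, Finset.card_range, nsmul_eq_mul,
                ENNReal.ofReal_mul (by positivity)]
              congr 1
              rw [← Nat.cast_add_one, ENNReal.ofReal_natCast]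
          _ = _ := h3.symm
          _ ≤ _ := ENNReal.sum_le_tsum _
    have hs : Summable fun n : ℕ => 2 * t * r ^ n :=
      (summable_geometric_of_lt_one hr0 hr1).mul_left _
    calc ∫⁻ ω, ENNReal.ofReal (max (Y ω) 0) ∂μ
        ≤ ∫⁻ ω, ∑' n : ℕ, {ω | 2 * (n : ℝ) * t ≤ Y ω}.indicator
            (fun _ => ENNReal.ofReal (2 * t)) ω ∂μ := lintegral_mono hpt
      _ = ∑' n : ℕ, ∫⁻ ω, {ω | 2 * (n : ℝ) * t ≤ Y ω}.indicator
            (fun _ => ENNReal.ofReal (2 * t)) ω ∂μ := by
          refine lintegral_tsum fun n => ?_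
          exact (measurable_const.indicator (measurableSet_le measurable_const hY)).aemeasurable
      _ = ∑' n : ℕ, ENNReal.ofReal (2 * t) * μ {ω | 2 * (n : ℝ) * t ≤ Y ω} := by
          refine tsum_congr fun n => ?_
          rw [lintegral_indicator (measurableSet_le measurable_const hY), setLIntegral_const]
      _ ≤ ∑' n : ℕ, ENNReal.ofReal (2 * t * r ^ n) := by
          refine ENNReal.tsum_le_tsum fun n => ?_
          rw [ENNReal.ofReal_mul (by linarith : (0 : ℝ) ≤ 2 * t)]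
          gcongr
          rw [← ENNReal.ofReal_toReal (measure_ne_top μ {ω | 2 * (n : ℝ) * t ≤ Y ω})]
          exact ENNReal.ofReal_le_ofReal (h n)
      _ = ENNReal.ofReal (∑' n : ℕ, 2 * t * r ^ n) :=
          (ENNReal.ofReal_tsum_of_nonneg (fun n => by positivity) hs).symm
      _ = ENNReal.ofReal (2 * t / (1 - r)) := by
          rw [tsum_mul_left, tsum_geometric_of_lt_one hr0 hr1]; rfl
  have hint : Integrable (fun ω => max (Y ω) 0) μ := by
    refine ⟨hm.aestronglyMeasurable, ?_⟩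
    have h0 : 0 ≤ᵐ[μ] fun ω => max (Y ω) 0 := Filter.Eventually.of_forall fun ω => le_max_right _ _
    rw [hasFiniteIntegral_iff_ofReal h0]
    exact lt_of_le_of_lt key ENNReal.ofReal_lt_top
  refine ⟨hint, ?_⟩
  have h0 : 0 ≤ᵐ[μ] fun ω => max (Y ω) 0 := Filter.Eventually.of_forall fun ω => le_max_right _ _
  rw [integral_eq_lintegral_of_nonneg_ae h0 hm.aestronglyMeasurable]
  refine ENNReal.toReal_le_of_le_ofReal ?_ key
  have : 0 < 1 - r := by linarith
  positivity

/-- (7.2) in the mean: `E R# ≤ (16 / q) t + E |D|` for a fixed typical strip environment. -/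
theorem mean_sharp {Y D : Ω → ℝ} (hY : Measurable Y) (hYi : Integrable Y μ) (hDi : Integrable D μ)
    {A t q e : ℝ}
    (hA : 0 ≤ A) (ht : 0 < t) (hAt : A < t) (hq : 0 < q) (hq1 : q ≤ 1) (he0 : 0 ≤ e)
    (heq : 4 * e ≤ q)
    (hlc : LogConc (surv μ Y))
    (hD : μ.real {ω | A < |D ω|} ≤ e)
    (h0 : ∀ᵐ ω ∂μ, 0 ≤ Y ω - D ω)
    (hsmall : q ≤ μ.real {ω | Y ω - D ω ≤ t}) :
    ∫ ω, (Y ω - D ω) ∂μ ≤ 16 / q * t + ∫ ω, |D ω| ∂μ := by
  set r : ℝ := 1 - q / 8 with hr
  have hr0 : 0 ≤ r := by rw [hr]; linarith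
  have hr1 : r < 1 := by rw [hr]; linarith
  have hsq : Real.sqrt (1 - q / 4) ≤ r := by
    rw [Real.sqrt_le_left hr0, hr]; nlinarith
  have htail : ∀ n : ℕ, surv μ Y (2 * n * t) ≤ r ^ n := by
    intro n
    rcases Nat.eq_zero_or_pos n with h | h
    · subst h; simp only [pow_zero]; exact measureReal_le_one
    · have hn : (1 : ℝ) ≤ n := by exact_mod_cast h
      have := tail_surv hY hA ht hAt hq hq1 he0 heq hn hlc hD h0 hsmall
      refine this.trans ?_
      have e1 : (1 - q / 4) ^ ((n : ℝ) / 2) = Real.sqrt (1 - q / 4) ^ n := by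
        rw [Real.sqrt_eq_rpow, ← Real.rpow_natCast, ← Real.rpow_mul (by linarith)]
        congr 1; ring
      rw [e1]
      exact pow_le_pow_left₀ (Real.sqrt_nonneg _) hsq n
  obtain ⟨hi, hle⟩ := integral_posPart_le hY ht hr0 hr1 htail
  have h1 : ∫ ω, Y ω ∂μ ≤ ∫ ω, max (Y ω) 0 ∂μ := integral_mono hYi hi fun ω => le_max_left _ _
  have h2 : -∫ ω, D ω ∂μ ≤ ∫ ω, |D ω| ∂μ := by
    rw [← integral_neg]
    exact integral_mono hDi.neg hDi.abs fun ω => neg_le_abs _
  have h3 : 2 * t / (1 - r) = 16 / q * t := by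
    have : (1 : ℝ) - r = q / 8 := by rw [hr]; ring
    rw [this]; field_simp; norm_num
  rw [integral_sub hYi hDi]
  linarith

end Crest.Agent.R151.G338
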