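import Crest.Agent.R151.G338k
import Crest.Agent.R151.G338b

/-!
# R151 (S0214 part 2): (T1), (T2) for a fixed outer row (helper338)

* `offv F g c η`, `dOv F y g` : offset of the inner row, displacement of the outer row;
* `Geo h y g c Λ L` : numerical conditions;
* `Rt h d I s s'` : routes exist (for all offsets, environments, phases);
* observables `obK`, `obD`, `obJ`, `obG`, `obLo`, `obUp`;
* `T1p`, `T2p`.
-/

set_option autoImplicit false
set_option linter.unusedSectionVars false

open MeasureTheory Filter ProbabilityTheory Topology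
open scoped ENNReal
open Crest.ProbabilityR.FirstPassage

namespace Crest.Agent.R151

namespace Q

open K R78 B710 G338 M192

variable {μ : ℝ × ℝ → ℝ} {F : FlatData μ}

/-- offset of the inner row relative to the outer row -/
noncomputable def offv (F : FlatData μ) (g c : ℝ) (η : ℝ × ℝ) : ℝ × ℝ := (g • F.b + c • F.a) + η

/-- displacement of the outer row -/
noncomputable def dOv (F : FlatData μ) (y g : ℝ) : ℝ × ℝ := (y + 2 * g) • F.b

lemma al_offv (g c : ℝ) (η : ℝ × ℝ) : F.al (offv F g c η) = c + F.al η := by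
  simp [offv]

lemma be_offv (g c : ℝ) (η : ℝ × ℝ) : F.be (offv F g c η) = g + F.be η := by
  simp [offv]

lemma al_dOv (y g : ℝ) : F.al (dOv F y g) = 0 := by simp [dOv]

lemma be_dOv (y g : ℝ) : F.be (dOv F y g) = y + 2 * g := by simp [dOv]

lemma al_dU (y g c : ℝ) (η : ℝ × ℝ) :
    F.al (Hwy.dU (offv F g c η) (y • F.b) (dOv F y g)) = -c - F.al η := by
  unfold Hwy.dU
  rw [map_sub, map_sub, al_offv, al_dOv]
  simp
  ring

lemma be_dU (y g c : ℝ) (η : ℝ × ℝ) :
    F.be (Hwy.dU (offv F g c η) (y • F.b) (dOv F y g)) = g - F.be η := by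
  unfold Hwy.dU
  rw [map_sub, map_sub, be_offv, be_dOv]
  simp
  ring

/-- numerical conditions for an outer row (height `y + 2 g`, window `Λ`, gauge `L`) and an inner row
(height `y`, moved by `c`) -/
structure Geo (h : Hwy F) (y g c Λ L : ℝ) : Prop where
  g_big : h.wH + cF F < g
  y_big : h.wH < y
  Λ_nonneg : 0 ≤ Λ
  win : Λ + |c| + 2 * cF F + h.κ < L

variable {h : Hwy F} {y g c Λ L : ℝ} {η : ℝ × ℝ}

lemma Geo.sep4 (hg : Geo h y g c Λ L) (hη : ‖η‖ ≤ 1) :
    h.Sep4 (offv F g c η) (y • F.b) (dOv F y g) := by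
  have h1 := abs_le.1 (abs_be_le' F hη)
  have h2 := hg.g_big
  exact
    { lo := by rw [be_offv]; linarith [h1.1]
      mid := by simpa using hg.y_big
      up := by rw [be_dU]; linarith [h1.2] }

lemma Geo.winC (hg : Geo h y g c Λ L) (hη : ‖η‖ ≤ 1) :
    h.WinC (offv F g c η) (y • F.b) (dOv F y g) Λ L := by
  have h1 := abs_le.1 (abs_al_le' F hη)
  have h2 := hg.win
  have h3 : |c + F.al η| ≤ |c| + cF F :=
    (abs_add_le _ _).trans (add_le_add le_rfl (abs_al_le' F hη))
  have h4 : |-c - F.al η| ≤ |c| + cF F := by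
    rw [show -c - F.al η = -(c + F.al η) by ring, abs_neg]; exact h3
  have h5 := h.κ_nonneg
  have h6 := cF_nonneg F
  have h7 := hg.Λ_nonneg
  exact
    { L1 := by rw [al_offv]; linarith
      L2 := by
        rw [al_offv]
        have : F.al (y • F.b) = 0 := by simp
        rw [this, add_zero]; linarith
      L3 := by rw [al_dU]; linarith
      Λ_nonneg := h7 }

/-- the inner row does not read the strips of the outer highways -/
lemma Geo.disj (hg : Geo h y g c Λ L) (θ : ℝ × ℝ) (hη : ‖η‖ ≤ 1) :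
    Disjoint (V.E0 h (dOv F y g) θ) (edgesIn (h.band (y • F.b) (θ - offv F g c η))) := by
  have h1 := abs_le.1 (abs_be_le' F hη)
  have h2 := hg.g_big
  have h3 := h.wH_nonneg'
  rw [Set.disjoint_left]
  intro e he he'
  induction e with
  | h x z =>
    rw [mem_edgesIn] at he'
    have hb := he'.1
    have e1 : F.be (pos (θ - offv F g c η) x) = F.be (pos θ x) - (g + F.be η) := by
      rw [Hwy.be_pos_sub' F _ θ x, be_offv]
    have hb1 : -(h.wH / 2) ≤ F.be (pos (θ - offv F g c η) x) := hb.1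
    have hb2 : F.be (pos (θ - offv F g c η) x) ≤ F.be (y • F.b) + h.wH / 2 := hb.2
    have e2 : F.be (y • F.b) = y := by simp
    rw [e1] at hb1 hb2
    rw [e2] at hb2
    rcases he with he | he
    · rw [mem_edgesIn] at he
      have hx : |F.be (pos θ x)| ≤ h.wH / 2 := he.1
      rw [abs_le] at hx
      linarith [hx.2, h1.1]
    · rw [mem_edgesIn] at he
      have hx : |F.be (pos (θ - dOv F y g) x)| ≤ h.wH / 2 := he.1
      rw [Hwy.be_pos_sub' F _ θ x, be_dOv, abs_le] at hx
      linarith [hx.1, h1.2]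

/-- routes exist for all offsets, environments and phases -/
def Rt (h : Hwy F) (d : ℝ × ℝ) (I : Set ℝ) (s s' : ℝ) : Prop :=
  ∀ θ t φ, (routes t (h.Lo θ t φ) (h.Up d θ t φ) (rg F I θ) (h.iL s θ t φ)
    (h.iU d s' θ t φ)).Nonempty

/-! ### Observables -/

/-- the window -/
def Jw (Λ : ℝ) : Set ℝ := Set.Icc (-Λ) Λ

lemma abs_le_of_mem_Jw {Λ x : ℝ} (hx : x ∈ Jw Λ) : |x| ≤ Λ := abs_le.2 hx

/-- gauge difference -/
noncomputable def obK (h : Hwy F) (y g c Λ L : ℝ) : Ob := fun θ t φ r =>
  h.K0 (offv F g c r.1) (y • F.b) (dOv F y g) (Jw Λ) L θ t φ r.2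

/-- deviations from the shape around the base points of the outer row -/
noncomputable def obD (F : FlatData μ) (y g : ℝ) (N : ℕ) : Ob := fun θ t _ _ =>
  max (devB μ N θ t) (devB μ N (θ - dOv F y g) t)

/-- gauge over the window minus gauge over the plane -/
noncomputable def obJ (h : Hwy F) (y g Λ L : ℝ) : Ob := fun θ t φ _ =>
  h.hk (dOv F y g) (Jw Λ) (-L) L θ t φ - h.hk (dOv F y g) Set.univ (-L) L θ t φ

/-- gauge minus a function of the strips -/
noncomputable def obG (h : Hwy F) (y g L : ℝ) (ρ : RowS → ℝ) : Ob := fun θ t φ _ =>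
  h.hk (dOv F y g) Set.univ (-L) L θ t φ - ρ ((θ, t), φ)

/-- error of a fence of the lower gap, crossings in `al ∈ Icc α β` -/
noncomputable def obLo (h : Hwy F) (g c α β L s s₁ : ℝ) : Ob := fun θ t φ r =>
  h.gE (offv F g c r.1) (Set.Icc α β) L s s₁ θ t (Hwy.φlo φ r.2)

/-- error of a fence of the upper gap, crossings in `al ∈ Icc α β` (coordinates of the outer row) -/
noncomputable def obUp (h : Hwy F) (y g c α β L s₂ s' : ℝ) : Ob := fun θ t φ r =>
  h.gE (Hwy.dU (offv F g c r.1) (y • F.b) (dOv F y g))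
    (Set.Icc (α - F.al (offv F g c r.1) - F.al (y • F.b))
      (β - F.al (offv F g c r.1) - F.al (y • F.b))) L s₂ s'
    (θ - offv F g c r.1 - y • F.b) t (Hwy.φup φ r.2)

/-- `R#` of the outer row `q` -/
noncomputable def sko (h : Hwy F) (y g : ℝ) (I : Set ℝ) (L s s' : ℝ) (q : RowS) : ℝ :=
  h.sk (dOv F y g) I Set.univ L s s' q.1.1 q.1.2 q.2

/-- `R#` of the inner row -/
noncomputable def ski (h : Hwy F) (y : ℝ) (I : Set ℝ) (L s s' : ℝ) (q : RowS) : ℝ :=
  h.sk (y • F.b) I Set.univ L s s' q.1.1 q.1.2 q.2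

/-- the outer row with fresh weights off the strips -/
noncomputable def rsp (h : Hwy F) (y g : ℝ) (p r : RowS) : RowS :=
  ((p.1.1, cenv h (dOv F y g) p r), p.2)

/-! ### Log-concavity -/

lemma logConc_surv_of_LC {Ω : Type*} [MeasurableSpace Ω] {P : Measure Ω} {X : Ω → ℝ}
    (hX : V.LC P X) : LogConc (surv P X) := by
  intro a b t h0 h1
  rcases h0.eq_or_lt with rfl | h0
  · simp
  rcases h1.eq_or_lt with rfl | h1
  · simp
  exact hX a b t h0 h1

lemma logConc_mp {Ω Ω' : Type*} [MeasurableSpace Ω] [MeasurableSpace Ω'] {P : Measure Ω}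
    {P' : Measure Ω'} {f : Ω → Ω'} (hf : MeasurePreserving f P P') {X : Ω' → ℝ}
    (hX : Measurable X) (hl : LogConc (surv P' X)) : LogConc (surv P (fun ω => X (f ω))) := by
  have : surv P (fun ω => X (f ω)) = surv P' X := by
    funext x
    unfold surv Measure.real
    rw [← hf.measure_preimage (measurableSet_le measurable_const hX).nullMeasurableSet]
    rfl
  rw [this]
  exact hl

lemma mp_env {G : Measure ℝ} [IsProbabilityMeasure G] :
    MeasurePreserving (fun r : RowS => r.1.2) (PR G) (iidLaw G) := by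
  have h1 : MeasurePreserving (Prod.fst : RowS → _) (PR G) (P0 G) := measurePreserving_fst
  have h2 : MeasurePreserving (Prod.snd : (ℝ × ℝ) × Environment → _) (P0 G) (iidLaw G) :=
    measurePreserving_snd
  exact h2.comp h1

/-- the hull of the outer row is log-concave given the strips -/
theorem logConc_out {r₀ : ℝ} (hr : 0 < r₀) [IsProbabilityMeasure (gammaMeasure 1 r₀)] (h : Hwy F)
    (y g : ℝ) {I : Set ℝ} (hI : MeasurableSet I) {s s' : ℝ} (p : RowS) (hp : Nn p.1.2)
    (hne : Rt h (dOv F y g) I s s') (ρ : ℝ) :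
    LogConc (surv (PR (gammaMeasure 1 r₀)) fun r =>
      h.hk (dOv F y g) I s s' (rsp h y g p r).1.1 (rsp h y g p r).1.2 (rsp h y g p r).2 - ρ) := by
  have h1 := V.LC_hk h hr hp (dOv F y g) I s s' p.1.1 p.2 (hne _ _ _)
  have h2 := logConc_surv_of_LC (h1.sub_const ρ)
  have hm : Measurable fun t : Environment =>
      h.hk (dOv F y g) I s s' p.1.1 (V.glue (V.E0 h (dOv F y g) p.1.1) p.1.2 t) p.2 - ρ := by
    have : Measurable fun t : Environment => V.glue (V.E0 h (dOv F y g) p.1.1) p.1.2 t :=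
      (V.measurable_glue (V.E0 h (dOv F y g) p.1.1)).comp (measurable_const.prodMk measurable_id)
    exact (h.meas_hk measurable_const this measurable_const (dOv F y g) hI s s').sub_const ρ
  exact logConc_mp mp_env hm h2

/-! ### Almost sure facts on the fresh space -/

lemma ae_jit {G : Measure ℝ} [IsProbabilityMeasure G] : ∀ᵐ r ∂(PR G), ‖r.1.1‖ ≤ 1 := by
  have h2 : ∀ᵐ x ∂(P0 G), ‖x.1‖ ≤ 1 := by
    have := Measure.quasiMeasurePreserving_fst (μ := UU2) (ν := iidLaw G) |>.ae ae_UU2
    exact this.mono fun x hx => norm_jitter hx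
  exact Measure.quasiMeasurePreserving_fst.ae h2

lemma nn_cenv {h : Hwy F} {d : ℝ × ℝ} {p r : RowS} (hp : Nn p.1.2) (hr : Nn r.1.2) :
    Nn (cenv h d p r) := fun e => V.glue_nonneg hp hr e

lemma ae_nn_fresh {G : Measure ℝ} [IsProbabilityMeasure G] (hG : ∀ᵐ t ∂(iidLaw G), Nn t) :
    ∀ᵐ r ∂(PR G), Nn r.1.2 := mp_env.quasiMeasurePreserving.ae hG

end Q

end Crest.Agent.R151
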