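import Crest.Agent.R151.U450n
import Crest.Agent.R151.G338l

/-!
# R151 / S0214 part 2, U450o — (M1) in the names of 338: the observable `obK` (helper450)
-/

set_option autoImplicit false

open MeasureTheory Filter ProbabilityTheory Topology
open Crest.ProbabilityR.FirstPassage

namespace Crest.Agent.R151.M1

open Crest.Agent.R151.K Crest.Agent.R151.Q
open M56 (nu mg)
open M192 (RowS PR)
open B710 (FlatData)

variable {μ : ℝ × ℝ → ℝ} {F : FlatData μ} {G : Measure ℝ} [IsProbabilityMeasure G]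

lemma measurable_offv (g c : ℝ) : Measurable (offv F g c) := by
  unfold offv
  exact measurable_id.const_add _

lemma obK_meas (h : Hwy F) (y g c Λ L : ℝ) : (obK h y g c Λ L).Meas :=
  measurable_K0 h (measurable_offv g c) (y • F.b) (dOv F y g) measurableSet_Icc L

/-- **(M1)** for the observable `obK` -/
theorem obK_mean {h : Hwy F} (h0 : G (Set.Iio 0) = 0) (h2 : Integrable (fun x : ℝ => x ^ 2) G)
    {ε : ℝ} (hM : HwyMean G h ε) (hμ : IsTC G μ) {y g c Λ L : ℝ} (hg : Geo h y g c Λ L)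
    (hy : h.wH + 2 * mg F < y) (hΛ : mg F ≤ Λ) :
    Integrable (fun q : RowS × ((ℝ × ℝ) × (ℝ × ℝ)) =>
      obK h y g c Λ L q.1.1.1 q.1.1.2 q.1.2 q.2) ((PR G).prod PF) ∧
    ∫ q, |obK h y g c Λ L q.1.1.1 q.1.1.2 q.1.2 q.2| ∂((PR G).prod PF) ≤
      ∫ q, h.hkY (dOv F y g) (Jw Λ) (-L) L q.1.1 q.1.2 q.2 ∂(PR G) + 4 * L * ε := by
  have h3 := hg.win
  have h4 := hg.Λ_nonneg
  have h5 := h.κ_nonneg
  have h6 := cF_nonneg F
  have h7 := abs_nonneg c
  exact K0_mean (G := G) h0 h2 hM hμ (measurable_offv g c) (dI := y • F.b) (dO := dOv F y g)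
    (J := Jw Λ) measurableSet_Icc
    (fun η hη => hg.sep4 (norm_jitter hη)) (fun η hη => hg.winC (norm_jitter hη))
    (fun x hx => abs_le_of_mem_Jw hx) (by simpa using hy) (σ₁ := 0) (σ₂ := 0)
    (by linarith) (by rw [al_dOv]; linarith)
    (by
      rw [min_self, max_self]
      unfold Jw
      exact Set.Icc_subset_Icc (by linarith) (by linarith))

end Crest.Agent.R151.M1
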