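import Crest.Agent.R151.G338i

/-!
# R151 (S0214 part 2): closeness of an outer row and an inner row, (6.3) (helper338)
-/

set_option autoImplicit false
set_option linter.unusedSectionVars false

open MeasureTheory Filter ProbabilityTheory Topology
open Crest.ProbabilityR.FirstPassage

namespace Crest.Agent.R151

namespace Q

open K R78 B710 G338 M192

variable {μ : ℝ × ℝ → ℝ} {F : FlatData μ}

lemma al_pos_sub2 (F : FlatData μ) (d θ : ℝ × ℝ) (z : ℤ × ℤ) :
    F.al (pos (θ - d) z) = F.al (pos θ z) - F.al d := by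
  unfold pos
  rw [← map_sub]
  congr 1
  abel

lemma rg_Icc_sub (F : FlatData μ) (α β : ℝ) (off θ : ℝ × ℝ) :
    rg F (Set.Icc (α - F.al off) (β - F.al off)) (θ - off) = rg F (Set.Icc α β) θ := by
  ext v
  simp only [rg, Set.mem_ofPred_eq, Set.mem_Icc]
  rw [al_pos_sub2]
  constructor
  · rintro ⟨h1, h2⟩; constructor <;> linarith
  · rintro ⟨h1, h2⟩; constructor <;> linarith

namespace Hwy

variable {h : Hwy F} {off dI dO : ℝ × ℝ} {θ : ℝ × ℝ} {t : Environment} {φ φ₁ : ℝ × ℝ}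

/-- monotonicity of the hull kernel in the region and in the labels -/
lemma hk_mono (ht : Nn t) (d : ℝ × ℝ) {I I' : Set ℝ} (hI : I ⊆ I') {s s₁ s' s₁' : ℝ} (hs : s₁ ≤ s)
    (hs' : s' ≤ s₁') (hne : (routes t (h.Lo θ t φ) (h.Up d θ t φ) (rg F I θ) (h.iL s θ t φ)
      (h.iU d s' θ t φ)).Nonempty) :
    h.hk d I' s₁ s₁' θ t φ ≤ h.hk d I s s' θ t φ :=
  hull_mono (bddBelow_routes ht _ _ _ _ _) hne (fun _ hv => hI hv) (h.ix_mono hs _ _ _)
    (h.ix_mono hs' _ _ _)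

/-- the gap fence error: hull over a fence minus the gauge -/
noncomputable def gE (h : Hwy F) (d : ℝ × ℝ) (I : Set ℝ) (L s s' : ℝ) (θ : ℝ × ℝ)
    (t : Environment) (φ : ℝ × ℝ) : ℝ :=
  h.hk d I s s' θ t φ - h.gK d (-L) L θ t φ

lemma gE_nonneg (ht : Nn t) {d : ℝ × ℝ} {I : Set ℝ} {L s s' : ℝ} (hs : -L ≤ s) (hs' : s' ≤ L)
    (hne : (routes t (h.Lo θ t φ) (h.Up d θ t φ) (rg F I θ) (h.iL s θ t φ)
      (h.iU d s' θ t φ)).Nonempty) : 0 ≤ h.gE d I L s s' θ t φ := by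
  have h1 := gapK_le_hull ht (h.isHwy φ.1 θ t) (h.isHwy φ.2 (θ - d) t) hne
  have h2 := gapK_mono ht (h.isHwy φ.1 θ t) (h.isHwy φ.2 (θ - d) t)
    (h.ix_mono hs φ.1 θ t) (h.ix_mono hs' φ.2 (θ - d) t)
  unfold gE
  have e1 : h.hk d I s s' θ t φ = hull t (h.Lo θ t φ) (h.Up d θ t φ) (rg F I θ) (h.iL s θ t φ)
      (h.iU d s' θ t φ) := rfl
  have e2 : h.gK d (-L) L θ t φ = gapK t (h.H φ.1 θ t) (h.H φ.2 (θ - d) t) (h.ix (-L) φ.1 θ t)
      (h.ix L φ.2 (θ - d) t) := rfl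
  rw [e1, e2]
  exact sub_nonneg.2 (h2.trans h1)

/-- (6.3) -/
theorem upper_close (ht : Nn t) (hs : h.Sep4 off dI dO) {α β s s₁ s₂ s' L : ℝ} (J : Set ℝ)
    (hne0 : (routes t (h.Lo θ t φ) (h.Up off θ t (φlo φ φ₁)) (rg F (Set.Icc α β) θ)
      (h.iL s θ t φ) (h.iU off s₁ θ t (φlo φ φ₁))).Nonempty)
    (hne1 : (routes t (h.Lo (θ - off) t φ₁) (h.Up dI (θ - off) t φ₁)
      (rg F (Set.Icc (α - F.al off) (β - F.al off)) (θ - off))
      (h.iL s₁ (θ - off) t φ₁) (h.iU dI s₂ (θ - off) t φ₁)).Nonempty)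
    (hne2 : (routes t (h.Lo (θ - off - dI) t (φup φ φ₁))
      (h.Up (dU off dI dO) (θ - off - dI) t (φup φ φ₁))
      (rg F (Set.Icc (α - F.al off - F.al dI) (β - F.al off - F.al dI)) (θ - off - dI))
      (h.iL s₂ (θ - off - dI) t (φup φ φ₁))
      (h.iU (dU off dI dO) s' (θ - off - dI) t (φup φ φ₁))).Nonempty) :
    h.hk dO (Set.Icc (α - h.κ) (β + h.κ)) s s' θ t φ - h.hk dO J (-L) L θ t φ ≤
      h.gE off (Set.Icc α β) L s s₁ θ t (φlo φ φ₁) +
        h.sk dI (Set.Icc (α - F.al off) (β - F.al off)) Set.univ L s₁ s₂ (θ - off) t φ₁ +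
        h.gE (dU off dI dO) (Set.Icc (α - F.al off - F.al dI) (β - F.al off - F.al dI)) L s₂ s'
          (θ - off - dI) t (φup φ φ₁) +
        h.K0 off dI dO J L θ t φ φ₁ := by
  have hκ := h.κ_nonneg
  set i : ℕ → ℤ := fun k => match k with
    | 0 => h.iL s θ t φ
    | 1 => h.iL s₁ (θ - off) t φ₁
    | 2 => h.iU dI s₂ (θ - off) t φ₁
    | _ => h.iU dO s' θ t φ with hi
  have r1 : rg F (Set.Icc (α - F.al off) (β - F.al off)) (θ - off) = rg F (Set.Icc α β) θ :=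
    rg_Icc_sub F α β off θ
  have r2 : rg F (Set.Icc (α - F.al off - F.al dI) (β - F.al off - F.al dI)) (θ - off - dI) =
      rg F (Set.Icc α β) θ := by
    rw [rg_Icc_sub F (α - F.al off) (β - F.al off) dI (θ - off), r1]
  have eU := Lo_up_gap h off dI dO θ t φ φ₁
  have eI := iU_up_gap h off dI dO θ t φ φ₁ s'
  rw [r1] at hne1
  rw [r2, eU, eI] at hne2
  have hsum := (hs.tower θ t φ φ₁).hull_le_sum (t := t) (A := rg F (Set.Icc α β) θ)
    (A' := rg F (Set.Icc (α - h.κ) (β + h.κ)) θ)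
    (fun v hv => ⟨by linarith [hv.1], by linarith [hv.2]⟩) 2 i
    (by
      intro k hk1 hk2 w m z hwm hmz hw hz
      interval_cases k
      · -- lower inner highway
        have hw' : α ≤ F.al (pos θ (h.Lo (θ - off) t φ₁ w)) := hw.1
        have hz' : F.al (pos θ (h.Lo (θ - off) t φ₁ z)) ≤ β := hz.2
        have b1 := h.back φ₁.1 (θ - off) t w m hwm
        have b2 := h.back φ₁.1 (θ - off) t m z hmz
        rw [al_pos_sub2, al_pos_sub2] at b1 b2
        have c1 : F.al (pos θ (h.Lo (θ - off) t φ₁ w)) = F.al (pos θ (h.H φ₁.1 (θ - off) t w)) := rfl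
        have c2 : F.al (pos θ (h.Lo (θ - off) t φ₁ z)) = F.al (pos θ (h.H φ₁.1 (θ - off) t z)) := rfl
        refine ⟨?_, ?_⟩
        · show α - h.κ ≤ F.al (pos θ (h.H φ₁.1 (θ - off) t m))
          linarith
        · show F.al (pos θ (h.H φ₁.1 (θ - off) t m)) ≤ β + h.κ
          linarith
      · have hw' : α ≤ F.al (pos θ (h.Up dI (θ - off) t φ₁ w)) := hw.1
        have hz' : F.al (pos θ (h.Up dI (θ - off) t φ₁ z)) ≤ β := hz.2
        have b1 := h.back φ₁.2 (θ - off - dI) t w m hwm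
        have b2 := h.back φ₁.2 (θ - off - dI) t m z hmz
        rw [al_pos_sub2, al_pos_sub2, al_pos_sub2, al_pos_sub2] at b1 b2
        have c1 : F.al (pos θ (h.Up dI (θ - off) t φ₁ w)) =
          F.al (pos θ (h.H φ₁.2 (θ - off - dI) t w)) := rfl
        have c2 : F.al (pos θ (h.Up dI (θ - off) t φ₁ z)) =
          F.al (pos θ (h.H φ₁.2 (θ - off - dI) t z)) := rfl
        refine ⟨?_, ?_⟩
        · show α - h.κ ≤ F.al (pos θ (h.H φ₁.2 (θ - off - dI) t m))
          linarith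
        · show F.al (pos θ (h.H φ₁.2 (θ - off - dI) t m)) ≤ β + h.κ
          linarith)
    (by
      intro k hk
      interval_cases k
      · exact hne0
      · exact hne1
      · exact hne2)
    (bddBelow_routes ht _ _ _ _ _)
  have e3 : ∑ k ∈ Finset.range (2 + 1), hull t (four h off dI dO θ t φ φ₁ k)
      (four h off dI dO θ t φ φ₁ (k + 1)) (rg F (Set.Icc α β) θ) (i k) (i (k + 1)) =
      h.hk off (Set.Icc α β) s s₁ θ t (φlo φ φ₁) +
      h.hk dI (Set.Icc (α - F.al off) (β - F.al off)) s₁ s₂ (θ - off) t φ₁ +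
      h.hk (dU off dI dO) (Set.Icc (α - F.al off - F.al dI) (β - F.al off - F.al dI)) s₂ s'
          (θ - off - dI) t (φup φ φ₁) := by
    rw [Finset.sum_range_succ, Finset.sum_range_succ, Finset.sum_range_one]
    unfold hk
    rw [r1, r2, eU, eI]
    rfl
  rw [e3] at hsum
  have e4 : hull t (four h off dI dO θ t φ φ₁ 0) (four h off dI dO θ t φ φ₁ (2 + 1))
      (rg F (Set.Icc (α - h.κ) (β + h.κ)) θ) (i 0) (i (2 + 1)) =
      h.hk dO (Set.Icc (α - h.κ) (β + h.κ)) s s' θ t φ := rfl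
  rw [e4] at hsum
  unfold gE sk K0
  linarith

end Hwy

end Q

end Crest.Agent.R151
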