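import Crest.Agent.R151.V17
import Crest.Agent.R151.G338j

/-!
# R151/V18 — the `S`-measurable gauge from two far lanes, `SData` for the real row (helper52)

* `rhoR` : conditional mean on the one-row space; `R8_row` (R8 on the one-row space);
* `far_rho` : gauge `hk d univ (-L) L`, two disjoint far lanes: there is `ρ`, `S`-measurable and
  invariant, with `∫ |gauge - ρ| ≤ 3 B`;
* `sdata_hk` : `SData` for (`hk d I s s'`, gauge).
-/

set_option autoImplicit false
set_option linter.unusedSectionVars false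

open MeasureTheory ProbabilityTheory Set
open scoped ENNReal
open Crest.ProbabilityR.FirstPassage

namespace Crest.Agent.R151.V

open Crest.Agent.R151.K
open R78 (routes hull)
open Q (pos Hwy P0 UU UU2 phi rg Inv)
open M192 (Row mIL)
open B710 (FlatData)

section rowR8

variable {Φ : Type*} [MeasurableSpace Φ] {E : ℝ × ℝ → Set (Sym2 (ℤ × ℤ))}
  {G : Measure ℝ} [IsProbabilityMeasure G] {ν : Measure Φ} [IsProbabilityMeasure ν]

/-- conditional mean given `σ(S)` -/
noncomputable def rhoR (G : Measure ℝ) (E : ℝ × ℝ → Set (Sym2 (ℤ × ℤ))) (g : Row Φ → ℝ)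
    (p : Row Φ) : ℝ := ∫ t, g (cs E p t) ∂(iidLaw G)

@[simp] lemma rhoR_cs (g : Row Φ → ℝ) (p : Row Φ) (t : Environment) :
    rhoR G E g (cs E p t) = rhoR G E g p := by
  unfold rhoR
  simp only [cs_cs]

lemma measurable_rhoR (hE : ∀ e, MeasurableSet {θ | e ∈ E θ}) {g : Row Φ → ℝ}
    (hg : Measurable g) : Measurable (rhoR G E g) := by
  have h1 : Measurable (fun x : Row Φ × Environment => g (cs E x.1 x.2)) :=
    hg.comp (measurable_cs hE)
  exact h1.stronglyMeasurable.integral_prod_right.measurable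

lemma integrable_rhoR (hE : ∀ e, MeasurableSet {θ | e ∈ E θ}) {g : Row Φ → ℝ}
    (hg : Integrable g ((P0 G).prod ν)) : Integrable (rhoR G E g) ((P0 G).prod ν) :=
  (integrable_cs hE hg).integral_prod_left

lemma integral_rhoR (hE : ∀ e, MeasurableSet {θ | e ∈ E θ}) {g : Row Φ → ℝ}
    (hg : Integrable g ((P0 G).prod ν)) :
    ∫ p, rhoR G E g p ∂((P0 G).prod ν) = ∫ p, g p ∂((P0 G).prod ν) :=
  integral_cs hE hg

lemma inv_rhoR (hEc : ECov E) {g : Row Φ → ℝ} (hg : Measurable g)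
    (hgi : ∀ φ, Inv fun θ t => g ((θ, t), φ)) (φ : Φ) :
    Inv fun θ t => rhoR G E g ((θ, t), φ) := by
  intro m θ t
  unfold rhoR
  simp only
  have h1 : ∫ t', g (cs E ((θ + toR m, act (tr m) t), φ) t') ∂(iidLaw G) =
      ∫ t', g (cs E ((θ + toR m, act (tr m) t), φ) (act (tr m) t')) ∂(iidLaw G) := by
    have h2 := (mp_act (G := G) (tr m)).map_eq
    conv_lhs => rw [← h2]
    rw [integral_map (mp_act (G := G) (tr m)).measurable.aemeasurable]
    rw [h2]
    exact (hg.comp (measurable_cs_right E _)).aestronglyMeasurable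
  rw [h1]
  refine integral_congr_ae (ae_of_all _ fun t' => ?_)
  simp only
  rw [cs_act hEc]
  exact hgi φ m θ (glue (E θ) t t')

lemma depends_glue {f : Environment → ℝ} {E0 F0 : Set (Sym2 (ℤ × ℤ))} {s : Environment}
    (hh : DependsOn f (E0 ∪ F0)) : DependsOn (fun t => f (glue E0 s t)) F0 := by
  intro t t' htt
  apply hh
  intro e he
  by_cases heE : e ∈ E0
  · rw [glue_of_mem heE, glue_of_mem heE]
  · rw [glue_of_notMem heE, glue_of_notMem heE]
    rcases he with he | he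
    · exact absurd he heE
    · exact htt e he

/-- conditionally independent `f`, `g`: `E |f - E (g | S)| ≤ E |f - g|` -/
theorem cond_indep_row (hE : ∀ e, MeasurableSet {θ | e ∈ E θ})
    {E1 E2 : ℝ × ℝ → Set (Sym2 (ℤ × ℤ))} (hd : ∀ θ, Disjoint (E1 θ) (E2 θ)) {f g : Row Φ → ℝ}
    (hf : Measurable f) (hg : Measurable g)
    (hfE : ∀ θ φ, DependsOn (fun t => f ((θ, t), φ)) (E θ ∪ E1 θ))
    (hgE : ∀ θ φ, DependsOn (fun t => g ((θ, t), φ)) (E θ ∪ E2 θ))
    (hfi : Integrable f ((P0 G).prod ν)) (hgi : Integrable g ((P0 G).prod ν)) :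
    ∫ p, |f p - rhoR G E g p| ∂((P0 G).prod ν) ≤ ∫ p, |f p - g p| ∂((P0 G).prod ν) := by
  have hρ := integrable_rhoR (G := G) hE hgi
  have h1 := integral_cs (G := G) (ν := ν) hE (hfi.sub hρ).abs
  have h2 := integral_cs (G := G) (ν := ν) hE (hfi.sub hgi).abs
  simp only [Pi.sub_apply] at h1 h2
  rw [← h1, ← h2]
  refine integral_mono_ae (integrable_cs hE (hfi.sub hρ).abs).integral_prod_left
    (integrable_cs hE (hfi.sub hgi).abs).integral_prod_left ?_
  filter_upwards [(integrable_cs hE hfi).prod_right_ae, (integrable_cs hE hgi).prod_right_ae]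
    with p hp1 hp2
  simp only [rhoR_cs]
  have h3 := cond_indep_fixed (G := G) (E p.1.1) (E1 p.1.1) (E2 p.1.1) (hd p.1.1)
    (f := fun t => f ((p.1.1, t), p.2)) (g := fun t => g ((p.1.1, t), p.2))
    (hf.comp ((measurable_const.prodMk measurable_id).prodMk measurable_const))
    (hg.comp ((measurable_const.prodMk measurable_id).prodMk measurable_const))
    (hfE _ _) (hgE _ _) p.1.2 hp1 hp2
  exact h3

/-- **R8** on the one-row space -/
theorem R8_row (hE : ∀ e, MeasurableSet {θ | e ∈ E θ})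
    {E1 E2 : ℝ × ℝ → Set (Sym2 (ℤ × ℤ))} (hd : ∀ θ, Disjoint (E1 θ) (E2 θ))
    {R V1 V2 : Row Φ → ℝ} (hV1 : Measurable V1) (hV2 : Measurable V2)
    (hV1E : ∀ θ φ, DependsOn (fun t => V1 ((θ, t), φ)) (E θ ∪ E1 θ))
    (hV2E : ∀ θ φ, DependsOn (fun t => V2 ((θ, t), φ)) (E θ ∪ E2 θ))
    (hRi : Integrable R ((P0 G).prod ν)) (hV1i : Integrable V1 ((P0 G).prod ν))
    (hV2i : Integrable V2 ((P0 G).prod ν))
    (h1 : ∀ᵐ p ∂((P0 G).prod ν), R p ≤ V1 p) (h2 : ∀ᵐ p ∂((P0 G).prod ν), R p ≤ V2 p)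
    {B : ℝ} (hB1 : ∫ p, V1 p ∂((P0 G).prod ν) ≤ ∫ p, R p ∂((P0 G).prod ν) + B)
    (hB2 : ∫ p, V2 p ∂((P0 G).prod ν) ≤ ∫ p, R p ∂((P0 G).prod ν) + B) :
    ∫ p, |R p - rhoR G E V2 p| ∂((P0 G).prod ν) ≤ 3 * B := by
  set P := (P0 G).prod ν with hP
  have hρ := integrable_rhoR (G := G) hE hV2i
  have a1 : ∫ p, |R p - V1 p| ∂P ≤ B := by
    have : ∫ p, |R p - V1 p| ∂P = ∫ p, (V1 p - R p) ∂P := by
      apply integral_congr_ae
      filter_upwards [h1] with p hp
      rw [abs_of_nonpos (by linarith)]; ring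
    rw [this, integral_sub hV1i hRi]; linarith
  have a2 : ∫ p, |R p - V2 p| ∂P ≤ B := by
    have : ∫ p, |R p - V2 p| ∂P = ∫ p, (V2 p - R p) ∂P := by
      apply integral_congr_ae
      filter_upwards [h2] with p hp
      rw [abs_of_nonpos (by linarith)]; ring
    rw [this, integral_sub hV2i hRi]; linarith
  have a3 : ∫ p, |V1 p - V2 p| ∂P ≤ 2 * B := by
    calc ∫ p, |V1 p - V2 p| ∂P
        ≤ ∫ p, (|R p - V1 p| + |R p - V2 p|) ∂P := by
          apply integral_mono (hV1i.sub hV2i).abs ((hRi.sub hV1i).abs.add (hRi.sub hV2i).abs)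
          intro p
          have := abs_sub_le (V1 p) (R p) (V2 p)
          rw [abs_sub_comm (V1 p) (R p)] at this
          exact this
      _ = _ := integral_add (hRi.sub hV1i).abs (hRi.sub hV2i).abs
      _ ≤ 2 * B := by linarith
  have a4 := cond_indep_row (G := G) (ν := ν) hE hd hV1 hV2 hV1E hV2E hV1i hV2i
  calc ∫ p, |R p - rhoR G E V2 p| ∂P
      ≤ ∫ p, (|R p - V1 p| + |V1 p - rhoR G E V2 p|) ∂P := by
        apply integral_mono (hRi.sub hρ).abs ((hRi.sub hV1i).abs.add (hV1i.sub hρ).abs)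
        intro p
        exact abs_sub_le (R p) (V1 p) _
    _ = _ := integral_add (hRi.sub hV1i).abs (hV1i.sub hρ).abs
    _ ≤ 3 * B := by linarith

/-- constructor of `SData` from an integrable difference only -/
theorem SData.of' {Hh Gg ρ : Row Φ → ℝ} (hE : ∀ e, MeasurableSet {θ | e ∈ E θ})
    (hH : Measurable Hh) (hG : Measurable Gg) (hρ : Measurable ρ)
    (hρS : ∀ p t, ρ (cs E p t) = ρ p)
    (hDi : Integrable (fun p => Gg p - ρ p) ((P0 G).prod ν))
    (lc : ∀ᵐ p ∂((P0 G).prod ν), LC (iidLaw G) (fun t => Hh (cs E p t)))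
    (nonneg : ∀ᵐ p ∂((P0 G).prod ν), 0 ≤ Hh p - Gg p) :
    SData G ν E (fun p => Hh p - ρ p) (fun p => Gg p - ρ p) where
  hE := hE
  hX := hH.sub hρ
  hD := hG.sub hρ
  hDi := hDi
  lc := by
    filter_upwards [lc] with p hp
    have h1 : (fun t => Hh (cs E p t) - ρ (cs E p t)) = fun t => Hh (cs E p t) - ρ p := by
      funext t; rw [hρS]
    rw [h1]
    exact hp.sub_const _
  nonneg := by
    filter_upwards [nonneg] with p hp
    linarith

end rowR8

section hwy

variable {μ : ℝ × ℝ → ℝ} {F : FlatData μ} (h : Hwy F)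

lemma ae_Nn_row {G : Measure ℝ} [IsProbabilityMeasure G] (h0 : G (Set.Iio 0) = 0)
    {Φ : Type*} [MeasurableSpace Φ] (ν : Measure Φ) [IsProbabilityMeasure ν] :
    ∀ᵐ p ∂((P0 G).prod ν), Nn p.1.2 := by
  have h1 : MeasurePreserving (fun p : ((ℝ × ℝ) × Environment) × Φ => p.1.2)
      ((P0 G).prod ν) (iidLaw G) :=
    (measurePreserving_snd (μ := UU2) (ν := iidLaw G)).comp measurePreserving_fst
  exact h1.quasiMeasurePreserving.ae (ae_Nn h0)

/-- routes nonempty, as an event -/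
def NE (d : ℝ × ℝ) (I : Set ℝ) (a b : ℝ) (p : Row (ℝ × ℝ)) : Prop :=
  (routes p.1.2 (h.Lo p.1.1 p.1.2 p.2) (h.Up d p.1.1 p.1.2 p.2) (rg F I p.1.1)
    (h.iL a p.1.1 p.1.2 p.2) (h.iU d b p.1.1 p.1.2 p.2)).Nonempty

/-- the hull kernel as a function on the row space -/
noncomputable def hkR (d : ℝ × ℝ) (I : Set ℝ) (a b : ℝ) (p : Row (ℝ × ℝ)) : ℝ :=
  h.hk d I a b p.1.1 p.1.2 p.2

/-- excess form -/
noncomputable def hkYR (d : ℝ × ℝ) (I : Set ℝ) (a b : ℝ) (p : Row (ℝ × ℝ)) : ℝ :=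
  h.hkY d I a b p.1.1 p.1.2 p.2

lemma measurable_hkR (d : ℝ × ℝ) {I : Set ℝ} (hI : MeasurableSet I) (a b : ℝ) :
    Measurable (hkR h d I a b) :=
  h.meas_hk (measurable_fst.comp measurable_fst) (measurable_snd.comp measurable_fst)
    measurable_snd d hI a b

lemma measurable_hkYR (d : ℝ × ℝ) {I : Set ℝ} (hI : MeasurableSet I) (a b : ℝ) :
    Measurable (hkYR h d I a b) :=
  h.meas_hkY (measurable_fst.comp measurable_fst) (measurable_snd.comp measurable_fst)
    measurable_snd d hI a b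

/-- the S-measurable difference between the excess form and the hull, labels `a`, `b` -/
lemma hkY_sub_hk (d : ℝ × ℝ) (I J : Set ℝ) (a b : ℝ) (p : Row (ℝ × ℝ)) :
    hkYR h d I a b p - hkR h d I a b p = hkYR h d J a b p - hkR h d J a b p := by
  unfold hkYR hkR Hwy.hkY Hwy.hk R78.hullY
  ring

/-- **the `S`-measurable gauge**, from two disjoint far lanes `I1`, `I2` (R8) -/
theorem far_rho {G : Measure ℝ} [IsProbabilityMeasure G] (h0 : G (Set.Iio 0) = 0)
    (d : ℝ × ℝ) (L : ℝ) {I1 I2 : Set ℝ} (hI1 : MeasurableSet I1) (hI2 : MeasurableSet I2)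
    (hI : Disjoint I1 I2)
    (n1 : ∀ᵐ p ∂((P0 G).prod (UU.prod UU)), NE h d I1 (-L) L p) (n2 : ∀ᵐ p ∂((P0 G).prod (UU.prod UU)), NE h d I2 (-L) L p)
    (iR : Integrable (hkYR h d univ (-L) L) ((P0 G).prod (UU.prod UU))) (i1 : Integrable (hkYR h d I1 (-L) L) ((P0 G).prod (UU.prod UU)))
    (i2 : Integrable (hkYR h d I2 (-L) L) ((P0 G).prod (UU.prod UU)))
    (hR0 : 0 ≤ ∫ p, hkYR h d univ (-L) L p ∂((P0 G).prod (UU.prod UU))) {B : ℝ}
    (hB1 : ∫ p, hkYR h d I1 (-L) L p ∂((P0 G).prod (UU.prod UU)) ≤ B)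
    (hB2 : ∫ p, hkYR h d I2 (-L) L p ∂((P0 G).prod (UU.prod UU)) ≤ B) :
    ∃ ρ : Row (ℝ × ℝ) → ℝ, Measurable ρ ∧ (∀ p t, ρ (cs (E0 h d) p t) = ρ p) ∧
      (∀ φ, Inv fun θ t => ρ ((θ, t), φ)) ∧
      Integrable (fun p => hkR h d univ (-L) L p - ρ p) ((P0 G).prod (UU.prod UU)) ∧
      ∫ p, |hkR h d univ (-L) L p - ρ p| ∂((P0 G).prod (UU.prod UU)) ≤ 3 * B := by
  have hE := measurableSet_E0 h d
  set E := E0 h d with hEdef
  set W : Row (ℝ × ℝ) → ℝ := fun p => hkYR h d univ (-L) L p - hkR h d univ (-L) L p with hW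
  have hWm : Measurable W :=
    (measurable_hkYR h d MeasurableSet.univ _ _).sub (measurable_hkR h d MeasurableSet.univ _ _)
  have hWS : ∀ p t, W (cs E p t) = W p := by
    intro p t
    exact hkY_sub_glue h d univ (-L) L p.1.1 p.1.2 t p.2
  refine ⟨fun p => rhoR G E (hkYR h d I2 (-L) L) p - W p, ?_, ?_, ?_, ?_, ?_⟩
  · exact (measurable_rhoR hE (measurable_hkYR h d hI2 _ _)).sub hWm
  · intro p t
    simp only [rhoR_cs, hWS]
  · intro φ m θ t
    have h1 := inv_rhoR (G := G) (eCov_E0 h d) (measurable_hkYR h d hI2 (-L) L)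
      (fun φ => h.hkY_inv d I2 (-L) L φ) φ m θ t
    have h2 := h.hkY_inv d univ (-L) L φ m θ t
    have h3 := h.hk_inv d univ (-L) L φ m θ t
    simp only at h1 h2 h3 ⊢
    rw [h1]
    simp only [hW, hkYR, hkR]
    rw [h2, h3]
  · have e1 : (fun p => hkR h d univ (-L) L p - (rhoR G E (hkYR h d I2 (-L) L) p - W p)) =
        fun p => hkYR h d univ (-L) L p - rhoR G E (hkYR h d I2 (-L) L) p := by
      funext p; simp only [hW]; ring
    rw [e1]
    exact iR.sub (integrable_rhoR hE i2)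
  · have e1 : (fun p => |hkR h d univ (-L) L p - (rhoR G E (hkYR h d I2 (-L) L) p - W p)|) =
        fun p => |hkYR h d univ (-L) L p - rhoR G E (hkYR h d I2 (-L) L) p| := by
      funext p; simp only [hW]; congr 1; ring
    rw [e1]
    have hle : ∀ {I : Set ℝ}, (∀ᵐ p ∂((P0 G).prod (UU.prod UU)), NE h d I (-L) L p) →
        ∀ᵐ p ∂((P0 G).prod (UU.prod UU)), hkYR h d univ (-L) L p ≤ hkYR h d I (-L) L p := by
      intro I hne
      filter_upwards [hne, ae_Nn_row h0 (UU.prod UU)] with p hp hnn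
      have h1 : hkR h d univ (-L) L p ≤ hkR h d I (-L) L p :=
        h.hk_mono hnn d (subset_univ _) le_rfl le_rfl hp
      have h2 := hkY_sub_hk h d univ I (-L) L p
      linarith
    refine R8_row (G := G) (ν := UU.prod UU) hE
      (E1 := fun θ => edgesIn (rg F I1 θ)) (E2 := fun θ => edgesIn (rg F I2 θ))
      (fun θ => disjoint_rg hI θ) (measurable_hkYR h d hI1 _ _) (measurable_hkYR h d hI2 _ _)
      (fun θ φ => dep_hkY h d I1 (-L) L θ φ) (fun θ φ => dep_hkY h d I2 (-L) L θ φ)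
      iR i1 i2 (hle n1) (hle n2) ?_ ?_
    · linarith
    · linarith

/-- **`SData` for the real row**: lane `I`, labels `a → b`, gauge `univ`, labels `-L → L` -/
theorem sdata_hk {r : ℝ} (hr : 0 < r) (d : ℝ × ℝ) {L a b : ℝ} {I : Set ℝ}
    (hI : MeasurableSet I) (ha : -L ≤ a) (hb : b ≤ L)
    (ne : ∀ᵐ p ∂((P0 (gammaMeasure 1 r)).prod (UU.prod UU)), NE h d I a b p) {ρ : Row (ℝ × ℝ) → ℝ}
    (hρ : Measurable ρ) (hρS : ∀ p t, ρ (cs (E0 h d) p t) = ρ p)
    (hDi : Integrable (fun p => hkR h d univ (-L) L p - ρ p) ((P0 (gammaMeasure 1 r)).prod (UU.prod UU))) :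
    SData (gammaMeasure 1 r) (UU.prod UU) (E0 h d) (fun p => hkR h d I a b p - ρ p)
      (fun p => hkR h d univ (-L) L p - ρ p) := by
  have hγ := isProbabilityMeasure_gammaMeasure zero_lt_one hr
  have h0 : (gammaMeasure 1 r) (Set.Iio 0) = 0 := by
    have := ae_pos_gamma 1 r
    rw [ae_iff] at this
    refine measure_mono_null ?_ this
    intro x hx
    simp only [mem_ofPred_eq, not_le, mem_Iio] at hx ⊢
    exact hx
  refine SData.of' (measurableSet_E0 h d) (measurable_hkR h d hI a b)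
    (measurable_hkR h d MeasurableSet.univ (-L) L) hρ hρS hDi ?_ ?_
  · filter_upwards [ne, ae_Nn_row h0 (UU.prod UU)] with p hp hnn
    exact LC_hk h hr hnn d I a b p.1.1 p.2 hp
  · filter_upwards [ne, ae_Nn_row h0 (UU.prod UU)] with p hp hnn
    have h1 : hkR h d univ (-L) L p ≤ hkR h d I a b p :=
      h.hk_mono hnn d (subset_univ _) ha hb hp
    linarith

end hwy

end Crest.Agent.R151.V
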