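import Crest.Agent.R151.NF3
import Crest.Agent.R151.M56f
import Crest.Agent.R151.U450o
import Crest.Agent.R151.V18
import Crest.Agent.R151.A565k

/-!
# R151 / S0214 part 2, NF6 — means of the observables, in `Ev` form (helper710)

Outer rows `dOv F y g = (y + 2 g) • b` with inner height `y`, for all `(y, g)` with `c.Ht y g`
(A-rows: `y = c.y / 2`, `g = c.g`; B-rows: `y = c.y`, `g = 3 c.g`).  Window `Λ = v' W`,
gauge labels `± c.L`, `c.L = 2 v' W`.
-/

set_option autoImplicit false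

open MeasureTheory Filter ProbabilityTheory Topology Set
open Crest.ProbabilityR.FirstPassage
open Crest.Agent.R151.K Crest.Agent.R151.Q

namespace Crest.Agent.R151.NF

open B710 (FlatData)
open M56 (mg one_le_mg)

variable {μ : ℝ × ℝ → ℝ} {G : Measure ℝ} {F : FlatData μ} {w0 c0 K : ℝ}

namespace Cf

variable {p : Num}

/-- admissible inner height `y` and gap `g` -/
structure Ht (c : Cf G F w0 c0 K p) (y g : ℝ) : Prop where
  y_ge : c.y / 2 ≤ y
  y_le : y ≤ c.y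
  g_ge : c.g ≤ g
  g_le : g ≤ 3 * c.g

lemma htA {c : Cf G F w0 c0 K p} (hc : c.Std) : c.Ht (c.y / 2) c.g :=
  ⟨le_rfl, by linarith [hc.y_pos], le_rfl, by linarith [hc.g_pos]⟩

lemma htB {c : Cf G F w0 c0 K p} (hc : c.Std) : c.Ht c.y (3 * c.g) :=
  ⟨by linarith [hc.y_pos], le_rfl, by linarith [hc.g_pos], le_rfl⟩

lemma dOA (c : Cf G F w0 c0 K p) : dOv F (c.y / 2) c.g = c.yA • F.b := rfl

lemma dOB (c : Cf G F w0 c0 K p) : dOv F c.y (3 * c.g) = c.yB • F.b := by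
  unfold dOv; rw [c.yB_eq]; congr 1; ring

/-- the window -/
noncomputable def lam (_c : Cf G F w0 c0 K p) : ℝ := p.v' * p.W

end Cf

/-- elementary inequalities between the lengths -/
structure Cf.Len {p : Num} (c : Cf G F w0 c0 K p) : Prop extends toC : c.Std where
  w0_le : w0 ≤ p.δ0 * p.W
  one_le_w : 1 ≤ p.δ0 * p.W
  /-- margins are `≤ δ0 W` -/
  mg_le : 2 * mg F + 2 * cF F + 2 ≤ p.δ0 * p.W
  κ_le' : c.h.κ + p.δ0 * p.W ≤ c.sl
  sl_nonneg : 0 ≤ c.sl
  /-- strips, backtracking and margins are `≤ g / 16` -/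
  sl_le : 16 * (p.δ0 * p.W + c.sl) ≤ c.g
  /-- gaps are `≤ W / 64` -/
  gW : 64 * c.g ≤ p.W
  gδ : 64 * c.g ≤ p.δ * p.W
  WL : p.W ≤ c.lam
  lam_eq : c.L = 2 * c.lam
  P16 : 16 * c.g ≤ c.P
  lW : c.l ≤ p.W

theorem ev_lens : Ev fun p => ∀ c : Cf G F w0 c0 K p, c.Len := by
  have a1 := ev_std (G := G) (F := F) (w0 := w0) (c0 := c0) (K := K)
  have a2 := le_w (2 * mg F + 2 * cF F + 2 + |w0|)
  have a3 := strip_le_gap fun _ _ _ _ _ _ => 16 * (2 + |K|)
  have a4 := gap_le fun _ δ _ _ _ => 64 + 64 / δ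
  have a5 := le_J fun _ _ _ _ _ δ' _ => 32 * δ' + 1
  refine ((((a1.and a2).and a3).and a4).and a5).mono ?_
  rintro p ⟨⟨⟨⟨a1, a2⟩, a3⟩, a4⟩, a5⟩ c
  have hc := a1 c
  have hp := hc.toStd
  have hmg := one_le_mg F
  have hcF := cF_nonneg F
  have hW : 0 < p.W := zero_lt_one.trans_le hp.W
  have hD : 0 < p.δ0 * p.W := mul_pos hp.δ0_pos hW
  have hκ := c.κ_le
  have hκ0 := c.h.κ_nonneg
  have hK0 : 0 ≤ K * (p.δ0 * p.W) := hκ0.trans hκ
  have hK : K * (p.δ0 * p.W) ≤ |K| * (p.δ0 * p.W) :=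
    mul_le_mul_of_nonneg_right (le_abs_self _) hD.le
  have hw0 := le_abs_self w0
  have hw0' := abs_nonneg w0
  have hg := c.g_eq
  have hgp := hc.g_pos
  have hsl : c.sl = K * (p.δ0 * p.W) + p.δ0 * p.W := by unfold Cf.sl; ring
  have hgδ : 0 ≤ 64 / p.δ * (p.δ' * p.W) := by
    have := hp.δ_pos
    rw [← hg]; positivity
  have hJ1 : (32 * p.δ' + 1) * p.W ≤ p.J * p.W := mul_le_mul_of_nonneg_right a5 hW.le
  have hy := c.y_ge
  have hP := c.P_eq
  refine
    { hc with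
      w0_le := by linarith
      one_le_w := by linarith
      mg_le := by linarith
      κ_le' := by rw [hsl]; linarith
      sl_nonneg := by rw [hsl]; linarith
      sl_le := by rw [hsl, hg]; linarith
      gW := by rw [hg]; linarith
      gδ := ?_
      WL := ?_
      lam_eq := by rw [c.L_eq]; unfold Cf.lam; ring
      P16 := by rw [hP]; rw [hg]; linarith
      lW := ?_ }
  · have h1 : 64 / p.δ * (p.δ' * p.W) ≤ p.W := by linarith
    have h2 := mul_le_mul_of_nonneg_left h1 hp.δ_pos.le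
    have h3 : p.δ * (64 / p.δ * (p.δ' * p.W)) = 64 * (p.δ' * p.W) := by
      have := hp.δ_pos.ne'
      field_simp
    rw [hg]; linarith
  · unfold Cf.lam
    nlinarith [hp.v']
  · refine hc.l_le.trans ?_
    rw [div_le_iff₀ (zero_lt_one.trans_le hp.J)]
    nlinarith [hp.J]

namespace Cf

variable {p : Num} {c : Cf G F w0 c0 K p}

/-- consequences for a row of inner height `y` and gap `g` -/
lemma Len.row (hl : c.Len) {y g : ℝ} (h : c.Ht y g) :
    c.h.wH + 2 * mg F < F.be (dOv F y g) ∧ c.h.wH < y + 2 * g + c.g - F.be (dOv F y g) ∧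
      y + 2 * g + c.g ≤ 3 * c.P ∧ c.h.wH + 2 * mg F < y ∧ 0 ≤ y + 2 * g + c.g := by
  have h1 := hl.wH_eq
  have h2 := hl.mg_le
  have h3 := hl.sl_le
  have h4 := hl.sl_nonneg
  have h5 := hl.g_le
  have h6 := hl.y_pos
  have h7 := hl.g_pos
  have h8 := h.y_ge
  have h9 := h.g_ge
  have h10 := h.g_le
  have h11 := h.y_le
  have h12 := c.P_eq
  have h13 := cF_nonneg F
  have h14 := hl.one_le_w
  rw [be_dOv]
  refine ⟨?_, ?_, ?_, ?_, ?_⟩ <;> linarith

end Cf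

/-- `Geo` for all translations `|x| ≤ A W` -/
theorem ev_geo (A : ℕ → ℝ → ℝ → ℝ → ℝ) : Ev fun p => ∀ c : Cf G F w0 c0 K p, ∀ y g : ℝ, c.Ht y g →
    ∀ x : ℝ, |x| ≤ A p.n p.δ p.v p.e * p.W → Geo c.h y g x c.lam c.L := by
  refine ((ev_lens (G := G) (F := F) (w0 := w0) (c0 := c0) (K := K)).and
    (le_v' fun n δ v e => A n δ v e + 1)).mono ?_
  rintro p ⟨hl, hA⟩ c y g hyg x hx
  have hl := hl c
  have hW : 0 < p.W := zero_lt_one.trans_le hl.W
  have h1 := hl.wH_eq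
  have h2 := hl.mg_le
  have h3 := hl.sl_le
  have h4 := hl.sl_nonneg
  have h5 := one_le_mg F
  have h6 := hl.gW
  have h7 := hl.κ_le'
  have h8 := hyg.g_ge
  have h9 := (hl.row hyg).2.2.2.1
  have h10 := cF_nonneg F
  have h11 := mul_le_mul_of_nonneg_right hA hW.le
  have h12 := hl.lam_eq
  have h13 := hl.g_pos
  have h14 : c.lam = p.v' * p.W := rfl
  have h15 := hl.WL
  have h16 := hl.one_le_w
  refine ⟨by linarith, by linarith, by linarith, ?_⟩
  rw [h12]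
  linarith

section means

variable [IsProbabilityMeasure G]

/-- the bound of the far lanes -/
noncomputable def Cf.Bf {p : Num} (c : Cf G F w0 c0 K p) : ℝ :=
  6 * (2 ^ (0.03 : ℝ) * p.v' ^ (-0.03 : ℝ)) * c.l + 12 * p.v' * (p.W * c.ε)

omit [IsProbabilityMeasure G] in
theorem Bf_nonneg {p : Num} (c : Cf G F w0 c0 K p) (hl : c.Len) : 0 ≤ c.Bf := by
  have h1 := hl.l_pos
  have h2 := hl.v'
  have h3 := c.mean.nonneg
  have h4 := hl.W
  have : 0 ≤ p.v' ^ (-0.03 : ℝ) := Real.rpow_nonneg (by linarith) _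
  unfold Cf.Bf
  positivity

omit [IsProbabilityMeasure G] in
/-- the bound of the far lanes is `≤ l / A` -/
theorem Bf_small (hc0 : 0 < c0) (A : ℕ → ℝ → ℝ → ℝ → ℝ) :
    Ev fun p => ∀ c : Cf G F w0 c0 K p, A p.n p.δ p.v p.e * c.Bf ≤ c.l := by
  have a1 := ev_lens (G := G) (F := F) (w0 := w0) (c0 := c0) (K := K)
  have a2 := highway_small (G := G) (F := F) (w0 := w0) (K := K) hc0
    fun n δ v e v' _ _ => 2 * |A n δ v e| * (12 * v')
  have a3 := rpow_v' (fun n δ v e => 12 * |A n δ v e| * 2 ^ (0.03 : ℝ)) 0.03 (by norm_num)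
  refine ((a1.and a2).and a3).mono ?_
  rintro p ⟨⟨hl, hh⟩, hv⟩ c
  have hl := hl c
  have hh := hh c
  set a := A p.n p.δ p.v p.e with ha
  calc a * c.Bf ≤ |a| * c.Bf := mul_le_mul_of_nonneg_right (le_abs_self a) (Bf_nonneg c hl)
    _ = (12 * |a| * 2 ^ (0.03 : ℝ) * p.v' ^ (-0.03 : ℝ)) * c.l / 2 +
        (2 * |a| * (12 * p.v')) * (p.W * c.ε) / 2 := by unfold Cf.Bf; ring
    _ ≤ 1 * c.l / 2 + c.l / 2 := by
        refine add_le_add ?_ ?_
        · have := mul_le_mul_of_nonneg_right hv hl.l_pos.le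
          linarith
        · linarith
    _ = c.l := by ring

/-- **far lanes and windows**: integrability, `0 ≤ mean ≤ Bf` -/
theorem far (h0 : G (Iio 0) = 0) (h2 : Integrable (fun x : ℝ => x ^ 2) G) (hμ : IsTC G μ) :
    Ev fun p => ∀ c : Cf G F w0 c0 K p, ∀ y g : ℝ, c.Ht y g → ∀ (α β s s2 : ℝ) (I : Set ℝ),
      MeasurableSet I → Icc α β ⊆ I → c.lam / 2 ≤ β - α → -c.L ≤ s → s ≤ α →
      β + c.h.κ < s2 → s2 ≤ c.L →
      Integrable (fun q : ((ℝ × ℝ) × Environment) × (ℝ × ℝ) =>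
        c.h.hkY (dOv F y g) I s s2 q.1.1 q.1.2 q.2) (nuR G) ∧
      0 ≤ ∫ q, c.h.hkY (dOv F y g) I s s2 q.1.1 q.1.2 q.2 ∂(nuR G) ∧
      ∫ q, c.h.hkY (dOv F y g) I s s2 q.1.1 q.1.2 q.2 ∂(nuR G) ≤ c.Bf := by
  have a1 := ev_lens (G := G) (F := F) (w0 := w0) (c0 := c0) (K := K)
  have a4 := le_v' fun _ _ _ _ => 2
  refine (a1.and a4).mono ?_
  rintro p ⟨hl, hv2⟩ c y g hyg α β s s2 I hI hII hw hs0 hs hs2 hs3
  have hl := hl c
  have hW : 0 < p.W := zero_lt_one.trans_le hl.W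
  obtain ⟨r1, r2, r3, r4, r5⟩ := hl.row hyg
  have hmg := one_le_mg F
  have hlam : c.lam = p.v' * p.W := rfl
  have hL := hl.lam_eq
  have hv' := hl.v'
  have hg := hl.gW
  have hsl := hl.sl_le
  have hsl0 := hl.sl_nonneg
  have hmgl := hl.mg_le
  have hcF := cF_nonneg F
  have h1w := hl.one_le_w
  have hκ := hl.κ_le'
  have hWL := hl.WL
  have hal : F.al (dOv F y g) = 0 := al_dOv y g
  have hwide : 2 * mg F ≤ β - α := by linarith
  have hs2' : β + c.h.κ < s2 + F.al (dOv F y g) := by rw [hal]; linarith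
  refine ⟨M56.fence_integrable c.mean h0 h2 r1 hI hs hs2' hII hwide,
    M56.fence_nonneg c.mean h0 h2 r1 hI hs hs2' hII hwide hμ, ?_⟩
  have key := M56.fence_mean' c.mean h0 h2 r1 hI hs hs2' hII hwide hμ r2
  change ∫ q, c.h.hkY (dOv F y g) I s s2 q.1.1 q.1.2 q.2 ∂(nuR G) ≤ _ at key
  set X := ∫ q, c.h.hkY (dOv F y g) I s s2 q.1.1 q.1.2 q.2 ∂(nuR G) with hX
  rw [hal, add_zero] at key
  have hε := c.mean.nonneg
  have hrt := c.rt_pos
  have hv0 : 0 < p.v' := by linarith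
  -- the rate
  have k1 : rate G F (β - α) ≤ 2 * (p.v' / 2) ^ (-0.03 : ℝ) * c.rt := by
    refine (c.good.large_b (β - α) (by rw [hlam] at hw; nlinarith)).trans ?_
    refine mul_le_mul_of_nonneg_right (mul_le_mul_of_nonneg_left ?_ (by norm_num)) hrt.le
    refine Real.rpow_le_rpow_of_nonpos (by linarith) ?_ (by norm_num)
    rw [le_div_iff₀ hW]
    rw [hlam] at hw
    linarith
  have k2 : (p.v' / 2) ^ (-0.03 : ℝ) = 2 ^ (0.03 : ℝ) * p.v' ^ (-0.03 : ℝ) := by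
    rw [Real.div_rpow hv0.le (by norm_num), div_eq_mul_inv, ← Real.rpow_neg (by norm_num), mul_comm]
    norm_num
  have k3 : (y + 2 * g + c.g) * rate G F (β - α) ≤
      6 * (2 ^ (0.03 : ℝ) * p.v' ^ (-0.03 : ℝ)) * c.l := by
    calc (y + 2 * g + c.g) * rate G F (β - α)
        ≤ (y + 2 * g + c.g) * (2 * (p.v' / 2) ^ (-0.03 : ℝ) * c.rt) :=
          mul_le_mul_of_nonneg_left k1 r5
      _ ≤ (3 * c.P) * (2 * (p.v' / 2) ^ (-0.03 : ℝ) * c.rt) := by
          refine mul_le_mul_of_nonneg_right r3 ?_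
          have := Real.rpow_nonneg (by linarith : (0 : ℝ) ≤ p.v' / 2) (-0.03)
          positivity
      _ = _ := by rw [k2, c.l_eq]; ring
  have k4 : (s2 - s + β - α + c.h.κ + 1) * c.ε ≤ 12 * p.v' * (p.W * c.ε) := by
    have : s2 - s + β - α + c.h.κ + 1 ≤ 12 * p.v' * p.W := by
      have h1 : c.L = 2 * (p.v' * p.W) := by rw [hL, hlam]
      have h2 : p.W ≤ p.v' * p.W := by rw [← hlam]; exact hWL
      nlinarith [c.h.κ_nonneg]
    calc (s2 - s + β - α + c.h.κ + 1) * c.ε ≤ (12 * p.v' * p.W) * c.ε :=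
          mul_le_mul_of_nonneg_right this hε
      _ = _ := by ring
  unfold Cf.Bf
  refine key.trans (add_le_add k3 ?_)
  refine le_trans (le_of_eq ?_) k4
  ring

/-! ### The `S`-measurable gauge -/

/-- defining property of the `S`-measurable gauge of the outer row with displacement `d` -/
structure Cf.IsRho {p : Num} (c : Cf G F w0 c0 K p) (d : ℝ × ℝ) (ρ : M192.Row (ℝ × ℝ) → ℝ) :
    Prop where
  meas : Measurable ρ
  glue : ∀ p t, ρ (V.cs (V.E0 c.h d) p t) = ρ p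
  inv : ∀ φ, Inv fun θ t => ρ ((θ, t), φ)
  int : Integrable (fun p => V.hkR c.h d univ (-c.L) c.L p - ρ p) (nuR G)
  mean : ∫ p, |V.hkR c.h d univ (-c.L) c.L p - ρ p| ∂(nuR G) ≤ 3 * c.Bf

open Classical in
/-- the `S`-measurable gauge of the outer row with displacement `d` -/
noncomputable def Cf.rho {p : Num} (c : Cf G F w0 c0 K p) (d : ℝ × ℝ) :
    M192.Row (ℝ × ℝ) → ℝ :=
  if H : ∃ ρ, c.IsRho d ρ then H.choose else 0

omit [IsProbabilityMeasure G] in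
lemma Cf.isRho_rho {p : Num} {c : Cf G F w0 c0 K p} {d : ℝ × ℝ} (H : ∃ ρ, c.IsRho d ρ) :
    c.IsRho d (c.rho d) := by
  unfold Cf.rho
  rw [dif_pos H]
  exact H.choose_spec

/-- **the gauge is close to an `S`-measurable variable** -/
theorem rho_spec (h0 : G (Iio 0) = 0) (h2 : Integrable (fun x : ℝ => x ^ 2) G) (hμ : IsTC G μ) :
    Ev fun p => ∀ c : Cf G F w0 c0 K p, ∀ y g : ℝ, c.Ht y g →
      c.IsRho (dOv F y g) (c.rho (dOv F y g)) := by
  refine ((ev_lens (G := G) (F := F) (w0 := w0) (c0 := c0) (K := K)).and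
    (far (F := F) (w0 := w0) (c0 := c0) (K := K) h0 h2 hμ)).mono ?_
  rintro p ⟨hl, hf⟩ c y g hyg
  have hl := hl c
  have hf := hf c y g hyg
  apply Cf.isRho_rho
  have hlam : c.lam = p.v' * p.W := rfl
  have hL := hl.lam_eq
  have hWL := hl.WL
  have hW : 0 < p.W := zero_lt_one.trans_le hl.W
  have hκ := hl.κ_le'
  have hsl := hl.sl_le
  have hsl0 := hl.sl_nonneg
  have hg := hl.gW
  have h1w := hl.one_le_w
  have hmgl := hl.mg_le
  have hcF := cF_nonneg F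
  have hmg := one_le_mg F
  have hal : F.al (dOv F y g) = 0 := al_dOv y g
  obtain ⟨r1, r2, r3, r4, r5⟩ := hl.row hyg
  have e1 := hf (c.lam / 4) (c.lam) (-c.L) c.L (Icc (c.lam / 4) (c.lam)) measurableSet_Icc
    subset_rfl (by linarith) le_rfl (by linarith) (by linarith) le_rfl
  have e2 := hf (-c.lam) (-(c.lam / 4)) (-c.L) c.L (Icc (-c.lam) (-(c.lam / 4)))
    measurableSet_Icc subset_rfl (by linarith) le_rfl (by linarith) (by linarith) le_rfl
  have e3 := hf (-c.lam) c.lam (-c.L) c.L univ MeasurableSet.univ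
    (subset_univ _) (by linarith) le_rfl (by linarith) (by linarith) le_rfl
  obtain ⟨ρ, m1, m2, m3, m4, m5⟩ := V.far_rho (G := G) (h := c.h) h0 (dOv F y g) c.L
    (I1 := Icc (c.lam / 4) c.lam) (I2 := Icc (-c.lam) (-(c.lam / 4)))
    measurableSet_Icc measurableSet_Icc
    (by
      rw [Set.disjoint_left]
      rintro x ⟨hx1, _⟩ ⟨_, hx2⟩
      linarith)
    (ae_of_all _ fun q => M56.fence_nonempty r1 (by linarith) (by rw [hal]; linarith) subset_rfl
      (by linarith) q.1.1 q.1.2 q.2)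
    (ae_of_all _ fun q => M56.fence_nonempty r1 (by linarith) (by rw [hal]; linarith) subset_rfl
      (by linarith) q.1.1 q.1.2 q.2)
    e3.1 e1.1 e2.1 e3.2.1 (B := c.Bf) e1.2.2 e2.2.2
  exact ⟨ρ, m1, m2, m3, m4, m5⟩

/-! ### The gauge difference `K0` -/

/-- **(M1)** `∫ |K0| ≤ 2 Bf` -/
theorem obK_le (h0 : G (Iio 0) = 0) (h2 : Integrable (fun x : ℝ => x ^ 2) G) (hμ : IsTC G μ)
    (A : ℕ → ℝ → ℝ → ℝ → ℝ) :
    Ev fun p => ∀ c : Cf G F w0 c0 K p, ∀ y g : ℝ, c.Ht y g →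
      ∀ x : ℝ, |x| ≤ A p.n p.δ p.v p.e * p.W →
      Integrable (fun q : M192.RowS × ((ℝ × ℝ) × (ℝ × ℝ)) =>
        obK c.h y g x c.lam c.L q.1.1.1 q.1.1.2 q.1.2 q.2) ((nuR G).prod PF) ∧
      ∫ q, |obK c.h y g x c.lam c.L q.1.1.1 q.1.1.2 q.1.2 q.2| ∂((nuR G).prod PF) ≤
        2 * c.Bf := by
  refine (((ev_lens (G := G) (F := F) (w0 := w0) (c0 := c0) (K := K)).and
    (far (F := F) (w0 := w0) (c0 := c0) (K := K) h0 h2 hμ)).and
    (ev_geo (G := G) (F := F) (w0 := w0) (c0 := c0) (K := K) A)).mono ?_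
  rintro p ⟨⟨hl, hf⟩, hg⟩ c y g hyg x hx
  have hl := hl c
  have hf := hf c y g hyg
  have hg := hg c y g hyg x hx
  have hlam : c.lam = p.v' * p.W := rfl
  have hL := hl.lam_eq
  have hWL := hl.WL
  have hW : 0 < p.W := zero_lt_one.trans_le hl.W
  have hκ := hl.κ_le'
  have hsl := hl.sl_le
  have hsl0 := hl.sl_nonneg
  have hgW := hl.gW
  have h1w := hl.one_le_w
  have hmgl := hl.mg_le
  have hcF := cF_nonneg F
  have hmg := one_le_mg F
  obtain ⟨r1, r2, r3, r4, r5⟩ := hl.row hyg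
  obtain ⟨k1, k2⟩ := M1.obK_mean h0 h2 c.mean hμ hg r4 (by linarith)
  refine ⟨k1, k2.trans ?_⟩
  have e3 := hf (-c.lam) c.lam (-c.L) c.L (Jw c.lam) measurableSet_Icc
    subset_rfl (by linarith) le_rfl (by linarith) (by linarith) le_rfl
  have e4 : ∫ q, c.h.hkY (dOv F y g) (Jw c.lam) (-c.L) c.L q.1.1 q.1.2 q.2 ∂(M192.PR G) ≤
    c.Bf := e3.2.2
  have e5 : 4 * c.L * c.ε ≤ c.Bf := by
    have h1 : 0 ≤ 6 * (2 ^ (0.03 : ℝ) * p.v' ^ (-0.03 : ℝ)) * c.l := by
      have := hl.l_pos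
      have : 0 ≤ p.v' ^ (-0.03 : ℝ) := Real.rpow_nonneg (by linarith [hl.v']) _
      positivity
    have h2 : 0 ≤ p.v' * (p.W * c.ε) := by
      have := c.mean.nonneg
      have := hl.v'
      positivity
    unfold Cf.Bf
    rw [hL, hlam]
    linarith
  linarith

end means

end Crest.Agent.R151.NF
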