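import Crest.Agent.R151.M192b
import Crest.Agent.R151.G338g
import Crest.Agent.R151.A565a

/-!
# R151 / S0214 part 2, M192c — row law: lattice invariance and locality (owner helper192)

For the objects of `G338g` with a general displacement `d` of the upper highway:
invariance `Inv` under lattice translations; `DependsOn` the edges of the row band
`-(wH/2) ≤ be ≤ be d + wH/2` when `wH < be d`.
-/

set_option autoImplicit false

open MeasureTheory Filter ProbabilityTheory Topology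
open Crest.ProbabilityR.FirstPassage

namespace Crest.Agent.R151.Q

open Crest.Agent.R151.K
open R78 (V Wk IsHwy hc hp stepc hull routes IsOpen shp hullY ptY gapK IsStrip Frame)
open M192 (hull_tr hc_tr hp_tr hc_congr walkCost_congr routes_congr frame frame_al frame_be isStrip
  pos_add_toR act_tr_apply be_pos al_pos)
open B710 (FlatData)

variable {μ : ℝ × ℝ → ℝ} {F : FlatData μ}

/-! ### Lattice invariance -/

lemma rg_add_toR (I : Set ℝ) (θ : ℝ × ℝ) (m : ℤ × ℤ) :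
    rg F I (θ + toR m) = {v | v + m ∈ rg F I θ} := by
  ext v
  simp only [rg, Set.mem_ofPred_eq, pos_add_toR]

namespace Hwy

variable (h : Hwy F)

lemma Lo_cov (θ : ℝ × ℝ) (t : Environment) (φ : ℝ × ℝ) (m : ℤ × ℤ) :
    h.Lo (θ + toR m) (act (tr m) t) φ = fun k => h.Lo θ t φ k - m := by
  funext k
  exact h.cov _ _ _ m k

lemma Up_cov (d θ : ℝ × ℝ) (t : Environment) (φ : ℝ × ℝ) (m : ℤ × ℤ) :
    h.Up d (θ + toR m) (act (tr m) t) φ = fun k => h.Up d θ t φ k - m := by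
  funext k
  unfold Up
  rw [add_sub_right_comm]
  exact h.cov _ _ _ m k

lemma iL_inv (s : ℝ) (φ : ℝ × ℝ) : Inv fun θ t => h.iL s θ t φ := fun m _ _ =>
  M192.ix_cov h s _ _ _ m

lemma iU_inv (d : ℝ × ℝ) (s : ℝ) (φ : ℝ × ℝ) : Inv fun θ t => h.iU d s θ t φ := by
  intro m θ t
  simp only [iU]
  rw [add_sub_right_comm]
  exact M192.ix_cov h s _ _ _ m

lemma hk_inv (d : ℝ × ℝ) (I : Set ℝ) (s s' : ℝ) (φ : ℝ × ℝ) :
    Inv fun θ t => h.hk d I s s' θ t φ := by
  intro m θ t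
  have h1 := h.iL_inv s φ m θ t
  have h2 := h.iU_inv d s' φ m θ t
  simp only at h1 h2
  simp only [hk]
  rw [Lo_cov, Up_cov, h1, h2, rg_add_toR]
  exact hull_tr m t _ _ _ _ _

lemma hkY_inv (d : ℝ × ℝ) (I : Set ℝ) (s s' : ℝ) (φ : ℝ × ℝ) :
    Inv fun θ t => h.hkY d I s s' θ t φ := by
  intro m θ t
  have h0 := h.hk_inv d I s s' φ m θ t
  have h1 := h.iL_inv s φ m θ t
  have h2 := h.iU_inv d s' φ m θ t
  simp only [hk] at h0 h1 h2
  simp only [hkY, hullY]
  rw [h0, h1, h2, Lo_cov, Up_cov, hp_tr, hp_tr]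
  ring

lemma sk_inv (d : ℝ × ℝ) (I J : Set ℝ) (L s s' : ℝ) (φ : ℝ × ℝ) :
    Inv fun θ t => h.sk d I J L s s' θ t φ := by
  intro m θ t
  have h0 := h.hk_inv d I s s' φ m θ t
  have h1 := h.hk_inv d J (-L) L φ m θ t
  simp only at h0 h1
  simp only [sk]
  rw [h0, h1]

lemma pt_tr (m x y : ℤ × ℤ) (t : Environment) :
    passageTime (act (tr m) t) (x - m) (y - m) = passageTime t x y := by
  rw [pt_act]
  simp only [tr_apply, sub_add_cancel]

lemma gK_inv (d : ℝ × ℝ) (s s' : ℝ) (φ : ℝ × ℝ) : Inv fun θ t => h.gK d s s' θ t φ := by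
  intro m θ t
  have h1 := h.iL_inv s φ m θ t
  have h2 := h.iU_inv d s' φ m θ t
  simp only at h1 h2
  simp only [gK, gapK]
  rw [h1, h2, Lo_cov, Up_cov, hc_tr, hc_tr, pt_tr]

lemma phi_sub (x m : ℤ × ℤ) : phi F (x - m) = phi F x - phi F m := by
  unfold phi
  have : toR (x - m) = toR x - toR m := by unfold toR; ext <;> simp
  rw [this, map_sub]

lemma gY_inv (d : ℝ × ℝ) (s s' : ℝ) (φ : ℝ × ℝ) : Inv fun θ t => h.gY d s s' θ t φ := by
  intro m θ t
  have h1 := h.iL_inv s φ m θ t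
  have h2 := h.iU_inv d s' φ m θ t
  simp only at h1 h2
  simp only [gY, ptY]
  rw [h1, h2, Lo_cov, Up_cov, pt_tr, phi_sub, phi_sub]
  ring

/-! ### Locality -/

/-- the band read by a row with displacement `d` -/
def band (d θ : ℝ × ℝ) : Set (ℤ × ℤ) :=
  {z | -(h.wH / 2) ≤ F.be (pos θ z) ∧ F.be (pos θ z) ≤ F.be d + h.wH / 2}

lemma be_pos_sub (d θ : ℝ × ℝ) (z : ℤ × ℤ) : F.be (pos (θ - d) z) = F.be (pos θ z) - F.be d := by
  rw [be_pos, be_pos, map_sub]; ring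

lemma wH_nonneg : 0 ≤ h.wH := by
  have := abs_nonneg (F.be (pos 0 (h.H 0 0 0 0)))
  have h2 := h.strip 0 0 0 0
  linarith

section local_

variable {d : ℝ × ℝ} (hd : h.wH < F.be d)
include hd

lemma strip_lo_subset (θ : ℝ × ℝ) :
    edgesIn {z | |F.be (pos θ z)| ≤ h.wH / 2} ⊆ edgesIn (h.band d θ) := by
  intro e he z hz
  have h1 : |F.be (pos θ z)| ≤ h.wH / 2 := he z hz
  rw [abs_le] at h1
  have h0 := h.wH_nonneg
  exact ⟨h1.1, by linarith [h1.2]⟩

lemma strip_up_subset (θ : ℝ × ℝ) :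
    edgesIn {z | |F.be (pos (θ - d) z)| ≤ h.wH / 2} ⊆ edgesIn (h.band d θ) := by
  intro e he z hz
  have h1 : |F.be (pos (θ - d) z)| ≤ h.wH / 2 := he z hz
  rw [abs_le, be_pos_sub] at h1
  have h0 := h.wH_nonneg
  exact ⟨by linarith [h1.1], by linarith [h1.2]⟩

lemma Lo_loc (θ φ : ℝ × ℝ) : DependsOn (fun t => h.Lo θ t φ) (edgesIn (h.band d θ)) := by
  intro t t' ht
  exact h.loc _ _ _ _ fun e he => ht e (h.strip_lo_subset hd θ he)

lemma Up_loc (θ φ : ℝ × ℝ) : DependsOn (fun t => h.Up d θ t φ) (edgesIn (h.band d θ)) := by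
  intro t t' ht
  exact h.loc _ _ _ _ fun e he => ht e (h.strip_up_subset hd θ he)

lemma iL_loc (s : ℝ) (θ φ : ℝ × ℝ) :
    DependsOn (fun t => h.iL s θ t φ) (edgesIn (h.band d θ)) := by
  intro t t' ht
  have := h.Lo_loc hd θ φ ht
  simp only [Lo] at this
  simp only [iL, ix, this]

lemma iU_loc (s : ℝ) (θ φ : ℝ × ℝ) :
    DependsOn (fun t => h.iU d s θ t φ) (edgesIn (h.band d θ)) := by
  intro t t' ht
  have := h.Up_loc hd θ φ ht
  simp only [Up] at this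
  simp only [iU, ix, this]

lemma hcLo_loc {θ φ : ℝ × ℝ} {t t' : Environment} (ht : ∀ e ∈ edgesIn (h.band d θ), t e = t' e)
    (k : ℤ) : hc t (h.Lo θ t φ) k = hc t' (h.Lo θ t' φ) k := by
  have e := h.Lo_loc hd θ φ ht
  simp only at e
  rw [← e]
  refine hc_congr (fun j => ht _ (h.strip_lo_subset hd θ ?_)) k
  exact mem_edgesIn.2 ⟨h.strip _ _ _ _, h.strip _ _ _ _⟩

lemma hcUp_loc {θ φ : ℝ × ℝ} {t t' : Environment} (ht : ∀ e ∈ edgesIn (h.band d θ), t e = t' e)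
    (k : ℤ) : hc t (h.Up d θ t φ) k = hc t' (h.Up d θ t' φ) k := by
  have e := h.Up_loc hd θ φ ht
  simp only at e
  rw [← e]
  refine hc_congr (fun j => ht _ (h.strip_up_subset hd θ ?_)) k
  exact mem_edgesIn.2 ⟨h.strip _ _ _ _, h.strip _ _ _ _⟩

/-- the strips of the two highways of a row are ordered -/
lemma strips_lt (θ : ℝ × ℝ) : h.wH / 2 - F.be θ < -(h.wH / 2) - F.be (θ - d) := by
  rw [map_sub]; linarith

lemma hk_eq_inter (I : Set ℝ) (s s' : ℝ) (θ : ℝ × ℝ) (t : Environment) (φ : ℝ × ℝ) :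
    h.hk d I s s' θ t φ = hull t (h.Lo θ t φ) (h.Up d θ t φ) (rg F I θ ∩ h.band d θ)
      (h.iL s θ t φ) (h.iU d s' θ t φ) := by
  have h1 := IsStrip.hull_inter (isStrip h φ.1 θ t) (isStrip h φ.2 (θ - d) t) (h.strips_lt hd θ) t
    (rg F I θ) (h.iL s θ t φ) (h.iU d s' θ t φ)
  have e : (frame F).row (-(h.wH / 2) - F.be θ) (h.wH / 2 - F.be (θ - d)) = h.band d θ := by
    ext z
    simp only [Frame.row, band, Set.mem_ofPred_eq, frame_be, be_pos, map_sub]
    constructor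
    · rintro ⟨h1, h2⟩; exact ⟨by linarith, by linarith⟩
    · rintro ⟨h1, h2⟩; exact ⟨by linarith, by linarith⟩
  rw [e] at h1
  exact h1.symm

/-- **locality of the hull kernel** -/
theorem hk_loc (I : Set ℝ) (s s' : ℝ) (θ φ : ℝ × ℝ) :
    DependsOn (fun t => h.hk d I s s' θ t φ) (edgesIn (h.band d θ)) := by
  intro t t' ht
  have e1 := h.Lo_loc hd θ φ ht
  have e2 := h.Up_loc hd θ φ ht
  have e3 := h.iL_loc hd s θ φ ht
  have e4 := h.iU_loc hd s' θ φ ht
  simp only at e1 e2 e3 e4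
  simp only
  rw [h.hk_eq_inter hd, h.hk_eq_inter hd, ← e3, ← e4, ← e1, ← e2]
  unfold hull
  rw [routes_congr]
  · intro x hx y hy
    exact ht _ (mem_edgesIn.2 ⟨hx.2, hy.2⟩)
  · intro k
    have := h.hcLo_loc hd (φ := φ) ht k
    rw [← e1] at this; exact this
  · intro k
    have := h.hcUp_loc hd (φ := φ) ht k
    rw [← e2] at this; exact this

theorem hkY_loc (I : Set ℝ) (s s' : ℝ) (θ φ : ℝ × ℝ) :
    DependsOn (fun t => h.hkY d I s s' θ t φ) (edgesIn (h.band d θ)) := by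
  intro t t' ht
  have e0 := h.hk_loc hd I s s' θ φ ht
  have e1 := h.Lo_loc hd θ φ ht
  have e2 := h.Up_loc hd θ φ ht
  have e3 := h.iL_loc hd s θ φ ht
  have e4 := h.iU_loc hd s' θ φ ht
  have e5 := h.hcLo_loc hd (φ := φ) ht (h.iL s θ t φ)
  have e6 := h.hcUp_loc hd (φ := φ) ht (h.iU d s' θ t φ)
  simp only [hk] at e0 e1 e2 e3 e4
  simp only [hkY, hullY, hp]
  rw [e0, e5, e6, ← e3, ← e4, ← e1, ← e2]

theorem sk_loc (I J : Set ℝ) (L s s' : ℝ) (θ φ : ℝ × ℝ) :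
    DependsOn (fun t => h.sk d I J L s s' θ t φ) (edgesIn (h.band d θ)) := by
  intro t t' ht
  have e0 := h.hk_loc hd I s s' θ φ ht
  have e1 := h.hk_loc hd J (-L) L θ φ ht
  simp only at e0 e1
  simp only [sk]
  rw [e0, e1]

end local_

end Hwy

end Crest.Agent.R151.Q
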