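import Crest.Agent.R151.M56c
import Crest.Agent.R151.M192c
import Crest.Agent.R151.C710l

/-!
# R151 / S0214 part 2, M56d — mean values of the hull kernels (R3) (helper56)

`hkY_integrable`, `hkY_nonneg` for every displacement `d` with `be d > wH + 2 mg F`.
-/

set_option autoImplicit false

open MeasureTheory Filter ProbabilityTheory Topology
open Crest.ProbabilityR.FirstPassage

namespace Crest.Agent.R151.M56

open Crest.Agent.R151.K Crest.Agent.R151.Q
open R78 (V Wk IsHwy hc hp stepc hull routes IsOpen shp hullY ptY gapK IsStrip Frame IsPos Back Sep)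
open M192 (frame frame_al frame_be al_pos be_pos isStrip ix_cov pos_add_toR)
open B710 (FlatData)
open C710 (fn fn_nonneg abs_f_le l1_nr toR_sub' n1_le_of_l1)

variable {μ : ℝ × ℝ → ℝ} {F : FlatData μ} (h : Hwy F) {G : Measure ℝ} [IsProbabilityMeasure G]

/-! ### Costs and excesses of the highways on the row space -/

lemma cst_inv (s s' u : ℝ) : Inv fun θ t => h.cst s s' u θ t := by
  intro m θ t
  simp only [Hwy.cst]
  rw [ix_cov, ix_cov, show h.H u (θ + toR m) (act (tr m) t) = fun k => h.H u θ t k - m from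
    funext fun k => h.cov _ _ _ m k, M192.hc_tr, M192.hc_tr]

lemma Y_inv (s s' u : ℝ) : Inv fun θ t => h.Y s s' u θ t := by
  intro m θ t
  simp only [Hwy.Y]
  rw [ix_cov, ix_cov, show h.H u (θ + toR m) (act (tr m) t) = fun k => h.H u θ t k - m from
    funext fun k => h.cov _ _ _ m k, M192.hp_tr, M192.hp_tr]
  ring

section meas

variable {Ω : Type*} [MeasurableSpace Ω] {u : Ω → ℝ} {θ : Ω → ℝ × ℝ} {T : Ω → Environment}
  (hu : Measurable u) (hθ : Measurable θ) (hT : Measurable T)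
include hu hθ hT

lemma measurable_cst (s s' : ℝ) : Measurable fun ω => h.cst s s' (u ω) (θ ω) (T ω) := by
  unfold Hwy.cst
  exact (Q.measurable_at (fun k => measurable_hc hT (h.meas_H hu hθ hT) k)
    (h.meas_ix s' hu hθ hT)).sub (Q.measurable_at (fun k => measurable_hc hT (h.meas_H hu hθ hT) k)
    (h.meas_ix s hu hθ hT))

lemma measurable_Y (s s' : ℝ) : Measurable fun ω => h.Y s s' (u ω) (θ ω) (T ω) := by
  have hphi : Measurable (phi F) := measurable_of_countable _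
  have key : ∀ s, Measurable fun ω => hp (T ω) (phi F) (h.H (u ω) (θ ω) (T ω))
      (h.ix s (u ω) (θ ω) (T ω)) := by
    intro s
    unfold hp
    exact (Q.measurable_at (fun k => measurable_hc hT (h.meas_H hu hθ hT) k)
      (h.meas_ix s hu hθ hT)).sub (hphi.comp (Q.measurable_at (fun k => h.meas_H hu hθ hT k)
      (h.meas_ix s hu hθ hT)))
  exact (key s').sub (key s)

end meas

/-- the lower phase is a measure preserving coordinate -/
lemma mp_lo : MeasurePreserving (fun q : ((ℝ × ℝ) × Environment) × (ℝ × ℝ) => (q.1, q.2.1))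
    (nu G) ((P0 G).prod UU) :=
  (MeasurePreserving.id _).prod measurePreserving_fst

/-- the upper phase is a measure preserving coordinate -/
lemma mp_up : MeasurePreserving (fun q : ((ℝ × ℝ) × Environment) × (ℝ × ℝ) => (q.1, q.2.2))
    (nu G) ((P0 G).prod UU) :=
  (MeasurePreserving.id _).prod measurePreserving_snd

section trans

variable {f : ℝ → ℝ × ℝ → Environment → ℝ} (hf : ∀ u, Inv fun θ t => f u θ t)
  (hm : Measurable fun q : ((ℝ × ℝ) × Environment) × ℝ => f q.2 q.1.1 q.1.2)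
  (hi : Integrable (fun q : ℝ × (ℝ × ℝ) × Environment => f q.1 q.2.1 q.2.2) (UU.prod (P0 G)))
include hf hm hi

lemma trans_aux (w : ℝ × ℝ) :
    Integrable (fun q : ((ℝ × ℝ) × Environment) × ℝ => f q.2 (q.1.1 - w) q.1.2) ((P0 G).prod UU) ∧
    ∫ q, f q.2 (q.1.1 - w) q.1.2 ∂((P0 G).prod UU) = ∫ q, f q.1 q.2.1 q.2.2 ∂(UU.prod (P0 G)) := by
  have hsw : MeasurePreserving (Prod.swap : ((ℝ × ℝ) × Environment) × ℝ → _)
      ((P0 G).prod UU) (UU.prod (P0 G)) := Measure.measurePreserving_swap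
  have i1 : Integrable (fun q : ((ℝ × ℝ) × Environment) × ℝ => f q.2 q.1.1 q.1.2)
      ((P0 G).prod UU) := hsw.integrable_comp_of_integrable hi
  have i2 := integrable_shift_prod (G := G) (ν := UU) (F := fun θ t u => f u θ t) hf (-w) i1
  have e2 := integral_shift_prod (G := G) (ν := UU) (F := fun θ t u => f u θ t) hf hm (-w)
  have e1 := mp_integral hsw hi.aestronglyMeasurable
  simp only [← sub_eq_add_neg] at i2 e2
  refine ⟨i2, e2.trans ?_⟩
  rw [← e1]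
  rfl

lemma trans_lo (w : ℝ × ℝ) :
    Integrable (fun q : ((ℝ × ℝ) × Environment) × (ℝ × ℝ) => f q.2.1 (q.1.1 - w) q.1.2) (nu G) ∧
    ∫ q, f q.2.1 (q.1.1 - w) q.1.2 ∂(nu G) = ∫ q, f q.1 q.2.1 q.2.2 ∂(UU.prod (P0 G)) := by
  obtain ⟨i1, e1⟩ := trans_aux hf hm hi w
  refine ⟨(mp_lo (G := G)).integrable_comp_of_integrable i1, ?_⟩
  rw [← e1, ← mp_integral (mp_lo (G := G)) i1.aestronglyMeasurable]

lemma trans_up (w : ℝ × ℝ) :
    Integrable (fun q : ((ℝ × ℝ) × Environment) × (ℝ × ℝ) => f q.2.2 (q.1.1 - w) q.1.2) (nu G) ∧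
    ∫ q, f q.2.2 (q.1.1 - w) q.1.2 ∂(nu G) = ∫ q, f q.1 q.2.1 q.2.2 ∂(UU.prod (P0 G)) := by
  obtain ⟨i1, e1⟩ := trans_aux hf hm hi w
  refine ⟨(mp_up (G := G)).integrable_comp_of_integrable i1, ?_⟩
  rw [← e1, ← mp_integral (mp_up (G := G)) i1.aestronglyMeasurable]

end trans

variable {h}

section hwy

variable {ε : ℝ} (hM : HwyMean G h ε)
include hM

/-- excess of the lower highway -/
theorem Y_lo (s s' : ℝ) (w : ℝ × ℝ) :
    Integrable (fun q : ((ℝ × ℝ) × Environment) × (ℝ × ℝ) => h.Y s s' q.2.1 (q.1.1 - w) q.1.2)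
      (nu G) ∧ ∫ q, h.Y s s' q.2.1 (q.1.1 - w) q.1.2 ∂(nu G) = (s' - s) * ε := by
  have := trans_lo (G := G) (f := fun u θ t => h.Y s s' u θ t) (fun u => Y_inv h s s' u)
    (measurable_Y h (by fun_prop) (by fun_prop) (by fun_prop) s s') (hM.int s s') w
  exact ⟨this.1, this.2.trans (hM.mean s s')⟩

/-- excess of the upper highway -/
theorem Y_up (s s' : ℝ) (w : ℝ × ℝ) :
    Integrable (fun q : ((ℝ × ℝ) × Environment) × (ℝ × ℝ) => h.Y s s' q.2.2 (q.1.1 - w) q.1.2)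
      (nu G) ∧ ∫ q, h.Y s s' q.2.2 (q.1.1 - w) q.1.2 ∂(nu G) = (s' - s) * ε := by
  have := trans_up (G := G) (f := fun u θ t => h.Y s s' u θ t) (fun u => Y_inv h s s' u)
    (measurable_Y h (by fun_prop) (by fun_prop) (by fun_prop) s s') (hM.int s s') w
  exact ⟨this.1, this.2.trans (hM.mean s s')⟩

theorem cst_lo (s s' : ℝ) (w : ℝ × ℝ) :
    Integrable (fun q : ((ℝ × ℝ) × Environment) × (ℝ × ℝ) => h.cst s s' q.2.1 (q.1.1 - w) q.1.2)
      (nu G) :=
  (trans_lo (G := G) (f := fun u θ t => h.cst s s' u θ t) (fun u => cst_inv h s s' u)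
    (measurable_cst h (by fun_prop) (by fun_prop) (by fun_prop) s s') (hM.int_cst s s') w).1

theorem cst_up (s s' : ℝ) (w : ℝ × ℝ) :
    Integrable (fun q : ((ℝ × ℝ) × Environment) × (ℝ × ℝ) => h.cst s s' q.2.2 (q.1.1 - w) q.1.2)
      (nu G) :=
  (trans_up (G := G) (f := fun u θ t => h.cst s s' u θ t) (fun u => cst_inv h s s' u)
    (measurable_cst h (by fun_prop) (by fun_prop) (by fun_prop) s s') (hM.int_cst s s') w).1

end hwy

/-! ### R3 for the hull kernels -/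

lemma measurable_Zx (h : Hwy F) (σ : ℝ) : Measurable (Zx h σ) := by
  unfold Zx
  exact Q.measurable_nr.comp (measurable_id.sub_const _)

lemma measurable_Zy (h : Hwy F) (d : ℝ × ℝ) (σ : ℝ) : Measurable (Zy h d σ) := by
  unfold Zy
  exact Q.measurable_nr.comp (measurable_id.sub_const _)

section main

variable {ε : ℝ} (hM : HwyMean G h ε) (h0 : G (Set.Iio 0) = 0)
  (h2 : Integrable (fun x : ℝ => x ^ 2) G) {d : ℝ × ℝ} (hd : h.wH + 2 * mg F < F.be d)
include h0 h2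

omit h0 h2 in
lemma phi_up_lo (h : Hwy F) (d : ℝ × ℝ) (s s' : ℝ) :
    Integrable (fun q : ((ℝ × ℝ) × Environment) × (ℝ × ℝ) =>
      phi F (h.x s' q.2.2 (q.1.1 - d) q.1.2) - phi F (h.x s q.2.1 q.1.1 q.1.2)) (nu G) := by
  have mx : Measurable fun q : ((ℝ × ℝ) × Environment) × (ℝ × ℝ) => h.x s q.2.1 q.1.1 q.1.2 :=
    measurable_x h (by fun_prop) (by fun_prop) (by fun_prop) s
  have my : Measurable fun q : ((ℝ × ℝ) × Environment) × (ℝ × ℝ) =>
      h.x s' q.2.2 (q.1.1 - d) q.1.2 :=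
    measurable_x h (by fun_prop) (by fun_prop) (by fun_prop) s'
  have hphi : Measurable (phi F) := measurable_of_countable _
  refine Integrable.of_bound ((hphi.comp my).sub (hphi.comp mx)).aestronglyMeasurable
    (‖F.ρ‖ * Rx h s' + ‖F.ρ‖ * Rx h s + |F.ρ d|) (ae_of_all _ fun q => ?_)
  rw [phi_diff d q.1.1, Real.norm_eq_abs]
  refine (abs_add_le _ _).trans (add_le_add ((abs_sub _ _).trans (add_le_add ?_ ?_)) le_rfl)
  · exact (F.ρ.le_opNorm _).trans (mul_le_mul_of_nonneg_left (norm_x h _ _ _ _) (norm_nonneg _))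
  · exact (F.ρ.le_opNorm _).trans (mul_le_mul_of_nonneg_left (norm_x h _ _ _ _) (norm_nonneg _))

include hd in
/-- mean cost of the explicit route -/
lemma Z_mean (σ₁ σ₂ : ℝ) :
    Integrable (fun q : ((ℝ × ℝ) × Environment) × (ℝ × ℝ) =>
      pR q.1.2 (Zr F σ₁ σ₂ (F.be d / 2) q.1.1) (Zx h σ₁ q.1.1) (Zy h d σ₂ q.1.1)) (nu G) ∧
    ∫ q, pR q.1.2 (Zr F σ₁ σ₂ (F.be d / 2) q.1.1) (Zx h σ₁ q.1.1) (Zy h d σ₂ q.1.1) ∂(nu G) ≤
      ((F.be d + h.wH + 2 * mg F) * l1 F.b + |σ₂ - σ₁| * l1 F.a + 6) * ∫ z, z ∂G := by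
  obtain ⟨i1, e1⟩ := pR_rand_mean h0 h2 (fun v => measurableSet_Zr F σ₁ σ₂ (F.be d / 2) v)
    (measurable_Zx h σ₁) (measurable_Zy h d σ₂) (Zrow_walk hd σ₁ σ₂)
  have hp : MeasurePreserving (Prod.fst : ((ℝ × ℝ) × Environment) × (ℝ × ℝ) → _) (nu G) (P0 G) :=
    measurePreserving_fst
  refine ⟨hp.integrable_comp_of_integrable i1, ?_⟩
  rw [← mp_integral hp i1.aestronglyMeasurable] at e1
  exact e1

variable {I : Set ℝ} (hImeas : MeasurableSet I) {s s' σ₁ σ₂ : ℝ} (hs : s + mg F ≤ σ₁)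
  (hs' : σ₂ + mg F + h.κ < s' + F.al d)
  (hI : Set.Icc (min σ₁ σ₂ - mg F) (max σ₁ σ₂ + mg F) ⊆ I)
include hM hd hImeas hs hs' hI

/-- **integrability of the hull kernel** -/
theorem hkY_integrable :
    Integrable (fun q : ((ℝ × ℝ) × Environment) × (ℝ × ℝ) => h.hkY d I s s' q.1.1 q.1.2 q.2)
      (nu G) := by
  have i1 := gY_integrable h h0 h2 d s s'
  have i2 := cst_lo hM s (σ₁ + mg F + h.κ + 1) 0
  have i3 := cst_up hM (σ₂ - mg F - F.al d) s' d
  obtain ⟨i4, -⟩ := Z_mean h0 h2 hd σ₁ σ₂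
  have i5 := phi_up_lo (G := G) h d s s'
  simp only [sub_zero] at i2
  have i6 := ((i2.add i3).add i4).sub i5
  refine (i1.norm.add i6.norm).mono'
    (h.meas_hkY (by fun_prop) (by fun_prop) (by fun_prop) d hImeas s s').aestronglyMeasurable ?_
  filter_upwards [ae_P0_Nn (Ψ := ℝ × ℝ) (ν := UU.prod UU) h0] with q hq
  have hl := hkY_ge (h := h) (d := d) (I := I) (s := s) (s' := s') hq.1 q.1.1 q.2
    (row_nonempty hd hs hs' hI q.1.1 q.1.2 q.2)
  have hu := hkY_le hd hs hs' hI hq.1 q.1.1 q.2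
  simp only [Pi.add_apply, Pi.sub_apply, Real.norm_eq_abs] at *
  rw [abs_le]
  have a1 := neg_abs_le (h.gY d s s' q.1.1 q.1.2 q.2)
  have a2 := abs_nonneg (h.gY d s s' q.1.1 q.1.2 q.2)
  have a3 := le_abs_self (h.cst s (σ₁ + mg F + h.κ + 1) q.2.1 q.1.1 q.1.2 +
    h.cst (σ₂ - mg F - F.al d) s' q.2.2 (q.1.1 - d) q.1.2 +
    pR q.1.2 (Zr F σ₁ σ₂ (F.be d / 2) q.1.1) (Zx h σ₁ q.1.1) (Zy h d σ₂ q.1.1) -
    (phi F (h.x s' q.2.2 (q.1.1 - d) q.1.2) - phi F (h.x s q.2.1 q.1.1 q.1.2)))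
  have a4 := abs_nonneg (h.cst s (σ₁ + mg F + h.κ + 1) q.2.1 q.1.1 q.1.2 +
    h.cst (σ₂ - mg F - F.al d) s' q.2.2 (q.1.1 - d) q.1.2 +
    pR q.1.2 (Zr F σ₁ σ₂ (F.be d / 2) q.1.1) (Zx h σ₁ q.1.1) (Zy h d σ₂ q.1.1) -
    (phi F (h.x s' q.2.2 (q.1.1 - d) q.1.2) - phi F (h.x s q.2.1 q.1.1 q.1.2)))
  constructor <;> linarith

/-- **`E hkY ≥ 0`** -/
theorem hkY_nonneg (hμ : IsTC G μ) : 0 ≤ ∫ q, h.hkY d I s s' q.1.1 q.1.2 q.2 ∂(nu G) := by
  refine (gY_nonneg h h0 h2 hμ d s s').trans ?_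
  refine integral_mono_ae (gY_integrable h h0 h2 d s s')
    (hkY_integrable hM h0 h2 hd hImeas hs hs' hI) ?_
  filter_upwards [ae_P0_Nn (Ψ := ℝ × ℝ) (ν := UU.prod UU) h0] with q hq
  exact hkY_ge (h := h) (d := d) (I := I) (s := s) (s' := s') hq.1 q.1.1 q.2
    (row_nonempty hd hs hs' hI q.1.1 q.1.2 q.2)

end main

end Crest.Agent.R151.M56
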