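import Crest.Agent.R151.CL684b
import Crest.Agent.R151.NF6
import Crest.Agent.R151.Q8c
import Crest.Agent.R151.G338o

/-!
# R151 / S0214 part 2, CL684d — (T1) for the cells of a configuration (owner helper684)

`ev_cellLow` : LowData of a cell; `ev_cellT1` : small balls of one cell given the strips.
-/

set_option autoImplicit false
set_option maxHeartbeats 400000

open MeasureTheory ProbabilityTheory Filter Set
open scoped ENNReal
open Crest.ProbabilityR.FirstPassage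

namespace Crest.Agent.R151.CL

open Crest.Agent.R151.K
open B710 (FlatData)
open Q (Hwy P0 UU UU2 rg pos rate cF cF_nonneg LowData Geo Rt Jw dOv obK obD obG NS PF ski sko
  rt_out rt_gauge_out)
open V (E0 cs posS typ hkR)
open NF
open M56 (mg)
open M192 (RowS PR)

variable {μ : ℝ × ℝ → ℝ} {G : Measure ℝ} {F : FlatData μ} {w0 c0 K : ℝ}

lemma mg_nonneg (F : FlatData μ) : 0 ≤ mg F := zero_le_one.trans (M56.one_le_mg F)

/-- **LowData of the cell at `x`** (outer row = A-row, inner row of height `y / 2`, moved by `cg`) -/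
theorem ev_cellLow (V : ℕ → ℝ → ℝ → ℝ → ℝ) :
    Ev fun p => ∀ c : Cf G F w0 c0 K p, ∀ (x cg : ℝ) (N : ℕ), |x| ≤ V p.n p.δ p.v p.e →
      (x + 5 / 32) * p.W + p.W / 128 ≤ cg → cg ≤ (x + 6 / 32) * p.W - p.W / 128 →
      2 * c.L * ‖F.a‖ + p.W * ‖F.b‖ + 1 ≤ N →
      LowData c.h (c.y / 2) c.g cg c.lam c.L (Icc (x * p.W) ((x + 7 / 32) * p.W))
        (Icc (-(7 / 32 * p.W)) (7 / 32 * p.W)) ((x + 6 / 32) * p.W) ((x + 1 / 32) * p.W) 0
        (-(p.W / 8)) (p.W / 256) N := by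
  refine (((ev_lens (G := G) (F := F) (w0 := w0) (c0 := c0) (K := K)).and
    (NF.ev_geo (G := G) (F := F) (w0 := w0) (c0 := c0) (K := K)
      fun n δ v e => V n δ v e + 1)).and
    ((gap_le fun _ _ _ _ _ => 1024).and (le_v' fun n δ v e => V n δ v e + 2))).mono ?_
  rintro p ⟨⟨hlen, hgeo⟩, hgap, hv'⟩ c x cg N hx h1 h2 hN
  have hl := hlen c
  have hW : 0 < p.W := zero_lt_one.trans_le hl.W
  have hgap : 1024 * c.g ≤ p.W := hgap
  have hgp := hl.g_pos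
  have hw := hl.wH_eq
  have hmg := mg_nonneg F
  have hcF := cF_nonneg F
  have hκ0 := c.h.κ_nonneg
  have hk := hl.κ_le'
  have hm := hl.mg_le
  have hsl := hl.sl_le
  have hsl0 := hl.sl_nonneg
  have hlam : (V p.n p.δ p.v p.e + 2) * p.W ≤ c.lam := by
    unfold Cf.lam
    exact mul_le_mul_of_nonneg_right hv' hW.le
  have hL := hl.lam_eq
  have hV0 : 0 ≤ V p.n p.δ p.v p.e := (abs_nonneg x).trans hx
  have hx' := abs_le.1 hx
  have hxW1 : -(V p.n p.δ p.v p.e * p.W) ≤ x * p.W := by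
    have := mul_le_mul_of_nonneg_right hx'.1 hW.le
    linarith
  have hxW2 : x * p.W ≤ V p.n p.δ p.v p.e * p.W := mul_le_mul_of_nonneg_right hx'.2 hW.le
  have hVW : 0 ≤ V p.n p.δ p.v p.e * p.W := mul_nonneg hV0 hW.le
  have hcg : |cg| ≤ (V p.n p.δ p.v p.e + 1) * p.W := by
    rw [abs_le]
    constructor <;> linarith
  have hrow := hl.row (Cf.htA (c := c) hl.toC)
  have hyd : c.h.wH + 2 * mg F < c.y / 2 + 2 * c.g := by
    have := hrow.1
    rwa [Q.be_dOv] at this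
  refine
    { geo := hgeo c _ _ (Cf.htA (c := c) hl.toC) cg hcg
      hIJ := ?_
      hII' := ?_
      hs1 := by linarith
      hs2 := by linarith
      hs3 := by linarith
      hs4 := by linarith
      hσ := by linarith
      hσ' := by linarith
      hΔ := by linarith
      hN := ?_
      hne := ?_
      hneJ := ?_ }
  · unfold Jw
    exact Icc_subset_Icc (by linarith) (by linarith)
  · intro z hz u hu
    have hu' := abs_le.1 hu
    exact ⟨by linarith [hz.1], by linarith [hz.2]⟩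
  · refine le_trans ?_ hN
    have e1 : (c.L + 2 * cF F + |cg|) * ‖F.a‖ ≤ (2 * c.L) * ‖F.a‖ :=
      mul_le_mul_of_nonneg_right (by linarith) (norm_nonneg _)
    have e2 : (c.h.wH + c.g + cF F) * ‖F.b‖ ≤ p.W * ‖F.b‖ :=
      mul_le_mul_of_nonneg_right (by linarith) (norm_nonneg _)
    linarith
  · refine rt_out (σ₁ := (x + 13 / 64) * p.W) (σ₂ := (x + 1 / 64) * p.W) hyd ?_ ?_ ?_
    · linarith
    · linarith
    · have e1 : min ((x + 13 / 64) * p.W) ((x + 1 / 64) * p.W) = (x + 1 / 64) * p.W :=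
        min_eq_right (by linarith)
      have e2 : max ((x + 13 / 64) * p.W) ((x + 1 / 64) * p.W) = (x + 13 / 64) * p.W :=
        max_eq_left (by linarith)
      rw [e1, e2]
      exact Icc_subset_Icc (by linarith) (by linarith)
  · exact rt_gauge_out hyd (by linarith) (by linarith)

/-- the inner row of height `y / 2` is expensive with probability `1/2` -/
lemma half_le_ski {G : Measure ℝ} [IsProbabilityMeasure G] {p : NF.Num}
    (c : Cf G F w0 c0 K p) : (1 : ℝ) / 2 ≤ (PR G).real {q | p.n ^ 5 * (c.y / 2 * rate G F p.W) ≤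
      ski c.h (c.y / 2) (Icc (-(7 / 32 * p.W)) (7 / 32 * p.W)) c.L 0 (-(p.W / 8)) q} := by
  have h1 := c.q_gt
  unfold Qm at h1
  push Not at h1
  have hm : MeasurableSet {q : RowS | ski c.h (c.y / 2) (Icc (-(7 / 32 * p.W)) (7 / 32 * p.W))
      c.L 0 (-(p.W / 8)) q ≤ p.n ^ 5 * (c.y / 2 * rate G F p.W)} :=
    measurableSet_le (Q.measurable_ski c.h _ measurableSet_Icc _ _ _) measurable_const
  have h2 : (PR G).real {q : RowS | ski c.h (c.y / 2) (Icc (-(7 / 32 * p.W)) (7 / 32 * p.W))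
      c.L 0 (-(p.W / 8)) q ≤ p.n ^ 5 * (c.y / 2 * rate G F p.W)} < 1 / 2 := h1
  have h3 := probReal_compl_eq_one_sub (μ := PR G) hm
  have h4 : (PR G).real {q : RowS | ski c.h (c.y / 2) (Icc (-(7 / 32 * p.W)) (7 / 32 * p.W))
      c.L 0 (-(p.W / 8)) q ≤ p.n ^ 5 * (c.y / 2 * rate G F p.W)}ᶜ ≤
      (PR G).real {q | p.n ^ 5 * (c.y / 2 * rate G F p.W) ≤
      ski c.h (c.y / 2) (Icc (-(7 / 32 * p.W)) (7 / 32 * p.W)) c.L 0 (-(p.W / 8)) q} := by
    refine measureReal_mono ?_ (measure_ne_top _ _)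
    intro q hq
    simp only [mem_compl_iff, mem_ofPred_eq, not_le] at hq
    exact hq.le
  linarith

/-- **(T1) for the cells**: small balls of a cell, given the strips -/
theorem ev_cellT1 {r₀ : ℝ} (hr : 0 < r₀) [IsProbabilityMeasure (gammaMeasure 1 r₀)]
    (h0 : gammaMeasure 1 r₀ (Set.Iio 0) = 0) (hμ : B710.NormLike μ) (V : ℕ → ℝ → ℝ → ℝ → ℝ) :
    ∃ e₂ : ℝ, 0 < e₂ ∧ Ev fun p => ∀ c : Cf (gammaMeasure 1 r₀) F w0 c0 K p,
      ∀ (x cg e₁ : ℝ) (N : ℕ) (ρ : RowS → ℝ), |x| ≤ V p.n p.δ p.v p.e →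
      (x + 5 / 32) * p.W + p.W / 128 ≤ cg → cg ≤ (x + 6 / 32) * p.W - p.W / 128 →
      2 * c.L * ‖F.a‖ + p.W * ‖F.b‖ + 1 ≤ N → 0 < e₁ → 16 * p.n ^ 5 * e₁ ≤ 1 → e₁ ≤ e₂ →
      Measurable ρ → (∀ p₀ t, ρ (cs (E0 c.h (dOv F (c.y / 2) c.g)) p₀ t) = ρ p₀) →
      ∀ p₀ : RowS, p₀ ∈ posS c.h (dOv F (c.y / 2) c.g) →
      p₀ ∈ typ (gammaMeasure 1 r₀) (E0 c.h (dOv F (c.y / 2) c.g)) PF
        (NS (obK c.h (c.y / 2) c.g cg c.lam c.L) (e₁ * c.l)) e₁ →
      p₀ ∈ typ (gammaMeasure 1 r₀) (E0 c.h (dOv F (c.y / 2) c.g)) PF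
        (NS (obD F (c.y / 2) c.g N) (e₁ * p.W)) e₁ →
      p₀ ∈ typ (gammaMeasure 1 r₀) (E0 c.h (dOv F (c.y / 2) c.g)) PF
        (NS (obG c.h (c.y / 2) c.g c.L ρ) (e₁ * c.l)) e₁ →
      ∀ a : ℝ, 0 ≤ a →
      (iidLaw (gammaMeasure 1 r₀)).real {t | sko c.h (c.y / 2) c.g
        (Icc (x * p.W) ((x + 7 / 32) * p.W)) c.L ((x + 6 / 32) * p.W) ((x + 1 / 32) * p.W)
        (cs (E0 c.h (dOv F (c.y / 2) c.g)) p₀ t) ≤ a * c.l} ≤ 50 * a / p.n ^ 5 + 150 * e₁ ∧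
      (iidLaw (gammaMeasure 1 r₀)).real {t | cellk c.h p.W (c.yA • F.b) x
        (cs (E0 c.h (c.yA • F.b)) p₀ t) - ρ p₀ ≤ a * c.l} ≤ 50 * a / p.n ^ 5 + 250 * e₁ := by
  obtain ⟨cψ, hcψ, hpsi⟩ := Q.exists_psi_low hμ F
  refine ⟨cψ / 4096, by positivity, ?_⟩
  refine (((ev_lens (G := gammaMeasure 1 r₀) (F := F) (w0 := w0) (c0 := c0) (K := K)).and
    (ev_cellLow (G := gammaMeasure 1 r₀) (F := F) (w0 := w0) (c0 := c0) (K := K) V)).and
    (le_J fun n _ _ _ _ _ _ => 1024 * (n : ℝ) ^ 5 / cψ)).mono ?_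
  rintro p ⟨⟨hlen, hlow⟩, hJ⟩ c x cg e₁ N ρ hx h1 h2 hN he₁ hen he₂ hρm hρS p₀ hpos hK hD hG a ha
  have hl := hlen c
  have H := hlow c x cg N hx h1 h2 hN
  have hW : 0 < p.W := zero_lt_one.trans_le hl.W
  have hJ0 : 0 < p.J := zero_lt_one.trans_le hl.J
  have hl0 := hl.l_pos
  have hn1 : (1 : ℝ) ≤ p.n := by exact_mod_cast hl.n
  have hn5 : (1 : ℝ) ≤ (p.n : ℝ) ^ 5 := one_le_pow₀ hn1
  have hr0 := c.rt_pos
  set τ : ℝ := (p.n : ℝ) ^ 5 * (c.y / 2 * rate (gammaMeasure 1 r₀) F p.W) with hτ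
  have hτ1 : (p.n : ℝ) ^ 5 * c.l / 2 ≤ τ := by
    have e1 : c.l ≤ c.y * rate (gammaMeasure 1 r₀) F p.W := by
      rw [c.l_eq]
      exact mul_le_mul_of_nonneg_right hl.P_le hr0.le
    rw [hτ]
    nlinarith
  have hτ2 : τ ≤ cψ * (p.W / 256) - 4 * (e₁ * p.W) := by
    have e1 : c.y * rate (gammaMeasure 1 r₀) F p.W ≤ p.W / p.J := c.y_le
    have e2 : τ ≤ (p.n : ℝ) ^ 5 * (p.W / p.J) / 2 := by
      rw [hτ]
      nlinarith
    have e3 : (p.n : ℝ) ^ 5 * (p.W / p.J) ≤ cψ / 1024 * p.W := by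
      rw [div_le_iff₀ hcψ] at hJ
      rw [mul_div_assoc', div_le_iff₀ hJ0]
      nlinarith
    have e4 : e₁ * p.W ≤ cψ / 4096 * p.W := mul_le_mul_of_nonneg_right he₂ hW.le
    have e5 : 0 < cψ * p.W := mul_pos hcψ hW
    linarith
  have he16 : 16 * e₁ ≤ 1 := by nlinarith
  have hel : e₁ * c.l ≤ 1 / 16 * c.l := mul_le_mul_of_nonneg_right (by linarith) hl0.le
  have hnl : 1 * c.l ≤ (p.n : ℝ) ^ 5 * c.l := mul_le_mul_of_nonneg_right hn5 hl0.le
  have hA : e₁ * c.l < τ := by linarith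
  have hA2 : (p.n : ℝ) ^ 5 * c.l / 4 ≤ τ - e₁ * c.l := by linarith
  have hA3 : 0 < (p.n : ℝ) ^ 5 * c.l / 4 := by positivity
  have key := Q.T1c hr h0 hμ hpsi H measurableSet_Icc measurableSet_Icc hρm hρS
    (A := e₁ * c.l) (B := e₁ * p.W) (e := e₁) (τ := τ) (q₀ := 1 / 2) (a := a * c.l) (p := p₀)
    (by positivity) he₁.le hA hτ2 (by norm_num) (by nlinarith) (by positivity) hpos hK hD hG
    (half_le_ski c)
  have hlog : Real.log (6 / (1 / 2)) ≤ 11 := by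
    have := Real.log_le_sub_one_of_pos (x := 6 / (1 / 2)) (by norm_num)
    linarith
  have hlog0 : 0 ≤ Real.log (6 / (1 / 2)) := Real.log_nonneg (by norm_num)
  have hb : ∀ k : ℝ, 0 ≤ k → (a * c.l + k * (e₁ * c.l)) / (τ - e₁ * c.l) *
      Real.log (6 / (1 / 2)) ≤ 44 * (a + k * e₁) / (p.n : ℝ) ^ 5 := by
    intro k hk
    have e1 : (a * c.l + k * (e₁ * c.l)) / (τ - e₁ * c.l) ≤
        (a * c.l + k * (e₁ * c.l)) / ((p.n : ℝ) ^ 5 * c.l / 4) :=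
      div_le_div_of_nonneg_left (by positivity) hA3 hA2
    have e2 : (a * c.l + k * (e₁ * c.l)) / ((p.n : ℝ) ^ 5 * c.l / 4) =
        4 * (a + k * e₁) / (p.n : ℝ) ^ 5 := by
      have : (p.n : ℝ) ^ 5 ≠ 0 := by positivity
      field_simp
    rw [e2] at e1
    have e3 : 0 ≤ (a * c.l + k * (e₁ * c.l)) / (τ - e₁ * c.l) :=
      div_nonneg (by positivity) (by linarith)
    calc _ ≤ (a * c.l + k * (e₁ * c.l)) / (τ - e₁ * c.l) * 11 :=
          mul_le_mul_of_nonneg_left hlog e3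
      _ ≤ 4 * (a + k * e₁) / (p.n : ℝ) ^ 5 * 11 := mul_le_mul_of_nonneg_right e1 (by norm_num)
      _ = 44 * (a + k * e₁) / (p.n : ℝ) ^ 5 := by ring
  refine ⟨key.1.trans ?_, ?_⟩
  · have h3 := hb 3 (by norm_num)
    have h4 : 44 * (a + 3 * e₁) / (p.n : ℝ) ^ 5 ≤ 44 * a / (p.n : ℝ) ^ 5 + 132 * e₁ := by
      have : 44 * (a + 3 * e₁) / (p.n : ℝ) ^ 5 =
        44 * a / (p.n : ℝ) ^ 5 + 132 * e₁ / (p.n : ℝ) ^ 5 := by ring
      rw [this]
      have : 132 * e₁ / (p.n : ℝ) ^ 5 ≤ 132 * e₁ := div_le_self (by positivity) hn5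
      linarith
    have h5 : 44 * a / (p.n : ℝ) ^ 5 ≤ 50 * a / (p.n : ℝ) ^ 5 := by
      apply div_le_div_of_nonneg_right _ (by positivity)
      linarith
    linarith
  · have h2 := key.2
    have e0 : {t | cellk c.h p.W (c.yA • F.b) x (cs (E0 c.h (c.yA • F.b)) p₀ t) - ρ p₀ ≤
        a * c.l} = {t | hkR c.h (dOv F (c.y / 2) c.g) (Icc (x * p.W) ((x + 7 / 32) * p.W))
        ((x + 6 / 32) * p.W) ((x + 1 / 32) * p.W)
        (cs (E0 c.h (dOv F (c.y / 2) c.g)) p₀ t) - ρ p₀ ≤ a * c.l} := rfl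
    rw [e0]
    refine h2.trans ?_
    have h3 := hb 4 (by norm_num)
    have h4 : 44 * (a + 4 * e₁) / (p.n : ℝ) ^ 5 ≤ 44 * a / (p.n : ℝ) ^ 5 + 176 * e₁ := by
      have : 44 * (a + 4 * e₁) / (p.n : ℝ) ^ 5 =
        44 * a / (p.n : ℝ) ^ 5 + 176 * e₁ / (p.n : ℝ) ^ 5 := by ring
      rw [this]
      have : 176 * e₁ / (p.n : ℝ) ^ 5 ≤ 176 * e₁ := div_le_self (by positivity) hn5
      linarith
    have h5 : 44 * a / (p.n : ℝ) ^ 5 ≤ 50 * a / (p.n : ℝ) ^ 5 := by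
      apply div_le_div_of_nonneg_right _ (by positivity)
      linarith
    linarith

end Crest.Agent.R151.CL
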