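import Crest.Agent.R151.G338o
import Crest.Agent.R151.NF6
import Crest.Agent.R151.Q8c

/-!
# R151 (S0214 part 2): `LowData` and `UpData` for configurations (helper338)

`c : Cf G F w0 c0 K p` with `c.Len` (NF6), `c.Ht y g` (A-rows and B-rows); all slacks are `≤ g`.
* `low_of` : `LowData`, `Δ = 2 g`, box size `NN F p A`;
* `fLo`, `fUp` : observables of the gap fences `[f, f + z]`;
* `up_of` : `UpData` with these fences.
-/

set_option autoImplicit false
set_option linter.unusedSectionVars false

open MeasureTheory Filter ProbabilityTheory Topology Set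
open Crest.ProbabilityR.FirstPassage
open Crest.Agent.R151.K Crest.Agent.R151.Q

namespace Crest.Agent.R151.NF

open B710 (FlatData)
open M56 (mg one_le_mg)

variable {μ : ℝ × ℝ → ℝ} {G : Measure ℝ} {F : FlatData μ} {w0 c0 K : ℝ} {p : Num}

/-- size of the boxes of the shape deviations; translations `|x| ≤ A W` -/
noncomputable def NN (F : FlatData μ) (p : Num) (A : ℝ) : ℕ :=
  ⌈((2 * p.v' + 1 + A) * ‖F.a‖ + ‖F.b‖ + 1) * p.W⌉₊

/-- all margins together -/
lemma Cf.Len.margins {c : Cf G F w0 c0 K p} (hl : c.Len) {y g : ℝ} (h : c.Ht y g) :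
    c.h.wH + c.h.κ + 4 * mg F + 6 * cF F + 4 ≤ g := by
  have h1 := hl.wH_eq
  have h2 := hl.mg_le
  have h3 := hl.sl_le
  have h4 := hl.sl_nonneg
  have h5 := one_le_mg F
  have h7 := hl.κ_le'
  have h8 := h.g_ge
  have h9 := hl.one_le_w
  have h10 := cF_nonneg F
  linarith

/-- **`LowData` for configurations** -/
theorem low_of {c : Cf G F w0 c0 K p} (hl : c.Len) {y g : ℝ} (h : c.Ht y g) {x : ℝ}
    (hgeo : Geo c.h y g x c.lam c.L) {A : ℝ} (hx : |x| ≤ A * p.W)
    {α β α' β' s s' σ σ' : ℝ} (h1 : -c.lam ≤ α) (h2 : α + g ≤ β) (h3 : β ≤ c.lam)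
    (h4 : α' + x + g ≤ α) (h5 : β + g ≤ β' + x) (h6 : -c.L ≤ s) (h7 : s ≤ β - g)
    (h8 : α + g ≤ s') (h9 : s' ≤ c.L) (h10 : σ + x + 3 * g ≤ s) (h11 : s' + 3 * g ≤ σ' + x) :
    LowData c.h y g x c.lam c.L (Icc α β) (Icc α' β') s s' σ σ' (2 * g) (NN F p A) := by
  have m := hl.margins h
  have hcF := cF_nonneg F
  have hκ := c.h.κ_nonneg
  have hwH := c.h.wH_nonneg'
  have hmg := one_le_mg F
  have hrow := hl.row h
  have hbe : F.be (dOv F y g) = y + 2 * g := be_dOv y g
  have hL := hl.lam_eq
  have hWL := hl.WL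
  have hW : 0 < p.W := zero_lt_one.trans_le hl.W
  have hgW := hl.gW
  have hgg := h.g_le
  have hg0 := hl.g_pos
  exact
    { geo := hgeo
      hIJ := Icc_subset_Icc h1 h3
      hII' := by
        intro z hz u hu
        have hu' := abs_le.1 hu
        constructor
        · linarith [hz.1, hu'.2]
        · linarith [hz.2, hu'.1]
      hs1 := h6
      hs2 := by linarith
      hs3 := by linarith
      hs4 := h9
      hσ := by linarith
      hσ' := by linarith
      hΔ := by linarith
      hN := by
        refine le_trans ?_ (Nat.le_ceil _)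
        have a1 : (c.L + 2 * cF F + |x|) * ‖F.a‖ ≤ ((2 * p.v' + 1 + A) * p.W) * ‖F.a‖ := by
          refine mul_le_mul_of_nonneg_right ?_ (norm_nonneg _)
          have e1 : c.L = 2 * p.v' * p.W := rfl
          rw [e1]
          nlinarith
        have a2 : (c.h.wH + g + cF F) * ‖F.b‖ ≤ p.W * ‖F.b‖ := by
          refine mul_le_mul_of_nonneg_right ?_ (norm_nonneg _)
          linarith
        have a3 : 1 ≤ p.W := hl.W
        nlinarith
      hne := by
        refine rt_out (σ₁ := max s α + mg F) (σ₂ := α + mg F) (by linarith) ?_ (by linarith) ?_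
        · linarith [le_max_left s α]
        · have b1 : max s α ≤ β - g := max_le h7 (by linarith)
          have b2 : α ≤ max s α := le_max_right s α
          apply Icc_subset_Icc
          · rw [min_eq_right (by linarith)]; linarith
          · rw [max_eq_left (by linarith)]; linarith
      hneJ := rt_gauge_out (by linarith) (by linarith) (by linarith) }

/-- observable of the fence `[f, f + z]` of the lower gap -/
noncomputable def fLo (c : Cf G F w0 c0 K p) (g x f z : ℝ) : Ob :=
  obLo c.h g x f (f + z) c.L f (f + z + g - x)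

/-- observable of the fence `[f, f + z]` of the upper gap -/
noncomputable def fUp (c : Cf G F w0 c0 K p) (y g x f z : ℝ) : Ob :=
  obUp c.h y g x f (f + z) c.L (f - x - g) (f + z + g)

/-- **`UpData` for configurations**: outer labels `s → s'`, lane `[α - κ, β + κ]`, inner labels
`σ → σ'` relative to `x`, fences `[f₀, f₀ + z]`, `[f₁, f₁ + z]`. -/
theorem up_of {c : Cf G F w0 c0 K p} (hl : c.Len) {y g : ℝ} (h : c.Ht y g) {x : ℝ}
    (hgeo : Geo c.h y g x c.lam c.L)
    {α β s s' αi βi σ σ' f₀ f₁ z : ℝ} (hz : 2 * mg F ≤ z)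
    (h1 : -c.L ≤ s) (h2 : s' ≤ c.L) (h3 : α ≤ f₀) (h4 : f₀ + z ≤ β) (h5 : s ≤ f₀)
    (h6 : f₀ + z + g ≤ σ + x) (h7 : α ≤ f₁) (h8 : f₁ + z ≤ β) (h9 : σ' + x + g ≤ f₁)
    (h10 : f₁ + z + g ≤ s') (h11 : α + g ≤ αi + x) (h12 : βi + x + g ≤ β) (h13 : αi + g ≤ βi)
    (h14 : σ ≤ βi - g) (h15 : αi + g ≤ σ') :
    UpData c.h y g x c.lam c.L α β s s' αi βi σ σ' f₀ (f₀ + z) f₀ (f₀ + z + g - x) f₁ (f₁ + z)
      (f₁ - x - g) (f₁ + z + g) := by
  have m := hl.margins h
  have hcF := cF_nonneg F
  have hκ := c.h.κ_nonneg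
  have hwH := c.h.wH_nonneg'
  have hmg := one_le_mg F
  have hrow := hl.row h
  have hbe : F.be (dOv F y g) = y + 2 * g := be_dOv y g
  have hL := hl.lam_eq
  have hWL := hl.WL
  have hW : 0 < p.W := zero_lt_one.trans_le hl.W
  have hgW := hl.gW
  have hgg := h.g_le
  exact
    { geo := hgeo
      hs1 := h1
      hs4 := h2
      hα₀ := h3
      hβ₀ := h4
      ha₀ := h5
      hb₀ := by linarith
      hα₁ := h7
      hβ₁ := h8
      ha₁ := by linarith
      hb₁ := by linarith
      hαi := by linarith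
      hβi := by linarith
      hne0 := rt_lo (σ₁ := f₀ + mg F) (σ₂ := f₀ + mg F) (by linarith) (by linarith) (by linarith)
        (by linarith) (by linarith) (by linarith) (by linarith)
      hne2 := rt_up (σ₁ := f₁ + mg F) (σ₂ := f₁ + mg F) (by linarith) (by linarith) (by linarith)
        (by linarith) (by linarith) (by linarith) (by linarith)
      hnei := by
        have b1 : max σ αi ≤ βi - g := max_le h14 (by linarith)
        refine rt_inn (σ₁ := max σ αi + mg F) (σ₂ := αi + mg F) (by linarith) ?_ (by linarith)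
          ?_ (by linarith) (by linarith) (by linarith)
        · linarith [le_max_left σ αi]
        · linarith [le_max_right σ αi]
      hne := by
        refine rt_out (σ₁ := f₀ + mg F) (σ₂ := f₁ + mg F) (by linarith) (by linarith)
          (by linarith) ?_
        apply Icc_subset_Icc
        · have : α + mg F ≤ min (f₀ + mg F) (f₁ + mg F) := le_min (by linarith) (by linarith)
          linarith
        · have : max (f₀ + mg F) (f₁ + mg F) ≤ β - mg F := max_le (by linarith) (by linarith)
          linarith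
      hneJ := rt_gauge_out (by linarith) (by linarith) (by linarith) }

lemma meas_fLo (c : Cf G F w0 c0 K p) (g x f z : ℝ) : (fLo c g x f z).Meas :=
  meas_obLo c.h g x c.L f (f + z) f (f + z + g - x)

lemma meas_fUp (c : Cf G F w0 c0 K p) (y g x f z : ℝ) : (fUp c y g x f z).Meas :=
  meas_obUp c.h y g x c.L f (f + z) (f - x - g) (f + z + g)

lemma inv_fLo (c : Cf G F w0 c0 K p) (g x f z : ℝ) : (fLo c g x f z).Iv :=
  inv_obLo c.h g x c.L f (f + z) f (f + z + g - x)

lemma inv_fUp (c : Cf G F w0 c0 K p) (y g x f z : ℝ) : (fUp c y g x f z).Iv :=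
  inv_obUp c.h y g x c.L f (f + z) (f - x - g) (f + z + g)

end Crest.Agent.R151.NF
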