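import Crest.Agent.R151.V21
import Crest.Agent.R151.M56d

/-!
# R151/V22 — mean of the sharp kernel, `S`-measurable gauge of the real row (helper52)

* `sk_eq` : `sk d I univ L s s' = hkY I s s' - hkY univ (-L) L + Y (-L) s (lower) + Y s' L (upper)`;
* `sk_integrable`, `sk_mean`, `sk_mean_le`, `sk_nonneg_ae`;
* `FenceMean` : the statement (R4) (owner 56);
* `far_rho_hwy` : `∫ |hk d univ (-L) L - ρ| ≤ 3 B`, `B` = mean of two far lanes.
-/

set_option autoImplicit false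
set_option linter.unusedSectionVars false

open MeasureTheory ProbabilityTheory Set
open scoped ENNReal
open Crest.ProbabilityR.FirstPassage

namespace Crest.Agent.R151.V

open Crest.Agent.R151.K
open R78 (routes hull hp)
open Q (pos Hwy HwyMean P0 UU UU2 phi rg Inv rate)
open M192 (Row mIL mB)
open M56 (mg one_le_mg nu row_nonempty hkY_integrable hkY_nonneg Y_lo Y_up)
open B710 (FlatData)

variable {μ : ℝ × ℝ → ℝ} {F : FlatData μ} {h : Hwy F}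

/-- the sharp kernel in terms of the excess kernels -/
theorem sk_eq (h : Hwy F) (d : ℝ × ℝ) (I J : Set ℝ) (L s s' : ℝ) (θ : ℝ × ℝ) (t : Environment)
    (φ : ℝ × ℝ) : h.sk d I J L s s' θ t φ =
      h.hkY d I s s' θ t φ - h.hkY d J (-L) L θ t φ + h.Y (-L) s φ.1 θ t +
        h.Y s' L φ.2 (θ - d) t := by
  unfold Hwy.sk Hwy.hkY Hwy.hk R78.hullY
  have e1 : h.Y (-L) s φ.1 θ t = hp t (phi F) (h.Lo θ t φ) (h.iL s θ t φ) -
      hp t (phi F) (h.Lo θ t φ) (h.iL (-L) θ t φ) := rfl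
  have e2 : h.Y s' L φ.2 (θ - d) t = hp t (phi F) (h.Up d θ t φ) (h.iU d L θ t φ) -
      hp t (phi F) (h.Up d θ t φ) (h.iU d s' θ t φ) := rfl
  rw [e1, e2]
  ring

section mean

variable {G : Measure ℝ} [IsProbabilityMeasure G] {ε : ℝ} (hM : HwyMean G h ε)
  (h0 : G (Set.Iio 0) = 0) (h2 : Integrable (fun x : ℝ => x ^ 2) G) {d : ℝ × ℝ}
  (hd : h.wH + 2 * mg F < F.be d)
include hM h0 h2 hd

lemma Y_lo0 (s s' : ℝ) :
    Integrable (fun q : Row (ℝ × ℝ) => h.Y s s' q.2.1 q.1.1 q.1.2) (nu G) ∧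
      ∫ q : Row (ℝ × ℝ), h.Y s s' q.2.1 q.1.1 q.1.2 ∂(nu G) = (s' - s) * ε := by
  have := Y_lo (G := G) hM s s' 0
  simpa only [sub_zero] using this

/-- `hkY univ` between two labels -/
lemma hkYu_integrable (a b : ℝ) :
    Integrable (fun q : Row (ℝ × ℝ) => h.hkY d univ a b q.1.1 q.1.2 q.2) (nu G) :=
  hkY_integrable hM h0 h2 hd MeasurableSet.univ (σ₁ := a + mg F)
    (σ₂ := b + F.al d - mg F - h.κ - 1) (by linarith) (by linarith) (subset_univ _)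

lemma hkYu_nonneg (hμ : IsTC G μ) (a b : ℝ) :
    0 ≤ ∫ q : Row (ℝ × ℝ), h.hkY d univ a b q.1.1 q.1.2 q.2 ∂(nu G) :=
  hkY_nonneg hM h0 h2 hd MeasurableSet.univ (σ₁ := a + mg F)
    (σ₂ := b + F.al d - mg F - h.κ - 1) (by linarith) (by linarith) (subset_univ _) hμ

variable {I : Set ℝ} (hI : MeasurableSet I) {s s' σ₁ σ₂ : ℝ} (hs : s + mg F ≤ σ₁)
  (hs' : σ₂ + mg F + h.κ < s' + F.al d)
  (hIc : Set.Icc (min σ₁ σ₂ - mg F) (max σ₁ σ₂ + mg F) ⊆ I)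
include hI hs hs' hIc

theorem sk_integrable (L : ℝ) :
    Integrable (fun q : Row (ℝ × ℝ) => h.sk d I univ L s s' q.1.1 q.1.2 q.2) (nu G) := by
  have i1 := hkY_integrable hM h0 h2 hd hI hs hs' hIc
  have i2 := hkYu_integrable hM h0 h2 hd (-L) L
  have i3 := (Y_lo0 hM h0 h2 hd (-L) s).1
  have i4 := (Y_up (G := G) hM s' L d).1
  have e : (fun q : Row (ℝ × ℝ) => h.sk d I univ L s s' q.1.1 q.1.2 q.2) = fun q =>
      h.hkY d I s s' q.1.1 q.1.2 q.2 - h.hkY d univ (-L) L q.1.1 q.1.2 q.2 +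
        h.Y (-L) s q.2.1 q.1.1 q.1.2 + h.Y s' L q.2.2 (q.1.1 - d) q.1.2 := by
    funext q; exact sk_eq h d I univ L s s' _ _ _
  rw [e]
  exact ((i1.sub i2).add i3).add i4

theorem sk_mean (L : ℝ) :
    ∫ q : Row (ℝ × ℝ), h.sk d I univ L s s' q.1.1 q.1.2 q.2 ∂(nu G) =
      ∫ q : Row (ℝ × ℝ), h.hkY d I s s' q.1.1 q.1.2 q.2 ∂(nu G) -
        ∫ q : Row (ℝ × ℝ), h.hkY d univ (-L) L q.1.1 q.1.2 q.2 ∂(nu G) +
        (2 * L + s - s') * ε := by
  have i1 := hkY_integrable hM h0 h2 hd hI hs hs' hIc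
  have i2 := hkYu_integrable hM h0 h2 hd (-L) L
  obtain ⟨i3, e3⟩ := Y_lo0 hM h0 h2 hd (-L) s
  obtain ⟨i4, e4⟩ := Y_up (G := G) hM s' L d
  have e : (fun q : Row (ℝ × ℝ) => h.sk d I univ L s s' q.1.1 q.1.2 q.2) = fun q =>
      h.hkY d I s s' q.1.1 q.1.2 q.2 - h.hkY d univ (-L) L q.1.1 q.1.2 q.2 +
        h.Y (-L) s q.2.1 q.1.1 q.1.2 + h.Y s' L q.2.2 (q.1.1 - d) q.1.2 := by
    funext q; exact sk_eq h d I univ L s s' _ _ _
  have f1 := integral_add ((i1.sub i2).add i3) i4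
  have f2 := integral_add (i1.sub i2) i3
  have f3 := integral_sub i1 i2
  simp only [Pi.add_apply, Pi.sub_apply] at f1 f2 f3
  rw [e, f1, f2, f3, e3, e4]
  ring

theorem sk_mean_le (hμ : IsTC G μ) (L : ℝ) :
    ∫ q : Row (ℝ × ℝ), h.sk d I univ L s s' q.1.1 q.1.2 q.2 ∂(nu G) ≤
      ∫ q : Row (ℝ × ℝ), h.hkY d I s s' q.1.1 q.1.2 q.2 ∂(nu G) + (2 * L + s - s') * ε := by
  rw [sk_mean hM h0 h2 hd hI hs hs' hIc]
  have := hkYu_nonneg hM h0 h2 hd hμ (-L) L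
  linarith

omit hM h2 hI in
theorem sk_nonneg_ae {L : ℝ} (hL : -L ≤ s) (hL' : s' ≤ L) :
    ∀ᵐ q : Row (ℝ × ℝ) ∂(nu G), 0 ≤ h.sk d I univ L s s' q.1.1 q.1.2 q.2 := by
  have h1 : ∀ᵐ q : Row (ℝ × ℝ) ∂(nu G), Nn q.1.2 := ae_Nn_row h0 (UU.prod UU)
  filter_upwards [h1] with q hq
  have := h.hk_mono hq d (subset_univ I) hL hL'
    (row_nonempty (h := h) hd hs hs' hIc q.1.1 q.1.2 q.2)
  unfold Hwy.sk
  linarith

/-- Markov: the sharp kernel is at most `2 m` with probability `≥ 1/2` -/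
theorem sk_median (hμ : IsTC G μ) {L m : ℝ} (hL : -L ≤ s) (hL' : s' ≤ L)
    (hm : ∫ q : Row (ℝ × ℝ), h.hkY d I s s' q.1.1 q.1.2 q.2 ∂(nu G) + (2 * L + s - s') * ε ≤ m)
    {k : ℝ} (hk : 0 < k) (hm0 : 0 < m) :
    1 - 1 / k ≤ (nu G).real {q | h.sk d I univ L s s' q.1.1 q.1.2 q.2 ≤ k * m} := by
  have hi := sk_integrable hM h0 h2 hd hI hs hs' hIc L
  have h1 := (sk_mean_le hM h0 h2 hd hI hs hs' hIc hμ L).trans hm
  have h3 := sk_nonneg_ae (G := G) h0 hd hs hs' hIc hL hL'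
  have h4 := mul_meas_ge_le_integral_of_nonneg (μ := nu G) h3 hi (k * m)
  have h5 : (nu G).real {q | k * m ≤ h.sk d I univ L s s' q.1.1 q.1.2 q.2} ≤ 1 / k := by
    rw [le_div_iff₀ hk]
    have h6 := h4.trans h1
    have h7 : m * ((nu G).real {q | k * m ≤ h.sk d I univ L s s' q.1.1 q.1.2 q.2} * k) ≤
        m * 1 := by
      calc _ = k * m * (nu G).real {q | k * m ≤ h.sk d I univ L s s' q.1.1 q.1.2 q.2} := by ring
        _ ≤ m := h6
        _ = m * 1 := by ring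
    exact le_of_mul_le_mul_left h7 hm0
  have hmeas : Measurable fun q : Row (ℝ × ℝ) => h.sk d I univ L s s' q.1.1 q.1.2 q.2 :=
    h.meas_sk (measurable_fst.comp measurable_fst) (measurable_snd.comp measurable_fst)
      measurable_snd d hI MeasurableSet.univ L s s'
  have h8 : (nu G).real {q | h.sk d I univ L s s' q.1.1 q.1.2 q.2 < k * m} =
      1 - (nu G).real {q | k * m ≤ h.sk d I univ L s s' q.1.1 q.1.2 q.2} := by
    rw [← probReal_compl_eq_one_sub (measurableSet_le measurable_const hmeas)]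
    congr 1
    ext q
    simp
  have h9 : (nu G).real {q | h.sk d I univ L s s' q.1.1 q.1.2 q.2 < k * m} ≤
      (nu G).real {q | h.sk d I univ L s s' q.1.1 q.1.2 q.2 ≤ k * m} :=
    measureReal_mono (fun q hq => le_of_lt (by simpa only [mem_ofPred_eq] using hq))
      (measure_ne_top _ _)
  linarith

end mean

/-- (R4): the mean cost of a fence of a row with displacement `d` (owner helper56) -/
def FenceMean (G : Measure ℝ) (h : Hwy F) (ε C w0 : ℝ) : Prop :=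
  ∀ (d : ℝ × ℝ) (y α β s s' : ℝ) (I : Set ℝ), MeasurableSet I → h.wH + C < F.be d →
    F.be d + h.wH + C < y → w0 ≤ β - α → s ≤ α → β - F.al d + h.κ < s' → Icc α β ⊆ I →
    ∫ q : Row (ℝ × ℝ), h.hkY d I s s' q.1.1 q.1.2 q.2 ∂(nu G) ≤
      y * rate G F (β - α) + (s' - s + β - α + h.κ + 1 + F.al d) * ε

/-- **the `S`-measurable gauge** from two far lanes `[α₁, β₁]`, `[α₂, β₂]` -/
theorem far_rho_hwy {G : Measure ℝ} [IsProbabilityMeasure G] {ε : ℝ} (hM : HwyMean G h ε)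
    (h0 : G (Set.Iio 0) = 0) (h2 : Integrable (fun x : ℝ => x ^ 2) G) (hμ : IsTC G μ)
    {d : ℝ × ℝ} (hd : h.wH + 2 * mg F < F.be d) {L α₁ β₁ α₂ β₂ : ℝ}
    (a1 : -L ≤ α₁) (a2 : α₁ + 2 * mg F ≤ β₁) (a3 : β₁ < α₂) (a4 : α₂ + 2 * mg F ≤ β₂)
    (a5 : α₂ + 2 * mg F + h.κ < L + F.al d) {B : ℝ}
    (b1 : ∫ q : Row (ℝ × ℝ), h.hkY d (Icc α₁ β₁) (-L) L q.1.1 q.1.2 q.2 ∂(nu G) ≤ B)
    (b2 : ∫ q : Row (ℝ × ℝ), h.hkY d (Icc α₂ β₂) (-L) L q.1.1 q.1.2 q.2 ∂(nu G) ≤ B) :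
    ∃ ρ : Row (ℝ × ℝ) → ℝ, Measurable ρ ∧ (∀ p t, ρ (cs (E0 h d) p t) = ρ p) ∧
      (∀ φ, Inv fun θ t => ρ ((θ, t), φ)) ∧
      Integrable (fun p => hkR h d univ (-L) L p - ρ p) (nu G) ∧
      ∫ p, |hkR h d univ (-L) L p - ρ p| ∂(nu G) ≤ 3 * B := by
  have hmg := one_le_mg F
  have s1 : -L + mg F ≤ α₁ + mg F := by linarith
  have s2 : α₁ + mg F + mg F + h.κ < L + F.al d := by linarith
  have s3 : Icc (min (α₁ + mg F) (α₁ + mg F) - mg F) (max (α₁ + mg F) (α₁ + mg F) + mg F) ⊆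
      Icc α₁ β₁ := by
    rw [min_self, max_self]
    exact Icc_subset_Icc (by linarith) (by linarith)
  have t1 : -L + mg F ≤ α₂ + mg F := by linarith
  have t2 : α₂ + mg F + mg F + h.κ < L + F.al d := by linarith
  have t3 : Icc (min (α₂ + mg F) (α₂ + mg F) - mg F) (max (α₂ + mg F) (α₂ + mg F) + mg F) ⊆
      Icc α₂ β₂ := by
    rw [min_self, max_self]
    exact Icc_subset_Icc (by linarith) (by linarith)
  refine far_rho h h0 d L (I1 := Icc α₁ β₁) (I2 := Icc α₂ β₂) measurableSet_Icc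
    measurableSet_Icc ?_ ?_ ?_ ?_ ?_ ?_ ?_ b1 b2
  · rw [Set.disjoint_left]
    intro x hx hx'
    exact absurd (hx.2.trans_lt (a3.trans_le hx'.1)) (lt_irrefl _)
  · exact ae_of_all _ fun p => row_nonempty (h := h) hd s1 s2 s3 p.1.1 p.1.2 p.2
  · exact ae_of_all _ fun p => row_nonempty (h := h) hd t1 t2 t3 p.1.1 p.1.2 p.2
  · exact hkYu_integrable hM h0 h2 hd (-L) L
  · exact hkY_integrable hM h0 h2 hd measurableSet_Icc s1 s2 s3
  · exact hkY_integrable hM h0 h2 hd measurableSet_Icc t1 t2 t3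
  · exact hkYu_nonneg hM h0 h2 hd hμ (-L) L

end Crest.Agent.R151.V
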