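import Crest.Agent.R151.CL684d
import Crest.Agent.R151.G338p
import Crest.Agent.R151.V22

/-!
# R151 / S0214 part 2, CL684e — (T2) for the fences of a configuration (owner helper684)

`ev_innerFence` : median of the inner fence; `ev_fenUp` : UpData of a fence (translation `0`);
`ev_fenT2` : exponential tail of a fence given the strips.
-/

set_option autoImplicit false
set_option maxHeartbeats 400000

open MeasureTheory ProbabilityTheory Filter Set
open scoped ENNReal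
open Crest.ProbabilityR.FirstPassage

namespace Crest.Agent.R151.CL

open Crest.Agent.R151.K
open B710 (FlatData)
open Q (Hwy P0 UU UU2 rg pos rate cF cF_nonneg UpData Geo Rt Jw dOv obK obD obG obJ obLo obUp NS
  PF ski sko rt_out rt_gauge_out rt_lo rt_up rt_inn)
open V (E0 cs posS typ hkR)
open NF
open M56 (mg)
open M192 (RowS PR)

variable {μ : ℝ × ℝ → ℝ} {G : Measure ℝ} {F : FlatData μ} {w0 c0 K : ℝ}

/-- smallness of the lengths with respect to `w W` -/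
structure Sm {p : NF.Num} (c : Cf G F w0 c0 K p) (w : ℝ) : Prop where
  w_pos : 0 < w
  w_le : w ≤ 1
  gw : 1024 * c.g ≤ w * p.W
  w0 : w0 ≤ w / 2 * p.W

/-- median of the inner fence `Icc αi (αi + w W / 2)` -/
theorem ev_innerFence [IsProbabilityMeasure G] (h0 : G (Set.Iio 0) = 0)
    (h2 : Integrable (fun x : ℝ => x ^ 2) G) (hμ : IsTC G μ) (hc0 : 0 < c0)
    (Vf : ℕ → ℝ → ℝ → ℝ → ℝ) :
    Ev fun p => ∀ c : Cf G F w0 c0 K p, ∀ w αi : ℝ, Sm c w → |αi| ≤ Vf p.n p.δ p.v p.e * p.W →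
      (1 : ℝ) / 2 ≤ (PR G).real {q | ski c.h (c.y / 2) (Icc αi (αi + w / 2 * p.W)) c.L αi
        (αi + w / 2 * p.W + c.g) q ≤ 130 / w ^ 3 * c.l} := by
  refine (((ev_lens (G := G) (F := F) (w0 := w0) (c0 := c0) (K := K)).and
    (highway_small (G := G) (F := F) (w0 := w0) (K := K) hc0
      fun _ _ _ _ v' _ _ => 2 + 4 * v')).and
    ((gap_le fun _ _ _ _ _ => 1024).and (le_v' fun n δ v e => Vf n δ v e + 2))).mono ?_
  rintro p ⟨⟨hlen, hhw⟩, hgap, hv'⟩ c w αi hw hαi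
  have hl := hlen c
  have hW : 0 < p.W := zero_lt_one.trans_le hl.W
  have hgap : 1024 * c.g ≤ p.W := hgap
  have hgp := hl.g_pos
  have hwH := hl.wH_eq
  have hmg := mg_nonneg F
  have hcF := cF_nonneg F
  have hκ0 := c.h.κ_nonneg
  have hk := hl.κ_le'
  have hm := hl.mg_le
  have hsl := hl.sl_le
  have hsl0 := hl.sl_nonneg
  have hg1 := hw.gw
  have hlam : (Vf p.n p.δ p.v p.e + 2) * p.W ≤ c.lam := by
    unfold Cf.lam
    exact mul_le_mul_of_nonneg_right hv' hW.le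
  have hL := hl.lam_eq
  have hα := abs_le.1 hαi
  have hrow := hl.row (Cf.htA (c := c) hl.toC)
  have hbe : F.be ((c.y / 2) • F.b) = c.y / 2 := M192.be_smul_b F _
  have hal : F.al ((c.y / 2) • F.b) = 0 := by rw [map_smul, F.al_b, smul_zero]
  have hwW : w * p.W ≤ p.W := by
    have := mul_le_mul_of_nonneg_right hw.w_le hW.le
    linarith
  have hε := c.mean.nonneg
  have hd : c.h.wH + 2 * mg F < F.be ((c.y / 2) • F.b) := by rw [hbe]; exact hrow.2.2.2.1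
  have hs2 : αi + w / 2 * p.W + c.h.κ < αi + w / 2 * p.W + c.g + F.al ((c.y / 2) • F.b) := by
    rw [hal]; linarith
  have hfm := M56.fence_mean' (G := G) (I := Icc αi (αi + w / 2 * p.W)) (α := αi)
    (β := αi + w / 2 * p.W) (s := αi) (s2 := αi + w / 2 * p.W + c.g) (d := (c.y / 2) • F.b)
    c.mean h0 h2 hd measurableSet_Icc le_rfl hs2 subset_rfl (by linarith) hμ
    (y2 := c.y / 2 + c.g) (by rw [hbe]; linarith)
  have hrate : c.P * rate G F (w / 2 * p.W) ≤ 64 / w ^ 3 * c.l := by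
    have := P_rate_near c hl.toC (t := w / 2) (by linarith [hw.w_pos]) (by linarith [hw.w_le])
      hw.w0
    refine this.trans (le_of_eq ?_)
    ring
  have e0 : αi + w / 2 * p.W - αi = w / 2 * p.W := by ring
  have hrate0 : 0 ≤ rate G F (w / 2 * p.W) := C710.rate_nonneg h0 h2 hμ F (by
    have h1 := C710.fn_nonneg F.al
    have h3 := C710.fn_nonneg F.be
    have h4 : mg F = 3 * (C710.fn F.al + C710.fn F.be) + 1 := rfl
    linarith)
  have hy2 : (c.y / 2 + c.g) * rate G F (w / 2 * p.W) ≤ c.P * rate G F (w / 2 * p.W) := by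
    refine mul_le_mul_of_nonneg_right ?_ hrate0
    have := c.P_eq
    linarith
  have hε2 : (αi + w / 2 * p.W + c.g - αi + (αi + w / 2 * p.W) - αi + c.h.κ + 1 +
      F.al ((c.y / 2) • F.b)) * c.ε ≤ 2 * p.W * c.ε := by
    refine mul_le_mul_of_nonneg_right ?_ hε
    rw [hal]
    linarith [hl.one_le_w]
  have hh : (2 + 4 * p.v') * (p.W * c.ε) ≤ c.l := hhw c
  have hLε : (2 * c.L + αi - (αi + w / 2 * p.W + c.g)) * c.ε ≤ 2 * c.L * c.ε := by
    refine mul_le_mul_of_nonneg_right ?_ hε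
    have := mul_pos (half_pos hw.w_pos) hW
    linarith
  have hLe : 2 * c.L * c.ε = 4 * p.v' * (p.W * c.ε) := by rw [c.L_eq]; ring
  have hl1 : c.l ≤ 1 / w ^ 3 * c.l := by
    have : 1 ≤ 1 / w ^ 3 := by
      rw [le_div_iff₀ (by have := hw.w_pos; positivity)]
      have := pow_le_one₀ hw.w_pos.le hw.w_le (n := 3)
      linarith
    have h3 := mul_le_mul_of_nonneg_right this hl.l_pos.le
    linarith
  have hmean : ∫ q : M192.Row (ℝ × ℝ), c.h.hkY ((c.y / 2) • F.b) (Icc αi (αi + w / 2 * p.W)) αi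
      (αi + w / 2 * p.W + c.g) q.1.1 q.1.2 q.2 ∂(M56.nu G) +
      (2 * c.L + αi - (αi + w / 2 * p.W + c.g)) * c.ε ≤ 65 / w ^ 3 * c.l := by
    rw [e0] at hfm
    have e1 : 65 / w ^ 3 * c.l = 64 / w ^ 3 * c.l + 1 / w ^ 3 * c.l := by ring
    rw [e1]
    linarith
  have hmed := V.sk_median (G := G) (h := c.h) (d := (c.y / 2) • F.b) c.mean h0 h2 hd
    (I := Icc αi (αi + w / 2 * p.W)) measurableSet_Icc (s := αi)
    (s' := αi + w / 2 * p.W + c.g) (σ₁ := αi + w / 4 * p.W) (σ₂ := αi + w / 4 * p.W)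
    (by linarith) (by rw [hal]; linarith) (by
      rw [min_self, max_self]
      exact Icc_subset_Icc (by linarith) (by linarith)) hμ (L := c.L) (m := 65 / w ^ 3 * c.l)
    (by linarith) (by linarith) hmean (k := 2) (by norm_num) (by
      have := hw.w_pos
      have := hl.l_pos
      positivity)
  have e2 : 2 * (65 / w ^ 3 * c.l) = 130 / w ^ 3 * c.l := by ring
  rw [e2] at hmed
  norm_num at hmed ⊢
  exact hmed

/-- **UpData of the fence** `[x W + sl, (x + w) W - sl]` -/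
theorem ev_fenUp (Vf : ℕ → ℝ → ℝ → ℝ → ℝ) :
    Ev fun p => ∀ c : Cf G F w0 c0 K p, ∀ x w z f₀ f₁ : ℝ, |x| ≤ Vf p.n p.δ p.v p.e → Sm c w →
      32 * z ≤ w → 32 * c.g ≤ z * p.W →
      x * p.W + c.sl + c.h.κ ≤ f₀ → f₀ ≤ x * p.W + c.sl + c.h.κ + w / 32 * p.W →
      f₀ + (3 * z + w / 2) * p.W + c.g ≤ f₁ → f₁ ≤ f₀ + (3 * z + w / 2 + w / 32) * p.W + c.g →
      UpData c.h (c.y / 2) c.g 0 c.lam c.L (x * p.W + c.sl + c.h.κ)
        ((x + w) * p.W - c.sl - c.h.κ) (x * p.W + c.sl) ((x + w) * p.W - c.sl)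
        (f₀ + 2 * z * p.W) (f₀ + 2 * z * p.W + w / 2 * p.W) (f₀ + 2 * z * p.W)
        (f₀ + 2 * z * p.W + w / 2 * p.W + c.g)
        f₀ (f₀ + z * p.W) f₀ (f₀ + z * p.W + c.g - 0)
        f₁ (f₁ + z * p.W) (f₁ - 0 - c.g) (f₁ + z * p.W + c.g) := by
  refine (((ev_lens (G := G) (F := F) (w0 := w0) (c0 := c0) (K := K)).and
    (NF.ev_geo (G := G) (F := F) (w0 := w0) (c0 := c0) (K := K)
      fun n δ v e => Vf n δ v e + 1)).and
    ((gap_le fun _ _ _ _ _ => 1024).and (le_v' fun n δ v e => Vf n δ v e + 2))).mono ?_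
  rintro p ⟨⟨hlen, hgeo⟩, hgap, hv'⟩ c x w z f₀ f₁ hx hw hz hg2 a1 a2 a3 a4
  have hl := hlen c
  have hW : 0 < p.W := zero_lt_one.trans_le hl.W
  have hgap : 1024 * c.g ≤ p.W := hgap
  have hgp := hl.g_pos
  have hwH := hl.wH_eq
  have hmg := mg_nonneg F
  have hcF := cF_nonneg F
  have hκ0 := c.h.κ_nonneg
  have hk := hl.κ_le'
  have hm := hl.mg_le
  have hsl := hl.sl_le
  have hsl0 := hl.sl_nonneg
  have hg1 := hw.gw
  have hlam : (Vf p.n p.δ p.v p.e + 2) * p.W ≤ c.lam := by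
    unfold Cf.lam
    exact mul_le_mul_of_nonneg_right hv' hW.le
  have hL := hl.lam_eq
  have hV0 : 0 ≤ Vf p.n p.δ p.v p.e := (abs_nonneg x).trans hx
  have hx' := abs_le.1 hx
  have hxW1 : -(Vf p.n p.δ p.v p.e * p.W) ≤ x * p.W := by
    have := mul_le_mul_of_nonneg_right hx'.1 hW.le
    linarith
  have hxW2 : x * p.W ≤ Vf p.n p.δ p.v p.e * p.W := mul_le_mul_of_nonneg_right hx'.2 hW.le
  have hVW : 0 ≤ Vf p.n p.δ p.v p.e * p.W := mul_nonneg hV0 hW.le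
  have hrow := hl.row (Cf.htA (c := c) hl.toC)
  have hyd : c.h.wH + 2 * mg F < c.y / 2 + 2 * c.g := by
    have := hrow.1
    rwa [Q.be_dOv] at this
  have hwW : w * p.W ≤ p.W := by
    have := mul_le_mul_of_nonneg_right hw.w_le hW.le
    linarith
  have hzW : 32 * (z * p.W) ≤ w * p.W := by
    have := mul_le_mul_of_nonneg_right hz hW.le
    linarith
  have hz0 : 0 ≤ z * p.W := by linarith
  have hg3 : c.h.wH + 2 * mg F + cF F < c.g := by linarith [hl.one_le_w]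
  refine
    { geo := hgeo c _ _ (Cf.htA (c := c) hl.toC) 0 (by rw [abs_zero]; positivity)
      hs1 := by linarith
      hs4 := by linarith
      hα₀ := a1
      hβ₀ := by linarith
      ha₀ := by linarith
      hb₀ := by linarith
      hα₁ := by linarith
      hβ₁ := by linarith
      ha₁ := by linarith
      hb₁ := by linarith
      hαi := by linarith
      hβi := by linarith
      hne0 := ?_
      hne2 := ?_
      hnei := ?_
      hne := ?_
      hneJ := ?_ }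
  · refine rt_lo (σ₁ := f₀ + z / 2 * p.W) (σ₂ := f₀ + z / 2 * p.W) hg3 ?_ ?_ ?_ ?_ ?_ ?_ <;>
      linarith
  · refine rt_up (σ₁ := f₁ + z / 2 * p.W) (σ₂ := f₁ + z / 2 * p.W) hg3 ?_ ?_ ?_ ?_ ?_ ?_ <;>
      linarith
  · refine rt_inn (σ₁ := f₀ + 2 * z * p.W + w / 4 * p.W) (σ₂ := f₀ + 2 * z * p.W + w / 4 * p.W)
      hrow.2.2.2.1 ?_ ?_ ?_ ?_ ?_ ?_ <;>
      linarith
  · refine rt_out (σ₁ := (x + w / 2) * p.W) (σ₂ := (x + w / 2) * p.W) hyd ?_ ?_ ?_
    · linarith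
    · linarith
    · rw [min_self, max_self]
      exact Icc_subset_Icc (by linarith) (by linarith)
  · exact rt_gauge_out hyd (by linarith) (by linarith)

/-- **(T2) for the fences**: exponential tail of a fence, given the strips -/
theorem ev_fenT2 {r₀ : ℝ} (hr : 0 < r₀) [IsProbabilityMeasure (gammaMeasure 1 r₀)]
    (h0 : gammaMeasure 1 r₀ (Set.Iio 0) = 0)
    (h2 : Integrable (fun x : ℝ => x ^ 2) (gammaMeasure 1 r₀)) (hμ : IsTC (gammaMeasure 1 r₀) μ)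
    (hc0 : 0 < c0) (Vf : ℕ → ℝ → ℝ → ℝ → ℝ) :
    Ev fun p => ∀ c : Cf (gammaMeasure 1 r₀) F w0 c0 K p,
      ∀ (x w z f₀ f₁ e₁ : ℝ) (ρ : RowS → ℝ), |x| ≤ Vf p.n p.δ p.v p.e → Sm c w →
      32 * z ≤ w → 32 * c.g ≤ z * p.W →
      x * p.W + c.sl + c.h.κ ≤ f₀ → f₀ ≤ x * p.W + c.sl + c.h.κ + w / 32 * p.W →
      f₀ + (3 * z + w / 2) * p.W + c.g ≤ f₁ → f₁ ≤ f₀ + (3 * z + w / 2 + w / 32) * p.W + c.g →
      0 < e₁ → 16 * e₁ ≤ 1 →
      Measurable ρ → (∀ p₀ t, ρ (cs (E0 c.h (dOv F (c.y / 2) c.g)) p₀ t) = ρ p₀) →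
      ∀ p₀ : RowS, p₀ ∈ posS c.h (dOv F (c.y / 2) c.g) →
      p₀ ∈ typ (gammaMeasure 1 r₀) (E0 c.h (dOv F (c.y / 2) c.g)) PF
        (NS (fLo c c.g 0 f₀ (z * p.W)) (e₁ * c.l)) e₁ →
      p₀ ∈ typ (gammaMeasure 1 r₀) (E0 c.h (dOv F (c.y / 2) c.g)) PF
        (NS (fUp c (c.y / 2) c.g 0 f₁ (z * p.W)) (e₁ * c.l)) e₁ →
      p₀ ∈ typ (gammaMeasure 1 r₀) (E0 c.h (dOv F (c.y / 2) c.g)) PF
        (NS (obJ c.h (c.y / 2) c.g c.lam c.L) (e₁ * c.l)) e₁ →
      p₀ ∈ typ (gammaMeasure 1 r₀) (E0 c.h (dOv F (c.y / 2) c.g)) PF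
        (NS (obG c.h (c.y / 2) c.g c.L ρ) (e₁ * c.l)) e₁ →
      ∀ a : ℝ, 0 ≤ a →
      (iidLaw (gammaMeasure 1 r₀)).real {t | a * c.l ≤ fenk c.h p.W c.sl w (c.yA • F.b) x
        (cs (E0 c.h (c.yA • F.b)) p₀ t) - ρ p₀} ≤ 2 * Real.exp (-(a * w ^ 3 / 1100)) := by
  refine (((ev_lens (G := gammaMeasure 1 r₀) (F := F) (w0 := w0) (c0 := c0) (K := K)).and
    (ev_fenUp (G := gammaMeasure 1 r₀) (F := F) (w0 := w0) (c0 := c0) (K := K) Vf)).and
    (ev_innerFence (G := gammaMeasure 1 r₀) (F := F) (w0 := w0) (c0 := c0) (K := K) h0 h2 hμ hc0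
      fun n δ v e => Vf n δ v e + 1)).mono ?_
  rintro p ⟨⟨hlen, hup⟩, hin⟩ c x w z f₀ f₁ e₁ ρ hx hw hz hg2 a1 a2 a3 a4 he he16 hρm hρS p₀ hpos
    hLo hUp hJ hG a ha
  have hl := hlen c
  have H := hup c x w z f₀ f₁ hx hw hz hg2 a1 a2 a3 a4
  have hW : 0 < p.W := zero_lt_one.trans_le hl.W
  have hlp := hl.l_pos
  have hw0 := hw.w_pos
  have hx' := abs_le.1 hx
  have hκ0 := c.h.κ_nonneg
  have hk := hl.κ_le'
  have hsl := hl.sl_le
  have hsl0 := hl.sl_nonneg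
  have hgW := hl.gW
  have hone := hl.one_le_w
  have hxW1 : -(Vf p.n p.δ p.v p.e * p.W) ≤ x * p.W := by
    have := mul_le_mul_of_nonneg_right hx'.1 hW.le
    linarith
  have hxW2 : x * p.W ≤ Vf p.n p.δ p.v p.e * p.W := mul_le_mul_of_nonneg_right hx'.2 hW.le
  have hzW : 32 * (z * p.W) ≤ p.W := by
    have h3 := mul_le_mul_of_nonneg_right hz hW.le
    have h4 := mul_le_mul_of_nonneg_right hw.w_le hW.le
    linarith
  have hwW : w * p.W ≤ p.W := by
    have := mul_le_mul_of_nonneg_right hw.w_le hW.le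
    linarith
  have hz0 : 0 ≤ z * p.W := by linarith [hl.g_pos]
  have hαi : |f₀ + 2 * z * p.W| ≤ (Vf p.n p.δ p.v p.e + 1) * p.W := by
    rw [abs_le]
    constructor <;> linarith
  have hmed := hin c w (f₀ + 2 * z * p.W) hw hαi
  have hτ0 : 0 ≤ 130 / w ^ 3 * c.l := by positivity
  have hA : 0 < e₁ * c.l := mul_pos he hlp
  have key := Q.T2c hr h0 H hρm hρS (A := e₁ * c.l) (e := e₁) (τ := 130 / w ^ 3 * c.l)
    (q₀ := 1 / 2) (a := a * c.l + e₁ * c.l) (p := p₀) hA he.le hτ0 (by norm_num) (by linarith)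
    (by positivity) hpos hLo hUp hJ hG hmed
  have e0 : {t | a * c.l ≤ fenk c.h p.W c.sl w (c.yA • F.b) x
        (cs (E0 c.h (c.yA • F.b)) p₀ t) - ρ p₀} =
      {t | a * c.l + e₁ * c.l - e₁ * c.l ≤ hkR c.h (dOv F (c.y / 2) c.g)
        (Set.Icc (x * p.W + c.sl + c.h.κ - c.h.κ) ((x + w) * p.W - c.sl - c.h.κ + c.h.κ))
        (x * p.W + c.sl) ((x + w) * p.W - c.sl)
        (cs (E0 c.h (dOv F (c.y / 2) c.g)) p₀ t) - ρ p₀} := by
    have e1 : x * p.W + c.sl + c.h.κ - c.h.κ = x * p.W + c.sl := by ring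
    have e2 : (x + w) * p.W - c.sl - c.h.κ + c.h.κ = (x + w) * p.W - c.sl := by ring
    have e3 : a * c.l + e₁ * c.l - e₁ * c.l = a * c.l := by ring
    rw [e1, e2, e3]
    rfl
  rw [e0]
  refine key.trans ?_
  refine mul_le_mul_of_nonneg_left (Real.exp_le_exp.2 ?_) (by norm_num)
  have hw3 : 0 < w ^ 3 := by positivity
  have hw31 : w ^ 3 ≤ 1 := pow_le_one₀ hw0.le hw.w_le
  have hden : 130 / w ^ 3 * c.l + 6 * (e₁ * c.l) ≤ 131 / w ^ 3 * c.l := by
    have h5 : 6 * e₁ ≤ 1 / w ^ 3 := by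
      rw [le_div_iff₀ hw3]
      nlinarith
    have h6 := mul_le_mul_of_nonneg_right h5 hlp.le
    have h7 : 131 / w ^ 3 * c.l = 130 / w ^ 3 * c.l + 1 / w ^ 3 * c.l := by ring
    linarith
  have hpos2 : 0 < 130 / w ^ 3 * c.l + 6 * (e₁ * c.l) := by positivity
  have h8 : a * w ^ 3 / 131 ≤ (a * c.l + e₁ * c.l) / (130 / w ^ 3 * c.l + 6 * (e₁ * c.l)) := by
    have h9 : a * c.l / (131 / w ^ 3 * c.l) = a * w ^ 3 / 131 := by
      field_simp
    rw [← h9]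
    calc a * c.l / (131 / w ^ 3 * c.l) ≤ a * c.l / (130 / w ^ 3 * c.l + 6 * (e₁ * c.l)) :=
          div_le_div_of_nonneg_left (by positivity) hpos2 hden
      _ ≤ _ := div_le_div_of_nonneg_right (by linarith) hpos2.le
  have h10 : 0 ≤ a * w ^ 3 := by positivity
  have h11 : -(1 / 2 / 4) * ((a * c.l + e₁ * c.l) / (130 / w ^ 3 * c.l + 6 * (e₁ * c.l))) ≤
      -(1 / 8) * (a * w ^ 3 / 131) := by
    have := mul_le_mul_of_nonneg_left h8 (by norm_num : (0 : ℝ) ≤ 1 / 8)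
    linarith
  linarith

end Crest.Agent.R151.CL
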