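import Crest.Agent.R151.R78K
import Crest.Agent.R151.C710h

/-!
# R151 / S0214 part 2, M56b — explicit routes: deterministic part (helper56)

* `routes_bdd`: the routes are always bounded below (nonnegative weights);
* `exists_open_of_walk`: a walk crossing two highways contains an open crossing, not more expensive;
* `hull_le_pR`: upper bound of a hull cost by a restricted passage time;
* `exists_segw`: a walk of length `n1 (y - x)` staying within `ℓ¹`-distance `2` of the segment.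
-/

set_option autoImplicit false

open MeasureTheory Filter ProbabilityTheory Topology
open Crest.ProbabilityR.FirstPassage

namespace Crest.Agent.R151.M56

open Crest.Agent.R151.K
open R78 (V Wk IsHwy hc hp stepc hull routes IsOpen shp hullY ptY gapK IsStrip Frame IsPos Back Sep
  exists_first exists_last mem_support_append mem_tail_append mem_dropLast_append hc_mono)
open C710 (fn fn_nonneg abs_f_le)

section det

variable {t : Environment} {L U : ℤ → V} {A Z : Set V} {i j a b : ℤ}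

/-- routes are bounded below -/
lemma routes_bdd (ht : Nn t) (L U : ℤ → V) (A : Set V) (i j : ℤ) :
    BddBelow (routes t L U A i j) := by
  refine ⟨hc t L i - hc t U j, ?_⟩
  rintro _ ⟨z, w, hz, hw, g, -, rfl⟩
  have h1 := hc_mono ht L hz
  have h2 := hc_mono ht U hw
  have h3 := walkCost_nonneg ht g
  linarith

/-- a walk from `x` to `y` separated by the two highways contains an open crossing -/
lemma exists_open_of_walk {x y : V} (hL : Sep {x} (Set.range L) (Set.range U))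
    (hU : Sep {x} (Set.range U) {y}) (g : Wk x y) :
    ∃ (z w : ℤ) (o : Wk (L z) (U w)), IsOpen L U {v | v ∈ g.support} o ∧
      ∀ t, Nn t → walkCost t o ≤ walkCost t g := by
  obtain ⟨u, c, b, e, ⟨w, rfl⟩, hc⟩ := exists_first g (Set.range U) (hU x rfl y rfl g)
  obtain ⟨v, a, o, e', ⟨z, rfl⟩, ho⟩ := exists_last c (Set.range L) (hL x rfl _ ⟨w, rfl⟩ c)
  refine ⟨z, w, o, ⟨?_, ?_, ?_⟩, ?_⟩
  · intro v hv
    show v ∈ g.support
    rw [e, e', mem_support_append, mem_support_append]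
    exact Or.inl (Or.inr hv)
  · intro k hk; exact ho _ hk ⟨k, rfl⟩
  · intro k hk
    exact hc _ (by rw [e', mem_dropLast_append]; exact Or.inr hk) ⟨k, rfl⟩
  · intro t ht
    rw [e, e', walkCost_append, walkCost_append]
    have h1 := walkCost_nonneg ht a
    have h2 := walkCost_nonneg ht b
    linarith

/-- nonemptiness of the routes -/
lemma routes_nonempty {x y : V} (hL : Sep {x} (Set.range L) (Set.range U))
    (hU : Sep {x} (Set.range U) {y}) (hc : Conn Z x y) (hZ : Z ⊆ A)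
    (hZL : ∀ k, L k ∈ Z → i ≤ k) (hZU : ∀ k, U k ∈ Z → k ≤ j) :
    (routes t L U A i j).Nonempty := by
  obtain ⟨g, hg⟩ := hc
  obtain ⟨z, w, o, ho, -⟩ := exists_open_of_walk hL hU g
  exact ⟨_, z, w, hZL z (hg _ (ho.sub _ o.start_mem_support)),
    hZU w (hg _ (ho.sub _ o.end_mem_support)), o, ho.mono fun v hv => hZ (hg v hv), rfl⟩

/-- **upper bound of a hull cost** -/
theorem hull_le_pR (ht : Nn t) {x y : V} (hL : Sep {x} (Set.range L) (Set.range U))
    (hU : Sep {x} (Set.range U) {y}) (hc' : Conn Z x y) (hZ : Z ⊆ A)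
    (hZL : ∀ k, L k ∈ Z → i ≤ k ∧ k ≤ b) (hZU : ∀ k, U k ∈ Z → a ≤ k ∧ k ≤ j) :
    hull t L U A i j ≤ hc t L b - hc t U a + pR t Z x y := by
  have key : hull t L U A i j - (hc t L b - hc t U a) ≤ pR t Z x y := by
    refine le_pR hc' fun g hg => ?_
    obtain ⟨z, w, o, ho, hcost⟩ := exists_open_of_walk hL hU g
    have hz := hZL z (hg _ (ho.sub _ o.start_mem_support))
    have hw := hZU w (hg _ (ho.sub _ o.end_mem_support))
    have h1 := R78.hull_le (routes_bdd ht L U A i j) hz.1 hw.2 o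
      (ho.mono fun v hv => hZ (hg v hv))
    have h2 := hcost t ht
    have h3 := hc_mono ht L hz.2
    have h4 := hc_mono ht U hw.1
    linarith
  linarith

end det

/-! ### Segment walks -/

lemma adj_of_step1 (x : V) {σ : ℤ} (hσ : σ = 1 ∨ σ = -1) (p : ℤ) (c : ℤ) :
    squareLattice.Adj (x.1 + σ * p, c) (x.1 + σ * (p + 1), c) := by
  rcases hσ with rfl | rfl
  · have := adj_right (x.1 + 1 * p) c
    have e : x.1 + 1 * (p + 1) = x.1 + 1 * p + 1 := by ring
    rw [e]; exact this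
  · have := (adj_right (x.1 + -1 * (p + 1)) c).symm
    have e : x.1 + -1 * p = x.1 + -1 * (p + 1) + 1 := by ring
    rw [e]; exact this

lemma adj_of_step2 (x : V) {τ : ℤ} (hτ : τ = 1 ∨ τ = -1) (q : ℤ) (c : ℤ) :
    squareLattice.Adj (c, x.2 + τ * q) (c, x.2 + τ * (q + 1)) := by
  rcases hτ with rfl | rfl
  · have := adj_up c (x.2 + 1 * q)
    have e : x.2 + 1 * (q + 1) = x.2 + 1 * q + 1 := by ring
    rw [e]; exact this
  · have := (adj_up c (x.2 + -1 * (q + 1))).symm
    have e : x.2 + -1 * q = x.2 + -1 * (q + 1) + 1 := by ring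
    rw [e]; exact this

lemma segw_aux (x : V) {σ τ : ℤ} (hσ : σ = 1 ∨ σ = -1) (hτ : τ = 1 ∨ τ = -1) (P Q : ℕ) :
    ∀ n p q : ℕ, p ≤ P → q ≤ Q → (P - p) + (Q - q) = n → (p * Q : ℤ) - q * P ≤ Q →
      -(P : ℤ) ≤ p * Q - q * P →
      ∃ w : Wk (x.1 + σ * (p : ℤ), x.2 + τ * (q : ℤ)) (x.1 + σ * (P : ℤ), x.2 + τ * (Q : ℤ)),
        w.length = n ∧ ∀ z ∈ w.support, ∃ p' q' : ℕ, p' ≤ P ∧ q' ≤ Q ∧
          z = (x.1 + σ * (p' : ℤ), x.2 + τ * (q' : ℤ)) ∧ (p' * Q : ℤ) - q' * P ≤ Q ∧
          -(P : ℤ) ≤ p' * Q - q' * P := by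
  intro n
  induction n with
  | zero =>
    intro p q hp hq hn h1 h2
    obtain rfl : p = P := by omega
    obtain rfl : q = Q := by omega
    refine ⟨SimpleGraph.Walk.nil, rfl, fun z hz => ?_⟩
    rw [SimpleGraph.Walk.support_nil, List.mem_singleton] at hz
    exact ⟨p, q, le_rfl, le_rfl, hz, h1, h2⟩
  | succ n ih =>
    intro p q hp hq hn h1 h2
    by_cases hc : p < P ∧ (p * Q : ℤ) - q * P ≤ 0
    · obtain ⟨w, hw, hs⟩ := ih (p + 1) q hc.1 hq (by omega)
        (by push_cast; linarith [hc.2]) (by push_cast; linarith [(Nat.cast_nonneg Q : (0 : ℤ) ≤ Q)])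
      have hadj := adj_of_step1 x hσ (p : ℤ) (x.2 + τ * (q : ℤ))
      have e : ((p + 1 : ℕ) : ℤ) = (p : ℤ) + 1 := by push_cast; ring
      rw [← e] at hadj
      refine ⟨SimpleGraph.Walk.cons hadj w, by rw [SimpleGraph.Walk.length_cons, hw], ?_⟩
      intro z hz
      rw [SimpleGraph.Walk.support_cons, List.mem_cons] at hz
      rcases hz with rfl | hz
      · exact ⟨p, q, hp, hq, rfl, h1, h2⟩
      · exact hs z hz
    · have hq' : q < Q := by
        rcases Nat.lt_or_ge q Q with h | h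
        · exact h
        · exfalso
          obtain rfl : q = Q := by omega
          apply hc
          refine ⟨by omega, ?_⟩
          have : (p : ℤ) ≤ P := by exact_mod_cast hp
          have h0 : (0 : ℤ) ≤ q := Nat.cast_nonneg q
          nlinarith
      have hD : 0 ≤ (p * Q : ℤ) - q * P := by
        rcases Nat.lt_or_ge p P with h | h
        · by_contra hcon
          exact hc ⟨h, by omega⟩
        · obtain rfl : p = P := by omega
          have : (q : ℤ) ≤ Q := by exact_mod_cast hq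
          have h0 : (0 : ℤ) ≤ p := Nat.cast_nonneg p
          nlinarith
      obtain ⟨w, hw, hs⟩ := ih p (q + 1) hp hq' (by omega)
        (by push_cast; linarith [(Nat.cast_nonneg P : (0 : ℤ) ≤ P)]) (by push_cast; linarith)
      have hadj := adj_of_step2 x hτ (q : ℤ) (x.1 + σ * (p : ℤ))
      have e : ((q + 1 : ℕ) : ℤ) = (q : ℤ) + 1 := by push_cast; ring
      rw [← e] at hadj
      refine ⟨SimpleGraph.Walk.cons hadj w, by rw [SimpleGraph.Walk.length_cons, hw], ?_⟩
      intro z hz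
      rw [SimpleGraph.Walk.support_cons, List.mem_cons] at hz
      rcases hz with rfl | hz
      · exact ⟨p, q, hp, hq, rfl, h1, h2⟩
      · exact hs z hz

/-- **segment walk** -/
theorem exists_segw (x y : V) : ∃ w : Wk x y, w.length = n1 (y - x) ∧
    ∀ z ∈ w.support, ∃ l : ℝ, 0 ≤ l ∧ l ≤ 1 ∧
      l1 (toR z - toR x - l • (toR y - toR x)) ≤ 2 := by
  obtain ⟨σ, hσ, hσP⟩ : ∃ σ : ℤ, (σ = 1 ∨ σ = -1) ∧ ((y.1 - x.1).natAbs : ℤ) * σ = y.1 - x.1 := by
    rcases le_total 0 (y.1 - x.1) with h0 | h0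
    · exact ⟨1, Or.inl rfl, by omega⟩
    · exact ⟨-1, Or.inr rfl, by omega⟩
  obtain ⟨τ, hτ, hτQ⟩ : ∃ τ : ℤ, (τ = 1 ∨ τ = -1) ∧ ((y.2 - x.2).natAbs : ℤ) * τ = y.2 - x.2 := by
    rcases le_total 0 (y.2 - x.2) with h0 | h0
    · exact ⟨1, Or.inl rfl, by omega⟩
    · exact ⟨-1, Or.inr rfl, by omega⟩
  set P := (y.1 - x.1).natAbs with hP
  set Q := (y.2 - x.2).natAbs with hQ
  obtain ⟨w, hw, hs⟩ := segw_aux x hσ hτ P Q (P + Q) 0 0 (by omega) (by omega) (by omega)
    (by push_cast; linarith [(Nat.cast_nonneg Q : (0 : ℤ) ≤ Q)])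
    (by push_cast; linarith [(Nat.cast_nonneg P : (0 : ℤ) ≤ P)])
  have ex : ((x.1 + σ * ((0 : ℕ) : ℤ), x.2 + τ * ((0 : ℕ) : ℤ)) : V) = x := by simp
  have ey : ((x.1 + σ * (P : ℤ), x.2 + τ * (Q : ℤ)) : V) = y := by
    apply Prod.ext
    · simp only; rw [mul_comm]; linarith
    · simp only; rw [mul_comm]; linarith
  refine ⟨w.copy ex ey, ?_, fun z hz => ?_⟩
  · rw [SimpleGraph.Walk.length_copy, hw]
    simp only [n1, Prod.fst_sub, Prod.snd_sub, hP, hQ]
  rw [SimpleGraph.Walk.support_copy] at hz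
  obtain ⟨p, q, hp, hq, rfl, h1, h2⟩ := hs z hz
  have hσR : (P : ℝ) * σ = (y.1 : ℝ) - x.1 := by exact_mod_cast hσP
  have hτR : (Q : ℝ) * τ = (y.2 : ℝ) - x.2 := by exact_mod_cast hτQ
  have hσa : |(σ : ℝ)| = 1 := by rcases hσ with rfl | rfl <;> norm_num
  have hτa : |(τ : ℝ)| = 1 := by rcases hτ with rfl | rfl <;> norm_num
  rcases Nat.eq_zero_or_pos (P + Q) with h0 | h0
  · obtain rfl : p = 0 := by omega
    obtain rfl : q = 0 := by omega
    refine ⟨0, le_rfl, zero_le_one, ?_⟩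
    have e : toR ((x.1 + σ * ((0 : ℕ) : ℤ), x.2 + τ * ((0 : ℕ) : ℤ)) : V) = toR x := by
      rw [ex]
    rw [e]
    simp [l1]
  have hn : (0 : ℝ) < (P : ℝ) + Q := by exact_mod_cast h0
  have h1R : (p : ℝ) * Q - q * P ≤ Q := by exact_mod_cast h1
  have h2R : -(P : ℝ) ≤ (p : ℝ) * Q - q * P := by exact_mod_cast h2
  have hpP : (p : ℝ) ≤ P := by exact_mod_cast hp
  have hqQ : (q : ℝ) ≤ Q := by exact_mod_cast hq
  have hP0 : (0 : ℝ) ≤ P := Nat.cast_nonneg P
  have hQ0 : (0 : ℝ) ≤ Q := Nat.cast_nonneg Q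
  refine ⟨((p : ℝ) + q) / (P + Q), by positivity, (div_le_one hn).2 (by linarith), ?_⟩
  have e1 : (toR ((x.1 + σ * (p : ℤ), x.2 + τ * (q : ℤ)) : V) - toR x -
      (((p : ℝ) + q) / (P + Q)) • (toR y - toR x)).1 =
      σ * (((p : ℝ) * Q - q * P) / (P + Q)) := by
    simp only [toR, Prod.fst_sub, Prod.smul_fst, smul_eq_mul]
    rw [← hσR]
    push_cast
    field_simp
    ring
  have e2 : (toR ((x.1 + σ * (p : ℤ), x.2 + τ * (q : ℤ)) : V) - toR x -
      (((p : ℝ) + q) / (P + Q)) • (toR y - toR x)).2 =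
      -(τ * (((p : ℝ) * Q - q * P) / (P + Q))) := by
    simp only [toR, Prod.snd_sub, Prod.smul_snd, smul_eq_mul]
    rw [← hτR]
    push_cast
    field_simp
    ring
  have hb : |((p : ℝ) * Q - q * P) / (P + Q)| ≤ 1 := by
    rw [abs_div, abs_of_pos hn, div_le_one hn, abs_le]
    constructor <;> linarith
  unfold l1
  rw [e1, e2, abs_neg, abs_mul, abs_mul, hσa, hτa]
  linarith

/-- values of a linear functional along a segment walk -/
theorem exists_segw' (x y : V) : ∃ w : Wk x y, w.length = n1 (y - x) ∧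
    ∀ z ∈ w.support, ∀ f : ℝ × ℝ →L[ℝ] ℝ,
      min (f (toR x)) (f (toR y)) - 2 * fn f ≤ f (toR z) ∧
      f (toR z) ≤ max (f (toR x)) (f (toR y)) + 2 * fn f := by
  obtain ⟨w, hw, hs⟩ := exists_segw x y
  refine ⟨w, hw, fun z hz f => ?_⟩
  obtain ⟨l, hl0, hl1, hl⟩ := hs z hz
  have h1 := abs_f_le f (toR z - toR x - l • (toR y - toR x))
  have h2 : |f (toR z - toR x - l • (toR y - toR x))| ≤ 2 * fn f := by
    have := fn_nonneg f
    nlinarith
  rw [map_sub, map_sub, map_smul, map_sub, smul_eq_mul, abs_le] at h2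
  have h3 : min (f (toR x)) (f (toR y)) ≤ f (toR x) + l * (f (toR y) - f (toR x)) := by
    rcases le_total (f (toR x)) (f (toR y)) with h | h
    · rw [min_eq_left h]; nlinarith
    · rw [min_eq_right h]; nlinarith
  have h4 : f (toR x) + l * (f (toR y) - f (toR x)) ≤ max (f (toR x)) (f (toR y)) := by
    rcases le_total (f (toR x)) (f (toR y)) with h | h
    · rw [max_eq_right h]; nlinarith
    · rw [max_eq_left h]; nlinarith
  constructor <;> linarith

end Crest.Agent.R151.M56
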