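import Crest.Agent.R151.R78O
import Crest.Agent.R151.M192l
import Crest.Agent.R151.NF3

/-!
# R151/R78Q — the planar fields of `c.rowA T` for configurations, in `Ev` form (owner helper78)
-/

set_option autoImplicit false

open MeasureTheory Filter ProbabilityTheory Topology Set
open Crest.ProbabilityR.FirstPassage

namespace Crest.Agent.R151.R78

open Crest.Agent.R151.K Crest.Agent.R151.NF
open Q (Hwy)
open B710 (FlatData)
open M192 (RowOK Row skp frame)
open M56 (mg one_le_mg)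

variable {μ : ℝ × ℝ → ℝ}

/-- the slack conditions hold eventually, `δ ≤ 1/160`, and the row conditions hold for every range
`V n δ v e` of the positions -/
theorem ev_slack (G : Measure ℝ) (F : FlatData μ) (w0 c0 : ℝ) {K : ℝ} (hK : 0 ≤ K)
    (V : ℕ → ℝ → ℝ → ℝ → ℝ) :
    Ev fun p => ∀ c : Cf G F w0 c0 K p, Slack c.h p.W c.sl ∧ p.δ ≤ 1 / 160 ∧
      (1 ≤ V p.n p.δ p.v p.e →
        RowOK c.h p.W c.L c.yA c.l c.sl p.δ (V p.n p.δ p.v p.e) (mg F + 1)) := by
  refine (((((ev_soft G F w0 c0 hK).and (le_w ((frame F).esc + (frame F).stp + 1))).and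
    (le_δ0 fun _ _ _ _ _ _ => 128 * (K + 1))).and (le_δ fun _ => 160)).and
    ((le_L fun n δ v e => V n δ v e + 1).and (ev_std (G := G) (F := F) (w0 := w0) (c0 := c0)
      (K := K)))).mono ?_
  rintro p ⟨⟨⟨⟨h1, h2⟩, h3⟩, h4⟩, h5, h6⟩ c
  have hs := h6 c
  have hp := hs.toStd
  have hW : 0 < p.W := zero_lt_one.trans_le hp.W
  have hd : 0 < p.δ0 * p.W := mul_pos hp.δ0_pos hW
  have hesc := (frame F).esc_nonneg
  have hstp : 0 ≤ (frame F).stp := by unfold Frame.stp; positivity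
  have hκ := c.κ_le
  have hKd : 0 ≤ K * (p.δ0 * p.W) := mul_nonneg hK hd.le
  have hsl : c.sl = (K + 1) * (p.δ0 * p.W) := rfl
  have hsm : 128 * (K + 1) * p.δ0 * p.W ≤ 1 * p.W := mul_le_mul_of_nonneg_right h3 hW.le
  have hok := (h1 c).ok
  refine ⟨⟨?_, ?_, ?_⟩, by linarith, fun hV => ?_⟩
  · rw [hsl]; linarith
  · rw [hsl]; linarith
  · rw [hsl]; linarith
  · exact
      { W_pos := hok.W_pos
        l_pos := hok.l_pos
        wH_lt := hok.wH_lt
        C_nonneg := hok.C_nonneg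
        routable := hok.routable
        c_ge := hok.c_ge
        L_ge := h5
        v_ge := hV
        δ_nonneg := hok.δ_nonneg
        δ_le := hok.δ_le
        small := hok.small }

/-- **the fields `window` and `lane` of `(c.rowA T).Law`**, for every `T` and all `ω`, positions up to
`V n δ v e` -/
theorem ev_planar (G : Measure ℝ) (F : FlatData μ) (w0 c0 : ℝ) {K : ℝ} (hK : 0 ≤ K)
    (V : ℕ → ℝ → ℝ → ℝ → ℝ) :
    Ev fun p => ∀ c : Cf G F w0 c0 K p, ∀ T : Set (Row (ℝ × ℝ)),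
      (∀ (q : Row (ℝ × ℝ)) (s t x : ℝ) (m : ℕ), |s| ≤ V p.n p.δ p.v p.e →
        |t| ≤ V p.n p.δ p.v p.e → t ≤ x → x + 3 * m / 16 + 1 / 32 ≤ s →
        (c.rowA T).cross x m q ≤ (c.rowA T).K s t q) ∧
      (∀ (q : Row (ℝ × ℝ)) (x : ℝ), -(1 / 16) ≤ x → x < 1 / 8 →
        min ((c.rowA T).KL x q) (min ((c.rowA T).cross (5 / 32) 1 q)
          ((c.rowA T).cross (-(11 / 32)) 1 q)) ≤ (c.rowA T).K x (x + 5 * p.δ) q) := by
  refine (ev_slack G F w0 c0 hK fun n δ v e => max 1 (V n δ v e)).mono ?_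
  rintro p h c T
  obtain ⟨h1, h2, h3⟩ := h c
  have hO := h3 (le_max_left _ _)
  constructor
  · intro q s t x m hs ht htx hxs
    exact window_rowA hO h1 q s t x m (hs.trans (le_max_right _ _)) (ht.trans (le_max_right _ _))
      htx hxs
  · intro q x hx1 hx2
    exact lane_rowA hO h1 h2 q x hx1 hx2

/-- **exit inequality through `m ≥ 1` cells** for configurations: for `Λ ≤ V W`,
`min (window cost) (min (cross xR m) (cross xL m)) ≤ K s t`. -/
theorem ev_exit (G : Measure ℝ) (F : FlatData μ) (w0 c0 : ℝ) {K : ℝ} (hK : 0 ≤ K)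
    (V : ℕ → ℝ → ℝ → ℝ → ℝ) :
    Ev fun p => ∀ c : Cf G F w0 c0 K p, ∀ T : Set (Row (ℝ × ℝ)),
      ∀ (q : Row (ℝ × ℝ)) (s t xL xR lam : ℝ) (m : ℕ), 1 ≤ m → lam ≤ V p.n p.δ p.v p.e →
        t ≤ xR → xR + 3 * m / 16 + 1 / 32 ≤ lam → -lam ≤ xL → xL + 3 * m / 16 + 1 / 32 ≤ s →
        s ≤ lam → -lam ≤ t →
        min (skp c.h c.yA c.l c.L (Icc (-(lam * p.W)) (lam * p.W)) (s * p.W) (t * p.W) q)
          (min ((c.rowA T).cross xR m q) ((c.rowA T).cross xL m q)) ≤ (c.rowA T).K s t q := by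
  refine (ev_slack G F w0 c0 hK fun n δ v e => max 1 (V n δ v e)).mono ?_
  rintro p h c T q s t xL xR lam m hm hlam h4 h5 h6 h7 h8 h9
  obtain ⟨h1, h2, h3⟩ := h c
  have hO := h3 (le_max_left _ _)
  have hW := hO.W_pos
  have hlL : lam * p.W ≤ c.L := by
    have a1 := hO.L_ge
    have a2 : lam ≤ max 1 (V p.n p.δ p.v p.e) + 1 := by
      have := le_max_right 1 (V p.n p.δ p.v p.e)
      linarith
    exact (mul_le_mul_of_nonneg_right a2 hW.le).trans a1
  have e1 := mul_le_mul_of_nonneg_right h5 hW.le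
  have e2 := mul_le_mul_of_nonneg_right h6 hW.le
  have e3 := mul_le_mul_of_nonneg_right h8 hW.le
  have e4 := mul_le_mul_of_nonneg_right h9 hW.le
  exact exit_rowA (T := T) hO h1 q s t xL xR (-(lam * p.W)) (lam * p.W) hm h4 h7
    (by linarith) e1 (by linarith) (by linarith) (by linarith) (by linarith)

end Crest.Agent.R151.R78
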