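import Crest.Agent.R151.CL684e
import Crest.Agent.R151.R78Q

/-!
# R151 / S0214 part 2, CL684f — conditional inputs of the row law (owner helper684)

`GT c S ρ e₁ z η R N` : what is needed from the typical strips `S`; `ev_hsm`, `ev_htl`.
-/

set_option autoImplicit false
set_option maxHeartbeats 400000

open MeasureTheory ProbabilityTheory Filter Set
open scoped ENNReal
open Crest.ProbabilityR.FirstPassage

namespace Crest.Agent.R151.CL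

open Crest.Agent.R151.K
open B710 (FlatData)
open Q (Hwy P0 UU UU2 rg pos rate cF cF_nonneg UpData Geo Rt Jw dOv obK obD obG obJ obLo obUp NS
  PF ski sko rt_out rt_gauge_out rt_lo rt_up rt_inn)
open V (E0 cs posS typ hkR SInv)
open NF
open M56 (mg)
open M192 (RowS PR)

variable {μ : ℝ × ℝ → ℝ} {G : Measure ℝ} {F : FlatData μ} {w0 c0 K : ℝ}

/-- **typical strips**: `e₁` = level and thresholds, `z W` = width of the gap fences, `η` = mesh of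
the grids, `R` = range of the grids (units of `W`), `N` = box -/
structure GT {p : NF.Num} (c : Cf G F w0 c0 K p) (S : Set RowS) (ρ : RowS → ℝ) (e₁ z η R : ℝ)
    (N : ℕ) : Prop where
  meas : MeasurableSet S
  sinv : SInv (E0 c.h (dOv F (c.y / 2) c.g)) S
  pos : S ⊆ posS c.h (dOv F (c.y / 2) c.g)
  ρm : Measurable ρ
  ρS : ∀ p₀ t, ρ (cs (E0 c.h (dOv F (c.y / 2) c.g)) p₀ t) = ρ p₀
  N_ge : 2 * c.L * ‖F.a‖ + p.W * ‖F.b‖ + 1 ≤ N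
  tD : S ⊆ typ G (E0 c.h (dOv F (c.y / 2) c.g)) PF (NS (obD F (c.y / 2) c.g N) (e₁ * p.W)) e₁
  tG : S ⊆ typ G (E0 c.h (dOv F (c.y / 2) c.g)) PF
    (NS (obG c.h (c.y / 2) c.g c.L ρ) (e₁ * c.l)) e₁
  tJ : S ⊆ typ G (E0 c.h (dOv F (c.y / 2) c.g)) PF
    (NS (obJ c.h (c.y / 2) c.g c.lam c.L) (e₁ * c.l)) e₁
  tK : ∀ r : ℝ, |r| ≤ R * p.W → ∃ cg, r ≤ cg ∧ cg ≤ r + η * p.W ∧
    S ⊆ typ G (E0 c.h (dOv F (c.y / 2) c.g)) PF
      (NS (obK c.h (c.y / 2) c.g cg c.lam c.L) (e₁ * c.l)) e₁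
  tLo : ∀ r : ℝ, |r| ≤ R * p.W → ∃ f, r ≤ f ∧ f ≤ r + η * p.W ∧
    S ⊆ typ G (E0 c.h (dOv F (c.y / 2) c.g)) PF
      (NS (fLo c c.g 0 f (z * p.W)) (e₁ * c.l)) e₁
  tUp : ∀ r : ℝ, |r| ≤ R * p.W → ∃ f, r ≤ f ∧ f ≤ r + η * p.W ∧
    S ⊆ typ G (E0 c.h (dOv F (c.y / 2) c.g)) PF
      (NS (fUp c (c.y / 2) c.g 0 f (z * p.W)) (e₁ * c.l)) e₁

/-- (T1) for the cells of `GT` -/
theorem ev_gtT1 {r₀ : ℝ} (hr : 0 < r₀) [IsProbabilityMeasure (gammaMeasure 1 r₀)]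
    (h0 : gammaMeasure 1 r₀ (Set.Iio 0) = 0) (hμ : B710.NormLike μ) (Vf : ℕ → ℝ → ℝ → ℝ → ℝ) :
    ∃ e₂ : ℝ, 0 < e₂ ∧ Ev fun p => ∀ (c : Cf (gammaMeasure 1 r₀) F w0 c0 K p) (S : Set RowS)
      (ρ : RowS → ℝ) (e₁ z η R : ℝ) (N : ℕ), GT c S ρ e₁ z η R N →
      0 < e₁ → 16 * p.n ^ 5 * e₁ ≤ 1 → e₁ ≤ e₂ → 64 * η ≤ 1 → Vf p.n p.δ p.v p.e + 1 ≤ R →
      ∀ x : ℝ, |x| ≤ Vf p.n p.δ p.v p.e → ∀ p₀ ∈ S, ∀ a : ℝ, 0 ≤ a →
      (iidLaw (gammaMeasure 1 r₀)).real {t | sko c.h (c.y / 2) c.g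
        (Icc (x * p.W) ((x + 7 / 32) * p.W)) c.L ((x + 6 / 32) * p.W) ((x + 1 / 32) * p.W)
        (cs (E0 c.h (dOv F (c.y / 2) c.g)) p₀ t) ≤ a * c.l} ≤ 50 * a / p.n ^ 5 + 150 * e₁ ∧
      (iidLaw (gammaMeasure 1 r₀)).real {t | cellk c.h p.W (c.yA • F.b) x
        (cs (E0 c.h (c.yA • F.b)) p₀ t) - ρ p₀ ≤ a * c.l} ≤ 50 * a / p.n ^ 5 + 250 * e₁ := by
  obtain ⟨e₂, he₂, h⟩ := ev_cellT1 (F := F) (w0 := w0) (c0 := c0) (K := K) hr h0 hμ Vf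
  refine ⟨e₂, he₂, (h.and Ev.std).mono ?_⟩
  rintro p ⟨h, hp⟩ c S ρ e₁ z η R N gt he1 he2 he3 hη hR x hx p₀ hp₀ a ha
  have hW : 0 < p.W := zero_lt_one.trans_le hp.W
  have hx' := abs_le.1 hx
  have hRW := mul_le_mul_of_nonneg_right hR hW.le
  have hηW := mul_le_mul_of_nonneg_right hη hW.le
  have hxW1 : -(Vf p.n p.δ p.v p.e * p.W) ≤ x * p.W := by
    have := mul_le_mul_of_nonneg_right hx'.1 hW.le
    linarith
  have hxW2 : x * p.W ≤ Vf p.n p.δ p.v p.e * p.W := mul_le_mul_of_nonneg_right hx'.2 hW.le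
  obtain ⟨cg, h1, h2, h3⟩ := gt.tK ((x + 5 / 32) * p.W + p.W / 128) (by
    rw [abs_le]; constructor <;> linarith)
  exact h c x cg e₁ N ρ hx h1 (by linarith) gt.N_ge he1 he2 he3 gt.ρm gt.ρS p₀ (gt.pos hp₀)
    (h3 hp₀) (gt.tD hp₀) (gt.tG hp₀) a ha

/-- (T2) for the fences of `GT` -/
theorem ev_gtT2 {r₀ : ℝ} (hr : 0 < r₀) [IsProbabilityMeasure (gammaMeasure 1 r₀)]
    (h0 : gammaMeasure 1 r₀ (Set.Iio 0) = 0)
    (h2 : Integrable (fun x : ℝ => x ^ 2) (gammaMeasure 1 r₀)) (hμ : IsTC (gammaMeasure 1 r₀) μ)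
    (hc0 : 0 < c0) (Vf : ℕ → ℝ → ℝ → ℝ → ℝ) :
    Ev fun p => ∀ (c : Cf (gammaMeasure 1 r₀) F w0 c0 K p) (S : Set RowS)
      (ρ : RowS → ℝ) (e₁ z η R : ℝ) (N : ℕ), GT c S ρ e₁ z η R N →
      0 < e₁ → 16 * e₁ ≤ 1 → ∀ x w : ℝ, |x| ≤ Vf p.n p.δ p.v p.e → Sm c w → 32 * z ≤ w →
      32 * c.g ≤ z * p.W → 32 * η ≤ w → Vf p.n p.δ p.v p.e + 2 ≤ R → ∀ p₀ ∈ S, ∀ a : ℝ, 0 ≤ a →
      (iidLaw (gammaMeasure 1 r₀)).real {t | a * c.l ≤ fenk c.h p.W c.sl w (c.yA • F.b) x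
        (cs (E0 c.h (c.yA • F.b)) p₀ t) - ρ p₀} ≤ 2 * Real.exp (-(a * w ^ 3 / 1100)) := by
  refine ((ev_fenT2 (F := F) (w0 := w0) (c0 := c0) (K := K) hr h0 h2 hμ hc0 Vf).and
    (ev_lens (G := gammaMeasure 1 r₀) (F := F) (w0 := w0) (c0 := c0) (K := K))).mono ?_
  rintro p ⟨h, hlen⟩ c S ρ e₁ z η R N gt he1 he2 x w hx hw hz hg hη hR p₀ hp₀ a ha
  have hl := hlen c
  have hW : 0 < p.W := zero_lt_one.trans_le hl.W
  have hx' := abs_le.1 hx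
  have hRW := mul_le_mul_of_nonneg_right hR hW.le
  have hηW := mul_le_mul_of_nonneg_right hη hW.le
  have hzW := mul_le_mul_of_nonneg_right hz hW.le
  have hwW := mul_le_mul_of_nonneg_right hw.w_le hW.le
  have hκ0 := c.h.κ_nonneg
  have hk := hl.κ_le'
  have hsl := hl.sl_le
  have hsl0 := hl.sl_nonneg
  have hgW := hl.gW
  have hg0 := hl.g_pos
  have hone := hl.one_le_w
  have hxW1 : -(Vf p.n p.δ p.v p.e * p.W) ≤ x * p.W := by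
    have := mul_le_mul_of_nonneg_right hx'.1 hW.le
    linarith
  have hxW2 : x * p.W ≤ Vf p.n p.δ p.v p.e * p.W := mul_le_mul_of_nonneg_right hx'.2 hW.le
  have hw0 : 0 < w * p.W := mul_pos hw.w_pos hW
  obtain ⟨f₀, a1, a2, a3⟩ := gt.tLo (x * p.W + c.sl + c.h.κ) (by
    rw [abs_le]; constructor <;> linarith)
  obtain ⟨f₁, b1, b2, b3⟩ := gt.tUp (f₀ + (3 * z + w / 2) * p.W + c.g) (by
    rw [abs_le]; constructor <;> linarith)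
  exact h c x w z f₀ f₁ e₁ ρ hx hw hz hg a1 (by linarith) b1 (by linarith) he1 he2 gt.ρm gt.ρS p₀
    (gt.pos hp₀) (a3 hp₀) (b3 hp₀) (gt.tJ hp₀) (gt.tG hp₀) a ha

/-- numerics of the fences of width `1 / 32` and `1 / (4 n)` -/
theorem ev_sm : Ev fun p => ∀ (c : Cf G F w0 c0 K p) (w : ℝ), (w = 1 / 32 ∨ w = 1 / (4 * p.n)) →
    Sm c w ∧ 32 * (p.δ / 16) ≤ w ∧ 32 * (p.δ / 128) ≤ w ∧ 32 * c.g ≤ p.δ / 16 * p.W := by
  refine (((ev_lens (G := G) (F := F) (w0 := w0) (c0 := c0) (K := K)).and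
    (le_δ fun n => 8 * n + 64)).and
    (((gap_le fun n _ _ _ _ => 4096 * n + 32768).and (gap_le fun n δ _ _ _ => 512 / δ)).and
    (le_W fun n _ _ _ _ _ _ _ => (8 * n + 64) * |w0|))).mono ?_
  rintro p ⟨⟨hlen, hδ⟩, ⟨hg1, hg2⟩, hW0⟩ c w hw
  have hl := hlen c
  have hW : 0 < p.W := zero_lt_one.trans_le hl.W
  have hn1 : (1 : ℝ) ≤ p.n := by exact_mod_cast hl.n
  have hδ0 := hl.δ_pos
  have hg0 := hl.g_pos
  have hg1 : (4096 * p.n + 32768) * c.g ≤ p.W := hg1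
  have hg2 : 512 / p.δ * c.g ≤ p.W := hg2
  have hab := abs_nonneg w0
  have hab2 := le_abs_self w0
  have h4 : 32 * c.g ≤ p.δ / 16 * p.W := by
    rw [div_mul_eq_mul_div, div_le_iff₀ hδ0] at hg2
    linarith
  have hng : 0 ≤ (p.n : ℝ) * c.g := by positivity
  have hnw : 0 ≤ (p.n : ℝ) * |w0| := by positivity
  have hnδ : 0 ≤ (p.n : ℝ) * p.δ := by positivity
  rcases hw with rfl | rfl
  · refine ⟨⟨by norm_num, by norm_num, by linarith, ?_⟩, by linarith, by linarith, h4⟩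
    linarith
  · have h5 : 0 < 4 * (p.n : ℝ) := by linarith
    refine ⟨⟨by positivity, ?_, ?_, ?_⟩, ?_, ?_, h4⟩
    · rw [div_le_one h5]; linarith
    · rw [div_mul_eq_mul_div, le_div_iff₀ h5]
      linarith
    · rw [div_div, div_mul_eq_mul_div, le_div_iff₀ (by linarith)]
      nlinarith
    · rw [le_div_iff₀ h5]
      linarith
    · rw [le_div_iff₀ h5]
      linarith

/-- **conditional small balls of the cells**, in the form of `E191.law_of_cond` -/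
theorem ev_hsm {r₀ : ℝ} (hr : 0 < r₀) [IsProbabilityMeasure (gammaMeasure 1 r₀)]
    (h0 : gammaMeasure 1 r₀ (Set.Iio 0) = 0) (hμ : B710.NormLike μ) :
    Ev fun p => ∀ (c : Cf (gammaMeasure 1 r₀) F w0 c0 K p) (S : Set RowS)
      (ρ : RowS → ℝ) (R : ℝ) (N : ℕ), GT c S ρ (p.e ^ 2) (p.δ / 16) (p.δ / 128) R N →
      p.v + 1 / p.e + 1 ≤ R → ∀ x : ℝ, |x| ≤ p.v + 1 / p.e → ∀ p₀ ∈ S, ∀ y' : ℝ, 0 ≤ y' →
      (iidLaw (gammaMeasure 1 r₀)).real {t | cellk c.h p.W (c.yA • F.b) x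
        (cs (E0 c.h (c.yA • F.b)) p₀ t) - ρ p₀ ≤ y' * c.l} ≤
        1100 * y' / (p.n : ℝ) ^ 5 + 250 * p.e ^ 2 := by
  obtain ⟨e₂, he₂, h⟩ := ev_gtT1 (F := F) (w0 := w0) (c0 := c0) (K := K) hr h0 hμ
    fun _ _ v e => v + 1 / e
  refine ((h.and Ev.std).and (le_e fun n _ _ => 16 * (n : ℝ) ^ 5 + 1 / e₂)).mono ?_
  rintro p ⟨⟨h, hp⟩, he⟩ c S ρ R N gt hR x hx p₀ hp₀ y' hy'
  have he0 := hp.e_pos
  have he1 := hp.e_le
  have hδ1 := hp.δ_le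
  have hn0 : 0 ≤ (p.n : ℝ) ^ 5 := by positivity
  have h1 : 0 < 1 / e₂ := by positivity
  have hee : p.e ^ 2 ≤ p.e := by nlinarith
  have h3 : 16 * (p.n : ℝ) ^ 5 * p.e ^ 2 ≤ 1 := by
    have : 16 * (p.n : ℝ) ^ 5 * p.e ^ 2 ≤ 16 * (p.n : ℝ) ^ 5 * p.e :=
      mul_le_mul_of_nonneg_left hee (by positivity)
    have : 0 ≤ 1 / e₂ * p.e := by positivity
    linarith
  have h4 : p.e ^ 2 ≤ e₂ := by
    have h5 : 1 / e₂ * p.e ≤ 1 := by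
      have : 0 ≤ 16 * (p.n : ℝ) ^ 5 * p.e := by positivity
      linarith
    rw [div_mul_eq_mul_div, div_le_one he₂, one_mul] at h5
    linarith
  have h6 := (h c S ρ (p.e ^ 2) (p.δ / 16) (p.δ / 128) R N gt (by positivity) h3 h4
    (by linarith) hR x hx p₀ hp₀ y' hy').2
  refine h6.trans ?_
  have h7 : 50 * y' / (p.n : ℝ) ^ 5 ≤ 1100 * y' / (p.n : ℝ) ^ 5 :=
    div_le_div_of_nonneg_right (by linarith) hn0
  linarith

/-- **conditional tails of the fences**, in the form of `E191.law_of_cond` -/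
theorem ev_htl {r₀ : ℝ} (hr : 0 < r₀) [IsProbabilityMeasure (gammaMeasure 1 r₀)]
    (h0 : gammaMeasure 1 r₀ (Set.Iio 0) = 0)
    (h2 : Integrable (fun x : ℝ => x ^ 2) (gammaMeasure 1 r₀)) (hμ : IsTC (gammaMeasure 1 r₀) μ)
    (hc0 : 0 < c0) :
    Ev fun p => ∀ (c : Cf (gammaMeasure 1 r₀) F w0 c0 K p) (S : Set RowS)
      (ρ : RowS → ℝ) (R : ℝ) (N : ℕ), GT c S ρ (p.e ^ 2) (p.δ / 16) (p.δ / 128) R N →
      p.v + 1 / p.e + 2 ≤ R → ∀ w x : ℝ, (w = 1 / 32 ∨ w = 1 / (4 * p.n)) → |x| ≤ p.v + 1 / p.e →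
      ∀ p₀ ∈ S, ∀ y' : ℝ, 0 ≤ y' →
      (iidLaw (gammaMeasure 1 r₀)).real {t | y' * (1100 / w ^ 3) * c.l ≤
        fenk c.h p.W c.sl w (c.yA • F.b) x (cs (E0 c.h (c.yA • F.b)) p₀ t) - ρ p₀} ≤
        1100 * Real.exp (-y' / 1100) := by
  refine (((ev_gtT2 (F := F) (w0 := w0) (c0 := c0) (K := K) hr h0 h2 hμ hc0
    fun _ _ v e => v + 1 / e).and Ev.std).and ((le_e fun _ _ _ => 16).and
    (ev_sm (G := gammaMeasure 1 r₀) (F := F) (w0 := w0) (c0 := c0) (K := K)))).mono ?_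
  rintro p ⟨⟨h, hp⟩, he, hsm⟩ c S ρ R N gt hR w x hw hx p₀ hp₀ y' hy'
  obtain ⟨h1, h3, h4, h5⟩ := hsm c w hw
  have he0 := hp.e_pos
  have he1 := hp.e_le
  have hw0 := h1.w_pos
  have hee : p.e ^ 2 ≤ p.e := by nlinarith
  have hw3 : 0 < w ^ 3 := by positivity
  have h6 := h c S ρ (p.e ^ 2) (p.δ / 16) (p.δ / 128) R N gt (by positivity) (by linarith) x w hx
    h1 h3 h5 h4 hR p₀ hp₀ (y' * (1100 / w ^ 3)) (by positivity)
  refine h6.trans ?_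
  have e1 : y' * (1100 / w ^ 3) * w ^ 3 / 1100 = y' := by field_simp
  rw [e1]
  have h7 : Real.exp (-y') ≤ Real.exp (-y' / 1100) := by
    apply Real.exp_le_exp.2
    linarith
  have h8 := Real.exp_pos (-y' / 1100)
  linarith

end Crest.Agent.R151.CL
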