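import Crest.Agent.R151.E191A

/-!
# R151 / S0214 part 2, NF1 — monotonicity of the model of E191A in `C0` and `e` (helper710)
-/

set_option autoImplicit false

open MeasureTheory ProbabilityTheory Set

namespace Crest.Agent.R151.NF

universe u

variable {Ω : Type u}

lemma exp_tail_mono {C C' y : ℝ} (hC : 0 < C) (hCC : C ≤ C') (hy : 0 ≤ y) :
    C * Real.exp (-y / C) ≤ C' * Real.exp (-y / C') := by
  refine mul_le_mul hCC ?_ (Real.exp_pos _).le (hC.le.trans hCC)
  rw [Real.exp_le_exp, neg_div, neg_div, neg_le_neg_iff]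
  exact div_le_div_of_nonneg_left hy hC hCC

theorem law_mono {R : E191.RowA Ω} {m : MeasurableSpace Ω} [mΩ : MeasurableSpace Ω]
    {P : Measure Ω} [IsFiniteMeasure P] {C C' : ℝ} {n : ℕ} {δ v e e' : ℝ} (hC : 0 < C) (hCC : C ≤ C')
    (hn : 1 ≤ n) (hee : e ≤ e') (h : R.Law P m C n δ v e) : R.Law P m C' n δ v e' where
  K_meas := h.K_meas
  KL_meas := h.KL_meas
  F_meas := h.F_meas
  cell_meas := h.cell_meas
  T_meas := h.T_meas
  T_prob := h.T_prob.trans hee
  K_nonneg := h.K_nonneg
  K_mono := h.K_mono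
  K_anti := h.K_anti
  KL_nonneg := h.KL_nonneg
  F_nonneg := h.F_nonneg
  F_tail := by
    intro w x y hw hx hy
    have hn' : (0 : ℝ) < n := by exact_mod_cast hn
    have hw0 : 0 < w := by
      rcases hw with rfl | rfl
      · norm_num
      · positivity
    refine (measureReal_mono ?_).trans ((h.F_tail w x y hw hx hy).trans (exp_tail_mono hC hCC hy))
    refine inter_subset_inter_left _ fun ω hω => ?_
    simp only [mem_ofPred_eq] at hω ⊢
    refine le_trans ?_ hω
    gcongr
  F_int := h.F_int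
  F_ui := fun x hx => (h.F_ui x hx).trans hee
  cell_small := by
    intro x y hx hx' hy
    refine (h.cell_small x y hx hx' hy).trans ?_
    gcongr
  cells_large := by
    intro x m hx hx'
    refine (h.cells_large x m hx hx').trans ?_
    rw [Real.exp_le_exp, neg_le_neg_iff]
    have hlog : 0 ≤ Real.log n := Real.log_natCast_nonneg n
    have : Real.log n / C' ≤ Real.log n / C := div_le_div_of_nonneg_left hlog hC hCC
    gcongr
  window := h.window
  lane := h.lane

theorem cheap_mono {R : E191.RowA Ω} [mΩ : MeasurableSpace Ω] {P : Measure Ω} [IsFiniteMeasure P]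
    {C C' δ : ℝ} (hC : 0 < C) (hCC : C ≤ C') (h : R.Cheap P C δ) : R.Cheap P C' δ where
  int := h.int
  mean := h.mean
  tail := fun x y hx hx' hy => (h.tail x y hx hx' hy).trans (exp_tail_mono hC hCC hy)

theorem costly_mono {R : E191.RowA Ω} [mΩ : MeasurableSpace Ω] {P : Measure Ω}
    {C C' δ v e e' : ℝ} (hCC : C ≤ C') (hee : e ≤ e') (h : R.Costly P C δ v e) :
    R.Costly P C' δ v e' := by
  intro x κ hx hx' hκ
  refine (h x κ hx hx' hκ).trans ?_
  gcongr

/-- monotonicity of the strategy data -/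
def strat_mono {R : E191.RowA Ω} {m : MeasurableSpace Ω} [mΩ : MeasurableSpace Ω]
    {P : Measure Ω} {C C' : ℝ} {n : ℕ} {δ e e' : ℝ} (hCC : C ≤ C') (hee : e ≤ e')
    (h : E191.Strategy R P m C n δ e) : E191.Strategy R P m C' n δ e' where
  fA := h.fA
  fB := h.fB
  wmin := h.wmin
  Acr := h.Acr
  C' := h.C'
  wmin_pos := h.wmin_pos
  Acr_le := h.Acr_le
  low := h.low
  base_A := h.base_A
  base_B := h.base_B
  top := h.top
  recA := by
    intro f hf N x hx hx' B hB hint
    refine (h.recA f hf N x hx hx' B hB hint).trans ?_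
    gcongr
  recB := by
    intro f hf N x w hx hx' hw hw'
    obtain ⟨p, hp0, hp1, hp⟩ := h.recB f hf N x w hx hx' hw hw'
    have hw0 : 0 < w := h.wmin_pos.trans_le hw
    refine ⟨p, hp0, hp1.trans hee, hp.trans ?_⟩
    gcongr

/-- monotonicity of the path data -/
def paths_mono {R : ℕ → E191.RowA Ω} [mΩ : MeasurableSpace Ω] {P : Measure Ω}
    {C C' θ δ v e e' : ℝ} (hv : 0 ≤ v) (hδ : 0 ≤ δ) (he : 0 < e) (hCC : C ≤ C') (hee : e ≤ e')
    (h : E191.Paths R P C θ δ v e) : E191.Paths R P C' θ δ v e' where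
  C' := h.C'
  GD := h.GD
  GD_meas := h.GD_meas
  GD_prob := fun k => (h.GD_prob k).trans hee
  path := by
    intro N
    obtain ⟨Y, hY, hYm, hpath⟩ := h.path N
    refine ⟨Y, hY, hYm.trans ?_, ?_⟩
    · have : 0 ≤ v ^ (θ - 1) := Real.rpow_nonneg hv _
      gcongr
    · filter_upwards [hpath] with ω ⟨z, w, gap, h1, h2, h3, h4, h5⟩
      refine ⟨z, w, gap, h1, h2, h3, fun k hk hGD hlt => ?_, h5⟩
      refine le_trans ?_ (h4 k hk hGD hlt)
      have : 0 ≤ w k - z (k + 1) := by linarith [div_nonneg hδ (by norm_num : (0 : ℝ) ≤ 8)]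
      gcongr

/-- monotonicity of the model -/
def model_mono {C C' θ : ℝ} {n : ℕ} {δ v e e' : ℝ} (hC : 0 < C) (hCC : C ≤ C') (hn : 1 ≤ n)
    (hv : 0 ≤ v) (hδ : 0 ≤ δ) (he : 0 < e) (hee : e ≤ e') (M : E191.Model.{u} C θ n δ v e) :
    E191.Model.{u} C' θ n δ v e' :=
  letI := M.mΩ
  letI := M.prob
  { Ω := M.Ω
    mΩ := M.mΩ
    P := M.P
    prob := M.prob
    m := M.m
    m_le := M.m_le
    indep := M.indep
    R := M.R
    law := fun k => law_mono hC hCC hn hee (M.law k)
    dich := M.dich.imp (cheap_mono hC hCC) fun h k => costly_mono hCC hee (h k)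
    strat := strat_mono hCC hee M.strat
    paths := paths_mono hv hδ he hCC hee M.paths }

end Crest.Agent.R151.NF
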