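import Crest.Agent.R151.V19
import Crest.Agent.R151.M192f

/-!
# R151/V20 — finite intersections of typical sets (owner helper52)

`TSet h d G κ N c s = posS h d ∩ ⋂ i ∈ s, typ G (E0 h d) κ (N i) c`.
-/

set_option autoImplicit false
set_option linter.unusedSectionVars false

open MeasureTheory ProbabilityTheory Set
open scoped ENNReal
open Crest.ProbabilityR.FirstPassage

namespace Crest.Agent.R151.V

open Crest.Agent.R151.K
open Q (pos Hwy P0 UU UU2 phi rg Inv)
open M192 (Row mIL mB)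
open B710 (FlatData)

variable {μ : ℝ × ℝ → ℝ} {F : FlatData μ} (h : Hwy F) (d : ℝ × ℝ)
variable {G : Measure ℝ} [IsProbabilityMeasure G] {Ω : Type*} [MeasurableSpace Ω]
  {κ : Measure Ω} [IsProbabilityMeasure κ] {ι : Type*}

/-- the typical set: nonnegative strip weights, and each of the finitely many failure events `N i`
has conditional probability at most `c` -/
def TSet (G : Measure ℝ) (κ : Measure Ω) (N : ι → Set (Row (ℝ × ℝ) × Ω)) (c : ℝ) (s : Finset ι) :
    Set (Row (ℝ × ℝ)) := posS h d ∩ ⋂ i ∈ s, typ G (E0 h d) κ (N i) c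

variable {N : ι → Set (Row (ℝ × ℝ) × Ω)} {c : ℝ} {s : Finset ι}

lemma TSet_subset_posS : TSet h d G κ N c s ⊆ posS h d := inter_subset_left

lemma TSet_subset_typ {i : ι} (hi : i ∈ s) :
    TSet h d G κ N c s ⊆ typ G (E0 h d) κ (N i) c := fun p hp => by
  have := hp.2
  simp only [mem_iInter] at this
  exact this i hi

lemma measurableSet_TSet (hN : ∀ i ∈ s, MeasurableSet (N i)) :
    MeasurableSet (TSet h d G κ N c s) :=
  (measurableSet_posS h d).inter (MeasurableSet.biInter (Set.Finite.countable s.finite_toSet)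
    fun i hi => measurableSet_typ (measurableSet_E0 h d) (hN i hi) c)

lemma sInv_TSet : SInv (E0 h d) (TSet h d G κ N c s) :=
  (sInv_posS h d).inter (SInv.iInter fun i => SInv.iInter fun _ => sInv_typ (N i) c)

lemma measurableSet_posS_mIL (E' : ℝ × ℝ → Set (Sym2 (ℤ × ℤ))) (hEE : ∀ θ, E0 h d θ ⊆ E' θ) :
    MeasurableSet[mIL (ℝ × ℝ) E'] (posS h d) := by
  rw [M192.measurableSet_mIL]
  refine ⟨measurableSet_posS h d, fun φ => inv_posS h d φ, fun θ φ => ?_⟩
  intro t t' htt
  exact sInv_depends (sInv_posS h d) θ φ fun e he => htt e (hEE θ he)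

/-- the typical set belongs to the sigma-algebra of the row -/
theorem measurableSet_TSet_mB (hd : h.wH < F.be d) (hN : ∀ i ∈ s, MeasurableSet (N i))
    (hNi : ∀ i ∈ s, ∀ ω φ, Inv fun θ t => ((((θ, t), φ), ω) : Row (ℝ × ℝ) × Ω) ∈ N i) :
    MeasurableSet[mB h d] (TSet h d G κ N c s) := by
  have hEE : ∀ θ, E0 h d θ ⊆ edgesIn (h.band d θ) := E0_subset_band h hd
  unfold TSet
  refine @MeasurableSet.inter _ (mB h d) _ _ (measurableSet_posS_mIL h d _ hEE) ?_
  refine @MeasurableSet.biInter _ _ (mB h d) _ _ (Set.Finite.countable s.finite_toSet)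
    fun i hi => ?_
  exact measurableSet_typ_mIL (measurableSet_E0 h d) (eCov_E0 h d) (hN i hi) (hNi i hi) c hEE

/-- probability of the atypical set -/
theorem TSet_compl_le (h0 : G (Set.Iio 0) = 0) (hN : ∀ i ∈ s, MeasurableSet (N i)) (hc : 0 < c) :
    ((P0 G).prod (UU.prod UU)).real (TSet h d G κ N c s)ᶜ ≤
      (∑ i ∈ s, (((P0 G).prod (UU.prod UU)).prod κ).real (N i)) / c := by
  set P := (P0 G).prod (UU.prod UU) with hP
  have h1 : P.real (posS h d)ᶜ = 0 := by
    have := ae_posS h h0 d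
    rw [ae_iff] at this
    unfold Measure.real
    rw [show (posS h d)ᶜ = {a | a ∉ posS h d} from rfl, this]
    rfl
  have h2 : (TSet h d G κ N c s)ᶜ ⊆ (posS h d)ᶜ ∪ ⋃ i ∈ s, (typ G (E0 h d) κ (N i) c)ᶜ := by
    intro p hp
    by_cases hpos : p ∈ posS h d
    · right
      by_contra hcon
      apply hp
      refine ⟨hpos, ?_⟩
      simp only [mem_iInter]
      intro i hi
      by_contra hni
      exact hcon (mem_iUnion₂.2 ⟨i, hi, hni⟩)
    · exact Or.inl hpos
  calc P.real (TSet h d G κ N c s)ᶜ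
      ≤ P.real ((posS h d)ᶜ ∪ ⋃ i ∈ s, (typ G (E0 h d) κ (N i) c)ᶜ) :=
        measureReal_mono h2 (measure_ne_top _ _)
    _ ≤ P.real (posS h d)ᶜ + P.real (⋃ i ∈ s, (typ G (E0 h d) κ (N i) c)ᶜ) :=
        measureReal_union_le _ _
    _ ≤ 0 + ∑ i ∈ s, P.real (typ G (E0 h d) κ (N i) c)ᶜ := by
        rw [h1]
        gcongr
        exact measureReal_biUnion_finset_le _ _
    _ ≤ ∑ i ∈ s, (P.prod κ).real (N i) / c := by
        rw [zero_add]
        exact Finset.sum_le_sum fun i hi =>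
          typ_compl_le (measurableSet_E0 h d) (hN i hi) hc
    _ = _ := (Finset.sum_div _ _ _).symm

/-- probability of the atypical rows `(TS ∩ {|D| ≤ A})ᶜ` -/
theorem T_compl_le (h0 : G (Set.Iio 0) = 0) (hN : ∀ i ∈ s, MeasurableSet (N i)) (hc : 0 < c)
    {D : Row (ℝ × ℝ) → ℝ} (hDi : Integrable D ((P0 G).prod (UU.prod UU))) {A : ℝ} (hA : 0 < A) :
    ((P0 G).prod (UU.prod UU)).real (TSet h d G κ N c s ∩ {p | |D p| ≤ A})ᶜ ≤
      (∑ i ∈ s, (((P0 G).prod (UU.prod UU)).prod κ).real (N i)) / c +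
        (∫ p, |D p| ∂((P0 G).prod (UU.prod UU))) / A := by
  set P := (P0 G).prod (UU.prod UU) with hP
  have h1 : (TSet h d G κ N c s ∩ {p | |D p| ≤ A})ᶜ ⊆
      (TSet h d G κ N c s)ᶜ ∪ {p | A ≤ |D p|} := by
    intro p hp
    by_cases h2 : p ∈ TSet h d G κ N c s
    · right
      by_contra hcon
      simp only [mem_ofPred_eq, not_le] at hcon
      exact hp ⟨h2, hcon.le⟩
    · exact Or.inl h2
  have h2 : P.real {p | A ≤ |D p|} ≤ (∫ p, |D p| ∂P) / A := by
    rw [le_div_iff₀ hA, mul_comm]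
    exact mul_meas_ge_le_integral_of_nonneg (μ := P) (f := fun p => |D p|)
      (ae_of_all _ fun p => abs_nonneg _) hDi.abs A
  calc P.real (TSet h d G κ N c s ∩ {p | |D p| ≤ A})ᶜ
      ≤ P.real ((TSet h d G κ N c s)ᶜ ∪ {p | A ≤ |D p|}) :=
        measureReal_mono h1 (measure_ne_top _ _)
    _ ≤ P.real (TSet h d G κ N c s)ᶜ + P.real {p | A ≤ |D p|} := measureReal_union_le _ _
    _ ≤ _ := add_le_add (TSet_compl_le h d h0 hN hc) h2

end Crest.Agent.R151.V
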