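import Crest.Agent.R151.NF3
import Crest.Agent.R151.NF1
import Crest.Agent.R151.CL684b
import Crest.Agent.R151.V20

/-!
# R151 / S0214 part 2, E191F — the row law from its conditional inputs (owner helper191)

`TOK` : a typical set `TS ∈ σ(S)`, an `S`-measurable gauge `ρ`, level `A`;
`trow` : the typical rows `TS ∩ {|gauge - ρ| ≤ A l}`;
`law_of_cond` : the law of `M192.rowA` from the conditional small balls of the cells, the conditional
tails of the fences, and the remaining fields.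
-/

set_option autoImplicit false
set_option linter.unusedSectionVars false

open MeasureTheory Filter ProbabilityTheory Topology Set
open Crest.ProbabilityR.FirstPassage

namespace Crest.Agent.R151.E191

open Crest.Agent.R151.K
open Q (pos Hwy Inv P0 UU UU2 rg)
open B710 (FlatData)
open M192 (Row rowA RowOK skp mB mIL pe)
open V (cs SInv E0)
open CL (hkq cellk fenk)

variable {μ : ℝ × ℝ → ℝ} {F : FlatData μ}

section meas

variable (h : Hwy F) {d : ℝ × ℝ} (hd : h.wH < F.be d)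
include hd

lemma measurable_hkq_mB {I : Set ℝ} (hI : MeasurableSet I) (a b : ℝ) :
    Measurable[mB h d] (hkq h d I a b) :=
  M192.measurable_mIL (E := fun θ => edgesIn (h.band d θ))
    (X := fun θ t φ => h.hk d I a b θ t φ)
    (h.meas_hk (measurable_fst.comp measurable_fst) (measurable_snd.comp measurable_fst)
      measurable_snd d hI a b)
    (fun φ => h.hk_inv d I a b φ) (fun θ φ => h.hk_loc hd I a b θ φ)

/-- invariant functions of the strips are measurable for the sigma-algebra of the row -/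
lemma measurable_strip_mB {ρ : Row (ℝ × ℝ) → ℝ} (hρ : Measurable ρ)
    (hρS : ∀ p t, ρ (cs (E0 h d) p t) = ρ p) (hρi : ∀ φ, Inv fun θ t => ρ ((θ, t), φ)) :
    Measurable[mB h d] ρ := by
  refine M192.measurable_mIL (E := fun θ => edgesIn (h.band d θ))
    (X := fun θ t φ => ρ ((θ, t), φ)) hρ hρi (fun θ φ => ?_)
  intro t t' htt
  have h1 := hρS ((θ, t), φ) t'
  have h2 : cs (E0 h d) ((θ, t), φ) t' = ((θ, t'), φ) := by
    unfold V.cs
    simp only [Prod.mk.injEq, and_true, true_and]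
    funext e
    by_cases he : e ∈ E0 h d θ
    · rw [V.glue_of_mem he]
      exact htt e (V.E0_subset_band h hd θ he)
    · rw [V.glue_of_notMem he]
  rw [h2] at h1
  exact h1.symm

end meas

/-- typical rows: strips in `TS`, gauge within `A l` of `ρ` -/
def trow (h : Hwy F) (d : ℝ × ℝ) (L : ℝ) (TS : Set (Row (ℝ × ℝ))) (ρ : Row (ℝ × ℝ) → ℝ)
    (B : ℝ) : Set (Row (ℝ × ℝ)) := TS ∩ {q | |hkq h d univ (-L) L q - ρ q| ≤ B}

/-- a typical set of strips and a gauge which depends on the strips only -/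
structure TOK (h : Hwy F) (d : ℝ × ℝ) (TS : Set (Row (ℝ × ℝ))) (ρ : Row (ℝ × ℝ) → ℝ) : Prop where
  TS_meas : MeasurableSet TS
  TS_mB : MeasurableSet[mB h d] TS
  TS_sinv : SInv (E0 h d) TS
  ρ_meas : Measurable ρ
  ρ_cs : ∀ p t, ρ (cs (E0 h d) p t) = ρ p
  ρ_inv : ∀ φ, Inv fun θ t => ρ ((θ, t), φ)

lemma TOK.trow_mB {h : Hwy F} {d : ℝ × ℝ} {TS : Set (Row (ℝ × ℝ))} {ρ : Row (ℝ × ℝ) → ℝ}
    (hT : TOK h d TS ρ) (hd : h.wH < F.be d) (L B : ℝ) :
    MeasurableSet[mB h d] (trow h d L TS ρ B) := by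
  refine @MeasurableSet.inter _ (mB h d) _ _ hT.TS_mB ?_
  have h1 : Measurable[mB h d] fun q => hkq h d univ (-L) L q - ρ q :=
    (measurable_hkq_mB h hd MeasurableSet.univ _ _).sub
      (measurable_strip_mB h hd hT.ρ_meas hT.ρ_cs hT.ρ_inv)
  exact (continuous_abs.measurable.comp h1) measurableSet_Iic

/-- the constant of the law -/
noncomputable def CF (C1 : ℝ) : ℝ := max (2 * C1) (CL.C2 (3 * (C1 ^ 2 * 32768)))

lemma CF_ge (C1 : ℝ) : 2 * C1 ≤ CF C1 := le_max_left _ _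

variable {h : Hwy F} {W L y l c δ v C : ℝ}

section law

variable {G : Measure ℝ} [IsProbabilityMeasure G] (h0 : G (Iio 0) = 0)
  (hO : RowOK h W L y l c δ v C) (hc4 : 4 * c ≤ 1 / 32 * W) {n : ℕ} (hn : 1 ≤ n)
  {TS : Set (Row (ℝ × ℝ))} {ρ : Row (ℝ × ℝ) → ℝ} (hT : TOK h (y • F.b) TS ρ)
  {A C1 e1 e : ℝ} (hA0 : 0 ≤ A) (hA1 : A ≤ 1) (hC1 : 1 ≤ C1)

include h0 hO hT

/-- on the typical rows, the normalised kernels are close to `(hull - ρ) / l` -/
lemma ae_skp_trow : ∀ᵐ q ∂((P0 G).prod (UU.prod UU)), q ∈ trow h (y • F.b) L TS ρ (A * l) →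
    q ∈ TS ∧ ∀ (I : Set ℝ) (s r : ℝ),
      (hkq h (y • F.b) I s r q - ρ q) / l - A ≤ skp h y l L I s r q ∧
      skp h y l L I s r q ≤ (hkq h (y • F.b) I s r q - ρ q) / l + A := by
  have hl := hO.l_pos
  filter_upwards [M192.ae_pe_prod h0 (UU.prod UU)] with q hq hqT
  obtain ⟨h1, h2⟩ := hqT
  refine ⟨h1, fun I s r => ?_⟩
  have e1 : skp h y l L I s r q =
      (hkq h (y • F.b) I s r q - hkq h (y • F.b) univ (-L) L q) / l := by
    unfold skp hkq Q.Hwy.sk
    rw [hq]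
  simp only [mem_ofPred_eq] at h2
  rw [abs_le] at h2
  rw [e1]
  constructor
  · rw [sub_le_iff_le_add, div_add' _ _ _ hl.ne']
    exact div_le_div_of_nonneg_right (by linarith [h2.2]) hl.le
  · rw [div_add' _ _ _ hl.ne']
    exact div_le_div_of_nonneg_right (by linarith [h2.1]) hl.le

include hn hA1 hC1 in
/-- the field `F_tail` -/
theorem F_tail_of (w : ℝ) (hw0 : 0 < w) (hw1 : w ≤ 1) (x : ℝ)
    (htl : ∀ᵐ p ∂((P0 G).prod (UU.prod UU)), p ∈ TS →
      ∀ y' : ℝ, 0 ≤ y' → (iidLaw G).real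
        {t | y' * (C1 / w ^ 3) * l ≤ fenk h W c w (y • F.b) x (cs (E0 h (y • F.b)) p t) - ρ p} ≤
        C1 * Real.exp (-y' / C1)) {C0 : ℝ} (hC0 : 2 * C1 ≤ C0) (y' : ℝ) (hy' : 0 ≤ y') :
    ((P0 G).prod (UU.prod UU)).real ({ω | y' * (C0 / w ^ 3) ≤
      (rowA h W L y l c δ (trow h (y • F.b) L TS ρ (A * l))).F w x ω} ∩
        trow h (y • F.b) L TS ρ (A * l)) ≤ C0 * Real.exp (-y' / C0) := by
  have hl := hO.l_pos
  have hC10 : 0 < C1 := by linarith
  have hC00 : 0 < C0 := by linarith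
  have hw3 : 0 < w ^ 3 := by positivity
  have hw31 : w ^ 3 ≤ 1 := pow_le_one₀ hw0.le hw1
  have htriv : y' ≤ 1 → 1 ≤ C0 * Real.exp (-y' / C0) := by
    intro hy1
    have h1 := Real.add_one_le_exp (-y' / C0)
    have h2 : C0 * (-y' / C0 + 1) ≤ C0 * Real.exp (-y' / C0) :=
      mul_le_mul_of_nonneg_left h1 hC00.le
    have h3 : C0 * (-y' / C0 + 1) = C0 - y' := by field_simp; ring
    linarith
  rcases le_total y' 1 with hy1 | hy1
  · exact measureReal_le_one.trans (htriv hy1)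
  have hCw : 1 ≤ y' * (C1 / w ^ 3) := by
    have : 1 ≤ C1 / w ^ 3 := by rw [one_le_div hw3]; linarith
    nlinarith
  by_cases hg : 4 * c ≤ w * W ∧ w ≤ 1
  · have hFe : (rowA h W L y l c δ (trow h (y • F.b) L TS ρ (A * l))).F w x =
        skp h y l L (Icc (x * W + c) ((x + w) * W - c)) (x * W + c) ((x + w) * W - c) := by
      funext q; exact if_pos hg
    rw [hFe]
    have key : ((P0 G).prod (UU.prod UU)).real
        ({q | y' * (C1 / w ^ 3) * l ≤ fenk h W c w (y • F.b) x q - ρ q} ∩ TS) ≤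
        C1 * Real.exp (-y' / C1) := by
      refine V.prob_inter_le (V.measurableSet_E0 h _) hT.TS_meas hT.TS_sinv
        (measurableSet_le measurable_const ((CL.measurable_hkq h _ measurableSet_Icc _ _).sub
          hT.ρ_meas)) (by positivity) ?_
      filter_upwards [htl] with p hp hpT
      have h1 := hp hpT y' hy'
      simp only [mem_ofPred_eq, Pi.sub_apply, hT.ρ_cs]
      exact h1
    refine le_trans (ENNReal.toReal_mono (measure_ne_top _ _) (measure_mono_ae ?_))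
      (key.trans (NF.exp_tail_mono hC10 (by linarith) hy'))
    filter_upwards [ae_skp_trow h0 hO hT (A := A)] with q hq hqq
    obtain ⟨hq1, hq2⟩ := hqq
    obtain ⟨hq3, hq4⟩ := hq hq2
    refine ⟨?_, hq3⟩
    have h5 := (hq4 (Icc (x * W + c) ((x + w) * W - c)) (x * W + c) ((x + w) * W - c)).2
    simp only [mem_ofPred_eq] at hq1 ⊢
    have h6 : y' * (C0 / w ^ 3) ≤ (fenk h W c w (y • F.b) x q - ρ q) / l + 1 := by
      unfold fenk
      linarith
    have h7 : 2 * (y' * (C1 / w ^ 3)) ≤ y' * (C0 / w ^ 3) := by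
      have : 2 * (C1 / w ^ 3) ≤ C0 / w ^ 3 := by
        rw [← mul_div_assoc]; exact div_le_div_of_nonneg_right hC0 hw3.le
      nlinarith
    have h8 : y' * (C1 / w ^ 3) ≤ (fenk h W c w (y • F.b) x q - ρ q) / l := by linarith
    rwa [le_div_iff₀ hl] at h8
  · have hFe : (rowA h W L y l c δ (trow h (y • F.b) L TS ρ (A * l))).F w x = fun _ => 0 := by
      funext q; exact if_neg hg
    rw [hFe]
    have h1 : {ω : Row (ℝ × ℝ) | y' * (C0 / w ^ 3) ≤ (fun _ => (0 : ℝ)) ω} = ∅ := by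
      ext ω
      simp only [mem_ofPred_eq, mem_empty_iff_false, iff_false, not_le]
      positivity
    rw [h1, empty_inter, measureReal_empty]
    positivity

include hA0 hC1 in
/-- the field `cell_small` -/
theorem cell_small_of (x : ℝ)
    (hsm : ∀ᵐ p ∂((P0 G).prod (UU.prod UU)), p ∈ TS →
      ∀ y' : ℝ, 0 ≤ y' → (iidLaw G).real
        {t | cellk h W (y • F.b) x (cs (E0 h (y • F.b)) p t) - ρ p ≤ y' * l} ≤
        C1 * y' / (n : ℝ) ^ 5 + e1) {C0 : ℝ} (hC0 : 2 * C1 ≤ C0) (he : C1 * A + e1 ≤ e)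
    (he1 : 0 ≤ e1) (hn : 1 ≤ n) (y' : ℝ) (hy' : 0 ≤ y') :
    ((P0 G).prod (UU.prod UU)).real ({ω |
      (rowA h W L y l c δ (trow h (y • F.b) L TS ρ (A * l))).cell x ω ≤ y'} ∩
        trow h (y • F.b) L TS ρ (A * l)) ≤ C0 * y' / n ^ 5 + e := by
  have hl := hO.l_pos
  have hn1 : (1 : ℝ) ≤ n := by exact_mod_cast hn
  have hn5 : (1 : ℝ) ≤ (n : ℝ) ^ 5 := one_le_pow₀ hn1
  have hn0 : (0 : ℝ) < (n : ℝ) ^ 5 := by linarith
  have key : ((P0 G).prod (UU.prod UU)).real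
      ({q | cellk h W (y • F.b) x q - ρ q ≤ (y' + A) * l} ∩ TS) ≤
      C1 * (y' + A) / (n : ℝ) ^ 5 + e1 := by
    refine V.prob_inter_le (V.measurableSet_E0 h _) hT.TS_meas hT.TS_sinv
      (measurableSet_le ((CL.measurable_hkq h _ measurableSet_Icc _ _).sub
        hT.ρ_meas) measurable_const) (by positivity) ?_
    filter_upwards [hsm] with p hp hpT
    have h1 := hp hpT (y' + A) (by linarith)
    simp only [mem_ofPred_eq, Pi.sub_apply, hT.ρ_cs]
    exact h1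
  refine le_trans (ENNReal.toReal_mono (measure_ne_top _ _) (measure_mono_ae ?_))
    (key.trans ?_)
  · filter_upwards [ae_skp_trow h0 hO hT (A := A)] with q hq hqq
    obtain ⟨hq1, hq2⟩ := hqq
    obtain ⟨hq3, hq4⟩ := hq hq2
    refine ⟨?_, hq3⟩
    have h5 := (hq4 (Icc (x * W) ((x + 7 / 32) * W)) ((x + 6 / 32) * W) ((x + 1 / 32) * W)).1
    have h6 : (rowA h W L y l c δ (trow h (y • F.b) L TS ρ (A * l))).cell x q =
      skp h y l L (Icc (x * W) ((x + 7 / 32) * W)) ((x + 6 / 32) * W) ((x + 1 / 32) * W) q := rfl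
    simp only [mem_ofPred_eq] at hq1 ⊢
    rw [h6] at hq1
    have h7 : (cellk h W (y • F.b) x q - ρ q) / l ≤ y' + A := by
      unfold cellk
      linarith
    rwa [div_le_iff₀ hl] at h7
  · have h1 : C1 * (y' + A) / (n : ℝ) ^ 5 = C1 * y' / (n : ℝ) ^ 5 + C1 * A / (n : ℝ) ^ 5 := by
      ring
    have h2 : C1 * A / (n : ℝ) ^ 5 ≤ C1 * A := div_le_self (by positivity) hn5
    have h3 : C1 * y' / (n : ℝ) ^ 5 ≤ C0 * y' / (n : ℝ) ^ 5 := by
      refine div_le_div_of_nonneg_right ?_ hn0.le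
      exact mul_le_mul_of_nonneg_right (by linarith) hy'
    linarith

end law

/-- **The law of the row from its conditional inputs.** -/
theorem law_of_cond {G : Measure ℝ} [IsProbabilityMeasure G] (h0 : G (Iio 0) = 0)
    (hO : RowOK h W L y l c δ v C) (hc4 : 4 * c ≤ 1 / 32 * W) {n : ℕ} (hn : 1 ≤ n)
    {TS : Set (Row (ℝ × ℝ))} {ρ : Row (ℝ × ℝ) → ℝ} (hT : TOK h (y • F.b) TS ρ)
    {A C1 e1 e : ℝ} (hA0 : 0 ≤ A) (hA1 : A ≤ 1) (hC1 : 1 ≤ C1) (he1 : 0 ≤ e1)
    (he1' : e1 * (n : ℝ) ^ 5 ≤ 1) (he : C1 * A + e1 ≤ e)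
    {T : Set (Row (ℝ × ℝ))} (hTT : T = trow h (y • F.b) L TS ρ (A * l))
    (T_prob : ((P0 G).prod (UU.prod UU)).real Tᶜ ≤ e)
    (hsm : ∀ x : ℝ, |x| ≤ v → |x + 7 / 32| ≤ v → ∀ᵐ p ∂((P0 G).prod (UU.prod UU)), p ∈ TS →
      ∀ y' : ℝ, 0 ≤ y' → (iidLaw G).real
        {t | cellk h W (y • F.b) x (cs (E0 h (y • F.b)) p t) - ρ p ≤ y' * l} ≤
        C1 * y' / (n : ℝ) ^ 5 + e1)
    (htl : ∀ w x : ℝ, (w = 1 / 32 ∨ w = 1 / (4 * n)) → |x| ≤ v →
      ∀ᵐ p ∂((P0 G).prod (UU.prod UU)), p ∈ TS → ∀ y' : ℝ, 0 ≤ y' → (iidLaw G).real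
        {t | y' * (C1 / w ^ 3) * l ≤ fenk h W c w (y • F.b) x (cs (E0 h (y • F.b)) p t) - ρ p} ≤
        C1 * Real.exp (-y' / C1))
    (F_int : ∀ x : ℝ, |x| ≤ v → Integrable ((rowA h W L y l c δ T).F (1 / (4 * n)) x)
      ((P0 G).prod (UU.prod UU)))
    (F_ui : ∀ x : ℝ, |x| ≤ v → ∫ ω in Tᶜ, (rowA h W L y l c δ T).F (1 / (4 * n)) x ω
      ∂((P0 G).prod (UU.prod UU)) ≤ e)
    (window : ∀ ω ∈ T, ∀ (s t x : ℝ) (m : ℕ), |s| ≤ v → |t| ≤ v → t ≤ x →
      x + 3 * m / 16 + 1 / 32 ≤ s →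
      (rowA h W L y l c δ T).cross x m ω ≤ (rowA h W L y l c δ T).K s t ω)
    (lane : ∀ ω ∈ T, ∀ x : ℝ, -(1 / 16) ≤ x → x < 1 / 8 →
      min ((rowA h W L y l c δ T).KL x ω) (min ((rowA h W L y l c δ T).cross (5 / 32) 1 ω)
        ((rowA h W L y l c δ T).cross (-(11 / 32)) 1 ω)) ≤
        (rowA h W L y l c δ T).K x (x + 5 * δ) ω) :
    (rowA h W L y l c δ T).Law ((P0 G).prod (UU.prod UU)) (mB h (y • F.b)) (CF C1) n δ v e := by
  have hn1 : (1 : ℝ) ≤ n := by exact_mod_cast hn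
  have hn0 : (0 : ℝ) < n := by linarith
  have hn5 : (0 : ℝ) < (n : ℝ) ^ 5 := by positivity
  have hd : h.wH < F.be (y • F.b) := by rw [M192.be_smul_b]; exact hO.wH_lt
  have hl := hO.l_pos
  have hC10 : 0 < C1 := by linarith
  subst hTT
  refine hO.law (hT.trow_mB hd L (A * l)) T_prob ?_ F_int F_ui ?_ ?_ window lane
  · intro w x y' hw hx hy'
    have hw0 : 0 < w ∧ w ≤ 1 := by
      rcases hw with rfl | rfl
      · norm_num
      · constructor
        · positivity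
        · rw [div_le_one (by positivity)]
          linarith
    exact F_tail_of h0 hO hn hT hA1 hC1 w hw0.1 hw0.2 x (htl w x hw hx) (CF_ge C1) y' hy'
  · intro x y' hx hx' hy'
    exact cell_small_of h0 hO hT hA0 hC1 x (hsm x hx hx') (CF_ge C1) he he1 hn y' hy'
  · intro x m hx hxm
    have hC' : 1 ≤ C1 ^ 2 * 32768 := by nlinarith
    refine (CL.cells_large_rowA (C1 := C1 ^ 2 * 32768) h0 hO hc4 hn hT.TS_meas hT.TS_sinv
      hT.ρ_meas hT.ρ_cs (A := A * l) (by nlinarith) (T := trow h (y • F.b) L TS ρ (A * l))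
      subset_rfl hC' ?_ ?_ x m hx hxm).trans ?_
    · intro x hx hx'
      filter_upwards [hsm x hx hx'] with p hp hpT y' hy'
      refine (hp hpT y' hy').trans ?_
      rw [div_add' _ _ _ hn5.ne', div_le_div_iff_of_pos_right hn5]
      nlinarith [mul_nonneg hC10.le hy', mul_nonneg (mul_nonneg hC10.le hC10.le) hy']
    · intro x hx
      filter_upwards [htl (1 / 32) x (Or.inl rfl) hx] with p hp hpT y' hy'
      have h1 := hp hpT (y' / (C1 * 32768)) (by positivity)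
      have e1 : y' / (C1 * 32768) * (C1 / (1 / 32 : ℝ) ^ 3) * l = y' * l := by
        field_simp
        norm_num
      rw [e1] at h1
      refine h1.trans ?_
      have e2 : -(y' / (C1 * 32768)) / C1 = -y' / (C1 ^ 2 * 32768) := by
        field_simp
      rw [e2]
      refine mul_le_mul_of_nonneg_right ?_ (Real.exp_pos _).le
      nlinarith
    · rw [Real.exp_le_exp, neg_le_neg_iff]
      have hlog : 0 ≤ Real.log n := Real.log_natCast_nonneg n
      have h2 : CL.C2 (3 * (C1 ^ 2 * 32768)) ≤ CF C1 := le_max_right _ _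
      have h3 : 4 ≤ CL.C2 (3 * (C1 ^ 2 * 32768)) := (CL.le_C2 (by linarith)).2.2.2
      have : Real.log n / CF C1 ≤ Real.log n / CL.C2 (3 * (C1 ^ 2 * 32768)) :=
        div_le_div_of_nonneg_left hlog (by linarith) h2
      gcongr

end Crest.Agent.R151.E191
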