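import Mathlib
import Crest.Agent.R151.W3a

/-!
R151, S0214 part 2, section 12 (module M): the deterministic half.
Positions in cells, costs in units of `l`.
-/

set_option autoImplicit false

namespace Crest.Agent.R151.W

open Finset

/-- Deterministic Peierls dichotomy. -/
theorem peierls_det {N : ℕ} {T : Finset ℕ} (hT : T ⊆ range N) {i cost : ℕ → ℝ}
    {B : ℕ → Prop} {F : ℕ → Prop} [DecidablePred B] [DecidablePred F]
    {ζ v1 κ' c κ'' V η : ℝ}
    (hζ : 0 < ζ) (hv1 : 1 ≤ v1) (hζ1 : ζ ≤ v1) (hκ' : 0 < κ') (hc : 0 < c)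
    (hκ1 : 64 * v1 * κ'' ≤ κ' * ζ) (hκ2 : 64 * κ'' ≤ c * ζ)
    (hη1 : η ≤ 1 / 64) (hVη : 2 * V * η ≤ ζ / 64) (hVN : 2 * V ≤ ζ * N / 64)
    (hpos : ∀ k ≤ N, |i k| ≤ V) (hat : ((range N \ T).card : ℝ) ≤ η * N)
    (h0 : ∀ k < N, 0 ≤ cost k)
    (H1 : ∀ k ∈ T, i (k + 1) ≤ i k + ζ → ¬ B k → κ' ≤ cost k)
    (H2 : ∀ k ∈ T, v1 ≤ i k - i (k + 1) → ¬ F k → c * (i k - i (k + 1)) ≤ cost k)
    (hsum : ∑ k ∈ range N, cost k ≤ κ'' * N) :
    (ζ * N ≤ 6 * (v1 * (T.filter fun k => i (k + 1) ≤ i k + ζ ∧ B k).card) ∧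
      ∑ k ∈ range N, |i (k + 1) - i k| ≤
        ζ * N / 8 + 4 * (v1 * (T.filter fun k => i (k + 1) ≤ i k + ζ ∧ B k).card)) ∨
    (ζ * N ≤ 6 * ∑ k ∈ T.filter (fun k => v1 ≤ i k - i (k + 1) ∧ F k), (i k - i (k + 1)) ∧
      ∑ k ∈ range N, |i (k + 1) - i k| ≤
        ζ * N / 8 + 4 * ∑ k ∈ T.filter (fun k => v1 ≤ i k - i (k + 1) ∧ F k),
          (i k - i (k + 1))) := by
  classical
  set NB := T.filter fun k => i (k + 1) ≤ i k + ζ ∧ B k with hNB
  set BF := T.filter fun k => v1 ≤ i k - i (k + 1) ∧ F k with hBF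
  set SF := ∑ k ∈ BF, (i k - i (k + 1)) with hSF
  set GB := T.filter fun k => i (k + 1) ≤ i k + ζ ∧ ¬ B k with hGB
  set GF := T.filter fun k => v1 ≤ i k - i (k + 1) ∧ ¬ F k with hGF
  have hN : (0 : ℝ) ≤ N := Nat.cast_nonneg N
  -- f1
  have f1 : κ' * GB.card ≤ κ'' * N := by
    calc κ' * GB.card = ∑ k ∈ GB, κ' := by simp [mul_comm]
      _ ≤ ∑ k ∈ GB, cost k := Finset.sum_le_sum fun k hk => by
          have := Finset.mem_filter.1 hk; exact H1 k this.1 this.2.1 this.2.2
      _ ≤ ∑ k ∈ range N, cost k := Finset.sum_le_sum_of_subset_of_nonneg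
          ((Finset.filter_subset _ _).trans hT) fun k hk _ => h0 k (Finset.mem_range.1 hk)
      _ ≤ _ := hsum
  have f2 : c * ∑ k ∈ GF, (i k - i (k + 1)) ≤ κ'' * N := by
    calc c * ∑ k ∈ GF, (i k - i (k + 1)) = ∑ k ∈ GF, c * (i k - i (k + 1)) := Finset.mul_sum _ _ _
      _ ≤ ∑ k ∈ GF, cost k := Finset.sum_le_sum fun k hk => by
          have := Finset.mem_filter.1 hk; exact H2 k this.1 this.2.1 this.2.2
      _ ≤ ∑ k ∈ range N, cost k := Finset.sum_le_sum_of_subset_of_nonneg
          ((Finset.filter_subset _ _).trans hT) fun k hk _ => h0 k (Finset.mem_range.1 hk)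
      _ ≤ _ := hsum
  have f1' : v1 * GB.card ≤ ζ * N / 64 := by
    have h1 : κ' * (64 * (v1 * GB.card)) ≤ κ' * (ζ * N) := by
      calc κ' * (64 * (v1 * GB.card)) = 64 * v1 * (κ' * GB.card) := by ring
        _ ≤ 64 * v1 * (κ'' * N) := mul_le_mul_of_nonneg_left f1 (by positivity)
        _ = (64 * v1 * κ'') * N := by ring
        _ ≤ (κ' * ζ) * N := mul_le_mul_of_nonneg_right hκ1 hN
        _ = _ := by ring
    have := le_of_mul_le_mul_left h1 hκ'
    linarith
  have f2' : ∑ k ∈ GF, (i k - i (k + 1)) ≤ ζ * N / 64 := by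
    have h1 : c * (64 * ∑ k ∈ GF, (i k - i (k + 1))) ≤ c * (ζ * N) := by
      calc c * (64 * ∑ k ∈ GF, (i k - i (k + 1))) = 64 * (c * ∑ k ∈ GF, (i k - i (k + 1))) := by ring
        _ ≤ 64 * (κ'' * N) := mul_le_mul_of_nonneg_left f2 (by norm_num)
        _ = (64 * κ'') * N := by ring
        _ ≤ (c * ζ) * N := mul_le_mul_of_nonneg_right hκ2 hN
        _ = _ := by ring
    have := le_of_mul_le_mul_left h1 hc
    linarith
  -- positive parts of the falls over typical rows
  set fall : ℕ → ℝ := fun k => max (i k - i (k + 1)) 0 with hfall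
  set rise : ℕ → ℝ := fun k => max (i (k + 1) - i k) 0 with hrise
  have hfr : ∀ k, rise k - fall k = i (k + 1) - i k := by
    intro k; simp only [hfall, hrise]
    rcases le_total (i k) (i (k + 1)) with h | h
    · rw [max_eq_left (by linarith), max_eq_right (by linarith)]; ring
    · rw [max_eq_right (by linarith), max_eq_left (by linarith)]; ring
  have habs : ∀ k, |i (k + 1) - i k| = rise k + fall k := by
    intro k; simp only [hfall, hrise]
    rcases le_total (i k) (i (k + 1)) with h | h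
    · rw [max_eq_left (by linarith), max_eq_right (by linarith), abs_of_nonneg (by linarith)]; ring
    · rw [max_eq_right (by linarith), max_eq_left (by linarith), abs_of_nonpos (by linarith)]; ring
  have f3 : ∑ k ∈ T, fall k ≤ v1 * GB.card + v1 * NB.card +
      ∑ k ∈ GF, (i k - i (k + 1)) + SF := by
    have e : ∀ (P : ℕ → Prop) [DecidablePred P] (g : ℕ → ℝ),
        ∑ k ∈ T.filter P, g k = ∑ k ∈ T, if P k then g k else 0 := fun P _ g => Finset.sum_filter _ _
    have e1 : v1 * GB.card = ∑ k ∈ GB, v1 := by simp [mul_comm]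
    have e2 : v1 * NB.card = ∑ k ∈ NB, v1 := by simp [mul_comm]
    rw [e1, e2, hSF, hGB, hNB, hGF, hBF]
    simp only [e]
    rw [← Finset.sum_add_distrib, ← Finset.sum_add_distrib, ← Finset.sum_add_distrib]
    refine Finset.sum_le_sum fun k _ => ?_
    simp only [hfall]
    by_cases hA : i (k + 1) ≤ i k + ζ
    · by_cases hL : v1 ≤ i k - i (k + 1)
      · have hm : max (i k - i (k + 1)) 0 = i k - i (k + 1) := max_eq_left (by linarith)
        rw [hm]
        by_cases hb : B k <;> by_cases hf : F k <;> simp [hA, hL, hb, hf] <;> linarith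
      · have hm : max (i k - i (k + 1)) 0 ≤ v1 := max_le (by linarith) (by linarith)
        by_cases hb : B k <;> simp only [hA, hL, hb, not_true_eq_false, not_false_eq_true,
          and_true, and_false, false_and, if_true, if_false] <;> linarith
    · have hm : max (i k - i (k + 1)) 0 = 0 := max_eq_right (by linarith)
      have hL : ¬ v1 ≤ i k - i (k + 1) := by push Not; linarith
      simp only [hA, hL, false_and, if_false, hm]; linarith
  -- atypical rows
  have f4 : ∑ k ∈ range N \ T, fall k ≤ ζ * N / 64 := by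
    calc ∑ k ∈ range N \ T, fall k ≤ ∑ k ∈ range N \ T, 2 * V := by
          refine Finset.sum_le_sum fun k hk => ?_
          have hk' : k < N := Finset.mem_range.1 (Finset.mem_sdiff.1 hk).1
          have a1 := hpos k hk'.le
          have a2 := hpos (k + 1) hk'
          rw [abs_le] at a1 a2
          exact max_le (by linarith) (by linarith)
      _ = (range N \ T).card * (2 * V) := by simp
      _ ≤ (η * N) * (2 * V) := by
          refine mul_le_mul_of_nonneg_right hat ?_
          have := (abs_nonneg _).trans (hpos 0 (Nat.zero_le _)); linarith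
      _ = (2 * V * η) * N := by ring
      _ ≤ (ζ / 64) * N := mul_le_mul_of_nonneg_right hVη hN
      _ = _ := by ring
  have f5 : ∑ k ∈ range N, fall k ≤ ζ * N / 64 + (v1 * GB.card + v1 * NB.card +
      ∑ k ∈ GF, (i k - i (k + 1)) + SF) := by
    rw [← Finset.sum_sdiff hT]; linarith
  have f6 : ∑ k ∈ range N, rise k = ∑ k ∈ range N, fall k + (i N - i 0) := by
    rw [← Finset.sum_range_sub i N, ← Finset.sum_add_distrib]
    exact Finset.sum_congr rfl fun k _ => by linarith [hfr k]
  have hi0 := hpos 0 (Nat.zero_le _)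
  have hiN := hpos N le_rfl
  rw [abs_le] at hi0 hiN
  -- rises
  have f7 : ζ * ((T.filter fun k => ¬ i (k + 1) ≤ i k + ζ).card : ℝ) ≤ ∑ k ∈ range N, rise k := by
    calc ζ * ((T.filter fun k => ¬ i (k + 1) ≤ i k + ζ).card : ℝ)
        = ∑ k ∈ T.filter (fun k => ¬ i (k + 1) ≤ i k + ζ), ζ := by simp [mul_comm]
      _ ≤ ∑ k ∈ T.filter (fun k => ¬ i (k + 1) ≤ i k + ζ), rise k := by
          refine Finset.sum_le_sum fun k hk => ?_
          have := (Finset.mem_filter.1 hk).2
          exact le_max_of_le_left (by push Not at this; linarith)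
      _ ≤ ∑ k ∈ range N, rise k := Finset.sum_le_sum_of_subset_of_nonneg
          ((Finset.filter_subset _ _).trans hT) fun k _ _ => le_max_right _ _
  have f8 : (N : ℝ) = (range N \ T).card + (T.filter fun k => ¬ i (k + 1) ≤ i k + ζ).card +
      (GB.card + NB.card) := by
    have e1 : (T.filter fun k => i (k + 1) ≤ i k + ζ).card = GB.card + NB.card := by
      rw [hGB, hNB, ← Finset.card_union_of_disjoint]
      · congr 1; ext k; simp only [Finset.mem_filter, Finset.mem_union]; tauto
      · rw [Finset.disjoint_left]; intro k h1 h2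
        exact (Finset.mem_filter.1 h1).2.2 (Finset.mem_filter.1 h2).2.2
    have e2 := Finset.card_filter_add_card_filter_not (s := T) (fun k => i (k + 1) ≤ i k + ζ)
    have e3 := Finset.card_sdiff_add_card_eq_card hT
    rw [Finset.card_range] at e3
    have : N = (range N \ T).card + (T.filter fun k => ¬ i (k + 1) ≤ i k + ζ).card +
      (GB.card + NB.card) := by omega
    exact_mod_cast this
  have hGBN : (GB.card : ℝ) * 64 ≤ N := by
    have h1 : ζ * GB.card ≤ v1 * GB.card := mul_le_mul_of_nonneg_right hζ1 (Nat.cast_nonneg _)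
    have h2 : ζ * (GB.card * 64) ≤ ζ * N := by linarith
    exact le_of_mul_le_mul_left h2 hζ
  have hatN : ((range N \ T).card : ℝ) ≤ N / 64 := by
    refine hat.trans ?_
    have := mul_le_mul_of_nonneg_right hη1 hN; linarith
  have f9 : ζ * N * (15 / 16) - ζ * NB.card ≤ ζ * ((T.filter fun k => ¬ i (k + 1) ≤ i k + ζ).card : ℝ) := by
    have h1 : (N : ℝ) * (31 / 32) - NB.card ≤ ((T.filter fun k => ¬ i (k + 1) ≤ i k + ζ).card : ℝ) := by
      linarith
    have h2 := mul_le_mul_of_nonneg_left h1 hζ.le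
    have h3 : 0 ≤ ζ * N := by positivity
    nlinarith
  have hNBζ : ζ * NB.card ≤ v1 * NB.card := mul_le_mul_of_nonneg_right hζ1 (Nat.cast_nonneg _)
  have hzN : 0 ≤ ζ * N := by positivity
  have hkey : ζ * N * (3 / 4) ≤ 2 * (v1 * NB.card) + SF := by linarith
  have htv : ∑ k ∈ range N, |i (k + 1) - i k| ≤ ζ * N / 8 + 2 * (v1 * NB.card + SF) := by
    simp_rw [habs]
    rw [Finset.sum_add_distrib]
    linarith
  rcases le_total SF (v1 * NB.card) with h | h
  · left
    exact ⟨by linarith, by linarith⟩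
  · right
    exact ⟨by linarith, by linarith⟩

/-- total variation of the marked positions is controlled by that of the path -/
theorem tv_le {τ : Type*} {h : ℝ} (hh : 0 < h) :
    ∀ (n : ℕ) (x : ℤ) (i : ℕ → ℝ) (c : Fin n → Option (ℤ × τ)),
      (∀ k : Fin n, ∀ gm ∈ c k, gm.1 = ⌊i k / h⌋) →
      tv n x c ≤ |i 0 / h - x| + (∑ k ∈ range n, |i (k + 1) - i k|) / h +
        2 * ∑ k, (c k).elim 0 (fun _ => (1 : ℝ)) := by
  intro n
  induction n with
  | zero => intro x i c _; simp [tv]
  | succ n ih =>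
    intro x i c hc
    have hsum : (∑ k ∈ range (n + 1), |i (k + 1) - i k|) / h =
        |i 1 / h - i 0 / h| + (∑ k ∈ range n, |i (k + 1 + 1) - i (k + 1)|) / h := by
      rw [Finset.sum_range_succ', add_comm, add_div]
      congr 1
      rw [zero_add, ← sub_div, abs_div, abs_of_pos hh]
    have hs2 : ∑ k, (c k).elim 0 (fun _ => (1 : ℝ)) = (c 0).elim 0 (fun _ => (1 : ℝ)) +
        ∑ k, (Fin.tail c k).elim 0 (fun _ => (1 : ℝ)) := by
      rw [Fin.sum_univ_succ]; rfl
    have ih' := fun y => ih y (fun k => i (k + 1)) (Fin.tail c) (fun k gm hgm => by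
      have := hc k.succ gm hgm; simpa using this)
    rw [hsum, hs2, tv]
    rcases h0 : c 0 with _ | gm
    · simp only [Option.elim_none]
      have h1 := ih' x
      have h2 : |i (0 + 1) / h - x| ≤ |i 0 / h - x| + |i 1 / h - i 0 / h| := by
        rw [zero_add]
        calc |i 1 / h - x| = |(i 0 / h - x) + (i 1 / h - i 0 / h)| := by ring_nf
          _ ≤ _ := abs_add_le _ _
      simp only [zero_add] at h1 h2 ⊢
      linarith
    · simp only [Option.elim_some]
      have hg : gm.1 = ⌊i 0 / h⌋ := by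
        have := hc 0 gm (by rw [h0]; rfl); simpa using this
      have hfl : |i 0 / h - gm.1| ≤ 1 := by
        rw [hg, abs_of_nonneg (by linarith [Int.floor_le (i 0 / h)])]
        linarith [Int.lt_floor_add_one (i 0 / h)]
      have h1 := ih' gm.1
      have h2 : |i (0 + 1) / h - gm.1| ≤ |i 1 / h - i 0 / h| + |i 0 / h - gm.1| := by
        rw [zero_add]
        calc |i 1 / h - gm.1| = |(i 1 / h - i 0 / h) + (i 0 / h - gm.1)| := by ring_nf
          _ ≤ _ := abs_add_le _ _
      have h3 : |((gm.1 - x : ℤ) : ℝ)| ≤ |i 0 / h - x| + |i 0 / h - gm.1| := by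
        push_cast
        calc |(gm.1 : ℝ) - x| = |(i 0 / h - x) - (i 0 / h - gm.1)| := by ring_nf
          _ ≤ _ := abs_sub _ _
      simp only [zero_add] at h1 h2 ⊢
      linarith

end Crest.Agent.R151.W
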