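import Mathlib
import Crest.Agent.R151.W3b

/-!
R151, S0214 part 2, section 12 (module M): the assembled Peierls theorem.
-/

set_option autoImplicit false

namespace Crest.Agent.R151.W

open MeasureTheory Finset

universe u

/-- the set of environments for which a cheap path exists -/
def cheap {Ω : Type u} (N : ℕ) (T : Finset ℕ) (B : ℕ → ℤ → Set Ω) (F : ℕ → ℤ → ℕ → Set Ω)
    (ζ v1 h κ' c κ'' V : ℝ) : Set Ω :=
  {ω | ∃ i cost : ℕ → ℝ, (∀ k ≤ N, |i k| ≤ V) ∧ (∀ k < N, 0 ≤ cost k) ∧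
    (∀ k ∈ T, i (k + 1) ≤ i k + ζ → ω ∉ B k ⌊i k / h⌋ → κ' ≤ cost k) ∧
    (∀ k ∈ T, v1 ≤ i k - i (k + 1) → ω ∉ F k ⌊i k⌋ ⌊i k - i (k + 1)⌋₊ →
      c * (i k - i (k + 1)) ≤ cost k) ∧
    ∑ k ∈ range N, cost k ≤ κ'' * N}

/-- hypothesis on the small events: joint probabilities over distinct typical rows -/
def ProdB {Ω : Type u} [MeasurableSpace Ω] (μ : Measure Ω) (N : ℕ) (T : Finset ℕ)
    (B : ℕ → ℤ → Set Ω) (p : ℝ) : Prop :=
  ∀ c : Fin N → Option ℤ, (∀ k : Fin N, (c k).isSome → (k : ℕ) ∈ T) →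
    μ (⋂ k : Fin N, (c k).elim Set.univ (B k)) ≤ ENNReal.ofReal (∏ k, (c k).elim 1 fun _ => p)

/-- hypothesis on the large falls -/
def ProdF {Ω : Type u} [MeasurableSpace Ω] (μ : Measure Ω) (N : ℕ) (T : Finset ℕ)
    (F : ℕ → ℤ → ℕ → Set Ω) (c2 : ℝ) (m1 : ℕ) : Prop :=
  ∀ c : Fin N → Option (ℤ × ℕ), (∀ k : Fin N, ∀ gm ∈ c k, (k : ℕ) ∈ T ∧ m1 ≤ gm.2) →
    μ (⋂ k : Fin N, (c k).elim Set.univ fun gm => F k gm.1 gm.2) ≤
      ENNReal.ofReal (∏ k, (c k).elim 1 fun gm => Real.exp (-c2 * gm.2))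

/-- the event of case (I) -/
def evB {Ω : Type u} (N : ℕ) (T : Finset ℕ) (B : ℕ → ℤ → Set Ω) (ζ v1 h V : ℝ) : Set Ω :=
  {ω | ∃ i : ℕ → ℝ, ∃ M : Finset ℕ, M ⊆ T ∧ (∀ k ≤ N, |i k| ≤ V) ∧ (∀ k ∈ M, ω ∈ B k ⌊i k / h⌋) ∧
    ζ * N ≤ 6 * (v1 * M.card) ∧
    ∑ k ∈ range N, |i (k + 1) - i k| ≤ ζ * N / 8 + 4 * (v1 * M.card)}

/-- the event of case (II) -/
def evF {Ω : Type u} (N : ℕ) (T : Finset ℕ) (F : ℕ → ℤ → ℕ → Set Ω) (ζ v1 V : ℝ) : Set Ω :=
  {ω | ∃ i : ℕ → ℝ, ∃ M : Finset ℕ, M ⊆ T ∧ (∀ k ≤ N, |i k| ≤ V) ∧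
    (∀ k ∈ M, v1 ≤ i k - i (k + 1) ∧ ω ∈ F k ⌊i k⌋ ⌊i k - i (k + 1)⌋₊) ∧
    ζ * N ≤ 6 * ∑ k ∈ M, (i k - i (k + 1)) ∧
    ∑ k ∈ range N, |i (k + 1) - i k| ≤ ζ * N / 8 + 4 * ∑ k ∈ M, (i k - i (k + 1))}

theorem cheap_subset {Ω : Type u} {N : ℕ} {T : Finset ℕ} (hT : T ⊆ range N)
    {B : ℕ → ℤ → Set Ω} {F : ℕ → ℤ → ℕ → Set Ω}
    {ζ v1 h κ' c κ'' V η : ℝ}
    (hζ : 0 < ζ) (hv1 : 1 ≤ v1) (hζ1 : ζ ≤ v1) (hκ' : 0 < κ') (hc : 0 < c)
    (hκ1 : 64 * v1 * κ'' ≤ κ' * ζ) (hκ2 : 64 * κ'' ≤ c * ζ)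
    (hη1 : η ≤ 1 / 64) (hVη : 2 * V * η ≤ ζ / 64) (hVN : 2 * V ≤ ζ * N / 64)
    (hat : ((range N \ T).card : ℝ) ≤ η * N) :
    cheap N T B F ζ v1 h κ' c κ'' V ⊆ evB N T B ζ v1 h V ∪ evF N T F ζ v1 V := by
  classical
  rintro ω ⟨i, cost, hpos, h0, H1, H2, hs⟩
  rcases peierls_det hT (i := i) (cost := cost) (B := fun k => ω ∈ B k ⌊i k / h⌋)
    (F := fun k => ω ∈ F k ⌊i k⌋ ⌊i k - i (k + 1)⌋₊) hζ hv1 hζ1 hκ' hc hκ1 hκ2 hη1 hVη hVN hpos
    hat h0 H1 H2 hs with hh | hh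
  · left
    exact ⟨i, _, Finset.filter_subset _ _, hpos, fun k hk => (Finset.mem_filter.1 hk).2.2,
      hh.1, hh.2⟩
  · right
    exact ⟨i, _, Finset.filter_subset _ _, hpos, fun k hk => (Finset.mem_filter.1 hk).2,
      hh.1, hh.2⟩

theorem floor_mem {x V : ℝ} (h : |x| ≤ V) : ⌊x⌋ ∈ Finset.Icc (-(⌈V⌉ + 1)) (⌈V⌉ + 1) := by
  rw [abs_le] at h
  rw [Finset.mem_Icc]
  constructor
  · rw [Int.le_floor]; push_cast; linarith [Int.le_ceil V]
  · have : (⌊x⌋ : ℝ) ≤ ⌈V⌉ + 1 := by linarith [Int.floor_le x, Int.le_ceil V]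
    exact_mod_cast this

theorem measure_evB_le {Ω : Type u} [MeasurableSpace Ω] (μ : Measure Ω) {N : ℕ} {T : Finset ℕ}
    (hT : T ⊆ range N) {B : ℕ → ℤ → Set Ω} {p : ℝ} (hp : 0 ≤ p) (hB : ProdB μ N T B p)
    {ζ v1 h V lam β : ℝ} (hh : 0 < h) (hv1 : 0 < v1) (hl : 0 < lam) (hβ : 0 ≤ β) :
    μ (evB N T B ζ v1 h V) ≤ ENNReal.ofReal
      (Real.exp (lam * ((V + ζ * N / 8) / h) - β * (ζ * N / (6 * v1))) *
        (1 + 2 / (1 - Real.exp (-lam)) * (p * Real.exp (lam * (4 * v1 / h + 2) + β))) ^ N) := by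
  classical
  set Gr : Finset ℤ := Finset.Icc (-(⌈V / h⌉ + 1)) (⌈V / h⌉ + 1) with hGr
  have hub := union_bound (τ := Unit) μ (n := N)
    (fun k g _ => if (k : ℕ) ∈ T then B k g else ∅) (π := fun _ => p) (w := fun _ => 1)
    (fun _ => hp) Gr (by
      intro c
      by_cases hc : ∀ k : Fin N, (c k).isSome → (k : ℕ) ∈ T
      · have := hB (fun k => (c k).map Prod.fst) (by
          intro k hk; exact hc k (by simpa using hk))
        refine (measure_mono ?_).trans (this.trans (le_of_eq ?_))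
        · refine Set.iInter_mono fun k => ?_
          rcases hck : c k with _ | gm
          · simp
          · simp only [Option.elim_some, Option.map_some]
            rw [if_pos (hc k (by simp [hck]))]
        · congr 1
          unfold wt
          refine Finset.prod_congr rfl fun k _ => ?_
          rcases hck : c k with _ | gm <;> simp
      · push Not at hc
        obtain ⟨k, hk1, hk2⟩ := hc
        obtain ⟨gm, hgm⟩ := Option.isSome_iff_exists.1 hk1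
        have : (⋂ k : Fin N, (c k).elim Set.univ fun gm => if (k : ℕ) ∈ T then B k gm.1 else ∅) ⊆
            (∅ : Set Ω) := by
          refine (Set.iInter_subset _ k).trans ?_
          rw [hgm]; simp [hk2]
        refine (measure_mono this).trans ?_
        simp)
    (lam := lam) (β := β) (D := (V + ζ * N / 8) / h) (a := 4 * v1 / h + 2)
    (A₀ := ζ * N / (6 * v1)) hl hβ 0
  refine (measure_mono ?_).trans (hub.trans (le_of_eq ?_))
  · rintro ω ⟨i, M, hMT, hpos, hMB, h1, h2⟩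
    have hmem : ∀ k : Fin N, ⌊i k / h⌋ ∈ Gr := fun k => floor_mem (by
      rw [abs_div, abs_of_pos hh]
      exact div_le_div_of_nonneg_right (hpos k k.2.le) hh.le)
    let cc : Cfg Unit Gr N := fun k =>
      if (k : ℕ) ∈ M then some (⟨⌊i k / h⌋, hmem k⟩, ()) else none
    have hcc : ∀ k : Fin N, cc.toFun k = if (k : ℕ) ∈ M then some (⌊i k / h⌋, ()) else none := by
      intro k
      simp only [Cfg.toFun, cc]
      split_ifs <;> simp
    have hcard : ∑ k, (cc.toFun k).elim 0 (fun _ => (1 : ℝ)) = M.card := by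
      have e1 : ∀ k : Fin N, (cc.toFun k).elim 0 (fun _ => (1 : ℝ)) =
          (fun k : ℕ => if k ∈ M then (1 : ℝ) else 0) k := by
        intro k; rw [hcc]; dsimp only; split_ifs <;> simp
      rw [Finset.sum_congr rfl fun k _ => e1 k,
        Fin.sum_univ_eq_sum_range (fun k : ℕ => if k ∈ M then (1 : ℝ) else 0) N,
        ← Finset.sum_filter, Finset.filter_mem_eq_inter,
        Finset.inter_eq_right.2 (hMT.trans hT)]
      simp
    refine ⟨cc, ?_, ?_, ?_⟩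
    · intro k gm hgm
      rw [hcc] at hgm
      split_ifs at hgm with hk
      · simp only [Option.mem_def, Option.some.injEq] at hgm
        subst hgm
        rw [if_pos (hMT hk)]
        exact hMB k hk
      · simp at hgm
    · rw [hcard]
      have h3 := tv_le hh N 0 i cc.toFun (by
        intro k gm hgm
        rw [hcc] at hgm
        split_ifs at hgm with hk
        · simp only [Option.mem_def, Option.some.injEq] at hgm
          subst hgm; rfl
        · simp at hgm)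
      rw [hcard] at h3
      have h4 : |i 0 / h - ((0 : ℤ) : ℝ)| ≤ V / h := by
        rw [Int.cast_zero, sub_zero, abs_div, abs_of_pos hh]
        exact div_le_div_of_nonneg_right (hpos 0 (Nat.zero_le _)) hh.le
      have h5 := div_le_div_of_nonneg_right h2 hh.le
      calc tv N 0 cc.toFun ≤ V / h + (ζ * N / 8 + 4 * (v1 * M.card)) / h + 2 * M.card := by
            linarith
        _ = _ := by field_simp; ring
    · rw [hcard, div_le_iff₀ (by positivity)]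
      linarith
  · congr 1
    simp

theorem measure_evF_le {Ω : Type u} [MeasurableSpace Ω] (μ : Measure Ω) {N : ℕ} {T : Finset ℕ}
    (hT : T ⊆ range N) {F : ℕ → ℤ → ℕ → Set Ω} {c2 : ℝ} (hc2 : 0 < c2) {m1 : ℕ}
    (hF : ProdF μ N T F c2 m1) {ζ v1 V : ℝ} (hv1 : 1 ≤ v1) (hm1 : (m1 : ℝ) ≤ v1) :
    μ (evF N T F ζ v1 V) ≤ ENNReal.ofReal
      (Real.exp (c2 / 40 * (V + ζ * N / 8) - c2 / 4 * (ζ * N / 12)) *
        (1 + 2 / (1 - Real.exp (-(c2 / 40))) *
          (Real.exp (-(c2 * m1 / 2)) / (1 - Real.exp (-(c2 / 2))))) ^ N) := by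
  classical
  set Gr : Finset ℤ := Finset.Icc (-(⌈V⌉ + 1)) (⌈V⌉ + 1) with hGr
  set Mx : ℕ := ⌊2 * V⌋₊ with hMx
  have hub := union_bound (τ := Fin (Mx + 1)) μ (n := N)
    (fun k g m => if (k : ℕ) ∈ T ∧ m1 ≤ (m : ℕ) then F k g m else ∅)
    (π := fun m => if m1 ≤ (m : ℕ) then Real.exp (-c2 * (m : ℕ)) else 0)
    (w := fun m => ((m : ℕ) : ℝ))
    (fun m => by split_ifs <;> positivity) Gr (by
      intro c
      by_cases hc : ∀ k : Fin N, ∀ gm ∈ c k, (k : ℕ) ∈ T ∧ m1 ≤ (gm.2 : ℕ)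
      · have := hF (fun k => (c k).map fun gm => (gm.1, (gm.2 : ℕ))) (by
          intro k gm hgm
          rcases hck : c k with _ | gm'
          · simp [hck] at hgm
          · simp only [hck, Option.map_some, Option.mem_def, Option.some.injEq] at hgm
            subst hgm
            exact hc k gm' (by rw [hck]; rfl))
        refine (measure_mono ?_).trans (this.trans (le_of_eq ?_))
        · refine Set.iInter_mono fun k => ?_
          rcases hck : c k with _ | gm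
          · simp
          · simp only [Option.elim_some, Option.map_some]
            rw [if_pos (hc k gm (by rw [hck]; rfl))]
        · congr 1
          unfold wt
          refine Finset.prod_congr rfl fun k _ => ?_
          rcases hck : c k with _ | gm
          · simp
          · simp only [Option.elim_some, Option.map_some]
            rw [if_pos (hc k gm (by rw [hck]; rfl)).2]
      · push Not at hc
        obtain ⟨k, gm, hk1, hk2⟩ := hc
        have : (⋂ k : Fin N, (c k).elim Set.univ fun gm => if (k : ℕ) ∈ T ∧ m1 ≤ (gm.2 : ℕ)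
            then F k gm.1 gm.2 else ∅) ⊆ (∅ : Set Ω) := by
          refine (Set.iInter_subset _ k).trans ?_
          rw [Option.mem_def.1 hk1]
          simp only [Option.elim_some]
          rw [if_neg]
          rintro ⟨h1, h2⟩
          exact absurd h2 (not_le.2 (hk2 h1))
        refine (measure_mono this).trans ?_
        simp)
    (lam := c2 / 40) (β := c2 / 4) (D := V + ζ * N / 8) (a := 10)
    (A₀ := ζ * N / 12) (by positivity) (by positivity) 0
  refine (measure_mono ?_).trans (hub.trans (ENNReal.ofReal_le_ofReal ?_))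
  · rintro ω ⟨i, M, hMT, hpos, hMF, h1, h2⟩
    have hmem : ∀ k : Fin N, ⌊i k⌋ ∈ Gr := fun k => floor_mem (hpos k k.2.le)
    have hfl : ∀ k ∈ M, ⌊i k - i (k + 1)⌋₊ < Mx + 1 := by
      intro k hk
      have hkN : k < N := Finset.mem_range.1 (hT (hMT hk))
      refine Nat.lt_succ_of_le (Nat.floor_le_floor ?_)
      have a1 := hpos k hkN.le
      have a2 := hpos (k + 1) hkN
      rw [abs_le] at a1 a2
      linarith
    let cc : Cfg (Fin (Mx + 1)) Gr N := fun k =>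
      if hk : (k : ℕ) ∈ M then some (⟨⌊i k⌋, hmem k⟩, ⟨⌊i k - i (k + 1)⌋₊, hfl k hk⟩) else none
    have hcc : ∀ k : Fin N, ∀ hk : (k : ℕ) ∈ M, cc.toFun k =
        some (⌊i k⌋, ⟨⌊i k - i (k + 1)⌋₊, hfl k hk⟩) := by
      intro k hk
      simp only [Cfg.toFun, cc, dif_pos hk, Option.map_some]
    have hcc' : ∀ k : Fin N, (k : ℕ) ∉ M → cc.toFun k = none := by
      intro k hk
      simp only [Cfg.toFun, cc, dif_neg hk, Option.map_none]
    have hsum : ∀ f : ℕ → ℝ, ∀ g : ℤ × Fin (Mx + 1) → ℝ,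
        (∀ k : Fin N, ∀ hk : (k : ℕ) ∈ M, g (⌊i k⌋, ⟨⌊i k - i (k + 1)⌋₊, hfl k hk⟩) = f k) →
        ∑ k, (cc.toFun k).elim 0 g = ∑ k ∈ M, f k := by
      intro f g hfg
      have e1 : ∀ k : Fin N, (cc.toFun k).elim 0 g =
          (fun k : ℕ => if k ∈ M then f k else 0) k := by
        intro k
        dsimp only
        by_cases hk : (k : ℕ) ∈ M
        · rw [hcc k hk, if_pos hk]; exact hfg k hk
        · rw [hcc' k hk, if_neg hk]; rfl
      rw [Finset.sum_congr rfl fun k _ => e1 k,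
        Fin.sum_univ_eq_sum_range (fun k : ℕ => if k ∈ M then f k else 0) N,
        ← Finset.sum_filter, Finset.filter_mem_eq_inter,
        Finset.inter_eq_right.2 (hMT.trans hT)]
    have hw := hsum (fun k => ((⌊i k - i (k + 1)⌋₊ : ℕ) : ℝ)) (fun gm => ((gm.2 : ℕ) : ℝ))
      (fun k hk => rfl)
    have hcard := hsum (fun _ => (1 : ℝ)) (fun _ => (1 : ℝ)) (fun k hk => rfl)
    -- floor bounds
    have hfloor : ∀ k ∈ M, (i k - i (k + 1)) / 2 ≤ ((⌊i k - i (k + 1)⌋₊ : ℕ) : ℝ) ∧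
        1 ≤ ((⌊i k - i (k + 1)⌋₊ : ℕ) : ℝ) := by
      intro k hk
      have hf := (hMF k hk).1
      have hf1 : 1 ≤ i k - i (k + 1) := hv1.trans hf
      have h3 : 1 ≤ ⌊i k - i (k + 1)⌋₊ := Nat.le_floor (by simpa using hf1)
      have h4 : (1 : ℝ) ≤ ((⌊i k - i (k + 1)⌋₊ : ℕ) : ℝ) := by exact_mod_cast h3
      have h5 := Nat.lt_floor_add_one (i k - i (k + 1))
      exact ⟨by linarith, h4⟩
    have hS2 : (∑ k ∈ M, (i k - i (k + 1))) / 2 ≤
        ∑ k ∈ M, ((⌊i k - i (k + 1)⌋₊ : ℕ) : ℝ) := by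
      rw [Finset.sum_div]; exact Finset.sum_le_sum fun k hk => (hfloor k hk).1
    have hS1 : ∑ k ∈ M, (1 : ℝ) ≤ ∑ k ∈ M, ((⌊i k - i (k + 1)⌋₊ : ℕ) : ℝ) :=
      Finset.sum_le_sum fun k hk => (hfloor k hk).2
    refine ⟨cc, ?_, ?_, ?_⟩
    · intro k gm hgm
      by_cases hk : (k : ℕ) ∈ M
      · rw [hcc k hk] at hgm
        simp only [Option.mem_def, Option.some.injEq] at hgm
        subst hgm
        have hle : m1 ≤ ⌊i k - i (k + 1)⌋₊ := Nat.le_floor (hm1.trans (hMF k hk).1)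
        rw [if_pos ⟨hMT hk, hle⟩]
        exact (hMF k hk).2
      · rw [hcc' k hk] at hgm; simp at hgm
    · have h3 := tv_le (h := 1) one_pos N 0 i cc.toFun (by
        intro k gm hgm
        by_cases hk : (k : ℕ) ∈ M
        · rw [hcc k hk] at hgm
          simp only [Option.mem_def, Option.some.injEq] at hgm
          subst hgm; simp
        · rw [hcc' k hk] at hgm; simp at hgm)
      rw [hcard] at h3
      rw [hw]
      have h4 : |i 0 / 1 - ((0 : ℤ) : ℝ)| ≤ V := by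
        rw [Int.cast_zero, sub_zero, div_one]
        exact hpos 0 (Nat.zero_le _)
      simp only [div_one] at h3 h4
      linarith
    · rw [hw]; linarith
  · have hexp1 : Real.exp (-(c2 / 2)) < 1 := by rw [Real.exp_lt_one_iff]; linarith
    have hexp2 : Real.exp (-(c2 / 40)) < 1 := by rw [Real.exp_lt_one_iff]; linarith
    refine mul_le_mul_of_nonneg_left ?_ (Real.exp_pos _).le
    have hZ : ∑ m : Fin (Mx + 1), (if m1 ≤ (m : ℕ) then Real.exp (-c2 * (m : ℕ)) else 0) *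
        Real.exp ((c2 / 40 * 10 + c2 / 4) * ((m : ℕ) : ℝ)) ≤
        Real.exp (-(c2 * m1 / 2)) / (1 - Real.exp (-(c2 / 2))) := by
      rw [Fin.sum_univ_eq_sum_range (fun m : ℕ => (if m1 ≤ m then Real.exp (-c2 * m) else 0) *
        Real.exp ((c2 / 40 * 10 + c2 / 4) * (m : ℝ))) (Mx + 1)]
      have e1 : ∀ m : ℕ, (if m1 ≤ m then Real.exp (-c2 * m) else 0) *
          Real.exp ((c2 / 40 * 10 + c2 / 4) * (m : ℝ)) =
          if m1 ≤ m then Real.exp (-(c2 * m1 / 2)) * Real.exp (-(c2 / 2)) ^ (m - m1) else 0 := by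
        intro m
        split_ifs with hm
        · rw [← Real.exp_add, ← Real.exp_nat_mul, ← Real.exp_add]
          congr 1
          rw [Nat.cast_sub hm]; ring
        · simp
      rw [Finset.sum_congr rfl fun m _ => e1 m, ← Finset.sum_filter, ← Finset.mul_sum,
        div_eq_mul_inv]
      refine mul_le_mul_of_nonneg_left ?_ (Real.exp_pos _).le
      rw [← tsum_geometric_of_lt_one (Real.exp_pos _).le hexp1,
        ← Finset.sum_image (f := fun d : ℕ => Real.exp (-(c2 / 2)) ^ d) (g := fun m : ℕ => m - m1)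
        (by
          intro a ha b hb hab
          simp only [Finset.coe_filter, Set.mem_ofPred_eq] at ha hb
          dsimp only at hab
          omega)]
      exact (summable_geometric_of_lt_one (Real.exp_pos _).le hexp1).sum_le_tsum _
        (fun _ _ => by positivity)
    have hC : 0 ≤ 2 / (1 - Real.exp (-(c2 / 40))) := div_nonneg (by norm_num) (by linarith)
    have hZ0 : 0 ≤ ∑ m : Fin (Mx + 1), (if m1 ≤ (m : ℕ) then Real.exp (-c2 * (m : ℕ)) else 0) *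
        Real.exp ((c2 / 40 * 10 + c2 / 4) * ((m : ℕ) : ℝ)) :=
      Finset.sum_nonneg fun m _ => by split_ifs <;> positivity
    refine pow_le_pow_left₀ (by positivity) ?_ N
    have := mul_le_mul_of_nonneg_left hZ hC
    linarith

/-- Core of the Peierls theorem of section 12: all constants with their constraints. -/
theorem peierls_core {ζ v1 h c c2 : ℝ} {m1 : ℕ} (hζ : 0 < ζ) (hv1 : 1 ≤ v1)
    (hh : 0 < h) (hc : 0 < c) (hc2 : 0 < c2) (hm1 : (m1 : ℝ) ≤ v1)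
    (hv : 2 / (1 - Real.exp (-(c2 / 40))) *
      (Real.exp (-(c2 * m1 / 2)) / (1 - Real.exp (-(c2 / 2)))) ≤ c2 * ζ / 100) :
    ∃ p₀ : ℝ, 0 < p₀ ∧ ∀ κ' : ℝ, 0 < κ' → ∃ κ'' : ℝ, 0 < κ'' ∧
      (64 * v1 * κ'' ≤ κ' * ζ ∧ 64 * κ'' ≤ c * ζ) ∧ ∀ V : ℝ, 0 ≤ V →
      ∃ η : ℝ, 0 < η ∧ (η ≤ 1 / 64 ∧ 2 * V * η ≤ ζ / 64) ∧
      ∀ ε : ℝ, 0 < ε → ∃ N₀ : ℕ, ∀ N : ℕ, N₀ ≤ N → 2 * V ≤ ζ * N / 64 ∧
      ∀ (Ω : Type u) [MeasurableSpace Ω] (μ : Measure Ω) (T : Finset ℕ), T ⊆ range N →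
        ∀ (B : ℕ → ℤ → Set Ω) (F : ℕ → ℤ → ℕ → Set Ω), ProdB μ N T B p₀ → ProdF μ N T F c2 m1 →
        μ (evB N T B ζ v1 h V ∪ evF N T F ζ v1 V) ≤ ENNReal.ofReal ε := by
  have hv0 : 0 < v1 := by linarith
  set a : ℝ := 4 * v1 / h + 2 with ha
  have ha0 : 0 < a := by positivity
  set s0 : ℝ := min (Real.exp (-1)) (ζ / (96 * Real.exp 1 * v1 * (a + 1))) with hs0
  have hs0p : 0 < s0 := lt_min (Real.exp_pos _) (by positivity)
  have hs01 : s0 ≤ Real.exp (-1) := min_le_left _ _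
  have hs02 : s0 ≤ ζ / (96 * Real.exp 1 * v1 * (a + 1)) := min_le_right _ _
  refine ⟨s0 ^ 2, by positivity, fun κ' hκ' => ?_⟩
  have hκ1 : 64 * v1 * min (κ' * ζ / (64 * v1)) (c * ζ / 64) ≤ κ' * ζ := by
    calc 64 * v1 * min (κ' * ζ / (64 * v1)) (c * ζ / 64) ≤ 64 * v1 * (κ' * ζ / (64 * v1)) :=
          mul_le_mul_of_nonneg_left (min_le_left _ _) (by positivity)
      _ = κ' * ζ := by field_simp
  have hκ2 : 64 * min (κ' * ζ / (64 * v1)) (c * ζ / 64) ≤ c * ζ := by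
    have := min_le_right (κ' * ζ / (64 * v1)) (c * ζ / 64); linarith
  refine ⟨min (κ' * ζ / (64 * v1)) (c * ζ / 64), lt_min (by positivity) (by positivity),
    ⟨hκ1, hκ2⟩, fun V hV => ?_⟩
  have hVη : 2 * V * min (1 / 64) (ζ / (128 * (V + 1))) ≤ ζ / 64 := by
    calc 2 * V * min (1 / 64) (ζ / (128 * (V + 1))) ≤ 2 * V * (ζ / (128 * (V + 1))) :=
          mul_le_mul_of_nonneg_left (min_le_right _ _) (by positivity)
      _ = ζ / 64 * (V / (V + 1)) := by field_simp; ring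
      _ ≤ ζ / 64 * 1 := mul_le_mul_of_nonneg_left (by
          rw [div_le_one (by positivity)]; linarith) (by positivity)
      _ = _ := mul_one _
  refine ⟨min (1 / 64) (ζ / (128 * (V + 1))), lt_min (by norm_num) (by positivity),
    ⟨min_le_left _ _, hVη⟩, fun ε hε => ?_⟩
  -- limits
  have lim : ∀ A b : ℝ, 0 < b → ∀ᶠ N : ℕ in Filter.atTop, Real.exp (A - b * N) ≤ ε / 2 := by
    intro A b hb
    have h1 : Filter.Tendsto (fun N : ℕ => Real.exp (A - b * N)) Filter.atTop (nhds 0) := by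
      refine Real.tendsto_exp_atBot.comp ?_
      have h2 : Filter.Tendsto (fun N : ℕ => b * (N : ℝ)) Filter.atTop Filter.atTop :=
        Filter.Tendsto.const_mul_atTop hb tendsto_natCast_atTop_atTop
      have h3 := Filter.tendsto_atBot_add_const_left Filter.atTop A
        (Filter.tendsto_neg_atTop_atBot.comp h2)
      refine h3.congr fun N => ?_
      simp [sub_eq_add_neg]
    exact h1.eventually_le_const (by positivity)
  have lim2 : ∀ᶠ N : ℕ in Filter.atTop, 2 * V ≤ ζ * N / 64 := by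
    have h2 : Filter.Tendsto (fun N : ℕ => ζ / 64 * (N : ℝ)) Filter.atTop Filter.atTop :=
      Filter.Tendsto.const_mul_atTop (by positivity) tendsto_natCast_atTop_atTop
    filter_upwards [h2.eventually_ge_atTop (2 * V)] with N hN
    linarith
  obtain ⟨N₀, hN₀⟩ := Filter.eventually_atTop.1
    (((lim (V / (4 * v1)) (11 / 96 * (ζ / v1)) (by positivity)).and
      (lim (c2 / 40 * V) (c2 * ζ * (1 / 48 - 1 / 320 - 1 / 100)) (by
        have : (0:ℝ) < 1 / 48 - 1 / 320 - 1 / 100 := by norm_num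
        positivity))).and lim2)
  refine ⟨N₀, fun N hN => ?_⟩
  obtain ⟨⟨l1, l2⟩, l3⟩ := hN₀ N hN
  refine ⟨l3, fun Ω _ μ T hT B F hB hF => ?_⟩
  refine (measure_union_le _ _).trans ?_
  have hN0 : (0 : ℝ) ≤ N := Nat.cast_nonneg N
  -- case (I)
  have hI : μ (evB N T B ζ v1 h V) ≤ ENNReal.ofReal (ε / 2) := by
    refine (measure_evB_le μ hT (sq_nonneg s0) hB (ζ := ζ) (v1 := v1) (h := h) (V := V)
      (lam := 1 / a) (β := - Real.log s0) hh hv0 (by positivity) ?_).trans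
      (ENNReal.ofReal_le_ofReal (le_trans ?_ l1))
    · have : Real.log s0 ≤ -1 := by
        have := Real.log_le_log hs0p hs01
        rwa [Real.log_exp] at this
      linarith
    have hlog : 1 ≤ - Real.log s0 := by
      have := Real.log_le_log hs0p hs01
      rw [Real.log_exp] at this; linarith
    have e1 : s0 ^ 2 * Real.exp (1 / a * (4 * v1 / h + 2) + - Real.log s0) = Real.exp 1 * s0 := by
      rw [← ha, one_div, inv_mul_cancel₀ ha0.ne', Real.exp_add, Real.exp_neg, Real.exp_log hs0p]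
      field_simp
    rw [e1]
    have e2 : 2 / (1 - Real.exp (-(1 / a))) ≤ 2 * (a + 1) := by
      have h1 : 1 - Real.exp (-(1 / a)) ≥ 1 / (a + 1) := by
        have h2 : Real.exp (-(1 / a)) ≤ 1 / (1 + 1 / a) := by
          rw [Real.exp_neg, ← one_div]
          exact one_div_le_one_div_of_le (by positivity) (by linarith [Real.add_one_le_exp (1 / a)])
        have h3 : (1 : ℝ) / (1 + 1 / a) = a / (a + 1) := by field_simp
        have h4 : 1 - a / (a + 1) = 1 / (a + 1) := by field_simp; ring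
        rw [h3] at h2; linarith
      have hpos : 0 < 1 / (a + 1) := by positivity
      calc 2 / (1 - Real.exp (-(1 / a))) ≤ 2 / (1 / (a + 1)) :=
            div_le_div_of_nonneg_left (by norm_num) hpos h1
        _ = 2 * (a + 1) := by field_simp
    have e3 : 2 / (1 - Real.exp (-(1 / a))) * (Real.exp 1 * s0) ≤ ζ / (48 * v1) := by
      calc 2 / (1 - Real.exp (-(1 / a))) * (Real.exp 1 * s0)
          ≤ 2 * (a + 1) * (Real.exp 1 * (ζ / (96 * Real.exp 1 * v1 * (a + 1)))) := by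
            refine mul_le_mul e2 (mul_le_mul_of_nonneg_left hs02 (Real.exp_pos _).le)
              (by positivity) (by positivity)
        _ = ζ / (48 * v1) := by field_simp; ring
    have e0 : 0 ≤ 2 / (1 - Real.exp (-(1 / a))) * (Real.exp 1 * s0) := by
      have : Real.exp (-(1 / a)) < 1 := by
        rw [Real.exp_lt_one_iff]; have : 0 < 1 / a := by positivity
        linarith
      exact mul_nonneg (div_nonneg (by norm_num) (by linarith)) (by positivity)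
    have e4 : (1 + 2 / (1 - Real.exp (-(1 / a))) * (Real.exp 1 * s0)) ^ N ≤
        Real.exp (N * (ζ / (48 * v1))) := by
      rw [Real.exp_nat_mul]
      refine pow_le_pow_left₀ (by linarith) ?_ N
      have := Real.add_one_le_exp (ζ / (48 * v1)); linarith
    have e5 : 1 / a * ((V + ζ * N / 8) / h) ≤ (V + ζ * N / 8) / (4 * v1) := by
      have h1 : 4 * v1 ≤ a * h := by
        rw [ha, add_mul, div_mul_cancel₀ _ hh.ne']; linarith
      calc 1 / a * ((V + ζ * N / 8) / h) = (V + ζ * N / 8) / (a * h) := by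
            field_simp
        _ ≤ _ := div_le_div_of_nonneg_left (by positivity) (by positivity) h1
    have e6 : ζ * N / (6 * v1) ≤ - Real.log s0 * (ζ * N / (6 * v1)) :=
      le_mul_of_one_le_left (by positivity) hlog
    calc _ ≤ Real.exp ((V + ζ * N / 8) / (4 * v1) - ζ * N / (6 * v1)) *
          Real.exp (N * (ζ / (48 * v1))) := by
          refine mul_le_mul (Real.exp_le_exp.2 (by linarith)) e4 (by positivity) (by positivity)
      _ = Real.exp (V / (4 * v1) - 11 / 96 * (ζ / v1) * N) := by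
          rw [← Real.exp_add]; congr 1; field_simp; ring
  have hII : μ (evF N T F ζ v1 V) ≤ ENNReal.ofReal (ε / 2) := by
    refine (measure_evF_le μ hT hc2 hF (ζ := ζ) (v1 := v1) (V := V) hv1 hm1).trans
      (ENNReal.ofReal_le_ofReal (le_trans ?_ l2))
    have hexp1 : Real.exp (-(c2 / 2)) < 1 := by rw [Real.exp_lt_one_iff]; linarith
    have hexp2 : Real.exp (-(c2 / 40)) < 1 := by rw [Real.exp_lt_one_iff]; linarith
    have e0 : 0 ≤ 2 / (1 - Real.exp (-(c2 / 40))) *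
        (Real.exp (-(c2 * m1 / 2)) / (1 - Real.exp (-(c2 / 2)))) :=
      mul_nonneg (div_nonneg (by norm_num) (by linarith))
        (div_nonneg (Real.exp_pos _).le (by linarith))
    have e4 : (1 + 2 / (1 - Real.exp (-(c2 / 40))) *
        (Real.exp (-(c2 * m1 / 2)) / (1 - Real.exp (-(c2 / 2))))) ^ N ≤
        Real.exp (N * (c2 * ζ / 100)) := by
      rw [Real.exp_nat_mul]
      refine pow_le_pow_left₀ (by linarith) ?_ N
      have := Real.add_one_le_exp (c2 * ζ / 100); linarith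
    calc _ ≤ Real.exp (c2 / 40 * (V + ζ * N / 8) - c2 / 4 * (ζ * N / 12)) *
          Real.exp (N * (c2 * ζ / 100)) :=
          mul_le_mul_of_nonneg_left e4 (Real.exp_pos _).le
      _ = Real.exp (c2 / 40 * V - c2 * ζ * (1 / 48 - 1 / 320 - 1 / 100) * N) := by
          rw [← Real.exp_add]; congr 1; ring
  calc μ (evB N T B ζ v1 h V) + μ (evF N T F ζ v1 V) ≤
        ENNReal.ofReal (ε / 2) + ENNReal.ofReal (ε / 2) := add_le_add hI hII
    _ = ENNReal.ofReal ε := by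
        rw [← ENNReal.ofReal_add (by positivity) (by positivity)]; congr 1; ring

/-- **Peierls theorem of section 12**, fixed set `T` of typical rows (conditional version).
Constants: `ζ`, `v1`, `h` (grid), `c` (cost of large falls), `c2` (probability exponent of large
falls). Then `p₀` (small probability), any `κ'`, then `κ''`, any `V` (half width of the lane), then
`η` (fraction of atypical rows), any `ε`, then `N₀`. -/
theorem peierls {ζ v1 h c c2 : ℝ} {m1 : ℕ} (hζ : 0 < ζ) (hv1 : 1 ≤ v1) (hζ1 : ζ ≤ v1)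
    (hh : 0 < h) (hc : 0 < c) (hc2 : 0 < c2) (hm1 : (m1 : ℝ) ≤ v1)
    (hv : 2 / (1 - Real.exp (-(c2 / 40))) *
      (Real.exp (-(c2 * m1 / 2)) / (1 - Real.exp (-(c2 / 2)))) ≤ c2 * ζ / 100) :
    ∃ p₀ : ℝ, 0 < p₀ ∧ ∀ κ' : ℝ, 0 < κ' → ∃ κ'' : ℝ, 0 < κ'' ∧ ∀ V : ℝ, 0 ≤ V →
      ∃ η : ℝ, 0 < η ∧ ∀ ε : ℝ, 0 < ε → ∃ N₀ : ℕ, ∀ N : ℕ, N₀ ≤ N →
      ∀ (Ω : Type u) [MeasurableSpace Ω] (μ : Measure Ω) (T : Finset ℕ), T ⊆ range N →
        ((range N \ T).card : ℝ) ≤ η * N →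
        ∀ (B : ℕ → ℤ → Set Ω) (F : ℕ → ℤ → ℕ → Set Ω), ProdB μ N T B p₀ → ProdF μ N T F c2 m1 →
        μ (cheap N T B F ζ v1 h κ' c κ'' V) ≤ ENNReal.ofReal ε := by
  obtain ⟨p₀, hp, H⟩ := peierls_core hζ hv1 hh hc hc2 hm1 hv
  refine ⟨p₀, hp, fun κ' hκ' => ?_⟩
  obtain ⟨κ'', hκ, ⟨k1, k2⟩, H⟩ := H κ' hκ'
  refine ⟨κ'', hκ, fun V hV => ?_⟩
  obtain ⟨η, hη, ⟨e1, e2⟩, H⟩ := H V hV
  refine ⟨η, hη, fun ε hε => ?_⟩
  obtain ⟨N₀, H⟩ := H ε hε
  refine ⟨N₀, fun N hN Ω _ μ T hT hat B F hB hF => ?_⟩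
  obtain ⟨l3, H⟩ := H N hN
  exact (measure_mono (cheap_subset hT hζ hv1 hζ1 hκ' hc k1 k2 e1 e2 l3 hat)).trans
    (H Ω μ T hT B F hB hF)

/-- environments for which there is a set `T` of at least `(1 - η) N` typical rows and a cheap
path -/
def cheapR {Ω : Type u} (N : ℕ) (η : ℝ) (B : ℕ → ℤ → Set Ω) (F : ℕ → ℤ → ℕ → Set Ω)
    (ζ v1 h κ' c κ'' V : ℝ) : Set Ω :=
  {ω | ∃ T ⊆ range N, ((range N \ T).card : ℝ) ≤ η * N ∧ ω ∈ cheap N T B F ζ v1 h κ' c κ'' V}

theorem evB_mono {Ω : Type u} {N : ℕ} {T T' : Finset ℕ} (h : T ⊆ T') {B : ℕ → ℤ → Set Ω}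
    {ζ v1 h V : ℝ} : evB N T B ζ v1 h V ⊆ evB N T' B ζ v1 h V := by
  rintro ω ⟨i, M, hM, h1⟩
  exact ⟨i, M, hM.trans ‹T ⊆ T'›, h1⟩

theorem evF_mono {Ω : Type u} {N : ℕ} {T T' : Finset ℕ} (h : T ⊆ T') {F : ℕ → ℤ → ℕ → Set Ω}
    {ζ v1 V : ℝ} : evF N T F ζ v1 V ⊆ evF N T' F ζ v1 V := by
  rintro ω ⟨i, M, hM, h1⟩
  exact ⟨i, M, hM.trans h, h1⟩

/-- **Peierls theorem of section 12**, version for independent rows: the set `T` of typical rows
(gap events) may depend on the environment in an arbitrary way. -/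
theorem peierls_random {ζ v1 h c c2 : ℝ} {m1 : ℕ} (hζ : 0 < ζ) (hv1 : 1 ≤ v1) (hζ1 : ζ ≤ v1)
    (hh : 0 < h) (hc : 0 < c) (hc2 : 0 < c2) (hm1 : (m1 : ℝ) ≤ v1)
    (hv : 2 / (1 - Real.exp (-(c2 / 40))) *
      (Real.exp (-(c2 * m1 / 2)) / (1 - Real.exp (-(c2 / 2)))) ≤ c2 * ζ / 100) :
    ∃ p₀ : ℝ, 0 < p₀ ∧ ∀ κ' : ℝ, 0 < κ' → ∃ κ'' : ℝ, 0 < κ'' ∧ ∀ V : ℝ, 0 ≤ V →
      ∃ η : ℝ, 0 < η ∧ ∀ ε : ℝ, 0 < ε → ∃ N₀ : ℕ, ∀ N : ℕ, N₀ ≤ N →
      ∀ (Ω : Type u) [MeasurableSpace Ω] (μ : Measure Ω)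
        (B : ℕ → ℤ → Set Ω) (F : ℕ → ℤ → ℕ → Set Ω),
        ProdB μ N (range N) B p₀ → ProdF μ N (range N) F c2 m1 →
        μ (cheapR N η B F ζ v1 h κ' c κ'' V) ≤ ENNReal.ofReal ε := by
  obtain ⟨p₀, hp, H⟩ := peierls_core hζ hv1 hh hc hc2 hm1 hv
  refine ⟨p₀, hp, fun κ' hκ' => ?_⟩
  obtain ⟨κ'', hκ, ⟨k1, k2⟩, H⟩ := H κ' hκ'
  refine ⟨κ'', hκ, fun V hV => ?_⟩
  obtain ⟨η, hη, ⟨e1, e2⟩, H⟩ := H V hV
  refine ⟨η, hη, fun ε hε => ?_⟩
  obtain ⟨N₀, H⟩ := H ε hε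
  refine ⟨N₀, fun N hN Ω _ μ B F hB hF => ?_⟩
  obtain ⟨l3, H⟩ := H N hN
  refine (measure_mono ?_).trans (H Ω μ (range N) (Finset.Subset.refl _) B F hB hF)
  rintro ω ⟨T, hT, hat, hω⟩
  rcases cheap_subset hT hζ hv1 hζ1 hκ' hc k1 k2 e1 e2 l3 hat hω with h1 | h1
  · exact Or.inl (evB_mono hT h1)
  · exact Or.inr (evF_mono hT h1)

end Crest.Agent.R151.W
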