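import Mathlib
import Crest.Agent.R151.W3c

/-!
R151, S0214 part 2, section 12: `ProdB` and `ProdF` from independence of the rows.
-/

set_option autoImplicit false

namespace Crest.Agent.R151.W

open MeasureTheory ProbabilityTheory Finset

universe u

variable {Ω : Type u} [m0 : MeasurableSpace Ω] {μ : Measure Ω}

theorem prodB_of_iIndep [IsProbabilityMeasure μ] {N : ℕ} {T : Finset ℕ} {B : ℕ → ℤ → Set Ω} {p : ℝ}
    (hp : 0 ≤ p) {m : Fin N → MeasurableSpace Ω} (hind : iIndep m μ)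
    (hmeas : ∀ k : Fin N, (k : ℕ) ∈ T → ∀ g, MeasurableSet[m k] (B k g))
    (hB : ∀ k : Fin N, (k : ℕ) ∈ T → ∀ g, μ (B k g) ≤ ENNReal.ofReal p) : ProdB μ N T B p := by
  intro c hc
  rw [hind.meas_iInter, ENNReal.ofReal_prod_of_nonneg]
  · refine Finset.prod_le_prod' fun k _ => ?_
    rcases h : c k with _ | g
    · simp
    · exact hB k (hc k (by simp [h])) g
  · intro k _
    rcases c k with _ | g
    · exact zero_le_one
    · exact hp
  · intro k
    rcases h : c k with _ | g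
    · exact MeasurableSet.univ
    · exact hmeas k (hc k (by simp [h])) g

theorem prodF_of_iIndep [IsProbabilityMeasure μ] {N : ℕ} {T : Finset ℕ} {F : ℕ → ℤ → ℕ → Set Ω}
    {c2 : ℝ} {m1 : ℕ} {m : Fin N → MeasurableSpace Ω} (hind : iIndep m μ)
    (hmeas : ∀ k : Fin N, (k : ℕ) ∈ T → ∀ g n, m1 ≤ n → MeasurableSet[m k] (F k g n))
    (hF : ∀ k : Fin N, (k : ℕ) ∈ T → ∀ g n, m1 ≤ n →
      μ (F k g n) ≤ ENNReal.ofReal (Real.exp (-c2 * n))) : ProdF μ N T F c2 m1 := by
  intro c hc
  rw [hind.meas_iInter, ENNReal.ofReal_prod_of_nonneg]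
  · refine Finset.prod_le_prod' fun k _ => ?_
    rcases h : c k with _ | gm
    · simp
    · have := hc k gm (by rw [h]; rfl)
      exact hF k this.1 gm.1 gm.2 this.2
  · intro k _
    rcases c k with _ | g
    · exact zero_le_one
    · exact (Real.exp_pos _).le
  · intro k
    rcases h : c k with _ | gm
    · exact MeasurableSet.univ
    · have := hc k gm (by rw [h]; rfl)
      exact hmeas k this.1 gm.1 gm.2 this.2

/-- Product space version: the rows are the factors. -/
theorem prodB_of_pi {X : ℕ → Type u} [∀ k, MeasurableSpace (X k)] (P : ∀ k, Measure (X k))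
    [∀ k, IsProbabilityMeasure (P k)] {N : ℕ} {T : Finset ℕ} {B : ∀ k : ℕ, ℤ → Set (X k)} {p : ℝ}
    (hp : 0 ≤ p) (hB : ∀ k < N, k ∈ T → ∀ g, P k (B k g) ≤ ENNReal.ofReal p) :
    ProdB (Measure.pi fun k : Fin N => P k) N T
      (fun k g => {ω : ∀ k : Fin N, X k | ∃ h : k < N, ω ⟨k, h⟩ ∈ B k g}) p := by
  intro c hc
  have e : (⋂ k : Fin N, (c k).elim Set.univ
      fun g => {ω : ∀ k : Fin N, X k | ∃ h : (k : ℕ) < N, ω ⟨k, h⟩ ∈ B k g}) =
      Set.univ.pi fun k : Fin N => (c k).elim Set.univ (B k) := by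
    ext ω
    simp only [Set.mem_iInter, Set.mem_univ_pi]
    refine forall_congr' fun k => ?_
    rcases c k with _ | g
    · simp
    · simp only [Option.elim_some, Set.mem_ofPred_eq, Fin.is_lt, exists_true_left, Fin.eta]
  rw [e, Measure.pi_pi, ENNReal.ofReal_prod_of_nonneg]
  · refine Finset.prod_le_prod' fun k _ => ?_
    rcases h : c k with _ | g
    · simp
    · exact hB k k.2 (hc k (by simp [h])) g
  · intro k _
    rcases c k with _ | g
    · exact zero_le_one
    · exact hp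

theorem prodF_of_pi {X : ℕ → Type u} [∀ k, MeasurableSpace (X k)] (P : ∀ k, Measure (X k))
    [∀ k, IsProbabilityMeasure (P k)] {N : ℕ} {T : Finset ℕ} {F : ∀ k : ℕ, ℤ → ℕ → Set (X k)}
    {c2 : ℝ} {m1 : ℕ}
    (hF : ∀ k < N, k ∈ T → ∀ g n, m1 ≤ n → P k (F k g n) ≤ ENNReal.ofReal (Real.exp (-c2 * n))) :
    ProdF (Measure.pi fun k : Fin N => P k) N T
      (fun k g n => {ω : ∀ k : Fin N, X k | ∃ h : k < N, ω ⟨k, h⟩ ∈ F k g n}) c2 m1 := by
  intro c hc
  have e : (⋂ k : Fin N, (c k).elim Set.univ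
      fun gm => {ω : ∀ k : Fin N, X k | ∃ h : (k : ℕ) < N, ω ⟨k, h⟩ ∈ F k gm.1 gm.2}) =
      Set.univ.pi fun k : Fin N => (c k).elim Set.univ (fun gm => F k gm.1 gm.2) := by
    ext ω
    simp only [Set.mem_iInter, Set.mem_univ_pi]
    refine forall_congr' fun k => ?_
    rcases c k with _ | g
    · simp
    · simp only [Option.elim_some, Set.mem_ofPred_eq, Fin.is_lt, exists_true_left, Fin.eta]
  rw [e, Measure.pi_pi, ENNReal.ofReal_prod_of_nonneg]
  · refine Finset.prod_le_prod' fun k _ => ?_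
    rcases h : c k with _ | gm
    · simp
    · have := hc k gm (by rw [h]; rfl)
      exact hF k k.2 this.1 gm.1 gm.2 this.2
  · intro k _
    rcases c k with _ | g
    · exact zero_le_one
    · exact (Real.exp_pos _).le

end Crest.Agent.R151.W
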