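import Crest.Agent.R151.E191A
import Crest.Agent.R151.W3d

/-!
# R151 / S0214 part 2, E685P — the costly half of the endgame (owner helper685)

On 191's `Model` (E191A): if all rows are `Costly` and the far lane of width `v` has cheap walks
(`Paths`), we get a contradiction (Peierls argument, `W.peierls_random`).
-/

set_option autoImplicit false

namespace Crest.Agent.R151.E685

open Crest.Agent.R151.E191
open MeasureTheory ProbabilityTheory Set Filter

universe u

/-! ## deterministic part -/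

section det

variable {Ω : Type u}

/-- clamped grid position -/
noncomputable def gpos (δ v : ℝ) (g : ℤ) : ℝ := max (-v) (min ((g : ℝ) * (δ / 2)) (v - δ))

/-- small event of row `k` at the grid position `g` -/
def evSmall (R : RowA Ω) (δ v κ : ℝ) (g : ℤ) : Set Ω :=
  {ω | R.K (gpos δ v g) (gpos δ v g + δ) ω ≤ κ} ∩ R.T

/-- large fall event: `n` cells to the left of the integer position `g` -/
def evFall (R : RowA Ω) (v : ℝ) (g : ℤ) (n : ℕ) : Set Ω :=
  {ω | |((g : ℝ) + 2 - n)| ≤ v ∧ |((g : ℝ) + 2 - n) + 3 * n / 16 + 1 / 32| ≤ v ∧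
    R.cross ((g : ℝ) + 2 - n) n ω ≤ n} ∩ R.T

lemma gpos_mem {δ v : ℝ} (hδ : 0 < δ) (hv : δ ≤ v) (g : ℤ) :
    -v ≤ gpos δ v g ∧ gpos δ v g ≤ v - δ := by
  unfold gpos
  exact ⟨le_max_left _ _, max_le (by linarith) (min_le_right _ _)⟩

lemma gpos_floor {δ v z : ℝ} (hδ : 0 < δ) (hz : |z| ≤ v) :
    gpos δ v ⌊z / (δ / 2)⌋ ≤ z ∧ min (z + δ / 2) v ≤ gpos δ v ⌊z / (δ / 2)⌋ + δ := by
  have h1 := Int.floor_le (z / (δ / 2))
  have h2 := Int.lt_floor_add_one (z / (δ / 2))
  have hd : (0 : ℝ) < δ / 2 := by linarith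
  have h3 : (⌊z / (δ / 2)⌋ : ℝ) * (δ / 2) ≤ z := by
    rw [le_div_iff₀ hd] at h1; exact h1
  have h4 : z < (⌊z / (δ / 2)⌋ : ℝ) * (δ / 2) + δ / 2 := by
    rw [div_lt_iff₀ hd] at h2; linarith
  rw [abs_le] at hz
  unfold gpos
  constructor
  · exact max_le hz.1 ((min_le_left _ _).trans h3)
  · rcases le_total ((⌊z / (δ / 2)⌋ : ℝ) * (δ / 2)) (v - δ) with h | h
    · rw [min_eq_left h]
      refine (min_le_left _ _).trans ?_
      have := le_max_right (-v) ((⌊z / (δ / 2)⌋ : ℝ) * (δ / 2))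
      linarith
    · rw [min_eq_right h]
      refine (min_le_right _ _).trans ?_
      have := le_max_right (-v) (v - δ)
      linarith

/-- cost of one row and one gap on typical rows: flat moves -/
lemma small_of_not {R : RowA Ω} {δ v κ e z z' w gap : ℝ} {ω : Ω} (hδ : 0 < δ) (hδv : δ ≤ v)
    (he : 0 < e) (hκe : 8 * (e * κ) ≤ δ) (hT : ω ∈ R.T)
    (Kn : ∀ s t, |s| ≤ v → |t| ≤ v → 0 ≤ R.K s t ω)
    (Km : ∀ s s' t, |s| ≤ v → |s'| ≤ v → |t| ≤ v → s ≤ s' → R.K s t ω ≤ R.K s' t ω)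
    (Ka : ∀ s t t', |s| ≤ v → |t| ≤ v → |t'| ≤ v → t ≤ t' → R.K s t' ω ≤ R.K s t ω)
    (hz : |z| ≤ v) (hw : |w| ≤ v) (hg : 0 ≤ gap)
    (hgap : δ / 8 < w - z' → (w - z') / e ≤ gap)
    (hflat : z' ≤ z + δ / 4) (hB : ω ∉ evSmall R δ v κ ⌊z / (δ / 2)⌋) :
    κ ≤ R.K z w ω + gap := by
  by_cases hback : δ / 8 < w - z'
  · have h1 := hgap hback
    have h2 : κ ≤ (w - z') / e := by
      rw [le_div_iff₀ he]; nlinarith
    linarith [Kn z w hz hw]
  push Not at hback
  set x := gpos δ v ⌊z / (δ / 2)⌋ with hx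
  have hxm := gpos_mem hδ hδv ⌊z / (δ / 2)⌋
  rw [← hx] at hxm
  obtain ⟨hx1, hx2⟩ := gpos_floor hδ hz
  rw [← hx] at hx1 hx2
  have hxv : |x| ≤ v := by rw [abs_le]; constructor <;> linarith
  have hxv' : |x + δ| ≤ v := by rw [abs_le]; constructor <;> linarith
  have hwx : w ≤ x + δ := by
    refine le_trans (le_min (by linarith) ?_) hx2
    exact (abs_le.1 hw).2
  have hK1 := Km x z w hxv hz hw hx1
  have hK2 := Ka x w (x + δ) hxv hw hxv' hwx
  have hK3 : κ < R.K x (x + δ) ω := by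
    by_contra hcon
    push Not at hcon
    exact hB ⟨hcon, hT⟩
  linarith

/-- cost of one row and one gap on typical rows: large falls -/
lemma fall_of_not {R : RowA Ω} {δ v e z z' w gap : ℝ} {ω : Ω} (hδ1 : δ ≤ 1)
    (he : 0 < e) (hev : 8 * (e * v) ≤ δ) (hT : ω ∈ R.T)
    (Kn : ∀ s t, |s| ≤ v → |t| ≤ v → 0 ≤ R.K s t ω)
    (Kw : ∀ (s t x : ℝ) (m : ℕ), |s| ≤ v → |t| ≤ v → t ≤ x → x + 3 * m / 16 + 1 / 32 ≤ s →
      R.cross x m ω ≤ R.K s t ω)
    (hz : |z| ≤ v) (hw : |w| ≤ v) (hz' : |z'| ≤ v) (hg : 0 ≤ gap)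
    (hgap : δ / 8 < w - z' → (w - z') / e ≤ gap)
    (hfall : 3 ≤ z - z') (hF : ω ∉ evFall R v ⌊z⌋ ⌊z - z'⌋₊) :
    1 / 2 * (z - z') ≤ R.K z w ω + gap := by
  have hzz : z - z' ≤ 2 * v := by
    rw [abs_le] at hz hz'; linarith
  by_cases hback : δ / 8 < w - z'
  · have h1 := hgap hback
    have h2 : v ≤ (w - z') / e := by
      rw [le_div_iff₀ he]; nlinarith
    linarith [Kn z w hz hw]
  push Not at hback
  set g : ℤ := ⌊z⌋ with hgd
  set n : ℕ := ⌊z - z'⌋₊ with hn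
  have hg1 : (g : ℝ) ≤ z := Int.floor_le z
  have hg2 : z < g + 1 := Int.lt_floor_add_one z
  have hn1 : (n : ℝ) ≤ z - z' := Nat.floor_le (by linarith)
  have hn2 : z - z' < n + 1 := Nat.lt_floor_add_one _
  have hn3 : (3 : ℝ) ≤ n := by
    have : 3 ≤ n := Nat.le_floor (by exact_mod_cast hfall)
    exact_mod_cast this
  rw [abs_le] at hz hz'
  have hx1 : |((g : ℝ) + 2 - n)| ≤ v := by
    rw [abs_le]; constructor <;> linarith
  have hx2 : |((g : ℝ) + 2 - n) + 3 * n / 16 + 1 / 32| ≤ v := by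
    rw [abs_le]; constructor <;> linarith
  have hcr : (n : ℝ) < R.cross ((g : ℝ) + 2 - n) n ω := by
    by_contra hcon
    push Not at hcon
    exact hF ⟨⟨hx1, hx2, hcon⟩, hT⟩
  have hK := Kw z w ((g : ℝ) + 2 - n) n (abs_le.2 hz) hw (by linarith) (by linarith)
  linarith

end det

/-! ## probabilistic part -/

section prob

variable {Ω : Type u} [mΩ : MeasurableSpace Ω] {P : Measure Ω}
  {C0 θ : ℝ} {n : ℕ} {δ v e : ℝ}

lemma evSmall_meas {R : RowA Ω} {m : ℕ → MeasurableSpace Ω} {k : ℕ}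
    (h : R.Law P (m k) C0 n δ v e)
    (hδ : 0 < δ) (hδv : δ ≤ v) (κ : ℝ) (g : ℤ) : MeasurableSet[m k] (evSmall R δ v κ g) := by
  have hx := gpos_mem hδ hδv g
  have h1 : |gpos δ v g| ≤ v := by rw [abs_le]; constructor <;> linarith
  have h2 : |gpos δ v g + δ| ≤ v := by rw [abs_le]; constructor <;> linarith
  exact (measurableSet_le (h.K_meas _ _ h1 h2) measurable_const).inter h.T_meas

lemma evFall_meas {R : RowA Ω} {m : ℕ → MeasurableSpace Ω} {k : ℕ}
    (h : R.Law P (m k) C0 n δ v e)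
    (g : ℤ) (j : ℕ) : MeasurableSet[m k] (evFall R v g j) := by
  by_cases h1 : |((g : ℝ) + 2 - j)| ≤ v ∧ |((g : ℝ) + 2 - j) + 3 * j / 16 + 1 / 32| ≤ v
  · have hcr : Measurable[m k] (R.cross ((g : ℝ) + 2 - j) j) := by
      obtain ⟨ha, hb⟩ := h1
      rw [abs_le] at ha hb
      unfold RowA.cross
      refine Measurable.sub ?_ (Measurable.const_mul ?_ 2)
      · refine Finset.measurable_fun_sum _ fun l hl => ?_
        have hl' : (l : ℝ) + 1 ≤ j := by exact_mod_cast Finset.mem_range.1 hl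
        have hl0 : (0 : ℝ) ≤ l := Nat.cast_nonneg l
        refine h.cell_meas _ ?_ ?_
        · rw [abs_le]; constructor <;> linarith
        · rw [abs_le]; constructor <;> linarith
      · refine Finset.measurable_fun_sum _ fun l hl => ?_
        have hl' : (l : ℝ) ≤ j := by exact_mod_cast Nat.lt_succ_iff.1 (Finset.mem_range.1 hl)
        have hl0 : (0 : ℝ) ≤ l := Nat.cast_nonneg l
        refine h.F_meas _ _ ?_
        rw [abs_le]; constructor <;> linarith
    have : evFall R v g j = {ω | R.cross ((g : ℝ) + 2 - j) j ω ≤ j} ∩ R.T := by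
      ext ω
      simp only [evFall, mem_inter_iff, mem_ofPred_eq]
      tauto
    rw [this]
    exact (measurableSet_le hcr measurable_const).inter h.T_meas
  · have : evFall R v g j = ∅ := by
      ext ω
      simp only [evFall, mem_inter_iff, mem_ofPred_eq, mem_empty_iff_false, iff_false]
      tauto
    rw [this]
    exact @MeasurableSet.empty _ (m k)

variable [IsProbabilityMeasure P]

lemma evSmall_prob {R : RowA Ω} (h : R.Costly P C0 δ v e) (hδ : 0 < δ) (hδv : δ ≤ v) {κ p : ℝ}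
    (hκ : 0 ≤ κ) (hp : C0 * κ + e ≤ p) (g : ℤ) : P (evSmall R δ v κ g) ≤ ENNReal.ofReal p := by
  have hx := gpos_mem hδ hδv g
  have h1 : |gpos δ v g| ≤ v := by rw [abs_le]; constructor <;> linarith
  have h2 : |gpos δ v g + δ| ≤ v := by rw [abs_le]; constructor <;> linarith
  have h3 := (h _ κ h1 h2 hκ).trans hp
  rw [← ENNReal.ofReal_toReal (measure_ne_top P (evSmall R δ v κ g))]
  exact ENNReal.ofReal_le_ofReal h3

lemma evFall_prob {R : RowA Ω} {m : ℕ → MeasurableSpace Ω} {k : ℕ}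
    (h : R.Law P (m k) C0 n δ v e)
    (g : ℤ) (j : ℕ) :
    P (evFall R v g j) ≤ ENNReal.ofReal (Real.exp (-(Real.log n / C0 - C0) * j)) := by
  rw [← ENNReal.ofReal_toReal (measure_ne_top P (evFall R v g j))]
  refine ENNReal.ofReal_le_ofReal ?_
  by_cases h1 : |((g : ℝ) + 2 - j)| ≤ v ∧ |((g : ℝ) + 2 - j) + 3 * j / 16 + 1 / 32| ≤ v
  · have h2 := h.cells_large _ j h1.1 h1.2
    rw [neg_mul]
    refine le_trans (measureReal_mono ?_ (measure_ne_top _ _)) h2
    rintro ω ⟨⟨-, -, h3⟩, h4⟩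
    exact ⟨h3, h4⟩
  · have : evFall R v g j = ∅ := by
      ext ω
      simp only [evFall, mem_inter_iff, mem_ofPred_eq, mem_empty_iff_false, iff_false]
      tauto
    rw [this, measure_empty, ENNReal.toReal_zero]
    exact (Real.exp_pos _).le

open Classical in
/-- few atypical rows -/
lemma prob_many_bad {A : ℕ → Set Ω} (hA : ∀ k, MeasurableSet (A k)) {q : ℝ}
    (hq : ∀ k, P.real (A k)ᶜ ≤ q) {η : ℝ} (hη : 0 < η) {N : ℕ} (hN : 0 < N) :
    P.real {ω | η * N < (((Finset.range N).filter fun k => ω ∉ A k).card : ℝ)} ≤ q / η := by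
  set f : Ω → ℝ := fun ω => ∑ k ∈ Finset.range N, (A k)ᶜ.indicator (fun _ => (1 : ℝ)) ω with hf
  have hcard : ∀ ω, (((Finset.range N).filter fun k => ω ∉ A k).card : ℝ) = f ω := by
    intro ω
    rw [hf, Finset.card_filter]
    push_cast
    refine Finset.sum_congr rfl fun k _ => ?_
    by_cases h : ω ∈ A k
    · simp [h]
    · simp [h]
  have hi : ∀ k, Integrable ((A k)ᶜ.indicator fun _ => (1 : ℝ)) P := fun k =>
    (integrable_const (1 : ℝ)).indicator (hA k).compl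
  have hint : Integrable f P := integrable_finsetSum _ fun k _ => hi k
  have hE : ∫ ω, f ω ∂P ≤ N * q := by
    rw [hf, integral_finsetSum _ fun k _ => hi k]
    refine (Finset.sum_le_sum (g := fun _ => q) fun k _ => ?_).trans (by simp)
    rw [integral_indicator_const _ (hA k).compl]
    simpa using hq k
  have h0 : 0 ≤ᵐ[P] f := Eventually.of_forall fun ω =>
    Finset.sum_nonneg fun k _ => Set.indicator_nonneg (fun _ _ => zero_le_one) ω
  have h1 := mul_meas_ge_le_integral_of_nonneg h0 hint (η * N)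
  have h2 : P.real {ω | η * N < (((Finset.range N).filter fun k => ω ∉ A k).card : ℝ)} ≤
      P.real {ω | η * N ≤ f ω} := by
    refine measureReal_mono ?_ (measure_ne_top _ _)
    intro ω hω
    simp only [mem_ofPred_eq] at hω ⊢
    rw [← hcard]
    exact hω.le
  refine h2.trans ?_
  have hNR : (0 : ℝ) < N := by exact_mod_cast hN
  rw [le_div_iff₀ hη]
  have h3 : η * N * P.real {ω | η * N ≤ f ω} ≤ N * q := h1.trans hE
  have h4 : N * (P.real {ω | η * N ≤ f ω} * η) ≤ N * q := by linarith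
  exact le_of_mul_le_mul_left h4 hNR

open Classical in
/-- for one number of rows: the probability of a cheap walk is small -/
lemma prob_cheap_le {m : ℕ → MeasurableSpace Ω} (hind : iIndep m P)
    {R : ℕ → RowA Ω} (law : ∀ k, (R k).Law P (m k) C0 n δ v e)
    (hco : ∀ k, (R k).Costly P C0 δ v e) (hδ : 0 < δ) (hδ1 : δ ≤ 1) (hδv : δ ≤ v)
    (he : 0 < e) {c2 : ℝ} (hc2 : c2 = Real.log n / C0 - C0)
    {m1 : ℕ} (hm1 : 3 ≤ m1) {κ' κ'' η p₀ : ℝ} (hp₀ : 0 ≤ p₀) (hκ' : 0 ≤ κ')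
    (hp : C0 * κ' + e ≤ p₀) (heκ : 8 * (e * κ') ≤ δ) (hev : 8 * (e * v) ≤ δ)
    {N : ℕ}
    (hpei : ∀ (B : ℕ → ℤ → Set Ω) (F : ℕ → ℤ → ℕ → Set Ω),
        W.ProdB P N (Finset.range N) B p₀ → W.ProdF P N (Finset.range N) F c2 m1 →
        P (W.cheapR N η B F (δ / 4) m1 (δ / 2) κ' (1 / 2) κ'' v) ≤ ENNReal.ofReal (1 / 4))
    {GD : ℕ → Set Ω} :
    P.real {ω | (((Finset.range N).filter fun k => ω ∉ (R k).T ∩ GD k).card : ℝ) ≤ η * N ∧
      ∃ z w gap : ℕ → ℝ, (∀ k ≤ N, |z k| ≤ v) ∧ (∀ k < N, |w k| ≤ v) ∧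
      (∀ k < N, 0 ≤ gap k) ∧
      (∀ k < N, ω ∈ GD k → δ / 8 < w k - z (k + 1) → (w k - z (k + 1)) / e ≤ gap k) ∧
      ∑ k ∈ Finset.range N, (R k).K (z k) (w k) ω + ∑ k ∈ Finset.range N, gap k ≤ κ'' * N}
      ≤ 1 / 4 := by
  set B : ℕ → ℤ → Set Ω := fun k g => evSmall (R k) δ v κ' g with hB
  set F : ℕ → ℤ → ℕ → Set Ω := fun k g j => evFall (R k) v g j with hF
  have hPB : W.ProdB P N (Finset.range N) B p₀ := by
    refine W.prodB_of_iIndep (m := fun k : Fin N => m k) hp₀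
      (hind.precomp (g := fun k : Fin N => (k : ℕ)) Fin.val_injective) ?_ ?_
    · intro k _ g
      exact evSmall_meas (law k) hδ hδv κ' g
    · intro k _ g
      exact evSmall_prob (hco k) hδ hδv hκ' hp g
  have hPF : W.ProdF P N (Finset.range N) F c2 m1 := by
    refine W.prodF_of_iIndep (m := fun k : Fin N => m k)
      (hind.precomp (g := fun k : Fin N => (k : ℕ)) Fin.val_injective) ?_ ?_
    · intro k _ g j _
      exact evFall_meas (law k) g j
    · intro k _ g j _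
      rw [hc2]
      exact evFall_prob (law k) g j
  have h1 := hpei B F hPB hPF
  have h2 : P.real (W.cheapR N η B F (δ / 4) m1 (δ / 2) κ' (1 / 2) κ'' v) ≤ 1 / 4 := by
    have := ENNReal.toReal_mono ENNReal.ofReal_ne_top h1
    rwa [ENNReal.toReal_ofReal (by norm_num)] at this
  refine le_trans (measureReal_mono ?_ (measure_ne_top _ _)) h2
  rintro ω ⟨hcard, z, w, gap, hz, hw, hg, hgap, hsum⟩
  refine ⟨(Finset.range N).filter fun k => ω ∈ (R k).T ∩ GD k, Finset.filter_subset _ _, ?_, ?_⟩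
  · have : Finset.range N \ ((Finset.range N).filter fun k => ω ∈ (R k).T ∩ GD k) =
        (Finset.range N).filter fun k => ω ∉ (R k).T ∩ GD k := by
      ext k
      simp only [Finset.mem_sdiff, Finset.mem_filter]
      tauto
    rw [this]
    exact hcard
  · have hm1R : (3 : ℝ) ≤ m1 := by exact_mod_cast hm1
    refine ⟨z, fun k => (R k).K (z k) (w k) ω + gap k, hz, ?_, ?_, ?_, ?_⟩
    · intro k hk
      exact add_nonneg ((law k).K_nonneg _ _ ω (hz k hk.le) (hw k hk)) (hg k hk)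
    · intro k hk hflat hnB
      obtain ⟨hk1, hk2, hk3⟩ := Finset.mem_filter.1 hk
      have hkN : k < N := Finset.mem_range.1 hk1
      exact small_of_not hδ hδv he heκ hk2
        (fun s t hs ht => (law k).K_nonneg s t ω hs ht)
        (fun s s' t hs hs' ht hss => (law k).K_mono s s' t ω hs hs' ht hss)
        (fun s t t' hs ht ht' htt => (law k).K_anti s t t' ω hs ht ht' htt)
        (hz k hkN.le) (hw k hkN) (hg k hkN) (hgap k hkN hk3) hflat hnB
    · intro k hk hfall hnF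
      obtain ⟨hk1, hk2, hk3⟩ := Finset.mem_filter.1 hk
      have hkN : k < N := Finset.mem_range.1 hk1
      exact fall_of_not hδ1 he hev hk2
        (fun s t hs ht => (law k).K_nonneg s t ω hs ht)
        (fun s t x j hs ht htx hxs => (law k).window ω hk2 s t x j hs ht htx hxs)
        (hz k hkN.le) (hw k hkN) (hz (k + 1) hkN) (hg k hkN) (hgap k hkN hk3)
        (by linarith) hnF
    · rw [Finset.sum_add_distrib]
      exact hsum

end prob

/-- contradiction from the paths, for one large number of rows -/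
lemma costly_core {Ω : Type u} [mΩ : MeasurableSpace Ω] {P : Measure Ω} [IsProbabilityMeasure P]
    {C0 θ : ℝ} {n : ℕ} {δ v e : ℝ}
    {m : ℕ → MeasurableSpace Ω} (hle : ∀ k, m k ≤ mΩ) (hind : iIndep m P)
    {R : ℕ → RowA Ω} (law : ∀ k, (R k).Law P (m k) C0 n δ v e)
    (hco : ∀ k, (R k).Costly P C0 δ v e) (pa : Paths R P C0 θ δ v e)
    (hδ : 0 < δ) (hδ1 : δ ≤ 1) (hδv : δ ≤ v)
    (he : 0 < e) {m1 : ℕ} (hm1 : 3 ≤ m1) {κ' κ'' η p₀ : ℝ} (hη : 0 < η) (hp₀ : 0 ≤ p₀)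
    (hκ' : 0 ≤ κ') (hκ'' : 0 < κ'')
    (hp : C0 * κ' + e ≤ p₀) (heκ : 8 * (e * κ') ≤ δ) (hev : 8 * (e * v) ≤ δ)
    (heη : 8 * e ≤ η) (hrate : C0 * v ^ (θ - 1) + e ≤ κ'' / 4) {N₀ : ℕ}
    (hpei : ∀ N : ℕ, N₀ ≤ N → ∀ (B : ℕ → ℤ → Set Ω) (F : ℕ → ℤ → ℕ → Set Ω),
        W.ProdB P N (Finset.range N) B p₀ →
        W.ProdF P N (Finset.range N) F (Real.log n / C0 - C0) m1 →
        P (W.cheapR N η B F (δ / 4) m1 (δ / 2) κ' (1 / 2) κ'' v) ≤ ENNReal.ofReal (1 / 4)) :
    False := by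
  classical
  obtain ⟨Nc, hNc⟩ := exists_nat_gt (4 * |pa.C'| / κ'')
  set N : ℕ := max (max N₀ Nc) 1 with hN
  have hN0 : N₀ ≤ N := (le_max_left _ _).trans (le_max_left _ _)
  have hN1 : 0 < N := lt_of_lt_of_le one_pos (le_max_right _ _)
  have hN2 : 4 * |pa.C'| < κ'' * N := by
    have h1 : (Nc : ℝ) ≤ N := by exact_mod_cast (le_max_right _ _).trans (le_max_left _ _)
    rw [div_lt_iff₀ hκ''] at hNc
    nlinarith
  have hNR : (0 : ℝ) < N := by exact_mod_cast hN1
  obtain ⟨Y, hYi, hYm, hY⟩ := pa.path N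
  set S : Set Ω := {ω | (((Finset.range N).filter fun k => ω ∉ (R k).T ∩ pa.GD k).card : ℝ) ≤
      η * N ∧
      ∃ z w gap : ℕ → ℝ, (∀ k ≤ N, |z k| ≤ v) ∧ (∀ k < N, |w k| ≤ v) ∧
      (∀ k < N, 0 ≤ gap k) ∧
      (∀ k < N, ω ∈ pa.GD k → δ / 8 < w k - z (k + 1) → (w k - z (k + 1)) / e ≤ gap k) ∧
      ∑ k ∈ Finset.range N, (R k).K (z k) (w k) ω + ∑ k ∈ Finset.range N, gap k ≤ κ'' * N}
    with hS
  have hSp : P.real S ≤ 1 / 4 := by
    have := prob_cheap_le (P := P) hind law hco hδ hδ1 hδv he rfl hm1 (κ'' := κ'') (η := η) hp₀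
      hκ' hp heκ hev (N := N) (hpei N hN0) (GD := pa.GD)
    rw [hS]
    convert this using 6
  set Q : Set Ω := {ω | η * N < (((Finset.range N).filter fun k =>
    ω ∉ (R k).T ∩ pa.GD k).card : ℝ)} with hQ
  have hQp : P.real Q ≤ 1 / 4 := by
    have h1 := prob_many_bad (P := P) (A := fun k => (R k).T ∩ pa.GD k) (q := 2 * e)
      (fun k => (hle k _ (law k).T_meas).inter (pa.GD_meas k)) (fun k => by
        rw [Set.compl_inter]
        refine (measureReal_union_le _ _).trans ?_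
        have h2 := (law k).T_prob
        have h3 := pa.GD_prob k
        linarith) hη hN1
    have h2 : 2 * e / η ≤ 1 / 4 := by
      rw [div_le_iff₀ hη]; linarith
    refine le_trans (measureReal_mono (fun ω hω => ?_) (measure_ne_top _ _)) (h1.trans h2)
    rw [hQ] at hω
    simp only [mem_ofPred_eq] at hω ⊢
    convert hω using 4
  -- nonnegativity of Y
  have hY0 : 0 ≤ᵐ[P] Y := by
    filter_upwards [hY] with ω hω
    obtain ⟨z, w, gap, hz, hw, hg, -, hsum⟩ := hω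
    refine le_trans (add_nonneg ?_ ?_) hsum
    · exact Finset.sum_nonneg fun k hk => (law k).K_nonneg _ _ ω
        ((hz k (Finset.mem_range.1 hk).le).trans (by linarith))
        ((hw k (Finset.mem_range.1 hk)).trans (by linarith))
    · exact Finset.sum_nonneg fun k hk => hg k (Finset.mem_range.1 hk)
  -- Y is large with probability at least one half
  have hcov : ∀ᵐ ω ∂P, ω ∈ (Set.univ : Set Ω) → ω ∈ {ω | κ'' * N ≤ Y ω} ∪ (S ∪ Q) := by
    filter_upwards [hY] with ω hω _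
    by_cases h1 : κ'' * N ≤ Y ω
    · exact Or.inl h1
    right
    push Not at h1
    by_cases h2 : ω ∈ Q
    · exact Or.inr h2
    left
    obtain ⟨z, w, gap, hz, hw, hg, hgap, hsum⟩ := hω
    refine ⟨?_, z, w, gap, fun k hk => (hz k hk).trans (by linarith),
      fun k hk => (hw k hk).trans (by linarith), hg, hgap, hsum.trans h1.le⟩
    rw [hQ] at h2
    simp only [mem_ofPred_eq, not_lt] at h2
    exact h2
  have h1 : (1 : ℝ) ≤ P.real {ω | κ'' * N ≤ Y ω} + (1 / 4 + 1 / 4) := by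
    have h2 : P.real (Set.univ : Set Ω) ≤ P.real ({ω | κ'' * N ≤ Y ω} ∪ (S ∪ Q)) :=
      ENNReal.toReal_mono (measure_ne_top _ _) (measure_mono_ae hcov)
    rw [probReal_univ] at h2
    refine h2.trans ((measureReal_union_le _ _).trans ?_)
    have h3 := measureReal_union_le (μ := P) S Q
    linarith
  have h2 := mul_meas_ge_le_integral_of_nonneg hY0 hYi (κ'' * N)
  have h3 : κ'' * N * (1 / 2) ≤ κ'' * N * P.real {ω | κ'' * N ≤ Y ω} :=
    mul_le_mul_of_nonneg_left (by linarith) (by positivity)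
  have h4 : (C0 * v ^ (θ - 1) + e) * N ≤ κ'' / 4 * N := mul_le_mul_of_nonneg_right hrate hNR.le
  have h5 := le_abs_self pa.C'
  nlinarith

/-- **The costly half of the endgame.** -/
theorem costly_false (C0 θ : ℝ) (hC0 : 1 ≤ C0) (hθ : θ < 1) :
    ∃ n0 : ℕ, ∀ n ≥ n0, ∃ δ0 > 0, ∀ δ : ℝ, 0 < δ → δ ≤ δ0 → ∃ v0 : ℝ, ∀ v ≥ v0, ∃ e0 > 0,
      ∀ e : ℝ, 0 < e → e ≤ e0 → ∀ Mo : Model.{u} C0 θ n δ v e,
        (∀ k, @RowA.Costly Mo.Ω (Mo.R k) Mo.mΩ Mo.P C0 δ v e) → False := by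
  obtain ⟨n0, hn0⟩ := exists_nat_ge (Real.exp (C0 * (C0 + 1)))
  refine ⟨n0, fun n hn => ⟨1, one_pos, fun δ hδ hδ1 => ?_⟩⟩
  set c2 : ℝ := Real.log n / C0 - C0 with hc2
  have hC0p : 0 < C0 := by linarith
  have hc2p : 1 ≤ c2 := by
    have h1 : C0 * (C0 + 1) ≤ Real.log n := by
      rw [Real.le_log_iff_exp_le]
      · exact hn0.trans (by exact_mod_cast hn)
      · exact (Real.exp_pos _).trans_le (hn0.trans (by exact_mod_cast hn))
    have h2 : C0 + 1 ≤ Real.log n / C0 := by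
      rw [le_div_iff₀ hC0p]; linarith
    linarith
  have hc2' : 0 < c2 := by linarith
  -- choice of m1
  have hexp1 : Real.exp (-(c2 / 40)) < 1 := by rw [Real.exp_lt_one_iff]; linarith
  have hexp2 : Real.exp (-(c2 / 2)) < 1 := by rw [Real.exp_lt_one_iff]; linarith
  have hlim : Tendsto (fun j : ℕ => 2 / (1 - Real.exp (-(c2 / 40))) *
      (Real.exp (-(c2 * j / 2)) / (1 - Real.exp (-(c2 / 2))))) atTop (nhds
        (2 / (1 - Real.exp (-(c2 / 40))) * (0 / (1 - Real.exp (-(c2 / 2)))))) := by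
    refine Tendsto.const_mul _ (Tendsto.div_const ?_ _)
    refine Real.tendsto_exp_atBot.comp ?_
    have h2 : Tendsto (fun j : ℕ => c2 / 2 * (j : ℝ)) atTop atTop :=
      Tendsto.const_mul_atTop (by positivity) tendsto_natCast_atTop_atTop
    refine (tendsto_neg_atTop_atBot.comp h2).congr fun j => ?_
    simp only [Function.comp_apply]
    ring
  have hev1 : ∀ᶠ j : ℕ in atTop, 2 / (1 - Real.exp (-(c2 / 40))) *
      (Real.exp (-(c2 * j / 2)) / (1 - Real.exp (-(c2 / 2)))) < c2 * (δ / 4) / 100 := by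
    refine hlim.eventually_lt_const ?_
    rw [zero_div, mul_zero]
    positivity
  obtain ⟨m1, hm1a, hm1b⟩ := (hev1.and (eventually_ge_atTop 3)).exists
  have hm1R : (3 : ℝ) ≤ m1 := by exact_mod_cast hm1b
  obtain ⟨p₀, hp₀, H⟩ := W.peierls_random.{u} (ζ := δ / 4) (v1 := m1) (h := δ / 2) (c := 1 / 2)
    (c2 := c2) (m1 := m1) (by positivity) (by linarith) (by linarith) (by positivity)
    (by norm_num) hc2' le_rfl hm1a.le
  obtain ⟨κ'', hκ'', H⟩ := H (p₀ / (2 * C0)) (by positivity)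
  set κ' : ℝ := p₀ / (2 * C0) with hκ'
  have hκ'p : 0 < κ' := by positivity
  -- choice of v0
  have hlimv : Tendsto (fun v : ℝ => C0 * v ^ (θ - 1)) atTop (nhds (C0 * 0)) := by
    have h1 := tendsto_rpow_neg_atTop (y := 1 - θ) (by linarith)
    rw [show -(1 - θ) = θ - 1 by ring] at h1
    exact h1.const_mul C0
  have hevv : ∀ᶠ v : ℝ in atTop, C0 * v ^ (θ - 1) < κ'' / 8 := by
    refine hlimv.eventually_lt_const ?_
    rw [mul_zero]; positivity
  obtain ⟨v1, hv1⟩ := eventually_atTop.1 hevv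
  refine ⟨max v1 1, fun v hv => ?_⟩
  have hv1' : 1 ≤ v := (le_max_right _ _).trans hv
  have hvr := hv1 v ((le_max_left _ _).trans hv)
  obtain ⟨η, hη, H⟩ := H v (by linarith)
  obtain ⟨N₀, H⟩ := H (1 / 4) (by norm_num)
  refine ⟨min (min (p₀ / 2) (η / 8)) (min (δ / (8 * (κ' + v))) (κ'' / 8)),
    lt_min (lt_min (by positivity) (by positivity)) (lt_min (by positivity) (by positivity)),
    fun e he hee Mo hco => ?_⟩
  have he1 : e ≤ p₀ / 2 := hee.trans ((min_le_left _ _).trans (min_le_left _ _))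
  have he2 : e ≤ η / 8 := hee.trans ((min_le_left _ _).trans (min_le_right _ _))
  have he3 : e ≤ δ / (8 * (κ' + v)) := hee.trans ((min_le_right _ _).trans (min_le_left _ _))
  have he4 : e ≤ κ'' / 8 := hee.trans ((min_le_right _ _).trans (min_le_right _ _))
  rw [le_div_iff₀ (by positivity)] at he3
  let _ := Mo.mΩ
  have _ := Mo.prob
  have hp : C0 * κ' + e ≤ p₀ := by
    have : C0 * κ' = p₀ / 2 := by rw [hκ']; field_simp
    linarith
  exact costly_core Mo.m_le Mo.indep Mo.law hco Mo.paths hδ hδ1 (by linarith) he hm1b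
    (κ' := κ') (κ'' := κ'') hη hp₀.le hκ'p.le hκ'' hp (by nlinarith) (by nlinarith)
    (by linarith) (by linarith) (N₀ := N₀)
    (fun N hN B F hB hF => H N hN Mo.Ω Mo.P B F hB hF)

end Crest.Agent.R151.E685
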