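import Crest.Agent.R151.E191A
import Crest.Agent.R151.E685P

/-!
# R151 / S0214 part 2, E685S — the cheap half of the endgame (owner helper685)

On 191's `Model` (E191A): if the A-rows are `Cheap`, the strategy beats the rate of the lane.
-/

set_option autoImplicit false

namespace Crest.Agent.R151.E685

open Crest.Agent.R151.E191
open MeasureTheory ProbabilityTheory Set Filter

universe u

/-! ## truncated means -/

section tail

variable {Ω : Type u} [mΩ : MeasurableSpace Ω] {P : Measure Ω} [IsProbabilityMeasure P]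

/-- mean over a part of `T` of a variable with an exponential tail on `T` -/
lemma setIntegral_le_of_tail {f : Ω → ℝ} (hf : Measurable f) (hfi : Integrable f P)
    {T A : Set Ω} (hAT : A ⊆ T) {C c Y : ℝ}
    (hC : 0 ≤ C) (hc : 0 < c)
    (htail : ∀ t : ℝ, 0 ≤ t → P.real ({ω | t ≤ f ω} ∩ T) ≤ C * Real.exp (-t / c))
    (hY : 0 ≤ Y) :
    ∫ ω in A, f ω ∂P ≤ Y * P.real A + C * c * Real.exp (-Y / c) := by
  have hgi : Integrable (fun ω => max (f ω - Y) 0) P := by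
    have h1 : Integrable (fun ω => f ω - Y) P := hfi.sub (integrable_const _)
    exact h1.pos_part
  have h1 : ∫ ω in A, f ω ∂P ≤ ∫ ω in A, (Y + max (f ω - Y) 0) ∂P := by
    refine integral_mono hfi.integrableOn ((integrable_const _).add hgi).integrableOn ?_
    intro ω
    have := le_max_left (f ω - Y) 0
    simp only
    linarith
  have h2 : ∫ ω in A, (Y + max (f ω - Y) 0) ∂P = Y * P.real A + ∫ ω in A, max (f ω - Y) 0 ∂P := by
    rw [integral_add (integrable_const _).integrableOn hgi.integrableOn, setIntegral_const,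
      smul_eq_mul, mul_comm]
  have h3 : ∫ ω in A, max (f ω - Y) 0 ∂P ≤ ∫ ω in T, max (f ω - Y) 0 ∂P := by
    refine setIntegral_mono_set hgi.integrableOn ?_ (Eventually.of_forall hAT)
    exact Eventually.of_forall fun ω => le_max_right _ _
  have h4 : ∫ ω in T, max (f ω - Y) 0 ∂P ≤ C * c * Real.exp (-Y / c) := by
    have h5 : ENNReal.ofReal (∫ ω in T, max (f ω - Y) 0 ∂P) ≤
        ENNReal.ofReal (C * c * Real.exp (-Y / c)) := by
      rw [ofReal_integral_eq_lintegral_ofReal hgi.integrableOn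
        (Eventually.of_forall fun ω => le_max_right _ _),
        lintegral_eq_lintegral_meas_le (P.restrict T) (f := fun ω => max (f ω - Y) 0)
        (Eventually.of_forall fun ω => le_max_right _ _)
        ((hf.sub_const Y).max measurable_const).aemeasurable]
      have h6 : ∀ t ∈ Ioi (0 : ℝ), (P.restrict T) {ω | t ≤ max (f ω - Y) 0} ≤
          ENNReal.ofReal (C * Real.exp (-Y / c) * Real.exp ((-(1 / c)) * t)) := by
        intro t ht
        have ht : (0 : ℝ) < t := ht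
        have h7 : {ω | t ≤ max (f ω - Y) 0} = {ω | Y + t ≤ f ω} := by
          ext ω
          simp only [Set.mem_ofPred_eq, le_max_iff]
          constructor
          · rintro (h | h)
            · linarith
            · linarith
          · intro h; left; linarith
        rw [h7, Measure.restrict_apply (measurableSet_le measurable_const hf),
          ← ENNReal.ofReal_toReal (measure_ne_top P ({ω | Y + t ≤ f ω} ∩ T))]
        refine ENNReal.ofReal_le_ofReal ((htail (Y + t) (by linarith)).trans (le_of_eq ?_))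
        rw [mul_assoc, ← Real.exp_add]
        congr 2
        field_simp
        ring
      refine (setLIntegral_mono' measurableSet_Ioi h6).trans ?_
      rw [← ofReal_integral_eq_lintegral_ofReal]
      · refine ENNReal.ofReal_le_ofReal ?_
        rw [integral_const_mul, integral_exp_mul_Ioi (by
          have : 0 < 1 / c := by positivity
          linarith)]
        apply le_of_eq
        simp only [mul_zero, Real.exp_zero]
        field_simp
      · refine Integrable.const_mul ?_ _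
        exact exp_neg_integrableOn_Ioi 0 (b := 1 / c) (by positivity)
      · exact Eventually.of_forall fun t => by positivity
    exact (ENNReal.ofReal_le_ofReal_iff (by positivity)).1 h5
  linarith

end tail

/-! ## one A-row -/

section stepA

variable {Ω : Type u} [mΩ : MeasurableSpace Ω] {P : Measure Ω} [IsProbabilityMeasure P]
  {C0 : ℝ} {n : ℕ} {δ v e : ℝ} {R : RowA Ω} {m : ℕ → MeasurableSpace Ω} {k : ℕ}

/-- the set where the fence is used -/
def badB (R : RowA Ω) (δ x : ℝ) : Set Ω := R.Tᶜ ∪ {ω | R.K x (x + 5 * δ) ω < R.KL x ω}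

lemma badB_meas (h : R.Law P (m k) C0 n δ v e) (hδ : 0 < δ) (hδ1 : δ ≤ 1 / 64) (hv : 1 ≤ v)
    {x : ℝ} (hx : -(1 / 16) ≤ x) (hx' : x < 1 / 8) : MeasurableSet[m k] (badB R δ x) := by
  have h1 : |x| ≤ v := by rw [abs_le]; constructor <;> linarith
  have h2 : |x + 5 * δ| ≤ v := by rw [abs_le]; constructor <;> linarith
  exact (h.T_meas.compl).union (measurableSet_lt (h.K_meas _ _ h1 h2) (h.KL_meas x hx hx'))

lemma badB_compl {x : ℝ} {ω : Ω} (h : ω ∈ (badB R δ x)ᶜ) :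
    ω ∈ R.T ∧ R.KL x ω ≤ R.K x (x + 5 * δ) ω := by
  simp only [badB, mem_compl_iff, mem_union, not_or, not_not, mem_ofPred_eq, not_lt] at h
  exact h

lemma stepA_int (h : R.Law P (m k) C0 n δ v e) (hle : m k ≤ mΩ) (hc : R.Cheap P C0 δ)
    (hδ : 0 < δ) (hδ1 : δ ≤ 1 / 64) (hv : 1 ≤ v)
    {x : ℝ} (hx : -(1 / 16) ≤ x) (hx' : x < 1 / 8) :
    IntegrableOn (R.KL x) (badB R δ x)ᶜ P ∧ ∫ ω in (badB R δ x)ᶜ, R.KL x ω ∂P ≤ 1 / 32 := by
  have h1 : |x| ≤ v := by rw [abs_le]; constructor <;> linarith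
  have h2 : |x + 5 * δ| ≤ v := by rw [abs_le]; constructor <;> linarith
  have hsub : (badB R δ x)ᶜ ⊆ R.T := fun ω hω => (badB_compl hω).1
  have hKi : IntegrableOn (R.K x (x + 5 * δ)) (badB R δ x)ᶜ P :=
    (hc.int x hx hx').mono_set hsub
  have hBm : MeasurableSet (badB R δ x)ᶜ := (hle _ (badB_meas h hδ hδ1 hv hx hx')).compl
  have hae : ∀ᵐ ω ∂(P.restrict (badB R δ x)ᶜ), R.KL x ω ≤ R.K x (x + 5 * δ) ω := by
    filter_upwards [ae_restrict_mem hBm] with ω hω using (badB_compl hω).2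
  have hi : IntegrableOn (R.KL x) (badB R δ x)ᶜ P := by
    refine Integrable.mono' hKi ((h.KL_meas x hx hx').mono hle le_rfl).aestronglyMeasurable ?_
    filter_upwards [hae] with ω hω
    rw [Real.norm_eq_abs, abs_of_nonneg (h.KL_nonneg x ω hx hx')]
    exact hω
  refine ⟨hi, ?_⟩
  refine (integral_mono_ae hi hKi hae).trans ?_
  refine le_trans (setIntegral_mono_set (hc.int x hx hx') ?_ (Eventually.of_forall hsub))
    (hc.mean x hx hx')
  exact Eventually.of_forall fun ω => h.K_nonneg _ _ ω h1 h2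

lemma stepA_prob (h : R.Law P (m k) C0 n δ v e) (hC0 : 1 ≤ C0) (hc : R.Cheap P C0 δ)
    (hv : 1 ≤ v) {x : ℝ} (hx : -(1 / 16) ≤ x) (hx' : x < 1 / 8) {y : ℝ} (hy : 0 ≤ y) :
    P.real (badB R δ x ∩ R.T) ≤
      10 * C0 * y / n ^ 5 + 2 * e + 5 * C0 * Real.exp (-y / (C0 ^ 2 * 32 ^ 3)) := by
  set c0 : ℝ := C0 ^ 2 * 32 ^ 3 with hc0
  have hC0p : 0 < C0 := by linarith
  have hc0p : 0 < c0 := by positivity
  -- fences
  have hF : ∀ a : ℝ, |a| ≤ v → P.real ({ω | y ≤ R.F (1 / 32) a ω} ∩ R.T) ≤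
      C0 * Real.exp (-y / c0) := by
    intro a ha
    have h1 := h.F_tail (1 / 32) a (y / (C0 * 32 ^ 3)) (Or.inl rfl) ha (by positivity)
    have e1 : y / (C0 * 32 ^ 3) * (C0 / (1 / 32) ^ 3) = y := by
      field_simp
    have e2 : -(y / (C0 * 32 ^ 3)) / C0 = -y / c0 := by
      rw [hc0]; field_simp
    rw [e1, e2] at h1
    exact h1
  have hK : P.real ({ω | y ≤ R.K x (x + 5 * δ) ω} ∩ R.T) ≤ C0 * Real.exp (-y / c0) := by
    refine (hc.tail x y hx hx' hy).trans ?_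
    refine mul_le_mul_of_nonneg_left (Real.exp_le_exp.2 ?_) hC0p.le
    rw [neg_div, neg_div, neg_le_neg_iff]
    refine div_le_div_of_nonneg_left hy hC0p ?_
    rw [hc0]; nlinarith
  have hcell : ∀ a : ℝ, |a| ≤ v → |a + 7 / 32| ≤ v →
      P.real ({ω | R.cell a ω ≤ 5 * y} ∩ R.T) ≤ 5 * C0 * y / n ^ 5 + e := by
    intro a ha ha'
    refine (h.cell_small a (5 * y) ha ha' (by positivity)).trans (le_of_eq ?_)
    ring
  have hcross : ∀ (a : ℝ) (ω : Ω), R.cross a 1 ω =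
      R.cell a ω - 2 * (R.F (1 / 32) a ω + R.F (1 / 32) (a + 3 / 16) ω) := by
    intro a ω
    simp only [RowA.cross, Finset.sum_range_succ, Finset.sum_range_zero, Nat.cast_zero,
      Nat.cast_one, mul_zero, zero_div, add_zero, zero_add, mul_one]
  have ha1 : |(5 / 32 : ℝ)| ≤ v := by rw [abs_le]; constructor <;> linarith
  have ha2 : |(5 / 32 + 3 / 16 : ℝ)| ≤ v := by rw [abs_le]; constructor <;> linarith
  have ha3 : |(5 / 32 + 7 / 32 : ℝ)| ≤ v := by rw [abs_le]; constructor <;> linarith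
  have hb1 : |(-(11 / 32) : ℝ)| ≤ v := by rw [abs_le]; constructor <;> linarith
  have hb2 : |(-(11 / 32) + 3 / 16 : ℝ)| ≤ v := by rw [abs_le]; constructor <;> linarith
  have hb3 : |(-(11 / 32) + 7 / 32 : ℝ)| ≤ v := by rw [abs_le]; constructor <;> linarith
  have hsub : badB R δ x ∩ R.T ⊆
      (({ω | R.cell (5 / 32) ω ≤ 5 * y} ∩ R.T) ∪ ({ω | R.cell (-(11 / 32)) ω ≤ 5 * y} ∩ R.T)) ∪
      ((({ω | y ≤ R.F (1 / 32) (5 / 32) ω} ∩ R.T) ∪
        ({ω | y ≤ R.F (1 / 32) (5 / 32 + 3 / 16) ω} ∩ R.T)) ∪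
      ((({ω | y ≤ R.F (1 / 32) (-(11 / 32)) ω} ∩ R.T) ∪
        ({ω | y ≤ R.F (1 / 32) (-(11 / 32) + 3 / 16) ω} ∩ R.T)) ∪
        ({ω | y ≤ R.K x (x + 5 * δ) ω} ∩ R.T))) := by
    rintro ω ⟨hB, hT⟩
    have hKL : R.K x (x + 5 * δ) ω < R.KL x ω := by
      rcases hB with hB | hB
      · exact absurd hT hB
      · exact hB
    have hl := h.lane ω hT x hx hx'
    rw [hcross, hcross] at hl
    simp only [mem_union, mem_inter_iff, mem_ofPred_eq, hT, and_true]
    by_contra hcon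
    push Not at hcon
    obtain ⟨⟨g1, g2⟩, ⟨g3, g4⟩, ⟨g5, g6⟩, g7⟩ := hcon
    have h3 : R.K x (x + 5 * δ) ω < min (R.KL x ω)
        (min (R.cell (5 / 32) ω - 2 * (R.F (1 / 32) (5 / 32) ω +
          R.F (1 / 32) (5 / 32 + 3 / 16) ω))
        (R.cell (-(11 / 32)) ω - 2 * (R.F (1 / 32) (-(11 / 32)) ω +
          R.F (1 / 32) (-(11 / 32) + 3 / 16) ω))) := by
      refine lt_min hKL (lt_min ?_ ?_) <;> linarith
    linarith
  have hu := measureReal_mono (μ := P) hsub (measure_ne_top _ _)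
  have e5 : ∀ A B : Set Ω, P.real (A ∪ B) ≤ P.real A + P.real B := fun A B =>
    measureReal_union_le A B
  refine hu.trans ?_
  refine (e5 _ _).trans ?_
  have t1 := e5 ({ω | R.cell (5 / 32) ω ≤ 5 * y} ∩ R.T) ({ω | R.cell (-(11 / 32)) ω ≤ 5 * y} ∩ R.T)
  have t2 := e5 (({ω | y ≤ R.F (1 / 32) (5 / 32) ω} ∩ R.T) ∪
        ({ω | y ≤ R.F (1 / 32) (5 / 32 + 3 / 16) ω} ∩ R.T))
      ((({ω | y ≤ R.F (1 / 32) (-(11 / 32)) ω} ∩ R.T) ∪
        ({ω | y ≤ R.F (1 / 32) (-(11 / 32) + 3 / 16) ω} ∩ R.T)) ∪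
        ({ω | y ≤ R.K x (x + 5 * δ) ω} ∩ R.T))
  have t3 := e5 ({ω | y ≤ R.F (1 / 32) (5 / 32) ω} ∩ R.T)
        ({ω | y ≤ R.F (1 / 32) (5 / 32 + 3 / 16) ω} ∩ R.T)
  have t4 := e5 (({ω | y ≤ R.F (1 / 32) (-(11 / 32)) ω} ∩ R.T) ∪
        ({ω | y ≤ R.F (1 / 32) (-(11 / 32) + 3 / 16) ω} ∩ R.T))
        ({ω | y ≤ R.K x (x + 5 * δ) ω} ∩ R.T)
  have t5 := e5 ({ω | y ≤ R.F (1 / 32) (-(11 / 32)) ω} ∩ R.T)
        ({ω | y ≤ R.F (1 / 32) (-(11 / 32) + 3 / 16) ω} ∩ R.T)
  have s1 := hcell _ ha1 ha3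
  have s2 := hcell _ hb1 hb3
  have s3 := hF _ ha1
  have s4 := hF _ ha2
  have s5 := hF _ hb1
  have s6 := hF _ hb2
  have e6 : 10 * C0 * y / (n : ℝ) ^ 5 = 5 * C0 * y / n ^ 5 + 5 * C0 * y / n ^ 5 := by ring
  rw [e6]
  linarith

lemma stepA_fence (h : R.Law P (m k) C0 n δ v e) (hle : m k ≤ mΩ) (hC0 : 1 ≤ C0) (hn : 1 ≤ n)
    (hδ : 0 < δ) (hδ1 : δ ≤ 1 / 64) (hv : 1 ≤ v)
    {x : ℝ} (hx : -(1 / 16) ≤ x) (hx' : x < 1 / 8) {Y : ℝ} (hY : 0 ≤ Y) :
    ∫ ω in badB R δ x, R.F (1 / (4 * n)) x ω ∂P ≤ e + Y * P.real (badB R δ x ∩ R.T) +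
      C0 * (C0 ^ 2 * (4 * n) ^ 3) * Real.exp (-Y / (C0 ^ 2 * (4 * n) ^ 3)) := by
  have h1 : |x| ≤ v := by rw [abs_le]; constructor <;> linarith
  have hnR : (1 : ℝ) ≤ n := by exact_mod_cast hn
  have hC0p : 0 < C0 := by linarith
  have hBm : MeasurableSet (badB R δ x) := hle _ (badB_meas h hδ hδ1 hv hx hx')
  have hTm : MeasurableSet R.T := hle _ h.T_meas
  have hFm : Measurable (R.F (1 / (4 * n)) x) := (h.F_meas _ x h1).mono hle le_rfl
  have hFi := h.F_int x h1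
  have hsplit : ∫ ω in badB R δ x, R.F (1 / (4 * n)) x ω ∂P =
      ∫ ω in badB R δ x ∩ R.T, R.F (1 / (4 * n)) x ω ∂P +
      ∫ ω in badB R δ x ∩ R.Tᶜ, R.F (1 / (4 * n)) x ω ∂P := by
    rw [← setIntegral_union ?_ (hBm.inter hTm.compl) hFi.integrableOn hFi.integrableOn]
    · congr 2
      rw [← inter_union_distrib_left, union_compl_self, inter_univ]
    · exact disjoint_compl_right.mono inter_subset_right inter_subset_right
  have h2 : ∫ ω in badB R δ x ∩ R.Tᶜ, R.F (1 / (4 * n)) x ω ∂P ≤ e := by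
    refine le_trans (setIntegral_mono_set hFi.integrableOn ?_
      (Eventually.of_forall inter_subset_right)) (h.F_ui x h1)
    exact Eventually.of_forall fun ω => h.F_nonneg _ _ ω h1
  have h3 := setIntegral_le_of_tail hFm hFi (T := R.T) (A := badB R δ x ∩ R.T) inter_subset_right
    (C := C0) (c := C0 ^ 2 * (4 * n) ^ 3) (Y := Y) hC0p.le (by positivity) (fun t ht => by
      have h4 := h.F_tail (1 / (4 * n)) x (t / (C0 * (4 * n) ^ 3)) (Or.inr rfl) h1 (by positivity)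
      have e1 : t / (C0 * (4 * (n : ℝ)) ^ 3) * (C0 / (1 / (4 * n)) ^ 3) = t := by
        field_simp
      have e2 : -(t / (C0 * (4 * (n : ℝ)) ^ 3)) / C0 = -t / (C0 ^ 2 * (4 * n) ^ 3) := by
        field_simp
      rw [e1, e2] at h4
      exact h4) hY
  linarith

end stepA


/-! ## potential -/

/-- repulsion from the right end `3 / 16` of the zone of the B-rows -/
noncomputable def phi (x : ℝ) : ℝ := 1 / (3 / 16 - x) ^ 3

/-- potential -/
noncomputable def Psi (lam x : ℝ) : ℝ := lam * (x + 1) + phi x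

lemma phi_nonneg {x : ℝ} (hx : x < 3 / 16) : 0 ≤ phi x := by
  unfold phi
  have : 0 < 3 / 16 - x := by linarith
  positivity

lemma phi_lip_aux {a b : ℝ} (ha : 1 / 32 ≤ a) (hab : a ≤ b) (hb : b ≤ 1) :
    1 / a ^ 3 - 1 / b ^ 3 ≤ 3 * 32 ^ 4 * (b - a) := by
  have ha0 : 0 < a := by linarith
  have hb0 : 0 < b := by linarith
  have hy : 1 / a ≤ 32 := by
    rw [div_le_iff₀ ha0]; linarith
  have hz : 1 / b ≤ 1 / a := one_div_le_one_div_of_le ha0 hab
  have hz0 : 0 < 1 / b := by positivity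
  have h1 : 1 / a - 1 / b ≤ 32 ^ 2 * (b - a) := by
    have : 1 / a - 1 / b = (1 / a) * (1 / b) * (b - a) := by field_simp
    rw [this]
    refine mul_le_mul_of_nonneg_right ?_ (by linarith)
    nlinarith
  have h2 : 1 / a ^ 3 - 1 / b ^ 3 =
      (1 / a - 1 / b) * ((1 / a) ^ 2 + (1 / a) * (1 / b) + (1 / b) ^ 2) := by
    field_simp
    ring
  rw [h2]
  have h3 : (1 / a) ^ 2 + (1 / a) * (1 / b) + (1 / b) ^ 2 ≤ 3 * 32 ^ 2 := by nlinarith
  have h4 : 0 ≤ (1 / a) ^ 2 + (1 / a) * (1 / b) + (1 / b) ^ 2 := by positivity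
  calc (1 / a - 1 / b) * ((1 / a) ^ 2 + (1 / a) * (1 / b) + (1 / b) ^ 2)
      ≤ (32 ^ 2 * (b - a)) * (3 * 32 ^ 2) := mul_le_mul h1 h3 h4 (by nlinarith)
    _ = 3 * 32 ^ 4 * (b - a) := by ring

lemma Psi_lip {lam x y : ℝ} (hx : -(1 / 16) ≤ x) (hxy : x ≤ y) (hy : y ≤ 5 / 32) :
    Psi lam y ≤ Psi lam x + (lam + 3 * 32 ^ 4) * (y - x) := by
  have := phi_lip_aux (a := 3 / 16 - y) (b := 3 / 16 - x) (by linarith) (by linarith) (by linarith)
  unfold Psi phi
  linarith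

lemma phi_back {x a : ℝ} (hx : 0 ≤ x) (hx' : x < 3 / 16) (ha : 0 < a) (ha' : a ≤ 1 / 2) :
    phi (x - a) ≤ (1 - a) * phi x := by
  unfold phi
  set u : ℝ := 3 / 16 - x with hu
  have hu0 : 0 < u := by linarith
  have hu1 : u ≤ 3 / 16 := by linarith
  have e1 : 3 / 16 - (x - a) = u + a := by rw [hu]; ring
  rw [e1, mul_one_div, div_le_div_iff₀ (by positivity) (by positivity), one_mul]
  have h1 : u ≤ (1 - a) * (u + a) := by nlinarith
  have h2 : u ^ 2 ≤ (u + a) ^ 2 := by nlinarith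
  calc u ^ 3 = u * u ^ 2 := by ring
    _ ≤ ((1 - a) * (u + a)) * (u + a) ^ 2 := mul_le_mul h1 h2 (by positivity) (by nlinarith)
    _ = (1 - a) * (u + a) ^ 3 := by ring

lemma phi_fwd {x : ℝ} (hx' : x < 3 / 16) :
    phi (x + 3 * ((3 / 16 - x) / 4) / 2) = 512 / 125 * phi x := by
  unfold phi
  have hu0 : 0 < 3 / 16 - x := by linarith
  have e1 : 3 / 16 - (x + 3 * ((3 / 16 - x) / 4) / 2) = 5 / 8 * (3 / 16 - x) := by ring
  rw [e1]
  field_simp
  norm_num

lemma stepB_arith {E lam a p e x y M D F f1 f2 : ℝ} (hp0 : 0 ≤ p) (hpe : p ≤ e)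
    (he1 : e ≤ 1) (hlam : 0 ≤ lam) (hE0 : 0 ≤ E) (hE : 2 * E ≤ lam * a) (hE' : e * lam ≤ E)
    (ha0 : 0 ≤ a) (ha1 : a ≤ 1 / 32) (hea : 69 * e ≤ a) (hph : 0 ≤ phi x)
    (h1 : F ≤ E + 64 * e * phi x + (1 - p) * f1 + p * f2)
    (hf1 : f1 ≤ M / 2 + Psi lam (x - a) + D) (hf2 : f2 ≤ M / 2 + Psi lam y + D)
    (hy : y ≤ x + 9 / 128) (hPa : phi (x - a) ≤ (1 - a) * phi x)
    (hPf : phi y = 512 / 125 * phi x) :
    F ≤ (M + 2) / 2 + Psi lam x + D := by
  have g1 : f1 ≤ M / 2 + D + lam * (x + 1) - lam * a + (1 - a) * phi x := by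
    unfold Psi at hf1
    have : lam * (x - a + 1) = lam * (x + 1) - lam * a := by ring
    linarith
  have g2 : f2 ≤ M / 2 + D + lam * (x + 1) + lam * (9 / 128) + 512 / 125 * phi x := by
    unfold Psi at hf2
    have : lam * (y + 1) ≤ lam * (x + 1) + lam * (9 / 128) := by
      rw [← mul_add]
      exact mul_le_mul_of_nonneg_left (by linarith) hlam
    linarith
  have g3 := mul_le_mul_of_nonneg_left g1 (show (0 : ℝ) ≤ 1 - p by linarith)
  have g4 := mul_le_mul_of_nonneg_left g2 hp0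
  set L := lam * (x + 1) with hL
  set A := (1 - a) * phi x with hA
  have hA0 : 0 ≤ A := mul_nonneg (by linarith) hph
  have g5 : F ≤ E + 64 * e * phi x + (M / 2 + D + L) - lam * a + A + p * (lam * a + lam * (9 / 128))
      + p * (512 / 125 * phi x) - p * A := by linarith
  have g6 : p * (lam * a + lam * (9 / 128)) ≤ e * lam := by
    refine mul_le_mul hpe ?_ ?_ (by linarith)
    · have : lam * a ≤ lam * (1 / 32) := mul_le_mul_of_nonneg_left ha1 hlam
      linarith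
    · positivity
  have g7 : p * (512 / 125 * phi x) ≤ 5 * e * phi x := by
    have : p * phi x ≤ e * phi x := mul_le_mul_of_nonneg_right hpe hph
    have : 0 ≤ e * phi x := mul_nonneg (by linarith) hph
    linarith
  have g8 : 0 ≤ p * A := mul_nonneg hp0 hA0
  have g9 : 69 * e * phi x ≤ a * phi x := mul_le_mul_of_nonneg_right hea hph
  have g10 : Psi lam x = L + phi x := rfl
  have g11 : A = phi x - a * phi x := by rw [hA]; ring
  rw [g10]
  linarith

/-! ## the induction -/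

/-- upper bounds for the value functions -/
lemma strategy_bound {Ω : Type u} [mΩ : MeasurableSpace Ω] {P : Measure Ω}
    [IsProbabilityMeasure P] {R : RowA Ω} {m : ℕ → MeasurableSpace Ω} {k : ℕ} (hle : m k ≤ mΩ)
    {C0 : ℝ} {n : ℕ} {δ e : ℝ} (S : Strategy R P (m k) C0 n δ e) (hC0 : 1 ≤ C0) (hn : 16 ≤ n)
    (hδ : 0 < δ) (hδ1 : 6 * δ ≤ 1 / 32) (hδ2 : δ ≤ 1 / (4 * n))
    (he : 0 < e) (he1 : e ≤ 1 / (1000 * n)) {lam : ℝ} (hlam : lam = 8 * C0 * n ^ 5)
    (hrow : ∀ x : ℝ, -(1 / 16) ≤ x → x < 1 / 8 → ∃ B : Set Ω, MeasurableSet[m k] B ∧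
      IntegrableOn (R.KL x) Bᶜ P ∧
      ∫ ω in Bᶜ, R.KL x ω ∂P + ∫ ω in B, R.F (1 / (4 * n)) x ω ∂P + e +
        6 * δ * (lam + 3 * 32 ^ 4) +
        P.real B * ((1 / (4 * n) + δ) * (lam + 3 * 32 ^ 4)) ≤ 1 / 2) :
    ∀ N : ℕ, (∀ x : ℝ, -(1 / 16) ≤ x → x < 1 / 8 → S.fA N x ≤ N / 2 + Psi lam x + |S.C'|) ∧
      (∀ x : ℝ, 0 ≤ x → x < 3 / 16 → S.fB N x ≤ N / 2 + Psi lam x + |S.C'|) := by
  have hnR : (16 : ℝ) ≤ n := by exact_mod_cast hn
  have hn0 : (0 : ℝ) < n := by linarith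
  have hC0p : 0 < C0 := by linarith
  have hlam0 : 0 < lam := by rw [hlam]; positivity
  have hD := le_abs_self S.C'
  have hD0 := abs_nonneg S.C'
  have hq : 1 / (4 * (n : ℝ)) ≤ 1 / 64 := by
    refine one_div_le_one_div_of_le (by norm_num) (by linarith)
  have hq0 : 0 < 1 / (4 * (n : ℝ)) := by positivity
  have hq2 : 1 / (2 * (n : ℝ)) = 2 * (1 / (4 * n)) := by
    field_simp; ring
  have heq : e ≤ 1 / (4 * (n : ℝ)) / 250 := by
    have : 1 / (1000 * (n : ℝ)) = 1 / (4 * (n : ℝ)) / 250 := by field_simp; ring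
    linarith
  have hPsi0 : ∀ x : ℝ, -(1 / 16) ≤ x → x < 3 / 16 → 0 ≤ Psi lam x := by
    intro x hx hx'
    unfold Psi
    have := phi_nonneg hx'
    have h2 : 0 ≤ lam * (x + 1) := mul_nonneg hlam0.le (by linarith)
    linarith
  intro N
  induction N using Nat.strong_induction_on with
  | _ N ih =>
    rcases Nat.lt_or_ge N 2 with hN | hN
    · have hN' : N ≤ 1 := by omega
      have hNn : (0 : ℝ) ≤ N := Nat.cast_nonneg N
      refine ⟨fun x hx hx' => ?_, fun x hx hx' => ?_⟩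
      · have h1 := S.base_A N hN' x hx hx'
        have h2 := hPsi0 x hx (by linarith)
        linarith
      · have h1 := S.base_B N hN' x hx hx'
        have h2 := hPsi0 x (by linarith) hx'
        linarith
    obtain ⟨M, rfl⟩ : ∃ M, N = M + 2 := ⟨N - 2, by omega⟩
    have hMc : ((M + 2 : ℕ) : ℝ) = M + 2 := by push_cast; ring
    have hM1c : ((M + 1 : ℕ) : ℝ) = M + 1 := by push_cast; ring
    -- rows of type A
    have hA : ∀ x : ℝ, -(1 / 16) ≤ x → x < 1 / 8 →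
        S.fA (M + 2) x ≤ (M + 2 : ℕ) / 2 + Psi lam x + |S.C'| := by
      intro x hx hx'
      obtain ⟨B, hBm, hBi, hB⟩ := hrow x hx hx'
      have hBm' : MeasurableSet B := hle _ hBm
      have hpc : P.real Bᶜ = 1 - P.real B := by
        rw [measureReal_compl hBm', probReal_univ]
      have hp0 : 0 ≤ P.real B := measureReal_nonneg
      have hp1 : P.real B ≤ 1 := measureReal_le_one
      obtain ⟨ihA, ihB⟩ := ih (M + 1) (by omega)
      have key : ∃ f, (f = S.fA ∨ f = S.fB) ∧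
          f (M + 1) (x + 6 * δ) ≤ (M + 1 : ℕ) / 2 + Psi lam (x + 6 * δ) + |S.C'| ∧
          f (M + 1) (x + 1 / (4 * n) + δ) ≤
            (M + 1 : ℕ) / 2 + Psi lam (x + 1 / (4 * n) + δ) + |S.C'| := by
        by_cases hc : x + 6 * δ < 1 / 8 ∧ x + 1 / (4 * n) + δ < 1 / 8
        · exact ⟨S.fA, Or.inl rfl, ihA _ (by linarith) hc.1, ihA _ (by linarith) hc.2⟩
        · have hx2 : 1 / 8 - 1 / 32 ≤ x := by
            by_contra hcon
            push Not at hcon
            exact hc ⟨by linarith, by linarith⟩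
          exact ⟨S.fB, Or.inr rfl, ihB _ (by linarith) (by linarith),
            ihB _ (by linarith) (by linarith)⟩
      obtain ⟨f, hf, hf1, hf2⟩ := key
      have h1 := S.recA f hf (M + 1) x hx hx' B hBm hBi
      have h2 := Psi_lip (lam := lam) (x := x) (y := x + 6 * δ) hx (by linarith) (by linarith)
      have h3 := Psi_lip (lam := lam) (x := x) (y := x + 1 / (4 * n) + δ) hx (by linarith)
        (by linarith)
      have h4 : P.real Bᶜ * f (M + 1) (x + 6 * δ) ≤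
          P.real Bᶜ * ((M + 1 : ℕ) / 2 + Psi lam x + |S.C'| + 6 * δ * (lam + 3 * 32 ^ 4)) :=
        mul_le_mul_of_nonneg_left (by linarith) measureReal_nonneg
      have h5 : P.real B * f (M + 1) (x + 1 / (4 * n) + δ) ≤
          P.real B * ((M + 1 : ℕ) / 2 + Psi lam x + |S.C'| +
            (1 / (4 * n) + δ) * (lam + 3 * 32 ^ 4)) :=
        mul_le_mul_of_nonneg_left (by linarith) measureReal_nonneg
      rw [hpc] at h4 h1
      have h6 : 0 ≤ P.real B * (6 * δ * (lam + 3 * 32 ^ 4)) := by positivity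
      rw [show M + 1 + 1 = M + 2 by rfl] at h1
      rw [hM1c] at h4 h5
      rw [hMc]
      linarith
    refine ⟨hA, fun x hx hx' => ?_⟩
    set u : ℝ := 3 / 16 - x with hu
    have hu0 : 0 < u := by linarith
    rcases le_or_gt u (4 * S.wmin) with hw | hw
    · have h1 := S.top (M + 2) x hx hx'
      have h2 := hA 0 (by norm_num) (by norm_num)
      have h3 := S.Acr_le
      have h4 : 1 / (4 * S.wmin) ^ 3 ≤ 1 / u ^ 3 :=
        one_div_le_one_div_of_le (by positivity) (pow_le_pow_left₀ hu0.le hw 3)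
      have h5 : Psi lam 0 ≤ lam + 152 := by
        unfold Psi phi; norm_num
      have h6 : Psi lam x = lam * (x + 1) + 1 / u ^ 3 := rfl
      have h7 : 0 ≤ lam * x := mul_nonneg hlam0.le hx
      rw [h6]
      linarith
    · obtain ⟨ihA, ihB⟩ := ih M (by omega)
      set a : ℝ := 1 / (2 * n) - δ with ha
      have ha1 : 1 / (4 * (n : ℝ)) ≤ a := by rw [ha, hq2]; linarith
      have ha2 : a ≤ 1 / 32 := by rw [ha, hq2]; linarith
      have hxa : x - 1 / (2 * n) + δ = x - a := by rw [ha]; ring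
      have key : ∃ f, (f = S.fA ∨ f = S.fB) ∧
          f M (x - a) ≤ (M : ℝ) / 2 + Psi lam (x - a) + |S.C'| ∧
          f M (x + 3 * (u / 4) / 2) ≤ (M : ℝ) / 2 + Psi lam (x + 3 * (u / 4) / 2) + |S.C'| := by
        by_cases hc : x < 7 / 80
        · exact ⟨S.fA, Or.inl rfl, ihA _ (by linarith) (by linarith),
            ihA _ (by linarith) (by rw [hu]; linarith)⟩
        · push Not at hc
          exact ⟨S.fB, Or.inr rfl, ihB _ (by linarith) (by linarith),
            ihB _ (by linarith) (by rw [hu]; linarith)⟩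
      obtain ⟨f, hf, hf1, hf2⟩ := key
      obtain ⟨p, hp0, hpe, h1⟩ := S.recB f hf M x (u / 4) hx hx' (by linarith) (by linarith)
      rw [hxa] at h1
      have hp1 : p ≤ 1 := by linarith
      have h2 : (1 - p) * f M (x - a) ≤ (1 - p) * ((M : ℝ) / 2 + Psi lam (x - a) + |S.C'|) :=
        mul_le_mul_of_nonneg_left hf1 (by linarith)
      have h3 : p * f M (x + 3 * (u / 4) / 2) ≤
          p * ((M : ℝ) / 2 + Psi lam (x + 3 * (u / 4) / 2) + |S.C'|) :=
        mul_le_mul_of_nonneg_left hf2 hp0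
      have hphi0 : 0 ≤ phi x := phi_nonneg hx'
      have h4 := phi_back hx hx' (lt_of_lt_of_le hq0 ha1) (by linarith)
      have h5 := phi_fwd hx'
      rw [← hu] at h5
      have h6 : e / (u / 4) ^ 3 = 64 * e * phi x := by
        unfold phi
        rw [← hu]
        field_simp
        norm_num
      rw [h6] at h1
      rw [hMc]
      refine stepB_arith hp0 hpe (by linarith) hlam0.le (E := C0 * n ^ 4)
        (by positivity) ?_ ?_ (by linarith) ha2 (by linarith) hphi0 h1 hf1 hf2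
        (by rw [hu]; linarith) h4 h5
      · have : lam * (1 / (4 * n)) = 2 * (C0 * n ^ 4) := by
          rw [hlam]; field_simp; ring
        rw [← this]
        exact mul_le_mul_of_nonneg_left ha1 hlam0.le
      · have t2 : e * lam ≤ (1 / (4 * (n : ℝ)) / 250) * lam :=
          mul_le_mul_of_nonneg_right heq hlam0.le
        have t3 : (1 / (4 * (n : ℝ)) / 250) * lam = 2 * (C0 * n ^ 4) / 250 := by
          rw [hlam]; field_simp; ring
        have t4 : 0 ≤ C0 * n ^ 4 := by positivity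
        linarith


/-! ## choice of the constants -/

lemma exp_neg_le_pow {x : ℝ} (hx : 0 < x) : Real.exp (-x) ≤ (Nat.factorial 9 : ℝ) / x ^ 9 := by
  have h1 := Real.pow_div_factorial_le_exp x hx.le 9
  rw [Real.exp_neg, inv_le_comm₀ (Real.exp_pos x) (by positivity), inv_div]
  exact h1

set_option maxHeartbeats 1000000 in
/-- the row inequality with explicit constants -/
lemma row_bound {Ω : Type u} [mΩ : MeasurableSpace Ω] {P : Measure Ω}
    [IsProbabilityMeasure P] {R : RowA Ω} {m : ℕ → MeasurableSpace Ω} {k : ℕ} (hle : m k ≤ mΩ)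
    {C0 : ℝ} {n : ℕ} {δ v e : ℝ} (h : R.Law P (m k) C0 n δ v e) (hc : R.Cheap P C0 δ)
    (hC0 : 1 ≤ C0) (hn : 16 ≤ n) (hδ : 0 < δ) (hδ1 : δ ≤ 1 / 64) (hδ2 : δ ≤ 1 / (4 * n))
    (hv : 1 ≤ v) (he : 0 < e) {lam C1 r K L : ℝ} (hlam : lam = 8 * C0 * n ^ 5)
    (hL : L = 3 * 32 ^ 4) (hr : 0 < r) (hrn : r ^ 2 = n)
    (hC1 : C1 = 10 * C0 + 5 * C0 * (Nat.factorial 9 * (C0 ^ 2 * 32 ^ 3) ^ 9))
    (hK : K = 64 * C0 ^ 2 * C1 + 64 * Nat.factorial 9 * C0 ^ 3 + 4 * C0 * C1 + C1 * L)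
    (hrK : 32 * K ≤ r) (hδ3 : 6 * δ * (lam + L) ≤ 1 / 32)
    (he3 : e * (2 + 128 * C0 ^ 2 * r ^ 7 + 3 * (lam + L)) ≤ 1 / 32)
    {x : ℝ} (hx : -(1 / 16) ≤ x) (hx' : x < 1 / 8) :
    ∫ ω in (badB R δ x)ᶜ, R.KL x ω ∂P + ∫ ω in badB R δ x, R.F (1 / (4 * n)) x ω ∂P + e +
        6 * δ * (lam + L) + P.real (badB R δ x) * ((1 / (4 * n) + δ) * (lam + L)) ≤ 1 / 2 := by
  have hnR : (16 : ℝ) ≤ n := by exact_mod_cast hn
  have hn0 : (0 : ℝ) < n := by linarith
  have hC0p : 0 < C0 := by linarith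
  have hfac : (0 : ℝ) < (Nat.factorial 9 : ℝ) := by positivity
  have hC1p : 0 < C1 := by rw [hC1]; positivity
  have hLp : 0 < L := by rw [hL]; norm_num
  have hlp : 0 < lam := by rw [hlam]; positivity
  have hr1 : 1 ≤ r := by nlinarith
  set PT : ℝ := P.real (badB R δ x ∩ R.T) with hPT
  have hPT0 : 0 ≤ PT := measureReal_nonneg
  have hBm : MeasurableSet (badB R δ x) := hle _ (badB_meas h hδ hδ1 hv hx hx')
  -- probability
  have hP : PT ≤ C1 / r ^ 9 + 2 * e := by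
    have h1 := stepA_prob h hC0 hc hv hx hx' hr.le
    have h2 : 10 * C0 * r / (n : ℝ) ^ 5 = 10 * C0 / r ^ 9 := by
      rw [← hrn]; field_simp
    have h3 := exp_neg_le_pow (x := r / (C0 ^ 2 * 32 ^ 3)) (by positivity)
    have h4 : (Nat.factorial 9 : ℝ) / (r / (C0 ^ 2 * 32 ^ 3)) ^ 9 =
        (Nat.factorial 9 * (C0 ^ 2 * 32 ^ 3) ^ 9) / r ^ 9 := by
      rw [div_pow, div_div_eq_mul_div]
    have h5 : 5 * C0 * Real.exp (-r / (C0 ^ 2 * 32 ^ 3)) ≤
        5 * C0 * ((Nat.factorial 9 * (C0 ^ 2 * 32 ^ 3) ^ 9) / r ^ 9) := by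
      rw [← h4, neg_div]
      exact mul_le_mul_of_nonneg_left h3 (by positivity)
    have h6 : C1 / r ^ 9 = 10 * C0 / r ^ 9 +
        5 * C0 * ((Nat.factorial 9 * (C0 ^ 2 * 32 ^ 3) ^ 9) / r ^ 9) := by
      rw [hC1]; ring
    rw [h2] at h1
    rw [h6]
    linarith
  have hPB : P.real (badB R δ x) ≤ PT + e := by
    have h1 : badB R δ x ⊆ (badB R δ x ∩ R.T) ∪ R.Tᶜ := by
      intro ω hω
      by_cases hT : ω ∈ R.T
      · exact Or.inl ⟨hω, hT⟩
      · exact Or.inr hT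
    refine (measureReal_mono h1 (measure_ne_top _ _)).trans ((measureReal_union_le _ _).trans ?_)
    have := h.T_prob
    linarith
  -- the lane
  have t1 := (stepA_int h hle hc hδ hδ1 hv hx hx').2
  -- the fence
  set W : ℝ := C0 ^ 2 * (4 * n) ^ 3 with hW
  have hWp : 0 < W := by positivity
  have hW' : W = 64 * C0 ^ 2 * r ^ 6 := by
    rw [hW, ← hrn]; ring
  have t2 := stepA_fence h hle hC0 (by omega) hδ hδ1 hv hx hx' (Y := r * W) (by positivity)
  rw [← hW, ← hPT] at t2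
  have e1 : -(r * W) / W = -r := by field_simp
  rw [e1] at t2
  have t3 : r * W * PT ≤ 64 * C0 ^ 2 * C1 / r + 128 * C0 ^ 2 * r ^ 7 * e := by
    have h1 : r * W * PT ≤ r * W * (C1 / r ^ 9 + 2 * e) :=
      mul_le_mul_of_nonneg_left hP (by positivity)
    have h2 : r * W * (C1 / r ^ 9 + 2 * e) =
        64 * C0 ^ 2 * C1 / r ^ 2 + 128 * C0 ^ 2 * r ^ 7 * e := by
      rw [hW']; field_simp; ring
    have h3 : 64 * C0 ^ 2 * C1 / r ^ 2 ≤ 64 * C0 ^ 2 * C1 / r := by
      refine div_le_div_of_nonneg_left (by positivity) hr ?_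
      nlinarith
    linarith
  have t4 : C0 * W * Real.exp (-r) ≤ 64 * Nat.factorial 9 * C0 ^ 3 / r := by
    have h1 : C0 * W * Real.exp (-r) ≤ C0 * W * ((Nat.factorial 9 : ℝ) / r ^ 9) :=
      mul_le_mul_of_nonneg_left (exp_neg_le_pow hr) (by positivity)
    have h2 : C0 * W * ((Nat.factorial 9 : ℝ) / r ^ 9) =
        64 * Nat.factorial 9 * C0 ^ 3 / r ^ 3 := by
      rw [hW']; field_simp
    have h3 : 64 * (Nat.factorial 9 : ℝ) * C0 ^ 3 / r ^ 3 ≤
        64 * Nat.factorial 9 * C0 ^ 3 / r := by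
      refine div_le_div_of_nonneg_left (by positivity) hr ?_
      have : r ^ 1 ≤ r ^ 3 := pow_le_pow_right₀ hr1 (by norm_num)
      linarith
    linarith
  -- the potential
  have t5 : P.real (badB R δ x) * ((1 / (4 * n) + δ) * (lam + L)) ≤
      4 * C0 * C1 / r + C1 * L / r + 3 * e * (lam + L) := by
    have h1 : (1 / (4 * n) + δ) ≤ 1 / (2 * r ^ 2) := by
      have : 1 / (2 * r ^ 2) = 1 / (4 * (n : ℝ)) + 1 / (4 * n) := by
        rw [hrn]; field_simp; ring
      linarith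
    have h2 : P.real (badB R δ x) * ((1 / (4 * n) + δ) * (lam + L)) ≤
        (C1 / r ^ 9 + 3 * e) * (1 / (2 * r ^ 2) * (lam + L)) := by
      refine mul_le_mul (by linarith) ?_ (by positivity) (by positivity)
      exact mul_le_mul_of_nonneg_right h1 (by positivity)
    have h3 : (C1 / r ^ 9 + 3 * e) * (1 / (2 * r ^ 2) * (lam + L)) =
        4 * C0 * C1 / r + C1 * L / (2 * r ^ 11) + 3 * e * (lam + L) / (2 * r ^ 2) := by
      rw [hlam, ← hrn]; field_simp; ring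
    have h4 : C1 * L / (2 * r ^ 11) ≤ C1 * L / r := by
      refine div_le_div_of_nonneg_left (by positivity) hr ?_
      have : r ^ 1 ≤ r ^ 11 := pow_le_pow_right₀ hr1 (by norm_num)
      linarith
    have h5 : 3 * e * (lam + L) / (2 * r ^ 2) ≤ 3 * e * (lam + L) := by
      refine div_le_self (by positivity) ?_
      have : r ^ 1 ≤ r ^ 2 := pow_le_pow_right₀ hr1 (by norm_num)
      linarith
    linarith
  have t6 : 64 * C0 ^ 2 * C1 / r + 64 * Nat.factorial 9 * C0 ^ 3 / r + 4 * C0 * C1 / r +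
      C1 * L / r ≤ 1 / 32 := by
    have : 64 * C0 ^ 2 * C1 / r + 64 * Nat.factorial 9 * C0 ^ 3 / r + 4 * C0 * C1 / r +
        C1 * L / r = K / r := by rw [hK]; ring
    rw [this, div_le_iff₀ hr]
    linarith
  have t7 : 2 * e + 128 * C0 ^ 2 * r ^ 7 * e + 3 * e * (lam + L) ≤ 1 / 32 := by
    have : e * (2 + 128 * C0 ^ 2 * r ^ 7 + 3 * (lam + L)) =
      2 * e + 128 * C0 ^ 2 * r ^ 7 * e + 3 * e * (lam + L) := by ring
    linarith
  linarith

/-- **The cheap half of the endgame.** -/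
theorem cheap_false (C0 θ : ℝ) (hC0 : 1 ≤ C0) :
    ∃ n0 : ℕ, ∀ n ≥ n0, ∃ δ0 > 0, ∀ δ : ℝ, 0 < δ → δ ≤ δ0 → ∃ v0 : ℝ, ∀ v ≥ v0, ∃ e0 > 0,
      ∀ e : ℝ, 0 < e → e ≤ e0 → ∀ Mo : Model.{u} C0 θ n δ v e,
        @RowA.Cheap Mo.Ω (Mo.R 0) Mo.mΩ Mo.P C0 δ → False := by
  have hC0p : 0 < C0 := by linarith
  set C1 : ℝ := 10 * C0 + 5 * C0 * (Nat.factorial 9 * (C0 ^ 2 * 32 ^ 3) ^ 9) with hC1
  set L : ℝ := 3 * 32 ^ 4 with hL
  set K : ℝ := 64 * C0 ^ 2 * C1 + 64 * Nat.factorial 9 * C0 ^ 3 + 4 * C0 * C1 + C1 * L with hK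
  have hC1p : 0 < C1 := by rw [hC1]; positivity
  have hLp : 0 < L := by rw [hL]; norm_num
  have hKp : 0 < K := by rw [hK]; positivity
  obtain ⟨n0, hn0⟩ := exists_nat_ge ((32 * K) ^ 2)
  refine ⟨max n0 16, fun n hn => ?_⟩
  have hn16 : 16 ≤ n := (le_max_right _ _).trans hn
  have hnR : (16 : ℝ) ≤ n := by exact_mod_cast hn16
  have hnp : (0 : ℝ) < n := by linarith
  have hn1 : (32 * K) ^ 2 ≤ n := hn0.trans (by exact_mod_cast (le_max_left _ _).trans hn)
  set r : ℝ := Real.sqrt n with hr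
  have hrp : 0 < r := Real.sqrt_pos.2 hnp
  have hrn : r ^ 2 = n := Real.sq_sqrt hnp.le
  have hrK : 32 * K ≤ r := Real.le_sqrt_of_sq_le hn1
  set lam : ℝ := 8 * C0 * n ^ 5 with hlam
  have hlp : 0 < lam := by rw [hlam]; positivity
  refine ⟨min (min (1 / 192) (1 / (4 * n))) (1 / (192 * (lam + L))),
    lt_min (lt_min (by norm_num) (by positivity)) (by positivity), fun δ hδ hδ0 => ?_⟩
  have hδ1 : δ ≤ 1 / 192 := hδ0.trans ((min_le_left _ _).trans (min_le_left _ _))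
  have hδ2 : δ ≤ 1 / (4 * n) := hδ0.trans ((min_le_left _ _).trans (min_le_right _ _))
  have hδ3 : δ ≤ 1 / (192 * (lam + L)) := hδ0.trans (min_le_right _ _)
  rw [le_div_iff₀ (by positivity)] at hδ3
  refine ⟨1, fun v hv => ?_⟩
  refine ⟨min (1 / (1000 * n)) (1 / (32 * (2 + 128 * C0 ^ 2 * r ^ 7 + 3 * (lam + L)))),
    lt_min (by positivity) (by positivity), fun e he hee Mo hch => ?_⟩
  have he1 : e ≤ 1 / (1000 * n) := hee.trans (min_le_left _ _)
  have he2 : e ≤ 1 / (32 * (2 + 128 * C0 ^ 2 * r ^ 7 + 3 * (lam + L))) :=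
    hee.trans (min_le_right _ _)
  rw [le_div_iff₀ (by positivity)] at he2
  let _ := Mo.mΩ
  have _ := Mo.prob
  have hbd := strategy_bound (Mo.m_le 0) Mo.strat hC0 hn16 hδ (by linarith) hδ2 he he1
    (lam := lam) hlam (fun x hx hx' => ⟨badB (Mo.R 0) δ x,
      badB_meas (Mo.law 0) hδ (by linarith) hv hx hx',
      (stepA_int (Mo.law 0) (Mo.m_le 0) hch hδ (by linarith) hv hx hx').1,
      row_bound (Mo.m_le 0) (Mo.law 0) hch hC0 hn16 hδ (by linarith) hδ2 hv he hlam hL hrp hrn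
        hC1 hK hrK (by linarith) (by linarith) hx hx'⟩)
  obtain ⟨N, hN⟩ := exists_nat_gt (2 * (Mo.strat.C' + Psi lam 0 + |Mo.strat.C'|))
  have h1 := (hbd N).1 0 (by norm_num) (by norm_num)
  have h2 := Mo.strat.low N
  linarith

/-- **The endgame** (from `E685P.costly_false` and `cheap_false`). -/
theorem endgame : Endgame.{u} := by
  intro C0 θ hC0 hθ
  obtain ⟨n1, H1⟩ := costly_false.{u} C0 θ hC0 hθ
  obtain ⟨n2, H2⟩ := cheap_false.{u} C0 θ hC0
  refine ⟨max n1 n2, fun n hn => ?_⟩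
  obtain ⟨δ1, hδ1, H1⟩ := H1 n ((le_max_left _ _).trans hn)
  obtain ⟨δ2, hδ2, H2⟩ := H2 n ((le_max_right _ _).trans hn)
  refine ⟨min δ1 δ2, lt_min hδ1 hδ2, fun δ hδ hδ0 => ?_⟩
  obtain ⟨v1, H1⟩ := H1 δ hδ (hδ0.trans (min_le_left _ _))
  obtain ⟨v2, H2⟩ := H2 δ hδ (hδ0.trans (min_le_right _ _))
  refine ⟨max v1 v2, fun v hv => ?_⟩
  obtain ⟨e1, he1, H1⟩ := H1 v ((le_max_left _ _).trans hv)
  obtain ⟨e2, he2, H2⟩ := H2 v ((le_max_right _ _).trans hv)
  refine ⟨min e1 e2, lt_min he1 he2, fun e he he0 => ⟨fun Mo => ?_⟩⟩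
  rcases Mo.dich with h | h
  · exact H2 e he (he0.trans (min_le_right _ _)) Mo h
  · exact H1 e he (he0.trans (min_le_left _ _)) Mo h

end Crest.Agent.R151.E685

namespace Crest.Agent.R151.E191

universe u

/-- **The endgame** (official name, see `E685.endgame`). -/
theorem endgame : Endgame.{u} := E685.endgame.{u}

end Crest.Agent.R151.E191
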