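import Crest.Agent.R151.NF0

/-!
# R151 / S0214 part 2, M192g — from one row to the stack (owner helper192)

`Cf.model_of` : the model of the endgame from the row law, the dichotomy, the strategy (all on
the space of ONE row) and the paths (on the stack).
-/

set_option autoImplicit false

open MeasureTheory Filter ProbabilityTheory Topology Set
open Crest.ProbabilityR.FirstPassage
open Crest.Agent.R151.K Crest.Agent.R151.Q

namespace Crest.Agent.R151.NF

open B710 (FlatData)

variable {μ : ℝ × ℝ → ℝ}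

instance (G : Measure ℝ) [IsProbabilityMeasure G] : IsProbabilityMeasure (nuR G) := by
  unfold nuR; infer_instance

namespace Cf

variable {G : Measure ℝ} {F : FlatData μ} {w0 c0 K : ℝ} {p : Num}

instance [IsProbabilityMeasure G] (c : Cf G F w0 c0 K p) : IsProbabilityMeasure c.PSt := by
  unfold PSt; infer_instance

/-- side conditions on the geometry of the rows -/
structure Soft (c : Cf G F w0 c0 K p) (C : ℝ) : Prop where
  ok : M192.RowOK c.h p.W c.L c.yA c.l c.sl p.δ p.v C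
  /-- the rows of the stack are disjoint -/
  gap : c.h.wH + 2 * cF F < 2 * c.g

/-- row `k` of the stack has the law of a row -/
lemma carry [IsProbabilityMeasure G] (c : Cf G F w0 c0 K p) (k : ℕ) :
    E191.RowA.Carry c.PSt (nuR G) c.mB (M192.rq c.B k) := fun _ hA =>
  M192.stack_measure (G := G) (ν := UU.prod UU) c.B k hA

lemma be_pos_rq (c : Cf G F w0 c0 K p) (k : ℕ) (ξ η : ℝ × ℝ) (z : ℤ × ℤ) :
    F.be (pos (ξ - c.B k - η) z) = F.be (pos ξ z) - (k * c.P + c.g) - F.be η := by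
  unfold B
  rw [M192.be_pos, M192.be_pos, map_sub, map_sub, M192.be_smul_b]
  ring

lemma al_pos_rq (c : Cf G F w0 c0 K p) (k : ℕ) (ξ η : ℝ × ℝ) (z : ℤ × ℤ) :
    F.al (pos (ξ - c.B k - η) z) = F.al (pos ξ z) - F.al η := by
  unfold B
  rw [M192.al_pos, M192.al_pos, map_sub, map_sub, map_smul, F.al_b, smul_zero]
  ring

lemma disj {c : Cf G F w0 c0 K p} {C : ℝ} (hO : c.Soft C) (j k : ℕ) (hjk : j ≠ k)
    (ξ η η' : ℝ × ℝ)
    (hη : η ∈ Ico (0 : ℝ) 1 ×ˢ Ico (0 : ℝ) 1) (hη' : η' ∈ Ico (0 : ℝ) 1 ×ˢ Ico (0 : ℝ) 1) :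
    Disjoint (c.E (ξ - c.B j - η)) (c.E (ξ - c.B k - η')) := by
  have key : ∀ j k : ℕ, j < k → ∀ η η' : ℝ × ℝ, η ∈ Ico (0 : ℝ) 1 ×ˢ Ico (0 : ℝ) 1 →
      η' ∈ Ico (0 : ℝ) 1 ×ˢ Ico (0 : ℝ) 1 →
      Disjoint (c.E (ξ - c.B j - η)) (c.E (ξ - c.B k - η')) := by
    intro j k hjk η η' hη hη'
    refine J69.disjoint_edgesIn ?_
    rw [Set.disjoint_left]
    rintro z ⟨h1, h2⟩ ⟨h3, h4⟩
    rw [be_pos_rq] at h1 h2 h3 h4
    rw [M192.be_smul_b] at h2
    have b1 := abs_le.1 (abs_be_le' F (norm_jitter hη))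
    have b2 := abs_le.1 (abs_be_le' F (norm_jitter hη'))
    have hg := hO.gap
    have hy := hO.ok.wH_lt
    have hw := c.h.wH_nonneg
    have hcF := cF_nonneg F
    have hP : c.P = c.yA + 2 * c.g := rfl
    have hP0 : 0 ≤ c.P := by rw [hP]; linarith
    have hk : (j : ℝ) + 1 ≤ k := by exact_mod_cast hjk
    have hk' : ((j : ℝ) + 1) * c.P ≤ k * c.P := mul_le_mul_of_nonneg_right hk hP0
    nlinarith [b1.1, b1.2, b2.1, b2.2]
  rcases lt_or_gt_of_ne hjk with h | h
  · exact key j k h η η' hη hη'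
  · exact (key k j h η' η hη' hη).symm

/-- **The model of the endgame from one row.** -/
theorem model_of [IsProbabilityMeasure G] {c : Cf G F w0 c0 K p} {C : ℝ}
    {T : Set (M192.Row (ℝ × ℝ))} (hO : c.Soft C) {C0 θ e : ℝ} {n : ℕ}
    (hL : (c.rowA T).Law (nuR G) c.mB C0 n p.δ p.v e)
    (hd : (c.rowA T).Cheap (nuR G) C0 p.δ ∨ (c.rowA T).Costly (nuR G) C0 p.δ p.v e)
    (S : Nonempty (E191.Strategy (c.rowA T) (nuR G) c.mB C0 n p.δ e))
    (Q : Nonempty (E191.Paths (c.rows T) c.PSt C0 θ p.δ p.v e)) :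
    Nonempty (E191.Model.{0} C0 θ n p.δ p.v e) := by
  obtain ⟨S⟩ := S
  obtain ⟨Q⟩ := Q
  have hv := hO.ok.v_ge
  have hδ := hO.ok.δ_nonneg
  have hδ2 := hO.ok.δ_le
  have hle := M192.mB_le c.h (c.yA • F.b)
  refine ⟨
    { Ω := M192.St (ℝ × ℝ)
      mΩ := inferInstance
      P := c.PSt
      prob := inferInstance
      m := c.mSt
      m_le := M192.mrow_le c.B c.E
      indep := M192.iIndep_mrow (disj hO)
      R := c.rows T
      law := fun k => hL.comap (c.carry k) hle (M192.measurable_rq c.B k)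
      dich := ?_
      strat := E191.Strategy.comap (c.carry 0) hle (M192.measurable_rq c.B 0) hL
        (by linarith) S
      paths := Q }⟩
  rcases hd with hd | hd
  · left
    exact hd.comap (c.carry 0) hle (M192.measurable_rq c.B 0)
      (fun x h1 h2 => hL.K_meas x _ (by rw [abs_le]; constructor <;> linarith)
        (by rw [abs_le]; constructor <;> linarith)) hL.T_meas
  · right
    intro k
    exact hd.comap (c.carry k) hL.K_meas hL.T_meas

end Cf

end Crest.Agent.R151.NF
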