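import Crest.Agent.R151.U450f

/-!
# R151/U450g — the block bound (owner helper450)

`blockBound` : `BlockBound G F` (target BT of Q3).
-/

set_option autoImplicit false
set_option maxHeartbeats 1000000

open MeasureTheory Filter ProbabilityTheory Topology
open Crest.ProbabilityR.FirstPassage
open Crest.Agent.R151.K
open Crest.Agent.R151.Q

namespace Crest.Agent.R151.U450

open B710 (FlatData)

variable {μ : ℝ × ℝ → ℝ} {G : Measure ℝ} [IsProbabilityMeasure G] {lam : ℝ} {t : Environment}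

/-- the cost of the fallback on the bad event, mean value (arithmetic-geometric mean) -/
lemma integral_bad (h0 : G (Set.Iio 0) = 0) (h2 : Integrable (fun x : ℝ => x ^ 2) G)
    {B : Set Environment} (hB : MeasurableSet B) (E : Finset (Sym2 (ℤ × ℤ))) {r : ℝ}
    (hr : 0 < r) :
    Integrable (B.indicator fun t : Environment => ∑ e ∈ E, t e) (iidLaw G) ∧
    ∫ t, B.indicator (fun t : Environment => ∑ e ∈ E, t e) t ∂(iidLaw G) ≤
      (r * ((E.card : ℝ) ^ 2 * ∫ z, z ^ 2 ∂G) + (iidLaw G).real B / r) / 2 := by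
  have hi := (integrable_sum_edges (G := G) h2 E).indicator hB
  obtain ⟨hs1, hs2⟩ := sum_edges_sq (G := G) h2 E
  refine ⟨hi, ?_⟩
  have hi2 : Integrable (fun t : Environment => r / 2 * (∑ e ∈ E, t e) ^ 2) (iidLaw G) :=
    hs1.const_mul _
  have hi3 : Integrable (B.indicator fun _ : Environment => 1 / (2 * r)) (iidLaw G) :=
    (integrable_const _).indicator hB
  have h3 : ∫ t, B.indicator (fun t : Environment => ∑ e ∈ E, t e) t ∂(iidLaw G) ≤
      ∫ t, (r / 2 * (∑ e ∈ E, t e) ^ 2 + B.indicator (fun _ => 1 / (2 * r)) t)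
        ∂(iidLaw G) := by
    refine integral_mono_ae hi (hi2.add hi3) ?_
    filter_upwards [ae_Nn (G := G) h0] with t ht
    by_cases htB : t ∈ B
    · simp only [Set.indicator_of_mem htB]
      set S := ∑ e ∈ E, t e with hS
      have h4 : r / 2 * S ^ 2 + 1 / (2 * r) - S = (r * S - 1) ^ 2 / (2 * r) := by
        field_simp
        ring
      have h5 : 0 ≤ (r * S - 1) ^ 2 / (2 * r) := by positivity
      linarith
    · simp only [Set.indicator_of_notMem htB, add_zero]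
      positivity
  have h6 : ∫ t, B.indicator (fun _ : Environment => 1 / (2 * r)) t ∂(iidLaw G) =
      (iidLaw G).real B * (1 / (2 * r)) := by
    rw [integral_indicator hB, setIntegral_const, smul_eq_mul]
  rw [integral_add hi2 hi3, integral_const_mul, h6] at h3
  have h4 : r / 2 * ∫ t : Environment, (∑ e ∈ E, t e) ^ 2 ∂(iidLaw G) ≤
      r / 2 * ((E.card : ℝ) ^ 2 * ∫ z, z ^ 2 ∂G) := by gcongr
  have h5 : (iidLaw G).real B * (1 / (2 * r)) = (iidLaw G).real B / r / 2 := by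
    field_simp
  rw [h5] at h3
  linarith

lemma bxN_le (F : FlatData μ) {w : ℝ} (hw : 1 ≤ w) :
    (2 * (bxN F w (w ^ 5) : ℝ) + 1) ≤ (2 * GG F ^ 2 + 8 * GG F + 5) * w ^ 5 := by
  have hG := one_le_GG F
  have hw5 : w ≤ w ^ 5 := le_self_pow₀ hw (by norm_num)
  have hw5' : 1 ≤ w ^ 5 := hw.trans hw5
  have h1 : ((bxN F w (w ^ 5) : ℕ) : ℝ) ≤
      (|w ^ 5| + ‖F.al‖ + 1) * ‖F.a‖ + (|w| + 1) * ‖F.b‖ + 1 + 1 := by
    unfold bxN
    push_cast
    have := (Nat.ceil_lt_add_one (show 0 ≤ (|w ^ 5| + ‖F.al‖ + 1) * ‖F.a‖ + (|w| + 1) * ‖F.b‖ by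
      positivity)).le
    linarith
  rw [abs_of_nonneg (by positivity), abs_of_nonneg (by linarith)] at h1
  have h3 := norm_al_le F
  have h4 := norm_a_le F
  have h5 := norm_b_le F
  have h6 : (w ^ 5 + ‖F.al‖ + 1) * ‖F.a‖ ≤ (w ^ 5 + GG F + 1) * GG F := by gcongr
  have h7 : (w + 1) * ‖F.b‖ ≤ (w + 1) * GG F := by gcongr
  nlinarith [mul_le_mul_of_nonneg_left hw5' (by positivity : 0 ≤ GG F ^ 2),
    mul_le_mul_of_nonneg_left hw5' (by linarith : 0 ≤ GG F),
    mul_le_mul_of_nonneg_left hw5 (by linarith : 0 ≤ GG F)]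

lemma exists_decay (A : ℝ) : ∃ w3 : ℝ, ∀ w ≥ w3, A * w ^ 20 * Real.exp (-(w / 2)) ≤ 1 := by
  have h1 := (Real.tendsto_pow_mul_exp_neg_atTop_nhds_zero 20).comp
    (tendsto_id.atTop_div_const (show (0 : ℝ) < 2 by norm_num))
  have h2 := h1.const_mul (A * 2 ^ 20)
  rw [mul_zero] at h2
  have h3 := (h2.eventually_le_const (show (0 : ℝ) < 1 by norm_num))
  obtain ⟨w3, hw3⟩ := eventually_atTop.1 h3
  refine ⟨w3, fun w hw => ?_⟩
  have h4 := hw3 w hw
  simp only [Function.comp_apply, id] at h4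
  have e : A * w ^ 20 * Real.exp (-(w / 2)) =
      A * 2 ^ 20 * ((w / 2) ^ 20 * Real.exp (-(w / 2))) := by ring
  rw [e]
  exact h4

/-- the fallback term is at most `1` -/
lemma bad_le_one (h0 : G (Set.Iio 0) = 0) (h2 : Integrable (fun x : ℝ => x ^ 2) G) {A2 w : ℝ}
    (hw1 : 1 ≤ w) {N : ℕ} (hN : 2 * (N : ℝ) + 1 ≤ A2 * w ^ 5) {B : Set Environment}
    (hBm : MeasurableSet B)
    (hP : (iidLaw G).real B ≤ (2 * N + 1) ^ 2 * ((Real.exp lam + 1) * Real.exp (-w)))
    (hw3 : (4 * A2 ^ 4 * (∫ z, z ^ 2 ∂G) + A2 ^ 2 * (Real.exp lam + 1)) / 2 * w ^ 20 *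
      Real.exp (-(w / 2)) ≤ 1) :
    ∫ t, B.indicator (fun t : Environment => ∑ e ∈ ED (box N), t e) t ∂(iidLaw G) ≤ 1 := by
  have hbad := integral_bad (G := G) h0 h2 hBm (ED (box N)) (Real.exp_pos (-(w / 2)))
  set m2 : ℝ := ∫ z, z ^ 2 ∂G with hm2
  have hm2' : 0 ≤ m2 := integral_nonneg fun z => sq_nonneg z
  refine hbad.2.trans ?_
  have hcard : ((ED (box N)).card : ℝ) ≤ 2 * (A2 * w ^ 5) ^ 2 := by
    refine (card_EDbox N).trans ?_
    gcongr
  have hP2 : (iidLaw G).real B ≤ (A2 * w ^ 5) ^ 2 * ((Real.exp lam + 1) * Real.exp (-w)) := by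
    refine hP.trans ?_
    have : 0 < Real.exp lam := Real.exp_pos _
    gcongr
  have h3 : (iidLaw G).real B / Real.exp (-(w / 2)) ≤
      (A2 * w ^ 5) ^ 2 * (Real.exp lam + 1) * Real.exp (-(w / 2)) := by
    rw [div_le_iff₀ (Real.exp_pos _), mul_assoc _ (Real.exp (-(w / 2))), ← Real.exp_add]
    have e : -(w / 2) + -(w / 2) = -w := by ring
    rw [e]
    linarith
  have h4 : Real.exp (-(w / 2)) * (((ED (box N)).card : ℝ) ^ 2 * m2) ≤
      Real.exp (-(w / 2)) * ((2 * (A2 * w ^ 5) ^ 2) ^ 2 * m2) := by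
    have := Real.exp_pos (-(w / 2))
    gcongr
  have h5 : w ^ 10 ≤ w ^ 20 := pow_le_pow_right₀ hw1 (by norm_num)
  have h7 : (Real.exp (-(w / 2)) * ((2 * (A2 * w ^ 5) ^ 2) ^ 2 * m2) +
      (A2 * w ^ 5) ^ 2 * (Real.exp lam + 1) * Real.exp (-(w / 2))) / 2 ≤
      (4 * A2 ^ 4 * m2 + A2 ^ 2 * (Real.exp lam + 1)) / 2 * w ^ 20 * Real.exp (-(w / 2)) := by
    have e1 : (Real.exp (-(w / 2)) * ((2 * (A2 * w ^ 5) ^ 2) ^ 2 * m2) +
      (A2 * w ^ 5) ^ 2 * (Real.exp lam + 1) * Real.exp (-(w / 2))) / 2 =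
      (4 * A2 ^ 4 * m2 * w ^ 20 + A2 ^ 2 * (Real.exp lam + 1) * w ^ 10) / 2 *
        Real.exp (-(w / 2)) := by ring
    rw [e1]
    have h8 : 0 < Real.exp lam := Real.exp_pos _
    have h9 : A2 ^ 2 * (Real.exp lam + 1) * w ^ 10 ≤ A2 ^ 2 * (Real.exp lam + 1) * w ^ 20 := by
      gcongr
    have h10 := Real.exp_pos (-(w / 2))
    refine mul_le_mul_of_nonneg_right ?_ h10.le
    linarith
  linarith

/-- **Block bound.** -/
theorem blockBound (h0 : G (Set.Iio 0) = 0) (hz : G {0} = 0) (hlam : 0 < lam)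
    (hexp : Integrable (fun x => Real.exp (lam * x)) G) (F : FlatData μ) : BlockBound G F := by
  classical
  have h2 := integrable_sq h0 hlam hexp
  obtain ⟨L, C, w0, hL, hC, hw0, hS⟩ := start_conn F
  have hSP : StartProp F L C w0 := ⟨hL, hC, hw0, hS⟩
  obtain ⟨C1, w1, hC1, hw1, hB⟩ := band_conn F
  have hBP : BandProp F C1 w1 := ⟨hC1, hw1, hB⟩
  obtain ⟨c0, hc0, hBad⟩ := prob_Bad_le (G := G) h0 hz
  obtain ⟨K0, hK0, hprob⟩ := prob_BadE F h0 hlam hexp hC1.le hc0 hBad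
  have hG := one_le_GG F
  set m2 : ℝ := ∫ z, z ^ 2 ∂G with hm2
  set m1 : ℝ := ∫ z, z ∂G with hm1
  have hm1' : 0 ≤ m1 := integral_nonneg_of_ae (ae_nonneg h0)
  have hm2' : 0 ≤ m2 := integral_nonneg fun z => sq_nonneg z
  set A2 : ℝ := 2 * GG F ^ 2 + 8 * GG F + 5 with hA2
  have hA2' : 0 < A2 := by positivity
  obtain ⟨w3, hw3⟩ := exists_decay ((4 * A2 ^ 4 * m2 + A2 ^ 2 * (Real.exp lam + 1)) / 2)
  set AF : ℝ := 2 * (2 * ((4 * GG F * (C1 + GG F) + 3) * (4 * GG F + 3)) * m1) with hAF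
  set AD : ℝ := 2 * ((4 * GG F * (C + 2 * GG F) + 3) * (4 * GG F + 3)) * m1 with hAD
  refine ⟨C + 7 * GG F + GG F * K0,
    w0 + w1 + 5 * GG F + (C + 2 * L + 2 * GG F) + |w3| + 1, AF + 2 * AD + 2,
    by positivity, by
      have := abs_nonneg w3
      have : 0 < L := by linarith
      positivity, ?_⟩
  intro w hw
  have hL0 : 0 < L := by linarith
  have hw3a := abs_nonneg w3
  have hw3b := le_abs_self w3
  have hww0 : w0 ≤ w := by linarith
  have hww1 : w1 ≤ w := by linarith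
  have hww2 : 5 * GG F ≤ w := by linarith
  have hw1' : 1 ≤ w := by linarith
  have hww3 : w3 ≤ w := by linarith
  have hw5 : w ≤ w ^ 5 := le_self_pow₀ hw1' (by norm_num)
  have hn0 : C + 2 * L + 2 * GG F < w ^ 5 := by linarith
  set n0 : ℝ := w ^ 5 with hn0def
  set κ : ℝ := (C + 7 * GG F + GG F * K0) * w with hκdef
  set m : ℕ := ⌈K0 * w⌉₊ with hm
  have hmle : (m : ℝ) ≤ K0 * w + 1 := (Nat.ceil_lt_add_one (by positivity)).le
  have hmge : K0 * w ≤ m := Nat.le_ceil _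
  have hκ1 : C ≤ κ := by
    have : 0 ≤ GG F * K0 := by positivity
    nlinarith
  have hκ2 : 5 * GG F ≤ κ := by
    have : 0 ≤ GG F * K0 := by positivity
    nlinarith
  have hκ3 : GG F * m + GG F ≤ κ := by
    have h3 : GG F * m ≤ GG F * (K0 * w + 1) := by gcongr
    nlinarith
  set N : ℕ := bxN F w n0 with hN
  have hNle : 2 * (N : ℝ) + 1 ≤ A2 * w ^ 5 := bxN_le F hw1'
  set B : Set Environment := BadE F C1 w c0 m N with hBdef
  have hBm : MeasurableSet B := measurableSet_BadE F C1 w c0 m N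
  set S : Environment → ℝ := fun t => ∑ e ∈ ED (box N), t e with hSdef
  set T : (ℝ × ℝ) × Environment → Environment := fun p => act (tr (nr p.1)) p.2 with hT
  have hTmp : MeasurePreserving T (P0 G) (iidLaw G) := mp_act_tr measurable_nr
  -- the bad part
  have hbadi : Integrable (B.indicator S) (iidLaw G) :=
    (integrable_sum_edges (G := G) h2 (ED (box N))).indicator hBm
  have hbad1 : ∫ t, B.indicator S t ∂(iidLaw G) ≤ 1 :=
    bad_le_one h0 h2 hw1' hNle hBm (hprob w hw1' m N hmge) (hw3 w hww3)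
  -- the dominating function
  have d1 := DD_P0 (G := G) h2 h0 F (c := C + 2 * GG F) (w := w) (by linarith) hw1' measurable_nr 0
  have d2 := DD_P0 (G := G) h2 h0 F (c := C + 2 * GG F) (w := w) (by linarith) hw1' measurable_nr
    (zEnd F n0)
  have iL := integrable_LT h0 h2 F hww2 0 n0
  have iB : Integrable (fun p => B.indicator S (T p)) (P0 G) :=
    hTmp.integrable_comp_of_integrable hbadi
  have hdom : ∀ᵐ p ∂(P0 G), blkCost F w n0 κ (p.1 + toR (nr p.1)) (act (tr (nr p.1)) p.2) ≤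
      (LT F w 0 n0 p + 1) + (DD F (C + 2 * GG F) w 0 (act (tr (nr p.1)) p.2) +
        DD F (C + 2 * GG F) w (zEnd F n0) (act (tr (nr p.1)) p.2)) + B.indicator S (T p) := by
    filter_upwards [ae_P0_Nn' h0] with p hp
    have ht : Nn (act (tr (nr p.1)) p.2) := fun e => hp.1 _
    have hnr : nr (p.1 + toR (nr p.1)) = 0 := by rw [nr_add, sub_self]
    have hLT : pR (act (tr (nr p.1)) p.2) (laneB F.swap w (p.1 + toR (nr p.1))) 0
        (nxt F n0 (p.1 + toR (nr p.1))) = LT F w 0 n0 p := by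
      have h3 := Inv_LT F w 0 n0 (nr p.1) p.1 p.2
      simp only at h3
      rw [← h3]
      simp only [LT, zero_smul, sub_zero]
      rw [hnr]
      rfl
    by_cases hbp : T p ∈ B
    · rw [Set.indicator_of_mem hbp]
      have h3 := fallback F hSP ht hnr hww0 hww2 hn0 hκ1 hκ2
      have h4 := LT_nonneg F w 0 n0 hp.1
      simp only [hSdef, hT]
      linarith
    · rw [Set.indicator_of_notMem hbp]
      have hgood : ∀ z ∈ box (bxN F w n0), DD F C1 w z (act (tr (nr p.1)) p.2) + 1 < c0 * m ∧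
          act (tr (nr p.1)) p.2 ∉ Bad c0 m z := by
        intro z hz
        constructor
        · by_contra hcon
          rw [not_lt] at hcon
          exact hbp ⟨z, hz, Or.inl hcon⟩
        · intro hcon
          exact hbp ⟨z, hz, Or.inr hcon⟩
      have h3 := main_det F hSP hBP ht hnr hww0 hww1 hww2 hn0 hκ1 hκ3 hgood
      rw [hLT] at h3
      linarith
  have hnn : 0 ≤ᵐ[P0 G] fun p => blkCost F w n0 κ (p.1 + toR (nr p.1))
      (act (tr (nr p.1)) p.2) := by
    filter_upwards [ae_P0_Nn' h0] with p hp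
    exact blkCost_nonneg (fun e => hp.1 _) F w n0 κ _
  have iL1 : Integrable (fun p => LT F w 0 n0 p + 1) (P0 G) := iL.add (integrable_const 1)
  have iD : Integrable (fun p : (ℝ × ℝ) × Environment =>
      DD F (C + 2 * GG F) w 0 (act (tr (nr p.1)) p.2) +
        DD F (C + 2 * GG F) w (zEnd F n0) (act (tr (nr p.1)) p.2)) (P0 G) := d1.1.add d2.1
  have iLD : Integrable (fun p : (ℝ × ℝ) × Environment => (LT F w 0 n0 p + 1) +
      (DD F (C + 2 * GG F) w 0 (act (tr (nr p.1)) p.2) +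
        DD F (C + 2 * GG F) w (zEnd F n0) (act (tr (nr p.1)) p.2))) (P0 G) := iL1.add iD
  have key := integral_mono_of_nonneg hnn (iLD.add iB) hdom
  refine key.trans ?_
  simp only [Pi.add_apply]
  rw [integral_add iLD iB, integral_add iL1 iD, integral_add iL (integrable_const 1),
    integral_add d1.1 d2.1]
  have hT1 : ∫ p, B.indicator S (T p) ∂(P0 G) = ∫ t, B.indicator S t ∂(iidLaw G) :=
    mp_integral hTmp hbadi.aestronglyMeasurable
  rw [hT1]
  have hconst : ∫ _ : (ℝ × ℝ) × Environment, (1 : ℝ) ∂(P0 G) = 1 := by simp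
  rw [hconst]
  have hr := fL_le_rate h0 h2 F hBP hww2 hww1 (show 0 < n0 by linarith)
  have hrdef : ∫ p, LT F w 0 n0 p ∂(P0 G) = fL G F w n0 := rfl
  rw [hrdef]
  have e1 := d1.2
  have e2 := d2.2
  have hAFw : 2 * (2 * ((4 * GG F * (C1 + GG F) + 3) * (4 * GG F + 3)) * m1 * w) = AF * w := by
    rw [hAF]; ring
  have hADw : 2 * ((4 * GG F * (C + 2 * GG F) + 3) * (4 * GG F + 3)) * m1 * w = AD * w := by
    rw [hAD]
  rw [← hm1, hAFw] at hr
  rw [← hm1, hADw] at e1 e2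
  nlinarith

end Crest.Agent.R151.U450
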