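import Crest.Agent.R151.Q6d
import Crest.Agent.R151.U450g
import Crest.Agent.R151.C710m

/-!
# R151 / Q7 — the highways exist (owner helper777)

`highways` : `HighwaysExist G F` for every law with an exponential moment and no atom at `0`
(777's `highwaysExist` + 450's `blockBound`); `highways_gamma` the Gamma case.
-/

set_option autoImplicit false

open MeasureTheory Filter ProbabilityTheory Topology
open Crest.ProbabilityR.FirstPassage
open Crest.Agent.R151.K

namespace Crest.Agent.R151.Q

open B710 (FlatData)

variable {μ : ℝ × ℝ → ℝ} {lam : ℝ}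

theorem highways {G : Measure ℝ} [IsProbabilityMeasure G] (h0 : G (Set.Iio 0) = 0)
    (hz : G {0} = 0) (hlam : 0 < lam) (hexp : Integrable (fun x => Real.exp (lam * x)) G)
    (hμ : IsTC G μ) (F : FlatData μ) : HighwaysExist G F :=
  highwaysExist h0 (integrable_sq h0 hlam hexp) hμ F (U450.blockBound h0 hz hlam hexp F)

theorem highways_gamma {κ r : ℝ} (hκ : 0 < κ) (hr : 0 < r)
    (hμ : IsTC (gammaMeasure κ r) μ) (F : FlatData μ) : HighwaysExist (gammaMeasure κ r) F := by
  have hγ := isProbabilityMeasure_gammaMeasure hκ hr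
  exact highways (gamma_Iio κ r) (gamma_zero κ r) (half_pos hr) (gamma_exp hκ hr) hμ F

end Crest.Agent.R151.Q
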