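import Crest.Agent.R151.NF2
import Crest.Agent.R151.NF3
import Crest.Agent.R151.Q7
import Crest.Agent.R151.E685S
import Crest.Agent.R151.M192g
import Crest.Agent.R151.M56c

/-!
# R151 / S0214 part 2, NF5 — side conditions for every configuration, NOFLAT from the five remaining
inputs `select, law, dich, strat, paths` (helper710)
-/

set_option autoImplicit false

open MeasureTheory Filter ProbabilityTheory Topology Set
open Crest.ProbabilityR.FirstPassage
open Crest.Agent.R151.K Crest.Agent.R151.Q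

namespace Crest.Agent.R151.NF

open B710 (FlatData)

variable {μ : ℝ × ℝ → ℝ}

/-- routes exist in every row of height `y > wH + 2 mg` -/
lemma routable_of {F : FlatData μ} {h : Hwy F} {y : ℝ} (hy : h.wH + 2 * M56.mg F < y) :
    M192.Routable h (y • F.b) (M56.mg F + 1) := by
  intro I σ₁ σ₂ θ t φ i j hI hi hj
  have hal : F.al (y • F.b) = 0 := by rw [map_smul, F.al_b, smul_zero]
  have h1 := M56.row_nonempty (h := h) (d := y • F.b) (s := σ₁ - (M56.mg F + 1))
    (s' := σ₂ + (M56.mg F + 1) + h.κ) (σ₁ := σ₁) (σ₂ := σ₂) (I := I)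
    (by rw [M192.be_smul_b]; exact hy) (by linarith) (by rw [hal]; linarith)
    (subset_trans (Icc_subset_Icc (by linarith) (by linarith)) hI) θ t φ
  exact h1.mono (R78.routes_mono subset_rfl hi hj)

/-- **the side conditions hold for every configuration** -/
theorem ev_soft5 {G : Measure ℝ} {F : FlatData μ} {w0 c0 K : ℝ} :
    Ev fun p => ∀ c : Cf G F w0 c0 K p, c.Soft (M56.mg F + 1) := by
  have a1 := ev_std (G := G) (F := F) (w0 := w0) (c0 := c0) (K := K)
  have a2 := le_w (2 * M56.mg F + 2 * cF F + 2)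
  have a3 := strip_le_gap fun _ _ _ _ _ _ => 2 + |K|
  have a4 := le_L fun _ _ v _ => v + 1
  have a5 := le_δ fun _ => 32
  have a6 := gap_le fun _ _ _ _ _ => 32
  refine (((((a1.and a2).and a3).and a4).and a5).and a6).mono ?_
  rintro p ⟨⟨⟨⟨⟨a1, a2⟩, a3⟩, a4⟩, a5⟩, a6⟩ c
  have hc := a1 c
  have hp := hc.toStd
  have hmg := M56.one_le_mg F
  have hcF := cF_nonneg F
  have hW : 0 < p.W := zero_lt_one.trans_le hp.W
  have hD : 0 < p.δ0 * p.W := mul_pos hp.δ0_pos hW
  have hκ := c.κ_le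
  have hκ0 := c.h.κ_nonneg
  have hK : K * (p.δ0 * p.W) ≤ |K| * (p.δ0 * p.W) :=
    mul_le_mul_of_nonneg_right (le_abs_self _) hD.le
  have hKn : 0 ≤ |K| * (p.δ0 * p.W) := by positivity
  have hwH := c.wH
  have hg := c.g_eq
  have hyA := c.yA_eq
  have hy := hc.y_pos
  have hgp := hc.g_pos
  have hwy : c.h.wH + 2 * M56.mg F < c.yA := by
    rw [hyA, hwH, hg]
    linarith
  refine ⟨⟨hW, hc.l_pos, by linarith, by linarith, routable_of hwy, ?_, ?_, hp.v, hp.δ_pos.le,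
    by linarith, ?_⟩, ?_⟩
  · show M56.mg F + 1 + c.h.κ ≤ (K + 1) * (p.δ0 * p.W)
    linarith
  · rw [c.L_eq]; exact a4
  · linarith
  · rw [hwH, hg]
    linarith

/-- OUTPUTS of the five remaining blocks, for a typical set `typ` -/
structure Inputs5 (G : Measure ℝ) (F : FlatData μ) (w0 c0 K : ℝ)
    (typ : ∀ {p : Num}, Cf G F w0 c0 K p → Set (M192.Row (ℝ × ℝ))) : Prop where
  /-- helper792 -/
  select : Select G F w0 c0 K
  /-- helper338, 52, 191, 684, 192 -/
  law : ∃ C0 : ℝ, 0 < C0 ∧ Ev fun p => ∀ c : Cf G F w0 c0 K p,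
    (c.rowA (typ c)).Law (nuR G) c.mB C0 p.n p.δ p.v p.e
  /-- helper354 -/
  dich : ∃ C0 : ℝ, 0 < C0 ∧ Ev fun p => ∀ c : Cf G F w0 c0 K p,
    (c.rowA (typ c)).Cheap (nuR G) C0 p.δ ∨ (c.rowA (typ c)).Costly (nuR G) C0 p.δ p.v p.e
  /-- helper69, 684, 685, 617 -/
  strat : ∃ C0 : ℝ, Ev fun p => ∀ c : Cf G F w0 c0 K p,
    Nonempty (E191.Strategy (c.rowA (typ c)) (nuR G) c.mB C0 p.n p.δ p.e)
  /-- helper192, 821 -/
  paths : ∃ C0 : ℝ, Ev fun p => ∀ c : Cf G F w0 c0 K p,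
    Nonempty (E191.Paths (c.rows (typ c)) c.PSt C0 0.97 p.δ p.v p.e)

theorem Inputs5.inputs {G : Measure ℝ} [IsProbabilityMeasure G] {F : FlatData μ} {w0 c0 K : ℝ}
    {typ : ∀ {p : Num}, Cf G F w0 c0 K p → Set (M192.Row (ℝ × ℝ))}
    (H : Inputs5 G F w0 c0 K typ) : Inputs G F w0 c0 K typ where
  select := H.select
  law := H.law
  dich := H.dich
  strat := H.strat
  paths := H.paths
  model := fun _ => ev_soft5.mono fun _ hs c hL hd hS hP => Cf.model_of (hs c) hL hd hS hP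

/-- **NOFLAT from the five remaining inputs** -/
theorem noFlat_of
    (hin : ∀ {μ : ℝ × ℝ → ℝ}, IsTC (gammaMeasure 1 1) μ → ∀ (F : FlatData μ) (w0 c0 K : ℝ),
      0 < c0 → 0 < K → ∃ typ : ∀ {p : Num}, Cf (gammaMeasure 1 1) F w0 c0 K p →
        Set (M192.Row (ℝ × ℝ)), Inputs5 (gammaMeasure 1 1) F w0 c0 K typ)
    (μ : ℝ × ℝ → ℝ) (hμ : B710.IsTimeConstant 1 1 μ) (hn : B710.NormLike μ)
    (F : FlatData μ) : False := by
  have : IsProbabilityMeasure (gammaMeasure 1 1) :=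
    isProbabilityMeasure_gammaMeasure one_pos one_pos
  refine noFlat_of_inputs E191.endgame (fun hμ F => highways_gamma one_pos one_pos hμ F) ?_ μ hμ
    hn F
  intro μ hμ F w0 c0 K hc0 hK
  obtain ⟨typ, H⟩ := hin hμ F w0 c0 K hc0 hK
  exact ⟨typ, H.inputs⟩

end Crest.Agent.R151.NF
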