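import Crest.Agent.R151.U750m3
import Crest.Agent.R151.M56f

/-!
# R151 (S0214 part 2): (M2), (M3), unconditional (helper750)

R4 (56's `fence_mean'`) is plugged in.
-/

set_option autoImplicit false
set_option linter.unusedSectionVars false

open MeasureTheory Filter ProbabilityTheory Topology Set
open Crest.ProbabilityR.FirstPassage

namespace Crest.Agent.R151.MN750

open Crest.Agent.R151.K Crest.Agent.R151.Q
open M56 (nu mg one_le_mg)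
open M192 (RowS PR)
open B710 (FlatData)

variable {μ : ℝ × ℝ → ℝ} {F : FlatData μ} {h : Hwy F} {G : Measure ℝ} [IsProbabilityMeasure G]
  {ε : ℝ} (h0 : G (Set.Iio 0) = 0) (h2 : Integrable (fun x : ℝ => x ^ 2) G)
  (hM : HwyMean G h ε) (hμ : IsTC G μ)
include h0 h2 hM hμ

/-- R4 -/
theorem fenceMean : FenceMean G h ε := by
  intro d s s2 α β y2 hd hy hs hs2 hw
  have hmg := one_le_mg F
  have := M56.fence_mean' hM h0 h2 hd measurableSet_Icc hs hs2 (Set.Subset.refl _) hw hμ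
    (y2 := y2) (by linarith)
  refine this.trans (le_of_eq ?_)
  ring

variable {y g c α β L : ℝ}

/-- **(M2), lower gap** -/
theorem obLo_mean' {s s₁ : ℝ} (hg : h.wH + 2 * mg F + cF F < g) (hs : s ≤ α)
    (hs₁ : β + h.κ + cF F < s₁ + c) (hαβ : 2 * mg F ≤ β - α) (hsL : -L ≤ s) (hs₁L : s₁ ≤ L) :
    Integrable (fun q : RowS × ((ℝ × ℝ) × (ℝ × ℝ)) =>
      obLo h g c α β L s s₁ q.1.1.1 q.1.1.2 q.1.2 q.2) ((PR G).prod PF) ∧
    ∫ q, |obLo h g c α β L s s₁ q.1.1.1 q.1.1.2 q.1.2 q.2| ∂((PR G).prod PF) ≤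
      2 * g * rate G F (β - α) + (2 * L + (β - α) + h.κ + 1 + |c| + cF F) * ε := by
  obtain ⟨a, b, e⟩ := obLo_mean h0 h2 hM hμ (fenceMean h0 h2 hM hμ) hg hs hs₁ hαβ hsL hs₁L
  exact ⟨b, (integral_abs_of_ae a).le.trans e⟩

/-- **(M2), upper gap** -/
theorem obUp_mean' {s₂ s' : ℝ} (hg : h.wH + 2 * mg F + cF F < g) (hs : s₂ + c + cF F ≤ α)
    (hs' : β + h.κ < s') (hαβ : 2 * mg F ≤ β - α) (hsL : -L ≤ s₂) (hs'L : s' ≤ L) :
    Integrable (fun q : RowS × ((ℝ × ℝ) × (ℝ × ℝ)) =>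
      obUp h y g c α β L s₂ s' q.1.1.1 q.1.1.2 q.1.2 q.2) ((PR G).prod PF) ∧
    ∫ q, |obUp h y g c α β L s₂ s' q.1.1.1 q.1.1.2 q.1.2 q.2| ∂((PR G).prod PF) ≤
      2 * g * rate G F (β - α) + (2 * L + (β - α) + h.κ + 1 + |c| + cF F) * ε := by
  obtain ⟨a, b, e⟩ := obUp_mean (y := y) h0 h2 hM hμ (fenceMean h0 h2 hM hμ) hg hs hs' hαβ
    hsL hs'L
  exact ⟨b, (integral_abs_of_ae a).le.trans e⟩

/-- **(M3)** -/
theorem obJ_mean' {Λ : ℝ} (hg : h.wH + 2 * mg F < g) (hy : 0 ≤ y) (hg0 : 0 ≤ g)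
    (hΛ : mg F ≤ Λ) (hL : Λ + h.κ < L) :
    Integrable (fun q : RowS × ((ℝ × ℝ) × (ℝ × ℝ)) =>
      obJ h y g Λ L q.1.1.1 q.1.1.2 q.1.2 q.2) ((PR G).prod PF) ∧
    ∫ q, |obJ h y g Λ L q.1.1.1 q.1.1.2 q.1.2 q.2| ∂((PR G).prod PF) ≤
      (y + 4 * g) * rate G F (2 * Λ) + (2 * L + 2 * Λ + h.κ + 1) * ε := by
  obtain ⟨a, b, e⟩ := obJ_mean h0 h2 hM hμ (fenceMean h0 h2 hM hμ) hg hy hg0 hΛ hL
  exact ⟨b, (integral_abs_of_ae a).le.trans e⟩

/-- mean of the window gauge of the outer row (the term in 450's `obK_mean`) -/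
theorem window_mean {Λ : ℝ} (hg : h.wH + 2 * mg F < g) (hy : 0 ≤ y) (hg0 : 0 ≤ g)
    (hΛ : mg F ≤ Λ) (hL : Λ + h.κ < L) :
    ∫ q, h.hkY (dOv F y g) (Jw Λ) (-L) L q.1.1 q.1.2 q.2 ∂(PR G) ≤
      (y + 4 * g) * rate G F (2 * Λ) + (2 * L + 2 * Λ + h.κ + 1) * ε := by
  have hκ := h.κ_nonneg
  have hmg := one_le_mg F
  have hbe : F.be (dOv F y g) = y + 2 * g := be_dOv y g
  have hal : F.al (dOv F y g) = 0 := al_dOv y g
  have hd : h.wH + 2 * mg F < F.be (dOv F y g) := by rw [hbe]; linarith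
  have e : Λ - -Λ = 2 * Λ := by ring
  have := fenceMean h0 h2 hM hμ (dOv F y g) (-L) L (-Λ) Λ (y + 4 * g) hd
    (by rw [hbe]; linarith) (by linarith) (by rw [hal]; linarith) (by linarith)
  refine this.trans (le_of_eq ?_)
  rw [e, hal]
  ring

end Crest.Agent.R151.MN750
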