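import Crest.Agent.R151.V22
import Crest.Agent.R151.V23
import Crest.Agent.R151.NF5
import Crest.Agent.R151.G338o
import Crest.Agent.R151.U750m4
import Crest.Agent.R151.Q8c

/-!
# R151/V24 — fields `F_int` of `c.rowA T` (all `T`), fences: data of the upper bound, inner medians,
means of the errors (helper52)
-/

set_option autoImplicit false
set_option linter.unusedSectionVars false

open MeasureTheory ProbabilityTheory Set Filter Topology
open scoped ENNReal
open Crest.ProbabilityR.FirstPassage

namespace Crest.Agent.R151.V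

open Crest.Agent.R151.K
open Q (pos Hwy HwyMean P0 UU UU2 phi rg Inv rate cF cF_nonneg dOv offv Geo UpData obI obLo obUp obJ
  sko ski Jw PF Rt)
open M192 (Row RowS PR mIL mB skp ae_skp RowOK)
open M56 (mg one_le_mg nu)
open B710 (FlatData)
open NF

variable {μ : ℝ × ℝ → ℝ} {F : FlatData μ} {h : Hwy F}

/-! ### `F_int` -/

/-- the fences of the row instance are integrable -/
theorem rowA_F_int {G : Measure ℝ} [IsProbabilityMeasure G] {ε : ℝ} (hM : HwyMean G h ε)
    (h0 : G (Set.Iio 0) = 0) (h2 : Integrable (fun x : ℝ => x ^ 2) G) {W L y l c δ v : ℝ}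
    (hO : RowOK h W L y l c δ v (mg F + 1)) (hy : h.wH + 2 * mg F < y)
    (T : Set (Row (ℝ × ℝ))) (w x : ℝ) :
    Integrable ((M192.rowA h W L y l c δ T).F w x) (nuR G) := by
  by_cases hw : 4 * c ≤ w * W ∧ w ≤ 1
  · have e1 : (M192.rowA h W L y l c δ T).F w x =
        skp h y l L (Icc (x * W + c) ((x + w) * W - c)) (x * W + c) ((x + w) * W - c) := by
      funext q; exact if_pos hw
    rw [e1]
    have hκ := h.κ_nonneg
    have hc := hO.c_ge
    have hmg := one_le_mg F
    have e : (x + w) * W = x * W + w * W := by ring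
    have hal : F.al (y • F.b) = 0 := by rw [map_smul, F.al_b, smul_zero]
    have i1 := sk_integrable (G := G) (h := h) hM h0 h2 (d := y • F.b)
      (by rw [M192.be_smul_b]; exact hy)
      (I := Icc (x * W + c) ((x + w) * W - c)) measurableSet_Icc
      (s := x * W + c) (s' := (x + w) * W - c) (σ₁ := x * W + c + mg F) (σ₂ := x * W + c + mg F)
      le_rfl (by rw [hal, e]; linarith [hw.1]) (by
        rw [min_self, max_self]
        refine Icc_subset_Icc (by linarith) ?_
        rw [e]; linarith [hw.1]) L
    refine (i1.div_const l).congr ?_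
    filter_upwards [ae_skp h0 h y l L (Icc (x * W + c) ((x + w) * W - c)) (x * W + c)
      ((x + w) * W - c)] with q hq
    exact hq.symm
  · have e1 : (M192.rowA h W L y l c δ T).F w x = fun _ => 0 := by
      funext q; exact if_neg hw
    rw [e1]
    exact integrable_zero _ _ _

section ev

variable {G : Measure ℝ} {w0 c0 K : ℝ}

/-- height conditions of the rows -/
theorem ev_height : Ev fun p => ∀ c : Cf G F w0 c0 K p,
    c.h.wH + 2 * mg F + cF F < c.g ∧ c.h.wH + 2 * mg F < c.y / 2 := by
  have a1 := ev_std (G := G) (F := F) (w0 := w0) (c0 := c0) (K := K)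
  have a2 := le_w (2 * mg F + cF F + 1)
  have a3 := strip_le_gap fun _ _ _ _ _ _ => 3
  refine ((a1.and a2).and a3).mono ?_
  rintro p ⟨⟨a1, a2⟩, a3⟩ c
  have hc := a1 c
  have hp := hc.toStd
  have hg := c.g_eq
  have hwH := c.wH
  have hmg := one_le_mg F
  have hcF := cF_nonneg F
  have hgy := hc.g_le
  constructor
  · rw [hwH, hg]; linarith
  · rw [hwH]; linarith

/-- **field `F_int`**, every typical set, all widths and positions -/
theorem ev_F_int [IsProbabilityMeasure G] (h0 : G (Set.Iio 0) = 0)
    (h2 : Integrable (fun x : ℝ => x ^ 2) G) : Ev fun p => ∀ c : Cf G F w0 c0 K p,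
    ∀ (T : Set (Row (ℝ × ℝ))) (w x : ℝ), Integrable ((c.rowA T).F w x) (nuR G) := by
  have a1 := ev_soft5 (G := G) (F := F) (w0 := w0) (c0 := c0) (K := K)
  have a2 := ev_height (G := G) (F := F) (w0 := w0) (c0 := c0) (K := K)
  have a3 := ev_std (G := G) (F := F) (w0 := w0) (c0 := c0) (K := K)
  refine ((a1.and a2).and a3).mono ?_
  rintro p ⟨⟨a1, a2⟩, a3⟩ c T w x
  refine rowA_F_int c.mean h0 h2 (a1 c).1 ?_ T w x
  have := (a2 c).2
  have := (a3 c).half
  linarith

end ev

end Crest.Agent.R151.V
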