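import Crest.Agent.R151.CL684f
import Crest.Agent.R151.E191F
import Crest.Agent.R151.V24
import Crest.Agent.R151.R78Q

/-!
# R151 / S0214 part 2, CL684g — assembly of the field `law` (owner helper684)

`ev_law_of` : `E191.law_of_cond` with the conditional inputs `ev_hsm`, `ev_htl` (684), `window`,
`lane` (78), `F_int` (52); open: typical strips `GT`/`TOK`, `T_prob`, `F_ui`.
Positions up to `v + 1 / e`.
-/

set_option autoImplicit false
set_option maxHeartbeats 400000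

open MeasureTheory ProbabilityTheory Filter Set
open scoped ENNReal
open Crest.ProbabilityR.FirstPassage

namespace Crest.Agent.R151.CL

open Crest.Agent.R151.K
open B710 (FlatData)
open Q (Hwy P0 UU UU2)
open NF
open M192 (RowS PR)

variable {μ : ℝ × ℝ → ℝ} {F : FlatData μ} {w0 c0 K : ℝ}

/-- **assembly of the law** -/
theorem ev_law_of {r₀ : ℝ} (hr : 0 < r₀) [IsProbabilityMeasure (gammaMeasure 1 r₀)]
    (h0 : gammaMeasure 1 r₀ (Set.Iio 0) = 0)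
    (h2 : Integrable (fun x : ℝ => x ^ 2) (gammaMeasure 1 r₀)) (hμ : IsTC (gammaMeasure 1 r₀) μ)
    (hn : B710.NormLike μ) (hc0 : 0 < c0) (hK : 0 ≤ K) :
    Ev fun p => ∀ (c : Cf (gammaMeasure 1 r₀) F w0 c0 K p) (S T : Set RowS)
      (ρ : RowS → ℝ) (R : ℝ) (N : ℕ), GT c S ρ (p.e ^ 2) (p.δ / 16) (p.δ / 128) R N →
      p.v + 1 / p.e + 2 ≤ R → E191.TOK c.h (c.yA • F.b) S ρ →
      T = E191.trow c.h (c.yA • F.b) c.L S ρ (p.e ^ 2 * c.l) →
      (nuR (gammaMeasure 1 r₀)).real Tᶜ ≤ p.e →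
      (∀ x : ℝ, |x| ≤ p.v + 1 / p.e → ∫ ω in Tᶜ, (c.rowA T).F (1 / (4 * p.n)) x ω
        ∂(nuR (gammaMeasure 1 r₀)) ≤ p.e) →
      (c.rowA T).Law (nuR (gammaMeasure 1 r₀)) c.mB (E191.CF 1100) p.n p.δ (p.v + 1 / p.e) p.e := by
  have a1 := ev_hsm (F := F) (w0 := w0) (c0 := c0) (K := K) hr h0 hn
  have a2 := ev_htl (F := F) (w0 := w0) (c0 := c0) (K := K) hr h0 h2 hμ hc0
  have a3 := R78.ev_slack (gammaMeasure 1 r₀) F w0 c0 hK fun _ _ v e => v + 1 / e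
  have a4 := R78.ev_planar (gammaMeasure 1 r₀) F w0 c0 hK fun _ _ v e => v + 1 / e
  have a5 := V.ev_F_int (F := F) (w0 := w0) (c0 := c0) (K := K) h0 h2
  have a6 := le_e fun n _ _ => 250 * (n : ℝ) ^ 5 + 2000
  refine (((a1.and a2).and (a3.and a4)).and ((a5.and a6).and Ev.std)).mono ?_
  rintro p ⟨⟨⟨a1, a2⟩, a3, a4⟩, ⟨a5, a6⟩, hp⟩ c S T ρ R N gt hR hT hTT T_prob F_ui
  have he0 := hp.e_pos
  have he1 := hp.e_le
  have hv := hp.v
  have hie : 0 < 1 / p.e := by positivity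
  have hn0 : 0 ≤ (p.n : ℝ) ^ 5 := by positivity
  have hne : 0 ≤ (p.n : ℝ) ^ 5 * p.e := by positivity
  obtain ⟨hs, -, hO⟩ := a3 c
  obtain ⟨w1, w2⟩ := a4 c T
  have b1 : 250 * p.e ^ 2 * (p.n : ℝ) ^ 5 ≤ 1 := by
    have : 250 * p.e ^ 2 * (p.n : ℝ) ^ 5 = 250 * ((p.n : ℝ) ^ 5 * p.e) * p.e := by ring
    rw [this]
    have h5 : 250 * ((p.n : ℝ) ^ 5 * p.e) ≤ 1 := by linarith
    nlinarith
  have b2 : 1100 * p.e ^ 2 + 250 * p.e ^ 2 ≤ p.e := by
    have h5 : 2000 * p.e ≤ 1 := by linarith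
    nlinarith
  exact E191.law_of_cond (n := p.n) h0 (hO (by linarith)) hs.small hp.n hT
    (A := p.e ^ 2) (C1 := 1100) (e1 := 250 * p.e ^ 2) (e := p.e) (T := T) (by positivity)
    (by nlinarith) (by norm_num) (by positivity) b1 b2 hTT T_prob
    (fun x hx _ => ae_of_all _ fun q hq y' hy' => a1 c S ρ R N gt (by linarith) x hx q hq y' hy')
    (fun w x hw hx => ae_of_all _ fun q hq y' hy' => a2 c S ρ R N gt hR w x hw hx q hq y' hy')
    (fun x _ => a5 c T _ x) F_ui (fun q _ s t x m hs ht htx hxs => w1 q s t x m hs ht htx hxs)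
    (fun q _ x hx1 hx2 => w2 q x hx1 hx2)

end Crest.Agent.R151.CL
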