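import Crest.Agent.R151.G338p
import Crest.Agent.R151.NF7
import Crest.Agent.R151.E191F

/-!
# R151 / S0214 part 2, E191G — THE typical set of the A-rows (owner helper191)

* grid `p.gr i = i * (δ / 128 * W)`, `|i| ≤ p.Mg`; width of the gap fences `p.zf = δ / 16 * W`;
* `c.ob k` : the observables (deviation, gauge - ρ, window, gauge difference, lower and upper gap
  fences `fLo`, `fUp` of G338p), `c.thr k` : thresholds `e ^ 2 * W` (deviation), `e ^ 2 * l` (others);
* `c.TSA` : strips with all conditional failure probabilities `≤ e ^ 2`;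
* `c.typA = c.TSA ∩ {|gauge - ρ| ≤ e ^ 2 * l}`.
-/

set_option autoImplicit false
set_option linter.unusedSectionVars false

open MeasureTheory Filter ProbabilityTheory Topology Set
open Crest.ProbabilityR.FirstPassage
open Crest.Agent.R151.K Crest.Agent.R151.Q

namespace Crest.Agent.R151.NF

open B710 (FlatData)
open M56 (mg one_le_mg)

variable {μ : ℝ × ℝ → ℝ} {G : Measure ℝ} {F : FlatData μ} {w0 c0 K : ℝ} {p : Num}

/-- grid points: multiples of `δ / 128 * W` -/
noncomputable def Num.gr (p : Num) (i : ℤ) : ℝ := i * (p.δ / 128 * p.W)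

/-- width of the gap fences -/
noncomputable def Num.zf (p : Num) : ℝ := p.δ / 16 * p.W

/-- size of the grid -/
noncomputable def Num.Mg (p : Num) : ℤ := ⌈(p.v + 1 / p.e + 4) / (p.δ / 128)⌉

/-- index set of the failure events -/
noncomputable def Num.idx (p : Num) : Finset (Fin 6 × (ℤ × ℤ)) :=
  Finset.univ ×ˢ (Finset.Icc (-p.Mg) p.Mg ×ˢ Finset.Icc (-p.Mg) p.Mg)

namespace Cf

/-- the observables of the typical set -/
noncomputable def ob (c : Cf G F w0 c0 K p) (k : Fin 6 × (ℤ × ℤ)) : Ob :=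
  match k.1 with
  | 0 => obD F (c.y / 2) c.g (p.Nb F)
  | 1 => obG c.h (c.y / 2) c.g c.L (c.rho (c.yA • F.b))
  | 2 => obJ c.h (c.y / 2) c.g c.lam c.L
  | 3 => obK c.h (c.y / 2) c.g (p.gr k.2.1) c.lam c.L
  | 4 => fLo c c.g (p.gr k.2.1) (p.gr k.2.2) p.zf
  | 5 => fUp c (c.y / 2) c.g (p.gr k.2.1) (p.gr k.2.2) p.zf

/-- the thresholds of the typical set -/
noncomputable def thr (c : Cf G F w0 c0 K p) (k : Fin 6 × (ℤ × ℤ)) : ℝ :=
  match k.1 with
  | 0 => p.e ^ 2 * p.W
  | _ => p.e ^ 2 * c.l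

/-- typical strips of the A-rows -/
def TSA (c : Cf G F w0 c0 K p) : Set (M192.Row (ℝ × ℝ)) :=
  V.TSet c.h (c.yA • F.b) G PF (fun k => NS (c.ob k) (c.thr k)) (p.e ^ 2) p.idx

/-- **typical A-rows** -/
def typA (c : Cf G F w0 c0 K p) : Set (M192.Row (ℝ × ℝ)) :=
  c.TSA ∩ {q | |V.hkR c.h (c.yA • F.b) univ (-c.L) c.L q - c.rho (c.yA • F.b) q| ≤ p.e ^ 2 * c.l}

end Cf

end Crest.Agent.R151.NF
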