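import Crest.Agent.R151.V25
import Crest.Agent.R151.NF6

/-!
# R151/V26 — field `F_ui` of `c.rowA T`, `T = A ∩ {|hull - ρ| ≤ a l}` (helper52)
-/

set_option autoImplicit false
set_option linter.unusedSectionVars false

open MeasureTheory ProbabilityTheory Set Filter Topology
open scoped ENNReal
open Crest.ProbabilityR.FirstPassage

namespace Crest.Agent.R151.V

open Crest.Agent.R151.K
open Q (pos Hwy HwyMean P0 UU UU2 phi rg Inv rate cF cF_nonneg dOv offv Geo UpData obI obLo obUp obJ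
  sko ski Jw PF Rt)
open M192 (Row RowS PR mIL mB skp ae_skp RowOK)
open M56 (mg one_le_mg nu)
open B710 (FlatData)
open NF

variable {μ : ℝ × ℝ → ℝ} {F : FlatData μ} {G : Measure ℝ} {w0 c0 K : ℝ}

/-- `8 / t ^ 3 ≤ 8 N ^ 3` -/
lemma eight_div_le {t N : ℝ} (ht : 0 < t) (hN : 1 ≤ N * t) : 8 / t ^ 3 ≤ 8 * N ^ 3 := by
  rw [div_le_iff₀ (by positivity)]
  have h1 : (1 : ℝ) ≤ (N * t) ^ 3 := one_le_pow₀ hN
  calc (8 : ℝ) ≤ 8 * (N * t) ^ 3 := by linarith
    _ = 8 * N ^ 3 * t ^ 3 := by ring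

/-- `A * (error mean) ≤ l` -/
theorem ev_err (hc0 : 0 < c0) (A : ℕ → ℝ → ℝ → ℝ → ℝ) (hA : ∀ n δ v e, 0 ≤ A n δ v e) :
    Ev fun p => ∀ c : Cf G F w0 c0 K p, ∀ D : ℝ, p.W ≤ 8 * p.n * D → D ≤ p.W →
      A p.n p.δ p.v p.e * (4 * c.g * rate G F (D / 8) +
        (c.y / 2 + 4 * c.g) * rate G F (2 * (p.v' * p.W)) + 30 * c.L * c.ε) ≤ c.l := by
  have a1 := ev_std (G := G) (F := F) (w0 := w0) (c0 := c0) (K := K)
  have a2 := le_w w0
  have a3 := le_δ0 fun n _ _ _ _ _ => 64 * n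
  have a4 := le_J fun n δ v e _ δ' _ => 3 * A n δ v e * (64 * (64 * n) ^ 3 * δ')
  have a5 := rpow_v' (fun n δ v e => 6 * A n δ v e) 0.03 (by norm_num)
  have a6 := highway_small (G := G) (F := F) (w0 := w0) (K := K) hc0
    (fun n δ v e v' _ _ => 3 * A n δ v e * (60 * v'))
  refine (((((a1.and a2).and a3).and a4).and a5).and a6).mono ?_
  rintro p ⟨⟨⟨⟨⟨a1, a2⟩, a3⟩, a4⟩, a5⟩, a6⟩ c D hD1 hD2
  have hc := a1 c
  have hp := hc.toStd
  have hW : 0 < p.W := zero_lt_one.trans_le hp.W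
  have hn : (1 : ℝ) ≤ p.n := by exact_mod_cast hp.n
  have hJ : 0 < p.J := zero_lt_one.trans_le hp.J
  have hD0 : 0 < D := by
    by_contra hneg
    push Not at hneg
    nlinarith
  have ha0 : 0 ≤ A p.n p.δ p.v p.e := hA _ _ _ _
  set a := A p.n p.δ p.v p.e with ha
  have hl := hc.l_pos
  have hrt := c.rt_pos
  -- lower gap
  set t := D / (8 * p.W) with ht
  have ht0 : 0 < t := by positivity
  have ht1 : t ≤ 1 := by rw [ht, div_le_one (by positivity)]; linarith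
  have htW : t * p.W = D / 8 := by rw [ht]; field_simp
  have htn : 1 ≤ 64 * p.n * t := by
    rw [ht, ← mul_div_assoc, le_div_iff₀ (by positivity)]
    linarith
  have h0 : w0 ≤ t * p.W := by
    rw [htW]
    have : p.δ0 * p.W * (64 * p.n) ≤ p.W := by nlinarith
    have h3 : p.δ0 * p.W * (64 * p.n) ≤ D / 8 * (64 * p.n) := by linarith
    exact a2.trans (le_of_mul_le_mul_right h3 (by positivity))
  have r1 := rate_near' c hp ht0 ht1 h0
  rw [htW] at r1
  have r2 := eight_div_le ht0 htn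
  have hWrt : p.W * c.rt ≤ 2 * c.l / p.J := by
    rw [le_div_iff₀ hJ]
    linarith [hc.l_ge]
  have e1 : 3 * a * (4 * c.g * rate G F (D / 8)) ≤ c.l := by
    have h3 : 4 * c.g * rate G F (D / 8) ≤ 64 * (64 * p.n) ^ 3 * p.δ' / p.J * c.l := by
      calc 4 * c.g * rate G F (D / 8) ≤ 4 * c.g * (8 / t ^ 3 * c.rt) :=
            mul_le_mul_of_nonneg_left r1 (by linarith [hc.g_pos])
        _ ≤ 4 * c.g * (8 * (64 * p.n) ^ 3 * c.rt) := by
            refine mul_le_mul_of_nonneg_left ?_ (by linarith [hc.g_pos])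
            exact mul_le_mul_of_nonneg_right r2 hrt.le
        _ = 32 * (64 * p.n) ^ 3 * p.δ' * (p.W * c.rt) := by rw [c.g_eq]; ring
        _ ≤ 32 * (64 * p.n) ^ 3 * p.δ' * (2 * c.l / p.J) := by
            refine mul_le_mul_of_nonneg_left hWrt ?_
            have := hp.δ'_pos
            positivity
        _ = _ := by ring
    calc 3 * a * (4 * c.g * rate G F (D / 8))
        ≤ 3 * a * (64 * (64 * p.n) ^ 3 * p.δ' / p.J * c.l) :=
          mul_le_mul_of_nonneg_left h3 (by linarith)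
      _ = (3 * a * (64 * (64 * p.n) ^ 3 * p.δ')) / p.J * c.l := by ring
      _ ≤ 1 * c.l := by
          refine mul_le_mul_of_nonneg_right ?_ hl.le
          rw [div_le_one hJ]; exact a4
      _ = c.l := one_mul _
  -- far lane
  have e2 : 3 * a * ((c.y / 2 + 4 * c.g) * rate G F (2 * (p.v' * p.W))) ≤ c.l := by
    have h3 : 2 * (p.v' * p.W) = (2 * p.v') * p.W := by ring
    have h4 := P_rate_far c hc (t := 2 * p.v') (by linarith [hp.v'])
    have h5 : (2 * p.v') ^ (-0.03 : ℝ) ≤ p.v' ^ (-0.03 : ℝ) :=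
      Real.rpow_le_rpow_of_nonpos (by linarith [hp.v']) (by linarith [hp.v']) (by norm_num)
    rw [← c.P_eq, h3]
    calc 3 * a * (c.P * rate G F (2 * p.v' * p.W))
        ≤ 3 * a * (2 * (2 * p.v') ^ (-0.03 : ℝ) * c.l) :=
          mul_le_mul_of_nonneg_left h4 (by linarith)
      _ ≤ 3 * a * (2 * p.v' ^ (-0.03 : ℝ) * c.l) := by
          refine mul_le_mul_of_nonneg_left ?_ (by linarith)
          exact mul_le_mul_of_nonneg_right (mul_le_mul_of_nonneg_left h5 (by norm_num)) hl.le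
      _ = (6 * a * p.v' ^ (-0.03 : ℝ)) * c.l := by ring
      _ ≤ 1 * c.l := mul_le_mul_of_nonneg_right a5 hl.le
      _ = c.l := one_mul _
  have e3 : 3 * a * (30 * c.L * c.ε) ≤ c.l := by
    have h3 : 3 * a * (30 * c.L * c.ε) = 3 * a * (60 * p.v') * (p.W * c.ε) := by
      rw [c.L_eq]; ring
    rw [h3]
    exact a6 c
  have h4 : a * (4 * c.g * rate G F (D / 8) +
      (c.y / 2 + 4 * c.g) * rate G F (2 * (p.v' * p.W)) + 30 * c.L * c.ε) =
      (3 * a * (4 * c.g * rate G F (D / 8)) +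
        3 * a * ((c.y / 2 + 4 * c.g) * rate G F (2 * (p.v' * p.W))) +
        3 * a * (30 * c.L * c.ε)) / 3 := by ring
  linarith

/-- median of the inner fences of the `F_ui` construction -/
theorem ev_med (hc0 : 0 < c0) :
    Ev fun p => ∀ c : Cf G F w0 c0 K p, ∀ D : ℝ, p.W ≤ 8 * p.n * D → D ≤ p.W →
      (c.y / 2 + 4 * c.g) * rate G F (D / 4) + 4 * c.L * c.ε ≤ 2 ^ 19 * p.n ^ 3 * c.l := by
  have a1 := ev_std (G := G) (F := F) (w0 := w0) (c0 := c0) (K := K)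
  have a2 := le_w w0
  have a3 := le_δ0 fun n _ _ _ _ _ => 64 * n
  have a6 := highway_small (G := G) (F := F) (w0 := w0) (K := K) hc0
    (fun _ _ _ _ v' _ _ => 8 * v')
  refine (((a1.and a2).and a3).and a6).mono ?_
  rintro p ⟨⟨⟨a1, a2⟩, a3⟩, a6⟩ c D hD1 hD2
  have hc := a1 c
  have hp := hc.toStd
  have hW : 0 < p.W := zero_lt_one.trans_le hp.W
  have hn : (1 : ℝ) ≤ p.n := by exact_mod_cast hp.n
  have hD0 : 0 < D := by
    by_contra hneg
    push Not at hneg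
    nlinarith
  have hl := hc.l_pos
  set t := D / (4 * p.W) with ht
  have ht0 : 0 < t := by positivity
  have ht1 : t ≤ 1 := by rw [ht, div_le_one (by positivity)]; linarith
  have htW : t * p.W = D / 4 := by rw [ht]; field_simp
  have htn : 1 ≤ 32 * p.n * t := by
    rw [ht, ← mul_div_assoc, le_div_iff₀ (by positivity)]
    linarith
  have h0 : w0 ≤ t * p.W := by
    rw [htW]
    have : p.δ0 * p.W * (64 * p.n) ≤ p.W := by nlinarith
    have h3 : p.δ0 * p.W * (64 * p.n) ≤ D / 4 * (64 * p.n) := by nlinarith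
    exact a2.trans (le_of_mul_le_mul_right h3 (by positivity))
  have r1 := P_rate_near c hc ht0 ht1 h0
  rw [htW] at r1
  have r2 := eight_div_le ht0 htn
  have h1 : 4 * c.L * c.ε ≤ c.l := by
    have := a6 c
    rw [c.L_eq]
    linarith
  have h3 : c.l ≤ 2 ^ 18 * p.n ^ 3 * c.l := by
    have : (1 : ℝ) ≤ 2 ^ 18 * p.n ^ 3 := by
      have := one_le_pow₀ hn (n := 3)
      linarith
    nlinarith
  have h4 := mul_le_mul_of_nonneg_right r2 hl.le
  rw [← c.P_eq]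
  calc c.P * rate G F (D / 4) + 4 * c.L * c.ε ≤ 8 * (32 * p.n) ^ 3 * c.l + c.l := by linarith
    _ ≤ 8 * (32 * p.n) ^ 3 * c.l + 2 ^ 18 * p.n ^ 3 * c.l := by linarith
    _ = _ := by ring

/-- sizes of the fences of width `1 / (4 n)` -/
theorem ev_FD : Ev fun p => ∀ c : Cf G F w0 c0 K p, ∀ x : ℝ, |x| ≤ p.v + 1 / p.e →
    FD c.h (c.y / 2) c.g (p.v' * p.W) c.L (x * p.W + c.sl) (1 / (4 * p.n) * p.W - 2 * c.sl) ∧
    p.W ≤ 8 * p.n * (1 / (4 * p.n) * p.W - 2 * c.sl) ∧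
    1 / (4 * p.n) * p.W - 2 * c.sl ≤ p.W ∧
    4 * c.sl ≤ 1 / (4 * p.n) * p.W ∧ 1 / (4 * (p.n : ℝ)) ≤ 1 := by
  have a1 := ev_std (G := G) (F := F) (w0 := w0) (c0 := c0) (K := K)
  have a2 := ev_height (G := G) (F := F) (w0 := w0) (c0 := c0) (K := K)
  have a3 := ev_soft5 (G := G) (F := F) (w0 := w0) (c0 := c0) (K := K)
  have a4 := le_w (mg F + cF F)
  have a5 := le_δ0 fun n _ _ _ _ _ => 128 * n * (|K| + 2)
  have a6 := le_v' fun _ _ v e => v + 1 / e + 8
  refine (((((a1.and a2).and a3).and a4).and a5).and a6).mono ?_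
  rintro p ⟨⟨⟨⟨⟨a1, a2⟩, a3⟩, a4⟩, a5⟩, a6⟩ c x hx
  have hc := a1 c
  have hp := hc.toStd
  have hW : 0 < p.W := zero_lt_one.trans_le hp.W
  have hn : (1 : ℝ) ≤ p.n := by exact_mod_cast hp.n
  have hκ := c.κ_le
  have hκ0 := c.h.κ_nonneg
  have hcge := (a3 c).1.c_ge
  have hmg := one_le_mg F
  have hcF := cF_nonneg F
  have hwW : 0 < p.δ0 * p.W := mul_pos hp.δ0_pos hW
  have hK : K * (p.δ0 * p.W) ≤ |K| * (p.δ0 * p.W) :=
    mul_le_mul_of_nonneg_right (le_abs_self _) hwW.le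
  have hsl : c.sl = (K + 1) * (p.δ0 * p.W) := rfl
  have hsl' : c.sl ≤ (|K| + 1) * (p.δ0 * p.W) := by rw [hsl]; linarith
  have hsl0 : 0 ≤ c.sl := by linarith
  -- the small quantity
  set q := (|K| + 2) * (p.δ0 * p.W) with hq
  have hqn : 128 * p.n * q ≤ p.W := by
    have := mul_le_mul_of_nonneg_right a5 hW.le
    rw [hq]
    linarith
  have hq0 : 0 ≤ q := by positivity
  have hslq : c.sl ≤ q := by rw [hq]; linarith
  have hκq : c.h.κ + mg F + cF F ≤ 2 * q := by rw [hq]; linarith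
  have hqW : q ≤ p.W / 128 := by
    rw [le_div_iff₀ (by norm_num)]
    nlinarith
  have hwn : 1 / (4 * p.n) * p.W = p.W / (4 * p.n) := by ring
  have hqw : 32 * q ≤ p.W / (4 * p.n) := by
    rw [le_div_iff₀ (by positivity)]
    linarith
  have hw1 : p.W / (4 * p.n) ≤ p.W / 4 := by
    apply div_le_div_of_nonneg_left hW.le (by norm_num); linarith
  have hxW : |x * p.W| ≤ (p.v + 1 / p.e) * p.W := by
    rw [abs_mul, abs_of_pos hW]
    exact mul_le_mul_of_nonneg_right hx hW.le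
  have hs : |x * p.W + c.sl| ≤ (p.v + 1 / p.e) * p.W + c.sl :=
    (abs_add_le _ _).trans (add_le_add hxW (abs_of_nonneg hsl0).le)
  have hvW := mul_le_mul_of_nonneg_right a6 hW.le
  rw [hwn]
  refine ⟨⟨(a2 c).2, (a2 c).1, ?_, ?_, ?_, ?_⟩, ?_, ?_, ?_, ?_⟩
  · have := hp.v'
    nlinarith
  · linarith
  · rw [c.L_eq]; linarith
  · rw [c.L_eq]; linarith
  · have h3 : p.W ≤ 8 * p.n * (p.W / (4 * p.n)) - p.W := by
      have : 8 * p.n * (p.W / (4 * p.n)) = 2 * p.W := by field_simp; norm_num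
      linarith
    have h4 : 16 * p.n * c.sl ≤ p.W := by
      have : 16 * p.n * c.sl ≤ 16 * p.n * q := by gcongr
      linarith
    nlinarith
  · linarith
  · linarith
  · rw [div_le_one (by positivity)]; linarith

lemma mul_exp_le {M e : ℝ} (hM : 0 < M) (he : 0 < e) :
    M * Real.exp (-(16 * M ^ 2 / e / M)) ≤ e / 16 := by
  have h1 : 16 * M ^ 2 / e / M = 16 * M / e := by field_simp
  rw [h1, Real.exp_neg]
  have h2 : 16 * M / e ≤ Real.exp (16 * M / e) := by linarith [Real.add_one_le_exp (16 * M / e)]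
  have h3 : 0 < 16 * M / e := by positivity
  calc M * (Real.exp (16 * M / e))⁻¹ ≤ M * (16 * M / e)⁻¹ := by gcongr
    _ = e / 16 := by field_simp

/-- **field `F_ui`**: `A` any measurable set of the strips with `P Aᶜ ≤ e / (2 ^ 24 n ^ 3)`, any
threshold `a l` for `|hull - ρ|`, positions up to `v + 1 / e` -/
theorem ev_F_ui {r : ℝ} (hr : 0 < r) [IsProbabilityMeasure (gammaMeasure 1 r)]
    (h0 : (gammaMeasure 1 r) (Iio 0) = 0)
    (h2 : Integrable (fun x : ℝ => x ^ 2) (gammaMeasure 1 r))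
    (hμ : IsTC (gammaMeasure 1 r) μ) (hc0 : 0 < c0)
    (a : ℕ → ℝ → ℝ → ℝ → ℝ) (ha : ∀ n δ v e, 0 < e → 0 < a n δ v e) :
    Ev fun p => ∀ c : Cf (gammaMeasure 1 r) F w0 c0 K p, ∀ ρ : RowS → ℝ,
      c.IsRho (c.yA • F.b) ρ → ∀ A : Set RowS, MeasurableSet A →
      SInv (E0 c.h (c.yA • F.b)) A →
      2 ^ 24 * p.n ^ 3 * (nuR (gammaMeasure 1 r)).real Aᶜ ≤ p.e →
      ∀ (T : Set RowS) (x : ℝ), |x| ≤ p.v + 1 / p.e →
      IntegrableOn ((c.rowA T).F (1 / (4 * p.n)) x) (A ∩ {q | |hkR c.h (c.yA • F.b) univ (-c.L)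
        c.L q - ρ q| ≤ a p.n p.δ p.v p.e * c.l})ᶜ (nuR (gammaMeasure 1 r)) ∧
      ∫ q in (A ∩ {q | |hkR c.h (c.yA • F.b) univ (-c.L) c.L q - ρ q| ≤
        a p.n p.δ p.v p.e * c.l})ᶜ, (c.rowA T).F (1 / (4 * p.n)) x q
        ∂(nuR (gammaMeasure 1 r)) ≤ p.e := by
  have a1 := ev_std (G := gammaMeasure 1 r) (F := F) (w0 := w0) (c0 := c0) (K := K)
  have a2 := ev_FD (G := gammaMeasure 1 r) (F := F) (w0 := w0) (c0 := c0) (K := K)
  have a3 := ev_med (G := gammaMeasure 1 r) (F := F) (w0 := w0) (K := K) hc0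
  have a4 := ev_err (G := gammaMeasure 1 r) (F := F) (w0 := w0) (K := K) hc0
    (fun _ _ _ e => |16 * 480 / e|) (fun _ _ _ _ => abs_nonneg _)
  have a5 := Bf_small (G := gammaMeasure 1 r) (F := F) (w0 := w0) (K := K) hc0
    (fun _ _ _ e => 16 * 3369 / e)
  have a6 := Bf_small (G := gammaMeasure 1 r) (F := F) (w0 := w0) (K := K) hc0
    (fun n δ v e => 48 * (16 * (48 * (2 ^ 19 * (n : ℝ) ^ 3)) ^ 2 / e) / (a n δ v e * e))
  refine (((((a1.and a2).and a3).and a4).and a5).and a6).mono ?_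
  rintro p ⟨⟨⟨⟨⟨a1, a2⟩, a3⟩, a4⟩, a5⟩, a6⟩ c ρ hρ A hA hS hPA T x hx
  have hc := a1 c
  have hp := hc.toStd
  have he := hp.e_pos
  have he1 := hp.e_le
  have hn : (1 : ℝ) ≤ p.n := by exact_mod_cast hp.n
  have hn3 : (1 : ℝ) ≤ (p.n : ℝ) ^ 3 := one_le_pow₀ hn
  have hl := hc.l_pos
  have haa : 0 < a p.n p.δ p.v p.e := ha _ _ _ _ he
  obtain ⟨hFD, hD1, hD2, hsl4, hw1⟩ := a2 c x hx
  have hmed := a3 c _ hD1 hD2
  have herr := a4 c _ hD1 hD2
  have hB1 := a5 c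
  have hB2 := a6 c
  set s := x * p.W + c.sl with hs
  set D := 1 / (4 * p.n) * p.W - 2 * c.sl with hD
  set m : ℝ := 2 ^ 19 * p.n ^ 3 * c.l with hm
  have hm0 : 0 < m := by positivity
  set M : ℝ := 48 * (2 ^ 19 * (p.n : ℝ) ^ 3) with hM
  have hM0 : 0 < M := by positivity
  have hMm : 48 * m = M * c.l := by rw [hm, hM]; ring
  set β : ℝ := 16 * M ^ 2 / p.e with hβ
  have hβ0 : 0 < β := by positivity
  have hMβ : M ≤ β := by
    rw [hβ, le_div_iff₀ he]
    have h1 : M * p.e ≤ M * 1 := mul_le_mul_of_nonneg_left he1 hM0.le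
    have h2 : (1 : ℝ) ≤ M := by rw [hM]; linarith
    nlinarith
  have hd : 0 < a p.n p.δ p.v p.e * c.l := mul_pos haa hl
  obtain ⟨k1, k2⟩ := hFD.ui hr h0 h2 c.mean hμ (m := m) hmed hm0 hρ.meas hρ.glue hρ.int hA hS
    (d := a p.n p.δ p.v p.e * c.l) (b := β * c.l) hd (by
      have : 48 * m ≤ β * c.l := by rw [hMm]; exact mul_le_mul_of_nonneg_right hMβ hl.le
      linarith)
  obtain ⟨iE, mE⟩ := hFD.err_mean h0 h2 c.mean hμ
  have e0 : dOv F (c.y / 2) c.g = c.yA • F.b := rfl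
  rw [e0] at k1 k2
  set Tc : Set RowS := (A ∩ {q | |hkR c.h (c.yA • F.b) univ (-c.L) c.L q - ρ q| ≤
        a p.n p.δ p.v p.e * c.l})ᶜ with hTc
  have eF : ∀ᵐ q ∂(nuR (gammaMeasure 1 r)), (c.rowA T).F (1 / (4 * p.n)) x q =
      sko c.h (c.y / 2) c.g (Icc s (s + D)) c.L s (s + D) q / c.l := by
    filter_upwards [ae_skp h0 c.h c.yA c.l c.L (Icc s (s + D)) s (s + D)] with q hq
    have h1 : (c.rowA T).F (1 / (4 * p.n)) x q = skp c.h c.yA c.l c.L
        (Icc (x * p.W + c.sl) ((x + 1 / (4 * p.n)) * p.W - c.sl)) (x * p.W + c.sl)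
        ((x + 1 / (4 * p.n)) * p.W - c.sl) q := if_pos ⟨hsl4, hw1⟩
    have h3 : (x + 1 / (4 * p.n)) * p.W - c.sl = s + D := by rw [hs, hD]; ring
    rw [h1, h3, ← hs, hq]
    rfl
  have mD := hρ.mean
  set I1 := ∫ q, |hkR c.h (c.yA • F.b) univ (-c.L) c.L q - ρ q| ∂(nuR (gammaMeasure 1 r))
    with hI1
  have hI1' : ∫ q, |hkR c.h (c.yA • F.b) univ (-c.L) c.L q - ρ q| ∂(PR (gammaMeasure 1 r)) =
    I1 := rfl
  rw [hI1'] at k2
  set I2 := ∫ w, |errF c.h (c.y / 2) c.g (p.v' * p.W) c.L s D w|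
    ∂((PR (gammaMeasure 1 r)).prod PF) with hI2
  refine ⟨?_, ?_⟩
  · have h3 : IntegrableOn (fun q => sko c.h (c.y / 2) c.g (Icc s (s + D)) c.L s (s + D) q / c.l)
      Tc (nuR (gammaMeasure 1 r)) := k1.div_const _
    exact h3.congr ((ae_restrict_of_ae eF).mono fun q hq => hq.symm)
  · have h3 : ∫ q in Tc, (c.rowA T).F (1 / (4 * p.n)) x q ∂(nuR (gammaMeasure 1 r)) =
        (∫ q in Tc, sko c.h (c.y / 2) c.g (Icc s (s + D)) c.L s (s + D) q
          ∂(nuR (gammaMeasure 1 r))) / c.l := by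
      rw [integral_congr_ae (ae_restrict_of_ae eF), integral_div]
    rw [h3, div_le_iff₀ hl]
    refine le_trans k2 ?_
    -- the five terms
    have t1 : 1123 * I1 ≤ p.e / 16 * c.l := by
      have h4 : 1123 * I1 ≤ 3369 * c.Bf := by linarith
      have h5 : 3369 * c.Bf = p.e / 16 * (16 * 3369 / p.e * c.Bf) := by field_simp
      rw [h5] at h4
      exact h4.trans (mul_le_mul_of_nonneg_left hB1 (by positivity))
    have t2 : 480 * I2 ≤ p.e / 16 * c.l := by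
      rw [abs_of_pos (by positivity)] at herr
      have h4 : 480 * I2 = p.e / 16 * (16 * 480 / p.e * I2) := by field_simp
      rw [h4]
      refine mul_le_mul_of_nonneg_left ?_ (by positivity)
      exact (mul_le_mul_of_nonneg_left mE (by positivity)).trans herr
    have t3 : 20 * m * (PR (gammaMeasure 1 r)).real Aᶜ ≤ 5 / 8 * p.e * c.l := by
      have h4 : (PR (gammaMeasure 1 r)).real Aᶜ = (nuR (gammaMeasure 1 r)).real Aᶜ := rfl
      rw [h4]
      have h5 : 20 * m * (nuR (gammaMeasure 1 r)).real Aᶜ =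
        5 / 8 * (2 ^ 24 * p.n ^ 3 * (nuR (gammaMeasure 1 r)).real Aᶜ) * c.l := by
        rw [hm]; ring
      rw [h5]
      refine mul_le_mul_of_nonneg_right ?_ hl.le
      linarith
    have t4 : β * c.l * I1 / (a p.n p.δ p.v p.e * c.l) ≤ p.e / 16 * c.l := by
      have h4 : β * c.l * I1 / (a p.n p.δ p.v p.e * c.l) ≤
          β * c.l * (3 * c.Bf) / (a p.n p.δ p.v p.e * c.l) := by
        gcongr
      have h5 : β * c.l * (3 * c.Bf) / (a p.n p.δ p.v p.e * c.l) =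
          p.e / 16 * (48 * β / (a p.n p.δ p.v p.e * p.e) * c.Bf) := by
        field_simp
        ring
      rw [h5] at h4
      exact h4.trans (mul_le_mul_of_nonneg_left hB2 (by positivity))
    have t5 : 48 * m * Real.exp (-(β * c.l / (48 * m))) ≤ p.e / 16 * c.l := by
      rw [hMm]
      have h4 : β * c.l / (M * c.l) = 16 * M ^ 2 / p.e / M := by
        rw [hβ]; field_simp
      rw [h4]
      have := mul_le_mul_of_nonneg_right (mul_exp_le hM0 he) hl.le
      linarith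
    have hfin : p.e / 16 * c.l + p.e / 16 * c.l + 5 / 8 * p.e * c.l + p.e / 16 * c.l +
        p.e / 16 * c.l ≤ p.e * c.l := by
      have : 0 ≤ p.e * c.l := by positivity
      linarith
    linarith

end Crest.Agent.R151.V
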