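import Crest.Agent.R151.CL684g
import Crest.Agent.R151.E191G
import Crest.Agent.R151.V26

/-!
# R151 / S0214 part 2, CL684h — the field `law` at `typA`, from `T_prob` (owner helper684)

`gt_TSA` : `GT` for the typical strips `c.TSA`; `tok_TSA` : `E191.TOK`;
`law_typA` : the law of the A-rows at positions `v + 1 / e`.
-/

set_option autoImplicit false
set_option maxHeartbeats 400000

open MeasureTheory ProbabilityTheory Filter Set
open scoped ENNReal
open Crest.ProbabilityR.FirstPassage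

namespace Crest.Agent.R151.CL

open Crest.Agent.R151.K
open B710 (FlatData)
open Q (Hwy P0 UU UU2 PF NS Ob Inv dOv)
open NF
open M192 (RowS PR)
open V (E0 posS typ)

variable {μ : ℝ × ℝ → ℝ} {G : Measure ℝ} {F : FlatData μ} {w0 c0 K : ℝ} {p : NF.Num}

/-- the observables are measurable -/
lemma ob_meas (c : Cf G F w0 c0 K p) (hρ : Measurable (c.rho (c.yA • F.b)))
    (k : Fin 6 × (ℤ × ℤ)) : (c.ob k).Meas := by
  obtain ⟨i, j⟩ := k
  fin_cases i
  · exact Q.meas_obD _ _ _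
  · exact Q.meas_obG _ _ _ _ hρ
  · exact Q.meas_obJ _ _ _ _ _
  · exact Q.meas_obK _ _ _ _ _ _
  · exact meas_fLo _ _ _ _ _
  · exact meas_fUp _ _ _ _ _ _

/-- the observables are invariant -/
lemma ob_inv (c : Cf G F w0 c0 K p) (hρ : ∀ φ, Inv fun θ t => c.rho (c.yA • F.b) ((θ, t), φ))
    (k : Fin 6 × (ℤ × ℤ)) : (c.ob k).Iv := by
  obtain ⟨i, j⟩ := k
  fin_cases i
  · exact Q.inv_obD _ _ _
  · exact Q.inv_obG _ _ _ _ hρ
  · exact Q.inv_obJ _ _ _ _ _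
  · exact Q.inv_obK _ _ _ _ _ _
  · exact inv_fLo _ _ _ _ _
  · exact inv_fUp _ _ _ _ _ _

lemma gr_zero : p.gr 0 = 0 := by simp [Num.gr]

/-- rounding to the grid -/
lemma exists_gr (hp : p.Std) {r : ℝ} (hr : |r| ≤ (p.v + 1 / p.e + 3) * p.W) :
    ∃ i ∈ Finset.Icc (-p.Mg) p.Mg, r ≤ p.gr i ∧ p.gr i ≤ r + p.δ / 128 * p.W := by
  have hW : 0 < p.W := zero_lt_one.trans_le hp.W
  have hδ := hp.δ_pos
  have hδ1 := hp.δ_le
  have hu : 0 < p.δ / 128 * p.W := by positivity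
  have hr' := abs_le.1 hr
  have hM : (p.v + 1 / p.e + 4) / (p.δ / 128) ≤ (p.Mg : ℝ) := Int.le_ceil _
  have h0 : 0 < p.δ / 128 := by positivity
  rw [div_le_iff₀ h0] at hM
  have hMW := mul_le_mul_of_nonneg_right hM hW.le
  refine ⟨⌈r / (p.δ / 128 * p.W)⌉, Finset.mem_Icc.2 ⟨?_, ?_⟩, ?_, ?_⟩
  · rw [← Int.cast_le (R := ℝ)]
    refine le_trans ?_ (Int.le_ceil _)
    push_cast
    rw [le_div_iff₀ hu]
    nlinarith
  · rw [Int.ceil_le, div_le_iff₀ hu]
    nlinarith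
  · unfold Num.gr
    have := Int.le_ceil (r / (p.δ / 128 * p.W))
    rwa [div_le_iff₀ hu] at this
  · unfold Num.gr
    have := (Int.ceil_lt_add_one (r / (p.δ / 128 * p.W))).le
    have h3 := mul_le_mul_of_nonneg_right this hu.le
    have h4 : (r / (p.δ / 128 * p.W) + 1) * (p.δ / 128 * p.W) = r + p.δ / 128 * p.W := by
      field_simp
    linarith

section facts

variable [IsProbabilityMeasure G] {c : Cf G F w0 c0 K p}

lemma TSA_sub {k : Fin 6 × (ℤ × ℤ)} (hk : k ∈ p.idx) :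
    c.TSA ⊆ typ G (E0 c.h (c.yA • F.b)) PF (NS (c.ob k) (c.thr k)) (p.e ^ 2) :=
  V.TSet_subset_typ c.h (c.yA • F.b) hk

lemma zero_mem_Icc (hp : p.Std) : (0 : ℤ) ∈ Finset.Icc (-p.Mg) p.Mg := by
  have hδ := hp.δ_pos
  have he := hp.e_pos
  have hv := hp.v
  have h1 : (0 : ℝ) ≤ (p.Mg : ℝ) := by
    refine le_trans ?_ (Int.le_ceil _)
    positivity
  have h2 : (0 : ℤ) ≤ p.Mg := by exact_mod_cast h1
  exact Finset.mem_Icc.2 ⟨by omega, h2⟩

lemma mem_idx {k : Fin 6} {i j : ℤ} (hi : i ∈ Finset.Icc (-p.Mg) p.Mg)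
    (hj : j ∈ Finset.Icc (-p.Mg) p.Mg) : (k, (i, j)) ∈ p.idx := by
  unfold Num.idx
  simp only [Finset.mem_product, Finset.mem_univ, true_and]
  exact ⟨hi, hj⟩

/-- **`GT` for the typical strips** -/
theorem gt_TSA (hl : c.Len) (hρ : c.IsRho (c.yA • F.b) (c.rho (c.yA • F.b))) :
    GT c c.TSA (c.rho (c.yA • F.b)) (p.e ^ 2) (p.δ / 16) (p.δ / 128) (p.v + 1 / p.e + 3)
      (p.Nb F) := by
  have hp : p.Std := hl.toStd
  have hW : 0 < p.W := zero_lt_one.trans_le hp.W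
  have h0 := zero_mem_Icc hp
  exact
    { meas := V.measurableSet_TSet c.h (c.yA • F.b)
        fun k _ => Q.measurableSet_NS (ob_meas c hρ.meas k) _
      sinv := V.sInv_TSet c.h (c.yA • F.b)
      pos := V.TSet_subset_posS c.h (c.yA • F.b)
      ρm := hρ.meas
      ρS := hρ.glue
      N_ge := by
        refine le_trans ?_ (Nat.le_ceil _)
        have hL : c.L = 2 * (p.v' * p.W) := hl.lam_eq
        have h1 := norm_nonneg F.a
        have h2 : 0 ≤ p.W * ‖F.a‖ := mul_nonneg hW.le h1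
        have h3 : 2 * c.L * ‖F.a‖ = 4 * p.v' * ‖F.a‖ * p.W := by rw [hL]; ring
        have h4 : ((4 * p.v' + 1) * ‖F.a‖ + ‖F.b‖ + 1) * p.W + 1 =
          4 * p.v' * ‖F.a‖ * p.W + p.W * ‖F.a‖ + p.W * ‖F.b‖ + p.W + 1 := by ring
        linarith
      tD := TSA_sub (k := (0, (0, 0))) (mem_idx h0 h0)
      tG := TSA_sub (k := (1, (0, 0))) (mem_idx h0 h0)
      tJ := TSA_sub (k := (2, (0, 0))) (mem_idx h0 h0)
      tK := fun r hr => by
        obtain ⟨i, hi, h1, h2⟩ := exists_gr hp hr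
        exact ⟨p.gr i, h1, h2, TSA_sub (k := (3, (i, 0))) (mem_idx hi h0)⟩
      tLo := fun r hr => by
        obtain ⟨i, hi, h1, h2⟩ := exists_gr hp hr
        refine ⟨p.gr i, h1, h2, ?_⟩
        have h3 := TSA_sub (c := c) (k := (4, (0, i))) (mem_idx h0 hi)
        have h4 : c.ob (4, (0, i)) = fLo c c.g 0 (p.gr i) (p.δ / 16 * p.W) := by
          show fLo c c.g (p.gr 0) (p.gr i) p.zf = _
          rw [gr_zero]
          rfl
        rw [h4] at h3
        exact h3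
      tUp := fun r hr => by
        obtain ⟨i, hi, h1, h2⟩ := exists_gr hp hr
        refine ⟨p.gr i, h1, h2, ?_⟩
        have h3 := TSA_sub (c := c) (k := (5, (0, i))) (mem_idx h0 hi)
        have h4 : c.ob (5, (0, i)) = fUp c (c.y / 2) c.g 0 (p.gr i) (p.δ / 16 * p.W) := by
          show fUp c (c.y / 2) c.g (p.gr 0) (p.gr i) p.zf = _
          rw [gr_zero]
          rfl
        rw [h4] at h3
        exact h3 }

/-- **`TOK` for the typical strips** -/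
theorem tok_TSA (hl : c.Len) (hρ : c.IsRho (c.yA • F.b) (c.rho (c.yA • F.b))) :
    E191.TOK c.h (c.yA • F.b) c.TSA (c.rho (c.yA • F.b)) where
  TS_meas := (gt_TSA hl hρ).meas
  TS_mB := by
    have hrow := hl.row (Cf.htA (c := c) hl.toC)
    have h1 : c.h.wH < F.be (c.yA • F.b) := by
      have := hrow.1
      have e1 : F.be (dOv F (c.y / 2) c.g) = F.be (c.yA • F.b) := rfl
      have hmg := M56.one_le_mg F
      linarith
    exact V.measurableSet_TSet_mB c.h (c.yA • F.b) h1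
      (fun k _ => Q.measurableSet_NS (ob_meas c hρ.meas k) _)
      (fun k _ ω φ => Q.inv_NS (ob_inv c hρ.inv k) _ ω φ)
  TS_sinv := (gt_TSA hl hρ).sinv
  ρ_meas := hρ.meas
  ρ_cs := hρ.glue
  ρ_inv := hρ.inv

end facts

/-- **the law of the A-rows at positions `v + 1 / e`**, from the probability of the typical set -/
theorem law_typA {r₀ : ℝ} (hr : 0 < r₀) [IsProbabilityMeasure (gammaMeasure 1 r₀)]
    (h0 : gammaMeasure 1 r₀ (Set.Iio 0) = 0)
    (h2 : Integrable (fun x : ℝ => x ^ 2) (gammaMeasure 1 r₀)) (hμ : IsTC (gammaMeasure 1 r₀) μ)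
    (hn : B710.NormLike μ) (hc0 : 0 < c0) (hK : 0 ≤ K)
    (T_prob : ∀ B : ℕ → ℝ → ℝ → ℝ → ℝ, Ev fun p => ∀ c : Cf (gammaMeasure 1 r₀) F w0 c0 K p,
      B p.n p.δ p.v p.e * (nuR (gammaMeasure 1 r₀)).real (c.TSA)ᶜ ≤ 1 ∧
      B p.n p.δ p.v p.e * (nuR (gammaMeasure 1 r₀)).real (c.typA)ᶜ ≤ 1) :
    Ev fun p => ∀ c : Cf (gammaMeasure 1 r₀) F w0 c0 K p,
      (c.rowA c.typA).Law (nuR (gammaMeasure 1 r₀)) c.mB (E191.CF 1100) p.n p.δ
        (p.v + 1 / p.e) p.e := by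
  have a1 := ev_law_of (F := F) (w0 := w0) (c0 := c0) (K := K) hr h0 h2 hμ hn hc0 hK
  have a2 := T_prob fun n _ _ e => (2 ^ 24 * (n : ℝ) ^ 3 + 1) / e
  have a3 := V.ev_F_ui (F := F) (w0 := w0) (c0 := c0) (K := K) hr h0 h2 hμ hc0
    (fun _ _ _ e => e ^ 2) (fun _ _ _ e he => by positivity)
  have a4 := rho_spec (G := gammaMeasure 1 r₀) (F := F) (w0 := w0) (c0 := c0) (K := K) h0 h2 hμ
  have a5 := ev_lens (G := gammaMeasure 1 r₀) (F := F) (w0 := w0) (c0 := c0) (K := K)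
  refine (((a1.and a2).and (a3.and a4)).and a5).mono ?_
  rintro p ⟨⟨⟨a1, a2⟩, a3, a4⟩, a5⟩ c
  have hl := a5 c
  have hp : p.Std := hl.toStd
  have he := hp.e_pos
  have hρ : c.IsRho (c.yA • F.b) (c.rho (c.yA • F.b)) := a4 c _ _ (Cf.htA (c := c) hl.toC)
  obtain ⟨t1, t2⟩ := a2 c
  have hn3 : 0 ≤ 2 ^ 24 * (p.n : ℝ) ^ 3 := by positivity
  have hP1 : 0 ≤ (nuR (gammaMeasure 1 r₀)).real (c.TSA)ᶜ := measureReal_nonneg
  have hP2 : 0 ≤ (nuR (gammaMeasure 1 r₀)).real (c.typA)ᶜ := measureReal_nonneg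
  have u1 : 2 ^ 24 * (p.n : ℝ) ^ 3 * (nuR (gammaMeasure 1 r₀)).real (c.TSA)ᶜ ≤ p.e := by
    rw [div_mul_eq_mul_div, div_le_one he] at t1
    linarith
  have u2 : (nuR (gammaMeasure 1 r₀)).real (c.typA)ᶜ ≤ p.e := by
    rw [div_mul_eq_mul_div, div_le_one he] at t2
    have := mul_nonneg hn3 hP2
    linarith
  have hgt := gt_TSA hl hρ
  exact a1 c c.TSA c.typA (c.rho (c.yA • F.b)) (p.v + 1 / p.e + 3) (p.Nb F) hgt (by linarith)
    (tok_TSA hl hρ) rfl u2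
    (fun x hx => (a3 c _ hρ c.TSA hgt.meas hgt.sinv u1 c.typA x hx).2)

end Crest.Agent.R151.CL
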