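import Crest.Agent.R151.G338o
import Crest.Agent.R151.NF6
import Crest.Agent.R151.Q8c
import Crest.Agent.R151.M192f

/-!
# R151 / S0214 part 2, D290a — (D2), the cheap side of the dichotomy (owner helper290)

`tail_of` : if the median of `R#` of ONE inner row `0 → 3 δ` is `≤ 2^-11 l` then on typical rows
`R#(x → x + 5 δ)` of the A-row has the tail `2 exp (- 64 y)`.  The typical set enters through its
defining properties only.
-/

set_option autoImplicit false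

open MeasureTheory Filter ProbabilityTheory Topology Set
open Crest.ProbabilityR.FirstPassage

namespace Crest.Agent.R151.D290

open Crest.Agent.R151.K Crest.Agent.R151.Q
open B710 (FlatData)
open M56 (mg one_le_mg)
open M192 (RowS)
open NF

variable {μ : ℝ × ℝ → ℝ} {F : FlatData μ}

/-- numerical conditions of a pair of gap fences: `a₀ → b₀` crossing the lower gap in `Icc α₀ β₀`,
`a₁ → b₁` crossing the upper gap in `Icc α₁ β₁` (coordinates of the outer row), inner row moved by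
`c` -/
structure Fen (h : Hwy F) (c α₀ β₀ a₀ b₀ α₁ β₁ a₁ b₁ : ℝ) : Prop where
  w₀ : 2 * mg F ≤ β₀ - α₀
  a₀ : a₀ ≤ α₀
  b₀ : β₀ + h.κ + cF F < b₀ + c
  w₁ : 2 * mg F ≤ β₁ - α₁
  a₁ : a₁ + c + cF F ≤ α₁
  b₁ : β₁ + h.κ < b₁

/-- smart constructor of `UpData` -/
theorem upData_of {h : Hwy F} {y g c Λ L α β s s' αi βi σ σ' α₀ β₀ a₀ b₀ α₁ β₁ a₁ b₁ : ℝ}
    (geo : Geo h y g c Λ L) (hg : h.wH + 2 * mg F + cF F < g) (hy : h.wH + 2 * mg F < y)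
    (hΛ : mg F ≤ Λ) (hL : mg F + h.κ < L) (hs1 : -L ≤ s) (hs4 : s' ≤ L)
    (H : Fen h c α₀ β₀ a₀ b₀ α₁ β₁ a₁ b₁)
    (hα₀ : α ≤ α₀) (hβ₀ : β₀ ≤ β) (ha₀ : s ≤ a₀) (hb₀ : b₀ ≤ σ)
    (hα₁ : α ≤ α₁) (hβ₁ : β₁ ≤ β) (ha₁ : σ' ≤ a₁) (hb₁ : b₁ ≤ s')
    (hαi : α + cF F - c ≤ αi) (hβi : βi ≤ β - cF F - c)
    (hi1 : αi ≤ σ) (hi2 : σ + 2 * mg F ≤ βi) (hi3 : αi + 2 * mg F + h.κ + 1 ≤ σ') (hi4 : σ' ≤ βi)
    (ho1 : α - h.κ ≤ s) (_ho2 : s + 2 * mg F ≤ β + h.κ)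
    (_ho3 : α + 2 * mg F + 1 ≤ s')
    (ho4 : s' ≤ β + h.κ) :
    UpData h y g c Λ L α β s s' αi βi σ σ' α₀ β₀ a₀ b₀ α₁ β₁ a₁ b₁ := by
  have hmg := one_le_mg F
  have hκ := h.κ_nonneg
  have hcF := cF_nonneg F
  have hwH := h.wH_nonneg'
  have w₀ := H.w₀
  have w₁ := H.w₁
  have a₀' := H.a₀
  have b₀' := H.b₀
  have a₁' := H.a₁
  have b₁' := H.b₁
  exact
    { geo := geo
      hs1 := hs1
      hs4 := hs4
      hα₀ := hα₀
      hβ₀ := hβ₀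
      ha₀ := ha₀
      hb₀ := hb₀
      hα₁ := hα₁
      hβ₁ := hβ₁
      ha₁ := ha₁
      hb₁ := hb₁
      hαi := hαi
      hβi := hβi
      hne0 := rt_lo (σ₁ := (α₀ + β₀) / 2) (σ₂ := (α₀ + β₀) / 2) hg (by linarith) (by linarith)
        (by linarith) (by linarith) (by linarith) (by linarith)
      hne2 := rt_up (σ₁ := (α₁ + β₁) / 2) (σ₂ := (α₁ + β₁) / 2) hg (by linarith) (by linarith)
        (by linarith) (by linarith) (by linarith) (by linarith)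
      hnei := rt_inn (σ₁ := σ + mg F) (σ₂ := σ' - mg F - h.κ - 1) hy (by linarith) (by linarith)
        (by linarith) (by linarith) (by linarith) (by linarith)
      hne := rt_out (σ₁ := s + mg F) (σ₂ := s' - mg F - h.κ - 1) (by linarith) (by linarith)
        (by linarith) (Icc_subset_Icc
          (by
            have : α - h.κ + mg F ≤ min (s + mg F) (s' - mg F - h.κ - 1) :=
              le_min (by linarith) (by linarith)
            linarith)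
          (by
            have : max (s + mg F) (s' - mg F - h.κ - 1) ≤ β + h.κ - mg F :=
              max_le (by linarith) (by linarith)
            linarith))
      hneJ := rt_gauge_out (by linarith) hΛ hL }

/-- `sk` over the whole plane is smaller than `sk` over a lane, for a row of the configuration -/
lemma sk_univ_le {h : Hwy F} {d : ℝ × ℝ} {I : Set ℝ} {s s' : ℝ} (hne : Rt h d I s s')
    {θ : ℝ × ℝ} {t : Environment} (ht : Nn t) (φ : ℝ × ℝ) :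
    h.hk d univ s s' θ t φ ≤ h.hk d I s s' θ t φ := by
  unfold Hwy.hk
  exact R78.hull_mono (bddBelow_routes ht _ _ _ _ _) (hne θ t φ)
    (M192.rg_mono (subset_univ I) θ) le_rfl le_rfl

lemma real_mono_ae' {Ω : Type*} [MeasurableSpace Ω] {P : Measure Ω} [IsFiniteMeasure P]
    {A B : Set Ω} (h : ∀ᵐ ω ∂P, ω ∈ A → ω ∈ B) : P.real A ≤ P.real B :=
  ENNReal.toReal_mono (measure_ne_top _ _) (measure_mono_ae h)

section main

variable {w0 c0 K r₀ : ℝ}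

/-- **(D2)**, typical set given by its properties -/
theorem tail_of (hr : 0 < r₀) [IsProbabilityMeasure (gammaMeasure 1 r₀)]
    (h0 : gammaMeasure 1 r₀ (Set.Iio 0) = 0) :
    Ev fun p => ∀ c : Cf (gammaMeasure 1 r₀) F w0 c0 K p,
    ∀ x cc α₀ β₀ a₀ b₀ α₁ β₁ a₁ b₁ Λ2 A e₁ : ℝ, -(1 / 16) ≤ x → x < 1 / 8 → |cc| ≤ p.W →
    Fen c.h cc α₀ β₀ a₀ b₀ α₁ β₁ a₁ b₁ →
    x * p.W ≤ a₀ → b₀ ≤ 0 → 3 * p.δ * p.W ≤ a₁ → b₁ ≤ (x + 5 * p.δ) * p.W → p.W ≤ Λ2 →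
    0 < A → 4096 * A ≤ c.l → 0 ≤ e₁ → 16 * e₁ ≤ 1 →
    ∀ (T TS : Set (M192.Row (ℝ × ℝ))) (ρ : M192.Row (ℝ × ℝ) → ℝ), Measurable ρ →
    (∀ q t, ρ (V.cs (V.E0 c.h (dOv F (c.y / 2) c.g)) q t) = ρ q) →
    MeasurableSet TS → V.SInv (V.E0 c.h (dOv F (c.y / 2) c.g)) TS →
    TS ⊆ V.posS c.h (dOv F (c.y / 2) c.g) →
    TS ⊆ V.typ (gammaMeasure 1 r₀) (V.E0 c.h (dOv F (c.y / 2) c.g)) PF
      (NS (obLo c.h c.g cc α₀ β₀ c.L a₀ b₀) A) e₁ →
    TS ⊆ V.typ (gammaMeasure 1 r₀) (V.E0 c.h (dOv F (c.y / 2) c.g)) PF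
      (NS (obUp c.h (c.y / 2) c.g cc α₁ β₁ c.L a₁ b₁) A) e₁ →
    TS ⊆ V.typ (gammaMeasure 1 r₀) (V.E0 c.h (dOv F (c.y / 2) c.g)) PF
      (NS (obJ c.h (c.y / 2) c.g c.lam c.L) A) e₁ →
    TS ⊆ V.typ (gammaMeasure 1 r₀) (V.E0 c.h (dOv F (c.y / 2) c.g)) PF
      (NS (obG c.h (c.y / 2) c.g c.L ρ) A) e₁ →
    T ⊆ TS → (∀ q ∈ T, |V.hkR c.h (dOv F (c.y / 2) c.g) univ (-c.L) c.L q - ρ q| ≤ A) →
    1 / 2 ≤ (nuR (gammaMeasure 1 r₀)).real
      {q | ski c.h (c.y / 2) (Icc (-Λ2) Λ2) c.L 0 (3 * p.δ * p.W) q ≤ c.l / 2048} →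
    ∀ y' : ℝ, 0 ≤ y' → (nuR (gammaMeasure 1 r₀)).real
      ({q | y' ≤ (c.rowA T).K x (x + 5 * p.δ) q} ∩ T) ≤ 2 * Real.exp (-(64 * y')) := by
  have a1 := ev_lens (G := gammaMeasure 1 r₀) (F := F) (w0 := w0) (c0 := c0) (K := K)
  have a2 := ev_geo (G := gammaMeasure 1 r₀) (F := F) (w0 := w0) (c0 := c0) (K := K)
    fun _ _ _ _ => 1
  have a3 := le_δ fun _ => 32
  have a4 := gap_le fun _ δ _ _ _ => 32 / δ
  refine (((a1.and a2).and a3).and a4).mono ?_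
  rintro p ⟨⟨⟨hl, hgeo⟩, hδ32⟩, hgδ⟩ c x cc α₀ β₀ a₀ b₀ α₁ β₁ a₁ b₁ Λ2 A e₁ hx1 hx2 hcc hF ha₀ hb₀
    ha₁ hb₁ hΛ2 hA hAl he₁ he₁' T TS ρ hρm hρS hTSm hTSi hpos hLo hUp hJ hG hTT hTD hin y' hy'
  have hl := hl c
  have hW : 0 < p.W := zero_lt_one.trans_le hl.W
  have hgeo := hgeo c (c.y / 2) c.g (Cf.htA hl.toC) cc (by rw [one_mul]; exact hcc)
  obtain ⟨r1, r2, r3, r4, r5⟩ := hl.row (Cf.htA hl.toC)
  have hmg := one_le_mg F
  have hcF := cF_nonneg F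
  have hκ0 := c.h.κ_nonneg
  have hlam : c.lam = p.v' * p.W := rfl
  have hL := hl.lam_eq
  have hWL := hl.WL
  have hκ := hl.κ_le'
  have hsl := hl.sl_le
  have hsl0 := hl.sl_nonneg
  have hgW := hl.gW
  have hgδ' := hl.gδ
  have h1w := hl.one_le_w
  have hmgl := hl.mg_le
  have hwH := hl.wH_eq
  have hcc' := abs_le.1 hcc
  have hlp := hl.l_pos
  have hδp := hl.δ_pos
  have hδW : 0 < p.δ * p.W := mul_pos hδp hW
  have hδW32 : 32 * (p.δ * p.W) ≤ p.W := by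
    have := mul_le_mul_of_nonneg_right hδ32 hW.le
    linarith
  have hxW1 : -(1 / 16) * p.W ≤ x * p.W := mul_le_mul_of_nonneg_right hx1 hW.le
  have hxW2 : x * p.W ≤ 1 / 8 * p.W := mul_le_mul_of_nonneg_right hx2.le hW.le
  have hs' : (x + 5 * p.δ) * p.W = x * p.W + 5 * (p.δ * p.W) := by ring
  have h3δ : 3 * p.δ * p.W = 3 * (p.δ * p.W) := by ring
  set h := c.h with hh
  set E := V.E0 h (dOv F (c.y / 2) c.g) with hE
  have hU : UpData h (c.y / 2) c.g cc c.lam c.L (-(Λ2 + 2 * p.W)) (Λ2 + 2 * p.W) (x * p.W)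
      ((x + 5 * p.δ) * p.W) (-Λ2) Λ2 0 (3 * p.δ * p.W) α₀ β₀ a₀ b₀ α₁ β₁ a₁ b₁ := by
    have f1 := hF.a₀
    have f2 := hF.b₀
    have f3 := hF.w₀
    have f4 := hF.a₁
    have f5 := hF.b₁
    have f6 := hF.w₁
    refine upData_of hgeo (by linarith) r4 (by linarith) (by linarith) ?_ ?_ hF ?_ ?_ ha₀ hb₀ ?_ ?_
      ha₁ hb₁ ?_ ?_ ?_ ?_ ?_ ?_ ?_ ?_ ?_ ?_ <;> linarith
  -- the outer event
  set B : Set (M192.Row (ℝ × ℝ)) := {q | c.l * y' - A ≤ V.hkR h (dOv F (c.y / 2) c.g)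
    (Icc (-(Λ2 + 2 * p.W) - h.κ) (Λ2 + 2 * p.W + h.κ)) (x * p.W) ((x + 5 * p.δ) * p.W) q - ρ q}
    with hB
  have hBm : MeasurableSet B := measurableSet_le measurable_const
    ((V.measurable_hkR h _ measurableSet_Icc _ _).sub hρm)
  have key : (nuR (gammaMeasure 1 r₀)).real (B ∩ TS) ≤ 2 * Real.exp (-(64 * y')) := by
    refine V.prob_inter_le (V.measurableSet_E0 h _) hTSm hTSi hBm (by positivity)
      (ae_of_all _ fun q hq => ?_)
    have hτ : 0 ≤ c.l / 2048 := by positivity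
    have h1 := T2c hr h0 hU hρm hρS (A := A) (e := e₁) (τ := c.l / 2048) (q₀ := 1 / 2)
      (a := c.l * y') hA he₁ hτ (by norm_num) (by linarith) (by positivity) (hpos hq) (hLo hq)
      (hUp hq) (hJ hq) (hG hq) hin
    have e1 : {t | V.cs E q t ∈ B} = {t | c.l * y' - A ≤ V.hkR h (dOv F (c.y / 2) c.g)
        (Icc (-(Λ2 + 2 * p.W) - h.κ) (Λ2 + 2 * p.W + h.κ)) (x * p.W) ((x + 5 * p.δ) * p.W)
        (V.cs E q t) - ρ q} := by
      ext t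
      show c.l * y' - A ≤ V.hkR h (dOv F (c.y / 2) c.g)
        (Icc (-(Λ2 + 2 * p.W) - h.κ) (Λ2 + 2 * p.W + h.κ)) (x * p.W) ((x + 5 * p.δ) * p.W)
        (V.cs E q t) - ρ (V.cs E q t) ↔ _
      rw [hρS]
      rfl
    rw [e1]
    refine h1.trans ?_
    have h2 : -(1 / 2 / 4) * (c.l * y' / (c.l / 2048 + 6 * A)) ≤ -(64 * y') := by
      have h3 : 512 * y' ≤ c.l * y' / (c.l / 2048 + 6 * A) := by
        rw [le_div_iff₀ (by positivity)]
        have : c.l / 2048 + 6 * A ≤ c.l / 512 := by linarith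
        calc 512 * y' * (c.l / 2048 + 6 * A) ≤ 512 * y' * (c.l / 512) :=
              mul_le_mul_of_nonneg_left this (by positivity)
          _ = c.l * y' := by ring
      linarith
    have := Real.exp_le_exp.2 h2
    linarith
  refine le_trans ?_ key
  have : IsProbabilityMeasure (nuR (gammaMeasure 1 r₀)) := by unfold nuR; infer_instance
  apply real_mono_ae'
  filter_upwards [M192.ae_pe_prod (G := gammaMeasure 1 r₀) h0 (UU.prod UU)] with q hq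
  rintro ⟨hq1, hq2⟩
  refine ⟨?_, hTT hq2⟩
  have hnn : Nn q.1.2 := by rw [← hq]; exact M192.pe_nn _
  have hD := (abs_le.1 (hTD q hq2)).1
  have hq1' : y' ≤ h.sk (c.yA • F.b) univ univ c.L (x * p.W) ((x + 5 * p.δ) * p.W) q.1.1
      (M192.pe q.1.2) q.2 / c.l := hq1
  rw [hq, le_div_iff₀ hlp] at hq1'
  have hmono := sk_univ_le hU.hne hnn q.2 (θ := q.1.1)
  have e2 : h.sk (c.yA • F.b) univ univ c.L (x * p.W) ((x + 5 * p.δ) * p.W) q.1.1 q.1.2 q.2 =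
      h.hk (dOv F (c.y / 2) c.g) univ (x * p.W) ((x + 5 * p.δ) * p.W) q.1.1 q.1.2 q.2 -
        V.hkR h (dOv F (c.y / 2) c.g) univ (-c.L) c.L q := rfl
  rw [e2] at hq1'
  show c.l * y' - A ≤ h.hk (dOv F (c.y / 2) c.g)
    (Icc (-(Λ2 + 2 * p.W) - h.κ) (Λ2 + 2 * p.W + h.κ)) (x * p.W) ((x + 5 * p.δ) * p.W) q.1.1
      q.1.2 q.2 - ρ q
  linarith

end main

end Crest.Agent.R151.D290
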