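import Crest.Agent.R151.E39j

/-!
# R151 / S0214 part 2, E39k — the dichotomy in `Ev` form (helper39)
-/

set_option autoImplicit false

open MeasureTheory Filter ProbabilityTheory Topology Set
open scoped ENNReal
open Crest.ProbabilityR.FirstPassage

namespace Crest.Agent.R151.E39

open K R78 B710 G338 M192 Q NF
open M56 (mg one_le_mg)

variable {μ : ℝ × ℝ → ℝ} {F : FlatData μ}

/-- threshold of the dichotomy, in units of `l` -/
noncomputable def τ0 : ℝ := 1 / 2048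

/-- output of (T1) for the typical sets `typ` -/
def HD1 (G : Measure ℝ) (F : FlatData μ) (w0 c0 K : ℝ)
    (typ : ∀ {p : NF.Num}, Cf G F w0 c0 K p → Set (Row (ℝ × ℝ))) (C2 : ℝ) : Prop :=
  Ev fun p => ∀ c : Cf G F w0 c0 K p, 1 / 2 ≤ (nuR G).real {q | τ0 * c.l ≤ V0 c q} →
    ∀ x κ : ℝ, |x| ≤ p.v → |x + p.δ| ≤ p.v → 0 ≤ κ →
      (nuR G).real ({q | skp c.h c.yA c.l c.L (Icc (-(lamD p * p.W)) (lamD p * p.W)) (x * p.W)
        ((x + p.δ) * p.W) q ≤ κ} ∩ typ c) ≤ C2 * κ + p.e / 2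

/-- output of (T2) for the typical sets `typ` -/
def HD2 (G : Measure ℝ) (F : FlatData μ) (w0 c0 K : ℝ)
    (typ : ∀ {p : NF.Num}, Cf G F w0 c0 K p → Set (Row (ℝ × ℝ))) : Prop :=
  Ev fun p => ∀ c : Cf G F w0 c0 K p, 1 / 2 ≤ (nuR G).real {q | V0 c q ≤ τ0 * c.l} →
    ∀ x y : ℝ, -(1 / 16) ≤ x → x < 1 / 8 → 0 ≤ y →
      (nuR G).real ({q | y ≤ (c.rowA (typ c)).K x (x + 5 * p.δ) q} ∩ typ c) ≤
        2 * Real.exp (-(64 * y))

/-- **DICH** from the law of the rows on the larger window, (D1) and (D2) -/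
theorem ev_dich {G : Measure ℝ} [IsProbabilityMeasure G] {w0 c0 K : ℝ} (hK : 0 ≤ K)
    {typ : ∀ {p : NF.Num}, Cf G F w0 c0 K p → Set (Row (ℝ × ℝ))}
    (hlaw : ∃ C1 : ℝ, 0 < C1 ∧ Ev fun p => ∀ c : Cf G F w0 c0 K p,
      (c.rowA (typ c)).Law (nuR G) c.mB C1 p.n p.δ (p.v + 1 / p.e) p.e)
    {C2 : ℝ} (hD1 : HD1 G F w0 c0 K typ C2) (hD2 : HD2 G F w0 c0 K typ) :
    ∃ C0 : ℝ, 0 < C0 ∧ Ev fun p => ∀ c : Cf G F w0 c0 K p,
      (c.rowA (typ c)).Cheap (nuR G) C0 p.δ ∨ (c.rowA (typ c)).Costly (nuR G) C0 p.δ p.v p.e := by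
  obtain ⟨C1, hC1, hlaw⟩ := hlaw
  refine ⟨max (|C2|) 2, lt_max_of_lt_right (by norm_num), ?_⟩
  have a1 := Ev.std
  have a2 : Ev fun p => 1 ≤ Real.log p.n / C1 - C1 := by
    refine ev_n (P := fun n : ℕ => 1 ≤ Real.log n / C1 - C1) ?_
    have h1 : Tendsto (fun n : ℕ => Real.log n / C1 - C1) atTop atTop := by
      apply tendsto_atTop_add_const_right
      exact (Real.tendsto_log_atTop.comp tendsto_natCast_atTop_atTop).atTop_div_const hC1
    exact h1.eventually_ge_atTop 1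
  have a3 := R78.ev_exit G F w0 c0 hK (fun _ _ v e => v + 1 / e)
  have a4 := le_δ (fun _ => 160)
  refine ((((((a1.and a2).and a3).and a4).and hlaw).and hD1).and hD2).mono ?_
  rintro p ⟨⟨⟨⟨⟨⟨a1, a2⟩, a3⟩, a4⟩, hlaw⟩, hD1⟩, hD2⟩ c
  have hlaw := hlaw c
  have hv := a1.v
  have hinv : 0 < 1 / p.e := by have := a1.e_pos; positivity
  have hδ := a1.δ_pos
  have habs : ∀ x : ℝ, -(1 / 16) ≤ x → x < 1 / 8 → |x| ≤ p.v + 1 / p.e ∧
      |x + 5 * p.δ| ≤ p.v + 1 / p.e := by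
    intro x h1 h2
    constructor
    · rw [abs_le]; constructor <;> linarith
    · rw [abs_le]; constructor <;> linarith
  have hmB : c.mB ≤ (inferInstance : MeasurableSpace (Row (ℝ × ℝ))) := M192.mB_le _ _
  refine dich_of (P := nuR G) (R := c.rowA (typ c)) (V := V0 c)
    (Kw := fun s t q => skp c.h c.yA c.l c.L (Icc (-(lamD p * p.W)) (lamD p * p.W)) (s * p.W)
      (t * p.W) q) (C1 := C1) (C2 := |C2|) (τ := τ0 * c.l) (n := p.n) (measurable_V0 c) ?_ ?_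
    (abs_nonneg _) (le_max_left _ _) (le_max_right _ _) a2 a1.e_pos a1.e_le ?_ ?_ ?_ ?_
  · intro x h1 h2
    exact (hlaw.K_meas x (x + 5 * p.δ) (habs x h1 h2).1 (habs x h1 h2).2).mono hmB le_rfl
  · intro x h1 h2 ω
    exact hlaw.K_nonneg x (x + 5 * p.δ) ω (habs x h1 h2).1 (habs x h1 h2).2
  · intro ω s t xR xL m hm hs ht h1 h2 h3 h4
    have hs' := abs_le.1 hs
    have ht' := abs_le.1 ht
    exact a3 c (typ c) ω s t xL xR (p.v + 1 / p.e) m hm le_rfl h1 h2 h3 h4 (by linarith)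
      (by linarith)
  · intro x m h1 h2
    exact hlaw.cells_large x m h1 h2
  · intro hV x κ h1 h2 h3
    refine (hD1 c hV x κ h1 h2 h3).trans ?_
    have := mul_le_mul_of_nonneg_right (le_abs_self C2) h3
    linarith
  · intro hV x y h1 h2 h3
    exact hD2 c hV x y h1 h2 h3

end Crest.Agent.R151.E39
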