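import Crest.Agent.R151.D290a
import Crest.Agent.R151.E39k

/-!
# R151 / S0214 part 2, D290b — (D2) for a grid of translations and gap fences (owner helper290)

`ev_D2` : the typical set contains, for the translations `c'` and the positions `f` of a grid `Γ`
(mesh `≤ η`), the failure sets of the gap fences
`obLo c.h c.g c' f (f + z) c.L f (f + z + b - c')`,
`obUp c.h (c.y / 2) c.g c' f (f + z) c.L (f - b - c') (f + z + b)`.
`hd2_of` : `E39.HD2`.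
-/

set_option autoImplicit false

open MeasureTheory Filter ProbabilityTheory Topology Set
open Crest.ProbabilityR.FirstPassage

namespace Crest.Agent.R151.D290

open Crest.Agent.R151.K Crest.Agent.R151.Q
open B710 (FlatData)
open M56 (mg one_le_mg)
open M192 (RowS)
open NF

variable {μ : ℝ × ℝ → ℝ} {F : FlatData μ} {w0 c0 K r₀ : ℝ}

/-- what (D2) needs from the typical set `T` (gap fences on the grid `Γ` of mesh `η`, width `z`,
label margin `b`) -/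
structure TypD2 {p : NF.Num} (c : Cf (gammaMeasure 1 r₀) F w0 c0 K p) (T : Set (M192.Row (ℝ × ℝ)))
    (S : Set (M192.Row (ℝ × ℝ))) (ρ : M192.Row (ℝ × ℝ) → ℝ) (Γ : Set ℝ) (η z b A e₁ : ℝ) :
    Prop where
  budget : 3 * η + 2 * z + 3 * b ≤ 2 * (p.δ * p.W)
  z_ge : c.g ≤ z
  b_ge : c.g ≤ b
  A_pos : 0 < A
  A_le : 4096 * A ≤ c.l
  e_nonneg : 0 ≤ e₁
  e_le : 16 * e₁ ≤ 1
  ρ_meas : Measurable ρ
  ρ_inv : ∀ q t, ρ (V.cs (V.E0 c.h (dOv F (c.y / 2) c.g)) q t) = ρ q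
  S_meas : MeasurableSet S
  S_inv : V.SInv (V.E0 c.h (dOv F (c.y / 2) c.g)) S
  S_pos : S ⊆ V.posS c.h (dOv F (c.y / 2) c.g)
  grid : ∀ x : ℝ, |x| ≤ p.W → ∃ c' ∈ Γ, x ≤ c' ∧ c' ≤ x + η
  lo : ∀ f ∈ Γ, ∀ c' ∈ Γ, |f| ≤ 2 * p.W → |c'| ≤ 2 * p.W →
    S ⊆ V.typ (gammaMeasure 1 r₀) (V.E0 c.h (dOv F (c.y / 2) c.g)) PF
      (NS (obLo c.h c.g c' f (f + z) c.L f (f + z + b - c')) A) e₁
  up : ∀ f ∈ Γ, ∀ c' ∈ Γ, |f| ≤ 2 * p.W → |c'| ≤ 2 * p.W →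
    S ⊆ V.typ (gammaMeasure 1 r₀) (V.E0 c.h (dOv F (c.y / 2) c.g)) PF
      (NS (obUp c.h (c.y / 2) c.g c' f (f + z) c.L (f - b - c') (f + z + b)) A) e₁
  gau : S ⊆ V.typ (gammaMeasure 1 r₀) (V.E0 c.h (dOv F (c.y / 2) c.g)) PF
      (NS (obJ c.h (c.y / 2) c.g c.lam c.L) A) e₁
  dev : S ⊆ V.typ (gammaMeasure 1 r₀) (V.E0 c.h (dOv F (c.y / 2) c.g)) PF
      (NS (obG c.h (c.y / 2) c.g c.L ρ) A) e₁
  T_sub : T ⊆ S
  T_dev : ∀ q ∈ T, |V.hkR c.h (dOv F (c.y / 2) c.g) univ (-c.L) c.L q - ρ q| ≤ A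

/-- **(D2)** on the grid -/
theorem ev_D2 (hr : 0 < r₀) [IsProbabilityMeasure (gammaMeasure 1 r₀)]
    (h0 : gammaMeasure 1 r₀ (Set.Iio 0) = 0) :
    Ev fun p => ∀ c : Cf (gammaMeasure 1 r₀) F w0 c0 K p,
    ∀ (T S : Set (M192.Row (ℝ × ℝ))) (ρ : M192.Row (ℝ × ℝ) → ℝ) (Γ : Set ℝ) (η z b A e₁ : ℝ),
    TypD2 c T S ρ Γ η z b A e₁ →
    1 / 2 ≤ (nuR (gammaMeasure 1 r₀)).real {q | E39.V0 c q ≤ E39.τ0 * c.l} →
    ∀ x y : ℝ, -(1 / 16) ≤ x → x < 1 / 8 → 0 ≤ y → (nuR (gammaMeasure 1 r₀)).real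
      ({q | y ≤ (c.rowA T).K x (x + 5 * p.δ) q} ∩ T) ≤ 2 * Real.exp (-(64 * y)) := by
  have a1 := ev_lens (G := gammaMeasure 1 r₀) (F := F) (w0 := w0) (c0 := c0) (K := K)
  have a2 := tail_of (F := F) (w0 := w0) (c0 := c0) (K := K) hr h0
  have a3 := le_δ fun _ => 32
  refine ((a1.and a2).and a3).mono ?_
  rintro p ⟨⟨hl, htail⟩, hδ32⟩ c T S ρ Γ η z b A e₁ H hin x y hx1 hx2 hy
  have hl := hl c
  have hW : 0 < p.W := zero_lt_one.trans_le hl.W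
  have hmg := one_le_mg F
  have hcF := cF_nonneg F
  have hκ0 := c.h.κ_nonneg
  have hκ := hl.κ_le'
  have hsl := hl.sl_le
  have hsl0 := hl.sl_nonneg
  have hgW := hl.gW
  have h1w := hl.one_le_w
  have hmgl := hl.mg_le
  have hδp := hl.δ_pos
  have hδW : 0 < p.δ * p.W := mul_pos hδp hW
  have hδW32 : 32 * (p.δ * p.W) ≤ p.W := by
    have := mul_le_mul_of_nonneg_right hδ32 hW.le
    linarith
  have hxW1 : -(1 / 16) * p.W ≤ x * p.W := mul_le_mul_of_nonneg_right hx1 hW.le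
  have hxW2 : x * p.W ≤ 1 / 8 * p.W := mul_le_mul_of_nonneg_right hx2.le hW.le
  have hs' : (x + 5 * p.δ) * p.W = x * p.W + 5 * (p.δ * p.W) := by ring
  have h3δ : 3 * p.δ * p.W = 3 * (p.δ * p.W) := by ring
  have hbud := H.budget
  have hz := H.z_ge
  have hb := H.b_ge
  have hgp := hl.g_pos
  obtain ⟨f0, hf0, h01, h02⟩ := H.grid (x * p.W) (by rw [abs_le]; constructor <;> linarith)
  have hη : 0 ≤ η := by linarith
  obtain ⟨cc, hcc, hc1, hc2⟩ := H.grid (f0 + z + b) (by rw [abs_le]; constructor <;> linarith)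
  obtain ⟨f1, hf1, h11, h12⟩ := H.grid (cc + 3 * (p.δ * p.W) + b)
    (by rw [abs_le]; constructor <;> linarith)
  have hlam1 : 1 ≤ 2 * E39.lamD p + 4 := by
    unfold E39.lamD
    have h1 := hl.v
    have h2 : 0 ≤ 1 / p.e := by have := hl.e_pos; positivity
    linarith
  have hτ : E39.τ0 * c.l = c.l / 2048 := by unfold E39.τ0; ring
  rw [hτ] at hin
  exact htail c x cc f0 (f0 + z) f0 (f0 + z + b - cc) f1 (f1 + z) (f1 - b - cc) (f1 + z + b)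
    ((2 * E39.lamD p + 4) * p.W) A e₁ hx1 hx2 (by rw [abs_le]; constructor <;> linarith)
    ⟨by linarith, le_rfl, by linarith, by linarith, by linarith, by linarith⟩ h01 (by linarith)
    (by linarith) (by rw [hs']; linarith) (by nlinarith) H.A_pos H.A_le H.e_nonneg H.e_le T S ρ
    H.ρ_meas H.ρ_inv H.S_meas H.S_inv H.S_pos
    (H.lo f0 hf0 cc hcc (by rw [abs_le]; constructor <;> linarith)
      (by rw [abs_le]; constructor <;> linarith))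
    (H.up f1 hf1 cc hcc (by rw [abs_le]; constructor <;> linarith)
      (by rw [abs_le]; constructor <;> linarith)) H.gau H.dev H.T_sub H.T_dev hin y hy

/-- **HD2** for a family of typical sets -/
theorem hd2_of (hr : 0 < r₀) [IsProbabilityMeasure (gammaMeasure 1 r₀)]
    (h0 : gammaMeasure 1 r₀ (Set.Iio 0) = 0)
    {typ : ∀ {p : NF.Num}, Cf (gammaMeasure 1 r₀) F w0 c0 K p → Set (M192.Row (ℝ × ℝ))}
    (H : Ev fun p => ∀ c : Cf (gammaMeasure 1 r₀) F w0 c0 K p, ∃ S ρ Γ η z b A e₁,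
      TypD2 c (typ c) S ρ Γ η z b A e₁) :
    E39.HD2 (gammaMeasure 1 r₀) F w0 c0 K typ := by
  refine (H.and (ev_D2 (F := F) (w0 := w0) (c0 := c0) (K := K) hr h0)).mono ?_
  rintro p ⟨h1, h2⟩ c hin x y hx1 hx2 hy
  obtain ⟨S, ρ, Γ, η, z, b, A, e₁, H⟩ := h1 c
  exact h2 c (typ c) S ρ Γ η z b A e₁ H hin x y hx1 hx2 hy

end Crest.Agent.R151.D290
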