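import Crest.Agent.R151.D290b
import Crest.Agent.R151.E191G

/-!
# R151 / S0214 part 2, D290c — (D2) for the typical rows `Cf.typA` (owner helper290)

* `ev_typD2` : the typical rows satisfy `TypD2`;
* `hd2_typA` : `E39.HD2` for `typA`.
-/

set_option autoImplicit false

open MeasureTheory Filter ProbabilityTheory Topology Set
open Crest.ProbabilityR.FirstPassage

namespace Crest.Agent.R151.D290

open Crest.Agent.R151.K Crest.Agent.R151.Q
open B710 (FlatData)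
open M56 (mg one_le_mg)
open M192 (RowS)
open NF

variable {μ : ℝ × ℝ → ℝ} {F : FlatData μ} {w0 c0 K r₀ : ℝ}

/-- rounding to the grid -/
lemma exists_gr {p : NF.Num} (hp : p.Std) {x : ℝ} (hx : |x| ≤ p.W) :
    ∃ i : ℤ, i ∈ Finset.Icc (-p.Mg) p.Mg ∧ x ≤ p.gr i ∧ p.gr i ≤ x + p.δ / 128 * p.W := by
  have hW : 0 < p.W := zero_lt_one.trans_le hp.W
  have hδ := hp.δ_pos
  have hs : 0 < p.δ / 128 * p.W := by positivity
  have hd : 0 < p.δ / 128 := by positivity
  have hM : (1 : ℝ) / (p.δ / 128) ≤ p.Mg := by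
    refine le_trans ?_ (Int.le_ceil _)
    have h1 := hp.v
    have h2 : 0 ≤ 1 / p.e := by have := hp.e_pos; positivity
    gcongr
    linarith
  obtain ⟨h1, h2⟩ := abs_le.1 hx
  have hq1 : x / (p.δ / 128 * p.W) ≤ 1 / (p.δ / 128) := by
    rw [div_le_div_iff₀ hs hd]
    nlinarith
  have hq2 : -(1 / (p.δ / 128)) ≤ x / (p.δ / 128 * p.W) := by
    rw [neg_le_iff_add_nonneg, div_add_div _ _ hs.ne' hd.ne']
    refine div_nonneg ?_ (by positivity)
    nlinarith
  refine ⟨⌈x / (p.δ / 128 * p.W)⌉, Finset.mem_Icc.2 ⟨?_, ?_⟩, ?_, ?_⟩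
  · have h3 : (-(p.Mg : ℝ)) ≤ x / (p.δ / 128 * p.W) := by linarith
    have h4 := h3.trans (Int.le_ceil _)
    exact_mod_cast h4
  · exact Int.ceil_le.2 (hq1.trans hM)
  · have h3 := Int.le_ceil (x / (p.δ / 128 * p.W))
    rw [div_le_iff₀ hs] at h3
    exact h3
  · have h3 := Int.ceil_lt_add_one (x / (p.δ / 128 * p.W))
    have h4 := mul_le_mul_of_nonneg_right h3.le hs.le
    have h5 : (x / (p.δ / 128 * p.W) + 1) * (p.δ / 128 * p.W) = x + p.δ / 128 * p.W := by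
      field_simp
    rw [h5] at h4
    exact h4

section typA

variable {G : Measure ℝ} [IsProbabilityMeasure G] {p : NF.Num} {c : Cf G F w0 c0 K p}

lemma meas_ob (hρ : Measurable (c.rho (c.yA • F.b))) (k : Fin 6 × (ℤ × ℤ)) : (c.ob k).Meas := by
  obtain ⟨k0, k1, k2⟩ := k
  unfold Cf.ob
  fin_cases k0
  · exact meas_obD _ _ _
  · exact meas_obG _ _ _ _ hρ
  · exact meas_obJ _ _ _ _ _
  · exact meas_obK _ _ _ _ _ _
  · exact meas_fLo _ _ _ _ _
  · exact meas_fUp _ _ _ _ _ _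

lemma TSA_sub {k : Fin 6 × (ℤ × ℤ)} (hk : k ∈ p.idx) :
    c.TSA ⊆ V.typ G (V.E0 c.h (c.yA • F.b)) PF (NS (c.ob k) (c.thr k)) (p.e ^ 2) :=
  V.TSet_subset_typ c.h (c.yA • F.b) hk

lemma mem_idx (a : Fin 6) {i j : ℤ} (hi : i ∈ Finset.Icc (-p.Mg) p.Mg)
    (hj : j ∈ Finset.Icc (-p.Mg) p.Mg) : (a, (i, j)) ∈ p.idx :=
  Finset.mem_product.2 ⟨Finset.mem_univ _, Finset.mem_product.2 ⟨hi, hj⟩⟩

end typA

/-- the typical rows `typA` satisfy the hypotheses of (D2) -/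
theorem ev_typD2 [IsProbabilityMeasure (gammaMeasure 1 r₀)]
    (h0 : gammaMeasure 1 r₀ (Set.Iio 0) = 0)
    (h2 : Integrable (fun x : ℝ => x ^ 2) (gammaMeasure 1 r₀))
    (hμ : IsTC (gammaMeasure 1 r₀) μ) :
    Ev fun p => ∀ c : Cf (gammaMeasure 1 r₀) F w0 c0 K p,
      TypD2 c c.typA c.TSA (c.rho (c.yA • F.b))
        {r | ∃ i : ℤ, i ∈ Finset.Icc (-p.Mg) p.Mg ∧ p.gr i = r} (p.δ / 128 * p.W) p.zf c.g
        (p.e ^ 2 * c.l) (p.e ^ 2) := by
  have a1 := ev_lens (G := gammaMeasure 1 r₀) (F := F) (w0 := w0) (c0 := c0) (K := K)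
  have a2 := rho_spec (F := F) (w0 := w0) (c0 := c0) (K := K) h0 h2 hμ
  have a3 := le_e fun _ _ _ => 64
  refine ((a1.and a2).and a3).mono ?_
  rintro p ⟨⟨hl, hρ⟩, he64⟩ c
  have hl := hl c
  have hρ : c.IsRho (c.yA • F.b) (c.rho (c.yA • F.b)) := hρ c (c.y / 2) c.g (Cf.htA hl.toC)
  have hW : 0 < p.W := zero_lt_one.trans_le hl.W
  have hδp := hl.δ_pos
  have hδW : 0 < p.δ * p.W := mul_pos hδp hW
  have hgδ := hl.gδ
  have hg0 := hl.g_pos
  have he := hl.e_pos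
  have hlp := hl.l_pos
  have hzf : p.zf = (p.δ * p.W) / 16 := by unfold Num.zf; ring
  have hη : p.δ / 128 * p.W = (p.δ * p.W) / 128 := by ring
  have he2 : 4096 * p.e ^ 2 ≤ 1 := by nlinarith
  have hMg : (0 : ℤ) ∈ Finset.Icc (-p.Mg) p.Mg := by
    have : 0 ≤ p.Mg := by
      have h1 := hl.v
      have h2 : 0 ≤ 1 / p.e := by positivity
      refine Int.ceil_nonneg ?_
      positivity
    exact Finset.mem_Icc.2 ⟨by linarith, this⟩
  exact
    { budget := by rw [hzf, hη]; linarith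
      z_ge := by rw [hzf]; linarith
      b_ge := le_rfl
      A_pos := by positivity
      A_le := by nlinarith
      e_nonneg := by positivity
      e_le := by linarith
      ρ_meas := hρ.meas
      ρ_inv := hρ.glue
      S_meas := V.measurableSet_TSet c.h (c.yA • F.b) fun k _ =>
        measurableSet_NS (meas_ob hρ.meas k) _
      S_inv := V.sInv_TSet c.h (c.yA • F.b)
      S_pos := V.TSet_subset_posS c.h (c.yA • F.b)
      grid := by
        intro x hx
        obtain ⟨i, h1, h2, h3⟩ := exists_gr hl.toStd hx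
        exact ⟨p.gr i, ⟨i, h1, rfl⟩, h2, h3⟩
      lo := by
        rintro f ⟨j, hj, rfl⟩ c' ⟨i, hi, rfl⟩ _ _
        exact TSA_sub (c := c) (k := (4, (i, j))) (mem_idx 4 hi hj)
      up := by
        rintro f ⟨j, hj, rfl⟩ c' ⟨i, hi, rfl⟩ _ _
        have h := TSA_sub (c := c) (k := (5, (i, j))) (mem_idx 5 hi hj)
        have e : p.gr j - c.g - p.gr i = p.gr j - p.gr i - c.g := by ring
        rw [e]
        exact h
      gau := TSA_sub (c := c) (k := (2, (0, 0))) (mem_idx 2 hMg hMg)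
      dev := TSA_sub (c := c) (k := (1, (0, 0))) (mem_idx 1 hMg hMg)
      T_sub := inter_subset_left
      T_dev := fun q hq => hq.2 }

/-- **HD2 for the typical rows** -/
theorem hd2_typA (hr : 0 < r₀) [IsProbabilityMeasure (gammaMeasure 1 r₀)]
    (h0 : gammaMeasure 1 r₀ (Set.Iio 0) = 0)
    (h2 : Integrable (fun x : ℝ => x ^ 2) (gammaMeasure 1 r₀))
    (hμ : IsTC (gammaMeasure 1 r₀) μ) :
    E39.HD2 (gammaMeasure 1 r₀) F w0 c0 K fun c => c.typA :=
  hd2_of hr h0 ((ev_typD2 (F := F) (w0 := w0) (c0 := c0) (K := K) h0 h2 hμ).mono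
    fun _ h c => ⟨_, _, _, _, _, _, _, _, h c⟩)

end Crest.Agent.R151.D290
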