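import Crest.Agent.R151.K1b

/-!
# R151/K1c — the time constant is a seminorm (owner helper507)

`IsTC G μ` is the hypothesis `hμ` of S0214 for a general law `G`.
-/

set_option autoImplicit false

open MeasureTheory Filter ProbabilityTheory
open Crest.ProbabilityR.FirstPassage

namespace Crest.Agent.R151.K

/-- The integer part of `s v`. -/
noncomputable def fl (v : ℝ × ℝ) (s : ℝ) : ℤ × ℤ := (⌊s * v.1⌋, ⌊s * v.2⌋)

/-- A lattice point as a point of the plane. -/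
def toR (x : ℤ × ℤ) : ℝ × ℝ := ((x.1 : ℝ), (x.2 : ℝ))

/-- `ℓ¹` norm on the plane. -/
def l1 (v : ℝ × ℝ) : ℝ := |v.1| + |v.2|

lemma l1_nonneg (v : ℝ × ℝ) : 0 ≤ l1 v := by unfold l1; positivity

lemma l1_toR (x : ℤ × ℤ) : l1 (toR x) = n1 x := by
  simp [l1, toR, n1, Nat.cast_natAbs]

lemma l1_add_le (v w : ℝ × ℝ) : l1 (v + w) ≤ l1 v + l1 w := by
  simp only [l1, Prod.fst_add, Prod.snd_add]
  linarith [abs_add_le v.1 w.1, abs_add_le v.2 w.2]

/-- `μ` is the time constant of the law `G`. -/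
def IsTC (G : Measure ℝ) (μ : ℝ × ℝ → ℝ) : Prop :=
  ∀ v : ℝ × ℝ, ∀ᵐ t ∂(iidLaw G),
    Tendsto (fun s : ℝ => passageTime t (0, 0) (⌊s * v.1⌋, ⌊s * v.2⌋) / s) atTop (nhds (μ v))

/-- The mean passage time from the origin. -/
noncomputable def ET (G : Measure ℝ) (x : ℤ × ℤ) : ℝ := ∫ t, passageTime t 0 x ∂(iidLaw G)

lemma abs_floor_le (x : ℝ) : |((⌊x⌋ : ℤ) : ℝ)| ≤ |x| + 1 := by
  have h1 := Int.floor_le x
  have h2 := Int.lt_floor_add_one x
  rw [abs_le]
  constructor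
  · linarith [neg_abs_le x]
  · linarith [le_abs_self x]

lemma n1_fl_le (v : ℝ × ℝ) {s : ℝ} (hs : 1 ≤ s) : (n1 (fl v s) : ℝ) ≤ s * (l1 v + 2) := by
  rw [← l1_toR]
  simp only [l1, toR, fl]
  have h1 := abs_floor_le (s * v.1)
  have h2 := abs_floor_le (s * v.2)
  rw [abs_mul, abs_of_nonneg (by linarith : (0:ℝ) ≤ s)] at h1 h2
  nlinarith

lemma n1_fl_sub_le (v w : ℝ × ℝ) (s : ℝ) : n1 (fl (v + w) s - fl v s - fl w s) ≤ 2 := by
  have key : ∀ a b : ℝ, (⌊s * (a + b)⌋ - ⌊s * a⌋ - ⌊s * b⌋).natAbs ≤ 1 := by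
    intro a b
    have h1 := Int.floor_le (s * (a + b))
    have h2 := Int.lt_floor_add_one (s * (a + b))
    have h3 := Int.floor_le (s * a)
    have h4 := Int.lt_floor_add_one (s * a)
    have h5 := Int.floor_le (s * b)
    have h6 := Int.lt_floor_add_one (s * b)
    have h7 : (((⌊s * (a + b)⌋ - ⌊s * a⌋ - ⌊s * b⌋ : ℤ)) : ℝ) < 2 := by
      push_cast; nlinarith
    have h8 : (-1 : ℝ) < (((⌊s * (a + b)⌋ - ⌊s * a⌋ - ⌊s * b⌋ : ℤ)) : ℝ) := by
      push_cast; nlinarith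
    have h9 : (⌊s * (a + b)⌋ - ⌊s * a⌋ - ⌊s * b⌋ : ℤ) < 2 := by exact_mod_cast h7
    have h10 : (-1 : ℤ) < (⌊s * (a + b)⌋ - ⌊s * a⌋ - ⌊s * b⌋ : ℤ) := by exact_mod_cast h8
    omega
  have := key v.1 w.1
  have := key v.2 w.2
  simp only [n1, fl, Prod.fst_add, Prod.snd_add, Prod.fst_sub, Prod.snd_sub]
  omega

lemma n1_fl_neg_le (v : ℝ × ℝ) (s : ℝ) : n1 (fl (-v) s - -fl v s) ≤ 2 := by
  have key : ∀ a : ℝ, (⌊s * -a⌋ - -⌊s * a⌋).natAbs ≤ 1 := by
    intro a
    have h1 := Int.floor_le (s * -a)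
    have h2 := Int.lt_floor_add_one (s * -a)
    have h3 := Int.floor_le (s * a)
    have h4 := Int.lt_floor_add_one (s * a)
    have h7 : (((⌊s * -a⌋ - -⌊s * a⌋ : ℤ)) : ℝ) < 1 := by push_cast; nlinarith
    have h8 : (-2 : ℝ) < (((⌊s * -a⌋ - -⌊s * a⌋ : ℤ)) : ℝ) := by push_cast; nlinarith
    have h9 : (⌊s * -a⌋ - -⌊s * a⌋ : ℤ) < 1 := by exact_mod_cast h7
    have h10 : (-2 : ℤ) < (⌊s * -a⌋ - -⌊s * a⌋ : ℤ) := by exact_mod_cast h8
    omega
  have := key v.1
  have := key v.2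
  simp only [n1, fl, Prod.fst_neg, Prod.snd_neg, Prod.fst_sub, Prod.snd_sub]
  omega

lemma fl_natCast (x : ℤ × ℤ) (k : ℕ) : fl (toR x) k = k • x := by
  simp only [fl, toR, Prod.smul_def, nsmul_eq_mul]
  have : ∀ a : ℤ, ⌊(k : ℝ) * (a : ℝ)⌋ = k * a := by
    intro a
    rw [show (k : ℝ) * (a : ℝ) = ((k * a : ℤ) : ℝ) by push_cast; ring, Int.floor_intCast]
  rw [this, this]

lemma fl_smul (c : ℝ) (v : ℝ × ℝ) (s : ℝ) : fl (c • v) s = fl v (c * s) := by
  simp only [fl, Prod.smul_fst, Prod.smul_snd, smul_eq_mul]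
  rw [show s * (c * v.1) = c * s * v.1 by ring, show s * (c * v.2) = c * s * v.2 by ring]

variable {G : Measure ℝ} [IsProbabilityMeasure G] {μ : ℝ × ℝ → ℝ}

/-- Stationarity: mean passage times only depend on the displacement. -/
lemma integral_pt (x y : ℤ × ℤ) :
    ∫ t, passageTime t x y ∂(iidLaw G) = ET G (y - x) := by
  have h := integral_pt_iso (G := G) (tr x) (fun t => passageTime t 0 (y - x))
    (measurable_pt _ _).aestronglyMeasurable
  simp only [pt_act, tr_apply, zero_add, sub_add_cancel] at h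
  exact h

/-- Stationarity for a function of one passage time. -/
lemma integral_comp_pt (f : ℝ → ℝ) (hf : Measurable f) (x y : ℤ × ℤ) :
    ∫ t, f (passageTime t x y) ∂(iidLaw G) = ∫ t, f (passageTime t 0 (y - x)) ∂(iidLaw G) := by
  have h := integral_pt_iso (G := G) (tr x) (fun t => f (passageTime t 0 (y - x)))
    (hf.comp (measurable_pt _ _)).aestronglyMeasurable
  simp only [pt_act, tr_apply, zero_add, sub_add_cancel] at h
  exact h

lemma ET_nonneg (h0 : G (Set.Iio 0) = 0) (x : ℤ × ℤ) : 0 ≤ ET G x :=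
  integral_nonneg_of_ae (by filter_upwards [ae_Nn (G := G) h0] with t ht using pt_nonneg ht _ _)

lemma ET_zero (h0 : G (Set.Iio 0) = 0) : ET G 0 = 0 := by
  unfold ET
  rw [integral_eq_zero_of_ae]
  filter_upwards [ae_Nn (G := G) h0] with t ht using pt_self ht _

lemma ET_neg (h0 : G (Set.Iio 0) = 0) (x : ℤ × ℤ) : ET G (-x) = ET G x := by
  have h1 : ∫ t, passageTime t x 0 ∂(iidLaw G) = ET G (-x) := by rw [integral_pt, zero_sub]
  rw [← h1, ET]
  refine integral_congr_ae ?_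
  filter_upwards [ae_Nn (G := G) h0] with t ht using pt_symm ht _ _

lemma ET_le (h0 : G (Set.Iio 0) = 0) (h2 : Integrable (fun x : ℝ => x ^ 2) G) (x : ℤ × ℤ) :
    ET G x ≤ (n1 x : ℝ) * ∫ z, z ∂G := by
  have := integral_pt_le h0 h2 0 x
  rwa [sub_zero] at this

lemma ET_add_le (h0 : G (Set.Iio 0) = 0) (h2 : Integrable (fun x : ℝ => x ^ 2) G)
    (x y : ℤ × ℤ) : ET G (x + y) ≤ ET G x + ET G y := by
  have h1 : ET G y = ∫ t, passageTime t x (x + y) ∂(iidLaw G) := by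
    rw [integral_pt, add_sub_cancel_left]
  rw [h1, ET, ET, ← integral_add (integrable_pt h0 h2 _ _) (integrable_pt h0 h2 _ _)]
  refine integral_mono_ae (integrable_pt h0 h2 _ _)
    ((integrable_pt h0 h2 _ _).add (integrable_pt h0 h2 _ _)) ?_
  filter_upwards [ae_Nn (G := G) h0] with t ht using pt_triangle ht _ _ _

lemma ET_nsmul_le (h0 : G (Set.Iio 0) = 0) (h2 : Integrable (fun x : ℝ => x ^ 2) G)
    (x : ℤ × ℤ) (k : ℕ) : ET G (k • x) ≤ k * ET G x := by
  induction k with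
  | zero => simp [ET_zero h0]
  | succ k ih =>
    rw [succ_nsmul]
    refine (ET_add_le h0 h2 _ _).trans ?_
    push_cast
    linarith

lemma abs_ET_sub_le (h0 : G (Set.Iio 0) = 0) (h2 : Integrable (fun x : ℝ => x ^ 2) G)
    (x y : ℤ × ℤ) : |ET G x - ET G y| ≤ (n1 (x - y) : ℝ) * ∫ z, z ∂G := by
  have h1 := ET_add_le h0 h2 (x - y) y
  have h3 := ET_add_le h0 h2 (y - x) x
  rw [sub_add_cancel] at h1 h3
  have h4 := ET_le h0 h2 (x - y)
  have h5 := ET_le h0 h2 (y - x)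
  have h6 : n1 (y - x) = n1 (x - y) := by rw [← neg_sub, n1_neg]
  rw [h6] at h5
  rw [abs_le]
  constructor <;> linarith

/-- `L¹` convergence. -/
lemma l1conv (h0 : G (Set.Iio 0) = 0) (h2 : Integrable (fun x : ℝ => x ^ 2) G)
    (hμ : IsTC G μ) (v : ℝ × ℝ) :
    Tendsto (fun s : ℝ => ∫ t, |passageTime t 0 (fl v s) / s - μ v| ∂(iidLaw G)) atTop
      (nhds 0) := by
  have hI : ∀ s : ℝ, Integrable (fun t => (passageTime t 0 (fl v s) / s) ^ 2) (iidLaw G) := by
    intro s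
    have := ((pt_sq h0 h2 0 (fl v s)).1).div_const (s ^ 2)
    simpa only [div_pow] using this
  have hI1 : ∀ s : ℝ, Integrable (fun t => passageTime t 0 (fl v s) / s) (iidLaw G) :=
    fun s => (integrable_pt h0 h2 0 (fl v s)).div_const s
  have hb : ∀ s : ℝ, ∀ t : Environment, (passageTime t 0 (fl v s) / s - μ v) ^ 2
      ≤ 2 * (passageTime t 0 (fl v s) / s) ^ 2 + 2 * μ v ^ 2 := by
    intro s t
    nlinarith [sq_nonneg (passageTime t 0 (fl v s) / s + μ v)]
  have hI2 : ∀ s : ℝ, Integrable (fun t => (passageTime t 0 (fl v s) / s - μ v) ^ 2)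
      (iidLaw G) := by
    intro s
    refine (((hI s).const_mul 2).add (integrable_const (2 * μ v ^ 2))).mono' ?_ ?_
    · exact ((((measurable_pt 0 (fl v s)).div_const s).sub_const _).pow_const 2).aestronglyMeasurable
    · filter_upwards with t
      rw [Real.norm_eq_abs, abs_of_nonneg (sq_nonneg _)]
      exact hb s t
  refine tendsto_integral_abs (C := 2 * ((l1 v + 2) ^ 2 * ∫ z, z ^ 2 ∂G) + 2 * μ v ^ 2) ?_ ?_ ?_ ?_
  · intro s
    exact ((measurable_pt 0 (fl v s)).div_const s).sub_const _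
  · intro s _
    exact hI2 s
  · intro s hs
    refine (integral_mono (hI2 s) (((hI s).const_mul 2).add (integrable_const _)) (hb s)).trans ?_
    simp only [Pi.add_apply]
    rw [integral_add ((hI s).const_mul 2) (integrable_const _), integral_const_mul]
    simp only [integral_const, probReal_univ, smul_eq_mul, one_mul]
    have h3 := (pt_sq h0 h2 0 (fl v s)).2
    rw [sub_zero] at h3
    have h4 : ∫ t, (passageTime t 0 (fl v s) / s) ^ 2 ∂(iidLaw G)
        = (∫ t, passageTime t 0 (fl v s) ^ 2 ∂(iidLaw G)) / s ^ 2 := by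
      simp only [div_pow]
      rw [integral_div]
    have h5 : (n1 (fl v s) : ℝ) ^ 2 ≤ s ^ 2 * (l1 v + 2) ^ 2 := by
      rw [← mul_pow]
      have := n1_fl_le v hs
      gcongr
    have h6 : (0 : ℝ) ≤ ∫ z, z ^ 2 ∂G := integral_nonneg fun z => sq_nonneg z
    have h7 : ∫ t, (passageTime t 0 (fl v s) / s) ^ 2 ∂(iidLaw G)
        ≤ (l1 v + 2) ^ 2 * ∫ z, z ^ 2 ∂G := by
      rw [h4, div_le_iff₀ (by positivity)]
      calc ∫ t, passageTime t 0 (fl v s) ^ 2 ∂(iidLaw G)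
          ≤ (n1 (fl v s) : ℝ) ^ 2 * ∫ z, z ^ 2 ∂G := h3
        _ ≤ (s ^ 2 * (l1 v + 2) ^ 2) * ∫ z, z ^ 2 ∂G := by gcongr
        _ = _ := by ring
    linarith
  · filter_upwards [hμ v] with t ht
    have : Tendsto (fun s : ℝ => passageTime t 0 (fl v s) / s - μ v) atTop (nhds (μ v - μ v)) :=
      ht.sub tendsto_const_nhds
    rwa [sub_self] at this

/-- Convergence of the means. -/
lemma ET_tendsto (h0 : G (Set.Iio 0) = 0) (h2 : Integrable (fun x : ℝ => x ^ 2) G)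
    (hμ : IsTC G μ) (v : ℝ × ℝ) :
    Tendsto (fun s : ℝ => ET G (fl v s) / s) atTop (nhds (μ v)) := by
  rw [tendsto_iff_norm_sub_tendsto_zero]
  refine squeeze_zero (fun s => norm_nonneg _) (fun s => ?_) (l1conv h0 h2 hμ v)
  have hI1 : Integrable (fun t => passageTime t 0 (fl v s) / s) (iidLaw G) :=
    (integrable_pt h0 h2 0 (fl v s)).div_const s
  have : ET G (fl v s) / s - μ v = ∫ t, (passageTime t 0 (fl v s) / s - μ v) ∂(iidLaw G) := by
    rw [integral_sub hI1 (integrable_const _), integral_div]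
    simp [ET]
  rw [this]
  exact norm_integral_le_integral_norm _

/-- Points at bounded distance of `s v` may be used. -/
lemma ET_tendsto' (h0 : G (Set.Iio 0) = 0) (h2 : Integrable (fun x : ℝ => x ^ 2) G)
    (hμ : IsTC G μ) (v : ℝ × ℝ) (x : ℝ → ℤ × ℤ) (c : ℕ) (hx : ∀ s, n1 (x s - fl v s) ≤ c) :
    Tendsto (fun s : ℝ => ET G (x s) / s) atTop (nhds (μ v)) := by
  have h1 := ET_tendsto h0 h2 hμ v
  have h3 : Tendsto (fun s : ℝ => ET G (x s) / s - ET G (fl v s) / s) atTop (nhds 0) := by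
    have h4 : Tendsto (fun s : ℝ => (c * ∫ z, z ∂G) / s) atTop (nhds 0) :=
      tendsto_const_nhds.div_atTop tendsto_id
    refine squeeze_zero_norm' ?_ h4
    filter_upwards [eventually_gt_atTop 0] with s hs
    rw [← sub_div, norm_div, Real.norm_eq_abs, Real.norm_eq_abs, abs_of_pos hs]
    have h5 := abs_ET_sub_le h0 h2 (x s) (fl v s)
    have h6 : (0 : ℝ) ≤ ∫ z, z ∂G := integral_nonneg_of_ae (ae_nonneg h0)
    have h7 : (n1 (x s - fl v s) : ℝ) ≤ c := by exact_mod_cast hx s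
    gcongr
    exact h5.trans (by gcongr)
  have := h3.add h1
  simpa using this

section norm

variable (h0 : G (Set.Iio 0) = 0) (h2 : Integrable (fun x : ℝ => x ^ 2) G) (hμ : IsTC G μ)
include h0 h2 hμ

lemma mu_nonneg (v : ℝ × ℝ) : 0 ≤ μ v := by
  refine ge_of_tendsto (ET_tendsto h0 h2 hμ v) ?_
  filter_upwards [eventually_ge_atTop 0] with s hs
  exact div_nonneg (ET_nonneg h0 _) hs

lemma mu_zero : μ 0 = 0 := by
  have h1 := ET_tendsto h0 h2 hμ 0
  have h3 : ∀ s : ℝ, ET G (fl 0 s) / s = 0 := by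
    intro s
    have : fl 0 s = 0 := by simp [fl]
    rw [this, ET_zero h0, zero_div]
  simp only [h3] at h1
  exact (tendsto_nhds_unique h1 tendsto_const_nhds)

lemma mu_smul {c : ℝ} (hc : 0 ≤ c) (v : ℝ × ℝ) : μ (c • v) = c * μ v := by
  rcases hc.eq_or_lt with rfl | hc
  · rw [zero_smul, zero_mul]; exact mu_zero h0 h2 hμ
  have h1 := ET_tendsto h0 h2 hμ (c • v)
  have h3 := ((ET_tendsto h0 h2 hμ v).comp (tendsto_id.const_mul_atTop hc)).const_mul c
  refine tendsto_nhds_unique h1 (h3.congr fun s => ?_)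
  simp only [Function.comp_apply, id, fl_smul]
  rcases eq_or_ne s 0 with rfl | hs
  · simp
  · field_simp

lemma mu_add_le (v w : ℝ × ℝ) : μ (v + w) ≤ μ v + μ w := by
  have h1 := ET_tendsto h0 h2 hμ (v + w)
  have h3 := (ET_tendsto h0 h2 hμ v).add (ET_tendsto' h0 h2 hμ w
    (fun s => fl (v + w) s - fl v s) 2 (n1_fl_sub_le v w))
  refine le_of_tendsto_of_tendsto h1 h3 ?_
  filter_upwards [eventually_gt_atTop 0] with s hs
  rw [← add_div]
  gcongr
  have := ET_add_le h0 h2 (fl v s) (fl (v + w) s - fl v s)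
  rwa [add_sub_cancel] at this

lemma mu_neg (v : ℝ × ℝ) : μ (-v) = μ v := by
  have h1 := ET_tendsto h0 h2 hμ v
  have h3 := ET_tendsto' h0 h2 hμ (-v) (fun s => -fl v s) 2 (fun s => by
    have := n1_fl_neg_le v s
    rwa [← neg_sub, n1_neg] at this)
  simp only [ET_neg h0] at h3
  exact tendsto_nhds_unique h3 h1

lemma mu_le (v : ℝ × ℝ) : μ v ≤ (∫ z, z ∂G) * l1 v := by
  have h1 := ET_tendsto h0 h2 hμ v
  have h4 : Tendsto (fun s : ℝ => (∫ z, z ∂G) * l1 v + (2 * ∫ z, z ∂G) / s) atTop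
      (nhds ((∫ z, z ∂G) * l1 v + 0)) :=
    tendsto_const_nhds.add (tendsto_const_nhds.div_atTop tendsto_id)
  rw [add_zero] at h4
  refine le_of_tendsto_of_tendsto h1 h4 ?_
  filter_upwards [eventually_gt_atTop 0] with s hs
  have h5 := ET_le h0 h2 (fl v s)
  have h6 : (0 : ℝ) ≤ ∫ z, z ∂G := integral_nonneg_of_ae (ae_nonneg h0)
  have h7 : (n1 (fl v s) : ℝ) ≤ s * l1 v + 2 := by
    rw [← l1_toR]
    simp only [l1, toR, fl]
    have h1 := abs_floor_le (s * v.1)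
    have h2 := abs_floor_le (s * v.2)
    rw [abs_mul, abs_of_pos hs] at h1 h2
    nlinarith
  rw [div_le_iff₀ hs]
  calc ET G (fl v s) ≤ (n1 (fl v s) : ℝ) * ∫ z, z ∂G := h5
    _ ≤ (s * l1 v + 2) * ∫ z, z ∂G := by gcongr
    _ = _ := by field_simp

lemma abs_mu_sub_le (v w : ℝ × ℝ) : |μ v - μ w| ≤ (∫ z, z ∂G) * l1 (v - w) := by
  have h1 := mu_add_le h0 h2 hμ (v - w) w
  have h3 := mu_add_le h0 h2 hμ (w - v) v
  rw [sub_add_cancel] at h1 h3
  have h4 := mu_le h0 h2 hμ (v - w)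
  have h5 : μ (w - v) = μ (v - w) := by rw [← neg_sub, mu_neg h0 h2 hμ]
  rw [abs_le]
  constructor <;> linarith

lemma mu_le_ET (x : ℤ × ℤ) : μ (toR x) ≤ ET G x := by
  have h1 := (ET_tendsto h0 h2 hμ (toR x)).comp tendsto_natCast_atTop_atTop
  refine le_of_tendsto h1 ?_
  filter_upwards [eventually_gt_atTop 0] with k hk
  simp only [Function.comp_apply, fl_natCast]
  rw [div_le_iff₀ (by exact_mod_cast hk), mul_comm]
  exact ET_nsmul_le h0 h2 x k

lemma mu_swap (v : ℝ × ℝ) : μ (v.2, v.1) = μ v := by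
  have h1 := ET_tendsto h0 h2 hμ v
  have h3 := ET_tendsto h0 h2 hμ (v.2, v.1)
  have h4 : ∀ x : ℤ × ℤ, ET G (x.2, x.1) = ET G x := by
    intro x
    have h := integral_pt_iso (G := G) sw (fun t => passageTime t 0 x)
      (measurable_pt _ _).aestronglyMeasurable
    simp only [pt_act, sw_apply] at h
    exact h
  refine tendsto_nhds_unique h3 (h1.congr fun s => ?_)
  rw [← h4]
  rfl

lemma mu_neg_fst (v : ℝ × ℝ) : μ (-v.1, v.2) = μ v := by
  have h1 := ET_tendsto h0 h2 hμ v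
  have h4 : ∀ x : ℤ × ℤ, ET G (-x.1, x.2) = ET G x := by
    intro x
    have h := integral_pt_iso (G := G) ng (fun t => passageTime t 0 x)
      (measurable_pt _ _).aestronglyMeasurable
    simp only [pt_act, ng_apply, Prod.fst_zero, Prod.snd_zero, neg_zero] at h
    exact h
  have h3 := ET_tendsto' h0 h2 hμ (-v.1, v.2) (fun s => (-(fl v s).1, (fl v s).2)) 2 (fun s => by
    have := n1_fl_neg_le v s
    rw [← neg_sub, n1_neg] at this
    simp only [n1, fl, Prod.fst_neg, Prod.snd_neg, Prod.fst_sub, Prod.snd_sub] at this ⊢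
    omega)
  simp only [h4] at h3
  exact tendsto_nhds_unique h3 h1

end norm

end Crest.Agent.R151.K
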