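import Crest.Agent.R151.D411a
import Crest.Agent.R151.Pl4
import Crest.Agent.R151.Y635A

/-!
# R151 / S0213, D411b: a sequence that avoids two diagonal barriers stays in a sector

`east`: let `b, b'` be lattice paths going to infinity in the cones around `(1,1)` and `(1,-1)`,
`r` a path going to infinity which eventually avoids `b` and `b'`. If `r` visits (late) the core
`|y| < m x` of the east sector, then it stays in the east sector `m |y| ≤ x`.
-/

set_option autoImplicit false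

namespace Crest.Agent.R151.D411

open Filter Topology Set
open Crest.ProbabilityR.FirstPassage
open Crest.Agent.R151.K (l1 toR n1)
open Crest.Agent.R151.Pl (exists_rt exists_lf exists_up exists_dn exists_box exists_bound cross lin)

/-- a lattice path -/
def IsSeq (v : ℕ → ℤ × ℤ) : Prop := ∀ k, squareLattice.Adj (v k) (v (k + 1))

theorem exists_walk' (p q : ℤ × ℤ) : Nonempty (squareLattice.Walk p q) := by
  have h1 : Nonempty (squareLattice.Walk p (q.1, p.2)) := by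
    rcases le_total p.1 q.1 with h | h
    · obtain ⟨r, -⟩ := exists_rt p q.1 h
      exact ⟨r⟩
    · obtain ⟨r, -⟩ := exists_lf p q.1 h
      exact ⟨r⟩
  have h2 : Nonempty (squareLattice.Walk (q.1, p.2) q) := by
    rcases le_total p.2 q.2 with h | h
    · obtain ⟨r, -⟩ := exists_up (q.1, p.2) q.2 h
      exact ⟨r⟩
    · obtain ⟨r, -⟩ := exists_dn (q.1, p.2) q.2 h
      exact ⟨r⟩
  obtain ⟨w1⟩ := h1
  obtain ⟨w2⟩ := h2
  exact ⟨w1.append w2⟩

/-- the piece of a path between two late vertices -/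
theorem exists_piece {r : ℕ → ℤ × ℤ} (hr : IsSeq r) {n0 i j : ℕ} (hi : n0 ≤ i) (hj : n0 ≤ j) :
    ∃ w : squareLattice.Walk (r i) (r j), ∀ x ∈ w.support, ∃ k, n0 ≤ k ∧ x = r k := by
  have key : ∀ i j, n0 ≤ i → i ≤ j →
      ∃ w : squareLattice.Walk (r i) (r j), ∀ x ∈ w.support, ∃ k, n0 ≤ k ∧ x = r k := by
    intro i j hi hij
    obtain ⟨d, rfl⟩ := Nat.exists_eq_add_of_le hij
    refine ⟨Y.seqWalk r hr i d, fun x hx => ?_⟩
    rw [Y.mem_support_seqWalk] at hx
    obtain ⟨k, -, rfl⟩ := hx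
    exact ⟨i + k, by omega, rfl⟩
  rcases le_total i j with h | h
  · exact key i j hi h
  · obtain ⟨w, hw⟩ := key j i hj h
    refine ⟨w.reverse, fun x hx => ?_⟩
    rw [SimpleGraph.Walk.support_reverse, List.mem_reverse] at hx
    exact hw x hx

/-- the box of radius `C` is left -/
theorem eventually_out {ι : Type*} {l : Filter ι} {r : ι → ℤ × ℤ} (hr : Tendsto r l cofinite)
    (C : ℝ) : ∀ᶠ n in l, C < |((r n).1 : ℝ)| ∨ C < |((r n).2 : ℝ)| := by
  obtain ⟨N, hN⟩ := exists_nat_ge C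
  have hfin : (Set.Icc (-(N : ℤ)) N ×ˢ Set.Icc (-(N : ℤ)) N : Set (ℤ × ℤ)).Finite :=
    (Set.finite_Icc _ _).prod (Set.finite_Icc _ _)
  filter_upwards [hr.eventually hfin.compl_mem_cofinite] with n hn
  by_contra hcon
  push Not at hcon
  apply hn
  have h1 := hcon.1.trans hN
  have h2 := hcon.2.trans hN
  rw [abs_le] at h1 h2
  refine ⟨⟨?_, ?_⟩, ⟨?_, ?_⟩⟩
  · exact_mod_cast h1.1
  · exact_mod_cast h1.2
  · exact_mod_cast h2.1
  · exact_mod_cast h2.2

theorem Diag.pos {m σ τ : ℝ} (hm : 0 < m) (hm1 : m < 1) {z : ℝ × ℝ} (h : Diag m σ τ z) :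
    0 < σ * z.1 ∧ 0 < τ * z.2 := by
  obtain ⟨h1, h2⟩ := h
  have a : 0 < τ * z.2 := by
    by_contra hc
    push Not at hc
    have hX : σ * z.1 < 0 := by
      by_contra hX
      push Not at hX
      have := mul_nonneg hm.le hX
      linarith
    have h3 : m * (m * (σ * z.1)) < m * (τ * z.2) := mul_lt_mul_of_pos_left h1 hm
    have h4 : m * m < 1 := by nlinarith
    have h5 : (σ * z.1) < m * m * (σ * z.1) := by nlinarith
    linarith
  refine ⟨?_, a⟩
  have := mul_pos hm a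
  linarith

/-- in a diagonal cone the height tends to infinity -/
theorem eventually_high {m : ℝ} (hm : 0 < m) (hm1 : m < 1) {τ : ℝ} (hτ : |τ| = 1)
    {b : ℕ → ℤ × ℤ} (hb : Tendsto b atTop cofinite)
    (hc : ∀ᶠ k in atTop, Diag m 1 τ (toR (b k))) (U : ℝ) :
    ∀ᶠ k in atTop, U < τ * ((b k).2 : ℝ) := by
  filter_upwards [hc, eventually_out hb (|U| / m + |U|)] with k h1 h2
  obtain ⟨p1, p2⟩ := h1.pos hm hm1
  obtain ⟨q1, q2⟩ := h1
  simp only [toR, one_mul] at p1 p2 q1 q2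
  by_contra hcon
  push Not at hcon
  have hU : τ * ((b k).2 : ℝ) ≤ |U| := hcon.trans (le_abs_self U)
  have e2 : |((b k).2 : ℝ)| = τ * ((b k).2 : ℝ) := by
    rw [← abs_of_pos p2, abs_mul, hτ, one_mul]
  have e1 : |((b k).1 : ℝ)| = ((b k).1 : ℝ) := abs_of_pos p1
  have hd : 0 ≤ |U| / m := by positivity
  rcases h2 with h2 | h2
  · rw [e1] at h2
    have : ((b k).1 : ℝ) < |U| / m := by
      rw [lt_div_iff₀ hm]
      linarith
    have := abs_nonneg U
    linarith
  · rw [e2] at h2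
    linarith

/-- a finite initial part is bounded -/
theorem exists_initial_bound (b : ℕ → ℤ × ℤ) (K : ℕ) :
    ∃ C : ℝ, ∀ k < K, |((b k).1 : ℝ)| ≤ C ∧ |((b k).2 : ℝ)| ≤ C := by
  induction K with
  | zero => exact ⟨0, fun k hk => absurd hk (Nat.not_lt_zero _)⟩
  | succ K ih =>
    obtain ⟨C, hC⟩ := ih
    refine ⟨max C (max |((b K).1 : ℝ)| |((b K).2 : ℝ)|), fun k hk => ?_⟩
    rcases Nat.lt_succ_iff_lt_or_eq.1 hk with h | rfl
    · exact ⟨(hC k h).1.trans (le_max_left _ _), (hC k h).2.trans (le_max_left _ _)⟩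
    · exact ⟨(le_max_left _ _).trans (le_max_right _ _), (le_max_right _ _).trans (le_max_right _ _)⟩

/-- **Planar separation by two diagonal barriers.** -/
theorem east {m : ℝ} (hm : 0 < m) (hm1 : m < 1) {b b' r : ℕ → ℤ × ℤ}
    (hb : IsSeq b) (hb' : IsSeq b') (hr : IsSeq r)
    (hbt : Tendsto b atTop cofinite) (hbt' : Tendsto b' atTop cofinite)
    (hrt : Tendsto r atTop cofinite)
    (hbc : ∀ᶠ k in atTop, Diag m 1 1 (toR (b k)))
    (hbc' : ∀ᶠ k in atTop, Diag m 1 (-1) (toR (b' k)))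
    (hdis : ∀ᶠ n in atTop, ∀ k, r n ≠ b k) (hdis' : ∀ᶠ n in atTop, ∀ k, r n ≠ b' k) :
    ∃ n1, (∃ n ≥ n1, |((r n).2 : ℝ)| < m * ((r n).1 : ℝ)) →
      ∀ n ≥ n1, m * |((r n).2 : ℝ)| ≤ ((r n).1 : ℝ) := by
  obtain ⟨cw⟩ := exists_walk' (b' 0) (b 0)
  obtain ⟨N, hN⟩ := exists_box cw
  obtain ⟨K0, hK0⟩ := eventually_atTop.1 hbc
  obtain ⟨K0', hK0'⟩ := eventually_atTop.1 hbc'
  obtain ⟨C1, hC1⟩ := exists_initial_bound b K0
  obtain ⟨C2, hC2⟩ := exists_initial_bound b' K0'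
  -- the bound of the central part
  set C : ℝ := (N : ℝ) + |C1| + |C2| with hC
  have hCN : (N : ℝ) ≤ C := by
    have := abs_nonneg C1
    have := abs_nonneg C2
    linarith
  have hC0 : 0 ≤ C := le_trans (Nat.cast_nonneg N) hCN
  have hCC1 : C1 ≤ C := by
    have := le_abs_self C1
    have := abs_nonneg C2
    have : (0 : ℝ) ≤ N := Nat.cast_nonneg N
    linarith
  have hCC2 : C2 ≤ C := by
    have := le_abs_self C2
    have := abs_nonneg C1
    have : (0 : ℝ) ≤ N := Nat.cast_nonneg N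
    linarith
  have hcw : ∀ x ∈ cw.support, |(x.1 : ℝ)| ≤ C ∧ |(x.2 : ℝ)| ≤ C := by
    intro x hx
    obtain ⟨h1, h2⟩ := hN x hx
    constructor
    · refine le_trans ?_ hCN
      exact_mod_cast h1
    · refine le_trans ?_ hCN
      exact_mod_cast h2
  -- points of `b`: central or in the cone
  have memb : ∀ k, (|((b k).1 : ℝ)| ≤ C ∧ |((b k).2 : ℝ)| ≤ C) ∨
      (m * ((b k).1 : ℝ) < ((b k).2 : ℝ) ∧ m * ((b k).2 : ℝ) < ((b k).1 : ℝ) ∧
        0 < ((b k).1 : ℝ) ∧ 0 < ((b k).2 : ℝ)) := by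
    intro k
    rcases lt_or_ge k K0 with h | h
    · exact Or.inl ⟨(hC1 k h).1.trans hCC1, (hC1 k h).2.trans hCC1⟩
    · right
      have h1 := hK0 k h
      obtain ⟨p1, p2⟩ := h1.pos hm hm1
      obtain ⟨q1, q2⟩ := h1
      simp only [toR, one_mul] at p1 p2 q1 q2
      exact ⟨q1, q2, p1, p2⟩
  have memb' : ∀ k, (|((b' k).1 : ℝ)| ≤ C ∧ |((b' k).2 : ℝ)| ≤ C) ∨
      (m * ((b' k).1 : ℝ) < -((b' k).2 : ℝ) ∧ m * (-((b' k).2 : ℝ)) < ((b' k).1 : ℝ) ∧
        0 < ((b' k).1 : ℝ) ∧ ((b' k).2 : ℝ) < 0) := by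
    intro k
    rcases lt_or_ge k K0' with h | h
    · exact Or.inl ⟨(hC2 k h).1.trans hCC2, (hC2 k h).2.trans hCC2⟩
    · right
      have h1 := hK0' k h
      obtain ⟨p1, p2⟩ := h1.pos hm hm1
      obtain ⟨q1, q2⟩ := h1
      simp only [toR, one_mul, neg_one_mul] at p1 p2 q1 q2
      exact ⟨q1, q2, p1, by linarith⟩
  obtain ⟨n1, hn1⟩ := eventually_atTop.1
    ((hdis.and hdis').and (eventually_out hrt (2 * C + 1 + 2 * C / m)))
  refine ⟨n1, ?_⟩
  rintro ⟨n, hn, hcore⟩ n' hn'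
  by_contra hcon
  push Not at hcon
  -- `p = r n` in the core, `q = r n'` not in the sector
  obtain ⟨β0, hβ0⟩ := exists_piece hr hn' hn
  obtain ⟨U, hU⟩ := exists_bound β0 0 1
  have hU' : ∀ x ∈ β0.support, |(x.2 : ℝ)| ≤ U := by
    intro x hx
    have := hU x hx
    simpa [lin] using this
  -- long pieces of the barriers
  obtain ⟨K, hK⟩ := (eventually_high hm hm1 (τ := 1) (by simp) hbt hbc U).exists
  obtain ⟨K', hK'⟩ := (eventually_high hm hm1 (τ := -1) (by simp) hbt' hbc' U).exists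
  rw [one_mul] at hK
  obtain ⟨w1, hw1⟩ := exists_piece hb' (Nat.zero_le K') (Nat.zero_le 0)
  obtain ⟨w2, hw2⟩ := exists_piece hb (Nat.zero_le 0) (Nat.zero_le K)
  set α := (w1.append cw).append w2 with hα
  have memα : ∀ x ∈ α.support, (∃ k, x = b' k) ∨ x ∈ cw.support ∨ (∃ k, x = b k) := by
    intro x hx
    simp only [hα, SimpleGraph.Walk.mem_support_append_iff] at hx
    rcases hx with (h | h) | h
    · obtain ⟨k, -, hk⟩ := hw1 x h
      exact Or.inl ⟨k, hk⟩
    · exact Or.inr (Or.inl h)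
    · obtain ⟨k, -, hk⟩ := hw2 x h
      exact Or.inr (Or.inr ⟨k, hk⟩)
  obtain ⟨M, hM⟩ := exists_box α
  -- horizontal extensions of `β0`
  have hMq : -(M : ℤ) - 1 - |(r n').1| ≤ (r n').1 := by
    have := neg_abs_le (r n').1
    omega
  have hMp : (r n).1 ≤ (M : ℤ) + 1 + |(r n).1| := by
    have := le_abs_self (r n).1
    omega
  obtain ⟨wl, hwl⟩ := exists_lf (r n') (-(M : ℤ) - 1 - |(r n').1|) hMq
  obtain ⟨wr, hwr⟩ := exists_rt (r n) ((M : ℤ) + 1 + |(r n).1|) hMp
  set β := (wl.reverse.append β0).append wr with hβ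
  have memβ : ∀ x ∈ β.support, (x.2 = (r n').2 ∧ x.1 ≤ (r n').1) ∨ x ∈ β0.support ∨
      (x.2 = (r n).2 ∧ (r n).1 ≤ x.1) := by
    intro x hx
    simp only [hβ, SimpleGraph.Walk.mem_support_append_iff, SimpleGraph.Walk.support_reverse,
      List.mem_reverse] at hx
    rcases hx with (h | h) | h
    · have := hwl x h
      exact Or.inl ⟨this.1, this.2.2⟩
    · exact Or.inr (Or.inl h)
    · have := hwr x h
      exact Or.inr (Or.inr ⟨this.1, this.2.1⟩)
  obtain ⟨x, hxα, hxβ⟩ := cross (n11 := 0) (n12 := 1) (n21 := 1) (n22 := 0) (by norm_num) α β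
    (by
      intro x hx
      have hx2 : |(x.2 : ℝ)| ≤ U := by
        rcases memβ x hx with h | h | h
        · rw [h.1]
          exact hU' _ β0.start_mem_support
        · exact hU' x h
        · rw [h.1]
          exact hU' _ β0.end_mem_support
      rw [abs_le] at hx2
      simp only [lin, zero_mul, one_mul, zero_add]
      constructor <;> linarith)
    (by
      intro x hx
      have h := (hM x hx).1
      rw [abs_le] at h
      have h1 : -(M : ℝ) ≤ x.1 := by exact_mod_cast h.1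
      have h2 : (x.1 : ℝ) ≤ M := by exact_mod_cast h.2
      simp only [lin, zero_mul, one_mul, add_zero]
      push_cast
      have a1 : (0 : ℝ) ≤ |((r n').1 : ℝ)| := abs_nonneg _
      have a2 : (0 : ℝ) ≤ |((r n).1 : ℝ)| := abs_nonneg _
      constructor <;> linarith)
  -- exclude all cases
  obtain ⟨⟨-, -⟩, hout⟩ := hn1 n hn
  obtain ⟨⟨-, -⟩, hout'⟩ := hn1 n' hn'
  have hCm : 0 ≤ 2 * C / m := by positivity
  have hp1 : 0 < ((r n).1 : ℝ) := by
    by_contra hc
    push Not at hc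
    have := abs_nonneg ((r n).2 : ℝ)
    nlinarith
  have hpC : C < ((r n).1 : ℝ) := by
    rcases hout with h | h
    · rw [abs_of_pos hp1] at h
      linarith
    · nlinarith
  -- not central
  have excl : ∀ x : ℤ × ℤ, |(x.1 : ℝ)| ≤ C → |(x.2 : ℝ)| ≤ C → x ∈ β.support → False := by
    intro x h1 h2 hx
    rcases memβ x hx with ⟨h3, h4⟩ | h | ⟨h3, h4⟩
    · -- left extension
      have h4' : (x.1 : ℝ) ≤ ((r n').1 : ℝ) := by exact_mod_cast h4
      have h3' : (x.2 : ℝ) = ((r n').2 : ℝ) := by exact_mod_cast h3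
      rw [h3'] at h2
      rw [abs_le] at h1
      rcases hout' with h | h
      · rcases abs_cases ((r n').1 : ℝ) with ⟨e, -⟩ | ⟨e, -⟩
        · rw [e] at h
          nlinarith
        · rw [e] at h
          linarith
      · linarith
    · obtain ⟨k, hk, rfl⟩ := hβ0 x h
      obtain ⟨-, h3⟩ := hn1 k hk
      rcases h3 with h3 | h3 <;> linarith
    · have h4' : ((r n).1 : ℝ) ≤ (x.1 : ℝ) := by exact_mod_cast h4
      rw [abs_le] at h1
      linarith
  rcases memα x hxα with ⟨k, hk⟩ | hx | ⟨k, hk⟩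
  · rcases memb' k with ⟨h1, h2⟩ | ⟨h1, h2, h3, h4⟩
    · exact excl x (by rw [hk]; exact h1) (by rw [hk]; exact h2) hxβ
    · rcases memβ x hxβ with ⟨h5, h6⟩ | h | ⟨h5, h6⟩
      · rw [hk] at h5 h6
        have h5' : ((b' k).2 : ℝ) = ((r n').2 : ℝ) := by exact_mod_cast h5
        have h6' : ((b' k).1 : ℝ) ≤ ((r n').1 : ℝ) := by exact_mod_cast h6
        rw [← h5', abs_of_neg h4] at hcon
        linarith
      · obtain ⟨j, hj, hj'⟩ := hβ0 x h
        exact (hn1 j hj).1.2 k (hj'.symm.trans hk)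
      · rw [hk] at h5 h6
        have h5' : ((b' k).2 : ℝ) = ((r n).2 : ℝ) := by exact_mod_cast h5
        have h6' : ((r n).1 : ℝ) ≤ ((b' k).1 : ℝ) := by exact_mod_cast h6
        rw [← h5', abs_of_neg h4] at hcore
        nlinarith
  · obtain ⟨h1, h2⟩ := hcw x hx
    exact excl x h1 h2 hxβ
  · rcases memb k with ⟨h1, h2⟩ | ⟨h1, h2, h3, h4⟩
    · exact excl x (by rw [hk]; exact h1) (by rw [hk]; exact h2) hxβ
    · rcases memβ x hxβ with ⟨h5, h6⟩ | h | ⟨h5, h6⟩
      · rw [hk] at h5 h6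
        have h5' : ((b k).2 : ℝ) = ((r n').2 : ℝ) := by exact_mod_cast h5
        have h6' : ((b k).1 : ℝ) ≤ ((r n').1 : ℝ) := by exact_mod_cast h6
        rw [← h5', abs_of_pos h4] at hcon
        linarith
      · obtain ⟨j, hj, hj'⟩ := hβ0 x h
        exact (hn1 j hj).1.1 k (hj'.symm.trans hk)
      · rw [hk] at h5 h6
        have h5' : ((b k).2 : ℝ) = ((r n).2 : ℝ) := by exact_mod_cast h5
        have h6' : ((r n).1 : ℝ) ≤ ((b k).1 : ℝ) := by exact_mod_cast h6
        rw [← h5', abs_of_pos h4] at hcore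
        nlinarith

end Crest.Agent.R151.D411
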