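import Crest.Agent.R151.D411b

/-!
# R151 / S0213, D411c: every ray is eventually in one sector

`ray_sector`: if in each of the four diagonal cones there is a barrier ray, then every ray of the
plane is eventually in one of the four closed sectors `Sec m d`.
-/

set_option autoImplicit false

namespace Crest.Agent.R151.D411

open Filter Topology Set
open Crest.ProbabilityR.FirstPassage
open Crest.Agent.R151.K (l1 toR n1)
open Crest.Agent.R151.Y (IsRay Coal)

/-- a barrier in the diagonal cone with signs `σ, τ` avoided by `r` -/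
structure Bar (m σ τ : ℝ) (r b : ℕ → ℤ × ℤ) : Prop where
  seq : IsSeq b
  out : Tendsto b atTop cofinite
  cone : ∀ᶠ k in atTop, Diag m σ τ (toR (b k))
  dis : ∀ᶠ n in atTop, ∀ k, r n ≠ b k

theorem Bar.map {m σ τ σ' τ' : ℝ} {r b : ℕ → ℤ × ℤ} (h : Bar m σ τ r b) {φ : ℤ × ℤ → ℤ × ℤ}
    (hinj : Function.Injective φ)
    (hadj : ∀ x y, squareLattice.Adj x y → squareLattice.Adj (φ x) (φ y))
    (hd : ∀ z : ℤ × ℤ, Diag m σ τ (toR z) → Diag m σ' τ' (toR (φ z))) :
    Bar m σ' τ' (fun n => φ (r n)) (fun n => φ (b n)) :=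
  ⟨fun k => hadj _ _ (h.seq k), hinj.tendsto_cofinite.comp h.out,
    h.cone.mono fun _ hk => hd _ hk, h.dis.mono fun _ hn k hnk => hn k (hinj hnk)⟩

/-- the rotation of the direction `d` to the east -/
def rotE : Ax → ℤ × ℤ → ℤ × ℤ
  | .E, z => z
  | .N, z => (z.2, -z.1)
  | .W, z => (-z.1, -z.2)
  | .S, z => (-z.2, z.1)

theorem rotE_inj (d : Ax) : Function.Injective (rotE d) := by
  rintro ⟨a, b⟩ ⟨a', b'⟩ h
  cases d <;> simp only [rotE, Prod.mk.injEq] at h ⊢ <;> omega

theorem rotE_adj (d : Ax) (x y : ℤ × ℤ) (h : squareLattice.Adj x y) :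
    squareLattice.Adj (rotE d x) (rotE d y) := by
  rw [Pl.adj_iff] at h ⊢
  obtain ⟨a, b⟩ := x
  obtain ⟨a', b'⟩ := y
  cases d <;> simp only [rotE, Prod.mk.injEq] at h ⊢ <;> omega

theorem rotE_fst (d : Ax) (z : ℤ × ℤ) : ((rotE d z).1 : ℝ) = al d (toR z) := by
  cases d <;> simp [rotE, al, toR]

theorem rotE_snd (d : Ax) (z : ℤ × ℤ) : |((rotE d z).2 : ℝ)| = |be d (toR z)| := by
  cases d <;> simp [rotE, be, toR]

theorem core_sec {m : ℝ} (hm : 0 < m) (hm1 : m < 1) (d : Ax) {r : ℕ → ℤ × ℤ} (hr : IsSeq r)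
    (hrt : Tendsto r atTop cofinite)
    (hbar : ∀ σ τ : ℝ, |σ| = 1 → |τ| = 1 → ∃ b, Bar m σ τ r b) :
    ∃ n1, (∃ n ≥ n1, |be d (toR (r n))| < m * al d (toR (r n))) →
      ∀ n ≥ n1, Sec m d (toR (r n)) := by
  obtain ⟨b, b', hb, hb'⟩ : ∃ b b', Bar m 1 1 (fun n => rotE d (r n)) b ∧
      Bar m 1 (-1) (fun n => rotE d (r n)) b' := by
    obtain ⟨b1, h1⟩ := hbar 1 1 (by simp) (by simp)
    obtain ⟨b2, h2⟩ := hbar (-1) 1 (by simp) (by simp)
    obtain ⟨b3, h3⟩ := hbar (-1) (-1) (by simp) (by simp)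
    obtain ⟨b4, h4⟩ := hbar 1 (-1) (by simp) (by simp)
    cases d with
    | E => exact ⟨b1, b4, h1, h4⟩
    | N =>
      refine ⟨_, _, h2.map (rotE_inj .N) (rotE_adj .N) ?_, h1.map (rotE_inj .N) (rotE_adj .N) ?_⟩
      · intro z hz
        simp only [Diag, toR, rotE] at hz ⊢
        push_cast
        constructor <;> linarith [hz.1, hz.2]
      · intro z hz
        simp only [Diag, toR, rotE] at hz ⊢
        push_cast
        constructor <;> linarith [hz.1, hz.2]
    | W =>
      refine ⟨_, _, h3.map (rotE_inj .W) (rotE_adj .W) ?_, h2.map (rotE_inj .W) (rotE_adj .W) ?_⟩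
      · intro z hz
        simp only [Diag, toR, rotE] at hz ⊢
        push_cast
        constructor <;> linarith [hz.1, hz.2]
      · intro z hz
        simp only [Diag, toR, rotE] at hz ⊢
        push_cast
        constructor <;> linarith [hz.1, hz.2]
    | S =>
      refine ⟨_, _, h4.map (rotE_inj .S) (rotE_adj .S) ?_, h3.map (rotE_inj .S) (rotE_adj .S) ?_⟩
      · intro z hz
        simp only [Diag, toR, rotE] at hz ⊢
        push_cast
        constructor <;> linarith [hz.1, hz.2]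
      · intro z hz
        simp only [Diag, toR, rotE] at hz ⊢
        push_cast
        constructor <;> linarith [hz.1, hz.2]
  obtain ⟨n1, h⟩ := east hm hm1 hb.seq hb'.seq (fun k => rotE_adj d _ _ (hr k)) hb.out hb'.out
    ((rotE_inj d).tendsto_cofinite.comp hrt) hb.cone hb'.cone hb.dis hb'.dis
  refine ⟨n1, ?_⟩
  rintro ⟨n, hn, hcore⟩ k hk
  have := h ⟨n, hn, by rw [rotE_fst, rotE_snd]; exact hcore⟩ k hk
  rw [rotE_fst, rotE_snd] at this
  exact this

/-- a path that avoids the four barriers is eventually in one sector -/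
theorem seq_sector {m : ℝ} (hm : 0 < m) (hm1 : m < 1) {r : ℕ → ℤ × ℤ} (hr : IsSeq r)
    (hrt : Tendsto r atTop cofinite)
    (hbar : ∀ σ τ : ℝ, |σ| = 1 → |τ| = 1 → ∃ b, Bar m σ τ r b) :
    ∃ d, ∀ᶠ n in atTop, Sec m d (toR (r n)) := by
  choose N hN using fun d : Ax => core_sec hm hm1 d hr hrt hbar
  obtain ⟨N0, hN0⟩ := eventually_atTop.1 (eventually_out hrt 1)
  set n2 : ℕ := max (max (N .E) (N .N)) (max (max (N .W) (N .S)) N0) with hn2
  have hE : N .E ≤ n2 := by omega
  have hNN : N .N ≤ n2 := by omega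
  have hW : N .W ≤ n2 := by omega
  have hS : N .S ≤ n2 := by omega
  have h0 : N0 ≤ n2 := by omega
  by_cases hc : ∃ d : Ax, ∃ n ≥ n2, |be d (toR (r n))| < m * al d (toR (r n))
  · obtain ⟨d, n, hn, hcore⟩ := hc
    have hd : N d ≤ n2 := by cases d <;> assumption
    refine ⟨d, eventually_atTop.2 ⟨n2, fun k hk => ?_⟩⟩
    exact hN d ⟨n, hd.trans hn, hcore⟩ k (hd.trans hk)
  · push Not at hc
    have key : ∀ n ≥ n2, m * |((r n).1 : ℝ)| ≤ |((r n).2 : ℝ)| ∧ (r n).2 ≠ 0 := by
      intro n hn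
      have e := hc .E n hn
      have nn := hc .N n hn
      have w := hc .W n hn
      have s := hc .S n hn
      simp only [al, be, toR] at e nn w s
      have h1 : m * |((r n).1 : ℝ)| ≤ |((r n).2 : ℝ)| := by
        rcases abs_cases ((r n).1 : ℝ) with ⟨h, -⟩ | ⟨h, -⟩ <;> rw [h] <;> assumption
      have h2 : m * |((r n).2 : ℝ)| ≤ |((r n).1 : ℝ)| := by
        rcases abs_cases ((r n).2 : ℝ) with ⟨h, -⟩ | ⟨h, -⟩ <;> rw [h] <;> assumption
      refine ⟨h1, fun h3 => ?_⟩
      rw [h3] at h1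
      simp only [Int.cast_zero, abs_zero] at h1
      have h4 : |((r n).1 : ℝ)| = 0 := by
        have := abs_nonneg ((r n).1 : ℝ)
        nlinarith
      rcases hN0 n (h0.trans hn) with h5 | h5
      · rw [h4] at h5; linarith
      · rw [h3] at h5; simp at h5; linarith
    have step : ∀ n, |(r (n + 1)).2 - (r n).2| ≤ 1 := by
      intro n
      have := hr n
      rw [Pl.adj_iff] at this
      rw [abs_le]
      rcases this with h | h | h | h <;> rw [h] <;> simp
    rcases lt_or_gt_of_ne (key n2 le_rfl).2 with hs | hs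
    · -- south
      have hneg : ∀ k, (r (n2 + k)).2 < 0 := by
        intro k
        induction k with
        | zero => exact hs
        | succ k ih =>
          have h1 := step (n2 + k)
          have h2 := (key (n2 + k + 1) (by omega)).2
          rw [abs_le] at h1
          rw [← add_assoc]
          omega
      refine ⟨.S, eventually_atTop.2 ⟨n2, fun k hk => ?_⟩⟩
      obtain ⟨j, rfl⟩ := Nat.exists_eq_add_of_le hk
      have h1 := (key (n2 + j) (by omega)).1
      have h2 : ((r (n2 + j)).2 : ℝ) < 0 := by exact_mod_cast hneg j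
      rw [abs_of_neg h2] at h1
      exact h1
    · have hpos : ∀ k, 0 < (r (n2 + k)).2 := by
        intro k
        induction k with
        | zero => exact hs
        | succ k ih =>
          have h1 := step (n2 + k)
          have h2 := (key (n2 + k + 1) (by omega)).2
          rw [abs_le] at h1
          rw [← add_assoc]
          omega
      refine ⟨.N, eventually_atTop.2 ⟨n2, fun k hk => ?_⟩⟩
      obtain ⟨j, rfl⟩ := Nat.exists_eq_add_of_le hk
      have h1 := (key (n2 + j) (by omega)).1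
      have h2 : 0 < ((r (n2 + j)).2 : ℝ) := by exact_mod_cast hpos j
      rw [abs_of_pos h2] at h1
      exact h1

theorem Diag.sec {m σ τ : ℝ} (hm : 0 < m) (hm1 : m < 1) (hσ : |σ| = 1) (hτ : |τ| = 1)
    {z : ℝ × ℝ} (h : Diag m σ τ z) : Sec m (if τ = 1 then .N else .S) z := by
  obtain ⟨h1, h2⟩ := h.pos hm hm1
  have e : |z.1| = σ * z.1 := by
    rw [← abs_of_pos h1, abs_mul, hσ, one_mul]
  obtain ⟨h3, -⟩ := h
  rcases eq_or_ne τ 1 with ht | ht
  · rw [if_pos ht]
    simp only [Sec, al, be]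
    rw [e]
    rw [ht, one_mul] at h3
    exact h3.le
  · rw [if_neg ht]
    have : τ = -1 := by
      rcases abs_cases τ with ⟨h5, -⟩ | ⟨h5, -⟩
      · exact absurd (h5.symm.trans hτ) ht
      · linarith
    simp only [Sec, al, be]
    rw [e]
    rw [this, neg_one_mul] at h3
    exact h3.le

/-- **(DIR2)** Every ray is eventually in one sector. -/
theorem ray_sector {m : ℝ} (hm : 0 < m) (hm1 : m < 1) {t : Environment} (ht : ∀ e, 0 ≤ t e)
    (hnt : NoTies t)
    (hbar : ∀ σ τ : ℝ, |σ| = 1 → |τ| = 1 → ∃ b : ℕ → ℤ × ℤ, IsRay t squareLattice b ∧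
      ∀ᶠ k in atTop, Diag m σ τ (toR (b k)))
    {r : ℕ → ℤ × ℤ} (hr : IsRay t squareLattice r) :
    ∃ d, ∀ᶠ n in atTop, Sec m d (toR (r n)) := by
  have hpos : ∀ e, 0 < t e := fun e => hnt.pos ht e
  have hto : ∀ v : ℕ → ℤ × ℤ, IsRay t squareLattice v → Tendsto v atTop cofinite :=
    fun v hv => hv.tendsto_cofinite hpos
  by_cases hc : ∃ σ τ : ℝ, |σ| = 1 ∧ |τ| = 1 ∧ ∃ b : ℕ → ℤ × ℤ, IsRay t squareLattice b ∧
      (∀ᶠ k in atTop, Diag m σ τ (toR (b k))) ∧ Coal r b
  · obtain ⟨σ, τ, hσ, hτ, b, -, hb2, i, j, hij⟩ := hc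
    refine ⟨if τ = 1 then .N else .S, ?_⟩
    obtain ⟨K, hK⟩ := eventually_atTop.1 hb2
    refine eventually_atTop.2 ⟨i + K, fun n hn => ?_⟩
    obtain ⟨k, rfl⟩ := Nat.exists_eq_add_of_le (show i ≤ n by omega)
    rw [hij k]
    exact (hK (j + k) (by omega)).sec hm hm1 hσ hτ
  · push Not at hc
    refine seq_sector hm hm1 hr.adj (hto r hr) fun σ τ hσ hτ => ?_
    obtain ⟨b, hb1, hb2⟩ := hbar σ τ hσ hτ
    refine ⟨b, hb1.adj, hto b hb1, hb2, ?_⟩
    have hnc := hc σ τ hσ hτ b hb1 hb2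
    by_contra hcon
    apply hnc
    refine hr.coal_of_frequently hnt ht hb1 fun n => ?_
    rw [Filter.not_eventually] at hcon
    obtain ⟨i, hi, h⟩ := (frequently_atTop.1 hcon) n
    push Not at h
    obtain ⟨j, hj⟩ := h
    exact ⟨i, j, hi, hj⟩

end Crest.Agent.R151.D411
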