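import Crest.Agent.R151.D411c
import Crest.Agent.R151.K2b

/-!
# R151 / S0213, D411d: every bigeodesic is proper

`exists_properUp`: if the time constant `μ` is a smooth norm then there is a constant `C0` such
that `(C0, 1)` is not in the facet of `e1` and every bigeodesic of an environment with the uniform
shape theorem and barrier rays is, after time reversal and/or the swap of the coordinates, proper:
its ends are in the cones `|x| ≤ C0 y` and `|x| ≤ -C0 y`.
-/

set_option autoImplicit false

namespace Crest.Agent.R151.D411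

open Filter Topology Set
open Crest.ProbabilityR.FirstPassage
open Crest.Agent.R151.K (l1 toR n1)
open Crest.Agent.R151.Y (IsRay Coal)

/-- the path goes upwards: its ends are in the cones `|x| ≤ C y` and `|x| ≤ -C y` -/
def ProperUp (C : ℝ) (v : ℤ → ℤ × ℤ) : Prop :=
  (∀ᶠ n in atTop, |((v n).1 : ℝ)| ≤ C * (v n).2) ∧
    (∀ᶠ n in atBot, |((v n).1 : ℝ)| ≤ -(C * (v n).2)) ∧
      Tendsto (fun n => (v n).2) atTop atTop ∧ Tendsto (fun n => (v n).2) atBot atBot

/-- in each diagonal cone there is a ray of the environment `t` -/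
def Barriers (μ : ℝ × ℝ → ℝ) (t : Environment) : Prop :=
  ∀ η > 0, ∀ σ τ : ℝ, |σ| = 1 → |τ| = 1 → ∃ b : ℕ → ℤ × ℤ, IsRay t squareLattice b ∧
    ∀ᶠ k in atTop, μ (toR (b k)) - μ (1, 1) / 2 * (σ * (b k).1 + τ * (b k).2) ≤ η * l1 (toR (b k))

/-- the uniform shape theorem holds for the environment `t` -/
def UShape (μ : ℝ × ℝ → ℝ) (t : Environment) : Prop :=
  ∀ ε > 0, ∀ᶠ n : ℕ in atTop, K.dev μ n t ≤ ε * n

theorem n1_adj {x y : ℤ × ℤ} (h : squareLattice.Adj x y) : n1 y ≤ n1 x + 1 := by
  rw [Pl.adj_iff] at h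
  unfold n1
  rcases h with rfl | rfl | rfl | rfl <;> simp only <;> omega

/-- discrete intermediate value theorem for the norm along a path -/
theorem exists_n1_eq {v : ℕ → ℤ × ℤ} (hv : IsSeq v) (hvt : Tendsto v atTop cofinite) {J R : ℕ}
    (hR : n1 (v J) ≤ R) : ∃ j ≥ J, n1 (v j) = R := by
  have hex : ∃ j, J ≤ j ∧ R ≤ n1 (v j) := by
    obtain ⟨N, hN⟩ := eventually_atTop.1 (eventually_out hvt R)
    refine ⟨max N J, le_max_right _ _, ?_⟩
    have h := hN (max N J) (le_max_left _ _)
    have e : ((n1 (v (max N J)) : ℕ) : ℝ) = |((v (max N J)).1 : ℝ)| + |((v (max N J)).2 : ℝ)| := by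
      unfold n1
      push_cast
      rw [Nat.cast_natAbs, Nat.cast_natAbs, Int.cast_abs, Int.cast_abs]
    have : (R : ℝ) ≤ n1 (v (max N J)) := by
      rw [e]
      have a1 := abs_nonneg ((v (max N J)).1 : ℝ)
      have a2 := abs_nonneg ((v (max N J)).2 : ℝ)
      rcases h with h | h <;> linarith
    exact_mod_cast this
  classical
  obtain ⟨h1, h2⟩ := Nat.find_spec hex
  set j := Nat.find hex with hj
  refine ⟨j, h1, le_antisymm ?_ h2⟩
  rcases h1.eq_or_lt with h3 | h3
  · rw [← h3]; exact hR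
  · obtain ⟨i, hi⟩ : ∃ i, j = i + 1 := ⟨j - 1, by omega⟩
    have h4 := Nat.find_min hex (m := i) (by omega)
    have h5 : n1 (v i) < R := by
      by_contra hc
      push Not at hc
      exact h4 ⟨by omega, hc⟩
    have h6 := n1_adj (hv i)
    rw [hi]
    omega

theorem Sec.mono {m m' : ℝ} (h : m' ≤ m) {d : Ax} {z : ℝ × ℝ} (hz : Sec m d z) : Sec m' d z := by
  unfold Sec at *
  have := mul_le_mul_of_nonneg_right h (abs_nonneg (be d z))
  linarith

theorem mem_box_of_n1_le {n : ℕ} {x : ℤ × ℤ} (h : n1 x ≤ n) : x ∈ K.box n := by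
  rw [K.mem_box]
  unfold n1 at h
  omega

/-- **(DIR3)** The backward end of a bigeodesic is in the sector opposite to the forward end. -/
theorem back_sector {μ : ℝ × ℝ → ℝ} (h : SmoothNorm μ) {m m' c : ℝ} {d : Ax} (hc : 0 < c)
    (hpair : ∀ u w : ℝ × ℝ, l1 u = l1 w → Sec m d u →
      μ u + μ w - μ (u + w) ≤ c * l1 u → Sec m' d w)
    {t : Environment} (ht : ∀ e, 0 ≤ t e) (hsh : UShape μ t) {v : ℤ → ℤ × ℤ}
    (hv : IsBigeodesic t v) (hfw : ∀ᶠ n in atTop, Sec m d (toR (v n))) :
    ∀ᶠ n in atBot, Sec m' d (-toR (v n)) := by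
  have hvc : Tendsto v cofinite cofinite := hv.1.tendsto_cofinite
  have hvT : Tendsto v atTop cofinite := hvc.mono_left (by rw [Int.cofinite_eq]; exact le_sup_right)
  have hvB : Tendsto v atBot cofinite := hvc.mono_left (by rw [Int.cofinite_eq]; exact le_sup_left)
  set f : ℕ → ℤ × ℤ := fun k => v k with hf
  have hfs : IsSeq f := fun k => by
    have := hv.2.1 k
    simpa [hf] using this
  have hft : Tendsto f atTop cofinite := hvT.comp tendsto_natCast_atTop_atTop
  obtain ⟨J, hJ⟩ := eventually_atTop.1 hfw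
  obtain ⟨N, hN⟩ := eventually_atTop.1 (hsh (c / 6) (by positivity))
  have hμ0 := h.norm.nonneg (toR (v 0))
  -- far enough
  set B : ℝ := (N : ℝ) + n1 (f J.toNat) + n1 (v 0) + 4 * μ (toR (v 0)) / c with hB
  filter_upwards [eventually_out hvB B, eventually_lt_atBot (0 : ℤ)] with i hi hi0
  set R : ℕ := n1 (v i) with hR
  have eR : (R : ℝ) = |((v i).1 : ℝ)| + |((v i).2 : ℝ)| := by
    rw [hR]
    unfold n1
    push_cast
    rw [Nat.cast_natAbs, Nat.cast_natAbs, Int.cast_abs, Int.cast_abs]
  have hBR : B < R := by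
    rw [eR]
    have a1 := abs_nonneg ((v i).1 : ℝ)
    have a2 := abs_nonneg ((v i).2 : ℝ)
    rcases hi with h | h <;> linarith
  have p1 : (0 : ℝ) ≤ N := Nat.cast_nonneg _
  have p2 : (0 : ℝ) ≤ n1 (f J.toNat) := Nat.cast_nonneg _
  have p3 : (0 : ℝ) ≤ n1 (v 0) := Nat.cast_nonneg _
  have p4 : 0 ≤ 4 * μ (toR (v 0)) / c := by positivity
  have hNR : N ≤ R := by
    have : (N : ℝ) ≤ R := by linarith
    exact_mod_cast this
  have hJR : n1 (f J.toNat) ≤ R := by
    have : (n1 (f J.toNat) : ℝ) ≤ R := by linarith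
    exact_mod_cast this
  have h0R : n1 (v 0) ≤ R := by
    have : (n1 (v 0) : ℝ) ≤ R := by linarith
    exact_mod_cast this
  have hμR : 4 * μ (toR (v 0)) ≤ c * R := by
    have : 4 * μ (toR (v 0)) / c ≤ R := by linarith
    rw [div_le_iff₀ hc] at this
    linarith
  obtain ⟨j, hj, hjR⟩ := exists_n1_eq hfs hft hJR
  have hJj : J ≤ (j : ℤ) := by omega
  have hs : Sec m d (toR (v j)) := hJ j hJj
  -- passage times
  have hdev := hN R hNR
  have hi0' : i < 0 := hi0
  have t1 : passageTime t (v i) (v 0) + passageTime t (v 0) (v j) = passageTime t (v i) (v j) := by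
    simp only [passageTime_eq_pt]
    exact Y.IsBigeodesic.pt_add hv ht hi0'.le (Int.natCast_nonneg j)
  have b1 : v i ∈ K.box R := mem_box_of_n1_le le_rfl
  have b2 : v 0 ∈ K.box R := mem_box_of_n1_le h0R
  have b3 : v (j : ℤ) ∈ K.box R := mem_box_of_n1_le (le_of_eq hjR)
  have d1 := (K.le_dev μ t b1 b3).trans hdev
  have d2 := (K.le_dev μ t b1 b2).trans hdev
  have d3 := (K.le_dev μ t b2 b3).trans hdev
  rw [abs_le] at d1 d2 d3
  have e1 : toR (v (j : ℤ) - v i) = toR (v (j : ℤ)) + -toR (v i) := by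
    ext <;> simp [toR] <;> ring
  have e2 : μ (-toR (v i)) ≤ μ (toR (v 0 - v i)) + μ (toR (v 0)) := by
    have : -toR (v i) = toR (v 0 - v i) + -toR (v 0) := by
      ext <;> simp [toR] <;> ring
    rw [this]
    refine (h.norm.add _ _).trans ?_
    rw [h.norm.neg]
  have e3 : μ (toR (v (j : ℤ))) ≤ μ (toR (v (j : ℤ) - v 0)) + μ (toR (v 0)) := by
    have : toR (v (j : ℤ)) = toR (v (j : ℤ) - v 0) + toR (v 0) := by
      ext <;> simp [toR]
    conv_lhs => rw [this]
    exact h.norm.add _ _
  rw [e1] at d1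
  have l1u : l1 (toR (v (j : ℤ))) = R := by
    rw [K.l1_toR]
    exact_mod_cast hjR
  have l1w : l1 (-toR (v i)) = R := by
    rw [eR]
    simp [l1, toR]
  refine hpair (toR (v (j : ℤ))) (-toR (v i)) (by rw [l1u, l1w]) hs ?_
  rw [l1u]
  have : c / 6 * (R : ℝ) = c * R / 6 := by ring
  rw [this] at d1 d2 d3
  linarith [d1.2, d2.1, d3.1]

theorem properUp_of {m : ℝ} (hm : 0 < m) {v : ℤ → ℤ × ℤ} (hinj : Function.Injective v)
    (h1 : ∀ᶠ n in atTop, m * |((v n).1 : ℝ)| ≤ (v n).2)
    (h2 : ∀ᶠ n in atBot, m * |((v n).1 : ℝ)| ≤ -(v n).2) : ProperUp (1 / m) v := by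
  have hvc : Tendsto v cofinite cofinite := hinj.tendsto_cofinite
  have hvT : Tendsto v atTop cofinite := hvc.mono_left (by rw [Int.cofinite_eq]; exact le_sup_right)
  have hvB : Tendsto v atBot cofinite := hvc.mono_left (by rw [Int.cofinite_eq]; exact le_sup_left)
  refine ⟨?_, ?_, ?_, ?_⟩
  · filter_upwards [h1] with n hn
    rw [div_mul_eq_mul_div, one_mul, le_div_iff₀ hm, mul_comm]
    exact hn
  · filter_upwards [h2] with n hn
    rw [div_mul_eq_mul_div, one_mul, ← neg_div, le_div_iff₀ hm, mul_comm]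
    exact hn
  · rw [tendsto_atTop]
    intro U
    filter_upwards [h1, eventually_out hvT (|(U : ℝ)| / m + |(U : ℝ)|)] with n hn hout
    by_contra hcon
    push Not at hcon
    have hc : ((v n).2 : ℝ) < U := by exact_mod_cast hcon
    have h0 : 0 ≤ m * |((v n).1 : ℝ)| := by positivity
    have hU := le_abs_self (U : ℝ)
    have hq : 0 ≤ |(U : ℝ)| / m := by positivity
    rcases hout with h | h
    · have : |((v n).1 : ℝ)| ≤ |(U : ℝ)| / m := by
        rw [le_div_iff₀ hm]
        linarith
      have := abs_nonneg (U : ℝ)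
      linarith
    · rw [abs_of_nonneg (h0.trans hn)] at h
      linarith
  · rw [tendsto_atBot]
    intro U
    filter_upwards [h2, eventually_out hvB (|(U : ℝ)| / m + |(U : ℝ)|)] with n hn hout
    by_contra hcon
    push Not at hcon
    have hc : (U : ℝ) < ((v n).2 : ℝ) := by exact_mod_cast hcon
    have h0 : 0 ≤ m * |((v n).1 : ℝ)| := by positivity
    have hU := neg_abs_le (U : ℝ)
    have hq : 0 ≤ |(U : ℝ)| / m := by positivity
    rcases hout with h | h
    · have : |((v n).1 : ℝ)| ≤ |(U : ℝ)| / m := by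
        rw [le_div_iff₀ hm]
        linarith
      have := abs_nonneg (U : ℝ)
      linarith
    · rw [← abs_neg ((v n).2 : ℝ), abs_of_nonneg (h0.trans hn)] at h
      linarith

/-- **Every bigeodesic is proper** (up to time reversal and the swap of the coordinates). -/
theorem exists_properUp {μ : ℝ × ℝ → ℝ} (h : SmoothNorm μ) :
    ∃ C0 : ℝ, 0 < C0 ∧ μ (1, 0) * C0 < μ (C0, 1) ∧ ∀ t : Environment, (∀ e, 0 ≤ t e) →
      NoTies t → UShape μ t → Barriers μ t → ∀ v, IsBigeodesic t v →
        ProperUp C0 v ∨ ProperUp C0 (fun n => v (-n)) ∨ ProperUp C0 (fun n => (v n).swap) ∨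
          ProperUp C0 (fun n => (v (-n)).swap) := by
  obtain ⟨m, hm, hm1, hm2, hm3⟩ := h.exists_slope
  obtain ⟨η, hη, hdiag⟩ := h.exists_diag hm hm1 hm3
  choose M c hM0 hMm hM2 hc hpair using fun d : Ax => h.exists_pair hm hm2 d
  set ms : ℝ := min (min (M .E) (M .N)) (min (M .W) (M .S)) with hms
  have hms0 : 0 < ms := lt_min (lt_min (hM0 _) (hM0 _)) (lt_min (hM0 _) (hM0 _))
  have hmsM : ∀ d, ms ≤ M d := by
    intro d
    cases d
    · exact (min_le_left _ _).trans (min_le_left _ _)
    · exact (min_le_left _ _).trans (min_le_right _ _)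
    · exact (min_le_right _ _).trans (min_le_left _ _)
    · exact (min_le_right _ _).trans (min_le_right _ _)
  have hms2 : μ (1, 0) < μ (1, ms) := by
    rcases min_choice (min (M .E) (M .N)) (min (M .W) (M .S)) with e | e
    · rw [hms, e]
      rcases min_choice (M .E) (M .N) with e | e <;> rw [e] <;> exact hM2 _
    · rw [hms, e]
      rcases min_choice (M .W) (M .S) with e | e <;> rw [e] <;> exact hM2 _
  refine ⟨1 / ms, by positivity, ?_, ?_⟩
  · have e : ((1 / ms, 1) : ℝ × ℝ) = (1 / ms) • ((1, ms) : ℝ × ℝ) := by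
      ext
      · simp
      · simp [hms0.ne']
    rw [e, h.norm.smul _ _ (by positivity), mul_comm]
    exact mul_lt_mul_of_pos_left hms2 (by positivity)
  · intro t ht hnt hsh hbar v hv
    have hbar' : ∀ σ τ : ℝ, |σ| = 1 → |τ| = 1 → ∃ b : ℕ → ℤ × ℤ, IsRay t squareLattice b ∧
        ∀ᶠ k in atTop, Diag m σ τ (toR (b k)) := by
      intro σ τ hσ hτ
      obtain ⟨b, hb1, hb2⟩ := hbar η hη σ τ hσ hτ
      refine ⟨b, hb1, ?_⟩
      have hbt : Tendsto b atTop cofinite := hb1.tendsto_cofinite fun e => hnt.pos ht e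
      filter_upwards [hb2, eventually_out hbt 0] with k hk hk0
      refine hdiag σ τ hσ hτ (toR (b k)) ?_ hk
      intro h0
      have e1 := congrArg Prod.fst h0
      have e2 := congrArg Prod.snd h0
      simp only [toR, Prod.fst_zero, Prod.snd_zero] at e1 e2
      rw [e1, e2] at hk0
      simp at hk0
    obtain ⟨d, hd⟩ := ray_sector hm hm1 ht hnt hbar' (Y.isRay_of_isBigeodesic hv ht 0)
    have hfw : ∀ᶠ n : ℤ in atTop, Sec m d (toR (v n)) := by
      obtain ⟨N, hN⟩ := eventually_atTop.1 hd
      refine eventually_atTop.2 ⟨N, fun n hn => ?_⟩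
      have := hN n.toNat (by omega)
      simp only [zero_add] at this
      rwa [Int.toNat_of_nonneg (by omega)] at this
    have hbw := back_sector h (hc d) (hpair d) ht hsh hv hfw
    have hfw' : ∀ᶠ n : ℤ in atTop, Sec ms d (toR (v n)) :=
      hfw.mono fun n hn => hn.mono ((hmsM d).trans (hMm d))
    have hbw' : ∀ᶠ n : ℤ in atBot, Sec ms d (-toR (v n)) :=
      hbw.mono fun n hn => hn.mono (hmsM d)
    have hneg : Function.Injective fun n : ℤ => v (-n) := fun a b hab => by
      have := hv.1 hab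
      omega
    cases d with
    | N =>
      left
      refine properUp_of hms0 hv.1 ?_ ?_
      · filter_upwards [hfw'] with n hn
        simpa [Sec, al, be, toR] using hn
      · filter_upwards [hbw'] with n hn
        simpa [Sec, al, be, toR] using hn
    | S =>
      right; left
      refine properUp_of hms0 hneg ?_ ?_
      · have := tendsto_neg_atTop_atBot.eventually hbw'
        filter_upwards [this] with n hn
        simpa [Sec, al, be, toR] using hn
      · have := tendsto_neg_atBot_atTop.eventually hfw'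
        filter_upwards [this] with n hn
        simpa [Sec, al, be, toR] using hn
    | E =>
      right; right; left
      refine properUp_of hms0 (Prod.swap_injective.comp hv.1) ?_ ?_
      · filter_upwards [hfw'] with n hn
        simpa [Sec, al, be, toR] using hn
      · filter_upwards [hbw'] with n hn
        simpa [Sec, al, be, toR] using hn
    | W =>
      right; right; right
      refine properUp_of hms0 (Prod.swap_injective.comp hneg) ?_ ?_
      · have := tendsto_neg_atTop_atBot.eventually hbw'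
        filter_upwards [this] with n hn
        simpa [Sec, al, be, toR] using hn
      · have := tendsto_neg_atBot_atTop.eventually hfw'
        filter_upwards [this] with n hn
        simpa [Sec, al, be, toR] using hn

end Crest.Agent.R151.D411
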