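import Crest.Agent.R151.K9g

/-!
# R151/K9h — the almost sure shape theorem for the law of S0213 (owner helper507)
-/

set_option autoImplicit false
set_option linter.unusedSectionVars false

open MeasureTheory Filter ProbabilityTheory
open Crest.ProbabilityR.FirstPassage

namespace Crest.Agent.R151.K

variable {G : Measure ℝ} [IsProbabilityMeasure G] {m : ℝ} {μ : ℝ × ℝ → ℝ}

/-! ### Visits of an ergodic map -/

/-- A set of probability at least `1 - δ` is visited in every window `[M, (1 + 3δ) M + 1]`. -/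
lemma visits {Ω : Type*} [MeasurableSpace Ω] {P : Measure Ω} [IsProbabilityMeasure P]
    {τ : Ω → Ω} (hτ : Ergodic τ P) {B : Set Ω} (hB : MeasurableSet B) {δ : ℝ} (hδ : 0 < δ)
    (hδ2 : δ < 1 / 2) (hP : 1 - δ ≤ P.real B) :
    ∀ᵐ ω ∂P, ∀ᶠ M : ℕ in atTop, ∃ k : ℕ, M ≤ k ∧ (k : ℝ) ≤ (1 + 3 * δ) * M + 1 ∧
      τ^[k] ω ∈ B := by
  have hf : Measurable (B.indicator (fun _ : Ω => (1 : ℝ))) := measurable_const.indicator hB
  have hfi : Integrable (B.indicator (fun _ : Ω => (1 : ℝ))) P :=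
    (integrable_const 1).indicator hB
  have hint : ∫ ω, B.indicator (fun _ : Ω => (1 : ℝ)) ω ∂P = P.real B := by
    rw [integral_indicator hB]
    simp [Measure.real]
  filter_upwards [R88.birkhoff_real hτ hf hfi] with ω hω
  rw [hint] at hω
  have hc : 1 / (1 + 3 * δ) < P.real B := by
    refine lt_of_lt_of_le ?_ hP
    rw [div_lt_iff₀ (by positivity)]
    nlinarith
  have hev := hω.eventually (eventually_gt_nhds hc)
  rw [eventually_atTop] at hev
  obtain ⟨L0, hL0⟩ := hev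
  filter_upwards [eventually_ge_atTop L0] with M hM
  by_contra hcon
  push Not at hcon
  obtain ⟨L, hL⟩ : ∃ L, L = ⌊(1 + 3 * δ) * M⌋₊ + 1 := ⟨_, rfl⟩
  have hLgt : (1 + 3 * δ) * M < L := by
    rw [hL]; push_cast; exact Nat.lt_floor_add_one _
  have hLle : (L : ℝ) ≤ (1 + 3 * δ) * M + 1 := by
    rw [hL]; push_cast
    linarith [Nat.floor_le (show 0 ≤ (1 + 3 * δ) * (M : ℝ) by positivity)]
  have hML : M ≤ L := by
    have : (M : ℝ) ≤ L := by
      have : (0 : ℝ) ≤ M := Nat.cast_nonneg _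
      nlinarith
    exact_mod_cast this
  have h1 := hL0 L (hM.trans hML)
  have hLpos : (0 : ℝ) < L := by rw [hL]; positivity
  have hsum : birkhoffSum τ (B.indicator (fun _ : Ω => (1 : ℝ))) L ω ≤ M := by
    rw [birkhoffSum]
    calc ∑ k ∈ Finset.range L, B.indicator (fun _ : Ω => (1 : ℝ)) (τ^[k] ω)
        ≤ ∑ k ∈ Finset.range L, (if k < M then (1 : ℝ) else 0) := by
          refine Finset.sum_le_sum fun k hk => ?_
          rw [Finset.mem_range] at hk
          split_ifs with hkM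
          · exact Set.indicator_le_self' (fun _ _ => zero_le_one) _
          · rw [Set.indicator_of_notMem]
            refine hcon k (not_lt.1 hkM) ?_
            have : (k : ℝ) ≤ L := by exact_mod_cast hk.le
            linarith
      _ = M := by
          rw [← Finset.sum_filter, Finset.sum_const, nsmul_eq_mul, mul_one]
          congr 1
          have : Finset.filter (fun k => k < M) (Finset.range L) = Finset.range M := by
            ext k; simp only [Finset.mem_filter, Finset.mem_range]; omega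
          rw [this, Finset.card_range]
  rw [inv_mul_eq_div, div_lt_div_iff₀ (by positivity) hLpos] at h1
  have h0 : (0 : ℝ) ≤ M := Nat.cast_nonneg _
  nlinarith

/-! ### The grid of multiples -/

/-- `x` is close to a multiple `M j` of a bounded vector `j`. -/
lemma near_mul {K n : ℕ} (hK : 0 < K) (hKn : K ≤ n) {x : ℤ × ℤ} (hx : x ∈ box n) :
    ∃ j ∈ box (2 * K + 1), ∀ k : ℕ, n / K ≤ k → k ≤ 3 * (n / K) → k • j ∈ box (9 * n) ∧
      (n1 (x - k • j) : ℤ) ≤ 2 * (n / K : ℕ) + (k - (n / K : ℕ)) * (4 * K + 2) := by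
  obtain ⟨M, hM⟩ : ∃ M, M = n / K := ⟨_, rfl⟩
  have hM0 : 0 < M := by rw [hM]; exact Nat.div_pos hKn hK
  have hM0' : (0 : ℤ) < M := by exact_mod_cast hM0
  have hK' : (0 : ℤ) < K := by exact_mod_cast hK
  have hMK : M * K ≤ n := by rw [hM]; exact Nat.div_mul_le_self _ _
  have hMK' : n < (M + 1) * K := by
    rw [hM]
    have := Nat.lt_div_mul_add (a := n) hK
    linarith [add_mul (n / K) 1 K]
  have hMKz : (M : ℤ) * K ≤ n := by exact_mod_cast hMK
  have hMKz' : (n : ℤ) < (M + 1) * K := by exact_mod_cast hMK'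
  rw [mem_box] at hx
  refine ⟨(x.1 / M, x.2 / M), ?_, ?_⟩
  · rw [mem_box]
    have key : ∀ a : ℤ, -(n : ℤ) ≤ a → a ≤ n → -((2 * K + 1 : ℕ) : ℤ) ≤ a / M ∧
        a / M ≤ ((2 * K + 1 : ℕ) : ℤ) := by
      intro a h1 h2
      push_cast
      constructor
      · rw [Int.le_ediv_iff_mul_le hM0']
        nlinarith
      · have : a / M ≤ ((2 * K + 1) * M) / M := Int.ediv_le_ediv hM0' (by nlinarith)
        rwa [Int.mul_ediv_cancel _ hM0'.ne'] at this
    exact ⟨key _ hx.1.1 hx.1.2, key _ hx.2.1 hx.2.2⟩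
  · intro k hk1 hk2
    rw [← hM] at hk1 hk2
    have hk1' : (M : ℤ) ≤ k := by exact_mod_cast hk1
    have hk2' : (k : ℤ) ≤ 3 * M := by exact_mod_cast hk2
    have key : ∀ a : ℤ, -(n : ℤ) ≤ a → a ≤ n →
        (-((9 * n : ℕ) : ℤ) ≤ k * (a / M) ∧ k * (a / M) ≤ ((9 * n : ℕ) : ℤ)) ∧
        ((a - k * (a / M)).natAbs : ℤ) ≤ M + (k - M) * (2 * K + 1) := by
      intro a h1 h2
      obtain ⟨q, hq⟩ : ∃ q, q = a / M := ⟨_, rfl⟩
      have e1 : (M : ℤ) * q ≤ a := by rw [hq]; exact Int.mul_ediv_self_le hM0'.ne'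
      have e2 : a < M * q + M := by
        rw [hq]
        have := Int.lt_mul_ediv_self_add (x := a) hM0'
        linarith
      have e3 : -(2 * K + 1 : ℤ) ≤ q := by
        rw [hq, Int.le_ediv_iff_mul_le hM0']
        nlinarith
      have e4 : q ≤ (2 * K + 1 : ℤ) := by
        rw [hq]
        have : a / M ≤ ((2 * K + 1) * M) / M := Int.ediv_le_ediv hM0' (by nlinarith)
        rwa [Int.mul_ediv_cancel _ hM0'.ne'] at this
      rw [← hq]
      have hk0 : (0 : ℤ) ≤ k := by positivity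
      have g1 : (k : ℤ) * (2 * K + 1) ≤ 9 * n := by nlinarith
      have g2 : (0 : ℤ) ≤ (k : ℤ) - M := by linarith
      have g3 : ((k : ℤ) - M) * q ≤ ((k : ℤ) - M) * (2 * K + 1) :=
        mul_le_mul_of_nonneg_left e4 g2
      have g4 : -(((k : ℤ) - M) * (2 * K + 1)) ≤ ((k : ℤ) - M) * q := by
        have := mul_le_mul_of_nonneg_left e3 g2
        linarith
      have g5 : (k : ℤ) * q ≤ k * (2 * K + 1) := mul_le_mul_of_nonneg_left e4 hk0
      have g6 : -((k : ℤ) * (2 * K + 1)) ≤ k * q := by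
        have := mul_le_mul_of_nonneg_left e3 hk0
        linarith
      refine ⟨⟨by push_cast; linarith, by push_cast; linarith⟩, ?_⟩
      rw [Int.natCast_natAbs, abs_le]
      have g7 : (k : ℤ) * q = M * q + (k - M) * q := by ring
      constructor <;> linarith
    obtain ⟨k1, k2⟩ := key _ hx.1.1 hx.1.2
    obtain ⟨k3, k4⟩ := key _ hx.2.1 hx.2.2
    have hsm : k • (x.1 / (M : ℤ), x.2 / (M : ℤ)) = ((k : ℤ) * (x.1 / M), (k : ℤ) * (x.2 / M)) := by
      ext <;> simp
    rw [mem_box, hsm]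
    refine ⟨⟨k1, k3⟩, ?_⟩
    rw [← hM]
    simp only [n1, Prod.fst_sub, Prod.snd_sub]
    push_cast at k2 k4 ⊢
    linarith

namespace Mom

variable (hM : Mom G m) (hμ : IsTC1 G μ)
include hM hμ

/-- Almost sure convergence along the multiples of a lattice vector. -/
lemma as_dir (x : ℤ × ℤ) : ∀ᵐ t ∂(iidLaw G),
    Tendsto (fun n : ℕ => passageTime t 0 (n • x) / n) atTop (nhds (μ (toR x))) := by
  rcases eq_or_ne x 0 with rfl | hx
  · filter_upwards [ae_Nn (G := G) hM.h0] with t ht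
    have : toR 0 = 0 := by ext <;> simp [toR]
    rw [this, hM.mu_zero hμ]
    simp [pt_self ht]
  · have h1 := (hM.subadd hx).tendsto_mean
    have h2 := hM.ET_tendsto_nat hμ (toR x)
    have h3 : (hM.subadd hx).subadditive.lim = μ (toR x) := by
      refine tendsto_nhds_unique h1 (h2.congr fun n => ?_)
      rw [fl_natCast]
      rfl
    rw [← h3]
    exact (hM.subadd hx).kingman

lemma tri_err {t : Environment} (ht : Nn t) (o x x' : ℤ × ℤ) {A e c : ℝ}
    (h1 : passageTime t x x' ≤ A * n1 (x' - x) + e)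
    (h2 : |passageTime t o x' - μ (toR (x' - o))| ≤ c) :
    |passageTime t o x - μ (toR (x - o))| ≤ (A + m) * n1 (x' - x) + e + c := by
  have t1 := pt_triangle ht o x' x
  have t2 := pt_triangle ht o x x'
  rw [pt_symm ht x' x] at t1
  have h3 := hM.abs_mu_sub_le hμ (toR (x' - o)) (toR (x - o))
  have h4 : toR (x' - o) - toR (x - o) = toR (x' - x) := by
    rw [← toR_sub]; congr 1; abel
  rw [h4, l1_toR] at h3
  rw [abs_le] at h2 h3 ⊢
  obtain ⟨a1, a2⟩ := h2
  obtain ⟨b1, b2⟩ := h3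
  have e1 : (A + m) * n1 (x' - x) = A * n1 (x' - x) + m * n1 (x' - x) := by ring
  rw [e1]
  constructor <;> linarith

/-- **The almost sure one-point shape theorem.** -/
theorem as_shape_one (hG : M51.Law213 G) {ε : ℝ} (hε : 0 < ε) :
    ∀ᵐ t ∂(iidLaw G), ∀ᶠ n : ℕ in atTop, ∀ x ∈ box n,
      |passageTime t 0 x - μ (toR x)| ≤ ε * n := by
  have hm := hM.nonneg
  obtain ⟨A, hA, hctl⟩ := as_ctl hG
  obtain ⟨K, hK0, hK⟩ : ∃ K : ℕ, 0 < K ∧ (A + m) * 2 ≤ ε / 4 * K := by
    obtain ⟨K, hK⟩ := exists_nat_gt ((A + m) * 2 / (ε / 4))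
    rw [div_lt_iff₀ (by positivity)] at hK
    refine ⟨K + 1, Nat.succ_pos _, ?_⟩
    push_cast
    nlinarith
  have hKR : (0 : ℝ) < K := by exact_mod_cast hK0
  have hdir : ∀ᵐ t ∂(iidLaw G), ∀ j : ℤ × ℤ,
      Tendsto (fun n : ℕ => passageTime t 0 (n • j) / n) atTop (nhds (μ (toR j))) :=
    ae_all_iff.2 fun j => hM.as_dir hμ j
  filter_upwards [hctl (ε / 40) (by positivity), hdir, ae_Nn (G := G) hM.h0] with t h1 h2 ht
  have h3 : ∀ᶠ M : ℕ in atTop, ∀ j ∈ box (2 * K + 1),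
      |passageTime t 0 (M • j) / M - μ (toR j)| < ε / 4 := by
    rw [eventually_all_finset]
    intro j _
    have := (h2 j).sub_const (μ (toR j))
    rw [sub_self] at this
    have := this.abs
    rw [abs_zero] at this
    exact this.eventually_lt_const (by positivity)
  have h1' : ∀ᶠ n : ℕ in atTop, ∀ x ∈ box (9 * n), ∀ y ∈ box (9 * n),
      passageTime t x y ≤ A * n1 (y - x) + ε / 40 * (9 * n : ℕ) :=
    (tendsto_id.const_mul_atTop' (by norm_num : 0 < 9)).eventually h1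
  have h3' : ∀ᶠ n : ℕ in atTop, ∀ j ∈ box (2 * K + 1),
      |passageTime t 0 ((n / K) • j) / (n / K : ℕ) - μ (toR j)| < ε / 4 :=
    (Nat.tendsto_div_const_atTop hK0.ne').eventually h3
  filter_upwards [h1', h3', eventually_ge_atTop K] with n hn1 hn3 hnK
  intro x hx
  obtain ⟨j, hj, hjk⟩ := near_mul hK0 hnK hx
  obtain ⟨g1, g2⟩ := hjk (n / K) le_rfl (by omega)
  obtain ⟨M, hMd⟩ : ∃ M, M = n / K := ⟨_, rfl⟩
  rw [← hMd] at g1 g2 hn3
  have hM0 : 0 < M := by rw [hMd]; exact Nat.div_pos hnK hK0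
  have hMR : (0 : ℝ) < M := by exact_mod_cast hM0
  have hMK : (M : ℝ) * K ≤ n := by
    have : M * K ≤ n := by rw [hMd]; exact Nat.div_mul_le_self _ _
    exact_mod_cast this
  have hMn : (M : ℝ) ≤ n := by
    have : (1 : ℝ) ≤ K := by exact_mod_cast hK0
    nlinarith
  have hxb : x ∈ box (9 * n) := by
    rw [mem_box] at hx ⊢
    push_cast
    omega
  have e1 := hn1 x hxb (M • j) g1
  have e2 : |passageTime t 0 (M • j) - μ (toR (M • j - 0))| ≤ ε / 4 * M := by
    rw [sub_zero, toR_nsmul, hM.mu_smul hμ hMR.le]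
    have h5 := (hn3 j hj).le
    have h6 : passageTime t 0 (M • j) - M * μ (toR j)
        = (passageTime t 0 (M • j) / M - μ (toR j)) * M := by
      field_simp
    rw [h6, abs_mul, abs_of_pos hMR]
    gcongr
  have e3 := hM.tri_err hμ ht 0 x (M • j) e1 e2
  rw [sub_zero] at e3
  refine e3.trans ?_
  have e4 : (n1 (M • j - x) : ℝ) ≤ 2 * M := by
    have h7 : n1 (M • j - x) = n1 (x - M • j) := by rw [← neg_sub, n1_neg]
    rw [h7]
    have h8 : (n1 (x - M • j) : ℤ) ≤ 2 * M := by linarith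
    exact_mod_cast h8
  have e5 : (A + m) * n1 (M • j - x) ≤ ε / 4 * n := by
    calc (A + m) * n1 (M • j - x) ≤ (A + m) * (2 * M) := by gcongr
      _ = (A + m) * 2 * M := by ring
      _ ≤ ε / 4 * K * M := by gcongr
      _ = ε / 4 * (M * K) := by ring
      _ ≤ ε / 4 * n := by gcongr
  have e6 : ε / 4 * M ≤ ε / 4 * n := by gcongr
  have e7 : ε / 40 * ((9 * n : ℕ) : ℝ) ≤ ε / 4 * n := by
    push_cast
    have : (0 : ℝ) ≤ n := Nat.cast_nonneg _
    nlinarith
  have e8 : 0 ≤ ε / 4 * n := by positivity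
  linarith

end Mom

/-! ### Two points -/

lemma shift_iterate (x : ℤ × ℤ) (k : ℕ) (t : Environment) :
    (A.shift x)^[k] t = A.shift (k • x) t := by
  induction k with
  | zero => simp
  | succ k ih =>
    rw [Function.iterate_succ_apply', ih, A.shift_shift]
    congr 1
    rw [succ_nsmul']

lemma pt_shift (z : ℤ × ℤ) (t : Environment) (a b : ℤ × ℤ) :
    passageTime (A.shift z t) a b = passageTime t (a + z) (b + z) :=
  pt_iso t (tr z) a b

/-- Environments with a good one-point shape from the scale `N` on. -/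
def Gd (μ : ℝ × ℝ → ℝ) (δ : ℝ) (N : ℕ) : Set Environment :=
  {t | ∀ n ≥ N, ∀ x ∈ box n, |passageTime t 0 x - μ (toR x)| ≤ δ * n}

lemma measurableSet_Gd (μ : ℝ × ℝ → ℝ) (δ : ℝ) (N : ℕ) : MeasurableSet (Gd μ δ N) := by
  have : Gd μ δ N = ⋂ (n : ℕ) (_ : n ≥ N) (x ∈ box n),
      {t | |passageTime t 0 x - μ (toR x)| ≤ δ * n} := by
    ext t
    simp [Gd]
  rw [this]
  refine MeasurableSet.iInter fun n => MeasurableSet.iInter fun _ => MeasurableSet.iInter fun x =>
    MeasurableSet.iInter fun _ => ?_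
  exact measurableSet_le ((measurable_pt 0 x).sub_const _).abs measurable_const

lemma mono_Gd (μ : ℝ × ℝ → ℝ) (δ : ℝ) : Monotone (Gd μ δ) :=
  fun _ _ h _ ht n hn => ht n (h.trans hn)

namespace Mom

variable (hM : Mom G m) (hμ : IsTC1 G μ)
include hM hμ

lemma exists_Gd (hG : M51.Law213 G) {δ : ℝ} (hδ : 0 < δ) :
    ∃ N, 1 - δ ≤ (iidLaw G).real (Gd μ δ N) := by
  have h1 : iidLaw G (⋃ N, Gd μ δ N) = 1 := by
    refine prob_compl_eq_zero_iff (MeasurableSet.iUnion fun N => measurableSet_Gd μ δ N) |>.1 ?_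
    have h2 := hM.as_shape_one hμ hG hδ
    rw [ae_iff] at h2
    refine measure_mono_null ?_ h2
    intro t ht
    simp only [Set.mem_compl_iff, Set.mem_iUnion, not_exists] at ht
    simp only [Set.mem_ofPred_eq, eventually_atTop, not_exists]
    intro N hN
    exact ht N hN
  have h3 := tendsto_measure_iUnion_atTop (μ := iidLaw G) (mono_Gd μ δ)
  rw [h1] at h3
  have h4 := (ENNReal.tendsto_toReal ENNReal.one_ne_top).comp h3
  rw [ENNReal.toReal_one] at h4
  have h5 := h4.eventually (eventually_ge_nhds (show 1 - δ < 1 by linarith))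
  obtain ⟨N, hN⟩ := h5.exists
  exact ⟨N, hN⟩

/-- **The almost sure uniform (two-point) shape theorem.** -/
theorem as_shape_two (hG : M51.Law213 G) {ε : ℝ} (hε : 0 < ε) :
    ∀ᵐ t ∂(iidLaw G), ∀ᶠ n : ℕ in atTop, dev μ n t ≤ ε * n := by
  have hm := hM.nonneg
  obtain ⟨B, hA, hctl⟩ := as_ctl hG
  obtain ⟨δ, hδ0, hδ1, hδ2⟩ : ∃ δ : ℝ, 0 < δ ∧ δ < 1 / 3 ∧ ((B + m) * 18 + 10) * δ ≤ ε / 4 := by
    refine ⟨min (1 / 4) (ε / 4 / ((B + m) * 18 + 10)), by positivity, ?_, ?_⟩
    · exact (min_le_left _ _).trans_lt (by norm_num)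
    · have : 0 < (B + m) * 18 + 10 := by positivity
      calc _ ≤ ((B + m) * 18 + 10) * (ε / 4 / ((B + m) * 18 + 10)) := by
            gcongr; exact min_le_right _ _
        _ = ε / 4 := by field_simp
  obtain ⟨K, hK0, hK⟩ : ∃ K : ℕ, 0 < K ∧ (B + m) * 2 ≤ ε / 4 * K := by
    obtain ⟨K, hK⟩ := exists_nat_gt ((B + m) * 2 / (ε / 4))
    rw [div_lt_iff₀ (by positivity)] at hK
    refine ⟨K + 1, Nat.succ_pos _, ?_⟩
    push_cast
    nlinarith
  have hKR : (0 : ℝ) < K := by exact_mod_cast hK0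
  obtain ⟨N, hN⟩ := hM.exists_Gd hμ hG hδ0
  have hvis : ∀ᵐ t ∂(iidLaw G), ∀ j : ℤ × ℤ, j ≠ 0 → ∀ᶠ M : ℕ in atTop, ∃ k : ℕ, M ≤ k ∧
      (k : ℝ) ≤ (1 + 3 * δ) * M + 1 ∧ A.shift (k • j) t ∈ Gd μ δ N := by
    rw [ae_all_iff]
    intro j
    by_cases hj : j = 0
    · exact Eventually.of_forall fun t h => absurd hj h
    · filter_upwards [visits (ergodic_shift (G := G) hj) (measurableSet_Gd μ δ N) hδ0
        (by linarith) hN] with t ht _
      simpa only [shift_iterate] using ht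
  filter_upwards [hctl (ε / 40) (by positivity), hvis, hM.as_shape_one hμ hG hδ0,
    ae_Nn (G := G) hM.h0] with t h1 h2 h3 ht
  -- good multiples
  have h4 : ∀ᶠ M : ℕ in atTop, ∀ j ∈ box (2 * K + 1), ∃ k : ℕ, M ≤ k ∧
      (k : ℝ) ≤ (1 + 3 * δ) * M + 1 ∧
      ∀ n : ℕ, N ≤ n → n / K = M → ∀ y : ℤ × ℤ, y ∈ box (10 * n) →
        (j ≠ 0 ∨ ∀ y ∈ box (10 * n), |passageTime t 0 y - μ (toR y)| ≤ δ * (10 * n : ℕ)) →
        |passageTime t (k • j) (k • j + y) - μ (toR y)| ≤ δ * (10 * n : ℕ) := by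
    rw [eventually_all_finset]
    intro j _
    by_cases hj : j = 0
    · refine Eventually.of_forall fun M => ⟨M, le_rfl, ?_, ?_⟩
      · have : (0 : ℝ) ≤ M := Nat.cast_nonneg _
        nlinarith
      · intro n _ _ y hy hor
        rcases hor with h | h
        · exact absurd hj h
        · rw [hj, smul_zero, zero_add]
          exact h y hy
    · filter_upwards [h2 j hj] with M hM'
      obtain ⟨k, hk1, hk2, hk3⟩ := hM'
      refine ⟨k, hk1, hk2, ?_⟩
      intro n hn _ y hy _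
      have := hk3 (10 * n) (by omega) y hy
      rwa [pt_shift, zero_add, add_comm y] at this
  have h1' : ∀ᶠ n : ℕ in atTop, ∀ x ∈ box (9 * n), ∀ y ∈ box (9 * n),
      passageTime t x y ≤ B * n1 (y - x) + ε / 40 * (9 * n : ℕ) :=
    (tendsto_id.const_mul_atTop' (by norm_num : 0 < 9)).eventually h1
  have h3' : ∀ᶠ n : ℕ in atTop, ∀ x ∈ box (10 * n),
      |passageTime t 0 x - μ (toR x)| ≤ δ * (10 * n : ℕ) :=
    (tendsto_id.const_mul_atTop' (by norm_num : 0 < 10)).eventually h3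
  have h4' := (Nat.tendsto_div_const_atTop hK0.ne').eventually h4
  have h5 : ∀ᶠ n : ℕ in atTop, (B + m) * (6 * K) ≤ ε / 4 * n := by
    have := (tendsto_natCast_atTop_atTop (R := ℝ)).eventually_ge_atTop
      ((B + m) * (6 * K) / (ε / 4))
    filter_upwards [this] with n hn
    rw [div_le_iff₀ (by positivity)] at hn
    linarith
  filter_upwards [h1', h3', h4', h5, eventually_ge_atTop K, eventually_ge_atTop N] with
    n hn1 hn3 hn4 hn5 hnK hnN
  have key : ∀ x ∈ box n, ∀ y ∈ box n,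
      |passageTime t x y - μ (toR (y - x))| ≤ ε * n := by
    intro x hx y hy
    obtain ⟨j, hj, hjk⟩ := near_mul hK0 hnK hx
    obtain ⟨k, hk1, hk2, hk3⟩ := hn4 j hj
    obtain ⟨M, hMd⟩ : ∃ M, M = n / K := ⟨_, rfl⟩
    rw [← hMd] at hk1 hk2 hk3 hjk
    have hM0 : 0 < M := by rw [hMd]; exact Nat.div_pos hnK hK0
    have hM1 : (1 : ℝ) ≤ M := by exact_mod_cast hM0
    have hMR : (0 : ℝ) < M := by linarith
    have hMK : (M : ℝ) * K ≤ n := by
      have : M * K ≤ n := by rw [hMd]; exact Nat.div_mul_le_self _ _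
      exact_mod_cast this
    have hkM : k ≤ 3 * M := by
      have : (k : ℝ) ≤ 3 * M := by nlinarith
      exact_mod_cast this
    obtain ⟨g1, g2⟩ := hjk k hk1 hkM
    have hxb : x ∈ box (9 * n) := by
      rw [mem_box] at hx ⊢
      push_cast
      omega
    have e1 := hn1 x hxb (k • j) g1
    have hyb : y - k • j ∈ box (10 * n) := by
      rw [mem_box] at hy g1 ⊢
      simp only [Prod.fst_sub, Prod.snd_sub]
      push_cast at g1 ⊢
      omega
    have e2 := hk3 n hnN hMd.symm (y - k • j) hyb (Or.inr hn3)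
    rw [add_sub_cancel] at e2
    have e2' : |passageTime t y (k • j) - μ (toR (k • j - y))| ≤ δ * (10 * n : ℕ) := by
      rw [pt_symm ht]
      have : μ (toR (k • j - y)) = μ (toR (y - k • j)) := by
        rw [← hM.mu_neg hμ (toR (y - k • j))]
        congr 1
        ext <;> simp [toR]
      rwa [this]
    have e3 := hM.tri_err hμ ht y x (k • j) e1 e2'
    have e3' : |passageTime t x y - μ (toR (y - x))| ≤
        (B + m) * n1 (k • j - x) + ε / 40 * (9 * n : ℕ) + δ * (10 * n : ℕ) := by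
      rw [pt_symm ht]
      have : μ (toR (y - x)) = μ (toR (x - y)) := by
        rw [← hM.mu_neg hμ (toR (x - y))]
        congr 1
        ext <;> simp [toR]
      rwa [this]
    refine e3'.trans ?_
    have e4 : (n1 (k • j - x) : ℝ) ≤ 2 * M + (3 * δ * M + 1) * (6 * K) := by
      have h7 : n1 (k • j - x) = n1 (x - k • j) := by rw [← neg_sub, n1_neg]
      rw [h7]
      have h8 : (n1 (x - k • j) : ℝ) ≤ 2 * M + (k - M) * (4 * K + 2) := by
        exact_mod_cast g2
      have h9 : (k : ℝ) - M ≤ 3 * δ * M + 1 := by linarith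
      have h10 : (4 * K + 2 : ℝ) ≤ 6 * K := by
        have : (1 : ℝ) ≤ K := by exact_mod_cast hK0
        linarith
      have h11 : (0 : ℝ) ≤ (k : ℝ) - M := by
        have : (M : ℝ) ≤ k := by exact_mod_cast hk1
        linarith
      calc (n1 (x - k • j) : ℝ) ≤ 2 * M + (k - M) * (4 * K + 2) := h8
        _ ≤ 2 * M + (k - M) * (6 * K) := by gcongr
        _ ≤ 2 * M + (3 * δ * M + 1) * (6 * K) := by gcongr
    have hn0 : (0 : ℝ) ≤ n := Nat.cast_nonneg _
    have e5 : (B + m) * n1 (k • j - x) ≤ ε / 4 * n + (B + m) * 18 * δ * n + ε / 4 * n := by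
      calc (B + m) * n1 (k • j - x) ≤ (B + m) * (2 * M + (3 * δ * M + 1) * (6 * K)) := by gcongr
        _ = (B + m) * 2 * M + (B + m) * 18 * δ * (M * K) + (B + m) * (6 * K) := by ring
        _ ≤ ε / 4 * K * M + (B + m) * 18 * δ * n + ε / 4 * n := by gcongr
        _ = ε / 4 * (M * K) + (B + m) * 18 * δ * n + ε / 4 * n := by ring
        _ ≤ ε / 4 * n + (B + m) * 18 * δ * n + ε / 4 * n := by gcongr
    have e7 : ε / 40 * ((9 * n : ℕ) : ℝ) ≤ ε / 4 * n := by
      push_cast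
      nlinarith
    have e8 : (B + m) * 18 * δ * n + δ * ((10 * n : ℕ) : ℝ) ≤ ε / 4 * n := by
      push_cast
      calc (B + m) * 18 * δ * n + δ * (10 * n) = (((B + m) * 18 + 10) * δ) * n := by ring
        _ ≤ ε / 4 * n := by gcongr
    linarith
  refine Finset.sup'_le _ _ fun p hp => ?_
  rw [Finset.mem_product] at hp
  exact key p.1 hp.1 p.2 hp.2

/-- Form with "for every `ε`" inside. -/
theorem as_ushape (hG : M51.Law213 G) :
    ∀ᵐ t ∂(iidLaw G), ∀ ε : ℝ, 0 < ε → ∀ᶠ n : ℕ in atTop, dev μ n t ≤ ε * n := by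
  have h := ae_all_iff.2 fun i : ℕ => hM.as_shape_two hμ hG
    (ε := 1 / ((i : ℝ) + 1)) (by positivity)
  filter_upwards [h] with t ht ε hε
  obtain ⟨i, hi⟩ := exists_nat_one_div_lt hε
  filter_upwards [ht i] with n hn
  refine hn.trans ?_
  gcongr

end Mom

end Crest.Agent.R151.K
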