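import Crest.Agent.R151.T821a

/-!
# R151, block DIR (helper821), part b: every far curve avoiding the barriers lives in one cone
-/

set_option autoImplicit false

open Crest.ProbabilityR.FirstPassage

namespace Crest.Agent.R151.T821

open Crest.Agent.R151.Pl

variable {s : ℝ}

theorem const_sign {f : ℕ → ℤ} {N : ℕ} (h1 : ∀ k, |f (k + 1) - f k| ≤ 1)
    (h0 : ∀ k, N ≤ k → f k ≠ 0) : (∀ k, N ≤ k → 0 < f k) ∨ (∀ k, N ≤ k → f k < 0) := by
  rcases lt_or_gt_of_ne (h0 N le_rfl) with h | h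
  · right
    intro k hk
    induction k, hk using Nat.le_induction with
    | base => exact h
    | succ k hk ih =>
      have e1 := h1 k
      have e2 := h0 (k + 1) (by omega)
      rw [abs_le] at e1
      omega
  · left
    intro k hk
    induction k, hk using Nat.le_induction with
    | base => exact h
    | succ k hk ih =>
      have e1 := h1 k
      have e2 := h0 (k + 1) (by omega)
      rw [abs_le] at e1
      omega

theorem sec_aux (hs : 0 < s) {m l : ℕ → ℤ} {N : ℕ} (hm : ∀ k, |m (k + 1) - m k| ≤ 1)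
    (hl : ∀ k, |l (k + 1) - l k| ≤ 1) (h1 : ∀ k, N ≤ k → s * |(l k : ℝ)| ≤ |(m k : ℝ)|)
    (h2 : ∀ k, N ≤ k → m k < 0 → s * |(m k : ℝ)| ≤ |(l k : ℝ)|)
    (h3 : ∀ k, N ≤ k → m k ≠ 0 ∨ l k ≠ 0) :
    (∀ k, N ≤ k → s * |(l k : ℝ)| ≤ m k) ∨ (∀ k, N ≤ k → s * |(m k : ℝ)| ≤ l k) ∨
      (∀ k, N ≤ k → s * |(m k : ℝ)| ≤ -l k) := by
  have hm0 : ∀ k, N ≤ k → m k ≠ 0 := by
    intro k hk h
    have e1 := h1 k hk
    rw [h] at e1
    simp only [Int.cast_zero, abs_zero] at e1
    rcases h3 k hk with e | e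
    · exact e h
    · have : 0 < |(l k : ℝ)| := abs_pos.2 (by exact_mod_cast e)
      nlinarith
  rcases const_sign hm hm0 with hp | hn
  · left
    intro k hk
    have := h1 k hk
    rwa [abs_of_pos (show (0 : ℝ) < m k by exact_mod_cast hp k hk)] at this
  · right
    have hl0 : ∀ k, N ≤ k → l k ≠ 0 := by
      intro k hk h
      have e1 := h2 k hk (hn k hk)
      rw [h] at e1
      simp only [Int.cast_zero, abs_zero] at e1
      have : 0 < |(m k : ℝ)| := abs_pos.2 (by exact_mod_cast (hm0 k hk))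
      nlinarith
    rcases const_sign hl hl0 with hp | hn'
    · left
      intro k hk
      have := h2 k hk (hn k hk)
      rwa [abs_of_pos (show (0 : ℝ) < l k by exact_mod_cast hp k hk)] at this
    · right
      intro k hk
      have := h2 k hk (hn k hk)
      rwa [abs_of_neg (show (l k : ℝ) < 0 by exact_mod_cast hn' k hk)] at this

theorem step_fst {r : ℕ → Pt} (hr : ∀ k, squareLattice.Adj (r k) (r (k + 1))) (k : ℕ) :
    |(r (k + 1)).1 - (r k).1| ≤ 1 := by
  have := hr k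
  rw [adj_iff] at this
  rw [abs_le]
  rcases this with h | h | h | h <;> rw [h] <;> simp

theorem step_snd {r : ℕ → Pt} (hr : ∀ k, squareLattice.Adj (r k) (r (k + 1))) (k : ℕ) :
    |(r (k + 1)).2 - (r k).2| ≤ 1 := by
  have := hr k
  rw [adj_iff] at this
  rw [abs_le]
  rcases this with h | h | h | h <;> rw [h] <;> simp

/-- if only the region `δ0` is visited then the curve is in one cone -/
theorem cone_of_avoid (hs : 0 < s) {r : ℕ → Pt} (hr : ∀ k, squareLattice.Adj (r k) (r (k + 1)))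
    {N : ℕ} (hfar : ∀ k, N ≤ k → (r k).1 ≠ 0 ∨ (r k).2 ≠ 0) (δ0 : Dir)
    (h : ∀ k, N ≤ k → ∀ δ, δ ≠ δ0 → ¬ Reg s δ (r k)) :
    ∃ δ, ∀ k, N ≤ k → Cone s δ (r k) := by
  cases δ0 with
  | rt =>
    have hu := fun k hk => h k hk .up (by decide)
    have hd := fun k hk => h k hk .dn (by decide)
    have hl := fun k hk => h k hk .lf (by decide)
    simp only [Reg, not_lt] at hu hd hl
    rcases sec_aux hs (m := fun k => (r k).1) (l := fun k => (r k).2) (N := N)
      (step_fst hr) (step_snd hr)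
      (fun k hk => by
        have h1 := hu k hk
        have h2 := hd k hk
        rcases abs_cases ((r k).2 : ℝ) with ⟨e, -⟩ | ⟨e, -⟩ <;> rw [e] <;> linarith)
      (fun k hk hneg => by
        have h1 := hl k hk
        rwa [abs_of_neg (show ((r k).1 : ℝ) < 0 by exact_mod_cast hneg)]) hfar with h | h | h
    · exact ⟨.rt, h⟩
    · exact ⟨.up, h⟩
    · exact ⟨.dn, h⟩
  | up =>
    have hu := fun k hk => h k hk .rt (by decide)
    have hd := fun k hk => h k hk .lf (by decide)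
    have hl := fun k hk => h k hk .dn (by decide)
    simp only [Reg, not_lt] at hu hd hl
    rcases sec_aux hs (m := fun k => (r k).2) (l := fun k => (r k).1) (N := N)
      (step_snd hr) (step_fst hr)
      (fun k hk => by
        have h1 := hu k hk
        have h2 := hd k hk
        rcases abs_cases ((r k).1 : ℝ) with ⟨e, -⟩ | ⟨e, -⟩ <;> rw [e] <;> linarith)
      (fun k hk hneg => by
        have h1 := hl k hk
        rwa [abs_of_neg (show ((r k).2 : ℝ) < 0 by exact_mod_cast hneg)])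
      (fun k hk => (hfar k hk).symm) with h | h | h
    · exact ⟨.up, h⟩
    · exact ⟨.rt, h⟩
    · exact ⟨.lf, h⟩
  | lf =>
    have hu := fun k hk => h k hk .up (by decide)
    have hd := fun k hk => h k hk .dn (by decide)
    have hl := fun k hk => h k hk .rt (by decide)
    simp only [Reg, not_lt] at hu hd hl
    rcases sec_aux hs (m := fun k => -(r k).1) (l := fun k => (r k).2) (N := N)
      (fun k => by
        have := step_fst hr k
        rw [abs_le] at this ⊢
        omega) (step_snd hr)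
      (fun k hk => by
        have h1 := hu k hk
        have h2 := hd k hk
        push_cast
        rw [abs_neg]
        rcases abs_cases ((r k).2 : ℝ) with ⟨e, -⟩ | ⟨e, -⟩ <;> rw [e] <;> linarith)
      (fun k hk hneg => by
        have h1 := hl k hk
        have h0 : (0 : ℝ) < (r k).1 := by exact_mod_cast (show 0 < (r k).1 by omega)
        push_cast
        rwa [abs_neg, abs_of_pos h0])
      (fun k hk => by
        rcases hfar k hk with e | e
        · exact Or.inl (neg_ne_zero.2 e)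
        · exact Or.inr e) with h | h | h
    · refine ⟨.lf, fun k hk => ?_⟩
      have := h k hk
      push_cast at this
      exact this
    · refine ⟨.up, fun k hk => ?_⟩
      have := h k hk
      push_cast at this
      rw [abs_neg] at this
      exact this
    · refine ⟨.dn, fun k hk => ?_⟩
      have := h k hk
      push_cast at this
      rw [abs_neg] at this
      exact this
  | dn =>
    have hu := fun k hk => h k hk .rt (by decide)
    have hd := fun k hk => h k hk .lf (by decide)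
    have hl := fun k hk => h k hk .up (by decide)
    simp only [Reg, not_lt] at hu hd hl
    rcases sec_aux hs (m := fun k => -(r k).2) (l := fun k => (r k).1) (N := N)
      (fun k => by
        have := step_snd hr k
        rw [abs_le] at this ⊢
        omega) (step_fst hr)
      (fun k hk => by
        have h1 := hu k hk
        have h2 := hd k hk
        push_cast
        rw [abs_neg]
        rcases abs_cases ((r k).1 : ℝ) with ⟨e, -⟩ | ⟨e, -⟩ <;> rw [e] <;> linarith)
      (fun k hk hneg => by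
        have h1 := hl k hk
        have h0 : (0 : ℝ) < (r k).2 := by exact_mod_cast (show 0 < (r k).2 by omega)
        push_cast
        rwa [abs_neg, abs_of_pos h0])
      (fun k hk => by
        rcases hfar k hk with e | e
        · exact Or.inr e
        · exact Or.inl (neg_ne_zero.2 e)) with h | h | h
    · refine ⟨.dn, fun k hk => ?_⟩
      have := h k hk
      push_cast at this
      exact this
    · refine ⟨.rt, fun k hk => ?_⟩
      have := h k hk
      push_cast at this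
      rw [abs_neg] at this
      exact this
    · refine ⟨.lf, fun k hk => ?_⟩
      have := h k hk
      push_cast at this
      rw [abs_neg] at this
      exact this

/-- the main coordinate is the largest one in a region -/
theorem Reg.abs_le_mc (hs : 0 < s) (hs1 : s ≤ 1) {δ : Dir} {x : Pt} (h : Reg s δ x) :
    |x.1| ≤ mc δ x ∧ |x.2| ≤ mc δ x := by
  have hp := h.mc_pos hs
  have key : ∀ a b : ℤ, |(a : ℝ)| < s * b → 0 < b → |a| ≤ b ∧ |b| ≤ b := by
    intro a b h1 h2
    have h2' : (0 : ℝ) < b := by exact_mod_cast h2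
    refine ⟨?_, by rw [abs_of_pos h2]⟩
    have : |(a : ℝ)| ≤ b := by nlinarith
    exact_mod_cast this
  cases δ <;> simp only [Reg, mc] at h hp ⊢
  · have := key x.1 (-x.2) (by push_cast; exact h) hp
    rw [abs_neg] at this
    exact this
  · have := key x.2 (-x.1) (by push_cast; exact h) hp
    rw [abs_neg] at this
    exact this.symm
  · exact key x.1 x.2 h hp
  · exact (key x.2 x.1 h hp).symm

/-- all four barriers: any two different regions are separated -/
theorem sep_all (hs : 0 < s) {γ1 γ2 γ3 γ4 : ℕ → Pt} (h1 : Barrier 1 1 s γ1)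
    (h2 : Barrier (-1) 1 s γ2) (h3 : Barrier (-1) (-1) s γ3) (h4 : Barrier 1 (-1) s γ4)
    (e13 : γ1 0 = γ3 0) (e24 : γ2 0 = γ4 0) :
    ∃ R : ℤ, ∀ (a b : Pt) (α : squareLattice.Walk a b) (δ δ' : Dir), δ ≠ δ' →
      Reg s δ a → Reg s δ' b → R ≤ mc δ a → R ≤ mc δ' b →
      ∃ x ∈ α.support, (∃ k, γ1 k = x) ∨ (∃ k, γ2 k = x) ∨ (∃ k, γ3 k = x) ∨ (∃ k, γ4 k = x) := by
  obtain ⟨R1, H1⟩ := sep_diag hs h1 h3 e13
  obtain ⟨R2, H2⟩ := sep_anti hs h2 h4 e24
  have H1' : ∀ (a b : Pt) (α : squareLattice.Walk a b) (δ δ' : Dir), (δ = .rt ∨ δ = .dn) →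
      (δ' = .up ∨ δ' = .lf) → Reg s δ a → Reg s δ' b → max R1 R2 ≤ mc δ a →
      max R1 R2 ≤ mc δ' b → ∃ x ∈ α.support, (∃ k, γ1 k = x) ∨ (∃ k, γ2 k = x) ∨
        (∃ k, γ3 k = x) ∨ (∃ k, γ4 k = x) := by
    intro a b α δ δ' hδ hδ' ha hb hRa hRb
    obtain ⟨x, hx, h⟩ := H1 a b α δ δ' hδ hδ' ha hb ((le_max_left _ _).trans hRa)
      ((le_max_left _ _).trans hRb)
    exact ⟨x, hx, by tauto⟩
  have H2' : ∀ (a b : Pt) (α : squareLattice.Walk a b) (δ δ' : Dir), (δ = .rt ∨ δ = .up) →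
      (δ' = .dn ∨ δ' = .lf) → Reg s δ a → Reg s δ' b → max R1 R2 ≤ mc δ a →
      max R1 R2 ≤ mc δ' b → ∃ x ∈ α.support, (∃ k, γ1 k = x) ∨ (∃ k, γ2 k = x) ∨
        (∃ k, γ3 k = x) ∨ (∃ k, γ4 k = x) := by
    intro a b α δ δ' hδ hδ' ha hb hRa hRb
    obtain ⟨x, hx, h⟩ := H2 a b α δ δ' hδ hδ' ha hb ((le_max_right _ _).trans hRa)
      ((le_max_right _ _).trans hRb)
    exact ⟨x, hx, by tauto⟩
  have H1r : ∀ (a b : Pt) (α : squareLattice.Walk a b) (δ δ' : Dir), (δ = .up ∨ δ = .lf) →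
      (δ' = .rt ∨ δ' = .dn) → Reg s δ a → Reg s δ' b → max R1 R2 ≤ mc δ a →
      max R1 R2 ≤ mc δ' b → ∃ x ∈ α.support, (∃ k, γ1 k = x) ∨ (∃ k, γ2 k = x) ∨
        (∃ k, γ3 k = x) ∨ (∃ k, γ4 k = x) := by
    intro a b α δ δ' hδ hδ' ha hb hRa hRb
    obtain ⟨x, hx, h⟩ := H1' b a α.reverse δ' δ hδ' hδ hb ha hRb hRa
    rw [SimpleGraph.Walk.support_reverse, List.mem_reverse] at hx
    exact ⟨x, hx, h⟩
  have H2r : ∀ (a b : Pt) (α : squareLattice.Walk a b) (δ δ' : Dir), (δ = .dn ∨ δ = .lf) →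
      (δ' = .rt ∨ δ' = .up) → Reg s δ a → Reg s δ' b → max R1 R2 ≤ mc δ a →
      max R1 R2 ≤ mc δ' b → ∃ x ∈ α.support, (∃ k, γ1 k = x) ∨ (∃ k, γ2 k = x) ∨
        (∃ k, γ3 k = x) ∨ (∃ k, γ4 k = x) := by
    intro a b α δ δ' hδ hδ' ha hb hRa hRb
    obtain ⟨x, hx, h⟩ := H2' b a α.reverse δ' δ hδ' hδ hb ha hRb hRa
    rw [SimpleGraph.Walk.support_reverse, List.mem_reverse] at hx
    exact ⟨x, hx, h⟩
  refine ⟨max R1 R2, fun a b α δ δ' hne ha hb hRa hRb => ?_⟩
  cases δ with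
  | rt =>
    cases δ' with
    | rt => exact absurd rfl hne
    | up => exact H1' a b α _ _ (Or.inl rfl) (Or.inl rfl) ha hb hRa hRb
    | lf => exact H1' a b α _ _ (Or.inl rfl) (Or.inr rfl) ha hb hRa hRb
    | dn => exact H2' a b α _ _ (Or.inl rfl) (Or.inl rfl) ha hb hRa hRb
  | up =>
    cases δ' with
    | up => exact absurd rfl hne
    | rt => exact H1r a b α _ _ (Or.inl rfl) (Or.inl rfl) ha hb hRa hRb
    | lf => exact H2' a b α _ _ (Or.inr rfl) (Or.inr rfl) ha hb hRa hRb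
    | dn => exact H2' a b α _ _ (Or.inr rfl) (Or.inl rfl) ha hb hRa hRb
  | lf =>
    cases δ' with
    | lf => exact absurd rfl hne
    | rt => exact H1r a b α _ _ (Or.inr rfl) (Or.inl rfl) ha hb hRa hRb
    | up => exact H2r a b α _ _ (Or.inr rfl) (Or.inr rfl) ha hb hRa hRb
    | dn => exact H1r a b α _ _ (Or.inr rfl) (Or.inr rfl) ha hb hRa hRb
  | dn =>
    cases δ' with
    | dn => exact absurd rfl hne
    | rt => exact H2r a b α _ _ (Or.inl rfl) (Or.inl rfl) ha hb hRa hRb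
    | up => exact H1' a b α _ _ (Or.inr rfl) (Or.inl rfl) ha hb hRa hRb
    | lf => exact H1' a b α _ _ (Or.inr rfl) (Or.inr rfl) ha hb hRa hRb

theorem exists_walk_tail {r : ℕ → Pt} (hr : ∀ k, squareLattice.Adj (r k) (r (k + 1))) {i j : ℕ}
    (hij : i ≤ j) : ∃ w : squareLattice.Walk (r i) (r j), ∀ x ∈ w.support, ∃ k, i ≤ k ∧ r k = x := by
  induction j, hij using Nat.le_induction with
  | base =>
    refine ⟨.nil, fun x hx => ⟨i, le_rfl, ?_⟩⟩
    rw [SimpleGraph.Walk.support_nil, List.mem_singleton] at hx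
    exact hx.symm
  | succ j hj ih =>
    obtain ⟨w, hw⟩ := ih
    refine ⟨w.concat (hr j), fun x hx => ?_⟩
    rw [SimpleGraph.Walk.support_concat, List.mem_append, List.mem_singleton] at hx
    rcases hx with hx | hx
    · exact hw x hx
    · exact ⟨j + 1, by omega, hx.symm⟩

/-- SECTOR THEOREM: a curve tending to infinity which avoids the four barriers is eventually in one
of the four closed cones around the axis directions. -/
theorem sector (hs : 0 < s) (hs1 : s ≤ 1) {γ1 γ2 γ3 γ4 : ℕ → Pt} (h1 : Barrier 1 1 s γ1)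
    (h2 : Barrier (-1) 1 s γ2) (h3 : Barrier (-1) (-1) s γ3) (h4 : Barrier 1 (-1) s γ4)
    (e13 : γ1 0 = γ3 0) (e24 : γ2 0 = γ4 0) {r : ℕ → Pt}
    (hr : ∀ k, squareLattice.Adj (r k) (r (k + 1)))
    (hfar : ∀ B : ℤ, ∃ N, ∀ k, N ≤ k → B < |(r k).1| ∨ B < |(r k).2|)
    (hav : ∃ N, ∀ k, N ≤ k → ∀ j, r k ≠ γ1 j ∧ r k ≠ γ2 j ∧ r k ≠ γ3 j ∧ r k ≠ γ4 j) :
    ∃ δ N, ∀ k, N ≤ k → Cone s δ (r k) := by
  obtain ⟨R, hR⟩ := sep_all hs h1 h2 h3 h4 e13 e24
  obtain ⟨N1, hN1⟩ := hfar (max R 0)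
  obtain ⟨N2, hN2⟩ := hav
  have hfar' : ∀ k, max N1 N2 ≤ k → (r k).1 ≠ 0 ∨ (r k).2 ≠ 0 := by
    intro k hk
    have := hN1 k ((le_max_left _ _).trans hk)
    by_contra hc
    push Not at hc
    rw [hc.1, hc.2, abs_zero] at this
    have := le_max_right R 0
    omega
  have hmc : ∀ k, max N1 N2 ≤ k → ∀ δ, Reg s δ (r k) → R ≤ mc δ (r k) := by
    intro k hk δ h
    have e1 := hN1 k ((le_max_left _ _).trans hk)
    have e2 := h.abs_le_mc hs hs1
    have e3 := le_max_left R 0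
    omega
  have key : ∀ i j, max N1 N2 ≤ i → max N1 N2 ≤ j → i ≤ j → ∀ δ δ', Reg s δ (r i) →
      Reg s δ' (r j) → δ = δ' := by
    intro i j hi hj hij δ δ' ha hb
    by_contra hne
    obtain ⟨w, hw⟩ := exists_walk_tail hr hij
    obtain ⟨x, hx, h⟩ := hR _ _ w δ δ' hne ha hb (hmc i hi δ ha) (hmc j hj δ' hb)
    obtain ⟨k, hk, rfl⟩ := hw x hx
    have hav := hN2 k ((le_max_right N1 N2).trans (hi.trans hk))
    rcases h with ⟨l, hl⟩ | ⟨l, hl⟩ | ⟨l, hl⟩ | ⟨l, hl⟩
    · exact (hav l).1 hl.symm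
    · exact (hav l).2.1 hl.symm
    · exact (hav l).2.2.1 hl.symm
    · exact (hav l).2.2.2 hl.symm
  obtain ⟨δ0, hδ0⟩ : ∃ δ0, ∀ k, max N1 N2 ≤ k → ∀ δ, δ ≠ δ0 → ¬ Reg s δ (r k) := by
    by_cases hex : ∃ k δ, max N1 N2 ≤ k ∧ Reg s δ (r k)
    · obtain ⟨i, δ0, hi, h0⟩ := hex
      refine ⟨δ0, fun k hk δ hδ h => hδ ?_⟩
      rcases le_total i k with hik | hik
      · exact (key i k hi hk hik δ0 δ h0 h).symm
      · exact key k i hk hi hik δ δ0 h h0
    · exact ⟨.rt, fun k hk δ _ h => hex ⟨k, δ, hk, h⟩⟩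
  obtain ⟨δ, hδ⟩ := cone_of_avoid hs hr hfar' δ0 hδ0
  exact ⟨δ, _, hδ⟩

end Crest.Agent.R151.T821
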