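import Mathlib
import Crest.Agent.R151.B710

/-!
# R151, block DIR (helper821), part c: the norm `μ` (pure real analysis)

`μ` norm-like, symmetric under the symmetries of the square, differentiable off the origin.
-/

set_option autoImplicit false

open Filter Topology Set

namespace Crest.Agent.R151.T821

open Crest.Agent.R151.B710

/-- a symmetric norm which is differentiable off the origin -/
structure MuD (μ : ℝ × ℝ → ℝ) : Prop where
  norm : NormLike μ
  swap : ∀ v : ℝ × ℝ, μ (v.2, v.1) = μ v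
  refl : ∀ v : ℝ × ℝ, μ (v.1, -v.2) = μ v
  diff : ∀ v : ℝ × ℝ, v ≠ 0 → DifferentiableAt ℝ μ v

namespace MuD

variable {μ : ℝ × ℝ → ℝ} (h : MuD μ)
include h

theorem refl1 (v : ℝ × ℝ) : μ (-v.1, v.2) = μ v := by
  have h1 := h.norm.neg (v.1, -v.2)
  rw [h.refl] at h1
  simpa using h1

theorem sw (a b : ℝ) : μ (b, a) = μ (a, b) := h.swap (a, b)
theorem r2 (a b : ℝ) : μ (a, -b) = μ (a, b) := h.refl (a, b)
theorem r1 (a b : ℝ) : μ (-a, b) = μ (a, b) := h.refl1 (a, b)

theorem abs1 (a b : ℝ) : μ (|a|, b) = μ (a, b) := by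
  rcases abs_cases a with ⟨e, -⟩ | ⟨e, -⟩ <;> rw [e]
  exact h.r1 a b

theorem abs2 (a b : ℝ) : μ (a, |b|) = μ (a, b) := by
  rcases abs_cases b with ⟨e, -⟩ | ⟨e, -⟩ <;> rw [e]
  exact h.r2 a b

/-- the time constant in the axis direction bounds `μ` from below -/
theorem axis_le (a b : ℝ) : μ (1, 0) * |a| ≤ μ (a, b) := by
  have h1 := h.norm.add (a, b) (a, -b)
  rw [h.r2] at h1
  have h2 : ((a, b) : ℝ × ℝ) + (a, -b) = (2 * |a|) • ((SignType.sign a : ℝ), (0 : ℝ)) := by
    ext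
    · simp only [Prod.fst_add, Prod.smul_fst, smul_eq_mul]
      have := sign_mul_abs a
      linear_combination (-2) * this
    · simp
  rw [h2, h.norm.smul _ _ (by positivity)] at h1
  rcases lt_trichotomy a 0 with ha | ha | ha
  · rw [sign_neg ha] at h1
    simp only [SignType.coe_neg, SignType.coe_one] at h1
    rw [h.r1] at h1
    linarith
  · subst ha
    simp only [abs_zero, mul_zero]
    exact h.norm.nonneg _
  · rw [sign_pos ha] at h1
    simp only [SignType.coe_one] at h1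
    linarith

theorem axis_le' (a b : ℝ) : μ (1, 0) * |b| ≤ μ (a, b) := by
  rw [← h.sw a b]
  exact h.axis_le b a

theorem pos10 : 0 < μ (1, 0) := h.norm.pos (by simp)

theorem pos11 : 0 < μ (1, 1) := h.norm.pos (by simp)

/-- the diagonal functional supports `μ` -/
theorem diag_le (a b : ℝ) : μ (1, 1) / 2 * (a + b) ≤ μ (a, b) := by
  have h1 := h.norm.add (a, b) (b, a)
  rw [h.sw a b] at h1
  rcases le_or_gt 0 (a + b) with hab | hab
  · have h2 : ((a, b) : ℝ × ℝ) + (b, a) = (a + b) • ((1 : ℝ), (1 : ℝ)) := by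
      ext <;> simp [add_comm]
    rw [h2, h.norm.smul _ _ hab] at h1
    linarith
  · have := h.norm.nonneg (a, b)
    have := h.pos11
    nlinarith

/-- a continuous linear functional below `μ` touching it at `v ≠ 0` is the derivative -/
theorem fderiv_eq {v : ℝ × ℝ} (hv : v ≠ 0) (L : ℝ × ℝ →L[ℝ] ℝ) (hL : ∀ w, L w ≤ μ w)
    (hLv : L v = μ v) : fderiv ℝ μ v = L := by
  have h1 : IsLocalMin (fun w => μ w - L w) v := by
    refine Filter.Eventually.of_forall fun w => ?_
    simp only [hLv, sub_self]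
    have := hL w
    linarith
  have h2 := h1.fderiv_eq_zero
  have hd := h.diff v hv
  have h3 : fderiv ℝ (fun w => μ w - L w) v = fderiv ℝ μ v - L := by
    have := (hd.hasFDerivAt.sub L.hasFDerivAt).fderiv
    exact this
  rw [h3] at h2
  exact sub_eq_zero.1 h2

/-- linear functional with given coefficients -/
noncomputable def _root_.Crest.Agent.R151.T821.lf (p q : ℝ) : ℝ × ℝ →L[ℝ] ℝ :=
  p • ContinuousLinearMap.fst ℝ ℝ ℝ + q • ContinuousLinearMap.snd ℝ ℝ ℝ

omit h in
theorem _root_.Crest.Agent.R151.T821.lf_apply (p q : ℝ) (v : ℝ × ℝ) :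
    lf p q v = p * v.1 + q * v.2 := by
  simp [lf]

theorem mono2 {a b b' : ℝ} (hb : 0 ≤ b) (hbb : b ≤ b') : μ (a, b) ≤ μ (a, b') := by
  rcases eq_or_lt_of_le (hb.trans hbb) with h0 | h0
  · have : b = b' := by linarith
    rw [this]
  · have h1 := h.norm.add (((1 + b / b') / 2) • (a, b')) (((1 - b / b') / 2) • (a, -b'))
    have hle : b / b' ≤ 1 := (div_le_one h0).2 hbb
    have hge : 0 ≤ b / b' := by positivity
    rw [h.norm.smul _ _ (by linarith), h.norm.smul _ _ (by linarith), h.r2] at h1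
    have h2 : ((1 + b / b') / 2) • ((a, b') : ℝ × ℝ) + ((1 - b / b') / 2) • (a, -b') = (a, b) := by
      ext
      · simp only [Prod.fst_add, Prod.smul_fst, smul_eq_mul]; ring
      · simp only [Prod.snd_add, Prod.smul_snd, smul_eq_mul]; field_simp; ring
    rw [h2] at h1
    linarith

/-- slope between the axis facet and the diagonal facet -/
theorem exists_slope : ∃ s : ℝ, 0 < s ∧ s < 1 ∧ μ (1, 0) < μ (1, s) ∧
    μ (1, 1) / 2 * (1 + s) < μ (1, s) := by
  by_contra hcon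
  push Not at hcon
  have hc1 : Continuous fun s : ℝ => μ (1, s) := h.norm.continuous.comp (by fun_prop)
  have hpre := isPreconnected_closed_iff.1 (isPreconnected_Icc (a := (0 : ℝ)) (b := 1))
    {s | μ (1, s) ≤ μ (1, 0)} {s | μ (1, s) ≤ μ (1, 1) / 2 * (1 + s)}
    (isClosed_le hc1 continuous_const) (isClosed_le hc1 (by fun_prop))
    (fun s hs => by
      rcases eq_or_lt_of_le hs.1 with h0 | h0
      · left
        rw [← h0]
        exact le_refl (μ (1, 0))
      · rcases eq_or_lt_of_le hs.2 with h1 | h1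
        · right
          rw [h1]
          show μ (1, 1) ≤ μ (1, 1) / 2 * (1 + 1)
          linarith
        · by_cases h2 : μ (1, 0) < μ (1, s)
          · right
            exact hcon s h0 h1 h2
          · left
            exact not_lt.1 h2)
    ⟨0, ⟨le_rfl, zero_le_one⟩, le_refl (μ (1, 0))⟩
    ⟨1, ⟨zero_le_one, le_rfl⟩, by
      show μ (1, 1) ≤ μ (1, 1) / 2 * (1 + 1)
      linarith⟩
  obtain ⟨s, -, h1, h2⟩ := hpre
  simp only [Set.mem_ofPred_eq] at h1 h2
  have hv : ((1, s) : ℝ × ℝ) ≠ 0 := by simp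
  have e1 := h.fderiv_eq hv (lf (μ (1, 0)) 0) (fun w => by
    rw [lf_apply]
    have := h.axis_le w.1 w.2
    have := le_abs_self w.1
    have := h.pos10
    nlinarith) (by
    rw [lf_apply]
    have := h.axis_le 1 s
    rw [abs_one] at this
    simp only [mul_one, zero_mul, add_zero]
    linarith)
  have e2 := h.fderiv_eq hv (lf (μ (1, 1) / 2) (μ (1, 1) / 2)) (fun w => by
    rw [lf_apply]
    have := h.diag_le w.1 w.2
    linarith) (by
    rw [lf_apply]
    have := h.diag_le 1 s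
    simp only
    linarith)
  have e3 := congrArg (fun L : ℝ × ℝ →L[ℝ] ℝ => L (0, 1)) (e1.symm.trans e2)
  simp only [lf_apply] at e3
  have := h.pos11
  linarith

end MuD

/-- the chosen slope and its properties -/
structure Slope (μ : ℝ × ℝ → ℝ) (s : ℝ) : Prop where
  pos : 0 < s
  lt_one : s < 1
  axis : μ (1, 0) < μ (1, s)
  diag : μ (1, 1) / 2 * (1 + s) < μ (1, s)

namespace MuD

variable {μ : ℝ × ℝ → ℝ} (h : MuD μ)
include h

theorem exists_Slope : ∃ s, Slope μ s := by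
  obtain ⟨s, h1, h2, h3, h4⟩ := h.exists_slope
  exact ⟨s, h1, h2, h3, h4⟩

variable {s : ℝ} (hs : Slope μ s)
include hs

/-- outside the axis facet -/
theorem axis_lt {a b : ℝ} (hab : s * |a| ≤ |b|) (h0 : 0 < |a| + |b|) : μ (1, 0) * |a| < μ (a, b) := by
  rcases eq_or_ne a 0 with rfl | ha
  · simp only [abs_zero, mul_zero]
    refine h.norm.pos ?_
    intro h1
    have : b = 0 := congrArg Prod.snd h1
    rw [this] at h0
    simp at h0
  · have ha' : 0 < |a| := abs_pos.2 ha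
    have e1 : μ (a, b) = |a| * μ (1, |b| / |a|) := by
      rw [← h.norm.smul _ _ ha'.le, ← h.abs1, ← h.abs2]
      congr 1
      ext
      · simp
      · simp only [Prod.smul_snd, smul_eq_mul]; field_simp
    have e2 : μ (1, s) ≤ μ (1, |b| / |a|) :=
      h.mono2 hs.pos.le ((le_div_iff₀ ha').2 hab)
    have e3 := hs.axis
    rw [e1]
    nlinarith

theorem axis_lt' {a b : ℝ} (hab : s * |b| ≤ |a|) (h0 : 0 < |a| + |b|) :
    μ (1, 0) * |b| < μ (a, b) := by
  rw [← h.sw a b]
  exact h.axis_lt hs hab (by linarith)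

theorem diag_low {a b : ℝ} (hb : 0 ≤ b) (ha : 0 < a) (hab : b ≤ s * a) :
    (μ (1, s) - μ (1, 1) / 2 * (1 + s)) * a ≤ μ (a, b) - μ (1, 1) / 2 * (a + b) := by
  obtain ⟨r, hr⟩ : ∃ r, r = b / a := ⟨_, rfl⟩
  have hr0 : 0 ≤ r := by rw [hr]; positivity
  have hrs : r ≤ s := by rw [hr]; exact (div_le_iff₀ ha).2 hab
  have hr1 : r < 1 := hrs.trans_lt hs.lt_one
  have e1 : μ (a, b) = a * μ (1, r) := by
    rw [← h.norm.smul _ _ ha.le]
    congr 1
    ext
    · simp
    · simp only [Prod.smul_snd, smul_eq_mul, hr]; field_simp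
  have e2 : b = a * r := by rw [hr]; field_simp
  -- `(1,s)` between `(1,r)` and `(1,1)`
  have hpos : 0 < 1 - r := by linarith
  have h1 := h.norm.add (((1 - s) / (1 - r)) • (1, r)) (((s - r) / (1 - r)) • (1, 1))
  rw [h.norm.smul _ _ (div_nonneg (by linarith [hs.lt_one]) hpos.le),
    h.norm.smul _ _ (div_nonneg (by linarith) hpos.le)] at h1
  have h2 : ((1 - s) / (1 - r)) • ((1, r) : ℝ × ℝ) + ((s - r) / (1 - r)) • (1, 1) = (1, s) := by
    ext
    · simp only [Prod.fst_add, Prod.smul_fst, smul_eq_mul]; field_simp; ring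
    · simp only [Prod.snd_add, Prod.smul_snd, smul_eq_mul]; field_simp; ring
  rw [h2] at h1
  have h3 := h.diag_le 1 r
  have h4 : (1 - s) / (1 - r) ≤ 1 := (div_le_one hpos).2 (by linarith)
  have h5 : 0 ≤ (1 - s) / (1 - r) := div_nonneg (by linarith [hs.lt_one]) hpos.le
  have h6 : (s - r) / (1 - r) = 1 - (1 - s) / (1 - r) := by field_simp; ring
  have h7 : s = (1 - s) / (1 - r) * r + (1 - (1 - s) / (1 - r)) := by field_simp; ring
  have key : μ (1, s) - μ (1, 1) / 2 * (1 + s) ≤ μ (1, r) - μ (1, 1) / 2 * (1 + r) := by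
    obtain ⟨x, hx⟩ : ∃ x, x = (1 - s) / (1 - r) := ⟨_, rfl⟩
    rw [h6, ← hx] at h1
    rw [← hx] at h4 h5 h7
    have e : μ (1, s) - μ (1, 1) / 2 * (1 + s) ≤ x * (μ (1, r) - μ (1, 1) / 2 * (1 + r)) := by
      rw [show (1 : ℝ) + s = x * (1 + r) + (1 - x) * 2 by linear_combination h7]
      nlinarith
    nlinarith
  rw [e1, e2]
  nlinarith

/-- N2: near the diagonal facet means inside the quadrant cone -/
theorem exists_eta : ∃ η : ℝ, 0 < η ∧ ∀ a b : ℝ, 0 < |a| + |b| →
    μ (a, b) - μ (1, 1) / 2 * (a + b) ≤ η * (|a| + |b|) →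
    0 < a ∧ 0 < b ∧ s * |a| ≤ |b| ∧ s * |b| ≤ |a| := by
  have d0 : 0 < μ (1, s) - μ (1, 1) / 2 * (1 + s) := by linarith [hs.diag]
  have c0 : 0 < μ (1, 1) / 2 := by linarith [h.pos11]
  have a0 : μ (1, s) - μ (1, 1) / 2 * (1 + s) ≤ μ (1, 0) - μ (1, 1) / 2 := by
    have := h.diag_low hs (a := 1) (b := 0) le_rfl one_pos (by linarith [hs.pos])
    simpa using this
  obtain ⟨d, hd⟩ : ∃ d, d = μ (1, s) - μ (1, 1) / 2 * (1 + s) := ⟨_, rfl⟩
  obtain ⟨c, hc⟩ : ∃ c, c = μ (1, 1) / 2 := ⟨_, rfl⟩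
  rw [← hd] at d0 a0
  rw [← hc] at c0 a0
  have hm := lt_min d0 c0
  refine ⟨min d c / 4, by positivity, ?_⟩
  have base : ∀ a b : ℝ, 0 < |a| + |b| →
      μ (a, b) - c * (a + b) ≤ min d c / 4 * (|a| + |b|) → 0 < a ∧ (0 < b → s * a ≤ b) := by
    intro a b hab hle
    have l1 := min_le_left d c
    have l2 := min_le_right d c
    obtain ⟨m, hmm⟩ : ∃ m, m = min d c := ⟨_, rfl⟩
    rw [← hmm] at hle l1 l2 hm
    have ha : 0 < a := by
      by_contra hcon
      push Not at hcon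
      rcases le_or_gt b 0 with hb | hb
      · rw [abs_of_nonpos hcon, abs_of_nonpos hb] at hle hab
        have := h.norm.nonneg (a, b)
        nlinarith
      · rw [abs_of_nonpos hcon, abs_of_pos hb] at hle hab
        have := h.axis_le' a b
        rw [abs_of_pos hb] at this
        nlinarith
    refine ⟨ha, fun hb => ?_⟩
    by_contra hcon
    push Not at hcon
    rw [abs_of_pos ha, abs_of_pos hb] at hle
    have e1 := h.diag_low hs hb.le ha hcon.le
    rw [← hd, ← hc] at e1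
    have hba : b ≤ a := by nlinarith [hs.lt_one]
    nlinarith
  intro a b hab hle
  rw [← hc] at hle
  have e1 := base a b hab hle
  have e2 := base b a (by linarith) (by
    rw [h.sw a b, add_comm b a, add_comm |b| |a|]
    exact hle)
  refine ⟨e1.1, e2.1, ?_, ?_⟩
  · rw [abs_of_pos e1.1, abs_of_pos e2.1]
    exact e1.2 e2.1
  · rw [abs_of_pos e1.1, abs_of_pos e2.1]
    exact e2.2 e1.1

omit hs in
/-- contact at the diagonal, uniform form of the differentiability -/
theorem exists_A {η : ℝ} (hη : 0 < η) : ∃ A : ℝ, 0 < A ∧ ∀ (a b σ : ℝ), 0 ≤ σ →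
    A * (|a| + |b|) ≤ σ →
    μ (a + σ, b + σ) - σ * μ (1, 1) ≤ μ (1, 1) / 2 * (a + b) + η * (|a| + |b|) := by
  have hv : ((1, 1) : ℝ × ℝ) ≠ 0 := by simp
  have hd := (h.diff _ hv).hasFDerivAt
  have e2 := h.fderiv_eq hv (lf (μ (1, 1) / 2) (μ (1, 1) / 2)) (fun w => by
    rw [lf_apply]
    have := h.diag_le w.1 w.2
    linarith) (by
    rw [lf_apply]
    simp only
    linarith)
  rw [e2] at hd
  rw [hasFDerivAt_iff_isLittleO_nhds_zero] at hd
  have h1 := hd.def (show (0 : ℝ) < η by exact hη)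
  rw [Metric.eventually_nhds_iff] at h1
  obtain ⟨δ, hδ, h1⟩ := h1
  refine ⟨2 / δ, by positivity, fun a b σ hσ hA => ?_⟩
  have hab : 0 ≤ |a| + |b| := by positivity
  rcases eq_or_lt_of_le hσ with h0 | h0
  · rw [← h0] at hA ⊢
    have h2 : |a| + |b| = 0 := by
      by_contra hne
      have : 0 < |a| + |b| := lt_of_le_of_ne hab (Ne.symm hne)
      have : 0 < 2 / δ * (|a| + |b|) := by positivity
      linarith
    have ha : a = 0 := abs_eq_zero.1 (by linarith [abs_nonneg a, abs_nonneg b])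
    have hb : b = 0 := abs_eq_zero.1 (by linarith [abs_nonneg a, abs_nonneg b])
    rw [ha, hb]
    have : μ (0 + 0, 0 + 0) = 0 := by
      rw [add_zero]
      exact h.norm.zero
    rw [this]
    simp
  · have h2 := h1 (y := ((a / σ, b / σ) : ℝ × ℝ)) (by
      rw [dist_zero_right, Prod.norm_def, Real.norm_eq_abs, Real.norm_eq_abs, abs_div, abs_div,
        abs_of_pos h0]
      rw [div_mul_eq_mul_div, div_le_iff₀ hδ] at hA
      have e1 : |a| / σ < δ := by
        rw [div_lt_iff₀ h0]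
        have := abs_nonneg b
        rcases eq_or_lt_of_le (abs_nonneg a) with hh | hh
        · rw [← hh]; positivity
        · nlinarith
      have e2 : |b| / σ < δ := by
        rw [div_lt_iff₀ h0]
        have := abs_nonneg a
        rcases eq_or_lt_of_le (abs_nonneg b) with hh | hh
        · rw [← hh]; positivity
        · nlinarith
      exact max_lt e1 e2)
    rw [lf_apply, Prod.norm_def, Real.norm_eq_abs, Real.norm_eq_abs, Real.norm_eq_abs] at h2
    simp only at h2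
    have h3 := le_of_abs_le h2
    have h4 : max |a / σ| |b / σ| ≤ (|a| + |b|) / σ := by
      rw [abs_div, abs_div, abs_of_pos h0, add_div]
      have := div_nonneg (abs_nonneg a) h0.le
      have := div_nonneg (abs_nonneg b) h0.le
      exact max_le (by linarith) (by linarith)
    have h5 : μ (a + σ, b + σ) = σ * μ ((1, 1) + (a / σ, b / σ)) := by
      rw [← h.norm.smul _ _ h0.le]
      congr 1
      ext
      · simp only [Prod.smul_fst, Prod.fst_add, smul_eq_mul]; field_simp; ring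
      · simp only [Prod.smul_snd, Prod.snd_add, smul_eq_mul]; field_simp; ring
    rw [h5]
    have h6 : μ ((1, 1) + (a / σ, b / σ)) ≤ μ (1, 1) + μ (1, 1) / 2 * (a / σ + b / σ)
        + η * ((|a| + |b|) / σ) := by
      have := mul_le_mul_of_nonneg_left h4 hη.le
      linarith
    have h7 := mul_le_mul_of_nonneg_left h6 h0.le
    have h8 : σ * (μ (1, 1) + μ (1, 1) / 2 * (a / σ + b / σ) + η * ((|a| + |b|) / σ))
        = σ * μ (1, 1) + μ (1, 1) / 2 * (a + b) + η * (|a| + |b|) := by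
      field_simp
    linarith

omit hs in
/-- the common support functional of two directions on which `μ` is additive -/
theorem exists_support {a b p q : ℝ} (h0 : 0 < μ (a, b))
    (heq : μ (a, b) + μ (p, q) ≤ μ (a + p, b + q)) :
    ∃ l1 l2 : ℝ, (∀ v, lf l1 l2 v ≤ μ v) ∧ l1 * a + l2 * b = μ (a, b) ∧
      l1 * p + l2 * q = μ (p, q) ∧ |l1| ≤ μ (1, 0) ∧ |l2| ≤ μ (1, 0) := by
  have hne : ((a + p, b + q) : ℝ × ℝ) ≠ 0 := by
    intro hz
    have := h.norm.zero
    rw [hz, this] at heq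
    have := h.norm.nonneg (p, q)
    linarith
  obtain ⟨L, hL⟩ : ∃ L, L = fderiv ℝ μ (a + p, b + q) := ⟨_, rfl⟩
  have h1 : ∀ w, L w ≤ μ w := by rw [hL]; exact h.norm.fderiv_le (h.diff _ hne)
  have h2 : L (a + p, b + q) = μ (a + p, b + q) := by
    rw [hL]; exact h.norm.fderiv_self (h.diff _ hne)
  have hLf : ∀ x y : ℝ, L (x, y) = L (1, 0) * x + L (0, 1) * y := by
    intro x y
    have : ((x, y) : ℝ × ℝ) = x • (1, 0) + y • (0, 1) := by ext <;> simp
    rw [this, map_add, map_smul, map_smul, smul_eq_mul, smul_eq_mul]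
    ring
  have e1 := h1 (a, b)
  have e2 := h1 (p, q)
  have e3 : L (a + p, b + q) = L (a, b) + L (p, q) := by
    rw [hLf, hLf a, hLf p]; ring
  refine ⟨L (1, 0), L (0, 1), fun v => ?_, ?_, ?_, ?_, ?_⟩
  · rw [lf_apply]
    have := h1 v
    rw [show v = (v.1, v.2) from rfl, hLf] at this
    exact this
  · rw [← hLf]; linarith
  · rw [← hLf]; linarith
  · rw [abs_le]
    constructor
    · have := h1 (-1, 0)
      rw [h.r1, hLf] at this
      linarith
    · exact h1 _
  · rw [abs_le]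
    constructor
    · have := h1 (0, -1)
      rw [h.r2, h.sw 1 0, hLf] at this
      linarith
    · have := h1 (0, 1)
      rw [h.sw 1 0] at this
      exact this

/-- no hairpins, adjacent cones: additivity forces both vectors into the common quadrant -/
theorem nh_adj {a b p q : ℝ} (ha : 0 < a) (hab : s * |b| ≤ a) (hq : 0 < q) (hpq : s * |p| ≤ q)
    (heq : μ (a, b) + μ (p, q) ≤ μ (a + p, b + q)) : 0 < b ∧ 0 < p := by
  have hu0 : 0 < μ (a, b) := h.norm.pos (fun hz => ha.ne' (congrArg Prod.fst hz))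
  obtain ⟨l1, l2, hL, eu, ez, h1, h2⟩ := h.exists_support hu0 heq
  have su : μ (1, 0) * |b| < μ (a, b) :=
    h.axis_lt' hs (by rwa [abs_of_pos ha]) (by have := abs_pos.2 ha.ne'; positivity)
  have sz : μ (1, 0) * |p| < μ (p, q) :=
    h.axis_lt hs (by rwa [abs_of_pos hq]) (by have := abs_pos.2 hq.ne'; positivity)
  have wu := h.axis_le a b
  have wz := h.axis_le' p q
  rw [abs_of_pos ha] at wu
  rw [abs_of_pos hq] at wz
  rw [abs_le] at h1 h2
  have g0 := h.pos10
  constructor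
  · by_contra hcon
    push Not at hcon
    rcases eq_or_lt_of_le hcon with hb | hb
    · subst hb
      have e1 : l1 * a = μ (a, 0) := by linarith
      have e2 : μ (a, 0) = a * μ (1, 0) := by
        rw [← h.norm.smul _ _ ha.le]; congr 1; ext <;> simp
      have e3 : l1 = μ (1, 0) := by
        have : l1 * a = μ (1, 0) * a := by linarith
        exact mul_right_cancel₀ ha.ne' this
      have hv : ((1, 0) : ℝ × ℝ) ≠ 0 := by simp
      have f1 := h.fderiv_eq hv (lf l1 l2) hL (by rw [lf_apply, e3]; simp)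
      have f2 := h.fderiv_eq hv (lf (μ (1, 0)) 0) (fun w => by
        rw [lf_apply]
        have := h.axis_le w.1 w.2
        have := le_abs_self w.1
        nlinarith) (by rw [lf_apply]; simp)
      have f3 := congrArg (fun L : ℝ × ℝ →L[ℝ] ℝ => L (0, 1)) (f1.symm.trans f2)
      simp only [lf_apply] at f3
      have f4 : l2 = 0 := by linarith
      rw [f4, e3] at ez
      have := le_abs_self p
      nlinarith
    · have e1 : q * μ (a, b) - b * μ (p, q) = l1 * (q * a - b * p) := by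
        rw [← eu, ← ez]; ring
      have e2 : l1 * (q * a - b * p) ≤ μ (1, 0) * |q * a - b * p| := by
        rcases abs_cases (q * a - b * p) with ⟨e, e'⟩ | ⟨e, e'⟩ <;> rw [e] <;> nlinarith
      have e3 : |q * a - b * p| ≤ q * a + -b * |p| := by
        have := abs_sub (q * a) (b * p)
        rw [abs_mul, abs_mul, abs_of_pos ha, abs_of_pos hq, abs_of_neg hb] at this
        linarith
      have e4 := mul_lt_mul_of_pos_left sz (neg_pos.2 hb)
      have e5 := mul_le_mul_of_nonneg_left wu hq.le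
      have e6 := mul_le_mul_of_nonneg_left e3 g0.le
      nlinarith
  · by_contra hcon
    push Not at hcon
    rcases eq_or_lt_of_le hcon with hp | hp
    · subst hp
      have e1 : l2 * q = μ (0, q) := by linarith
      have e2 : μ (0, q) = q * μ (1, 0) := by
        rw [← h.norm.smul _ _ hq.le, ← h.sw]; congr 1; ext <;> simp
      have e3 : l2 = μ (1, 0) := by
        have : l2 * q = μ (1, 0) * q := by linarith
        exact mul_right_cancel₀ hq.ne' this
      have hv : ((0, 1) : ℝ × ℝ) ≠ 0 := by simp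
      have f1 := h.fderiv_eq hv (lf l1 l2) hL (by rw [lf_apply, e3, h.sw 1 0]; simp)
      have f2 := h.fderiv_eq hv (lf 0 (μ (1, 0))) (fun w => by
        rw [lf_apply]
        have := h.axis_le' w.1 w.2
        have := le_abs_self w.2
        nlinarith) (by rw [lf_apply, h.sw 1 0]; simp)
      have f3 := congrArg (fun L : ℝ × ℝ →L[ℝ] ℝ => L (1, 0)) (f1.symm.trans f2)
      simp only [lf_apply] at f3
      have f4 : l1 = 0 := by linarith
      rw [f4, e3] at eu
      have := le_abs_self b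
      nlinarith
    · have e1 : a * μ (p, q) - p * μ (a, b) = l2 * (a * q - p * b) := by
        rw [← eu, ← ez]; ring
      have e2 : l2 * (a * q - p * b) ≤ μ (1, 0) * |a * q - p * b| := by
        rcases abs_cases (a * q - p * b) with ⟨e, e'⟩ | ⟨e, e'⟩ <;> rw [e] <;> nlinarith
      have e3 : |a * q - p * b| ≤ a * q + -p * |b| := by
        have := abs_sub (a * q) (p * b)
        rw [abs_mul, abs_mul, abs_of_pos ha, abs_of_pos hq, abs_of_neg hp] at this
        linarith
      have e4 := mul_lt_mul_of_pos_left su (neg_pos.2 hp)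
      have e5 := mul_le_mul_of_nonneg_left wz ha.le
      have e6 := mul_le_mul_of_nonneg_left e3 g0.le
      nlinarith

/-- no hairpins, opposite cones: strict subadditivity -/
theorem nh_opp {a b p q : ℝ} (ha : 0 < a) (hab : s * |b| ≤ a) (hp : p < 0) (hpq : s * |q| ≤ -p) :
    μ (a + p, b + q) < μ (a, b) + μ (p, q) := by
  by_contra hcon
  push Not at hcon
  have hu0 : 0 < μ (a, b) := h.norm.pos (fun hz => ha.ne' (congrArg Prod.fst hz))
  obtain ⟨l1, l2, hL, eu, ez, h1, h2⟩ := h.exists_support hu0 hcon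
  have su : μ (1, 0) * |b| < μ (a, b) :=
    h.axis_lt' hs (by rwa [abs_of_pos ha]) (by have := abs_pos.2 ha.ne'; positivity)
  have sz : μ (1, 0) * |q| < μ (p, q) :=
    h.axis_lt' hs (by rwa [abs_of_neg hp]) (by have := abs_pos.2 hp.ne; positivity)
  rw [abs_le] at h1 h2
  have g0 := h.pos10
  have e1 : a * μ (p, q) - p * μ (a, b) = l2 * (a * q - p * b) := by
    rw [← eu, ← ez]; ring
  have e2 : l2 * (a * q - p * b) ≤ μ (1, 0) * |a * q - p * b| := by
    rcases abs_cases (a * q - p * b) with ⟨e, e'⟩ | ⟨e, e'⟩ <;> rw [e] <;> nlinarith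
  have e3 : |a * q - p * b| ≤ a * |q| + -p * |b| := by
    have := abs_sub (a * q) (p * b)
    rw [abs_mul, abs_mul, abs_of_pos ha, abs_of_neg hp] at this
    linarith
  have e4 := mul_lt_mul_of_pos_left sz ha
  have e5 := mul_lt_mul_of_pos_left su (neg_pos.2 hp)
  have e6 := mul_le_mul_of_nonneg_left e3 g0.le
  nlinarith

/-- no hairpins, quantitative form, adjacent cones (`rt`, `up`) and opposite cones -/
theorem nh_quant : ∃ c0 : ℝ, 0 < c0 ∧
    (∀ a b p q : ℝ, |a| + |b| = 1 → |p| + |q| = 1 → s * |b| ≤ a → s * |p| ≤ q →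
      μ (a, b) + μ (p, q) - μ (a + p, b + q) < c0 → c0 ≤ b ∧ c0 ≤ p) ∧
    (∀ a b p q : ℝ, |a| + |b| = 1 → |p| + |q| = 1 → s * |b| ≤ a → s * |q| ≤ -p →
      c0 ≤ μ (a, b) + μ (p, q) - μ (a + p, b + q)) := by
  have hcont := h.norm.continuous
  have spos := hs.pos
  -- positivity of the main coordinate
  have mpos : ∀ x y : ℝ, |x| + |y| = 1 → s * |y| ≤ x → 0 < x := by
    intro x y h1 h2
    have h3 : 0 ≤ s * |y| := by positivity
    rcases eq_or_lt_of_le (h3.trans h2) with h4 | h4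
    · exfalso
      rw [← h4] at h2 h1
      have h5 : |y| = 1 := by simpa using h1
      rw [h5] at h2
      linarith
    · exact h4
  obtain ⟨K1, hK1⟩ : ∃ K1 : Set ((ℝ × ℝ) × ℝ × ℝ), K1 = {x | |x.1.1| + |x.1.2| = 1 ∧
    |x.2.1| + |x.2.2| = 1 ∧ s * |x.1.2| ≤ x.1.1 ∧ s * |x.2.1| ≤ x.2.2} := ⟨_, rfl⟩
  obtain ⟨K2, hK2⟩ : ∃ K2 : Set ((ℝ × ℝ) × ℝ × ℝ), K2 = {x | |x.1.1| + |x.1.2| = 1 ∧
    |x.2.1| + |x.2.2| = 1 ∧ s * |x.1.2| ≤ x.1.1 ∧ s * |x.2.2| ≤ -x.2.1} := ⟨_, rfl⟩
  have hbox : IsCompact (Set.Icc (((-1, -1), (-1, -1)) : (ℝ × ℝ) × ℝ × ℝ) ((1, 1), (1, 1))) :=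
    isCompact_Icc
  have inbox : ∀ x : (ℝ × ℝ) × ℝ × ℝ, |x.1.1| + |x.1.2| = 1 → |x.2.1| + |x.2.2| = 1 →
      x ∈ Set.Icc (((-1, -1), (-1, -1)) : (ℝ × ℝ) × ℝ × ℝ) ((1, 1), (1, 1)) := by
    intro x h1 h2
    have b1 : |x.1.1| ≤ 1 := by linarith [abs_nonneg x.1.2]
    have b2 : |x.1.2| ≤ 1 := by linarith [abs_nonneg x.1.1]
    have b3 : |x.2.1| ≤ 1 := by linarith [abs_nonneg x.2.2]
    have b4 : |x.2.2| ≤ 1 := by linarith [abs_nonneg x.2.1]
    rw [abs_le] at b1 b2 b3 b4
    exact ⟨⟨⟨b1.1, b2.1⟩, ⟨b3.1, b4.1⟩⟩, ⟨⟨b1.2, b2.2⟩, ⟨b3.2, b4.2⟩⟩⟩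
  have c1 : IsClosed {x : (ℝ × ℝ) × ℝ × ℝ | |x.1.1| + |x.1.2| = 1} :=
    isClosed_eq (by fun_prop) (by fun_prop)
  have c2 : IsClosed {x : (ℝ × ℝ) × ℝ × ℝ | |x.2.1| + |x.2.2| = 1} :=
    isClosed_eq (by fun_prop) (by fun_prop)
  have c3 : IsClosed {x : (ℝ × ℝ) × ℝ × ℝ | s * |x.1.2| ≤ x.1.1} :=
    isClosed_le (by fun_prop) (by fun_prop)
  have c4 : IsClosed {x : (ℝ × ℝ) × ℝ × ℝ | s * |x.2.1| ≤ x.2.2} :=
    isClosed_le (by fun_prop) (by fun_prop)
  have c5 : IsClosed {x : (ℝ × ℝ) × ℝ × ℝ | s * |x.2.2| ≤ -x.2.1} :=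
    isClosed_le (by fun_prop) (by fun_prop)
  have cK1 : IsCompact K1 := by
    refine hbox.of_isClosed_subset ?_ (fun x hx => by rw [hK1] at hx; exact inbox x hx.1 hx.2.1)
    rw [hK1]
    exact c1.inter (c2.inter (c3.inter c4))
  have cK2 : IsCompact K2 := by
    refine hbox.of_isClosed_subset ?_ (fun x hx => by rw [hK2] at hx; exact inbox x hx.1 hx.2.1)
    rw [hK2]
    exact c1.inter (c2.inter (c3.inter c5))
  obtain ⟨Φ, hΦ⟩ : ∃ Φ : (ℝ × ℝ) × ℝ × ℝ → ℝ,
    Φ = fun x => μ x.1 + μ x.2 - μ (x.1.1 + x.2.1, x.1.2 + x.2.2) := ⟨_, rfl⟩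
  have cΦ : Continuous Φ := by
    rw [hΦ]
    refine ((hcont.comp (by fun_prop)).add (hcont.comp (by fun_prop))).sub
      (hcont.comp (by fun_prop))
  have Φ0 : ∀ x, 0 ≤ Φ x := by
    intro x
    rw [hΦ]
    have := h.norm.add x.1 x.2
    have e : ((x.1.1 + x.2.1, x.1.2 + x.2.2) : ℝ × ℝ) = x.1 + x.2 := rfl
    simp only [e]
    linarith
  obtain ⟨x1, hx1, hm1⟩ := cK1.exists_isMinOn (f := fun x => max (Φ x) (min x.1.2 x.2.1))
    ⟨((1, 0), (0, 1)), by rw [hK1]; simp⟩ (by
      exact (cΦ.max (by fun_prop)).continuousOn)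
  obtain ⟨x2, hx2, hm2⟩ := cK2.exists_isMinOn (f := Φ)
    ⟨((1, 0), (-1, 0)), by rw [hK2]; simp⟩ cΦ.continuousOn
  have p1 : 0 < max (Φ x1) (min x1.1.2 x1.2.1) := by
    rcases eq_or_lt_of_le (Φ0 x1) with h0 | h0
    · rw [hK1] at hx1
      obtain ⟨k1, k2, k3, k4⟩ := hx1
      have hq := mpos x1.2.2 x1.2.1 (by linarith) k4
      have := h.nh_adj hs (mpos _ _ k1 k3) k3 hq k4 (by
        have h1 := h0
        rw [hΦ] at h1
        simp only at h1
        rw [show ((x1.1.1, x1.1.2) : ℝ × ℝ) = x1.1 from rfl,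
          show ((x1.2.1, x1.2.2) : ℝ × ℝ) = x1.2 from rfl]
        linarith)
      exact lt_max_of_lt_right (lt_min this.1 this.2)
    · exact lt_max_of_lt_left h0
  have p2 : 0 < Φ x2 := by
    rw [hK2] at hx2
    obtain ⟨k1, k2, k3, k4⟩ := hx2
    have hp : 0 < -x2.2.1 := mpos (-x2.2.1) x2.2.2 (by rw [abs_neg]; exact k2) k4
    have := h.nh_opp hs (mpos _ _ k1 k3) k3 (by linarith) k4
    rw [hΦ]
    simp only
    rw [show ((x2.1.1, x2.1.2) : ℝ × ℝ) = x2.1 from rfl,
      show ((x2.2.1, x2.2.2) : ℝ × ℝ) = x2.2 from rfl] at this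
    linarith
  refine ⟨min (max (Φ x1) (min x1.1.2 x1.2.1)) (Φ x2), lt_min p1 p2, ?_, ?_⟩
  · intro a b p q h1 h2 h3 h4 h5
    have hx : ((a, b), (p, q)) ∈ K1 := by rw [hK1]; exact ⟨h1, h2, h3, h4⟩
    have h6 := hm1 hx
    simp only [Set.mem_ofPred_eq] at h6
    have h7 := min_le_left (max (Φ x1) (min x1.1.2 x1.2.1)) (Φ x2)
    have h8 : Φ ((a, b), (p, q)) = μ (a, b) + μ (p, q) - μ (a + p, b + q) := by rw [hΦ]
    rw [← h8] at h5
    have h9 : max (Φ x1) (min x1.1.2 x1.2.1) ≤ min b p := by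
      rcases le_max_iff.1 h6 with h10 | h10
      · exact absurd (h5.trans_le h7) (not_lt.2 h10)
      · exact h10
    exact ⟨h7.trans (h9.trans (min_le_left _ _)), h7.trans (h9.trans (min_le_right _ _))⟩
  · intro a b p q h1 h2 h3 h4
    have hx : ((a, b), (p, q)) ∈ K2 := by rw [hK2]; exact ⟨h1, h2, h3, h4⟩
    have h6 := hm2 hx
    simp only [Set.mem_ofPred_eq] at h6
    have h8 : Φ ((a, b), (p, q)) = μ (a, b) + μ (p, q) - μ (a + p, b + q) := by rw [hΦ]
    rw [← h8]
    exact (min_le_right _ _).trans h6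

end MuD

end Crest.Agent.R151.T821
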