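import Mathlib
import Crest.Agent.R151.A565c
import Crest.Agent.R151.K1c

/-!
# R151, block DIR (helper821), part d: most targets have small backward defects

One line segment `0, y0, 2 y0, ..`, the target `k y0`; the defects
`d j = T(j y0,(j+1) y0) + T((j+1) y0,k y0) - T(j y0,k y0) ≥ 0` have a small mean and a one-sided
maximal inequality controls all backward sums at once.
-/

set_option autoImplicit false

open MeasureTheory ProbabilityTheory Filter Topology
open Crest.ProbabilityR.FirstPassage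
open scoped Classical

namespace Crest.Agent.R151.T821

/-- bad indices: some backward average exceeds `lam` -/
def BadIdx (d : ℕ → ℝ) (lam : ℝ) (j : ℕ) : Prop :=
  ∃ m, 1 ≤ m ∧ m ≤ j ∧ lam * m < ∑ i ∈ Finset.Ico (j - m) j, d i

/-- one-sided maximal inequality -/
theorem hardy_littlewood {d : ℕ → ℝ} (hd : ∀ i, 0 ≤ d i) {lam : ℝ} (hlam : 0 < lam) (J : ℕ) :
    lam * ((Finset.Icc 1 J).filter (BadIdx d lam)).card ≤ ∑ i ∈ Finset.range J, d i := by
  induction J using Nat.strong_induction_on with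
  | _ J ih =>
    rcases Nat.eq_zero_or_pos J with rfl | hJ
    · simp
    by_cases hb : BadIdx d lam J
    · obtain ⟨m, h1, h2, h3⟩ := hb
      have h4 := ih (J - m) (by omega)
      have h5 : ((Finset.Icc 1 J).filter (BadIdx d lam)).card
          ≤ ((Finset.Icc 1 (J - m)).filter (BadIdx d lam)).card + m := by
        have hsub : (Finset.Icc 1 J).filter (BadIdx d lam) ⊆
            (Finset.Icc 1 (J - m)).filter (BadIdx d lam) ∪ Finset.Ioc (J - m) J := by
          intro j hj
          rw [Finset.mem_filter, Finset.mem_Icc] at hj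
          rw [Finset.mem_union, Finset.mem_filter, Finset.mem_Icc, Finset.mem_Ioc]
          rcases le_or_gt j (J - m) with h | h
          · exact Or.inl ⟨⟨hj.1.1, h⟩, hj.2⟩
          · exact Or.inr ⟨h, hj.1.2⟩
        refine (Finset.card_le_card hsub).trans ((Finset.card_union_le _ _).trans ?_)
        rw [Nat.card_Ioc]
        omega
      have h6 : ∑ i ∈ Finset.range J, d i
          = ∑ i ∈ Finset.range (J - m), d i + ∑ i ∈ Finset.Ico (J - m) J, d i := by
        rw [Finset.range_eq_Ico, Finset.range_eq_Ico,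
          Finset.sum_Ico_consecutive _ (Nat.zero_le _) (Nat.sub_le _ _)]
      rw [h6]
      have h7 : (((Finset.Icc 1 J).filter (BadIdx d lam)).card : ℝ)
          ≤ ((Finset.Icc 1 (J - m)).filter (BadIdx d lam)).card + m := by exact_mod_cast h5
      nlinarith
    · have h4 := ih (J - 1) (by omega)
      have h5 : (Finset.Icc 1 J).filter (BadIdx d lam)
          = (Finset.Icc 1 (J - 1)).filter (BadIdx d lam) := by
        ext j
        simp only [Finset.mem_filter, Finset.mem_Icc]
        constructor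
        · rintro ⟨⟨a, b⟩, c⟩
          refine ⟨⟨a, ?_⟩, c⟩
          rcases Nat.lt_or_ge j J with h | h
          · omega
          · have : j = J := by omega
            rw [this] at c
            exact absurd c hb
        · rintro ⟨⟨a, b⟩, c⟩
          exact ⟨⟨a, by omega⟩, c⟩
      rw [h5]
      refine h4.trans (Finset.sum_le_sum_of_subset_of_nonneg ?_ fun i _ _ => hd i)
      exact Finset.range_mono (Nat.sub_le _ _)

/-- increments over `J` steps are often at least the mean slope -/
theorem exists_incr {a : ℕ → ℝ} {c δ : ℝ} (ha : Tendsto (fun k : ℕ => a k / k) atTop (𝓝 c))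
    (hδ : 0 < δ) {J : ℕ} (hJ : 1 ≤ J) (N : ℕ) :
    ∃ k, N + J ≤ k ∧ J * (c - δ) ≤ a k - a (k - J) := by
  by_contra hcon
  push Not at hcon
  have h1 : ∀ m : ℕ, a (N + m * J) ≤ a N + m * J * (c - δ) := by
    intro m
    induction m with
    | zero => simp
    | succ m ih =>
      have := hcon (N + (m + 1) * J) (by nlinarith)
      have e : N + (m + 1) * J - J = N + m * J := by
        have : (m + 1) * J = m * J + J := by ring
        omega
      rw [e] at this
      push_cast
      nlinarith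
  have h2 : Tendsto (fun m : ℕ => N + m * J) atTop atTop := by
    refine tendsto_atTop_mono (fun m => ?_) tendsto_id
    simp only [id]
    nlinarith
  have h3 := ha.comp h2
  have h4 : Tendsto (fun m : ℕ => ((c - δ) + (a N - N * (c - δ)) / ((N + m * J : ℕ) : ℝ))) atTop
      (𝓝 ((c - δ) + 0)) := by
    refine tendsto_const_nhds.add ?_
    exact tendsto_const_nhds.div_atTop (tendsto_natCast_atTop_atTop.comp h2)
  have h5 := le_of_tendsto_of_tendsto h3 h4 (by
    filter_upwards [eventually_ge_atTop 1] with m hm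
    have hpos : (0 : ℝ) < ((N + m * J : ℕ) : ℝ) := by
      have : 0 < N + m * J := by nlinarith
      exact_mod_cast this
    simp only [Function.comp]
    rw [div_le_iff₀ hpos, add_mul, div_mul_cancel₀ _ hpos.ne']
    have := h1 m
    push_cast
    nlinarith)
  linarith

section target

variable {G : Measure ℝ} [IsProbabilityMeasure G]

/-- small backward defects at the origin up to `R` steps, target `z` -/
def Ev (y0 : ℤ × ℤ) (lam : ℝ) (R : ℕ) (z : ℤ × ℤ) : Set Environment :=
  {t | ∀ m : ℕ, 1 ≤ m → m ≤ R →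
    passageTime t (-((m : ℤ) • y0)) 0 + passageTime t 0 z
      - passageTime t (-((m : ℤ) • y0)) z ≤ lam * m}

theorem measurableSet_Ev (y0 : ℤ × ℤ) (lam : ℝ) (R : ℕ) (z : ℤ × ℤ) :
    MeasurableSet (Ev y0 lam R z) := by
  unfold Ev
  simp only [Set.ofPred_forall]
  refine MeasurableSet.iInter fun m => MeasurableSet.iInter fun _ => MeasurableSet.iInter fun _ => ?_
  exact measurableSet_le (((K.measurable_pt _ _).add (K.measurable_pt _ _)).sub
    (K.measurable_pt _ _)) measurable_const

theorem Ev_anti {y0 : ℤ × ℤ} {lam : ℝ} {R R' : ℕ} (h : R ≤ R') (z : ℤ × ℤ) :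
    Ev y0 lam R' z ⊆ Ev y0 lam R z := fun _ ht m h1 h2 => ht m h1 (h2.trans h)

/-- the defect -/
noncomputable def dfc (y0 z : ℤ × ℤ) (t : Environment) (j : ℕ) : ℝ :=
  passageTime t ((j : ℤ) • y0) (((j : ℤ) + 1) • y0) + passageTime t (((j : ℤ) + 1) • y0) z
    - passageTime t ((j : ℤ) • y0) z

theorem dfc_nonneg {t : Environment} (ht : K.Nn t) (y0 z : ℤ × ℤ) (j : ℕ) : 0 ≤ dfc y0 z t j := by
  have := K.pt_triangle ht ((j : ℤ) • y0) (((j : ℤ) + 1) • y0) z
  unfold dfc
  linarith

theorem measurable_dfc (y0 z : ℤ × ℤ) (j : ℕ) : Measurable fun t => dfc y0 z t j :=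
  ((K.measurable_pt _ _).add (K.measurable_pt _ _)).sub (K.measurable_pt _ _)

/-- backward sums of defects dominate the defect of the long step -/
theorem le_sum_dfc {t : Environment} (ht : K.Nn t) (y0 z : ℤ × ℤ) {m j : ℕ} (hm : m ≤ j) :
    passageTime t (((j - m : ℕ) : ℤ) • y0) ((j : ℤ) • y0) + passageTime t ((j : ℤ) • y0) z
      - passageTime t (((j - m : ℕ) : ℤ) • y0) z ≤ ∑ i ∈ Finset.Ico (j - m) j, dfc y0 z t i := by
  obtain ⟨a, rfl⟩ := Nat.exists_eq_add_of_le hm
  rw [Nat.add_sub_cancel_left]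
  clear hm
  induction m with
  | zero =>
    simp only [zero_add, Finset.Ico_self, Finset.sum_empty]
    rw [K.pt_self ht]
    linarith
  | succ m ih =>
    have e : m + 1 + a = (m + a) + 1 := by omega
    rw [e, Finset.sum_Ico_succ_top (by omega)]
    have h1 := K.pt_triangle ht ((a : ℤ) • y0) (((m + a : ℕ) : ℤ) • y0)
      ((((m + a : ℕ) : ℤ) + 1) • y0)
    have h2 : (((m + a + 1 : ℕ) : ℤ)) = ((m + a : ℕ) : ℤ) + 1 := by push_cast; ring
    rw [h2]
    unfold dfc at ih ⊢
    linarith

theorem measurableSet_bad (y0 z : ℤ × ℤ) (lam : ℝ) (j : ℕ) :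
    MeasurableSet {t | BadIdx (dfc y0 z t) lam j} := by
  unfold BadIdx
  simp only [Set.ofPred_exists, Set.ofPred_and]
  refine MeasurableSet.iUnion fun m => (MeasurableSet.const _).inter ((MeasurableSet.const _).inter ?_)
  exact measurableSet_lt measurable_const (Finset.measurable_sum _ fun i _ => measurable_dfc y0 z i)

/-- MAIN ESTIMATE of the mean argument -/
theorem good_target (h0 : G (Set.Iio 0) = 0)
    (hint : ∀ x y, Integrable (fun t => passageTime t x y) (iidLaw G))
    {y0 : ℤ × ℤ} {c δ lam : ℝ}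
    (hlim : Tendsto (fun k : ℕ => K.ET G ((k : ℤ) • y0) / k) atTop (𝓝 c))
    (h1 : K.ET G y0 ≤ c + δ) (hδ : 0 < δ) (hlam : 0 < lam) {R : ℕ} (hR : 1 ≤ R) (N : ℕ) :
    ∃ k : ℕ, N ≤ k ∧ 1 - 4 * δ / lam ≤ (iidLaw G).real (Ev y0 lam R ((k : ℤ) • y0)) := by
  obtain ⟨k, hk, hk'⟩ := exists_incr hlim hδ (J := 2 * R) (by omega) (N + 2 * R)
  obtain ⟨J, hJ⟩ : ∃ J, J = 2 * R := ⟨_, rfl⟩
  rw [← hJ] at hk hk'
  obtain ⟨z, hz⟩ : ∃ z : ℤ × ℤ, z = (k : ℤ) • y0 := ⟨_, rfl⟩
  have hNn := K.ae_Nn (G := G) h0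
  -- mean of the defects
  have hmean : ∑ j ∈ Finset.range J, ∫ t, dfc y0 z t j ∂(iidLaw G) ≤ 2 * J * δ := by
    have e : ∀ j : ℕ, ∫ t, dfc y0 z t j ∂(iidLaw G)
        = K.ET G y0 + K.ET G ((((k : ℤ) - (j : ℤ)) - 1) • y0) - K.ET G (((k : ℤ) - (j : ℤ)) • y0) := by
      intro j
      unfold dfc
      have i1 : Integrable (fun t : Environment =>
          passageTime t ((j : ℤ) • y0) (((j : ℤ) + 1) • y0)
            + passageTime t (((j : ℤ) + 1) • y0) z) (iidLaw G) := (hint _ _).add (hint _ _)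
      rw [integral_sub i1 (hint _ _), integral_add (hint _ _) (hint _ _),
        K.integral_pt, K.integral_pt, K.integral_pt, hz]
      congr 2
      · congr 1
        rw [← sub_smul]
        simp
      · congr 1
        rw [← sub_smul]
        ring_nf
      · rw [← sub_smul]
    have key : ∀ n : ℕ, n ≤ k → ∑ j ∈ Finset.range n, ∫ t, dfc y0 z t j ∂(iidLaw G)
        = n * K.ET G y0 + K.ET G (((k - n : ℕ) : ℤ) • y0) - K.ET G ((k : ℤ) • y0) := by
      intro n hn
      induction n with
      | zero => simp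
      | succ n ih =>
        rw [Finset.sum_range_succ, ih (by omega), e n]
        have e1 : ((k - (n + 1) : ℕ) : ℤ) = (k : ℤ) - n - 1 := by omega
        have e2 : ((k - n : ℕ) : ℤ) = (k : ℤ) - n := by omega
        rw [e1, e2]
        push_cast
        ring
    rw [key J (by omega)]
    have hJ0 : (0 : ℝ) ≤ J := Nat.cast_nonneg _
    nlinarith
  -- expected number of bad indices
  have hcard : ∑ j ∈ Finset.Icc 1 J, (iidLaw G).real {t | BadIdx (dfc y0 z t) lam j}
      ≤ 2 * J * δ / lam := by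
    have e1 : ∑ j ∈ Finset.Icc 1 J, (iidLaw G).real {t | BadIdx (dfc y0 z t) lam j}
        = ∫ t, (((Finset.Icc 1 J).filter (BadIdx (dfc y0 z t) lam)).card : ℝ) ∂(iidLaw G) := by
      have e2 : ∀ t, (((Finset.Icc 1 J).filter (BadIdx (dfc y0 z t) lam)).card : ℝ)
          = ∑ j ∈ Finset.Icc 1 J, ({t | BadIdx (dfc y0 z t) lam j}.indicator (fun _ => (1 : ℝ)) t) := by
        intro t
        rw [Finset.card_filter]
        push_cast
        refine Finset.sum_congr rfl fun j _ => ?_
        simp [Set.indicator_apply]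
      simp_rw [e2]
      rw [integral_finsetSum _ fun j _ => (integrable_const (1 : ℝ)).indicator
        (measurableSet_bad y0 z lam j)]
      refine Finset.sum_congr rfl fun j _ => ?_
      rw [integral_indicator_const _ (measurableSet_bad y0 z lam j)]
      simp
    rw [e1, le_div_iff₀ hlam]
    have e3 : (∫ t, (((Finset.Icc 1 J).filter (BadIdx (dfc y0 z t) lam)).card : ℝ) ∂(iidLaw G)) * lam
        = ∫ t, lam * (((Finset.Icc 1 J).filter (BadIdx (dfc y0 z t) lam)).card : ℝ) ∂(iidLaw G) := by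
      rw [integral_const_mul]
      ring
    rw [e3]
    have hdint : ∀ j, Integrable (fun t => dfc y0 z t j) (iidLaw G) := fun j =>
      ((hint _ _).add (hint _ _)).sub (hint _ _)
    have e4 : ∫ t, lam * (((Finset.Icc 1 J).filter (BadIdx (dfc y0 z t) lam)).card : ℝ) ∂(iidLaw G)
        ≤ ∫ t, ∑ j ∈ Finset.range J, dfc y0 z t j ∂(iidLaw G) := by
      refine integral_mono_of_nonneg (Eventually.of_forall fun t => by positivity)
        (integrable_finsetSum _ fun j _ => hdint j) ?_
      filter_upwards [hNn] with t ht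
      exact hardy_littlewood (fun j => dfc_nonneg ht y0 z j) hlam J
    rw [integral_finsetSum _ fun j _ => hdint j] at e4
    exact e4.trans hmean
  -- choose an index in the second half
  obtain ⟨j, hj, hjb⟩ : ∃ j ∈ Finset.Icc (R + 1) J,
      (iidLaw G).real {t | BadIdx (dfc y0 z t) lam j} ≤ 4 * δ / lam := by
    by_contra hcon
    push Not at hcon
    have h2 : ∑ j ∈ Finset.Icc (R + 1) J, (4 * δ / lam)
        < ∑ j ∈ Finset.Icc (R + 1) J, (iidLaw G).real {t | BadIdx (dfc y0 z t) lam j} := by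
      refine Finset.sum_lt_sum_of_nonempty ⟨R + 1, ?_⟩ hcon
      rw [Finset.mem_Icc]
      omega
    have h3 : ∑ j ∈ Finset.Icc (R + 1) J, (iidLaw G).real {t | BadIdx (dfc y0 z t) lam j}
        ≤ ∑ j ∈ Finset.Icc 1 J, (iidLaw G).real {t | BadIdx (dfc y0 z t) lam j} := by
      refine Finset.sum_le_sum_of_subset_of_nonneg ?_ fun _ _ _ => measureReal_nonneg
      exact Finset.Icc_subset_Icc (by omega) le_rfl
    rw [Finset.sum_const, Nat.card_Icc, nsmul_eq_mul] at h2
    have h4 : ((J + 1 - (R + 1) : ℕ) : ℝ) = R := by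
      have : J + 1 - (R + 1) = R := by omega
      rw [this]
    rw [h4] at h2
    have h5 : 2 * (J : ℝ) * δ / lam = R * (4 * δ / lam) := by
      rw [hJ]
      push_cast
      ring
    linarith
  rw [Finset.mem_Icc] at hj
  refine ⟨k - j, by omega, ?_⟩
  -- shift
  have hsub : {t | BadIdx (dfc y0 z t) lam j}ᶜ ∩ {t | K.Nn t} ⊆
      A.shift ((j : ℤ) • y0) ⁻¹' (Ev y0 lam R (((k - j : ℕ) : ℤ) • y0)) := by
    rintro t ⟨ht1, ht2⟩ m hm1 hm2
    have hb : ¬ BadIdx (dfc y0 z t) lam j := ht1
    unfold BadIdx at hb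
    push Not at hb
    have h3 := hb m hm1 (by omega)
    have h4 := le_sum_dfc (show K.Nn t from ht2) y0 z (m := m) (j := j) (by omega)
    rw [A.pt_shift, A.pt_shift, A.pt_shift]
    have e1 : -((m : ℤ) • y0) + (j : ℤ) • y0 = ((j - m : ℕ) : ℤ) • y0 := by
      rw [← neg_smul, ← add_smul]
      congr 1
      omega
    have e2 : ((k - j : ℕ) : ℤ) • y0 + (j : ℤ) • y0 = z := by
      rw [hz, ← add_smul]
      congr 1
      omega
    rw [e1, e2, zero_add]
    exact h4.trans h3
  have hp : (iidLaw G).real (A.shift ((j : ℤ) • y0) ⁻¹' (Ev y0 lam R (((k - j : ℕ) : ℤ) • y0)))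
      = (iidLaw G).real (Ev y0 lam R (((k - j : ℕ) : ℤ) • y0)) :=
    (A.mp_shift G _).measureReal_preimage (measurableSet_Ev _ _ _ _).nullMeasurableSet
  rw [← hp]
  have h6 : 1 - 4 * δ / lam ≤ (iidLaw G).real ({t | BadIdx (dfc y0 z t) lam j}ᶜ) := by
    rw [probReal_compl_eq_one_sub (measurableSet_bad y0 z lam j)]
    linarith
  refine h6.trans ?_
  refine ENNReal.toReal_mono (measure_ne_top _ _) (measure_mono_ae ?_)
  filter_upwards [hNn] with t ht htb
  exact hsub ⟨htb, ht⟩

end target

end Crest.Agent.R151.T821
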