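import Mathlib
import Crest.Agent.R151.T821c
import Crest.Agent.R151.T821d
import Crest.Agent.R151.K2b

/-!
# R151, block DIR (helper821), part e: directions of geodesics towards a far diagonal point
-/

set_option autoImplicit false

open MeasureTheory ProbabilityTheory Filter Topology
open Crest.ProbabilityR.FirstPassage

namespace Crest.Agent.R151.T821

open Crest.Agent.R151.K (toR n1 box dev)

/-- the inputs: shape theorem in mean and almost surely (both end points) -/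
structure ShapeIn (G : Measure ℝ) (μ : ℝ × ℝ → ℝ) : Prop where
  h0 : G (Set.Iio 0) = 0
  int : ∀ x y, Integrable (fun t => passageTime t x y) (iidLaw G)
  mean : ∀ w : ℤ × ℤ, Tendsto (fun k : ℕ => K.ET G ((k : ℤ) • w) / k) atTop (𝓝 (μ (toR w)))
  sh2 : ∀ ε : ℝ, 0 < ε → ∀ᵐ t ∂(iidLaw G), ∀ᶠ n : ℕ in atTop, dev μ n t ≤ ε * n

/-- the diagonal lattice vector with signs -/
def dg (e1 e2 : ℤ) : ℤ × ℤ := (e1, e2)

/-- sign pairs -/
def IsSgn (e : ℤ) : Prop := e = 1 ∨ e = -1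

theorem MuD.sgn {μ : ℝ × ℝ → ℝ} (h : MuD μ) {e1 e2 : ℤ} (h1 : IsSgn e1) (h2 : IsSgn e2)
    (a b : ℝ) : μ ((e1 : ℝ) * a, (e2 : ℝ) * b) = μ (a, b) := by
  rcases h1 with rfl | rfl <;> rcases h2 with rfl | rfl <;>
    simp only [Int.cast_one, Int.cast_neg, one_mul, neg_mul]
  · rw [h.r2]
  · rw [h.r1]
  · rw [h.r1, h.r2]

/-- deviation from the diagonal functional -/
noncomputable def ex (μ : ℝ × ℝ → ℝ) (e1 e2 : ℤ) (y : ℤ × ℤ) : ℝ :=
  μ (toR y) - μ (1, 1) / 2 * ((e1 : ℝ) * y.1 + (e2 : ℝ) * y.2)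

section det

variable {μ : ℝ × ℝ → ℝ} {t : Environment}

theorem mem_box_of_n1 {n : ℕ} {x : ℤ × ℤ} (h : n1 x ≤ n) : x ∈ box n := by
  rw [K.mem_box]
  simp only [n1] at h
  omega

theorem n1_smul_dg {e1 e2 : ℤ} (h1 : IsSgn e1) (h2 : IsSgn e2) (m : ℕ) :
    n1 ((m : ℤ) • dg e1 e2) = 2 * m := by
  rcases h1 with rfl | rfl <;> rcases h2 with rfl | rfl <;> simp [n1, dg] <;> omega

theorem smul_dg_mem_box {e1 e2 : ℤ} (h1 : IsSgn e1) (h2 : IsSgn e2) {m n : ℕ} (h : m ≤ n) :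
    -((m : ℤ) • dg e1 e2) ∈ box n := by
  rw [K.mem_box]
  rcases h1 with rfl | rfl <;> rcases h2 with rfl | rfl <;> simp [dg] <;> omega

/-- deterministic step: small backward defects and the shape estimate give the direction -/
theorem ex_le_of_Ev (hμ : MuD μ) {e1 e2 : ℤ} (h1 : IsSgn e1) (h2 : IsSgn e2) {η A ε lam : ℝ}
    (hη : 0 < η) (hA0 : 0 < A)
    (hA : ∀ (a b σ : ℝ), 0 ≤ σ → A * (|a| + |b|) ≤ σ →
      μ (a + σ, b + σ) - σ * μ (1, 1) ≤ μ (1, 1) / 2 * (a + b) + η / 4 * (|a| + |b|))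
    (hε0 : 0 < ε) (hε : 12 * (ε * (A + 2)) ≤ η) (hlam0 : 0 < lam) (hlam : 4 * (lam * (A + 1)) ≤ η)
    {L : ℕ} (hL : 1 ≤ L) {N0 R R' : ℕ} (hRR : A * R' + 1 ≤ R) (ht : K.Nn t)
    (hdev : ∀ n, N0 ≤ n → dev μ n t ≤ ε * n) {z : ℤ × ℤ}
    (hEv : t ∈ Ev ((L : ℤ) • dg e1 e2) (lam * L) R z) {y : ℤ × ℤ} (hy1 : N0 ≤ n1 y)
    (hy2 : L ≤ n1 y) (hy3 : n1 y ≤ R')
    (hon : passageTime t 0 y + passageTime t y z = passageTime t 0 z) :
    ex μ e1 e2 y ≤ η * n1 y := by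
  obtain ⟨n, hn⟩ : ∃ n, n = n1 y := ⟨_, rfl⟩
  rw [← hn] at hy1 hy2 hy3 ⊢
  have hL0 : (0 : ℝ) < L := by exact_mod_cast hL
  have hn0 : (1 : ℝ) ≤ n := by exact_mod_cast hL.trans hy2
  have hnL : (L : ℝ) ≤ n := by exact_mod_cast hy2
  have hL1 : (1 : ℝ) ≤ L := by exact_mod_cast hL
  obtain ⟨m, hm⟩ : ∃ m : ℕ, m = ⌈A * n / L⌉₊ := ⟨_, rfl⟩
  have hm1 : A * n / L ≤ m := by rw [hm]; exact Nat.le_ceil _
  have hm2 : (m : ℝ) < A * n / L + 1 := by rw [hm]; exact Nat.ceil_lt_add_one (by positivity)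
  have hm0 : 1 ≤ m := by
    rw [hm]
    exact Nat.one_le_iff_ne_zero.2 (Nat.ceil_pos.2 (by positivity)).ne'
  have hmL1 : A * n ≤ m * L := by
    rw [div_le_iff₀ hL0] at hm1
    exact hm1
  have hmL2 : (m : ℝ) * L ≤ A * n + L := by
    have := mul_le_mul_of_nonneg_right hm2.le hL0.le
    rw [add_mul, div_mul_cancel₀ _ hL0.ne'] at this
    linarith
  have hmR : m ≤ R := by
    have h3 : (m : ℝ) ≤ R := by
      have h4 : A * n / L ≤ A * R' := by
        rw [div_le_iff₀ hL0]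
        have h5 : (n : ℝ) ≤ R' := by exact_mod_cast hy3
        have h6 : 0 ≤ A * (R' : ℝ) := by positivity
        nlinarith
      linarith
    exact_mod_cast h3
  obtain ⟨n', hn'⟩ : ∃ n' : ℕ, n' = m * L + n := ⟨_, rfl⟩
  have hn'R : (n' : ℝ) ≤ (A + 2) * n := by
    rw [hn']
    push_cast
    linarith
  have hd := hdev n' (by omega)
  have b0 : (0 : ℤ × ℤ) ∈ box n' := K.zero_mem_box n'
  have by' : y ∈ box n' := mem_box_of_n1 (by omega)
  obtain ⟨x, hx⟩ : ∃ x : ℤ × ℤ, x = -((m : ℤ) • ((L : ℤ) • dg e1 e2)) := ⟨_, rfl⟩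
  have hx' : x = -(((m * L : ℕ) : ℤ) • dg e1 e2) := by
    rw [hx, smul_smul]
    push_cast
    rfl
  have bx : x ∈ box n' := by
    rw [hx']
    exact smul_dg_mem_box h1 h2 (by omega)
  have d1 := (K.le_dev μ t b0 by').trans hd
  have d2 := (K.le_dev μ t bx by').trans hd
  have d3 := (K.le_dev μ t bx b0).trans hd
  rw [abs_le] at d1 d2 d3
  have hE := hEv m hm0 hmR
  rw [← hx] at hE
  have tri := K.pt_triangle ht x y z
  -- values of μ
  have m3 : μ (toR (0 - x)) = (m * L : ℝ) * μ (1, 1) := by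
    rw [hx']
    have e : toR (0 - -(((m * L : ℕ) : ℤ) • dg e1 e2))
        = ((e1 : ℝ) * ((m : ℝ) * L), (e2 : ℝ) * ((m : ℝ) * L)) := by
      simp only [toR, dg, zero_sub, neg_neg]
      ext <;> simp [mul_comm]
    rw [e, hμ.sgn h1 h2]
    have : (((m : ℝ) * L, (m : ℝ) * L) : ℝ × ℝ) = ((m : ℝ) * L) • ((1 : ℝ), (1 : ℝ)) := by
      ext <;> simp
    rw [this, hμ.norm.smul _ _ (by positivity)]
  have e11 : (e1 : ℝ) * e1 = 1 := by rcases h1 with rfl | rfl <;> norm_num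
  have e22 : (e2 : ℝ) * e2 = 1 := by rcases h2 with rfl | rfl <;> norm_num
  have ab : |(e1 : ℝ) * y.1| + |(e2 : ℝ) * y.2| = n := by
    rw [hn]
    have a1 : |(e1 : ℝ)| = 1 := by rcases h1 with rfl | rfl <;> norm_num
    have a2 : |(e2 : ℝ)| = 1 := by rcases h2 with rfl | rfl <;> norm_num
    rw [abs_mul, abs_mul, a1, a2, one_mul, one_mul]
    simp [n1, Nat.cast_natAbs]
  have m2 : μ (toR (y - x)) - (m * L : ℝ) * μ (1, 1) ≤
      μ (1, 1) / 2 * ((e1 : ℝ) * y.1 + (e2 : ℝ) * y.2) + η / 4 * n := by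
    have h3 := hA ((e1 : ℝ) * y.1) ((e2 : ℝ) * y.2) (m * L) (by positivity) (by rw [ab]; exact hmL1)
    rw [ab] at h3
    have e : toR (y - x) = ((e1 : ℝ) * ((e1 : ℝ) * y.1 + m * L), (e2 : ℝ) * ((e2 : ℝ) * y.2 + m * L)) := by
      rw [hx']
      simp only [toR, dg]
      ext
      · simp only [Prod.fst_sub, Prod.fst_neg, Prod.smul_fst, smul_eq_mul]
        push_cast
        linear_combination (-(y.1 : ℝ)) * e11
      · simp only [Prod.snd_sub, Prod.snd_neg, Prod.smul_snd, smul_eq_mul]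
        push_cast
        linear_combination (-(y.2 : ℝ)) * e22
    rw [e, hμ.sgn h1 h2]
    exact h3
  have m1 : toR (y - 0) = toR y := by rw [sub_zero]
  rw [m1] at d1
  rw [m3] at d3
  unfold ex
  have s1 : μ (toR y) - μ (1, 1) / 2 * ((e1 : ℝ) * y.1 + (e2 : ℝ) * y.2)
      ≤ η / 4 * n + lam * L * m + 3 * (ε * n') := by linarith
  have s2 : lam * L * m ≤ η / 4 * n := by
    have h3 : (m : ℝ) * L ≤ (A + 1) * n := by linarith
    have h4 := mul_le_mul_of_nonneg_left h3 hlam0.le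
    nlinarith
  have s3 : 3 * (ε * n') ≤ η / 4 * n := by
    have h4 := mul_le_mul_of_nonneg_left hn'R hε0.le
    nlinarith
  have s4 : 0 ≤ η * n := by positivity
  linarith

end det

section prob

variable {G : Measure ℝ} [IsProbabilityMeasure G] {μ : ℝ × ℝ → ℝ}

/-- with probability close to one an almost sure eventual property holds from a fixed index on -/
theorem exists_uniform {p : ℕ → Environment → Prop} (hp : ∀ n, MeasurableSet {t | p n t})
    (h : ∀ᵐ t ∂(iidLaw G), ∀ᶠ n in atTop, p n t) {κ : ℝ} (hκ : 0 < κ) :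
    ∃ N0 : ℕ, 1 - κ ≤ (iidLaw G).real {t | ∀ n, N0 ≤ n → p n t} := by
  have hm : ∀ N : ℕ, MeasurableSet {t | ∀ n, N ≤ n → p n t} := by
    intro N
    simp only [Set.ofPred_forall]
    exact MeasurableSet.iInter fun n => MeasurableSet.iInter fun _ => hp n
  have hmono : Monotone fun N : ℕ => {t | ∀ n, N ≤ n → p n t} := by
    intro N N' hN t ht n hn
    exact ht n (hN.trans hn)
  have h1 := tendsto_measure_iUnion_atTop (μ := iidLaw G) hmono
  have h2 : iidLaw G (⋃ N : ℕ, {t | ∀ n, N ≤ n → p n t}) = 1 := by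
    rw [← (prob_compl_eq_zero_iff (MeasurableSet.iUnion hm))]
    have : ∀ᵐ t ∂(iidLaw G), t ∈ ⋃ N : ℕ, {t | ∀ n, N ≤ n → p n t} := by
      filter_upwards [h] with t ht
      rw [eventually_atTop] at ht
      obtain ⟨N, hN⟩ := ht
      exact Set.mem_iUnion.2 ⟨N, hN⟩
    exact this
  rw [h2] at h1
  have h3 : Tendsto (fun N : ℕ => (iidLaw G).real {t | ∀ n, N ≤ n → p n t}) atTop (𝓝 1) := by
    have := (ENNReal.tendsto_toReal ENNReal.one_ne_top).comp h1
    rw [ENNReal.toReal_one] at this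
    exact this
  obtain ⟨N0, hN0⟩ := (h3.eventually (lt_mem_nhds (show 1 - κ < 1 by linarith))).exists
  exact ⟨N0, hN0.le⟩

/-- DIRECTION CONTROL for geodesics to far points of the diagonal -/
theorem direction_control (hμ : MuD μ) (hS : ShapeIn G μ) {e1 e2 : ℤ} (h1 : IsSgn e1)
    (h2 : IsSgn e2) {η κ : ℝ} (hη : 0 < η) (hκ : 0 < κ) :
    ∃ K0 : ℕ, ∀ R' N : ℕ, ∃ z : ℤ × ℤ, N ≤ n1 z ∧
      1 - κ ≤ (iidLaw G).real {t | ∀ y, K0 ≤ n1 y → n1 y ≤ R' →
        passageTime t 0 y + passageTime t y z = passageTime t 0 z → ex μ e1 e2 y ≤ η * n1 y} := by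
  obtain ⟨A, hA0, hA⟩ := hμ.exists_A (show 0 < η / 4 by positivity)
  obtain ⟨lam, hlam⟩ : ∃ lam, lam = η / (4 * (A + 1)) := ⟨_, rfl⟩
  obtain ⟨ε, hε⟩ : ∃ ε, ε = η / (12 * (A + 2)) := ⟨_, rfl⟩
  have hlam0 : 0 < lam := by rw [hlam]; positivity
  have hε0 : 0 < ε := by rw [hε]; positivity
  have hlam' : 4 * (lam * (A + 1)) ≤ η := by
    rw [hlam]
    apply le_of_eq
    field_simp
  have hε' : 12 * (ε * (A + 2)) ≤ η := by
    rw [hε]
    apply le_of_eq
    field_simp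
  obtain ⟨δ, hδ⟩ : ∃ δ, δ = κ * lam / 8 := ⟨_, rfl⟩
  have hδ0 : 0 < δ := by rw [hδ]; positivity
  -- the step
  have hmean := hS.mean (dg e1 e2)
  obtain ⟨L, hL1, hL2⟩ : ∃ L : ℕ, 1 ≤ L ∧
      K.ET G ((L : ℤ) • dg e1 e2) ≤ L * μ (toR (dg e1 e2)) + L * δ := by
    have h3 := (hmean.eventually (gt_mem_nhds (show μ (toR (dg e1 e2)) < μ (toR (dg e1 e2)) + δ by
      linarith))).and (eventually_ge_atTop 1)
    obtain ⟨L, h4, h5⟩ := h3.exists
    have hL0 : (0 : ℝ) < L := by exact_mod_cast h5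
    refine ⟨L, h5, ?_⟩
    rw [div_lt_iff₀ hL0] at h4
    linarith
  have hL0 : (0 : ℝ) < L := by exact_mod_cast hL1
  obtain ⟨y0, hy0⟩ : ∃ y0 : ℤ × ℤ, y0 = (L : ℤ) • dg e1 e2 := ⟨_, rfl⟩
  have hlim : Tendsto (fun k : ℕ => K.ET G ((k : ℤ) • y0) / k) atTop
      (𝓝 (L * μ (toR (dg e1 e2)))) := by
    have h3 : Tendsto (fun k : ℕ => k * L) atTop atTop :=
      tendsto_atTop_mono (fun k => Nat.le_mul_of_pos_right k hL1) tendsto_id
    have h4 := (hmean.comp h3).const_mul (L : ℝ)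
    refine h4.congr' ?_
    filter_upwards [eventually_ge_atTop 1] with k hk
    have hk0 : (0 : ℝ) < k := by exact_mod_cast hk
    simp only [Function.comp]
    rw [hy0, smul_smul]
    push_cast
    field_simp
  -- uniform shape
  obtain ⟨N0, hN0⟩ := exists_uniform (G := G) (p := fun n t => dev μ n t ≤ ε * n)
    (fun n => measurableSet_le (K.measurable_dev μ n) measurable_const) (hS.sh2 ε hε0)
    (show 0 < κ / 2 by positivity)
  refine ⟨max N0 L, fun R' N => ?_⟩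
  obtain ⟨R, hR1, hR2⟩ : ∃ R : ℕ, 1 ≤ R ∧ A * R' + 1 ≤ R := by
    obtain ⟨R, hR⟩ := exists_nat_ge (A * R' + 1)
    refine ⟨R, ?_, hR⟩
    have : (0 : ℝ) ≤ A * R' := by positivity
    have : (1 : ℝ) ≤ R := by linarith
    exact_mod_cast this
  obtain ⟨k, hk, hkP⟩ := good_target hS.h0 hS.int (y0 := y0) (c := L * μ (toR (dg e1 e2)))
    (δ := L * δ) (lam := lam * L) hlim (by rw [hy0]; exact hL2) (by positivity) (by positivity)
    hR1 N
  refine ⟨(k : ℤ) • y0, ?_, ?_⟩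
  · rw [hy0, smul_smul]
    have := n1_smul_dg h1 h2 (k * L)
    push_cast at this
    rw [this]
    nlinarith
  have hk2 : 1 - κ / 2 ≤ (iidLaw G).real (Ev y0 (lam * L) R ((k : ℤ) • y0)) := by
    have : 4 * (L * δ) / (lam * L) = κ / 2 := by
      rw [hδ]
      field_simp
      ring
    rw [this] at hkP
    exact hkP
  have hmE := measurableSet_Ev y0 (lam * L) R ((k : ℤ) • y0)
  have hmS : MeasurableSet {t : Environment | ∀ n, N0 ≤ n → dev μ n t ≤ ε * n} := by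
    simp only [Set.ofPred_forall]
    exact MeasurableSet.iInter fun n => MeasurableSet.iInter fun _ =>
      measurableSet_le (K.measurable_dev μ n) measurable_const
  have hinter : 1 - κ ≤ (iidLaw G).real (Ev y0 (lam * L) R ((k : ℤ) • y0) ∩
      {t : Environment | ∀ n, N0 ≤ n → dev μ n t ≤ ε * n}) := by
    have e1 := measureReal_union_add_inter (μ := iidLaw G)
      (s := Ev y0 (lam * L) R ((k : ℤ) • y0)) hmS
    have e2 := measureReal_le_one (μ := iidLaw G) (s := Ev y0 (lam * L) R ((k : ℤ) • y0) ∪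
      {t : Environment | ∀ n, N0 ≤ n → dev μ n t ≤ ε * n})
    linarith
  refine hinter.trans ?_
  refine ENNReal.toReal_mono (measure_ne_top _ _) (measure_mono_ae ?_)
  filter_upwards [K.ae_Nn (G := G) hS.h0] with t ht htE y hy1 hy2 hon
  obtain ⟨hE, hD⟩ := htE
  rw [hy0] at hE hon
  exact ex_le_of_Ev hμ h1 h2 hη hA0 hA hε0 hε' hlam0 hlam' hL1 hR2 ht hD hE
    ((le_max_left _ _).trans hy1) ((le_max_right _ _).trans hy1) hy2 hon

end prob

end Crest.Agent.R151.T821
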