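import Mathlib
import Crest.Agent.R151.T821b
import Crest.Agent.R151.T821e
import Crest.Agent.R151.Y635C
import Crest.Agent.R151.K5

/-!
# R151, block DIR (helper821), part f: barrier rays exist almost surely
-/

set_option autoImplicit false

open MeasureTheory ProbabilityTheory Filter Topology
open Crest.ProbabilityR.FirstPassage

namespace Crest.Agent.R151.T821

open Crest.Agent.R151
open Crest.Agent.R151.K (toR n1 box dev)
open Crest.Agent.R151.Y (IsRay)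

variable {G : Measure ℝ} [IsProbabilityMeasure G] {μ : ℝ × ℝ → ℝ}

/-- almost sure geometric facts about the environment -/
structure GoodEnv (t : Environment) : Prop where
  nn : K.Nn t
  nt : NoTies t
  geo : ∀ x y : ℤ × ℤ, ∃ w : squareLattice.Walk x y, w.IsPath ∧ IsGeo t w

theorem ae_goodEnv (h0 : G (Set.Iio 0) = 0) (hat : ∀ x, G {x} = 0) :
    ∀ᵐ t ∂(iidLaw G), GoodEnv t := by
  filter_upwards [K.ae_Nn (G := G) h0, ae_noTies (G := G) hat, ae_exists_isGeo (G := G) h0 (hat 0)]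
    with t h1 h2 h3
  exact ⟨h1, h2, fun x y => h3 _ le_rfl x y (K.reachable x y)⟩

/-- the direction control event -/
def DirEv (μ : ℝ × ℝ → ℝ) (e1 e2 : ℤ) (η : ℝ) (K0 R' : ℕ) (z : ℤ × ℤ) : Set Environment :=
  {t | ∀ y, K0 ≤ n1 y → n1 y ≤ R' →
    passageTime t 0 y + passageTime t y z = passageTime t 0 z → ex μ e1 e2 y ≤ η * n1 y}

theorem measurableSet_DirEv (e1 e2 : ℤ) (η : ℝ) (K0 R' : ℕ) (z : ℤ × ℤ) :
    MeasurableSet (DirEv μ e1 e2 η K0 R' z) := by
  unfold DirEv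
  simp only [Set.ofPred_forall]
  refine MeasurableSet.iInter fun y => MeasurableSet.iInter fun _ => MeasurableSet.iInter fun _ => ?_
  by_cases h : ex μ e1 e2 y ≤ η * n1 y
  · simp [h]
  · have : {t : Environment | passageTime t 0 y + passageTime t y z = passageTime t 0 z →
        ex μ e1 e2 y ≤ η * n1 y}
        = {t : Environment | passageTime t 0 y + passageTime t y z = passageTime t 0 z}ᶜ := by
      ext t
      simp [h]
    rw [this]
    exact (measurableSet_eq_fun ((K.measurable_pt _ _).add (K.measurable_pt _ _))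
      (K.measurable_pt _ _)).compl

/-- deterministic: infinitely many controlled targets give a controlled ray -/
theorem exists_ray_of_frequently {t : Environment} (ht : GoodEnv t) {e1 e2 : ℤ} {η : ℝ} {K0 : ℕ}
    {z : ℕ → ℤ × ℤ} (hz : ∀ r, r ≤ n1 (z r))
    (hf : ∃ᶠ r in atTop, t ∈ DirEv μ e1 e2 η K0 r (z r)) :
    ∃ v : ℕ → ℤ × ℤ, IsRay t squareLattice v ∧ v 0 = 0 ∧
      ∀ k, K0 ≤ n1 (v k) → ex μ e1 e2 (v k) ≤ η * n1 (v k) := by
  have hne : (atTop ⊓ 𝓟 {r | t ∈ DirEv μ e1 e2 η K0 r (z r)}).NeBot :=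
    Filter.frequently_iff_neBot.1 hf
  obtain ⟨U, hU⟩ : ∃ U : Ultrafilter ℕ, (U : Filter ℕ) ≤
      atTop ⊓ 𝓟 {r | t ∈ DirEv μ e1 e2 η K0 r (z r)} := ⟨Ultrafilter.of _, Ultrafilter.of_le _⟩
  have hU1 : (U : Filter ℕ) ≤ atTop := hU.trans inf_le_left
  have hU2 : ∀ᶠ r in (U : Filter ℕ), t ∈ DirEv μ e1 e2 η K0 r (z r) :=
    (hU.trans inf_le_right) (mem_principal_self _)
  choose w hwp hw using fun r => ht.geo 0 (z r)
  obtain ⟨v, hv, hv0, hlim⟩ := Y.exists_isRay_of_geo (H := squareLattice)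
    (Y.neighborSet_finite le_rfl) ht.nn U w (Eventually.of_forall hw) (fun n => by
      filter_upwards [hU1 (eventually_ge_atTop n)] with r hr
      have h1 := K.n1_le_length (w r)
      rw [sub_zero] at h1
      exact (show n ≤ r from hr).trans ((hz r).trans h1))
  refine ⟨v, hv, hv0, fun k hk => ?_⟩
  obtain ⟨r, ⟨h1, h2⟩, h3⟩ := ((hU2.and (hlim k)).and (hU1 (eventually_ge_atTop (n1 (v k))))).exists
  refine h1 (v k) hk h3 ?_
  have h4 : v k ∈ (w r).support := by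
    rw [← h2 k le_rfl]
    exact (w r).getVert_mem_support k
  have h5 := (hw r).pt_add ht.nn h4
  rw [passageTime_eq_pt, passageTime_eq_pt, passageTime_eq_pt]
  exact h5

/-- controlled rays exist almost surely -/
theorem ae_exists_ray (hμ : MuD μ) (hS : ShapeIn G μ) (hat : ∀ x, G {x} = 0) {e1 e2 : ℤ}
    (h1 : IsSgn e1) (h2 : IsSgn e2) {η : ℝ} (hη : 0 < η) :
    ∀ᵐ t ∂(iidLaw G), ∃ v : ℕ → ℤ × ℤ, IsRay t squareLattice v ∧ v 0 = 0 ∧
      ∃ K0, ∀ k, K0 ≤ n1 (v k) → ex μ e1 e2 (v k) ≤ η * n1 (v k) := by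
  rw [ae_iff]
  refine le_antisymm ?_ zero_le
  refine ENNReal.le_of_forall_pos_le_add fun κ hκ _ => ?_
  rw [zero_add]
  obtain ⟨K0, hK0⟩ := direction_control hμ hS h1 h2 hη (κ := (κ : ℝ)) (by exact_mod_cast hκ)
  choose z hz hP using fun r => hK0 r r
  have hF : Monotone fun n : ℕ => ⋂ r : ℕ, ⋂ _ : n ≤ r, (DirEv μ e1 e2 η K0 r (z r))ᶜ := by
    intro n n' hn t ht
    simp only [Set.mem_iInter] at ht ⊢
    exact fun r hr => ht r (hn.trans hr)
  have hmeas : iidLaw G (⋃ n : ℕ, ⋂ r : ℕ, ⋂ _ : n ≤ r, (DirEv μ e1 e2 η K0 r (z r))ᶜ) ≤ κ := by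
    rw [hF.measure_iUnion]
    refine iSup_le fun n => ?_
    refine (measure_mono (Set.iInter₂_subset n le_rfl)).trans ?_
    have h3 := hP n
    have h4 := probReal_compl_eq_one_sub (μ := iidLaw G) (measurableSet_DirEv (μ := μ) e1 e2 η K0 n (z n))
    have h5 : (iidLaw G).real (DirEv μ e1 e2 η K0 n (z n))ᶜ ≤ κ := by
      rw [h4]
      have : 1 - (κ : ℝ) ≤ (iidLaw G).real (DirEv μ e1 e2 η K0 n (z n)) := h3
      linarith
    rw [Measure.real] at h5
    have h6 := ENNReal.ofReal_le_ofReal h5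
    rw [ENNReal.ofReal_toReal (measure_ne_top _ _), ENNReal.ofReal_coe_nnreal] at h6
    exact h6
  refine le_trans ?_ hmeas
  refine measure_mono_ae ?_
  filter_upwards [ae_goodEnv (G := G) hS.h0 hat] with t ht htbad
  by_contra hcon
  apply htbad
  have hf : ∃ᶠ r in atTop, t ∈ DirEv μ e1 e2 η K0 r (z r) := by
    rw [frequently_atTop]
    intro n
    by_contra h6
    push Not at h6
    apply hcon
    refine Set.mem_iUnion.2 ⟨n, ?_⟩
    simp only [Set.mem_iInter]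
    exact fun r hr => h6 r hr
  obtain ⟨v, hv, hv0, hv1⟩ := exists_ray_of_frequently ht hz hf
  exact ⟨v, hv, hv0, K0, hv1⟩

/-- rays leave every box -/
theorem ray_far {t : Environment} (ht : GoodEnv t) {v : ℕ → ℤ × ℤ}
    (hv : IsRay t squareLattice v) (B : ℕ) : ∃ N, ∀ k, N ≤ k → B < n1 (v k) := by
  obtain ⟨N, hN⟩ := hv.eventually_notMem (fun e => ht.nt.pos ht.nn e)
    (S := (box B : Set (ℤ × ℤ))) (Finset.finite_toSet _)
  refine ⟨N, fun k hk => ?_⟩
  by_contra hcon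
  push Not at hcon
  exact hN k hk (mem_box_of_n1 hcon)

theorem quad_of_ex (hμ : MuD μ) {s : ℝ} (_hs : Slope μ s) {e1 e2 : ℤ} (h1 : IsSgn e1)
    (h2 : IsSgn e2) {η : ℝ}
    (hη : ∀ a b : ℝ, 0 < |a| + |b| →
      μ (a, b) - μ (1, 1) / 2 * (a + b) ≤ η * (|a| + |b|) →
      0 < a ∧ 0 < b ∧ s * |a| ≤ |b| ∧ s * |b| ≤ |a|) {x : ℤ × ℤ} (hx : 1 ≤ n1 x)
    (h : ex μ e1 e2 x ≤ η * n1 x) : Quad e1 e2 s x := by
  have a1 : |(e1 : ℝ)| = 1 := by rcases h1 with rfl | rfl <;> norm_num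
  have a2 : |(e2 : ℝ)| = 1 := by rcases h2 with rfl | rfl <;> norm_num
  have ab : |(e1 : ℝ) * x.1| + |(e2 : ℝ) * x.2| = n1 x := by
    rw [abs_mul, abs_mul, a1, a2, one_mul, one_mul]
    simp [n1, Nat.cast_natAbs]
  have hm : μ ((e1 : ℝ) * x.1, (e2 : ℝ) * x.2) = μ (toR x) := hμ.sgn h1 h2 _ _
  have h3 := hη ((e1 : ℝ) * x.1) ((e2 : ℝ) * x.2) (by
    rw [ab]
    exact_mod_cast hx) (by
    rw [ab, hm]
    exact h)
  rw [abs_mul, abs_mul, a1, a2, one_mul, one_mul] at h3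
  refine ⟨by exact_mod_cast h3.1, by exact_mod_cast h3.2.1, h3.2.2.1, h3.2.2.2⟩

theorem barrier_of_ray {s : ℝ} (hs0 : 0 < s) {t : Environment} (ht : GoodEnv t) {e1 e2 : ℤ}
    {v : ℕ → ℤ × ℤ} (hv : IsRay t squareLattice v) {k0 : ℕ}
    (hq : ∀ k, k0 ≤ k → Quad e1 e2 s (v k)) : Barrier e1 e2 s v := by
  refine ⟨hv.adj, ⟨k0, hq⟩, fun B => ?_⟩
  obtain ⟨M, hM⟩ := exists_nat_gt ((1 + 1 / s) * (|(B : ℝ)| + 1))
  obtain ⟨N, hN⟩ := ray_far ht hv M
  refine ⟨max N k0, ?_, ?_, hq _ (le_max_right _ _)⟩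
  all_goals
    obtain ⟨-, -, q1, q2⟩ := hq (max N k0) (le_max_right _ _)
    have h1 := hN (max N k0) (le_max_left _ _)
    have h2 : (M : ℝ) < |((v (max N k0)).1 : ℝ)| + |((v (max N k0)).2 : ℝ)| := by
      have : (M : ℝ) < n1 (v (max N k0)) := by exact_mod_cast h1
      simpa [n1, Nat.cast_natAbs] using this
    have h3 : (B : ℝ) ≤ |(B : ℝ)| := le_abs_self _
    have key : ∀ a b : ℝ, 0 ≤ a → s * b ≤ a → (M : ℝ) < a + b → |(B : ℝ)| + 1 < a := by
      intro a b ha hab hMab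
      have h4 : b ≤ a / s := by
        rw [le_div_iff₀ hs0]
        linarith
      have h5 : (1 + 1 / s) * (|(B : ℝ)| + 1) < (1 + 1 / s) * a := by
        have : (1 + 1 / s) * a = a + a / s := by ring
        linarith
      exact lt_of_mul_lt_mul_left h5 (by positivity)
  · have := key _ _ (abs_nonneg _) q2 h2
    have h6 : (B : ℝ) < |((v (max N k0)).1 : ℝ)| := by linarith
    exact_mod_cast h6
  · have := key _ _ (abs_nonneg _) q1 (by linarith)
    have h6 : (B : ℝ) < |((v (max N k0)).2 : ℝ)| := by linarith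
    exact_mod_cast h6

/-- DIR1: the four barrier rays from the origin -/
theorem ae_exists_barriers (hμ : MuD μ) (hS : ShapeIn G μ) (hat : ∀ x, G {x} = 0) {s : ℝ}
    (hs : Slope μ s) :
    ∀ᵐ t ∂(iidLaw G), ∀ e1 e2 : ℤ, IsSgn e1 → IsSgn e2 →
      ∃ v : ℕ → ℤ × ℤ, IsRay t squareLattice v ∧ v 0 = 0 ∧ Barrier e1 e2 s v := by
  obtain ⟨η, hη0, hη⟩ := hμ.exists_eta hs
  rw [ae_all_iff]
  intro e1
  rw [ae_all_iff]
  intro e2
  by_cases h1 : IsSgn e1
  · by_cases h2 : IsSgn e2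
    · filter_upwards [ae_goodEnv (G := G) hS.h0 hat, ae_exists_ray hμ hS hat h1 h2 hη0] with t ht hv _ _
      obtain ⟨v, hv, hv0, K0, hK0⟩ := hv
      obtain ⟨N, hN⟩ := ray_far ht hv (K0 + 1)
      refine ⟨v, hv, hv0, barrier_of_ray hs.pos ht hv (k0 := N) fun k hk => ?_⟩
      have h3 := hN k hk
      exact quad_of_ex hμ hs h1 h2 hη (by omega) (hK0 k (by omega))
    · exact Eventually.of_forall fun t _ h => absurd h h2
  · exact Eventually.of_forall fun t h => absurd h h1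

end Crest.Agent.R151.T821
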