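import Crest.Agent.R151.D411d
import Crest.Agent.R151.T821f
import Crest.Agent.R151.K9h

/-!
# R151 / S0213, D411e: the barriers exist almost surely (glue 821 -> 411)

`ae_barriers`: for `Law213` (atomless) and a smooth time constant, `Barriers μ t` for a.e. `t`.
-/

set_option autoImplicit false

namespace Crest.Agent.R151.D411

open Filter Topology Set MeasureTheory
open Crest.ProbabilityR.FirstPassage
open Crest.Agent.R151.K (l1 toR n1)
open Crest.Agent.R151.Y (IsRay Coal)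

theorem SmoothNorm.muD {μ : ℝ × ℝ → ℝ} (h : SmoothNorm μ) : T821.MuD μ where
  norm := h.norm
  swap v := h.swap v.1 v.2
  refl v := h.refl' v.1 v.2
  diff := h.diff

theorem shapeIn {G : Measure ℝ} [IsProbabilityMeasure G] {m : ℝ} {μ : ℝ × ℝ → ℝ}
    (hG : M51.Law213 G) (hM : K.Mom G m) (hμ : K.IsTC1 G μ) : T821.ShapeIn G μ where
  h0 := hG.h0
  int x y := hM.int x y
  mean w := by
    have h1 := hM.ET_tendsto_nat hμ (toR w)
    refine h1.congr fun k => ?_
    have : K.fl (toR w) k = (k : ℤ) • w := by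
      ext
      · simp only [K.fl, toR, Prod.smul_fst, smul_eq_mul]
        rw [← Int.cast_natCast (R := ℝ), ← Int.cast_mul, Int.floor_intCast]
      · simp only [K.fl, toR, Prod.smul_snd, smul_eq_mul]
        rw [← Int.cast_natCast (R := ℝ), ← Int.cast_mul, Int.floor_intCast]
    rw [this]
  sh2 ε hε := by
    filter_upwards [hM.as_ushape hμ hG] with t ht
    exact ht ε hε

/-- **The barrier rays exist almost surely.** -/
theorem ae_barriers {G : Measure ℝ} [IsProbabilityMeasure G] [NullSingletonClass G] {m : ℝ}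
    {μ : ℝ × ℝ → ℝ} (hG : M51.Law213 G) (hM : K.Mom G m) (hμ : K.IsTC1 G μ)
    (hS : SmoothNorm μ) : ∀ᵐ t ∂(iidLaw G), Barriers μ t := by
  have hsh := shapeIn hG hM hμ
  have key : ∀ i : ℕ, ∀ e1 ∈ ({1, -1} : Finset ℤ), ∀ e2 ∈ ({1, -1} : Finset ℤ),
      ∀ᵐ t ∂(iidLaw G), ∃ v : ℕ → ℤ × ℤ, IsRay t squareLattice v ∧ v 0 = 0 ∧
        ∃ K0, ∀ k, K0 ≤ n1 (v k) → T821.ex μ e1 e2 (v k) ≤ 1 / ((i : ℝ) + 1) * n1 (v k) := by
    intro i e1 h1 e2 h2
    simp only [Finset.mem_insert, Finset.mem_singleton] at h1 h2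
    exact T821.ae_exists_ray hS.muD hsh (fun x => measure_singleton x) h1 h2 (by positivity)
  have key' : ∀ᵐ t ∂(iidLaw G), ∀ i : ℕ, ∀ e1 ∈ ({1, -1} : Finset ℤ),
      ∀ e2 ∈ ({1, -1} : Finset ℤ), ∃ v : ℕ → ℤ × ℤ, IsRay t squareLattice v ∧ v 0 = 0 ∧
        ∃ K0, ∀ k, K0 ≤ n1 (v k) → T821.ex μ e1 e2 (v k) ≤ 1 / ((i : ℝ) + 1) * n1 (v k) := by
    rw [ae_all_iff]
    intro i
    rw [Filter.eventually_all_finset]
    intro e1 h1
    rw [Filter.eventually_all_finset]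
    intro e2 h2
    exact key i e1 h1 e2 h2
  have hnt := ae_noTies (G := G) (fun x => measure_singleton x)
  have hnn := K.ae_Nn (G := G) hG.h0
  filter_upwards [key', hnt, hnn] with t ht hnt hnn η hη σ τ hσ hτ
  obtain ⟨i, hi⟩ := exists_nat_one_div_lt hη
  have sgn : ∀ σ : ℝ, |σ| = 1 → ∃ e ∈ ({1, -1} : Finset ℤ), σ = (e : ℝ) := by
    intro σ hσ
    rcases abs_cases σ with ⟨h, -⟩ | ⟨h, -⟩
    · exact ⟨1, by simp, by rw [← h, hσ]; simp⟩
    · refine ⟨-1, by simp, ?_⟩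
      push_cast
      linarith
  obtain ⟨e1, h1, rfl⟩ := sgn σ hσ
  obtain ⟨e2, h2, rfl⟩ := sgn τ hτ
  obtain ⟨v, hv, -, K0, hK⟩ := ht i e1 h1 e2 h2
  refine ⟨v, hv, ?_⟩
  have hvt : Tendsto v atTop cofinite := hv.tendsto_cofinite fun e => hnt.pos hnn e
  filter_upwards [eventually_out hvt K0] with k hk
  have e : ((n1 (v k) : ℕ) : ℝ) = |((v k).1 : ℝ)| + |((v k).2 : ℝ)| := by
    rw [← K.l1_toR]
    rfl
  have hK0 : K0 ≤ n1 (v k) := by
    have : (K0 : ℝ) ≤ n1 (v k) := by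
      rw [e]
      have a1 := abs_nonneg ((v k).1 : ℝ)
      have a2 := abs_nonneg ((v k).2 : ℝ)
      rcases hk with h | h <;> linarith
    exact_mod_cast this
  have h3 := hK k hK0
  rw [K.l1_toR]
  unfold T821.ex at h3
  refine h3.trans ?_
  gcongr

end Crest.Agent.R151.D411
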