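import Crest.Agent.R151.F1
import Crest.Agent.R151.Pl5

/-!
# R151, D624a: last entrances into the half planes `{k ≤ y}` (deterministic part)

`Hp k` upper half plane, `gH k` its graph, `Vt t w h` the weight of the vertical edge
`(w,h-1) - (w,h)`.  For a boundary function `φ` on the line `y = h`,
`Phi t k h φ z w = T^k(z,(w,h-1)) + Vt t w h + φ w` is the value of entering `Hp h` for the last
time at `(w,h)`.
-/

set_option autoImplicit false

open Crest.ProbabilityR.FirstPassage

namespace Crest.Agent.R151.D624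

/-- the upper half plane `{k ≤ y}` -/
def Hp (k : ℤ) : Set (ℤ × ℤ) := {z | k ≤ z.2}

@[simp] theorem mem_Hp {k : ℤ} {z : ℤ × ℤ} : z ∈ Hp k ↔ k ≤ z.2 := Iff.rfl

/-- the graph of the upper half plane `{k ≤ y}` -/
abbrev gH (k : ℤ) : SimpleGraph (ℤ × ℤ) := reg (Hp k)

theorem Hp_anti {k h : ℤ} (hkh : k ≤ h) : Hp h ⊆ Hp k := fun _ hz => le_trans hkh hz

theorem gH_anti {k h : ℤ} (hkh : k ≤ h) : gH h ≤ gH k := reg_mono (Hp_anti hkh)

theorem gH_le (k : ℤ) : gH k ≤ squareLattice := reg_le _

/-- lattice neighbours -/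
theorem lat_adj {x y : ℤ × ℤ} : squareLattice.Adj x y ↔
    (x.1 = y.1 ∧ (y.2 = x.2 + 1 ∨ x.2 = y.2 + 1)) ∨
      (x.2 = y.2 ∧ (y.1 = x.1 + 1 ∨ x.1 = y.1 + 1)) := by
  unfold squareLattice
  rw [SimpleGraph.fromRel_adj]
  constructor
  · rintro ⟨_, h | h⟩
    · rcases h with h | h
      · exact Or.inl ⟨h.1, Or.inl h.2⟩
      · exact Or.inr ⟨h.1, Or.inl h.2⟩
    · rcases h with h | h
      · exact Or.inl ⟨h.1.symm, Or.inr h.2⟩
      · exact Or.inr ⟨h.1.symm, Or.inr h.2⟩
  · rintro (⟨h1, h2⟩ | ⟨h1, h2⟩)
    · refine ⟨fun h => ?_, ?_⟩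
      · rcases h2 with h2 | h2 <;> rw [h] at h2 <;> omega
      · rcases h2 with h2 | h2
        · exact Or.inl (Or.inl ⟨h1, h2⟩)
        · exact Or.inr (Or.inl ⟨h1.symm, h2⟩)
    · refine ⟨fun h => ?_, ?_⟩
      · rcases h2 with h2 | h2 <;> rw [h] at h2 <;> omega
      · rcases h2 with h2 | h2
        · exact Or.inl (Or.inr ⟨h1, h2⟩)
        · exact Or.inr (Or.inr ⟨h1.symm, h2⟩)

theorem adj_vert (w h : ℤ) : squareLattice.Adj (w, h - 1) (w, h) := by
  rw [lat_adj]
  exact Or.inl ⟨rfl, Or.inl (by simp)⟩

theorem gH_vert {k h : ℤ} (hkh : k < h) (w : ℤ) : (gH k).Adj (w, h - 1) (w, h) := by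
  rw [reg_adj]
  exact ⟨adj_vert w h, by simp only [mem_Hp]; omega, by simp only [mem_Hp]; omega⟩

/-- half planes are connected -/
theorem gH_reachable {k : ℤ} {x y : ℤ × ℤ} (hx : k ≤ x.2) (hy : k ≤ y.2) :
    (gH k).Reachable x y := by
  -- horizontal moves
  have hor : ∀ (h : ℤ), k ≤ h → ∀ (n : ℕ) (a : ℤ), (gH k).Reachable (a, h) (a + n, h) := by
    intro h hh n
    induction n with
    | zero => intro a; simp
    | succ n ih =>
      intro a
      refine (ih a).trans (SimpleGraph.Adj.reachable ?_)
      rw [reg_adj, lat_adj]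
      refine ⟨Or.inr ⟨rfl, Or.inl ?_⟩, hh, hh⟩
      push_cast
      ring
  have hor' : ∀ (h : ℤ), k ≤ h → ∀ a b : ℤ, (gH k).Reachable (a, h) (b, h) := by
    intro h hh a b
    rcases le_total a b with hab | hab
    · have := hor h hh (b - a).toNat a
      rwa [show a + ((b - a).toNat : ℤ) = b by omega] at this
    · have := hor h hh (a - b).toNat b
      rw [show b + ((a - b).toNat : ℤ) = a by omega] at this
      exact this.symm
  have ver : ∀ (a : ℤ) (n : ℕ) (h : ℤ), k ≤ h → (gH k).Reachable (a, h) (a, h + n) := by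
    intro a n
    induction n with
    | zero => intro h _; simp
    | succ n ih =>
      intro h hh
      refine (ih h hh).trans (SimpleGraph.Adj.reachable ?_)
      rw [reg_adj, lat_adj]
      refine ⟨Or.inl ⟨rfl, Or.inl ?_⟩, ?_, ?_⟩
      · push_cast; ring
      · simp only [mem_Hp]; omega
      · simp only [mem_Hp]; push_cast; omega
  have ver' : ∀ a h : ℤ, k ≤ h → (gH k).Reachable (a, k) (a, h) := by
    intro a h hh
    have := ver a (h - k).toNat k le_rfl
    rwa [show k + ((h - k).toNat : ℤ) = h by omega] at this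
  have h1 := ver' x.1 x.2 hx
  have h2 := ver' y.1 y.2 hy
  exact h1.symm.trans ((hor' k le_rfl _ _).trans h2)

theorem gH_support {k : ℤ} {x y : ℤ × ℤ} (w : (gH k).Walk x y) (hx : k ≤ x.2) :
    ∀ z ∈ w.support, k ≤ z.2 := reg_support w hx

/-- the weight of the vertical edge from `(w,h-1)` to `(w,h)` -/
def Vt (t : Environment) (w h : ℤ) : ℝ := t s((w, h - 1), (w, h))

/-- the value of entering `Hp h` for the last time at `(w,h)` -/
noncomputable def Phi (t : Environment) (k h : ℤ) (φ : ℤ → ℝ) (z : ℤ × ℤ) (w : ℤ) : ℝ :=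
  pt (gH k) t z (w, h - 1) + Vt t w h + φ w

/-- `w` is an optimal last entrance into `Hp h` -/
def Opt (t : Environment) (k h : ℤ) (φ : ℤ → ℝ) (z : ℤ × ℤ) (w : ℤ) : Prop :=
  ∀ w', Phi t k h φ z w ≤ Phi t k h φ z w'

/-! ### decompositions of walks -/

/-- last entrance into `Hp h` -/
theorem last_entrance {k h : ℤ} (hkh : k < h) : ∀ {z y : ℤ × ℤ} (q : (gH k).Walk z y),
    h ≤ y.2 → ((∀ v ∈ q.support, h ≤ v.2) ∨
      ∃ w, ∃ q1 : (gH k).Walk z (w, h - 1), ∃ q2 : (gH h).Walk (w, h) y,
        q.edges = q1.edges ++ s((w, h - 1), (w, h)) :: q2.edges)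
  | z, _, .nil, hy => Or.inl (by simpa using hy)
  | z, y, .cons (v := v) a q, hy => by
      rcases last_entrance hkh q hy with hq | ⟨w, q1, q2, hq⟩
      · by_cases hz : h ≤ z.2
        · left
          intro u hu
          rw [SimpleGraph.Walk.support_cons, List.mem_cons] at hu
          rcases hu with rfl | hu
          · exact hz
          · exact hq u hu
        · right
          have hv : h ≤ v.2 := hq v q.start_mem_support
          have ha := lat_adj.1 (reg_adj.1 a).1
          have h1 : z.1 = v.1 := by rcases ha with h | h <;> omega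
          have h2 : v.2 = h := by rcases ha with h | h <;> omega
          have h3 : z.2 = h - 1 := by rcases ha with h | h <;> omega
          have hz' : z = (v.1, h - 1) := Prod.ext h1 h3
          have hv' : v = (v.1, h) := Prod.ext rfl h2
          -- the walk inside `Hp h`
          have hin : ∀ e ∈ q.edges, e ∈ (gH h).edgeSet := by
            intro e he
            induction e with
            | _ b c =>
              have hb := hq b (q.fst_mem_support_of_mem_edges he)
              have hc := hq c (q.snd_mem_support_of_mem_edges he)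
              have hadj := q.adj_of_mem_edges he
              rw [SimpleGraph.mem_edgeSet, reg_adj]
              exact ⟨(reg_adj.1 hadj).1, hb, hc⟩
          refine ⟨v.1, (SimpleGraph.Walk.nil : (gH k).Walk z z).copy rfl hz',
            (q.transfer (gH h) hin).copy hv' rfl, ?_⟩
          rw [SimpleGraph.Walk.edges_cons, SimpleGraph.Walk.edges_copy,
            SimpleGraph.Walk.edges_copy, SimpleGraph.Walk.edges_transfer,
            SimpleGraph.Walk.edges_nil, List.nil_append]
          congr 1
          rw [← hz', ← hv']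
      · right
        refine ⟨w, .cons a q1, q2, ?_⟩
        simp [hq]

/-- cost form of the last entrance -/
theorem last_entrance_cost {k h : ℤ} (hkh : k < h) (t : Environment) {z y : ℤ × ℤ}
    (q : (gH k).Walk z y) (hz : z.2 < h) (hy : h ≤ y.2) :
    ∃ w, ∃ q1 : (gH k).Walk z (w, h - 1), ∃ q2 : (gH h).Walk (w, h) y,
      wcost t q = wcost t q1 + Vt t w h + wcost t q2 := by
  rcases last_entrance hkh q hy with hq | ⟨w, q1, q2, hq⟩
  · exact absurd (hq z q.start_mem_support) (by omega)
  · refine ⟨w, q1, q2, ?_⟩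
    unfold wcost Vt
    rw [hq]
    simp [add_assoc]

/-- first hit of the line `y = N` -/
theorem first_hit {k N : ℤ} : ∀ {z y : ℤ × ℤ} (q : (gH k).Walk z y), z.2 ≤ N → N ≤ y.2 →
    ∃ w, ∃ q1 : (gH k).Walk z (w, N), (∀ v ∈ q1.support, v.2 ≤ N) ∧
      ∀ v ∈ q1.support, v ∈ q.support
  | z, _, .nil, hz, hy => by
      have h : z.2 = N := le_antisymm hz hy
      have hz' : z = (z.1, N) := Prod.ext rfl h
      refine ⟨z.1, (SimpleGraph.Walk.nil : (gH k).Walk z z).copy rfl hz', ?_, ?_⟩
      · intro v hv
        simp only [SimpleGraph.Walk.support_copy, SimpleGraph.Walk.support_nil,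
          List.mem_singleton] at hv
        rw [hv, h]
      · intro v hv
        simpa using hv
  | z, y, .cons (v := v) a q, hz, hy => by
      by_cases h : z.2 = N
      · have hz' : z = (z.1, N) := Prod.ext rfl h
        refine ⟨z.1, (SimpleGraph.Walk.nil : (gH k).Walk z z).copy rfl hz', ?_, ?_⟩
        · intro v hv
          simp only [SimpleGraph.Walk.support_copy, SimpleGraph.Walk.support_nil,
            List.mem_singleton] at hv
          rw [hv, h]
        · intro v hv
          simp only [SimpleGraph.Walk.support_copy, SimpleGraph.Walk.support_nil,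
            List.mem_singleton] at hv
          rw [hv]
          exact SimpleGraph.Walk.start_mem_support _
      · have ha := lat_adj.1 (reg_adj.1 a).1
        have hv : v.2 ≤ N := by rcases ha with h' | h' <;> omega
        obtain ⟨w, q1, h1, h2⟩ := first_hit q hv hy
        refine ⟨w, .cons a q1, ?_, ?_⟩
        · intro u hu
          rw [SimpleGraph.Walk.support_cons, List.mem_cons] at hu
          rcases hu with rfl | hu
          · exact hz
          · exact h1 u hu
        · intro u hu
          rw [SimpleGraph.Walk.support_cons, List.mem_cons] at hu ⊢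
          rcases hu with rfl | hu
          · exact Or.inl rfl
          · exact Or.inr (h2 u hu)

/-- decomposition at the last edge of a set `A` -/
theorem last_edge {V : Type*} {H : SimpleGraph V} (A : Set (Sym2 V)) :
    ∀ {x y : V} (q : H.Walk x y), (∃ e ∈ q.edges, e ∈ A) →
      ∃ p, ∃ q1 : H.Walk x p, ∃ q2 : H.Walk p y, q = q1.append q2 ∧
        (∃ e ∈ A, p ∈ e) ∧ ∀ e ∈ q2.edges, e ∉ A
  | x, _, .nil, h => by simp at h
  | x, y, .cons (v := v) a q, h => by
      by_cases hq : ∃ e ∈ q.edges, e ∈ A
      · obtain ⟨p, q1, q2, h1, h2, h3⟩ := last_edge A q hq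
        exact ⟨p, .cons a q1, q2, by rw [h1]; rfl, h2, h3⟩
      · push Not at hq
        obtain ⟨e, he, heA⟩ := h
        rw [SimpleGraph.Walk.edges_cons, List.mem_cons] at he
        rcases he with rfl | he
        · exact ⟨v, .cons a .nil, q, rfl, ⟨_, heA, Sym2.mem_mk_right _ _⟩, hq⟩
        · exact absurd heA (hq e he)

end Crest.Agent.R151.D624
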