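import Crest.Agent.R151.D624b

/-!
# R151, D624c: the lowering theorem (deterministic)

Lowering the weights along an optimal walk of `x0` makes the class of `x1` disappear from the
image of the flow.
-/

set_option autoImplicit false

open Crest.ProbabilityR.FirstPassage

namespace Crest.Agent.R151.D624

variable {t t' : Environment} {f f' : ℤ → ℤ → ℝ} {k h N H : ℤ}

theorem Phi_congr (hkh : k < h) {φ φ' : ℤ → ℝ} (hφ : φ = φ')
    (htt : ∀ e ∈ (gH k).edgeSet, t e = t' e) (z : ℤ × ℤ) (w : ℤ) :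
    Phi t k h φ z w = Phi t' k h φ' z w := by
  unfold Phi Vt
  rw [pt_congr htt, hφ, htt _ ((SimpleGraph.mem_edgeSet _).2 (gH_vert hkh w))]

theorem edgeSet_anti {k h : ℤ} (hkh : k ≤ h) {e : Sym2 (ℤ × ℤ)} (he : e ∈ (gH h).edgeSet) :
    e ∈ (gH k).edgeSet := SimpleGraph.edgeSet_mono (gH_anti hkh) he

theorem W_congr (hHk : H ≤ k) (hkN : k < N) (hf : ∀ h, H ≤ h → f h = f' h)
    (htt : ∀ e ∈ (gH H).edgeSet, t e = t' e) (x : ℤ) : W t f k N x = W t' f' k N x := by
  unfold W
  congr 1
  funext w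
  apply propext
  unfold Opt
  have : ∀ w, Phi t k N (f N) (x, k) w = Phi t' k N (f' N) (x, k) w :=
    fun w => Phi_congr hkN (hf N (by omega)) (fun e he => htt e (edgeSet_anti hHk he)) _ _
  simp only [this]

theorem Sim_congr (hHk : H ≤ k) (hf : ∀ h, H ≤ h → f h = f' h)
    (htt : ∀ e ∈ (gH H).edgeSet, t e = t' e) (x y : ℤ) : Sim t f k x y ↔ Sim t' f' k x y := by
  unfold Sim
  constructor
  · rintro ⟨N, hN, h⟩
    refine ⟨N, hN, ?_⟩
    rwa [← W_congr hHk hN hf htt, ← W_congr hHk hN hf htt]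
  · rintro ⟨N, hN, h⟩
    refine ⟨N, hN, ?_⟩
    rwa [W_congr hHk hN hf htt, W_congr hHk hN hf htt]

theorem mem_of_mem_edge {k : ℤ} {x y : ℤ × ℤ} (q : (gH k).Walk x y) {e : Sym2 (ℤ × ℤ)}
    (he : e ∈ q.edges) {z : ℤ × ℤ} (hz : z ∈ e) : z ∈ q.support := by
  induction e with
  | _ a b =>
    rcases Sym2.mem_iff.1 hz with rfl | rfl
    · exact q.fst_mem_support_of_mem_edges he
    · exact q.snd_mem_support_of_mem_edges he

/-- **Lowering.** -/
theorem lowering (F : Fam t f) (F' : Fam t' f') {A : Set (Sym2 (ℤ × ℤ))} (hkH : k < H)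
    (hf : ∀ h, H ≤ h → f h = f' h) (hle : ∀ e, t' e ≤ t e) (hoff : ∀ e, e ∉ A → t' e = t e)
    (hA : ∀ e ∈ A, ∀ z ∈ e, z.2 < H) {x0 x1 : ℤ}
    {ω : (gH k).Walk (x0, k) (W t f k H x0, H - 1)} (hω : IsGeo t ω)
    (hAω : ∀ e ∈ A, e ∈ ω.edges) (h01 : ¬ Sim t f k x0 x1)
    (hsav : ∀ x, Sim t f k x1 x →
      wcost t' ω + pt (gH k) t (x, k) (x0, k) + f k x0 < wcost t ω + f k x) (x : ℤ) :
    ¬ Sim t' f' H (W t' f' k H x) (W t f k H x1) := by
  intro hs
  have ht := F.nonneg
  have ht' := F'.nonneg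
  have hω' : wcost t ω = pt (gH k) t (x0, k) (W t f k H x0, H - 1) := hω
  -- edges above level `H` are untouched
  have hVA : ∀ w, s((w, H - 1), (w, H)) ∉ A := by
    intro w hw
    have := hA _ hw (w, H) (Sym2.mem_mk_right _ _)
    simp at this
  have hV : ∀ w, Vt t' w H = Vt t w H := fun w => hoff _ (hVA w)
  have htt : ∀ e ∈ (gH H).edgeSet, t e = t' e := by
    intro e he
    refine (hoff e fun heA => ?_).symm
    induction e with
    | _ a b =>
      have h1 := hA _ heA a (Sym2.mem_mk_left _ _)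
      have h2 := (reg_adj.1 ((SimpleGraph.mem_edgeSet _).1 he)).2.1
      rw [mem_Hp] at h2
      omega
  have hs' : Sim t f H (W t' f' k H x) (W t f k H x1) := (Sim_congr le_rfl hf htt _ _).2 hs
  set w' := W t' f' k H x with hw'
  have opt' : Opt t' k H (f' H) (x, k) w' := F'.W_spec hkH x
  obtain ⟨q, -, hq⟩ := F'.nice.geo k (x, k) (w', H - 1)
    (gH_reachable le_rfl (by simp only; omega))
  have hq' : wcost t' q = pt (gH k) t' (x, k) (w', H - 1) := hq
  by_cases hqA : ∃ e ∈ q.edges, e ∈ A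
  · -- the walk uses a lowered edge
    obtain ⟨p, q1, q2, e12, ⟨e, heA, hpe⟩, hq2⟩ := last_edge A q hqA
    have hp : p ∈ ω.support := mem_of_mem_edge ω (hAω e heA) hpe
    obtain ⟨ω1, ω2, eω⟩ := SimpleGraph.Walk.mem_support_iff_exists_append.1 hp
    have c1 : wcost t' q = wcost t' q1 + wcost t q2 := by
      rw [e12, wcost_append]
      congr 1
      exact wcost_congr _ fun e he => hoff e (hq2 e he)
    have c2 : wcost t ω = wcost t ω1 + wcost t ω2 := by rw [eω, wcost_append]
    have c3 : wcost t' ω2 ≤ wcost t ω2 := wcost_mono _ fun e _ => hle e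
    have c4 := pt_le_wcost ht' (q1.append ω2)
    rw [wcost_append] at c4
    have c5 := opt' (W t f k H x0)
    have c6 := pt_le_wcost ht (ω1.append q2)
    rw [wcost_append] at c6
    have hfH := hf H le_rfl
    have opt : Opt t k H (f H) (x0, k) w' := by
      intro w
      refine le_trans ?_ (F.W_spec hkH x0 w)
      unfold Phi at c5 ⊢
      rw [hV, hV, ← hfH] at c5
      linarith
    have e1 := F.W_eq hkH opt
    rw [e1, F.sim_W_iff hkH] at hs'
    exact h01 hs'
  · -- the walk does not use a lowered edge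
    push Not at hqA
    have c1 : wcost t' q = wcost t q := wcost_congr _ fun e he => hoff e (hqA e he)
    have hfH := hf H le_rfl
    have c2 := pt_le_wcost ht q
    have c3 : ∀ w, pt (gH k) t' (x, k) (w, H - 1) ≤ pt (gH k) t (x, k) (w, H - 1) :=
      fun w => pt_mono ht' (fun e _ => hle e)
    have opt : Opt t k H (f H) (x, k) w' := by
      intro w
      have c4 := opt' w
      have := c3 w
      unfold Phi at c4 ⊢
      rw [hV, hV, ← hfH] at c4
      linarith
    have e1 := F.W_eq hkH opt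
    have hs1 : Sim t f k x1 x := by
      rw [e1, F.sim_W_iff hkH] at hs'
      exact hs'.symm
    obtain ⟨C, hC⟩ := F.exists_value' hkH
    have v1 := (hC x).2
    have v0 := (hC x0).2
    rw [← e1] at v1
    have s := hsav x hs1
    have c4 := opt' (W t f k H x0)
    have c5 : pt (gH k) t' (x, k) (W t f k H x0, H - 1) ≤
        pt (gH k) t' (x, k) (x0, k) + pt (gH k) t' (x0, k) (W t f k H x0, H - 1) :=
      pt_triangle ht' (gH_reachable le_rfl le_rfl)
        (gH_reachable le_rfl (by simp only; omega))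
    have c6 : pt (gH k) t' (x, k) (x0, k) ≤ pt (gH k) t (x, k) (x0, k) :=
      pt_mono ht' (fun e _ => hle e)
    have c7 := pt_le_wcost ht' ω
    have c8 := c3 w'
    have c9 := pt_le_wcost ht q
    unfold Phi at c4 v1 v0
    rw [hV, hV, ← hfH] at c4
    linarith

end Crest.Agent.R151.D624
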