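import Crest.Agent.R151.F2
import Crest.Agent.R151.D624c

/-!
# R151, D624d: resampling and almost sure uniqueness of the last entrances

* `ae_update`, `measure_zero_of_update`, `ae_exists_lower` : resampling of one / finitely many
  coordinates;
* `HL G f` : the hypotheses on the boundary functions;
* `HL.ae_fam` : almost surely the deterministic structure `Fam` holds.
-/

set_option autoImplicit false

open MeasureTheory Filter Topology ProbabilityTheory
open Crest.ProbabilityR.FirstPassage
open scoped Classical ENNReal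

namespace Crest.Agent.R151.D624

section resampling

variable {I X : Type*} [MeasurableSpace X] {G : Measure X} [IsProbabilityMeasure G]

theorem ae_update {P : (I → X) → Prop} (h : ∀ᵐ t ∂(Measure.infinitePi fun _ : I => G), P t)
    (e : I) : ∀ᵐ t ∂(Measure.infinitePi fun _ : I => G), ∀ᵐ u ∂G, P (Function.update t e u) :=
  Measure.ae_ae_of_ae_prod ((V.mp_update G e).quasiMeasurePreserving.ae h)

theorem measure_zero_of_update {S : Set (I → X)} (hS : MeasurableSet S) (e : I)
    (h : ∀ t, G {u | Function.update t e u ∈ S} = 0) :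
    (Measure.infinitePi fun _ : I => G) S = 0 := by
  rw [← (V.mp_update G e).measure_preimage hS.nullMeasurableSet]
  rw [Measure.measure_prod_null ((V.mp_update G e).measurable hS)]
  exact Eventually.of_forall fun t => h t

/-- Almost every configuration can be lowered on a finite set, keeping an almost sure property. -/
theorem ae_exists_lower {L : Set X} (hL : 0 < G L) {P : (I → X) → Prop}
    (h : ∀ᵐ t ∂(Measure.infinitePi fun _ : I => G), P t) (A : Finset I) :
    ∀ᵐ t ∂(Measure.infinitePi fun _ : I => G),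
      ∃ t' : I → X, (∀ e, e ∉ A → t' e = t e) ∧ (∀ e ∈ A, t' e ∈ L) ∧ P t' := by
  induction A using Finset.induction_on with
  | empty =>
    filter_upwards [h] with t ht
    exact ⟨t, fun _ _ => rfl, by simp, ht⟩
  | insert e A heA ih =>
    filter_upwards [ae_update ih e] with t ht
    obtain ⟨u, hu, t', h1, h2, h3⟩ : ∃ u, u ∈ L ∧ ∃ t' : I → X,
        (∀ e', e' ∉ A → t' e' = Function.update t e u e') ∧ (∀ e' ∈ A, t' e' ∈ L) ∧ P t' := by
      by_contra hcon
      push Not at hcon
      have : G L = 0 := by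
        rw [measure_eq_zero_iff_ae_notMem]
        filter_upwards [ht] with u hu huL
        obtain ⟨t', h1, h2, h3⟩ := hu
        exact hcon u huL t' h1 h2 h3
      exact hL.ne' this
    refine ⟨t', fun e' he' => ?_, fun e' he' => ?_, h3⟩
    · rw [Finset.mem_insert, not_or] at he'
      rw [h1 e' he'.2, Function.update_of_ne he'.1]
    · rw [Finset.mem_insert] at he'
      rcases he' with rfl | he'
      · rw [h1 e' heA, Function.update_self]
        exact hu
      · exact h2 e' he'

end resampling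

section notie

variable {G : Measure ℝ} [IsProbabilityMeasure G]

theorem tie_null {I : Type*} (hat : ∀ x, G {x} = 0) {A B : Finset I} {e : I} (hA : e ∈ A)
    (hB : e ∉ B) {F : (I → ℝ) → ℝ} (hF : Measurable F)
    (hdep : ∀ t t', (∀ i, i ≠ e → t i = t' i) → F t = F t') :
    (Measure.infinitePi fun _ : I => G) {t | ∑ i ∈ A, t i = ∑ i ∈ B, t i + F t} = 0 := by
  have hm : MeasurableSet {t : I → ℝ | ∑ i ∈ A, t i = ∑ i ∈ B, t i + F t} :=
    measurableSet_eq_fun (measurable_finsum A) ((measurable_finsum B).add hF)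
  refine measure_zero_of_update hm e fun t => ?_
  refine measure_mono_null ?_ (hat (∑ i ∈ B, t i + F t - ∑ i ∈ A.erase e, t i))
  intro u hu
  simp only [Set.mem_ofPred_eq] at hu
  rw [← Finset.add_sum_erase _ _ hA, Function.update_self,
    hdep _ t (fun i hi => Function.update_of_ne hi _ _)] at hu
  have h1 : ∑ i ∈ A.erase e, Function.update t e u i = ∑ i ∈ A.erase e, t i :=
    Finset.sum_congr rfl fun i hi => Function.update_of_ne (Finset.ne_of_mem_erase hi) _ _
  have h2 : ∑ i ∈ B, Function.update t e u i = ∑ i ∈ B, t i :=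
    Finset.sum_congr rfl fun i hi => Function.update_of_ne (fun h => hB (by rwa [h] at hi)) _ _
  rw [h1, h2] at hu
  simp only [Set.mem_singleton_iff]
  linarith

/-- no ties between finite sums plus boundary values -/
def NoTieF (t : Environment) (f : ℤ → ℤ → ℝ) : Prop :=
  ∀ (h w w' : ℤ) (A B : Finset (Sym2 (ℤ × ℤ))), (∃ e ∈ A, e ∉ B ∧ e ∉ K.edgesIn (Hp h)) →
    ∑ i ∈ A, t i + f h w ≠ ∑ i ∈ B, t i + f h w'

theorem ae_noTieF (hat : ∀ x, G {x} = 0) {f : ℤ → Environment → ℤ → ℝ}
    (meas : ∀ k x, Measurable fun t => f k t x)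
    (dep : ∀ k t t', (∀ e ∈ K.edgesIn (Hp k), t e = t' e) → f k t = f k t') :
    ∀ᵐ t ∂(iidLaw G), NoTieF t (fun k => f k t) := by
  unfold NoTieF
  simp only [ae_all_iff]
  intro h w w' A B
  by_cases hex : ∃ e ∈ A, e ∉ B ∧ e ∉ K.edgesIn (Hp h)
  · obtain ⟨e, heA, heB, heH⟩ := hex
    have key := tie_null (G := G) hat heA heB (F := fun t => f h t w' - f h t w)
      ((meas h w').sub (meas h w)) (fun t t' htt => by
        have hd : f h t = f h t' := dep h _ _ fun e' he' =>
          htt e' (fun hc => heH (by rwa [hc] at he'))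
        simp only [hd])
    rw [measure_eq_zero_iff_ae_notMem] at key
    intro _
    filter_upwards [key] with t ht hcon
    apply ht
    linarith
  · exact fun h => absurd h hex

end notie

section uniq

variable {t : Environment} {k h : ℤ}

theorem pt_pos_of_ne (hn : Nice t) {x y : ℤ × ℤ} (hx : k ≤ x.2) (hy : k ≤ y.2) (hxy : x ≠ y) :
    0 < pt (gH k) t x y := by
  obtain ⟨q, -, hq⟩ := hn.geo k x y (gH_reachable hx hy)
  have hq' : wcost t q = pt (gH k) t x y := hq
  rw [← hq']
  cases q with
  | nil => exact absurd rfl hxy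
  | @cons _ v _ a q =>
    rw [wcost_cons]
    have h2 := wcost_nonneg hn.nonneg q
    linarith [hn.pos s(x, v)]

theorem pt_add_of_mem (hn : Nice t) {x y v : ℤ × ℤ} {q : (gH k).Walk x y} (hq : IsGeo t q)
    (hv : v ∈ q.support) : pt (gH k) t x v + pt (gH k) t v y = pt (gH k) t x y := by
  obtain ⟨p1, p2, e⟩ := SimpleGraph.Walk.mem_support_iff_exists_append.1 hv
  have ht := hn.nonneg
  subst e
  have h1 : IsGeo t p1 := IsGeo.of_append_left ht hq
  have h2 : IsGeo t p2 := IsGeo.of_append_right ht hq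
  have h1' : wcost t p1 = _ := h1
  have h2' : wcost t p2 = _ := h2
  have hq' : wcost t (p1.append p2) = _ := hq
  rw [wcost_append] at hq'
  rw [← h1', ← h2', hq']

/-- an optimal last entrance is not visited before -/
theorem not_mem_of_opt (hn : Nice t) {φ : ℤ → ℝ}
    (hlip : ∀ x y, φ x - φ y ≤ pt (gH h) t (x, h) (y, h)) (hkh : k < h) {x w : ℤ}
    (hw : Opt t k h φ (x, k) w) {q : (gH k).Walk (x, k) (w, h - 1)} (hq : IsGeo t q) :
    (w, h) ∉ q.support := by
  intro hmem
  obtain ⟨p1, p2, e⟩ := SimpleGraph.Walk.mem_support_iff_exists_append.1 hmem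
  have ht := hn.nonneg
  obtain ⟨u, hu⟩ := exists_Phi_le (f := fun _ => φ) ht hlip hkh (z := (x, k)) hkh p1
  have h1 : wcost t p1 = pt (gH k) t (x, k) (w, h) := by
    subst e
    exact IsGeo.of_append_left ht hq
  have h2 := pt_add_of_mem hn hq hmem
  have h3 : 0 ≤ pt (gH k) t (w, h) (w, h - 1) := pt_nonneg ht
  have h4 := hw u
  have h5 := hn.pos s((w, h - 1), (w, h))
  unfold Phi Vt at h4 hu
  linarith

theorem uniq_of_noTie (hn : Nice t) {f : ℤ → ℤ → ℝ} (hnt : NoTieF t f)
    (hlip : ∀ x y, f h x - f h y ≤ pt (gH h) t (x, h) (y, h)) (hkh : k < h) {x w w' : ℤ}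
    (hw : Opt t k h (f h) (x, k) w) (hw' : Opt t k h (f h) (x, k) w') : w = w' := by
  by_contra hne
  obtain ⟨q, hqp, hq⟩ := hn.geo k (x, k) (w, h - 1) (gH_reachable le_rfl (by simp only; omega))
  obtain ⟨q', hqp', hq'⟩ := hn.geo k (x, k) (w', h - 1)
    (gH_reachable le_rfl (by simp only; omega))
  have m1 := not_mem_of_opt hn hlip hkh hw hq
  have m2 := not_mem_of_opt hn hlip hkh hw' hq'
  have n1 : s((w, h - 1), (w, h)) ∉ q.edges := fun hm =>
    m1 (q.snd_mem_support_of_mem_edges hm)
  have n2 : s((w', h - 1), (w', h)) ∉ q'.edges := fun hm =>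
    m2 (q'.snd_mem_support_of_mem_edges hm)
  have c1 : ∑ i ∈ insert s((w, h - 1), (w, h)) q.edges.toFinset, t i + f h w =
      Phi t k h (f h) (x, k) w := by
    have e1 : ∑ i ∈ q.edges.toFinset, t i = wcost t q := by
      convert (wcost_eq_sum_toFinset (t := t) hqp.isTrail).symm
    rw [Finset.sum_insert (by simpa using n1), e1]
    have : wcost t q = _ := hq
    unfold Phi Vt
    rw [this]
    ring
  have c2 : ∑ i ∈ insert s((w', h - 1), (w', h)) q'.edges.toFinset, t i + f h w' =
      Phi t k h (f h) (x, k) w' := by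
    have e1 : ∑ i ∈ q'.edges.toFinset, t i = wcost t q' := by
      convert (wcost_eq_sum_toFinset (t := t) hqp'.isTrail).symm
    rw [Finset.sum_insert (by simpa using n2), e1]
    have : wcost t q' = _ := hq'
    unfold Phi Vt
    rw [this]
    ring
  have ceq : ∑ i ∈ insert s((w, h - 1), (w, h)) q.edges.toFinset, t i + f h w =
      ∑ i ∈ insert s((w', h - 1), (w', h)) q'.edges.toFinset, t i + f h w' := by
    rw [c1, c2]
    exact le_antisymm (hw w') (hw' w)
  have vne : ∀ v, s(((v : ℤ), h - 1), (v, h)) ∉ K.edgesIn (Hp h) := by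
    intro v hv
    have := (K.mem_edgesIn.1 hv).1
    rw [mem_Hp] at this
    simp only at this
    omega
  have vinj : s((w, h - 1), (w, h)) ≠ s((w', h - 1), (w', h)) := by
    intro hcon
    rw [Sym2.eq_iff] at hcon
    rcases hcon with ⟨h1, _⟩ | ⟨h1, _⟩
    · exact hne (Prod.ext_iff.1 h1).1
    · have := (Prod.ext_iff.1 h1).2
      simp only at this
      omega
  by_cases hv : s((w, h - 1), (w, h)) ∈ insert s((w', h - 1), (w', h)) q'.edges.toFinset
  · by_cases hv' : s((w', h - 1), (w', h)) ∈ insert s((w, h - 1), (w, h)) q.edges.toFinset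
    · rw [Finset.mem_insert, List.mem_toFinset] at hv hv'
      have a1 : (w, h - 1) ∈ q'.support := by
        rcases hv with hv | hv
        · exact absurd hv vinj
        · exact q'.fst_mem_support_of_mem_edges hv
      have a2 : (w', h - 1) ∈ q.support := by
        rcases hv' with hv' | hv'
        · exact absurd hv' vinj.symm
        · exact q.fst_mem_support_of_mem_edges hv'
      have b1 := pt_add_of_mem hn hq' a1
      have b2 := pt_add_of_mem hn hq a2
      have b3 : 0 < pt (gH k) t (w, h - 1) (w', h - 1) :=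
        pt_pos_of_ne hn (by simp only; omega) (by simp only; omega)
          (fun hc => hne (Prod.ext_iff.1 hc).1)
      have b4 : 0 ≤ pt (gH k) t (w', h - 1) (w, h - 1) := pt_nonneg hn.nonneg
      linarith
    · exact hnt h w' w _ _ ⟨_, Finset.mem_insert_self _ _, hv', vne w'⟩ ceq.symm
  · exact hnt h w w' _ _ ⟨_, Finset.mem_insert_self _ _, hv, vne w⟩ ceq

end uniq

/-- hypotheses on a random family of boundary functions on the horizontal lines -/
structure HL (G : Measure ℝ) (f : ℤ → Environment → ℤ → ℝ) : Prop where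
  meas : ∀ k x, Measurable fun t => f k t x
  dep : ∀ k t t', (∀ e ∈ K.edgesIn (Hp k), t e = t' e) → f k t = f k t'
  cov : ∀ᵐ t ∂(iidLaw G), ∀ (z : ℤ × ℤ) (k : ℤ),
    ∃ C, ∀ x, f k (A.shift z t) x = f (k + z.2) t (x + z.1) + C
  lip : ∀ᵐ t ∂(iidLaw G), ∀ h x y, f h t x - f h t y ≤ pt (gH h) t (x, h) (y, h)
  hl : ∀ᵐ t ∂(iidLaw G), ∀ k h, k < h → ∃ C, ∀ x,
    (∀ w, f k t x ≤ C + pt (gH k) t (x, k) (w, h) + f h t w) ∧
      (∃ w, f k t x = C + pt (gH k) t (x, k) (w, h) + f h t w)

variable {G : Measure ℝ} [IsProbabilityMeasure G]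

theorem ae_nice (h0 : G (Set.Iio 0) = 0) (hat : ∀ x, G {x} = 0) :
    ∀ᵐ t ∂(iidLaw G), Nice t := by
  filter_upwards [ae_noTies (G := G) hat, ae_exists_isGeo (G := G) h0 (hat 0),
    K.ae_Nn (G := G) h0] with t h1 h2 h3
  exact ⟨fun e => h1.pos h3 e, h1, fun k x y hxy => h2 (gH k) (gH_le k) x y hxy⟩

theorem HL.ae_fam (h0 : G (Set.Iio 0) = 0) (hat : ∀ x, G {x} = 0)
    {f : ℤ → Environment → ℤ → ℝ} (H : HL G f) :
    ∀ᵐ t ∂(iidLaw G), Fam t (fun k => f k t) := by
  filter_upwards [ae_nice h0 hat, ae_noTieF hat H.meas H.dep, H.lip, H.hl] with t h1 h2 h3 h4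
  exact ⟨h1, h3, h4, fun k h hkh x w w' hw hw' =>
    uniq_of_noTie h1 h2 (h3 h) hkh hw hw'⟩

end Crest.Agent.R151.D624
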