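import Crest.Agent.R151.D624d

/-!
# R151, D624e: stationarity and mass transport for the coalescence classes

Main result `HL.ae_hit` : if classes do not coalesce with positive probability, then almost surely
every class on the line `y = h` is the image of a class on the line `y = k` (`k < h`), and class
boundaries are unbounded in both directions.
-/

set_option autoImplicit false

open MeasureTheory Filter Topology ProbabilityTheory
open Crest.ProbabilityR.FirstPassage
open scoped ENNReal

namespace Crest.Agent.R151.D624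

section covariance

theorem pt_map_le {V V' : Type*} {H : SimpleGraph V} {H' : SimpleGraph V'} {t' : Sym2 V' → ℝ}
    (ht' : ∀ e, 0 ≤ t' e) (φ : H →g H') {x y : V} (h : H.Reachable x y) :
    pt H' t' (φ x) (φ y) ≤ pt H (fun e => t' (e.map φ)) x y :=
  le_pt h fun w => (pt_le_wcost ht' (w.map φ)).trans (wcost_map t' φ w).le

/-- translation as a homomorphism -/
def trHom (z : ℤ × ℤ) (k : ℤ) : gH k →g gH (k + z.2) where
  toFun v := v + z
  map_rel' := by
    intro a b hab
    rw [reg_adj] at hab ⊢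
    obtain ⟨h1, h2, h3⟩ := hab
    rw [lat_adj] at h1 ⊢
    rw [mem_Hp] at h2 h3 ⊢
    rw [mem_Hp]
    simp only [Prod.fst_add, Prod.snd_add]
    refine ⟨?_, by omega, by omega⟩
    rcases h1 with h1 | h1
    · left; omega
    · right; omega

theorem pt_shift_gH {t : Environment} (ht : ∀ e, 0 ≤ t e) (z : ℤ × ℤ) {k : ℤ} {x y : ℤ × ℤ}
    (hx : k ≤ x.2) (hy : k ≤ y.2) :
    pt (gH k) (A.shift z t) x y = pt (gH (k + z.2)) t (x + z) (y + z) := by
  apply le_antisymm
  · have h1 := pt_map_le (t' := A.shift z t) (fun e => ht _) (trHom (-z) (k + z.2))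
      (x := x + z) (y := y + z)
      (gH_reachable (by simp only [Prod.snd_add]; omega) (by simp only [Prod.snd_add]; omega))
    have e1 : (trHom (-z) (k + z.2)) (x + z) = x := by
      show x + z + -z = x
      abel
    have e2 : (trHom (-z) (k + z.2)) (y + z) = y := by
      show y + z + -z = y
      abel
    have e3 : k + z.2 + (-z).2 = k := by simp
    have e4 : (fun e : Sym2 (ℤ × ℤ) => A.shift z t (e.map (trHom (-z) (k + z.2)))) = t := by
      funext e
      induction e with
      | _ a b =>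
        show t s(a + -z + z, b + -z + z) = t s(a, b)
        rw [neg_add_cancel_right, neg_add_cancel_right]
    rw [e1, e2, e4, e3] at h1
    exact h1
  · exact pt_map_le ht (trHom z k) (gH_reachable hx hy)

/-- the family of boundary functions of an environment -/
abbrev fam (f : ℤ → Environment → ℤ → ℝ) (t : Environment) : ℤ → ℤ → ℝ := fun k => f k t

/-- everything holds at all translates -/
def OK (f : ℤ → Environment → ℤ → ℝ) (t : Environment) : Prop :=
  (∀ z, Fam (A.shift z t) (fam f (A.shift z t))) ∧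
    ∀ (w z : ℤ × ℤ) (k : ℤ),
      ∃ C, ∀ x, f k (A.shift z (A.shift w t)) x = f (k + z.2) (A.shift w t) (x + z.1) + C

variable {f : ℤ → Environment → ℤ → ℝ} {t : Environment}

theorem OK.fam (h : OK f t) : Fam t (fam f t) := by
  have := h.1 0
  rwa [A.shift_zero] at this

theorem OK.shift (h : OK f t) (z : ℤ × ℤ) : OK f (A.shift z t) := by
  refine ⟨fun w => ?_, fun w z' k => ?_⟩
  · rw [A.shift_shift]
    exact h.1 _
  · rw [A.shift_shift w z]
    exact h.2 _ z' k

theorem OK.cov (h : OK f t) (z : ℤ × ℤ) (k : ℤ) :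
    ∃ C, ∀ x, f k (A.shift z t) x = f (k + z.2) t (x + z.1) + C := by
  have := h.2 0 z k
  rwa [A.shift_zero] at this

theorem OK.Phi_shift (ok : OK f t) (z : ℤ × ℤ) {k h : ℤ} (hkh : k < h) : ∃ C, ∀ x w,
    Phi (A.shift z t) k h (f h (A.shift z t)) (x, k) w =
      Phi t (k + z.2) (h + z.2) (f (h + z.2) t) (x + z.1, k + z.2) (w + z.1) + C := by
  obtain ⟨C, hC⟩ := ok.cov z h
  refine ⟨C, fun x w => ?_⟩
  unfold Phi Vt
  rw [pt_shift_gH ok.fam.nonneg z (by simp) (by simp only; omega), hC w]
  have e1 : ((w, h - 1) + z : ℤ × ℤ) = (w + z.1, h + z.2 - 1) :=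
    Prod.ext (by simp) (by simp; ring)
  have e2 : ((x, k) + z : ℤ × ℤ) = (x + z.1, k + z.2) := Prod.ext (by simp) (by simp)
  have e3 : A.shift z t s((w, h - 1), (w, h)) =
      t s((w + z.1, h + z.2 - 1), (w + z.1, h + z.2)) := by
    rw [A.shift_apply, A.eShift_mk, e1]
    congr 2
  rw [e1, e2, e3]
  ring

theorem OK.Opt_shift (ok : OK f t) (z : ℤ × ℤ) {k h : ℤ} (hkh : k < h) (x w : ℤ) :
    Opt (A.shift z t) k h (f h (A.shift z t)) (x, k) w ↔
      Opt t (k + z.2) (h + z.2) (f (h + z.2) t) (x + z.1, k + z.2) (w + z.1) := by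
  obtain ⟨C, hC⟩ := ok.Phi_shift z hkh
  unfold Opt
  constructor
  · intro H w'
    have := H (w' - z.1)
    rw [hC, hC, sub_add_cancel] at this
    linarith
  · intro H w'
    rw [hC, hC]
    have := H (w' + z.1)
    linarith

theorem OK.W_shift (ok : OK f t) (z : ℤ × ℤ) {k h : ℤ} (hkh : k < h) (x : ℤ) :
    W (A.shift z t) (D624.fam f (A.shift z t)) k h x + z.1 =
      W t (D624.fam f t) (k + z.2) (h + z.2) (x + z.1) := by
  have h1 := (ok.1 z).W_spec hkh x
  have h2 := (ok.Opt_shift z hkh x _).1 h1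
  exact ok.fam.W_eq (by omega) h2

theorem OK.Sim_shift (ok : OK f t) (z : ℤ × ℤ) {k : ℤ} (x y : ℤ) :
    Sim (A.shift z t) (D624.fam f (A.shift z t)) k x y ↔
      Sim t (D624.fam f t) (k + z.2) (x + z.1) (y + z.1) := by
  constructor
  · rintro ⟨N, hN, h⟩
    refine ⟨N + z.2, by omega, ?_⟩
    rw [← ok.W_shift z hN, ← ok.W_shift z hN, h]
  · rintro ⟨N, hN, h⟩
    have hN' : k < N - z.2 := by omega
    refine ⟨N - z.2, hN', ?_⟩
    have h1 := ok.W_shift z hN' x
    have h2 := ok.W_shift z hN' y
    rw [sub_add_cancel] at h1 h2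
    rw [← h1, ← h2] at h
    exact add_right_cancel h

end covariance

variable {G : Measure ℝ} [IsProbabilityMeasure G] {f : ℤ → Environment → ℤ → ℝ}

theorem ae_shift {P : Environment → Prop} (h : ∀ᵐ t ∂(iidLaw G), P t) :
    ∀ᵐ t ∂(iidLaw G), ∀ z, P (A.shift z t) := by
  rw [ae_all_iff]
  exact fun z => (A.mp_shift G z).quasiMeasurePreserving.ae h

theorem HL.ae_ok (h0 : G (Set.Iio 0) = 0) (hat : ∀ x, G {x} = 0) (H : HL G f) :
    ∀ᵐ t ∂(iidLaw G), OK f t := by
  filter_upwards [ae_shift (H.ae_fam h0 hat), ae_shift H.cov] with t h1 h2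
  exact ⟨h1, fun w z k => h2 w z k⟩

section measurability

theorem measurable_pt_gH {k : ℤ} {x : ℤ × ℤ} (hx : k ≤ x.2) (y : ℤ × ℤ) :
    Measurable fun t : Environment => pt (gH k) t x y := by
  have : (fun t : Environment => pt (gH k) t x y) = fun t => K.pR t (Hp k) x y := by
    funext t
    exact (pR_eq_pt (R := Hp k) hx t).symm
  rw [this]
  exact K.measurable_pR _ _ _

omit [IsProbabilityMeasure G] in
theorem HL.measurable_Phi (H : HL G f) {k h : ℤ} {z : ℤ × ℤ} (hz : k ≤ z.2) (w : ℤ) :
    Measurable fun t : Environment => Phi t k h (f h t) z w := by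
  unfold Phi Vt
  exact ((measurable_pt_gH hz _).add (measurable_pi_apply _)).add (H.meas h w)

omit [IsProbabilityMeasure G] in
theorem HL.measurableSet_Opt (H : HL G f) {k h : ℤ} {z : ℤ × ℤ} (hz : k ≤ z.2) (w : ℤ) :
    MeasurableSet {t : Environment | Opt t k h (f h t) z w} := by
  have : {t : Environment | Opt t k h (f h t) z w} =
      ⋂ w' : ℤ, {t | Phi t k h (f h t) z w ≤ Phi t k h (f h t) z w'} := by
    ext t
    simp [Opt]
  rw [this]
  exact MeasurableSet.iInter fun w' =>
    measurableSet_le (H.measurable_Phi hz w) (H.measurable_Phi hz w')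

theorem HL.nm_W (h0 : G (Set.Iio 0) = 0) (hat : ∀ x, G {x} = 0) (H : HL G f) {k h : ℤ}
    (hkh : k < h) (x w : ℤ) :
    NullMeasurableSet {t : Environment | W t (fam f t) k h x = w} (iidLaw G) := by
  refine (H.measurableSet_Opt (k := k) (h := h) (z := (x, k)) le_rfl w).nullMeasurableSet.congr ?_
  filter_upwards [H.ae_ok h0 hat] with t ht
  apply propext
  constructor
  · intro h1
    exact (ht.fam.W_eq hkh h1).symm
  · rintro h1
    have h2 := ht.fam.W_spec hkh x
    have h1' : W t (fam f t) k h x = w := h1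
    rw [h1'] at h2
    exact h2

theorem HL.nm_Sim (h0 : G (Set.Iio 0) = 0) (hat : ∀ x, G {x} = 0) (H : HL G f) (k x y : ℤ) :
    NullMeasurableSet {t : Environment | Sim t (fam f t) k x y} (iidLaw G) := by
  have : {t : Environment | Sim t (fam f t) k x y} =
      ⋃ N : {N : ℤ // k < N}, ⋃ w : ℤ, {t | W t (fam f t) k N x = w} ∩
        {t | W t (fam f t) k N y = w} := by
    ext t
    simp only [Sim, Set.mem_iUnion, Set.mem_inter_iff, Set.mem_ofPred_eq]
    constructor
    · rintro ⟨N, hN, h⟩
      exact ⟨⟨N, hN⟩, _, h, rfl⟩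
    · rintro ⟨⟨N, hN⟩, w, h1, h2⟩
      exact ⟨N, hN, h1.trans h2.symm⟩
  rw [this]
  exact NullMeasurableSet.iUnion fun N => NullMeasurableSet.iUnion fun w =>
    (H.nm_W h0 hat N.2 x w).inter (H.nm_W h0 hat N.2 y w)

end measurability

/-- Recurrence under horizontal translations, to the right. -/
theorem ae_recurrent {S : Set Environment} (hS : NullMeasurableSet S (iidLaw G))
    (hpos : iidLaw G S ≠ 0) {z : ℤ × ℤ} (hz : z ≠ 0) :
    ∀ᵐ t ∂(iidLaw G), ∃ᶠ n : ℕ in atTop, A.shift (n • z) t ∈ S := by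
  set B : Set Environment := {t | ∃ᶠ n : ℕ in atTop, A.shift (n • z) t ∈ S} with hB
  have hBnm : NullMeasurableSet B (iidLaw G) := by
    have : B = ⋂ N : ℕ, ⋃ n : {n : ℕ // N ≤ n}, A.shift ((n : ℕ) • z) ⁻¹' S := by
      ext t
      simp only [hB, Filter.frequently_atTop, Set.mem_ofPred_eq, Set.mem_iInter,
        Set.mem_iUnion, Set.mem_preimage]
      constructor
      · intro h N
        obtain ⟨n, hn, h1⟩ := h N
        exact ⟨⟨n, hn⟩, h1⟩
      · intro h N
        obtain ⟨⟨n, hn⟩, h1⟩ := h N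
        exact ⟨n, hn, h1⟩
    rw [this]
    exact NullMeasurableSet.iInter fun N => NullMeasurableSet.iUnion fun n =>
      hS.preimage (A.mp_shift G _).quasiMeasurePreserving
  have hinv : A.shift z ⁻¹' B = B := by
    ext t
    simp only [hB, Set.mem_preimage, Set.mem_ofPred_eq]
    have : ∀ n : ℕ, A.shift (n • z) (A.shift z t) = A.shift ((n + 1) • z) t := by
      intro n
      rw [A.shift_shift, succ_nsmul]
    simp only [this]
    rw [Filter.frequently_atTop, Filter.frequently_atTop]
    constructor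
    · intro h N
      obtain ⟨n, hn, h1⟩ := h N
      exact ⟨n + 1, by omega, h1⟩
    · intro h N
      obtain ⟨n, hn, h1⟩ := h (N + 1)
      refine ⟨n - 1, by omega, ?_⟩
      rwa [show n - 1 + 1 = n by omega]
  have hit : ∀ n : ℕ, (A.shift z)^[n] = A.shift (n • z) := by
    intro n
    induction n with
    | zero => funext t; simp [A.shift_zero]
    | succ n ih =>
      funext t
      rw [Function.iterate_succ_apply, ih, A.shift_shift, succ_nsmul]
  have hcons := (A.mp_shift G z).conservative.ae_mem_imp_frequently_image_mem hS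
  have hBpos : iidLaw G B ≠ 0 := by
    intro h
    apply hpos
    rw [measure_eq_zero_iff_ae_notMem] at h ⊢
    filter_upwards [h, hcons] with t h1 h2 h3
    apply h1
    have := h2 h3
    simp only [hit] at this
    exact this
  rcases zero_or_one_shift₀ hz hBnm (Filter.EventuallyEq.of_eq hinv) with h | h
  · exact absurd h hBpos
  · have : ∀ᵐ t ∂(iidLaw G), t ∈ B :=
      (mem_ae_iff_prob_eq_one₀ hBnm).2 h
    exact this

end Crest.Agent.R151.D624
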