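import Crest.Agent.R151.D624e

/-!
# R151, D624f: every class is hit by the flow from below (mass transport)
-/

set_option autoImplicit false

open MeasureTheory Filter Topology ProbabilityTheory
open Crest.ProbabilityR.FirstPassage
open scoped ENNReal

namespace Crest.Agent.R151.D624

variable {G : Measure ℝ} [IsProbabilityMeasure G] {f : ℤ → Environment → ℤ → ℝ}

/-- the event that `0` is a class boundary on the line `y = k` -/
def Bd (f : ℤ → Environment → ℤ → ℝ) (k : ℤ) : Set Environment :=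
  {t | ¬ Sim t (fam f t) k 0 1}

/-- `x` is a class boundary, and the class of its image has right end `y` -/
def Ev (f : ℤ → Environment → ℤ → ℝ) (k h x y : ℤ) : Set Environment :=
  {t | ¬ Sim t (fam f t) k x (x + 1) ∧ Sim t (fam f t) h (W t (fam f t) k h x) y ∧
    ¬ Sim t (fam f t) h y (y + 1)}

namespace HL

theorem nm_Bd (h0 : G (Set.Iio 0) = 0) (hat : ∀ x, G {x} = 0) (H : HL G f) (k : ℤ) :
    NullMeasurableSet (Bd f k) (iidLaw G) := (H.nm_Sim h0 hat k 0 1).compl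

theorem nm_Ev (h0 : G (Set.Iio 0) = 0) (hat : ∀ x, G {x} = 0) (H : HL G f) {k h : ℤ}
    (hkh : k < h) (x y : ℤ) : NullMeasurableSet (Ev f k h x y) (iidLaw G) := by
  have : Ev f k h x y = {t | Sim t (fam f t) k x (x + 1)}ᶜ ∩
      ((⋃ w : ℤ, {t | W t (fam f t) k h x = w} ∩ {t | Sim t (fam f t) h w y}) ∩
        {t | Sim t (fam f t) h y (y + 1)}ᶜ) := by
    ext t
    simp only [Ev, Set.mem_inter_iff, Set.mem_compl_iff, Set.mem_ofPred_eq, Set.mem_iUnion]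
    constructor
    · rintro ⟨h1, h2, h3⟩
      exact ⟨h1, ⟨_, rfl, h2⟩, h3⟩
    · rintro ⟨h1, ⟨w, hw, h2⟩, h3⟩
      exact ⟨h1, by rwa [hw], h3⟩
  rw [this]
  exact (H.nm_Sim h0 hat _ _ _).compl.inter
    ((NullMeasurableSet.iUnion fun w => (H.nm_W h0 hat hkh x w).inter
      (H.nm_Sim h0 hat _ _ _)).inter (H.nm_Sim h0 hat _ _ _).compl)

/-- the density of class boundaries does not depend on the level -/
theorem measure_Bd (h0 : G (Set.Iio 0) = 0) (hat : ∀ x, G {x} = 0) (H : HL G f) (k h : ℤ) :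
    iidLaw G (Bd f h) = iidLaw G (Bd f k) := by
  rw [← (A.mp_shift G (0, h - k)).measure_preimage (H.nm_Bd h0 hat k)]
  apply measure_congr
  filter_upwards [H.ae_ok h0 hat] with t ht
  apply propext
  show ¬ _ ↔ ¬ _
  rw [ht.Sim_shift (0, h - k)]
  simp

theorem measure_Ev (h0 : G (Set.Iio 0) = 0) (hat : ∀ x, G {x} = 0) (H : HL G f) {k h : ℤ}
    (hkh : k < h) (x y m : ℤ) :
    iidLaw G (Ev f k h (x + m) (y + m)) = iidLaw G (Ev f k h x y) := by
  rw [← (A.mp_shift G (m, 0)).measure_preimage (H.nm_Ev h0 hat hkh x y)]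
  apply measure_congr
  filter_upwards [H.ae_ok h0 hat] with t ht
  apply propext
  show (_ ∧ _ ∧ _) ↔ (_ ∧ _ ∧ _)
  rw [ht.Sim_shift (m, 0), ht.Sim_shift (m, 0), ht.Sim_shift (m, 0), ht.W_shift (m, 0) hkh]
  simp only [add_zero]
  rw [add_right_comm x 1 m, add_right_comm y 1 m]

theorem ae_unb (h0 : G (Set.Iio 0) = 0) (hat : ∀ x, G {x} = 0) (H : HL G f)
    (hpos : iidLaw G (Bd f 0) ≠ 0) :
    ∀ᵐ t ∂(iidLaw G), ∀ h M : ℤ, ∃ b, M ≤ b ∧ ¬ Sim t (fam f t) h b (b + 1) := by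
  rw [ae_all_iff]
  intro h
  have hz : ((1 : ℤ), (0 : ℤ)) ≠ 0 := by
    intro hc
    have := congrArg Prod.fst hc
    simp at this
  filter_upwards [H.ae_ok h0 hat, ae_recurrent (H.nm_Bd h0 hat h)
    (by rwa [H.measure_Bd h0 hat 0 h]) hz] with t ht hr M
  rw [Filter.frequently_atTop] at hr
  obtain ⟨n, hn, h1⟩ := hr M.toNat
  refine ⟨n, by omega, ?_⟩
  have h2 : ¬ Sim (A.shift (n • ((1 : ℤ), (0 : ℤ))) t) (fam f (A.shift (n • ((1 : ℤ), (0 : ℤ))) t))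
      h 0 1 := h1
  rw [ht.Sim_shift] at h2
  have e1 : (n • ((1 : ℤ), (0 : ℤ))).1 = n := by simp
  have e2 : (n • ((1 : ℤ), (0 : ℤ))).2 = 0 := by simp
  rw [e1, e2, add_zero, zero_add, add_comm 1 (n : ℤ)] at h2
  exact h2

/-- the same to the left -/
theorem ae_unb' (h0 : G (Set.Iio 0) = 0) (hat : ∀ x, G {x} = 0) (H : HL G f)
    (hpos : iidLaw G (Bd f 0) ≠ 0) :
    ∀ᵐ t ∂(iidLaw G), ∀ h M : ℤ, ∃ b, b ≤ M ∧ ¬ Sim t (fam f t) h b (b + 1) := by
  rw [ae_all_iff]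
  intro h
  have hz : ((-1 : ℤ), (0 : ℤ)) ≠ 0 := by
    intro hc
    have := congrArg Prod.fst hc
    simp at this
  filter_upwards [H.ae_ok h0 hat, ae_recurrent (H.nm_Bd h0 hat h)
    (by rwa [H.measure_Bd h0 hat 0 h]) hz] with t ht hr M
  rw [Filter.frequently_atTop] at hr
  obtain ⟨n, hn, h1⟩ := hr (-M).toNat
  refine ⟨-n, by omega, ?_⟩
  have h2 : ¬ Sim (A.shift (n • ((-1 : ℤ), (0 : ℤ))) t)
      (fam f (A.shift (n • ((-1 : ℤ), (0 : ℤ))) t)) h 0 1 := h1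
  rw [ht.Sim_shift] at h2
  have e1 : (n • ((-1 : ℤ), (0 : ℤ))).1 = -n := by simp
  have e2 : (n • ((-1 : ℤ), (0 : ℤ))).2 = 0 := by simp
  rw [e1, e2, add_zero, zero_add, add_comm 1 (-(n : ℤ))] at h2
  exact h2

/-- **Mass transport.** Every class is hit by the flow from below. -/
theorem ae_hit (h0 : G (Set.Iio 0) = 0) (hat : ∀ x, G {x} = 0) (H : HL G f)
    (hpos : iidLaw G (Bd f 0) ≠ 0) :
    ∀ᵐ t ∂(iidLaw G), ∀ k h : ℤ, k < h → ∀ y, ∃ x,
      Sim t (fam f t) h (W t (fam f t) k h x) y := by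
  rw [ae_all_iff]
  intro k
  rw [ae_all_iff]
  intro h
  by_cases hkh : k < h
  swap
  · exact Eventually.of_forall fun t hc => absurd hc hkh
  -- out of `0`
  have e1 : iidLaw G (⋃ y : ℤ, Ev f k h 0 y) = ∑' y : ℤ, iidLaw G (Ev f k h 0 y) := by
    refine measure_iUnion₀ ?_ fun y => H.nm_Ev h0 hat hkh 0 y
    intro y y' hyy
    show iidLaw G (Ev f k h 0 y ∩ Ev f k h 0 y') = 0
    rw [measure_eq_zero_iff_ae_notMem]
    filter_upwards [H.ae_ok h0 hat] with t ht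
    rintro ⟨⟨-, h1, h2⟩, ⟨-, h1', h2'⟩⟩
    exact hyy (ht.fam.right_end_unique h1 h2 h1' h2')
  have e2 : iidLaw G (⋃ y : ℤ, Ev f k h 0 y) = iidLaw G (Bd f k) := by
    apply measure_congr
    filter_upwards [H.ae_ok h0 hat, H.ae_unb h0 hat hpos] with t ht hu
    apply propext
    show t ∈ (⋃ y : ℤ, Ev f k h 0 y) ↔ t ∈ Bd f k
    rw [Set.mem_iUnion]
    constructor
    · rintro ⟨y, h1, -, -⟩
      rwa [zero_add] at h1
    · intro h1
      obtain ⟨b, hb1, hb2⟩ := hu h (W t (fam f t) k h 0)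
      obtain ⟨y, -, -, h3, h4⟩ := ht.fam.exists_right_end hb1 hb2
      exact ⟨y, by rw [zero_add]; exact h1, h3, h4⟩
  -- into `0`
  have e3 : iidLaw G (⋃ x : ℤ, Ev f k h x 0) = ∑' x : ℤ, iidLaw G (Ev f k h x 0) := by
    refine measure_iUnion₀ ?_ fun x => H.nm_Ev h0 hat hkh x 0
    intro x x' hxx
    show iidLaw G (Ev f k h x 0 ∩ Ev f k h x' 0) = 0
    rw [measure_eq_zero_iff_ae_notMem]
    filter_upwards [H.ae_ok h0 hat] with t ht
    rintro ⟨⟨a1, a2, -⟩, ⟨b1, b2, -⟩⟩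
    have h1 := ht.fam.sim_trans a2 b2.symm
    rw [ht.fam.sim_W_iff hkh] at h1
    exact hxx (ht.fam.right_end_unique (Sim.refl _ _ _ _) a1 h1 b1)
  have e4 : ∑' y : ℤ, iidLaw G (Ev f k h 0 y) = ∑' x : ℤ, iidLaw G (Ev f k h x 0) := by
    rw [← (Equiv.neg ℤ).tsum_eq (fun x => iidLaw G (Ev f k h x 0))]
    refine tsum_congr fun y => ?_
    have := H.measure_Ev h0 hat hkh 0 y (-y)
    rw [zero_add, add_neg_cancel] at this
    rw [← this]
    rfl
  have e5 : iidLaw G (⋃ x : ℤ, Ev f k h x 0) = iidLaw G (Bd f h) := by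
    rw [e3, ← e4, ← e1, e2, H.measure_Bd h0 hat h k]
  have sub : (⋃ x : ℤ, Ev f k h x 0) ⊆ Bd f h := by
    intro t ht
    rw [Set.mem_iUnion] at ht
    obtain ⟨x, -, -, h3⟩ := ht
    rwa [zero_add] at h3
  have e6 : (⋃ x : ℤ, Ev f k h x 0) =ᵐ[iidLaw G] Bd f h :=
    ae_eq_of_subset_of_measure_ge sub e5.ge
      (NullMeasurableSet.iUnion fun x => H.nm_Ev h0 hat hkh x 0) (measure_ne_top _ _)
  have e7 : ∀ᵐ t ∂(iidLaw G), t ∈ Bd f h → ∃ x, Sim t (fam f t) h (W t (fam f t) k h x) 0 := by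
    filter_upwards [e6] with t ht hb
    have ht' : (t ∈ ⋃ x : ℤ, Ev f k h x 0) = (t ∈ Bd f h) := ht
    rw [← ht', Set.mem_iUnion] at hb
    obtain ⟨x, -, h2, -⟩ := hb
    exact ⟨x, h2⟩
  filter_upwards [H.ae_ok h0 hat, H.ae_unb h0 hat hpos, ae_shift e7] with t ht hu h7 _ y
  obtain ⟨b, hb1, hb2⟩ := hu h y
  obtain ⟨y', -, -, h3, h4⟩ := ht.fam.exists_right_end hb1 hb2
  have h5 : A.shift (y', 0) t ∈ Bd f h := by
    show ¬ _
    rw [ht.Sim_shift (y', 0)]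
    simp only [add_zero, zero_add]
    rwa [add_comm 1 y']
  obtain ⟨x, hx⟩ := h7 (y', 0) h5
  rw [ht.Sim_shift (y', 0), ht.W_shift (y', 0) hkh] at hx
  simp only [add_zero, zero_add] at hx
  exact ⟨_, ht.fam.sim_trans hx h3.symm⟩

end HL

end Crest.Agent.R151.D624
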