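import Crest.Agent.R151.V10
import Crest.Agent.R151.D624f

/-!
# R151, D624g: coalescence of the flow

Main result `HL.ae_sim` : under the hypotheses `HL G f`, almost surely any two points of any
horizontal line coalesce.
-/

set_option autoImplicit false

open MeasureTheory Filter Topology ProbabilityTheory
open Crest.ProbabilityR.FirstPassage
open scoped ENNReal

namespace Crest.Agent.R151.D624

theorem height_le_length {k : ℤ} : ∀ {x y : ℤ × ℤ} (q : (gH k).Walk x y),
    y.2 - x.2 ≤ q.length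
  | _, _, .nil => by simp
  | x, y, .cons (v := v) a q => by
      have h1 := height_le_length q
      have h2 := lat_adj.1 (reg_adj.1 a).1
      rw [SimpleGraph.Walk.length_cons]
      push_cast
      rcases h2 with h2 | h2 <;> omega

theorem exists_height (l : List (ℤ × ℤ)) : ∃ M : ℤ, ∀ v ∈ l, v.2 ≤ M := by
  induction l with
  | nil => exact ⟨0, by simp⟩
  | cons a l ih =>
    obtain ⟨M, hM⟩ := ih
    refine ⟨max a.2 M, fun v hv => ?_⟩
    rw [List.mem_cons] at hv
    rcases hv with rfl | hv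
    · exact le_max_left _ _
    · exact (hM v hv).trans (le_max_right _ _)

theorem exists_bound (φ : ℤ → ℝ) (a b : ℤ) : ∃ J : ℝ, ∀ x, a ≤ x → x ≤ b → φ x ≤ J := by
  obtain ⟨J, hJ⟩ := ((Set.finite_Icc a b).image φ).bddAbove
  exact ⟨J, fun x h1 h2 => hJ ⟨x, ⟨h1, h2⟩, rfl⟩⟩

/-- Paths from `(0,0)` of length at least `n` have many high edges. -/
def Many (a b c : ℝ) (n : ℕ) (t : Environment) : Prop :=
  a < b ∧ 0 < c ∧ ∀ (y : ℤ × ℤ) (w : squareLattice.Walk (0, 0) y), w.edges.Nodup →
    n ≤ w.length → c * n ≤ ((w.edges.toFinset.filter fun e => b ≤ t e).card : ℝ)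

open Classical in
/-- the deterministic step: choice of the edges to be lowered -/
theorem exists_cut {f : ℤ → Environment → ℤ → ℝ}
    (dep : ∀ k t t', (∀ e ∈ K.edgesIn (Hp k), t e = t' e) → f k t = f k t')
    {t : Environment} (F : Fam t (fam f t)) (h01 : ¬ Sim t (fam f t) 0 0 1)
    (hub : ∃ b, 1 ≤ b ∧ ¬ Sim t (fam f t) 0 b (b + 1)) {a b c : ℝ} (hab : a < b) (hc : 0 < c)
    (hmany : ∀ᶠ n : ℕ in atTop, Many a b c n t) :
    ∃ A : Finset (Sym2 (ℤ × ℤ)), ∀ t' : Environment, (∀ e, e ∉ A → t' e = t e) →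
      (∀ e ∈ A, t' e < a) → Fam t' (fam f t') →
      ∃ H : ℤ, 0 < H ∧ ∃ y, ∀ x, ¬ Sim t' (fam f t') H (W t' (fam f t') 0 H x) y := by
  obtain ⟨b0, hb0, hb0'⟩ := hub
  -- the class of `1`
  have hclass : ∀ x, Sim t (fam f t) 0 1 x → 1 ≤ x ∧ x ≤ b0 := by
    intro x hx
    constructor
    · by_contra hcon
      have h1 := F.sim_of_between (y := 0) (by omega) (by omega) hx.symm
      exact h01 (F.sim_trans h1.symm hx.symm)
    · by_contra hcon
      have h1 := F.sim_of_between (y := b0) (by omega) (by omega) hx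
      have h2 := F.sim_of_between (y := b0 + 1) (by omega) (by omega) hx
      exact hb0' (F.sim_trans h1.symm h2)
  obtain ⟨J, hJ⟩ := exists_bound
    (fun x => pt (gH 0) t (x, 0) (0, 0) + f 0 t 0 - f 0 t x) 1 b0
  -- the length
  obtain ⟨N, hN⟩ := exists_nat_gt (J / ((b - a) * c))
  obtain ⟨n, hn, hnN⟩ := (hmany.and (eventually_ge_atTop (max N 1))).exists
  have hn1 : 1 ≤ n := (le_max_right N 1).trans hnN
  have hnJ : J < (b - a) * (c * n) := by
    have h1 : J / ((b - a) * c) < n :=
      hN.trans_le (by exact_mod_cast (le_max_left N 1).trans hnN)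
    rw [div_lt_iff₀ (by have := sub_pos.2 hab; positivity)] at h1
    linarith
  obtain ⟨-, -, hmanyn⟩ := hn
  set h : ℤ := n + 1 with hh
  have hh0 : (0 : ℤ) < h := by omega
  obtain ⟨π, hπp, hπ⟩ := F.nice.geo 0 (0, 0) (W t (fam f t) 0 h 0, h - 1)
    (gH_reachable le_rfl (by simp only; omega))
  have hlen : n ≤ π.length := by
    have := height_le_length π
    simp only at this
    omega
  have hcard := hmanyn _ (π.mapLe (gH_le 0))
    (by rw [SimpleGraph.Walk.edges_mapLe_eq_edges]; exact hπp.isTrail.edges_nodup)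
    (by simpa using hlen)
  rw [SimpleGraph.Walk.edges_mapLe_eq_edges] at hcard
  set A : Finset (Sym2 (ℤ × ℤ)) := π.edges.toFinset.filter fun e => b ≤ t e with hA
  have hcard' : c * n ≤ (A.card : ℝ) := by
    convert hcard
  obtain ⟨M, hM⟩ := exists_height π.support
  set H : ℤ := max M h + 1 with hH
  have hhH : h < H := by have := le_max_right M h; omega
  have hMH : M < H := by have := le_max_left M h; omega
  refine ⟨A, fun t' hoff hlow F' => ?_⟩
  obtain ⟨γ, -, hγ⟩ := F.nice.geo h (W t (fam f t) 0 h 0, h) (W t (fam f t) 0 H 0, H - 1)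
    (gH_reachable le_rfl (by simp only; omega))
  have hω := F.isGeo_cat hh0 hhH hπ hγ
  have hle : ∀ e, t' e ≤ t e := by
    intro e
    by_cases he : e ∈ A
    · have h1 := (Finset.mem_filter.1 he).2
      have h2 := hlow e he
      linarith
    · exact (hoff e he).le
  have hAbel : ∀ e ∈ A, ∀ z ∈ e, z.2 < H := by
    intro e he z hz
    have h1 : e ∈ π.edges := List.mem_toFinset.1 (Finset.mem_filter.1 he).1
    exact (hM z (mem_of_mem_edge π h1 hz)).trans_lt hMH
  have hf : ∀ h', H ≤ h' → fam f t h' = fam f t' h' := by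
    intro h' hh'
    refine dep h' t t' fun e he => (hoff e fun heA => ?_).symm
    induction e with
    | _ u v =>
      have h1 := hAbel _ heA u (Sym2.mem_mk_left _ _)
      have h2 := (K.mem_edgesIn.1 he).1
      rw [mem_Hp] at h2
      omega
  refine ⟨H, by omega, W t (fam f t) 0 H 1, ?_⟩
  refine lowering F F' (A := (A : Set (Sym2 (ℤ × ℤ)))) (by omega) hf hle
    (fun e he => hoff e (by simpa using he)) (fun e he => hAbel e (by simpa using he)) hω
    (fun e he => ?_) h01 (fun x hx => ?_)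
  · have h1 : e ∈ π.edges := List.mem_toFinset.1 (Finset.mem_filter.1 (Finset.mem_coe.1 he)).1
    unfold Fam.cat
    rw [SimpleGraph.Walk.edges_append]
    exact List.mem_append_left _ h1
  · obtain ⟨h1, h2⟩ := hclass x hx
    have h3 := hJ x h1 h2
    rw [Fam.wcost_cat, Fam.wcost_cat]
    have h4 : Vt t' (W t (fam f t) 0 h 0) h ≤ Vt t (W t (fam f t) 0 h 0) h := hle _
    have h5 : wcost t' γ ≤ wcost t γ := wcost_mono _ fun e _ => hle e
    have h6 : wcost t' π + (b - a) * A.card ≤ wcost t π := by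
      have e1 : wcost t π = ∑ e ∈ π.edges.toFinset, t e := by
        convert wcost_eq_sum_toFinset (t := t) hπp.isTrail
      have e2 : wcost t' π = ∑ e ∈ π.edges.toFinset, t' e := by
        convert wcost_eq_sum_toFinset (t := t') hπp.isTrail
      rw [e1, e2]
      have e3 : (b - a) * A.card = ∑ e ∈ π.edges.toFinset, if e ∈ A then b - a else 0 := by
        rw [← Finset.sum_filter, Finset.sum_const, nsmul_eq_mul, mul_comm]
        congr 2
        rw [hA]
        congr 1
        ext e
        simp only [Finset.mem_filter]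
        tauto
      rw [e3, ← Finset.sum_add_distrib]
      refine Finset.sum_le_sum fun e _ => ?_
      by_cases he : e ∈ A
      · rw [if_pos he]
        have g1 := (Finset.mem_filter.1 he).2
        have g2 := hlow e he
        linarith
      · rw [if_neg he, hoff e he, add_zero]
    have h7 : (b - a) * (c * n) ≤ (b - a) * A.card :=
      mul_le_mul_of_nonneg_left hcard' (by linarith)
    simp only [fam] at h3 ⊢
    linarith

variable {G : Measure ℝ} [IsProbabilityMeasure G] {f : ℤ → Environment → ℤ → ℝ}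

theorem ae_many (h0 : G (Set.Iio 0) = 0) (hat : ∀ x, G {x} = 0) :
    ∃ a b c : ℝ, a < b ∧ 0 < c ∧ 0 < G (Set.Iio a) ∧
      ∀ᵐ t ∂(iidLaw G), ∀ᶠ n : ℕ in atTop, Many a b c n t := by
  have : NullSingletonClass G := ⟨fun x => hat x⟩
  obtain ⟨a, b, c, hab, hc, hG, hB⟩ := V.exists_high (G := G) h0
  choose B hBm hBp hBt using fun n : ℕ => hB n (0, 0)
  refine ⟨a, b, c, hab, hc, ?_, ?_⟩
  · rw [Measure.real, ENNReal.toReal_pos_iff] at hG
    exact hG.1
  · have hsum : ∑' n : ℕ, (iidLaw G) (B n) ≠ ⊤ := by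
      have h1 : ∀ n, (iidLaw G) (B n) ≤ ENNReal.ofReal ((1 / 2) ^ n) := by
        intro n
        rw [← ENNReal.ofReal_toReal (measure_ne_top (iidLaw G) (B n))]
        exact ENNReal.ofReal_le_ofReal (hBp n)
      refine ne_top_of_le_ne_top ?_ (ENNReal.tsum_le_tsum h1)
      rw [← ENNReal.ofReal_tsum_of_nonneg (fun n => by positivity)
        (summable_geometric_of_lt_one (by norm_num) (by norm_num))]
      exact ENNReal.ofReal_ne_top
    filter_upwards [ae_eventually_notMem hsum] with t ht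
    filter_upwards [ht] with n hn
    refine ⟨hab, hc, fun y w hw hlen => ?_⟩
    convert hBt n t hn y w hw hlen

/-- no class boundaries -/
theorem HL.measure_Bd_zero (h0 : G (Set.Iio 0) = 0) (hat : ∀ x, G {x} = 0) (H : HL G f) :
    iidLaw G (Bd f 0) = 0 := by
  by_contra hpos
  obtain ⟨a, b, c, hab, hc, hG, hmany⟩ := ae_many (G := G) h0 hat
  have hP : ∀ᵐ t ∂(iidLaw G), Fam t (fam f t) ∧ ∀ k h : ℤ, k < h → ∀ y, ∃ x,
      Sim t (fam f t) h (W t (fam f t) k h x) y := by
    filter_upwards [H.ae_fam h0 hat, H.ae_hit h0 hat hpos] with t h1 h2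
    exact ⟨h1, h2⟩
  have hlow : ∀ᵐ t ∂(iidLaw G), ∀ A : Finset (Sym2 (ℤ × ℤ)),
      ∃ t' : Environment, (∀ e, e ∉ A → t' e = t e) ∧ (∀ e ∈ A, t' e ∈ Set.Iio a) ∧
        (Fam t' (fam f t') ∧ ∀ k h : ℤ, k < h → ∀ y, ∃ x,
          Sim t' (fam f t') h (W t' (fam f t') k h x) y) := by
    rw [ae_all_iff]
    exact fun A => ae_exists_lower (G := G) hG hP A
  apply hpos
  rw [measure_eq_zero_iff_ae_notMem]
  filter_upwards [H.ae_fam h0 hat, hlow, hmany, H.ae_unb h0 hat hpos] with t h1 h2 h3 h4 h5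
  obtain ⟨A, hA⟩ := exists_cut H.dep h1 h5 (h4 0 1) hab hc h3
  obtain ⟨t', g1, g2, g3, g4⟩ := h2 A
  obtain ⟨H', hH', y, hy⟩ := hA t' g1 g2 g3
  obtain ⟨x, hx⟩ := g4 0 H' hH' y
  exact hy x hx

/-- **Coalescence.** Almost surely any two points of any line coalesce. -/
theorem HL.ae_sim (h0 : G (Set.Iio 0) = 0) (hat : ∀ x, G {x} = 0) (H : HL G f) :
    ∀ᵐ t ∂(iidLaw G), ∀ k x y : ℤ, Sim t (fam f t) k x y := by
  have h1 := H.measure_Bd_zero h0 hat
  rw [measure_eq_zero_iff_ae_notMem] at h1
  filter_upwards [H.ae_ok h0 hat, ae_shift h1] with t ht hs k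
  have step : ∀ x, Sim t (fam f t) k x (x + 1) := by
    intro x
    have h2 := hs (x, k)
    have h3 : Sim (A.shift (x, k) t) (fam f (A.shift (x, k) t)) 0 0 1 := by
      by_contra hcon
      exact h2 hcon
    rw [ht.Sim_shift (x, k)] at h3
    simp only [zero_add] at h3
    rwa [add_comm 1 x] at h3
  have up : ∀ (n : ℕ) (x : ℤ), Sim t (fam f t) k x (x + n) := by
    intro n
    induction n with
    | zero => intro x; simpa using Sim.refl t (fam f t) k x
    | succ n ih =>
      intro x
      have := ht.fam.sim_trans (ih x) (step (x + n))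
      push_cast
      rwa [← add_assoc]
  intro x y
  rcases le_total x y with hxy | hxy
  · have := up (y - x).toNat x
    rwa [show x + ((y - x).toNat : ℤ) = y by omega] at this
  · have := up (x - y).toNat y
    rw [show y + ((x - y).toNat : ℤ) = x by omega] at this
    exact this.symm

end Crest.Agent.R151.D624
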