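import Crest.Agent.R151.Y635B
import Crest.Agent.R151.D624g

/-!
# R151, D624h: coalescence of geodesic rays with given Busemann increments

`Follows t f h u` : the ray `u` is eventually in `Hp h` and its Busemann increments for `T^h` on
the line `y = h` are those of `f h`.  Such a ray enters `Hp h` for the last time at
`(W t f k h x, h)`; two such rays coalesce.
-/

set_option autoImplicit false

open MeasureTheory Filter Topology ProbabilityTheory
open Crest.ProbabilityR.FirstPassage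
open scoped ENNReal

namespace Crest.Agent.R151.D624

open Crest.Agent.R151.Y

/-- `u` is eventually in `Hp h`, with the increments of `f h` as Busemann increments. -/
def Follows (t : Environment) (f : ℤ → ℤ → ℝ) (h : ℤ) (u : ℕ → ℤ × ℤ) : Prop :=
  (∃ n, ∀ m, n ≤ m → h ≤ (u m).2) ∧ ∀ w w' : ℤ,
    Tendsto (fun m => pt (gH h) t (w', h) (u m) - pt (gH h) t (w, h) (u m)) atTop
      (𝓝 (f h w' - f h w))

variable {t : Environment} {f : ℤ → ℤ → ℝ} {k h : ℤ} {u u' : ℕ → ℤ × ℤ}

/-- the tail in `Hp h` of a ray of a larger graph is a ray of `gH h` -/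
theorem tail_isRay (ht : ∀ e, 0 ≤ t e) {H : SimpleGraph (ℤ × ℤ)} (hH : gH h ≤ H)
    (hH' : H ≤ squareLattice) (hu : IsRay t H u) {n : ℕ} (hn : ∀ m, n ≤ m → h ≤ (u m).2) :
    IsRay t (gH h) fun m => u (n + m) := by
  have hadj : ∀ m, (gH h).Adj (u (n + m)) (u (n + (m + 1))) := by
    intro m
    rw [reg_adj]
    exact ⟨hH' (hu.adj (n + m)), hn _ (Nat.le_add_right _ _), hn _ (Nat.le_add_right _ _)⟩
  refine ⟨hadj, fun i j hij => ?_⟩
  have h1 := (hu.tail n).geo i j hij
  apply le_antisymm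
  · rw [h1]
    exact pt_anti hH ht (gH_reachable (hn _ (Nat.le_add_right _ _)) (hn _ (Nat.le_add_right _ _)))
  · obtain ⟨d, rfl⟩ := Nat.exists_eq_add_of_le hij
    have h2 := pt_le_wcost ht (seqWalk (fun m => u (n + m)) hadj i d)
    rw [wcost_seqWalk] at h2
    rw [Finset.sum_Ico_eq_sum_range, Nat.add_sub_cancel_left]
    exact h2

theorem follows_of_bus (ht : ∀ e, 0 ≤ t e) {n : ℕ} (hn : ∀ m, n ≤ m → h ≤ (u m).2)
    (hray : IsRay t (gH h) fun m => u (n + m))
    (hb : ∀ w w' : ℤ, bus t (gH h) (fun m => u (n + m)) (w', h) -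
      bus t (gH h) (fun m => u (n + m)) (w, h) = f h w' - f h w) : Follows t f h u := by
  refine ⟨⟨n, hn⟩, fun w w' => ?_⟩
  have h0 : h ≤ (u (n + 0)).2 := hn _ (Nat.le_add_right _ _)
  have h1 := tendsto_bus_sub ht hray (x := (w', h)) (y := (w, h)) (gH_reachable le_rfl h0)
    (gH_reachable le_rfl h0)
  rw [hb] at h1
  have h2 : Tendsto (fun m => pt (gH h) t (w', h) (u (m + n)) - pt (gH h) t (w, h) (u (m + n)))
      atTop (𝓝 (f h w' - f h w)) := by
    refine h1.congr fun m => ?_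
    simp only [add_comm n m]
  exact (tendsto_add_atTop_iff_nat n).1 h2

theorem Follows.congr_tail {n : ℕ} (hf : Follows t f h u) : Follows t f h fun m => u (n + m) := by
  obtain ⟨⟨N, hN⟩, hT⟩ := hf
  refine ⟨⟨N, fun m hm => hN _ (by omega)⟩, fun w w' => ?_⟩
  have := (tendsto_add_atTop_iff_nat n).2 (hT w w')
  refine this.congr fun m => ?_
  simp only [add_comm n m]

/-- **Passage.** A ray from `(x,k)` following `f h` enters `Hp h` for the last time at the optimal
last entrance. -/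
theorem Follows.pass (F : Fam t f) (hkh : k < h) {x : ℤ} (hu : IsRay t (gH k) u)
    (hu0 : u 0 = (x, k)) (hf : Follows t f h u) :
    ∃ n, u n = (W t f k h x, h) ∧ ∀ m, n ≤ m → h ≤ (u m).2 := by
  have ht := F.nonneg
  obtain ⟨⟨N, hN⟩, hT⟩ := hf
  -- the last time below level `h`
  obtain ⟨m0, hm0, hlast⟩ : ∃ m0, (u m0).2 < h ∧ ∀ m, m0 < m → h ≤ (u m).2 := by
    by_contra hcon
    push Not at hcon
    have : ∀ j : ℕ, ∃ m, j ≤ m ∧ (u m).2 < h := by
      intro j
      induction j with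
      | zero => exact ⟨0, le_rfl, by rw [hu0]; exact hkh⟩
      | succ j ih =>
        obtain ⟨m, hm, hm'⟩ := ih
        obtain ⟨m', h1, h2⟩ := hcon m hm'
        exact ⟨m', by omega, h2⟩
    obtain ⟨m, hm, hm'⟩ := this N
    have := hN m hm
    omega
  have ha := lat_adj.1 (reg_adj.1 (hu.adj m0)).1
  have hu1 : h ≤ (u (m0 + 1)).2 := hlast _ (Nat.lt_succ_self _)
  set w := (u (m0 + 1)).1 with hw
  have e1 : u (m0 + 1) = (w, h) := Prod.ext rfl (by rcases ha with h' | h' <;> omega)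
  have e0 : u m0 = (w, h - 1) := Prod.ext (by rcases ha with h' | h' <;> omega)
    (by rcases ha with h' | h' <;> omega)
  have htail : ∀ m, m0 + 1 ≤ m → h ≤ (u m).2 := fun m hm => hlast m hm
  have hray := tail_isRay ht (gH_anti hkh.le) (gH_le k) hu htail
  refine ⟨m0 + 1, ?_, htail⟩
  rw [e1]
  congr 1
  apply F.W_eq hkh
  intro w'
  have key : ∀ m, m0 + 1 ≤ m → Phi t k h (f h) (x, k) w - f h w ≤
      Phi t k h (f h) (x, k) w' - f h w' +
        (pt (gH h) t (w', h) (u m) - pt (gH h) t (w, h) (u m)) := by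
    intro m hm
    have hm2 := htail m hm
    have c1 := hu.pt_add (Nat.zero_le m0) (show m0 ≤ m0 + 1 by omega)
    have c2 := hu.pt_add (Nat.zero_le (m0 + 1)) hm
    have c3 := hu.pt_succ m0
    rw [hu0, e0, e1] at c1
    rw [hu0, e1] at c2
    rw [e0, e1] at c3
    have c4 : pt (gH h) t (w, h) (u m) = pt (gH k) t (w, h) (u m) := by
      obtain ⟨d, rfl⟩ := Nat.exists_eq_add_of_le hm
      have g1 := hray.geo 0 d (Nat.zero_le _)
      have g2 := (hu.tail (m0 + 1)).geo 0 d (Nat.zero_le _)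
      rw [g1] at g2
      simp only [add_zero] at g2
      rw [e1] at g2
      exact g2
    have c5 : pt (gH k) t (x, k) (u m) ≤
        pt (gH k) t (x, k) (w', h) + pt (gH k) t (w', h) (u m) :=
      pt_triangle ht (gH_reachable le_rfl hkh.le) (gH_reachable hkh.le (hkh.le.trans hm2))
    have c6 : pt (gH k) t (w', h) (u m) ≤ pt (gH h) t (w', h) (u m) :=
      pt_anti (gH_anti hkh.le) ht (gH_reachable le_rfl hm2)
    have c7 := pt_le_Phi ht hkh (z := (x, k)) le_rfl (fun _ => 0) w'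
    unfold Phi Vt at c7 ⊢
    linarith
  have lim := (hT w w').const_add (Phi t k h (f h) (x, k) w' - f h w')
  have := ge_of_tendsto lim (Filter.eventually_atTop.2 ⟨m0 + 1, fun m hm => key m hm⟩)
  linarith

/-- Two rays of the same half plane from its boundary coalesce. -/
theorem coal_of_sim (F : Fam t f) {x y : ℤ} (hu : IsRay t (gH k) u) (hu0 : u 0 = (x, k))
    (hu' : IsRay t (gH k) u') (hu0' : u' 0 = (y, k)) (hf : ∀ᶠ h in atTop, Follows t f h u)
    (hf' : ∀ᶠ h in atTop, Follows t f h u') (hs : Sim t f k x y) : Coal u u' := by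
  obtain ⟨N, hkN, hN⟩ := hs
  refine IsRay.coal_of_frequently F.nice.nt F.nonneg hu hu' fun n => ?_
  -- a level above the first `n` vertices
  obtain ⟨M, hM⟩ := exists_height ((List.range (n + 1)).map u)
  obtain ⟨h, ⟨hh1, hh2⟩, hh3⟩ := ((hf.and hf').and (eventually_ge_atTop (max (M + 1) N))).exists
  have hMh : M < h := by have := le_max_left (M + 1) N; omega
  have hNh : N ≤ h := (le_max_right (M + 1) N).trans hh3
  have hkh : k < h := by omega
  obtain ⟨i, hi, -⟩ := hh1.pass F hkh hu hu0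
  obtain ⟨j, hj, -⟩ := hh2.pass F hkh hu' hu0'
  refine ⟨i, j, ?_, ?_⟩
  · by_contra hcon
    have := hM (u i) (List.mem_map.2 ⟨i, List.mem_range.2 (by omega), rfl⟩)
    rw [hi] at this
    simp only at this
    omega
  · rw [hi, hj, F.persist hkN hNh hN]

/-- **Coalescence of rays** (of arbitrary graphs containing a half plane). -/
theorem coal_of_follows (F : Fam t f) (hs : ∀ k x y, Sim t f k x y)
    {H H' : SimpleGraph (ℤ × ℤ)} (hH : ∃ k, gH k ≤ H) (hHl : H ≤ squareLattice)
    (hH' : ∃ k, gH k ≤ H') (hHl' : H' ≤ squareLattice) (hu : IsRay t H u) (hu' : IsRay t H' u')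
    (hf : ∀ᶠ h in atTop, Follows t f h u) (hf' : ∀ᶠ h in atTop, Follows t f h u') :
    Coal u u' := by
  obtain ⟨k1, hk1⟩ := hH
  obtain ⟨k2, hk2⟩ := hH'
  obtain ⟨h, ⟨hh1, hh2⟩, hh3⟩ := ((hf.and hf').and
    (eventually_ge_atTop (max (max k1 k2) (max ((u 0).2 + 1) ((u' 0).2 + 1))))).exists
  have a1 : k1 ≤ h := ((le_max_left _ _).trans (le_max_left _ _)).trans hh3
  have a2 : k2 ≤ h := ((le_max_right _ _).trans (le_max_left _ _)).trans hh3
  have a3 : (u 0).2 < h := by
    have := ((le_max_left _ _).trans (le_max_right _ _)).trans hh3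
    omega
  have a4 : (u' 0).2 < h := by
    have := ((le_max_right _ _).trans (le_max_right _ _)).trans hh3
    omega
  -- last entrances
  have last : ∀ {v : ℕ → ℤ × ℤ} {K : SimpleGraph (ℤ × ℤ)}, K ≤ squareLattice → IsRay t K v →
      (v 0).2 < h → Follows t f h v → ∃ n x, v n = (x, h) ∧ ∀ m, n ≤ m → h ≤ (v m).2 := by
    intro v K hK hv hv0 hfv
    obtain ⟨⟨N, hN⟩, -⟩ := hfv
    obtain ⟨m0, hm0, hlast⟩ : ∃ m0, (v m0).2 < h ∧ ∀ m, m0 < m → h ≤ (v m).2 := by
      by_contra hcon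
      push Not at hcon
      have : ∀ j : ℕ, ∃ m, j ≤ m ∧ (v m).2 < h := by
        intro j
        induction j with
        | zero => exact ⟨0, le_rfl, hv0⟩
        | succ j ih =>
          obtain ⟨m, hm, hm'⟩ := ih
          obtain ⟨m', h1, h2⟩ := hcon m hm'
          exact ⟨m', by omega, h2⟩
      obtain ⟨m, hm, hm'⟩ := this N
      have := hN m hm
      omega
    have ha := lat_adj.1 (hK (hv.adj m0))
    have hu1 : h ≤ (v (m0 + 1)).2 := hlast _ (Nat.lt_succ_self _)
    exact ⟨m0 + 1, (v (m0 + 1)).1, Prod.ext rfl (by rcases ha with h' | h' <;> omega),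
      fun m hm => hlast m hm⟩
  obtain ⟨n, x, hn, hn'⟩ := last hHl hu a3 hh1
  obtain ⟨n', y, hny, hny'⟩ := last hHl' hu' a4 hh2
  have r1 := tail_isRay F.nonneg ((gH_anti a1).trans hk1) hHl hu hn'
  have r2 := tail_isRay F.nonneg ((gH_anti a2).trans hk2) hHl' hu' hny'
  have c := coal_of_sim F r1 (by simpa using hn) r2 (by simpa using hny)
    (hf.mono fun h hh => hh.congr_tail) (hf'.mono fun h hh => hh.congr_tail) (hs h x y)
  exact (Coal.tail u n).trans (c.trans (Coal.tail u' n').symm)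

variable {G : Measure ℝ} [IsProbabilityMeasure G] {f : ℤ → Environment → ℤ → ℝ}

/-- **LN for a deterministic slope.** Almost surely any two rays following `f` coalesce. -/
theorem HL.ae_coal (h0 : G (Set.Iio 0) = 0) (hat : ∀ x, G {x} = 0) (Hf : HL G f) :
    ∀ᵐ t ∂(iidLaw G), ∀ (H H' : SimpleGraph (ℤ × ℤ)), (∃ k, gH k ≤ H) → H ≤ squareLattice →
      (∃ k, gH k ≤ H') → H' ≤ squareLattice → ∀ u u' : ℕ → ℤ × ℤ, IsRay t H u → IsRay t H' u' →
      (∀ᶠ h in atTop, Follows t (fam f t) h u) → (∀ᶠ h in atTop, Follows t (fam f t) h u') →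
      Coal u u' := by
  filter_upwards [Hf.ae_fam h0 hat, Hf.ae_sim h0 hat] with t h1 h2 H H' a b c d u u' hu hu' g g'
  exact coal_of_follows h1 h2 a b c d hu hu' g g'

/-- Uniqueness: two rays of the same graph following `f` from the same vertex are equal. -/
theorem HL.ae_unique (h0 : G (Set.Iio 0) = 0) (hat : ∀ x, G {x} = 0) (Hf : HL G f) :
    ∀ᵐ t ∂(iidLaw G), ∀ (H : SimpleGraph (ℤ × ℤ)), (∃ k, gH k ≤ H) → H ≤ squareLattice →
      ∀ u u' : ℕ → ℤ × ℤ, IsRay t H u → IsRay t H u' →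
      (∀ᶠ h in atTop, Follows t (fam f t) h u) → (∀ᶠ h in atTop, Follows t (fam f t) h u') →
      u 0 = u' 0 → u = u' := by
  filter_upwards [Hf.ae_coal h0 hat, ae_nice (G := G) h0 hat] with t h1 h2 H a b u u' hu hu' g g' e
  have hc := h1 H H a b a b u u' hu hu' g g'
  funext n
  have := IsRay.coal_from h2.nt h2.nonneg hu hu' hc e n
  simpa using this

end Crest.Agent.R151.D624
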