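import Crest.Agent.R151.D624h

/-!
# R151, D624i: lower half planes, by reflection
-/

set_option autoImplicit false

open MeasureTheory Filter Topology ProbabilityTheory
open Crest.ProbabilityR.FirstPassage
open scoped ENNReal

namespace Crest.Agent.R151.D624

open Crest.Agent.R151.Y

/-- reflection in the horizontal axis -/
def rho (v : ℤ × ℤ) : ℤ × ℤ := (v.1, -v.2)

@[simp] theorem rho_rho (v : ℤ × ℤ) : rho (rho v) = v := by simp [rho]
@[simp] theorem rho_fst (v : ℤ × ℤ) : (rho v).1 = v.1 := rfl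
@[simp] theorem rho_snd (v : ℤ × ℤ) : (rho v).2 = -v.2 := rfl
@[simp] theorem rho_mk (a b : ℤ) : rho (a, b) = (a, -b) := rfl

theorem adj_rho {x y : ℤ × ℤ} : squareLattice.Adj (rho x) (rho y) ↔ squareLattice.Adj x y := by
  rw [lat_adj, lat_adj]
  simp only [rho_fst, rho_snd]
  omega

/-- the reflection as a lattice automorphism -/
def rv : squareLattice ≃g squareLattice where
  toFun := rho
  invFun := rho
  left_inv := rho_rho
  right_inv := rho_rho
  map_rel_iff' := adj_rho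

/-- the reflected environment -/
def rt (t : Environment) : Environment := K.act rv t

theorem rt_apply (t : Environment) (x y : ℤ × ℤ) : rt t s(x, y) = t s(rho x, rho y) := rfl

@[simp] theorem rt_rt (t : Environment) : rt (rt t) = t := by
  funext e
  induction e with
  | _ x y => rw [rt_apply, rt_apply, rho_rho, rho_rho]

theorem mp_rt {G : Measure ℝ} [IsProbabilityMeasure G] :
    MeasurePreserving rt (iidLaw G) (iidLaw G) := K.mp_act rv

theorem measurable_rt : Measurable rt :=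
  measurable_pi_lambda _ fun _ => measurable_pi_apply _

theorem rt_nonneg {t : Environment} (ht : ∀ e, 0 ≤ t e) : ∀ e, 0 ≤ rt t e := fun _ => ht _

theorem pt_comap_rho {t : Environment} (ht : ∀ e, 0 ≤ t e) (H : SimpleGraph (ℤ × ℤ))
    (x y : ℤ × ℤ) : pt (H.comap rho) (rt t) x y = pt H t (rho x) (rho y) := by
  have hom1 : ∀ {a b : ℤ × ℤ}, (H.comap rho).Adj a b → H.Adj (rho a) (rho b) := fun h => h
  have hom2 : ∀ {a b : ℤ × ℤ}, H.Adj a b → (H.comap rho).Adj (rho a) (rho b) := by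
    intro a b h
    show H.Adj (rho (rho a)) (rho (rho b))
    rwa [rho_rho, rho_rho]
  have hr : (H.comap rho).Reachable x y ↔ H.Reachable (rho x) (rho y) := by
    constructor
    · rintro ⟨w⟩
      exact ⟨w.map (⟨rho, hom1⟩ : H.comap rho →g H)⟩
    · rintro ⟨w⟩
      have w' := w.map (⟨rho, hom2⟩ : H →g H.comap rho)
      have e1 : (⟨rho, hom2⟩ : H →g H.comap rho) (rho x) = x := rho_rho x
      have e2 : (⟨rho, hom2⟩ : H →g H.comap rho) (rho y) = y := rho_rho y
      rw [e1, e2] at w'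
      exact ⟨w'⟩
  by_cases h : (H.comap rho).Reachable x y
  · apply le_antisymm
    · have h1 := pt_map_le (t' := rt t) (rt_nonneg ht) (⟨rho, hom2⟩ : H →g H.comap rho)
        (hr.1 h)
      have e1 : (⟨rho, hom2⟩ : H →g H.comap rho) (rho x) = x := rho_rho x
      have e2 : (⟨rho, hom2⟩ : H →g H.comap rho) (rho y) = y := rho_rho y
      have e3 : (fun e : Sym2 (ℤ × ℤ) => rt t (e.map (⟨rho, hom2⟩ : H →g H.comap rho))) = t := by
        funext e
        induction e with
        | _ a b =>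
          show t s(rho (rho a), rho (rho b)) = t s(a, b)
          rw [rho_rho, rho_rho]
      rw [e1, e2, e3] at h1
      exact h1
    · exact pt_map_le ht (⟨rho, hom1⟩ : H.comap rho →g H) h
  · rw [pt_eq_zero_of_not_reachable h, pt_eq_zero_of_not_reachable (fun h' => h (hr.2 h'))]

/-- the lower half plane `{y ≤ k}` -/
def Hm (k : ℤ) : Set (ℤ × ℤ) := {z | z.2 ≤ k}

@[simp] theorem mem_Hm {k : ℤ} {z : ℤ × ℤ} : z ∈ Hm k ↔ z.2 ≤ k := Iff.rfl

/-- the graph of the lower half plane -/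
abbrev gM (k : ℤ) : SimpleGraph (ℤ × ℤ) := reg (Hm k)

theorem comap_gM (k : ℤ) : (gM k).comap rho = gH (-k) := by
  ext a b
  rw [SimpleGraph.comap_adj, reg_adj, reg_adj, adj_rho]
  simp only [mem_Hm, mem_Hp, rho_snd]
  have e : ∀ a : ℤ, -a ≤ k ↔ -k ≤ a := fun a => by omega
  rw [e, e]

theorem comap_rho_mono {H H' : SimpleGraph (ℤ × ℤ)} (h : H ≤ H') :
    H.comap rho ≤ H'.comap rho := fun _ _ hab => h hab

theorem comap_rho_lat : squareLattice.comap rho = squareLattice := by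
  ext a b
  exact adj_rho

theorem isRay_rho {t : Environment} (ht : ∀ e, 0 ≤ t e) {H : SimpleGraph (ℤ × ℤ)}
    {u : ℕ → ℤ × ℤ} (hu : IsRay t H u) : IsRay (rt t) (H.comap rho) fun n => rho (u n) := by
  refine ⟨fun k => ?_, fun i j hij => ?_⟩
  · show H.Adj (rho (rho (u k))) (rho (rho (u (k + 1))))
    rw [rho_rho, rho_rho]
    exact hu.adj k
  · rw [pt_comap_rho ht, rho_rho, rho_rho, ← hu.geo i j hij]
    refine Finset.sum_congr rfl fun k _ => ?_
    rw [rt_apply, rho_rho, rho_rho]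

/-- hypotheses on boundary functions for the lower half planes `{y ≤ k}` -/
structure HLm (G : Measure ℝ) (g : ℤ → Environment → ℤ → ℝ) : Prop where
  meas : ∀ k x, Measurable fun t => g k t x
  dep : ∀ k t t', (∀ e ∈ K.edgesIn (Hm k), t e = t' e) → g k t = g k t'
  cov : ∀ᵐ t ∂(iidLaw G), ∀ (z : ℤ × ℤ) (k : ℤ),
    ∃ C, ∀ x, g k (A.shift z t) x = g (k + z.2) t (x + z.1) + C
  lip : ∀ᵐ t ∂(iidLaw G), ∀ h x y, g h t x - g h t y ≤ pt (gM h) t (x, h) (y, h)
  hl : ∀ᵐ t ∂(iidLaw G), ∀ k h, h < k → ∃ C, ∀ x,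
    (∀ w, g k t x ≤ C + pt (gM k) t (x, k) (w, h) + g h t w) ∧
      (∃ w, g k t x = C + pt (gM k) t (x, k) (w, h) + g h t w)

variable {G : Measure ℝ} [IsProbabilityMeasure G] {g : ℤ → Environment → ℤ → ℝ}

theorem pt_gM_rt {t : Environment} (ht : ∀ e, 0 ≤ t e) (k : ℤ) (x y : ℤ × ℤ) :
    pt (gM (-k)) (rt t) (rho x) (rho y) = pt (gH k) t x y := by
  have h := pt_comap_rho (rt_nonneg ht) (gM (-k)) x y
  rw [rt_rt, comap_gM, neg_neg] at h
  exact h.symm

theorem HLm.toHL (h0 : G (Set.Iio 0) = 0) (Hg : HLm G g) :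
    HL G fun k t x => g (-k) (rt t) x := by
  have nn := K.ae_Nn (G := G) h0
  refine ⟨fun k x => (Hg.meas (-k) x).comp measurable_rt, fun k t t' h => ?_, ?_, ?_, ?_⟩
  · funext x
    have : g (-k) (rt t) = g (-k) (rt t') := by
      refine Hg.dep (-k) _ _ fun e he => ?_
      induction e with
      | _ a b =>
        rw [rt_apply, rt_apply]
        apply h
        rw [K.mem_edgesIn, mem_Hm, mem_Hm] at he
        rw [K.mem_edgesIn, mem_Hp, mem_Hp, rho_snd, rho_snd]
        omega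
    exact congrFun this x
  · filter_upwards [mp_rt.quasiMeasurePreserving.ae Hg.cov] with t ht z k
    obtain ⟨C, hC⟩ := ht (rho z) (-k)
    refine ⟨C, fun x => ?_⟩
    have e1 : rt (A.shift z t) = A.shift (rho z) (rt t) := by
      funext e
      induction e with
      | _ a b =>
        rw [rt_apply, A.shift_apply, A.eShift_mk, A.shift_apply, A.eShift_mk, rt_apply]
        have : ∀ a : ℤ × ℤ, rho (a + rho z) = rho a + z := by
          intro a
          ext
          · simp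
          · simp only [rho_snd, Prod.snd_add]; ring
        rw [this, this]
    rw [e1, hC x]
    simp only [rho_fst, rho_snd]
    rw [show -k + -z.2 = -(k + z.2) by ring]
  · filter_upwards [mp_rt.quasiMeasurePreserving.ae Hg.lip, nn] with t ht hn h x y
    have := ht (-h) x y
    have e := pt_gM_rt hn h (x, h) (y, h)
    rw [rho_mk, rho_mk] at e
    rwa [e] at this
  · filter_upwards [mp_rt.quasiMeasurePreserving.ae Hg.hl, nn] with t ht hn k h hkh
    obtain ⟨C, hC⟩ := ht (-k) (-h) (by omega)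
    refine ⟨C, fun x => ?_⟩
    have e : ∀ w, pt (gM (-k)) (rt t) (x, -k) (w, -h) = pt (gH k) t (x, k) (w, h) := by
      intro w
      have := pt_gM_rt hn k (x, k) (w, h)
      rwa [rho_mk, rho_mk] at this
    refine ⟨fun w => ?_, ?_⟩
    · rw [← e]
      exact (hC x).1 w
    · obtain ⟨w, hw⟩ := (hC x).2
      exact ⟨w, by rw [← e]; exact hw⟩

/-- `u` is eventually in `Hm h`, with the increments of `g h` as Busemann increments. -/
def FollowsM (t : Environment) (g : ℤ → ℤ → ℝ) (h : ℤ) (u : ℕ → ℤ × ℤ) : Prop :=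
  (∃ n, ∀ m, n ≤ m → (u m).2 ≤ h) ∧ ∀ w w' : ℤ,
    Tendsto (fun m => pt (gM h) t (w', h) (u m) - pt (gM h) t (w, h) (u m)) atTop
      (𝓝 (g h w' - g h w))

theorem FollowsM.follows {t : Environment} (ht : ∀ e, 0 ≤ t e) {g : ℤ → ℤ → ℝ} {h : ℤ}
    {u : ℕ → ℤ × ℤ} (hu : FollowsM t g h u) :
    Follows (rt t) (fun k => g (-k)) (-h) fun n => rho (u n) := by
  obtain ⟨⟨n, hn⟩, hT⟩ := hu
  refine ⟨⟨n, fun m hm => ?_⟩, fun w w' => ?_⟩
  · rw [rho_snd]
    have := hn m hm
    omega
  · simp only [neg_neg]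
    refine (hT w w').congr fun m => ?_
    have e : ∀ v : ℤ, pt (gH (-h)) (rt t) (v, -h) (rho (u m)) = pt (gM h) t (v, h) (u m) := by
      intro v
      have := pt_gM_rt (rt_nonneg ht) (-h) (v, -h) (rho (u m))
      rw [rt_rt, neg_neg, rho_mk, rho_rho, neg_neg] at this
      exact this.symm
    rw [e, e]

theorem followsM_of_bus {t : Environment} (ht : ∀ e, 0 ≤ t e) {g : ℤ → ℤ → ℝ} {h : ℤ}
    {u : ℕ → ℤ × ℤ} {n : ℕ} (hn : ∀ m, n ≤ m → (u m).2 ≤ h)
    (hray : IsRay t (gM h) fun m => u (n + m))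
    (hb : ∀ w w' : ℤ, bus t (gM h) (fun m => u (n + m)) (w', h) -
      bus t (gM h) (fun m => u (n + m)) (w, h) = g h w' - g h w) : FollowsM t g h u := by
  have hr : ∀ {a b : ℤ × ℤ}, a.2 ≤ h → b.2 ≤ h → (gM h).Reachable a b := by
    intro a b ha hb
    have h1 := gH_reachable (k := -h) (x := rho a) (y := rho b)
      (by simp only [rho_snd]; omega) (by simp only [rho_snd]; omega)
    rw [← comap_gM] at h1
    obtain ⟨w⟩ := h1
    have w' := w.map (⟨rho, fun h => h⟩ : (gM h).comap rho →g gM h)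
    have e1 : (⟨rho, fun h => h⟩ : (gM h).comap rho →g gM h) (rho a) = a := rho_rho a
    have e2 : (⟨rho, fun h => h⟩ : (gM h).comap rho →g gM h) (rho b) = b := rho_rho b
    rw [e1, e2] at w'
    exact ⟨w'⟩
  refine ⟨⟨n, hn⟩, fun w w' => ?_⟩
  have h0 : (u (n + 0)).2 ≤ h := hn _ (Nat.le_add_right _ _)
  have h1 := tendsto_bus_sub ht hray (x := (w', h)) (y := (w, h)) (hr le_rfl h0) (hr le_rfl h0)
  rw [hb] at h1
  have h2 : Tendsto (fun m => pt (gM h) t (w', h) (u (m + n)) - pt (gM h) t (w, h) (u (m + n)))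
      atTop (𝓝 (g h w' - g h w)) := by
    refine h1.congr fun m => ?_
    simp only [add_comm n m]
  exact (tendsto_add_atTop_iff_nat n).1 h2

/-- **LN for a deterministic slope, lower half planes.** -/
theorem HLm.ae_coal (h0 : G (Set.Iio 0) = 0) (hat : ∀ x, G {x} = 0) (Hg : HLm G g) :
    ∀ᵐ t ∂(iidLaw G), ∀ (H H' : SimpleGraph (ℤ × ℤ)), (∃ k, gM k ≤ H) → H ≤ squareLattice →
      (∃ k, gM k ≤ H') → H' ≤ squareLattice → ∀ u u' : ℕ → ℤ × ℤ, IsRay t H u → IsRay t H' u' →
      (∀ᶠ h in atBot, FollowsM t (fam g t) h u) → (∀ᶠ h in atBot, FollowsM t (fam g t) h u') →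
      Coal u u' := by
  have h1 := mp_rt.quasiMeasurePreserving.ae ((Hg.toHL h0).ae_coal h0 hat)
  filter_upwards [h1, K.ae_Nn (G := G) h0] with t ht hn H H' ⟨k, hk⟩ hH ⟨k', hk'⟩ hH' u u' hu hu'
    hf hf'
  have key := ht (H.comap rho) (H'.comap rho)
    ⟨-k, by rw [← comap_gM]; exact comap_rho_mono hk⟩
    (by rw [← comap_rho_lat]; exact comap_rho_mono hH)
    ⟨-k', by rw [← comap_gM]; exact comap_rho_mono hk'⟩
    (by rw [← comap_rho_lat]; exact comap_rho_mono hH')
    (fun n => rho (u n)) (fun n => rho (u' n)) (isRay_rho hn hu) (isRay_rho hn hu')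
  have conv : ∀ v : ℕ → ℤ × ℤ, (∀ᶠ h in atBot, FollowsM t (fam g t) h v) →
      ∀ᶠ h in atTop, Follows (rt t) (fam (fun k t x => g (-k) (rt t) x) (rt t)) h
        fun n => rho (v n) := by
    intro v hv
    have h2 := tendsto_neg_atTop_atBot.eventually hv
    refine h2.mono fun h hh => ?_
    have := hh.follows hn
    rw [neg_neg] at this
    have e : fam (fun k t x => g (-k) (rt t) x) (rt t) = fun k => fam g t (-k) := by
      funext k x
      show g (-k) (rt (rt t)) x = g (-k) t x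
      rw [rt_rt]
    rw [e]
    exact this
  obtain ⟨i, j, hij⟩ := key (conv u hf) (conv u' hf')
  refine ⟨i, j, fun m => ?_⟩
  have := congrArg rho (hij m)
  simpa using this

/-- uniqueness, lower half planes -/
theorem HLm.ae_unique (h0 : G (Set.Iio 0) = 0) (hat : ∀ x, G {x} = 0) (Hg : HLm G g) :
    ∀ᵐ t ∂(iidLaw G), ∀ (H : SimpleGraph (ℤ × ℤ)), (∃ k, gM k ≤ H) → H ≤ squareLattice →
      ∀ u u' : ℕ → ℤ × ℤ, IsRay t H u → IsRay t H u' →
      (∀ᶠ h in atBot, FollowsM t (fam g t) h u) → (∀ᶠ h in atBot, FollowsM t (fam g t) h u') →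
      u 0 = u' 0 → u = u' := by
  filter_upwards [Hg.ae_coal h0 hat, ae_nice (G := G) h0 hat] with t h1 h2 H a b u u' hu hu' g g' e
  have hc := h1 H H a b a b u u' hu hu' g g'
  funext n
  have := IsRay.coal_from h2.nt h2.nonneg hu hu' hc e n
  simpa using this

end Crest.Agent.R151.D624
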