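import Crest.Agent.R151.E191G

/-!
# R151 / S0214 part 2, E191H — facts on the typical set of the A-rows (owner helper191)

`grid_up`, `grid_down` (rounding), `TSA_sub_posS`, `TSA_sub_D/G/J/K/Lo/Up`, `meas_ob`, `inv_ob`,
`measurableSet_TSA`, `sInv_TSA`, `measurableSet_TSA_mB`, `TOK_TSA`, `typA_eq`, Ev form `ev_TOK`.
-/

set_option autoImplicit false
set_option linter.unusedSectionVars false

open MeasureTheory Filter ProbabilityTheory Topology Set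
open Crest.ProbabilityR.FirstPassage
open Crest.Agent.R151.K Crest.Agent.R151.Q

namespace Crest.Agent.R151.NF

open B710 (FlatData)
open M56 (mg one_le_mg)

variable {μ : ℝ × ℝ → ℝ} {G : Measure ℝ} {F : FlatData μ} {w0 c0 K : ℝ} {p : Num}

/-! ### The grid -/

lemma gr_zero (p : Num) : p.gr 0 = 0 := by simp [Num.gr]

lemma Mg_nonneg (hp : p.Std) : 0 ≤ p.Mg := by
  have h1 := hp.δ_pos
  have h2 := hp.e_pos
  have h3 := hp.v
  unfold Num.Mg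
  apply Int.ceil_nonneg
  have : 0 ≤ 1 / p.e := by positivity
  exact div_nonneg (by linarith) (by linarith)

lemma zero_mem_grid (hp : p.Std) : (0 : ℤ) ∈ Finset.Icc (-p.Mg) p.Mg := by
  have := Mg_nonneg hp
  simp only [Finset.mem_Icc]
  omega

/-- rounding up -/
lemma grid_up (hp : p.Std) {z : ℝ} (hz : |z| ≤ (p.v + 1 / p.e + 4) * p.W) :
    ∃ i ∈ Finset.Icc (-p.Mg) p.Mg, z ≤ p.gr i ∧ p.gr i ≤ z + p.δ / 128 * p.W := by
  have hδ := hp.δ_pos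
  have hW : 0 < p.W := zero_lt_one.trans_le hp.W
  set s := p.δ / 128 * p.W with hs
  have hs0 : 0 < s := by positivity
  have hb : |z / s| ≤ (p.v + 1 / p.e + 4) / (p.δ / 128) := by
    rw [abs_div, abs_of_pos hs0, div_le_div_iff₀ hs0 (by positivity)]
    calc |z| * (p.δ / 128) ≤ (p.v + 1 / p.e + 4) * p.W * (p.δ / 128) :=
          mul_le_mul_of_nonneg_right hz (by positivity)
      _ = (p.v + 1 / p.e + 4) * s := by rw [hs]; ring
  have hM : |z / s| ≤ (p.Mg : ℝ) := hb.trans (Int.le_ceil _)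
  rw [abs_le] at hM
  refine ⟨⌈z / s⌉, ?_, ?_, ?_⟩
  · rw [Finset.mem_Icc]
    constructor
    · have h1 : ((-p.Mg : ℤ) : ℝ) ≤ z / s := by push_cast; exact hM.1
      have h2 := h1.trans (Int.le_ceil (z / s))
      exact_mod_cast h2
    · exact Int.ceil_le.2 hM.2
  · have := Int.le_ceil (z / s)
    rw [div_le_iff₀ hs0] at this
    exact this
  · have := (Int.ceil_lt_add_one (z / s)).le
    calc p.gr ⌈z / s⌉ = (⌈z / s⌉ : ℝ) * s := rfl
      _ ≤ (z / s + 1) * s := mul_le_mul_of_nonneg_right this hs0.le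
      _ = z + s := by field_simp

/-- rounding down -/
lemma grid_down (hp : p.Std) {z : ℝ} (hz : |z| ≤ (p.v + 1 / p.e + 4) * p.W) :
    ∃ i ∈ Finset.Icc (-p.Mg) p.Mg, z - p.δ / 128 * p.W ≤ p.gr i ∧ p.gr i ≤ z := by
  obtain ⟨i, hi, h1, h2⟩ := grid_up hp (z := -z) (by rwa [abs_neg])
  refine ⟨-i, ?_, ?_, ?_⟩
  · simp only [Finset.mem_Icc] at hi ⊢
    omega
  · have : p.gr (-i) = -p.gr i := by simp [Num.gr]
    rw [this]; linarith
  · have : p.gr (-i) = -p.gr i := by simp [Num.gr]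
    rw [this]; linarith

lemma gr_abs (hp : p.Std) {i : ℤ} (hi : i ∈ Finset.Icc (-p.Mg) p.Mg) :
    |p.gr i| ≤ (p.v + 1 / p.e + 5) * p.W := by
  have hδ := hp.δ_pos
  have hδ1 := hp.δ_le
  have hW : 0 < p.W := zero_lt_one.trans_le hp.W
  have he := hp.e_pos
  have h1 : |(i : ℝ)| ≤ (p.v + 1 / p.e + 4) / (p.δ / 128) + 1 := by
    have h2 : (p.Mg : ℝ) ≤ (p.v + 1 / p.e + 4) / (p.δ / 128) + 1 := (Int.ceil_lt_add_one _).le
    simp only [Finset.mem_Icc] at hi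
    rw [abs_le]
    constructor
    · have : (-(p.Mg : ℝ)) ≤ i := by exact_mod_cast hi.1
      linarith
    · have : (i : ℝ) ≤ p.Mg := by exact_mod_cast hi.2
      linarith
  unfold Num.gr
  rw [abs_mul, abs_of_pos (show 0 < p.δ / 128 * p.W by positivity)]
  calc |(i : ℝ)| * (p.δ / 128 * p.W)
      ≤ ((p.v + 1 / p.e + 4) / (p.δ / 128) + 1) * (p.δ / 128 * p.W) :=
        mul_le_mul_of_nonneg_right h1 (by positivity)
    _ = (p.v + 1 / p.e + 4) * p.W + p.δ / 128 * p.W := by field_simp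
    _ ≤ _ := by nlinarith

namespace Cf

variable {c : Cf G F w0 c0 K p}

/-! ### Measurability and invariance of the observables -/

lemma meas_ob (hρ : Measurable (c.rho (c.yA • F.b))) (k : Fin 6 × (ℤ × ℤ)) : (c.ob k).Meas := by
  obtain ⟨k, i, j⟩ := k
  fin_cases k
  · exact meas_obD _ _ _
  · exact meas_obG _ _ _ _ hρ
  · exact meas_obJ _ _ _ _ _
  · exact meas_obK _ _ _ _ _ _
  · exact meas_obLo _ _ _ _ _ _ _ _
  · exact meas_obUp _ _ _ _ _ _ _ _ _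

lemma inv_ob (hρ : ∀ φ, Inv fun θ t => c.rho (c.yA • F.b) ((θ, t), φ)) (k : Fin 6 × (ℤ × ℤ)) :
    (c.ob k).Iv := by
  obtain ⟨k, i, j⟩ := k
  fin_cases k
  · exact inv_obD _ _ _
  · exact inv_obG _ _ _ _ hρ
  · exact inv_obJ _ _ _ _ _
  · exact inv_obK _ _ _ _ _ _
  · exact inv_obLo _ _ _ _ _ _ _ _
  · exact inv_obUp _ _ _ _ _ _ _ _ _

variable [IsProbabilityMeasure G]

/-! ### Inclusions -/

lemma TSA_sub_posS : c.TSA ⊆ V.posS c.h (c.yA • F.b) := V.TSet_subset_posS _ _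

lemma TSA_sub {k : Fin 6 × (ℤ × ℤ)} (hk : k ∈ p.idx) :
    c.TSA ⊆ V.typ G (V.E0 c.h (c.yA • F.b)) PF (NS (c.ob k) (c.thr k)) (p.e ^ 2) :=
  V.TSet_subset_typ _ _ hk

lemma mem_idx {k : Fin 6} {i j : ℤ} (hi : i ∈ Finset.Icc (-p.Mg) p.Mg)
    (hj : j ∈ Finset.Icc (-p.Mg) p.Mg) : (k, i, j) ∈ p.idx := by
  unfold Num.idx
  exact Finset.mem_product.2 ⟨Finset.mem_univ _, Finset.mem_product.2 ⟨hi, hj⟩⟩

lemma TSA_sub_D (hp : p.Std) : c.TSA ⊆ V.typ G (V.E0 c.h (c.yA • F.b)) PF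
    (NS (obD F (c.y / 2) c.g (p.Nb F)) (p.e ^ 2 * p.W)) (p.e ^ 2) :=
  TSA_sub (c := c) (k := (0, 0, 0)) (mem_idx (zero_mem_grid hp) (zero_mem_grid hp))

lemma TSA_sub_G (hp : p.Std) : c.TSA ⊆ V.typ G (V.E0 c.h (c.yA • F.b)) PF
    (NS (obG c.h (c.y / 2) c.g c.L (c.rho (c.yA • F.b))) (p.e ^ 2 * c.l)) (p.e ^ 2) :=
  TSA_sub (c := c) (k := (1, 0, 0)) (mem_idx (zero_mem_grid hp) (zero_mem_grid hp))

lemma TSA_sub_J (hp : p.Std) : c.TSA ⊆ V.typ G (V.E0 c.h (c.yA • F.b)) PF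
    (NS (obJ c.h (c.y / 2) c.g c.lam c.L) (p.e ^ 2 * c.l)) (p.e ^ 2) :=
  TSA_sub (c := c) (k := (2, 0, 0)) (mem_idx (zero_mem_grid hp) (zero_mem_grid hp))

lemma TSA_sub_K (hp : p.Std) {i : ℤ} (hi : i ∈ Finset.Icc (-p.Mg) p.Mg) :
    c.TSA ⊆ V.typ G (V.E0 c.h (c.yA • F.b)) PF
      (NS (obK c.h (c.y / 2) c.g (p.gr i) c.lam c.L) (p.e ^ 2 * c.l)) (p.e ^ 2) :=
  TSA_sub (c := c) (k := (3, i, 0)) (mem_idx hi (zero_mem_grid hp))

lemma TSA_sub_Lo {i j : ℤ} (hi : i ∈ Finset.Icc (-p.Mg) p.Mg)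
    (hj : j ∈ Finset.Icc (-p.Mg) p.Mg) : c.TSA ⊆ V.typ G (V.E0 c.h (c.yA • F.b)) PF
      (NS (fLo c c.g (p.gr i) (p.gr j) p.zf) (p.e ^ 2 * c.l)) (p.e ^ 2) :=
  TSA_sub (c := c) (k := (4, i, j)) (mem_idx hi hj)

lemma TSA_sub_Up {i j : ℤ} (hi : i ∈ Finset.Icc (-p.Mg) p.Mg)
    (hj : j ∈ Finset.Icc (-p.Mg) p.Mg) : c.TSA ⊆ V.typ G (V.E0 c.h (c.yA • F.b)) PF
      (NS (fUp c (c.y / 2) c.g (p.gr i) (p.gr j) p.zf) (p.e ^ 2 * c.l)) (p.e ^ 2) :=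
  TSA_sub (c := c) (k := (5, i, j)) (mem_idx hi hj)

/-! ### Measurability -/

lemma measurableSet_TSA (hρ : Measurable (c.rho (c.yA • F.b))) : MeasurableSet c.TSA :=
  V.measurableSet_TSet _ _ fun k _ => measurableSet_NS (meas_ob hρ k) _

lemma sInv_TSA : V.SInv (V.E0 c.h (c.yA • F.b)) c.TSA := V.sInv_TSet _ _

lemma measurableSet_TSA_mB (hd : c.h.wH < F.be (c.yA • F.b))
    (hρ : Measurable (c.rho (c.yA • F.b)))
    (hρi : ∀ φ, Inv fun θ t => c.rho (c.yA • F.b) ((θ, t), φ)) :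
    MeasurableSet[M192.mB c.h (c.yA • F.b)] c.TSA :=
  V.measurableSet_TSet_mB _ _ hd (fun k _ => measurableSet_NS (meas_ob hρ k) _)
    fun k _ ω φ => inv_NS (inv_ob hρi k) _ ω φ

/-- the typical set and the gauge satisfy `E191.TOK` -/
lemma TOK_TSA (hd : c.h.wH < F.be (c.yA • F.b)) (h : c.IsRho (c.yA • F.b) (c.rho (c.yA • F.b))) :
    E191.TOK c.h (c.yA • F.b) c.TSA (c.rho (c.yA • F.b)) where
  TS_meas := measurableSet_TSA h.meas
  TS_mB := measurableSet_TSA_mB hd h.meas h.inv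
  TS_sinv := sInv_TSA
  ρ_meas := h.meas
  ρ_cs := h.glue
  ρ_inv := h.inv

lemma typA_eq : c.typA = E191.trow c.h (c.yA • F.b) c.L c.TSA (c.rho (c.yA • F.b))
    (p.e ^ 2 * c.l) := rfl

lemma typA_sub : c.typA ⊆ c.TSA := inter_subset_left

end Cf

/-- the gauge of the A-rows -/
theorem ev_rhoA [IsProbabilityMeasure G] (h0 : G (Iio 0) = 0)
    (h2 : Integrable (fun x : ℝ => x ^ 2) G) (hμ : IsTC G μ) :
    Ev fun p => ∀ c : Cf G F w0 c0 K p, c.IsRho (c.yA • F.b) (c.rho (c.yA • F.b)) := by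
  refine ((rho_spec (F := F) (w0 := w0) (c0 := c0) (K := K) h0 h2 hμ).and
    (ev_lens (G := G) (F := F) (w0 := w0) (c0 := c0) (K := K))).mono ?_
  rintro p ⟨h, hl⟩ c
  exact h c (c.y / 2) c.g (Cf.htA (hl c).toC)

/-- **facts on the typical set** -/
theorem ev_TOK [IsProbabilityMeasure G] (h0 : G (Iio 0) = 0)
    (h2 : Integrable (fun x : ℝ => x ^ 2) G) (hμ : IsTC G μ) :
    Ev fun p => ∀ c : Cf G F w0 c0 K p,
      E191.TOK c.h (c.yA • F.b) c.TSA (c.rho (c.yA • F.b)) ∧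
        c.IsRho (c.yA • F.b) (c.rho (c.yA • F.b)) := by
  refine ((ev_rhoA (F := F) (w0 := w0) (c0 := c0) (K := K) h0 h2 hμ).and
    (ev_lens (G := G) (F := F) (w0 := w0) (c0 := c0) (K := K))).mono ?_
  rintro p ⟨h, hl⟩ c
  have hl := hl c
  obtain ⟨r1, -, -, -, -⟩ := hl.row (Cf.htA hl.toC)
  have h1 := M56.one_le_mg F
  exact ⟨Cf.TOK_TSA (by rw [← Cf.dOA]; linarith) (h c), h c⟩

end Crest.Agent.R151.NF
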