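import Mathlib
import Crest.Prelude.Def_PlanarFPP

/-!
# R151, block E39a (helper39): resampling toolbox for product measures

`glue B s t` = the configuration `s` on `B`, `t` off `B`.
-/

set_option autoImplicit false
set_option linter.unusedSectionVars false

open MeasureTheory ProbabilityTheory Set Filter
open scoped ENNReal Topology

namespace Crest.Agent.R151.E39

variable {I X : Type*} [MeasurableSpace X]

/-- `s` on `B`, `t` off `B` -/
noncomputable def glue (B : Set I) (s t : I → X) : I → X := by
  classical exact fun i => if i ∈ B then s i else t i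

lemma glue_of_mem {B : Set I} {s t : I → X} {i : I} (h : i ∈ B) : glue B s t i = s i := by
  simp [glue, h]

lemma glue_of_notMem {B : Set I} {s t : I → X} {i : I} (h : i ∉ B) : glue B s t i = t i := by
  simp [glue, h]

lemma glue_self (B : Set I) (t : I → X) : glue B t t = t := by
  funext i
  by_cases h : i ∈ B
  · rw [glue_of_mem h]
  · rw [glue_of_notMem h]

lemma glue_empty (s t : I → X) : glue ∅ s t = t := by
  funext i
  exact glue_of_notMem (by simp)

lemma glue_univ (s t : I → X) : glue univ s t = s := by
  funext i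
  exact glue_of_mem (by simp)

lemma glue_compl (B : Set I) (s t : I → X) : glue Bᶜ s t = glue B t s := by
  funext i
  by_cases h : i ∈ B
  · rw [glue_of_mem h, glue_of_notMem (by simpa using h)]
  · rw [glue_of_notMem h, glue_of_mem (by simpa using h)]

lemma glue_glue_left (B : Set I) (s t u : I → X) : glue B (glue B s t) u = glue B s u := by
  funext i
  by_cases h : i ∈ B
  · simp [glue_of_mem h]
  · simp [glue_of_notMem h]

lemma glue_glue_right (B : Set I) (s t u : I → X) : glue B s (glue B t u) = glue B s u := by
  funext i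
  by_cases h : i ∈ B
  · simp [glue_of_mem h]
  · simp [glue_of_notMem h]

/-- gluing on two sets -/
lemma glue_union (B C : Set I) (s t u : I → X) :
    glue (B ∪ C) (glue B s t) u = glue B s (glue C t u) := by
  funext i
  by_cases h : i ∈ B
  · rw [glue_of_mem (B := B ∪ C) (Or.inl h), glue_of_mem h, glue_of_mem h]
  · by_cases h' : i ∈ C
    · rw [glue_of_mem (B := B ∪ C) (Or.inr h'), glue_of_notMem h, glue_of_notMem h, glue_of_mem h']
    · rw [glue_of_notMem (B := B ∪ C) (by simp [h, h']), glue_of_notMem h, glue_of_notMem h']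

lemma dependsOn_glue {α : Type*} {f : (I → X) → α} {S B : Set I} (hf : DependsOn f S)
    (s t : I → X) (h : Disjoint S B) : f (glue B s t) = f t :=
  hf fun _ hi => glue_of_notMem (Set.disjoint_left.1 h hi)

lemma dependsOn_glue' {α : Type*} {f : (I → X) → α} {S B : Set I} (hf : DependsOn f S)
    (s t : I → X) (h : S ⊆ B) : f (glue B s t) = f s :=
  hf fun _ hi => glue_of_mem (h hi)

@[fun_prop]
lemma measurable_glue (B : Set I) :
    Measurable (fun p : (I → X) × (I → X) => glue B p.1 p.2) := by
  refine measurable_pi_lambda _ fun i => ?_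
  by_cases h : i ∈ B
  · have : (fun p : (I → X) × (I → X) => glue B p.1 p.2 i) = fun p => p.1 i := by
      funext p; exact glue_of_mem h
    rw [this]
    exact (measurable_pi_apply i).comp measurable_fst
  · have : (fun p : (I → X) × (I → X) => glue B p.1 p.2 i) = fun p => p.2 i := by
      funext p; exact glue_of_notMem h
    rw [this]
    exact (measurable_pi_apply i).comp measurable_snd

lemma measurable_glue_left (B : Set I) (t : I → X) : Measurable (fun s : I → X => glue B s t) :=
  (measurable_glue B).comp (measurable_id.prodMk measurable_const)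

lemma measurable_glue_right (B : Set I) (s : I → X) : Measurable (fun t : I → X => glue B s t) :=
  (measurable_glue B).comp (measurable_const.prodMk measurable_id)

section Prob

variable (G : Measure X) [IsProbabilityMeasure G]

local notation "ℙ" => (Measure.infinitePi fun _ : I => G)

/-- resampling a set of coordinates preserves the product measure -/
lemma mp_glue (B : Set I) :
    MeasurePreserving (fun p : (I → X) × (I → X) => glue B p.1 p.2)
      ((Measure.infinitePi fun _ : I => G).prod (Measure.infinitePi fun _ : I => G))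
      (Measure.infinitePi fun _ : I => G) := by
  classical
  refine ⟨measurable_glue B, ?_⟩
  apply Measure.eq_infinitePi
  intro s t ht
  rw [Measure.map_apply (measurable_glue B) (MeasurableSet.pi s.countable_toSet fun i _ => ht i)]
  have : (fun p : (I → X) × (I → X) => glue B p.1 p.2) ⁻¹' (Set.pi s t) =
      (Set.pi (s.filter (· ∈ B)) t) ×ˢ (Set.pi (s.filter (· ∉ B)) t) := by
    ext ⟨x, u⟩
    simp only [mem_preimage, Set.mem_pi, SetLike.mem_coe, mem_prod, Finset.mem_filter]
    constructor
    · intro h
      refine ⟨fun i hi => ?_, fun i hi => ?_⟩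
      · have := h i hi.1
        rwa [glue_of_mem hi.2] at this
      · have := h i hi.1
        rwa [glue_of_notMem hi.2] at this
    · rintro ⟨h1, h2⟩ i hi
      by_cases hb : i ∈ B
      · rw [glue_of_mem hb]; exact h1 i ⟨hi, hb⟩
      · rw [glue_of_notMem hb]; exact h2 i ⟨hi, hb⟩
  rw [this, Measure.prod_prod, Measure.infinitePi_pi _ (fun i _ => ht i),
    Measure.infinitePi_pi _ (fun i _ => ht i), Finset.prod_filter_mul_prod_filter_not]

/-- integration of a function of the glued configuration -/
lemma lintegral_glue (B : Set I) {F : (I → X) → ℝ≥0∞} (hF : Measurable F) :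
    ∫⁻ t, F t ∂(Measure.infinitePi fun _ : I => G) =
      ∫⁻ t, ∫⁻ s, F (glue B s t) ∂(Measure.infinitePi fun _ : I => G)
        ∂(Measure.infinitePi fun _ : I => G) := by
  rw [← (mp_glue G B).lintegral_comp hF]
  rw [lintegral_prod_symm']
  exact hF.comp (measurable_glue B)

lemma lintegral_glue' (B : Set I) {F : (I → X) → ℝ≥0∞} (hF : Measurable F) :
    ∫⁻ t, F t ∂(Measure.infinitePi fun _ : I => G) =
      ∫⁻ s, ∫⁻ t, F (glue B s t) ∂(Measure.infinitePi fun _ : I => G)
        ∂(Measure.infinitePi fun _ : I => G) := by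
  rw [← (mp_glue G B).lintegral_comp hF]
  rw [lintegral_prod]
  exact (hF.comp (measurable_glue B)).aemeasurable

/-- almost sure properties survive for almost every resampling -/
lemma ae_glue (B : Set I) {p : (I → X) → Prop}
    (hp : ∀ᵐ t ∂(Measure.infinitePi fun _ : I => G), p t) :
    ∀ᵐ t ∂(Measure.infinitePi fun _ : I => G), ∀ᵐ s ∂(Measure.infinitePi fun _ : I => G),
      p (glue B s t) := by
  have h := (mp_glue G B).quasiMeasurePreserving.ae hp
  have h2 := (Measure.measurePreserving_swap (μ := Measure.infinitePi fun _ : I => G)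
    (ν := Measure.infinitePi fun _ : I => G)).quasiMeasurePreserving.ae h
  exact Measure.ae_ae_of_ae_prod h2

lemma ae_glue' (B : Set I) {p : (I → X) → Prop}
    (hp : ∀ᵐ t ∂(Measure.infinitePi fun _ : I => G), p t) :
    ∀ᵐ s ∂(Measure.infinitePi fun _ : I => G), ∀ᵐ t ∂(Measure.infinitePi fun _ : I => G),
      p (glue B s t) :=
  Measure.ae_ae_of_ae_prod ((mp_glue G B).quasiMeasurePreserving.ae hp)

/-- **Modification inequality** (no measurability needed): if every configuration of `A`, modified
on `B` by any configuration of `g`, lies in `A'`, then `P(A) P(g) ≤ P(A')`. -/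
lemma modify (B : Set I) (A A' g : Set (I → X)) (h : ∀ t ∈ A, ∀ s ∈ g, glue B s t ∈ A') :
    (Measure.infinitePi fun _ : I => G) g * (Measure.infinitePi fun _ : I => G) A ≤
      (Measure.infinitePi fun _ : I => G) A' := by
  set P := (Measure.infinitePi fun _ : I => G)
  calc P g * P A = (P.prod P) (g ×ˢ A) := (Measure.prod_prod g A).symm
    _ ≤ (P.prod P) ((fun p : (I → X) × (I → X) => glue B p.1 p.2) ⁻¹' (toMeasurable P A')) := by
        refine measure_mono ?_
        rintro ⟨s, t⟩ ⟨hs, ht⟩
        exact subset_toMeasurable P A' (h t ht s hs)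
    _ = P (toMeasurable P A') := (mp_glue G B).measure_preimage
        (measurableSet_toMeasurable P A').nullMeasurableSet
    _ = P A' := measure_toMeasurable A'

/-- modification with a set of good configurations that depends on the old configuration -/
lemma modify_dep (B : Set I) {A A' : Set (I → X)} {S : Set ((I → X) × (I → X))}
    (hS : MeasurableSet S) (hA : MeasurableSet A) {q : ℝ≥0∞}
    (hq : ∀ t ∈ A, q ≤ (Measure.infinitePi fun _ : I => G) {s | (s, t) ∈ S})
    (h : ∀ s t, t ∈ A → (s, t) ∈ S → glue B s t ∈ A') :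
    q * (Measure.infinitePi fun _ : I => G) A ≤ (Measure.infinitePi fun _ : I => G) A' := by
  set P := (Measure.infinitePi fun _ : I => G)
  have hSA : MeasurableSet (S ∩ Prod.snd ⁻¹' A) := hS.inter (measurable_snd hA)
  calc q * P A = ∫⁻ _ in A, q ∂P := by rw [setLIntegral_const]
    _ ≤ ∫⁻ t in A, P {s | (s, t) ∈ S} ∂P := by
        refine setLIntegral_mono' hA fun t ht => hq t ht
    _ = ∫⁻ t, A.indicator (fun t => P {s | (s, t) ∈ S}) t ∂P := (lintegral_indicator hA _).symm
    _ = ∫⁻ t, P ((fun s => (s, t)) ⁻¹' (S ∩ Prod.snd ⁻¹' A)) ∂P := by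
        refine lintegral_congr fun t => ?_
        by_cases ht : t ∈ A
        · rw [indicator_of_mem ht]
          congr 1
          ext s
          simp [ht]
        · rw [indicator_of_notMem ht]
          have : ((fun s => (s, t)) ⁻¹' (S ∩ Prod.snd ⁻¹' A)) = ∅ := by
            ext s
            simp [ht]
          rw [this, measure_empty]
    _ = (P.prod P) (S ∩ Prod.snd ⁻¹' A) := (Measure.prod_apply_symm hSA).symm
    _ ≤ (P.prod P) ((fun p : (I → X) × (I → X) => glue B p.1 p.2) ⁻¹' (toMeasurable P A')) := by
        refine measure_mono ?_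
        rintro ⟨s, t⟩ ⟨hs, ht⟩
        exact subset_toMeasurable P A' (h s t ht hs)
    _ = P (toMeasurable P A') := (mp_glue G B).measure_preimage
        (measurableSet_toMeasurable P A').nullMeasurableSet
    _ = P A' := measure_toMeasurable A'

/-- **Modification inequality, counting form**: a countable family of positions `x`, each with its
own set `B x` of coordinates to be resampled and set `g x` of good values, `P (g x) ≥ q`:
`q · E #{x : A x} ≤ E #{x : A' x}`. -/
lemma modify_tsum {ι : Type*} (B : ι → Set I) (A A' g : ι → Set (I → X)) {q : ℝ≥0∞}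
    (hq : ∀ x, q ≤ (Measure.infinitePi fun _ : I => G) (g x))
    (h : ∀ x, ∀ t ∈ A x, ∀ s ∈ g x, glue (B x) s t ∈ A' x) :
    q * ∑' x, (Measure.infinitePi fun _ : I => G) (A x) ≤
      ∑' x, (Measure.infinitePi fun _ : I => G) (A' x) := by
  rw [← ENNReal.tsum_mul_left]
  refine ENNReal.tsum_le_tsum fun x => ?_
  exact (mul_le_mul_left (hq x) _).trans (modify G (B x) (A x) (A' x) (g x) (h x))

/-- finite-sum version -/
lemma modify_sum {ι : Type*} (F : Finset ι) (B : ι → Set I) (A A' g : ι → Set (I → X)) {q : ℝ≥0∞}
    (hq : ∀ x ∈ F, q ≤ (Measure.infinitePi fun _ : I => G) (g x))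
    (h : ∀ x ∈ F, ∀ t ∈ A x, ∀ s ∈ g x, glue (B x) s t ∈ A' x) :
    q * ∑ x ∈ F, (Measure.infinitePi fun _ : I => G) (A x) ≤
      ∑ x ∈ F, (Measure.infinitePi fun _ : I => G) (A' x) := by
  rw [Finset.mul_sum]
  refine Finset.sum_le_sum fun x hx => ?_
  exact (mul_le_mul_left (hq x hx) _).trans (modify G (B x) (A x) (A' x) (g x) (h x hx))

/-- **Modification, conditional on the coordinates outside `L`**: `B x ⊆ L`; the set of positions
and the multiplicity bound may depend on the coordinates off `L` (fixed configuration `u`). -/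
lemma modify_fix (L : Set I) (u : I → X) (B : Set I) (hBL : B ⊆ L) (A A' g : Set (I → X))
    (h : ∀ t, glue L t u ∈ A → ∀ s ∈ g, glue B s (glue L t u) ∈ A') :
    (Measure.infinitePi fun _ : I => G) g *
      (Measure.infinitePi fun _ : I => G) {t | glue L t u ∈ A} ≤
      (Measure.infinitePi fun _ : I => G) {t | glue L t u ∈ A'} := by
  refine modify G B _ _ g fun t ht s hs => ?_
  have : glue L (glue B s t) u = glue B s (glue L t u) := by
    funext i
    by_cases hb : i ∈ B
    · rw [glue_of_mem (hBL hb), glue_of_mem hb, glue_of_mem hb]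
    · by_cases hl : i ∈ L
      · rw [glue_of_mem hl, glue_of_notMem hb, glue_of_notMem hb, glue_of_mem hl]
      · rw [glue_of_notMem hl, glue_of_notMem hb, glue_of_notMem hl]
  show glue L (glue B s t) u ∈ A'
  rw [this]
  exact h t ht s hs

/-- the probability that finitely many coordinates lie in prescribed sets -/
lemma prob_box (F : Finset I) (D : I → Set X) (hD : ∀ i ∈ F, MeasurableSet (D i)) :
    (Measure.infinitePi fun _ : I => G) {s | ∀ i ∈ F, s i ∈ D i} = ∏ i ∈ F, G (D i) := by
  have : {s : I → X | ∀ i ∈ F, s i ∈ D i} = Set.pi F D := by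
    ext s; simp [Set.mem_pi]
  rw [this, Measure.infinitePi_pi _ hD]

lemma prob_box_pos (F : Finset I) (D : I → Set X) (hD : ∀ i ∈ F, MeasurableSet (D i))
    (hpos : ∀ i ∈ F, G (D i) ≠ 0) :
    0 < (Measure.infinitePi fun _ : I => G) {s | ∀ i ∈ F, s i ∈ D i} := by
  rw [prob_box G F D hD]
  exact pos_iff_ne_zero.2 (Finset.prod_ne_zero_iff.2 hpos)

/-- two families of good values: a lower bound depending only on the number of coordinates -/
lemma prob_box_two (F F' : Finset I) (hFF : Disjoint F F') (D D' : Set X) (hD : MeasurableSet D)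
    (hD' : MeasurableSet D') :
    (Measure.infinitePi fun _ : I => G) {s | (∀ i ∈ F, s i ∈ D) ∧ ∀ i ∈ F', s i ∈ D'} =
      G D ^ F.card * G D' ^ F'.card := by
  classical
  have h1 : {s : I → X | (∀ i ∈ F, s i ∈ D) ∧ ∀ i ∈ F', s i ∈ D'} =
      {s | ∀ i ∈ F ∪ F', s i ∈ (if i ∈ F then D else D')} := by
    ext s
    simp only [Set.mem_ofPred_eq, Finset.mem_union]
    constructor
    · rintro ⟨h1, h2⟩ i (hi | hi)
      · simpa [hi] using h1 i hi
      · have : i ∉ F := Finset.disjoint_right.1 hFF hi
        simpa [this] using h2 i hi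
    · intro h
      refine ⟨fun i hi => by simpa [hi] using h i (Or.inl hi), fun i hi => ?_⟩
      have : i ∉ F := Finset.disjoint_right.1 hFF hi
      simpa [this] using h i (Or.inr hi)
  rw [h1, prob_box G (F ∪ F') _ (fun i _ => by split_ifs <;> assumption),
    Finset.prod_union hFF]
  congr 1
  · rw [Finset.prod_congr rfl (fun i hi => by rw [if_pos hi]), Finset.prod_const]
  · rw [Finset.prod_congr rfl (fun i hi => by rw [if_neg (Finset.disjoint_right.1 hFF hi)]),
      Finset.prod_const]

end Prob

end Crest.Agent.R151.E39
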