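import Mathlib

/-!
# R151, SEL (helper113): measurable selection of infinite branches of a finitely branching tree

A *prefix predicate* is `g : ℕ → (ℕ → D) → Prop` where `D` is a finite alphabet, `g n w` only reads
the first `n` letters of `w` (`Cong g`) and `g (n+1) w → g n w` (`Anti g`).
`Live g n w`: the subtree above the first `n` letters of `w` is infinite.
`sel g : ℕ → D` is the lexicographically first infinite branch.
-/

set_option autoImplicit false

open MeasureTheory

namespace Crest.Agent.R151.SEL

variable {D : Type*}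

/-- `g n` only reads the first `n` letters -/
def Cong (g : ℕ → (ℕ → D) → Prop) : Prop :=
  ∀ n w w', (∀ i, i < n → w i = w' i) → g n w → g n w'

/-- prefix closed -/
def Anti (g : ℕ → (ℕ → D) → Prop) : Prop := ∀ n w, g (n + 1) w → g n w

/-- the subtree above the first `n` letters of `w` is infinite -/
def Live (g : ℕ → (ℕ → D) → Prop) (n : ℕ) (w : ℕ → D) : Prop :=
  ∀ m, n ≤ m → ∃ w', (∀ i, i < n → w' i = w i) ∧ g m w'

theorem Anti.le {g : ℕ → (ℕ → D) → Prop} (h : Anti g) {m n : ℕ} (hmn : m ≤ n) {w : ℕ → D}
    (hw : g n w) : g m w := by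
  induction n, hmn using Nat.le_induction with
  | base => exact hw
  | succ n _ ih => exact ih (h n w hw)

theorem Live.congr {g : ℕ → (ℕ → D) → Prop} {n : ℕ} {w w' : ℕ → D}
    (h : ∀ i, i < n → w i = w' i) (hw : Live g n w) : Live g n w' := by
  intro m hm
  obtain ⟨u, hu, hg⟩ := hw m hm
  exact ⟨u, fun i hi => (hu i hi).trans (h i hi), hg⟩

theorem live_congr_iff {g : ℕ → (ℕ → D) → Prop} {n : ℕ} {w w' : ℕ → D}
    (h : ∀ i, i < n → w i = w' i) : Live g n w ↔ Live g n w' :=
  ⟨fun hw => hw.congr h, fun hw => hw.congr fun i hi => (h i hi).symm⟩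

theorem Live.self {g : ℕ → (ℕ → D) → Prop} (hc : Cong g) {n : ℕ} {w : ℕ → D} (hw : Live g n w) :
    g n w := by
  obtain ⟨u, hu, hg⟩ := hw n le_rfl
  exact hc n u w hu hg

theorem live_of_forall {g : ℕ → (ℕ → D) → Prop} {w : ℕ → D} (h : ∀ n, g n w) (n : ℕ) :
    Live g n w := fun m _ => ⟨w, fun _ _ => rfl, h m⟩

theorem Live.exists_succ [Finite D] {g : ℕ → (ℕ → D) → Prop} (ha : Anti g) {n : ℕ} {w : ℕ → D}
    (hw : Live g n w) : ∃ d, Live g (n + 1) (Function.update w n d) := by
  classical
  by_contra hcon
  push Not at hcon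
  have h1 : ∀ d : D, ∃ m, n + 1 ≤ m ∧ ∀ w', (∀ i, i < n + 1 → w' i = Function.update w n d i) →
      ¬ g m w' := by
    intro d
    have := hcon d
    unfold Live at this
    push Not at this
    exact this
  choose M hM1 hM2 using h1
  cases nonempty_fintype D
  obtain ⟨N, hN⟩ : ∃ N, ∀ d, M d ≤ N := by
    refine ⟨Finset.univ.sup M, fun d => Finset.le_sup (f := M) (Finset.mem_univ d)⟩
  obtain ⟨u, hu, hg⟩ := hw (max n N) (le_max_left _ _)
  refine hM2 (u n) u ?_ (ha.le ((hN (u n)).trans (le_max_right _ _)) hg)
  intro i hi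
  rcases Nat.lt_succ_iff_lt_or_eq.1 hi with h | rfl
  · rw [Function.update_of_ne h.ne, hu i h]
  · rw [Function.update_self]

section pick

variable [Fintype D] [LinearOrder D] [Inhabited D]

/-- the least letter with property `P` -/
noncomputable def pick (P : D → Prop) : D := by
  classical
  exact if h : (Finset.univ.filter P).Nonempty then (Finset.univ.filter P).min' h else default

theorem pick_spec {P : D → Prop} (h : ∃ d, P d) : P (pick P) := by
  classical
  have h' : (Finset.univ.filter P).Nonempty := by
    obtain ⟨d, hd⟩ := h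
    exact ⟨d, by simpa using hd⟩
  unfold pick
  rw [dif_pos (by convert h')]
  have := Finset.min'_mem _ h'
  rw [Finset.mem_filter] at this
  convert this.2

theorem pick_le {P : D → Prop} {d : D} (hd : P d) : pick P ≤ d := by
  classical
  have h' : (Finset.univ.filter P).Nonempty := ⟨d, by simpa using hd⟩
  unfold pick
  rw [dif_pos (by convert h')]
  have := Finset.min'_le (Finset.univ.filter P) d (by simpa using hd)
  convert this

theorem pick_congr {P Q : D → Prop} (h : ∀ d, P d ↔ Q d) : pick P = pick Q := by
  have : P = Q := funext fun d => propext (h d)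
  rw [this]

variable [MeasurableSpace D]

theorem measurable_pick {Ω : Type*} [MeasurableSpace Ω] {P : Ω → D → Prop}
    (h : ∀ d, MeasurableSet {t | P t d}) : Measurable fun t => pick (P t) := by
  classical
  refine measurable_to_countable' fun d => ?_
  have key : (fun t => pick (P t)) ⁻¹' {d} =
      ({t | P t d} ∩ ⋂ d' : {d' : D // d' < d}, {t | P t d'}ᶜ) ∪
        ((⋂ d', {t | P t d'}ᶜ) ∩ {_t | (default : D) = d}) := by
    ext t
    simp only [Set.mem_preimage, Set.mem_singleton_iff, Set.mem_union, Set.mem_inter_iff,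
      Set.mem_setOf_eq, Set.mem_iInter, Set.mem_compl_iff, Subtype.forall]
    constructor
    · intro hd
      by_cases he : ∃ d', P t d'
      · left
        refine ⟨hd ▸ pick_spec he, fun d' hd' hP => ?_⟩
        have := pick_le hP
        rw [hd] at this
        exact absurd hd' (not_lt.2 this)
      · right
        push Not at he
        refine ⟨he, ?_⟩
        rw [← hd]
        unfold pick
        rw [dif_neg]
        rintro ⟨d', hd'⟩
        rw [Finset.mem_filter] at hd'
        exact he d' hd'.2
    · rintro (⟨h1, h2⟩ | ⟨h1, h2⟩)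
      · refine le_antisymm (pick_le h1) ?_
        by_contra hlt
        exact h2 _ (not_le.1 hlt) (pick_spec ⟨d, h1⟩)
      · rw [← h2]
        unfold pick
        rw [dif_neg]
        rintro ⟨d', hd'⟩
        rw [Finset.mem_filter] at hd'
        exact h1 d' hd'.2
  rw [key]
  refine MeasurableSet.union (MeasurableSet.inter (h d) ?_) (MeasurableSet.inter ?_ ?_)
  · exact MeasurableSet.iInter fun d' => (h d').compl
  · exact MeasurableSet.iInter fun d' => (h d').compl
  · exact MeasurableSet.const _

end pick

section sel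

variable [Fintype D] [LinearOrder D] [Inhabited D]

/-- the selected prefixes -/
noncomputable def pre (g : ℕ → (ℕ → D) → Prop) : ℕ → (ℕ → D)
  | 0 => fun _ => default
  | n + 1 => Function.update (pre g n) n
      (pick fun d => Live g (n + 1) (Function.update (pre g n) n d))

/-- the lexicographically first infinite branch -/
noncomputable def sel (g : ℕ → (ℕ → D) → Prop) (n : ℕ) : D := pre g (n + 1) n

theorem pre_eq_sel (g : ℕ → (ℕ → D) → Prop) {n i : ℕ} (hi : i < n) : pre g n i = sel g i := by
  induction n with
  | zero => omega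
  | succ n ih =>
    rcases Nat.lt_succ_iff_lt_or_eq.1 hi with h | rfl
    · rw [pre, Function.update_of_ne h.ne, ih h]
    · rfl

theorem pre_congr {g g' : ℕ → (ℕ → D) → Prop} (h : ∀ n w, g n w ↔ g' n w) (n : ℕ) :
    pre g n = pre g' n := by
  have : g = g' := funext fun n => funext fun w => propext (h n w)
  rw [this]

theorem sel_congr {g g' : ℕ → (ℕ → D) → Prop} (h : ∀ n w, g n w ↔ g' n w) : sel g = sel g' := by
  have : g = g' := funext fun n => funext fun w => propext (h n w)
  rw [this]

theorem live_pre {g : ℕ → (ℕ → D) → Prop} (ha : Anti g) {w : ℕ → D} (h : Live g 0 w) (n : ℕ) :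
    Live g n (pre g n) := by
  induction n with
  | zero => exact h.congr fun i hi => by omega
  | succ n ih =>
    rw [pre]
    exact pick_spec (P := fun d => Live g (n + 1) (Function.update (pre g n) n d))
      (ih.exists_succ ha)

theorem live_sel {g : ℕ → (ℕ → D) → Prop} (ha : Anti g) {w : ℕ → D} (h : Live g 0 w) (n : ℕ) :
    Live g n (sel g) :=
  (live_pre ha h n).congr fun _ hi => pre_eq_sel g hi

/-- König + selection: if the tree is infinite then `sel` is an infinite branch. -/
theorem sel_spec {g : ℕ → (ℕ → D) → Prop} (hc : Cong g) (ha : Anti g) {w : ℕ → D}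
    (h : Live g 0 w) (n : ℕ) : g n (sel g) := (live_sel ha h n).self hc

theorem sel_spec' {g : ℕ → (ℕ → D) → Prop} (hc : Cong g) (ha : Anti g)
    (h : ∃ w, ∀ n, g n w) (n : ℕ) : g n (sel g) := by
  obtain ⟨w, hw⟩ := h
  exact sel_spec hc ha (live_of_forall hw 0) n

/-- `sel` is lexicographically minimal. -/
theorem sel_le {g : ℕ → (ℕ → D) → Prop} {w : ℕ → D} (h : ∀ n, g n w) {n : ℕ}
    (hn : ∀ i, i < n → w i = sel g i) : sel g n ≤ w n := by
  have : sel g n = pick fun d => Live g (n + 1) (Function.update (pre g n) n d) := by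
    rw [sel, pre, Function.update_self]
  rw [this]
  apply pick_le
  refine (live_of_forall h (n + 1)).congr fun i hi => ?_
  rcases Nat.lt_succ_iff_lt_or_eq.1 hi with h | rfl
  · rw [Function.update_of_ne h.ne, hn i h, pre_eq_sel g h]
  · rw [Function.update_self]

end sel

theorem exists_branch_iff [Finite D] {g : ℕ → (ℕ → D) → Prop} (hc : Cong g) (ha : Anti g) :
    (∃ w, ∀ n, g n w) ↔ ∀ m, ∃ w, g m w := by
  classical
  constructor
  · rintro ⟨w, hw⟩ m
    exact ⟨w, hw m⟩
  · intro h
    cases nonempty_fintype D
    obtain ⟨w0, -⟩ := h 0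
    let e : D ≃ Fin (Fintype.card D) := Fintype.equivFin D
    letI : LinearOrder D := LinearOrder.lift' e e.injective
    haveI : Inhabited D := ⟨w0 0⟩
    have hl : Live g 0 w0 := fun m _ => by
      obtain ⟨w, hw⟩ := h m
      exact ⟨w, fun i hi => by omega, hw⟩
    exact ⟨sel g, sel_spec hc ha hl⟩

/-! ## measurability -/

section meas

variable {Ω : Type*} [MeasurableSpace Ω]

/-- extension of a finite word -/
def ext [Inhabited D] {m : ℕ} (u : Fin m → D) (i : ℕ) : D := if h : i < m then u ⟨i, h⟩ else default

theorem ext_of_lt [Inhabited D] {m : ℕ} (u : Fin m → D) {i : ℕ} (h : i < m) :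
    ext u i = u ⟨i, h⟩ := dif_pos h

theorem ext_restrict [Inhabited D] {m : ℕ} (w : ℕ → D) {i : ℕ} (h : i < m) :
    ext (fun j : Fin m => w j) i = w i := by
  rw [ext_of_lt _ h]

theorem live_iff [Inhabited D] {g : ℕ → (ℕ → D) → Prop} (hc : Cong g) (n : ℕ) (w : ℕ → D) :
    Live g n w ↔ ∀ m, n ≤ m → ∃ u : Fin m → D, (∀ i, i < n → ext u i = w i) ∧ g m (ext u) := by
  refine forall_congr' fun m => forall_congr' fun hm => ⟨?_, ?_⟩
  · rintro ⟨w', h1, h2⟩
    refine ⟨fun j => w' j, fun i hi => ?_, hc m w' _ (fun i hi => (ext_restrict w' hi).symm) h2⟩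
    rw [ext_restrict w' (hi.trans_le hm), h1 i hi]
  · rintro ⟨u, h1, h2⟩
    exact ⟨ext u, h1, h2⟩

variable {G : Ω → ℕ → (ℕ → D) → Prop}

theorem measurableSet_live [Finite D] (hc : ∀ t, Cong (G t))
    (hm : ∀ n w, MeasurableSet {t | G t n w}) (n : ℕ) (w : ℕ → D) :
    MeasurableSet {t | Live (G t) n w} := by
  classical
  by_cases hD : Nonempty D
  swap
  · exact absurd ⟨w 0⟩ hD
  haveI : Inhabited D := ⟨w 0⟩
  have key : {t | Live (G t) n w} = ⋂ m, ⋂ (_ : n ≤ m), ⋃ u : Fin m → D,
      {_t | ∀ i, i < n → ext u i = w i} ∩ {t | G t m (ext u)} := by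
    ext t
    simp only [Set.mem_setOf_eq, Set.mem_iInter, Set.mem_iUnion, Set.mem_inter_iff]
    exact live_iff (hc t) n w
  rw [key]
  refine MeasurableSet.iInter fun m => MeasurableSet.iInter fun _ => MeasurableSet.iUnion fun u =>
    MeasurableSet.inter (MeasurableSet.const _) (hm m _)

theorem measurableSet_exists_branch [Finite D] (hc : ∀ t, Cong (G t)) (ha : ∀ t, Anti (G t))
    (hm : ∀ n w, MeasurableSet {t | G t n w}) : MeasurableSet {t | ∃ w, ∀ n, G t n w} := by
  classical
  by_cases hD : Nonempty D
  swap
  · have : {t | ∃ w, ∀ n, G t n w} = (∅ : Set Ω) := by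
      ext t
      simp only [Set.mem_setOf_eq, Set.mem_empty_iff_false, iff_false, not_exists]
      intro w
      exact absurd ⟨w 0⟩ hD
    rw [this]
    exact MeasurableSet.empty
  obtain ⟨d⟩ := hD
  have key : {t | ∃ w, ∀ n, G t n w} = {t | Live (G t) 0 fun _ => d} := by
    ext t
    simp only [Set.mem_setOf_eq]
    rw [exists_branch_iff (hc t) (ha t)]
    constructor
    · intro h m _
      obtain ⟨w, hw⟩ := h m
      exact ⟨w, fun i hi => by omega, hw⟩
    · intro h m
      obtain ⟨w, -, hw⟩ := h m (Nat.zero_le m)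
      exact ⟨w, hw⟩
  rw [key]
  exact measurableSet_live hc hm 0 _

variable [Fintype D] [LinearOrder D] [Inhabited D] [MeasurableSpace D] [MeasurableSingletonClass D]

theorem measurable_pre (hc : ∀ t, Cong (G t)) (hm : ∀ n w, MeasurableSet {t | G t n w}) (n : ℕ) :
    Measurable fun t => pre (G t) n := by
  classical
  induction n with
  | zero => exact measurable_const
  | succ n ih =>
    rw [measurable_pi_iff]
    intro i
    by_cases hi : i = n
    swap
    · have : (fun t => pre (G t) (n + 1) i) = fun t => pre (G t) n i := by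
        funext t
        rw [pre, Function.update_of_ne hi]
      rw [this]
      exact (measurable_pi_apply i).comp ih
    subst hi
    have : (fun t => pre (G t) (i + 1) i) =
        fun t => pick fun d => Live (G t) (i + 1) (Function.update (pre (G t) i) i d) := by
      funext t
      rw [pre, Function.update_self]
    rw [this]
    refine measurable_pick fun d => ?_
    have key : {t | Live (G t) (i + 1) (Function.update (pre (G t) i) i d)} =
        ⋃ u : Fin i → D, {t | ∀ j : Fin i, pre (G t) i j = u j} ∩
          {t | Live (G t) (i + 1) (Function.update (ext u) i d)} := by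
      ext t
      simp only [Set.mem_setOf_eq, Set.mem_iUnion, Set.mem_inter_iff]
      constructor
      · intro h
        refine ⟨fun j => pre (G t) i j, fun j => rfl, h.congr fun k hk => ?_⟩
        rcases Nat.lt_succ_iff_lt_or_eq.1 hk with hk | rfl
        · rw [Function.update_of_ne hk.ne, Function.update_of_ne hk.ne,
            ext_restrict (pre (G t) i) hk]
        · rw [Function.update_self, Function.update_self]
      · rintro ⟨u, h1, h2⟩
        refine h2.congr fun k hk => ?_
        rcases Nat.lt_succ_iff_lt_or_eq.1 hk with hk | rfl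
        · rw [Function.update_of_ne hk.ne, Function.update_of_ne hk.ne, ext_of_lt u hk,
            ← h1 ⟨k, hk⟩]
        · rw [Function.update_self, Function.update_self]
    rw [key]
    refine MeasurableSet.iUnion fun u => MeasurableSet.inter ?_ (measurableSet_live hc hm _ _)
    have : {t | ∀ j : Fin i, pre (G t) i j = u j} =
        ⋂ j : Fin i, (fun t => pre (G t) i j) ⁻¹' {u j} := by
      ext t
      simp
    rw [this]
    exact MeasurableSet.iInter fun j =>
      ((measurable_pi_apply _).comp ih) (measurableSet_singleton _)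

theorem measurable_sel (hc : ∀ t, Cong (G t)) (hm : ∀ n w, MeasurableSet {t | G t n w}) :
    Measurable fun t => sel (G t) := by
  rw [measurable_pi_iff]
  intro n
  exact (measurable_pi_apply n).comp (measurable_pre hc hm (n + 1))

end meas

end Crest.Agent.R151.SEL
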