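import Mathlib
import Crest.Prelude.Def_PlanarFPP
import Crest.Agent.R151.S113A
import Crest.Agent.R151.A565a
import Crest.Agent.R151.K0

/-!
# R151, SEL B (helper113): selected lattice paths

* `path1 x w : ℕ → ℤ × ℤ`, `path2 x w : ℤ → ℤ × ℤ` : lattice paths coded by words.
* `Pred1`, `Pred2`: measurable, prefix closed predicates of one- resp. two-sided lattice paths
  (`P n t v` only reads `v` on `[0,n]` resp. `[-n,n]`).
* `sel1 P x t`, `sel2 P x t`: the first path `v` with `v 0 = x` and `∀ n, P n t v`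
  (if there is one), measurable in `t`, equivariant.
-/

set_option autoImplicit false

open MeasureTheory
open Crest.ProbabilityR.FirstPassage

namespace Crest.Agent.R151.SEL

/-- the four directions -/
def dir (a : Fin 4) : ℤ × ℤ := ![((1 : ℤ), (0 : ℤ)), (0, 1), (-1, 0), (0, -1)] a

theorem adj_dir (x : ℤ × ℤ) (a : Fin 4) : squareLattice.Adj x (x + dir a) := by
  obtain ⟨x1, x2⟩ := x
  fin_cases a
  · have := K.adj_right x1 x2
    simpa [dir] using this
  · have := K.adj_up x1 x2
    simpa [dir] using this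
  · have := (K.adj_right (x1 - 1) x2).symm
    simpa [dir, sub_eq_add_neg] using this
  · have := (K.adj_up x1 (x2 - 1)).symm
    simpa [dir, sub_eq_add_neg] using this

theorem exists_dir {x y : ℤ × ℤ} (h : squareLattice.Adj x y) : ∃ a, y = x + dir a := by
  obtain ⟨x1, x2⟩ := x
  obtain ⟨y1, y2⟩ := y
  rw [squareLattice, SimpleGraph.fromRel_adj] at h
  obtain ⟨-, (⟨h1, h2⟩ | ⟨h1, h2⟩) | (⟨h1, h2⟩ | ⟨h1, h2⟩)⟩ := h <;> simp only at h1 h2
  · exact ⟨1, by simp [dir, h1, h2]⟩
  · exact ⟨0, by simp [dir, h1, h2]⟩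
  · exact ⟨3, by simp [dir, h1, h2]⟩
  · exact ⟨2, by simp [dir, h1, h2]⟩

/-- The one-sided path coded by `w`. -/
def path1 (x : ℤ × ℤ) (w : ℕ → Fin 4) : ℕ → ℤ × ℤ
  | 0 => x
  | n + 1 => path1 x w n + dir (w n)

@[simp] theorem path1_zero (x : ℤ × ℤ) (w : ℕ → Fin 4) : path1 x w 0 = x := rfl

theorem path1_succ (x : ℤ × ℤ) (w : ℕ → Fin 4) (n : ℕ) :
    path1 x w (n + 1) = path1 x w n + dir (w n) := rfl

theorem path1_congr (x : ℤ × ℤ) {w w' : ℕ → Fin 4} {n : ℕ} (h : ∀ i, i < n → w i = w' i) {k : ℕ}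
    (hk : k ≤ n) : path1 x w k = path1 x w' k := by
  induction k with
  | zero => rfl
  | succ k ih => rw [path1_succ, path1_succ, ih (by omega), h k (by omega)]

theorem path1_add (x z : ℤ × ℤ) (w : ℕ → Fin 4) (n : ℕ) :
    path1 (x + z) w n = path1 x w n + z := by
  induction n with
  | zero => rfl
  | succ n ih => rw [path1_succ, path1_succ, ih]; abel

theorem path1_adj (x : ℤ × ℤ) (w : ℕ → Fin 4) (n : ℕ) :
    squareLattice.Adj (path1 x w n) (path1 x w (n + 1)) := by
  rw [path1_succ]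
  exact adj_dir _ _

theorem exists_path1 {v : ℕ → ℤ × ℤ} (h : ∀ n, squareLattice.Adj (v n) (v (n + 1))) :
    ∃ w, v = path1 (v 0) w := by
  choose w hw using fun n => exists_dir (h n)
  refine ⟨w, funext fun n => ?_⟩
  induction n with
  | zero => rfl
  | succ n ih => rw [path1_succ, ← ih, hw n]

theorem measurable_path1 (x : ℤ × ℤ) (n : ℕ) : Measurable fun w : ℕ → Fin 4 => path1 x w n := by
  induction n with
  | zero => exact measurable_const
  | succ n ih =>
    have : (fun w : ℕ → Fin 4 => path1 x w (n + 1)) =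
        (fun p : (ℤ × ℤ) × Fin 4 => p.1 + dir p.2) ∘ fun w => (path1 x w n, w n) := rfl
    rw [this]
    exact (measurable_of_countable _).comp (ih.prodMk (measurable_pi_apply n))

/-- forward letter -/
def fw (a : Fin (4 * 4)) : Fin 4 := (finProdFinEquiv.symm a).1

/-- backward letter -/
def bw (a : Fin (4 * 4)) : Fin 4 := (finProdFinEquiv.symm a).2

/-- The two-sided path coded by `w`. -/
def path2 (x : ℤ × ℤ) (w : ℕ → Fin (4 * 4)) (k : ℤ) : ℤ × ℤ :=
  if 0 ≤ k then path1 x (fun i => fw (w i)) k.toNat else path1 x (fun i => bw (w i)) (-k).toNat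

@[simp] theorem path2_zero (x : ℤ × ℤ) (w : ℕ → Fin (4 * 4)) : path2 x w 0 = x := rfl

theorem path2_natCast (x : ℤ × ℤ) (w : ℕ → Fin (4 * 4)) (n : ℕ) :
    path2 x w n = path1 x (fun i => fw (w i)) n := by
  simp [path2]

theorem path2_neg_natCast (x : ℤ × ℤ) (w : ℕ → Fin (4 * 4)) (n : ℕ) :
    path2 x w (-n) = path1 x (fun i => bw (w i)) n := by
  unfold path2
  split_ifs with h
  · have : n = 0 := by omega
    subst this
    rfl
  · simp

theorem path2_congr (x : ℤ × ℤ) {w w' : ℕ → Fin (4 * 4)} {n : ℕ}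
    (h : ∀ i, i < n → w i = w' i) {k : ℤ} (hk : |k| ≤ n) : path2 x w k = path2 x w' k := by
  unfold path2
  rw [abs_le] at hk
  split_ifs with h0
  · exact path1_congr x (n := n) (fun i hi => by rw [h i hi]) (by omega)
  · exact path1_congr x (n := n) (fun i hi => by rw [h i hi]) (by omega)

theorem path2_add (x z : ℤ × ℤ) (w : ℕ → Fin (4 * 4)) (k : ℤ) :
    path2 (x + z) w k = path2 x w k + z := by
  unfold path2
  split_ifs
  · exact path1_add x z _ _
  · exact path1_add x z _ _

theorem path2_adj (x : ℤ × ℤ) (w : ℕ → Fin (4 * 4)) (k : ℤ) :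
    squareLattice.Adj (path2 x w k) (path2 x w (k + 1)) := by
  rcases lt_or_ge k 0 with h | h
  · obtain ⟨n, hn⟩ : ∃ n : ℕ, k = -((n : ℤ) + 1) := ⟨(-k - 1).toNat, by omega⟩
    subst hn
    have h1 : path2 x w (-((n : ℤ) + 1)) = path1 x (fun i => bw (w i)) (n + 1) := by
      rw [show -((n : ℤ) + 1) = -((n + 1 : ℕ) : ℤ) by push_cast; ring, path2_neg_natCast]
    have h2 : path2 x w (-((n : ℤ) + 1) + 1) = path1 x (fun i => bw (w i)) n := by
      rw [show -((n : ℤ) + 1) + 1 = -((n : ℕ) : ℤ) by ring, path2_neg_natCast]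
    rw [h1, h2]
    exact (path1_adj _ _ _).symm
  · obtain ⟨n, rfl⟩ := Int.eq_ofNat_of_zero_le h
    have h1 : path2 x w ((n : ℤ) + 1) = path1 x (fun i => fw (w i)) (n + 1) := by
      rw [show (n : ℤ) + 1 = ((n + 1 : ℕ) : ℤ) by push_cast; ring, path2_natCast]
    rw [path2_natCast, h1]
    exact path1_adj _ _ _

theorem exists_path2 {v : ℤ → ℤ × ℤ} (h : ∀ n, squareLattice.Adj (v n) (v (n + 1))) :
    ∃ w, v = path2 (v 0) w := by
  obtain ⟨w1, hw1⟩ := exists_path1 (v := fun n : ℕ => v n) fun n => by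
    have := h n
    push_cast
    exact this
  obtain ⟨w2, hw2⟩ := exists_path1 (v := fun n : ℕ => v (-n)) fun n => by
    have := (h (-((n : ℤ) + 1))).symm
    rw [show -((n : ℤ) + 1) + 1 = -n by ring] at this
    push_cast
    exact this
  refine ⟨fun i => finProdFinEquiv (w1 i, w2 i), funext fun k => ?_⟩
  unfold path2
  split_ifs with h0
  · have := congrFun hw1 k.toNat
    simp only [Nat.cast_zero] at this
    rw [show ((k.toNat : ℕ) : ℤ) = k by omega] at this
    simpa [fw] using this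
  · have := congrFun hw2 (-k).toNat
    simp only [Nat.cast_zero, neg_zero] at this
    rw [show -(((-k).toNat : ℕ) : ℤ) = k by omega] at this
    simpa [bw] using this

theorem measurable_path2 (x : ℤ × ℤ) (k : ℤ) :
    Measurable fun w : ℕ → Fin (4 * 4) => path2 x w k := by
  unfold path2
  split_ifs
  · refine (measurable_path1 x _).comp (measurable_pi_lambda _ fun i => ?_)
    exact (measurable_of_countable fw).comp (measurable_pi_apply i)
  · refine (measurable_path1 x _).comp (measurable_pi_lambda _ fun i => ?_)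
    exact (measurable_of_countable bw).comp (measurable_pi_apply i)

/-! ## predicates -/

/-- measurable prefix closed predicates of one-sided lattice paths -/
structure Pred1 where
  P : ℕ → Environment → (ℕ → ℤ × ℤ) → Prop
  cong : ∀ n t v v', (∀ k, k ≤ n → v k = v' k) → P n t v → P n t v'
  anti : ∀ n t v, P (n + 1) t v → P n t v
  meas : ∀ n v, MeasurableSet {t | P n t v}

/-- measurable prefix closed predicates of two-sided lattice paths -/
structure Pred2 where
  P : ℕ → Environment → (ℤ → ℤ × ℤ) → Prop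
  cong : ∀ (n : ℕ) t v v', (∀ k : ℤ, |k| ≤ (n : ℤ) → v k = v' k) → P n t v → P n t v'
  anti : ∀ n t v, P (n + 1) t v → P n t v
  meas : ∀ n v, MeasurableSet {t | P n t v}

namespace Pred1

variable (Q : Pred1)

/-- `v` is a lattice path from `x` with the property -/
structure Sat (x : ℤ × ℤ) (t : Environment) (v : ℕ → ℤ × ℤ) : Prop where
  zero : v 0 = x
  adj : ∀ n, squareLattice.Adj (v n) (v (n + 1))
  prop : ∀ n, Q.P n t v

/-- the predicate on words -/
def word (x : ℤ × ℤ) (t : Environment) (n : ℕ) (w : ℕ → Fin 4) : Prop := Q.P n t (path1 x w)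

theorem cong_word (x : ℤ × ℤ) (t : Environment) : Cong (Q.word x t) := fun n w w' h hw =>
  Q.cong n t _ _ (fun _ hk => path1_congr x h hk) hw

theorem anti_word (x : ℤ × ℤ) (t : Environment) : Anti (Q.word x t) := fun n _ hw =>
  Q.anti n t _ hw

theorem meas_word (x : ℤ × ℤ) (n : ℕ) (w : ℕ → Fin 4) : MeasurableSet {t | Q.word x t n w} :=
  Q.meas n _

theorem exists_sat_iff (x : ℤ × ℤ) (t : Environment) :
    (∃ v, Q.Sat x t v) ↔ ∃ w, ∀ n, Q.word x t n w := by
  constructor
  · rintro ⟨v, hv⟩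
    obtain ⟨w, hw⟩ := exists_path1 hv.adj
    refine ⟨w, fun n => ?_⟩
    unfold word
    rw [← hv.zero, ← hw]
    exact hv.prop n
  · rintro ⟨w, hw⟩
    exact ⟨path1 x w, rfl, path1_adj x w, hw⟩

/-- the selected path -/
noncomputable def sel1 (x : ℤ × ℤ) (t : Environment) : ℕ → ℤ × ℤ := path1 x (sel (Q.word x t))

theorem sat_sel1 {x : ℤ × ℤ} {t : Environment} (h : ∃ v, Q.Sat x t v) :
    Q.Sat x t (Q.sel1 x t) := by
  rw [exists_sat_iff] at h
  exact ⟨rfl, path1_adj x _, fun n => sel_spec' (Q.cong_word x t) (Q.anti_word x t) h n⟩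

/-- König's lemma: finite approximations suffice. -/
theorem exists_sat_of_forall {x : ℤ × ℤ} {t : Environment}
    (h : ∀ n, ∃ v, v 0 = x ∧ (∀ n, squareLattice.Adj (v n) (v (n + 1))) ∧ Q.P n t v) :
    ∃ v, Q.Sat x t v := by
  rw [exists_sat_iff, exists_branch_iff (Q.cong_word x t) (Q.anti_word x t)]
  intro m
  obtain ⟨v, hv0, hv1, hv2⟩ := h m
  obtain ⟨w, hw⟩ := exists_path1 hv1
  refine ⟨w, ?_⟩
  unfold word
  rw [← hv0, ← hw]
  exact hv2

theorem measurableSet_exists (x : ℤ × ℤ) : MeasurableSet {t | ∃ v, Q.Sat x t v} := by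
  simp only [exists_sat_iff]
  exact measurableSet_exists_branch (Q.cong_word x) (Q.anti_word x) (Q.meas_word x)

theorem measurable_sel1 (x : ℤ × ℤ) : Measurable fun t => Q.sel1 x t := by
  rw [measurable_pi_iff]
  intro n
  exact (measurable_path1 x n).comp (measurable_sel (Q.cong_word x) (Q.meas_word x))

theorem measurable_sel1_apply (x : ℤ × ℤ) (n : ℕ) : Measurable fun t => Q.sel1 x t n :=
  (measurable_pi_apply n).comp (Q.measurable_sel1 x)

/-- equivariance of a predicate under translations -/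
def Equiv (z : ℤ × ℤ) : Prop :=
  ∀ n t v, Q.P n (A.shift z t) v ↔ Q.P n t fun k => v k + z

variable {Q}

theorem Equiv.sat_iff {z : ℤ × ℤ} (h : Q.Equiv z) (x : ℤ × ℤ) (t : Environment)
    (v : ℕ → ℤ × ℤ) : Q.Sat x (A.shift z t) v ↔ Q.Sat (x + z) t fun k => v k + z := by
  constructor
  · intro hv
    exact ⟨by rw [hv.zero], fun n => by
      obtain ⟨a, ha⟩ := exists_dir (hv.adj n)
      rw [ha, add_right_comm]
      exact adj_dir _ _, fun n => (h n t v).1 (hv.prop n)⟩
  · intro hv
    refine ⟨add_right_cancel hv.zero, fun n => ?_, fun n => (h n t v).2 (hv.prop n)⟩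
    obtain ⟨a, ha⟩ := exists_dir (hv.adj n)
    rw [add_right_comm] at ha
    rw [add_right_cancel ha]
    exact adj_dir _ _

theorem Equiv.sel1 {z : ℤ × ℤ} (h : Q.Equiv z) (x : ℤ × ℤ) (t : Environment) (n : ℕ) :
    Q.sel1 (x + z) t n = Q.sel1 x (A.shift z t) n + z := by
  unfold Pred1.sel1
  rw [path1_add]
  congr 2
  refine sel_congr fun n w => ?_
  unfold word
  rw [h n t]
  have : path1 (x + z) w = fun k => path1 x w k + z := funext fun k => path1_add x z w k
  rw [this]

end Pred1

namespace Pred2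

variable (Q : Pred2)

/-- `v` is a two-sided lattice path with `v 0 = x` and the property -/
structure Sat (x : ℤ × ℤ) (t : Environment) (v : ℤ → ℤ × ℤ) : Prop where
  zero : v 0 = x
  adj : ∀ n, squareLattice.Adj (v n) (v (n + 1))
  prop : ∀ n, Q.P n t v

/-- the predicate on words -/
def word (x : ℤ × ℤ) (t : Environment) (n : ℕ) (w : ℕ → Fin (4 * 4)) : Prop :=
  Q.P n t (path2 x w)

theorem cong_word (x : ℤ × ℤ) (t : Environment) : Cong (Q.word x t) := fun n w w' h hw =>
  Q.cong n t _ _ (fun _ hk => path2_congr x h hk) hw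

theorem anti_word (x : ℤ × ℤ) (t : Environment) : Anti (Q.word x t) := fun n _ hw =>
  Q.anti n t _ hw

theorem meas_word (x : ℤ × ℤ) (n : ℕ) (w : ℕ → Fin (4 * 4)) :
    MeasurableSet {t | Q.word x t n w} := Q.meas n _

theorem exists_sat_iff (x : ℤ × ℤ) (t : Environment) :
    (∃ v, Q.Sat x t v) ↔ ∃ w, ∀ n, Q.word x t n w := by
  constructor
  · rintro ⟨v, hv⟩
    obtain ⟨w, hw⟩ := exists_path2 hv.adj
    refine ⟨w, fun n => ?_⟩
    unfold word
    rw [← hv.zero, ← hw]
    exact hv.prop n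
  · rintro ⟨w, hw⟩
    exact ⟨path2 x w, rfl, path2_adj x w, hw⟩

/-- the selected path -/
noncomputable def sel2 (x : ℤ × ℤ) (t : Environment) : ℤ → ℤ × ℤ := path2 x (sel (Q.word x t))

theorem sat_sel2 {x : ℤ × ℤ} {t : Environment} (h : ∃ v, Q.Sat x t v) :
    Q.Sat x t (Q.sel2 x t) := by
  rw [exists_sat_iff] at h
  exact ⟨rfl, path2_adj x _, fun n => sel_spec' (Q.cong_word x t) (Q.anti_word x t) h n⟩

/-- König's lemma: finite approximations suffice. -/
theorem exists_sat_of_forall {x : ℤ × ℤ} {t : Environment}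
    (h : ∀ n, ∃ v, v 0 = x ∧ (∀ n, squareLattice.Adj (v n) (v (n + 1))) ∧ Q.P n t v) :
    ∃ v, Q.Sat x t v := by
  rw [exists_sat_iff, exists_branch_iff (Q.cong_word x t) (Q.anti_word x t)]
  intro m
  obtain ⟨v, hv0, hv1, hv2⟩ := h m
  obtain ⟨w, hw⟩ := exists_path2 hv1
  refine ⟨w, ?_⟩
  unfold word
  rw [← hv0, ← hw]
  exact hv2

theorem measurableSet_exists (x : ℤ × ℤ) : MeasurableSet {t | ∃ v, Q.Sat x t v} := by
  simp only [exists_sat_iff]
  exact measurableSet_exists_branch (Q.cong_word x) (Q.anti_word x) (Q.meas_word x)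

theorem measurable_sel2 (x : ℤ × ℤ) : Measurable fun t => Q.sel2 x t := by
  rw [measurable_pi_iff]
  intro n
  exact (measurable_path2 x n).comp (measurable_sel (Q.cong_word x) (Q.meas_word x))

theorem measurable_sel2_apply (x : ℤ × ℤ) (n : ℤ) : Measurable fun t => Q.sel2 x t n :=
  (measurable_pi_apply n).comp (Q.measurable_sel2 x)

/-- equivariance of a predicate under translations -/
def Equiv (z : ℤ × ℤ) : Prop :=
  ∀ n t v, Q.P n (A.shift z t) v ↔ Q.P n t fun k => v k + z

variable {Q}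

theorem Equiv.sat_iff {z : ℤ × ℤ} (h : Q.Equiv z) (x : ℤ × ℤ) (t : Environment)
    (v : ℤ → ℤ × ℤ) : Q.Sat x (A.shift z t) v ↔ Q.Sat (x + z) t fun k => v k + z := by
  constructor
  · intro hv
    exact ⟨by rw [hv.zero], fun n => by
      obtain ⟨a, ha⟩ := exists_dir (hv.adj n)
      rw [ha, add_right_comm]
      exact adj_dir _ _, fun n => (h n t v).1 (hv.prop n)⟩
  · intro hv
    refine ⟨add_right_cancel hv.zero, fun n => ?_, fun n => (h n t v).2 (hv.prop n)⟩
    obtain ⟨a, ha⟩ := exists_dir (hv.adj n)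
    rw [add_right_comm] at ha
    rw [add_right_cancel ha]
    exact adj_dir _ _

theorem Equiv.sel2 {z : ℤ × ℤ} (h : Q.Equiv z) (x : ℤ × ℤ) (t : Environment) (n : ℤ) :
    Q.sel2 (x + z) t n = Q.sel2 x (A.shift z t) n + z := by
  unfold Pred2.sel2
  rw [path2_add]
  congr 2
  refine sel_congr fun n w => ?_
  unfold word
  rw [h n t]
  have : path2 (x + z) w = fun k => path2 x w k + z := funext fun k => path2_add x z w k
  rw [this]

end Pred2

/-! ## random vertices inside measurable functions -/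

/-- evaluate a family of measurable functions at a measurable lattice point -/
theorem measurable_eval {Ω β I : Type*} [MeasurableSpace Ω] [MeasurableSpace β] [Countable I]
    [MeasurableSpace I] [MeasurableSingletonClass I] {f : Ω → I → β}
    (hf : ∀ y, Measurable fun t => f t y) {V : Ω → I} (hV : Measurable V) :
    Measurable fun t => f t (V t) := by
  have h1 : Measurable (Function.uncurry f) := measurable_from_prod_countable_left hf
  exact h1.comp (measurable_id.prodMk hV)

end Crest.Agent.R151.SEL
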