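import Mathlib
import Crest.Prelude.Def_PlanarFPP
import Crest.Agent.R151.S113B
import Crest.Agent.R151.Y635B
import Crest.Agent.R151.F2

/-!
# R151, SEL C (helper113): rays, gradient rays and bigeodesics as selected paths

* `rayPred H C`, `gradPred f C`, `bigeoPred C`: the predicates "geodesic ray of `H`", "gradient ray
  of the random function `f`", "bigeodesic", each with the side condition `∀ k, v k ∈ C k`.
* existence events are measurable, the selected path is measurable in the environment.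
* Busemann functions along measurable paths are measurable.
* translations.
-/

set_option autoImplicit false

open MeasureTheory
open Crest.ProbabilityR.FirstPassage

namespace Crest.Agent.R151.SEL

open Crest.Agent.R151 Crest.Agent.R151.Y

/-! ## measurability of passage times of a subgraph -/

theorem measurable_wcost {H : SimpleGraph (ℤ × ℤ)} {x y : ℤ × ℤ} (w : H.Walk x y) :
    Measurable fun t : Environment => wcost t w := by
  unfold wcost
  have : ∀ l : List (Sym2 (ℤ × ℤ)), Measurable fun t : Environment => (l.map t).sum := by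
    intro l
    induction l with
    | nil => simp
    | cons e l ih =>
      simp only [List.map_cons, List.sum_cons]
      exact (measurable_pi_apply e).add ih
  exact this _

theorem countable_walk' (H : SimpleGraph (ℤ × ℤ)) (x y : ℤ × ℤ) : Countable (H.Walk x y) := by
  have : Function.Injective (fun w : H.Walk x y => w.support) := by
    intro w w' h
    exact SimpleGraph.Walk.ext_support h
  exact this.countable

theorem measurable_pt' (H : SimpleGraph (ℤ × ℤ)) (x y : ℤ × ℤ) :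
    Measurable fun t : Environment => pt H t x y := by
  unfold pt
  have := countable_walk' H x y
  exact Measurable.iInf fun w => measurable_wcost w

/-- `pt H` at random points -/
theorem measurable_pt_eval {Ω : Type*} [MeasurableSpace Ω] (H : SimpleGraph (ℤ × ℤ))
    {τ : Ω → Environment} (hτ : Measurable τ) {X Y : Ω → ℤ × ℤ} (hX : Measurable X)
    (hY : Measurable Y) : Measurable fun ω => pt H (τ ω) (X ω) (Y ω) := by
  have h1 : Measurable fun ω => (fun p : (ℤ × ℤ) × (ℤ × ℤ) => pt H (τ ω) p.1 p.2) (X ω, Y ω) :=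
    measurable_eval (f := fun ω (p : (ℤ × ℤ) × (ℤ × ℤ)) => pt H (τ ω) p.1 p.2)
      (fun p => (measurable_pt' H p.1 p.2).comp hτ) (hX.prodMk hY)
  exact h1

/-- the Busemann function of a measurable path is measurable -/
theorem measurable_bus {Ω : Type*} [MeasurableSpace Ω] (H : SimpleGraph (ℤ × ℤ))
    {τ : Ω → Environment} (hτ : Measurable τ) {v : Ω → ℕ → ℤ × ℤ}
    (hv : ∀ n, Measurable fun ω => v ω n) (x : ℤ × ℤ) :
    Measurable fun ω => bus (τ ω) H (v ω) x := by
  unfold bus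
  refine Measurable.iInf fun n => ?_
  exact (measurable_pt_eval H hτ measurable_const (hv n)).sub
    (measurable_pt_eval H hτ (hv 0) (hv n))

/-! ## one-sided predicates -/

/-- conjunction -/
def Pred1.and (Q Q' : Pred1) : Pred1 where
  P n t v := Q.P n t v ∧ Q'.P n t v
  cong n t v v' h hP := ⟨Q.cong n t v v' h hP.1, Q'.cong n t v v' h hP.2⟩
  anti n t v hP := ⟨Q.anti n t v hP.1, Q'.anti n t v hP.2⟩
  meas n v := (Q.meas n v).inter (Q'.meas n v)

theorem Pred1.sat_and {Q Q' : Pred1} {x : ℤ × ℤ} {t : Environment} {v : ℕ → ℤ × ℤ} :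
    (Q.and Q').Sat x t v ↔ Q.Sat x t v ∧ Q'.Sat x t v :=
  ⟨fun h => ⟨⟨h.zero, h.adj, fun n => (h.prop n).1⟩, ⟨h.zero, h.adj, fun n => (h.prop n).2⟩⟩,
    fun h => ⟨h.1.zero, h.1.adj, fun n => ⟨h.1.prop n, h.2.prop n⟩⟩⟩

/-- side condition `v k ∈ C k` -/
def sidePred (C : ℕ → Set (ℤ × ℤ)) : Pred1 where
  P n _ v := ∀ k, k ≤ n → v k ∈ C k
  cong n _ v v' h hP := fun k hk => by rw [← h k hk]; exact hP k hk
  anti n _ v hP := fun k hk => hP k (by omega)
  meas n v := MeasurableSet.const _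

theorem sat_sidePred {C : ℕ → Set (ℤ × ℤ)} {x : ℤ × ℤ} {t : Environment} {v : ℕ → ℤ × ℤ} :
    (sidePred C).Sat x t v ↔
      v 0 = x ∧ (∀ n, squareLattice.Adj (v n) (v (n + 1))) ∧ ∀ k, v k ∈ C k :=
  ⟨fun h => ⟨h.zero, h.adj, fun k => h.prop k k le_rfl⟩,
    fun h => ⟨h.1, h.2.1, fun _ k _ => h.2.2 k⟩⟩

/-- geodesic ray of `H` -/
def geoPred (H : SimpleGraph (ℤ × ℤ)) : Pred1 where
  P n t v := (∀ i j, i ≤ j → j ≤ n →
      ∑ k ∈ Finset.Ico i j, t s(v k, v (k + 1)) = pt H t (v i) (v j)) ∧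
    ∀ k, k < n → H.Adj (v k) (v (k + 1))
  cong n t v v' h hP := by
    refine ⟨fun i j hij hj => ?_, fun k hk => ?_⟩
    · rw [← h i (by omega), ← h j hj, ← hP.1 i j hij hj]
      refine Finset.sum_congr rfl fun k hk => ?_
      rw [Finset.mem_Ico] at hk
      rw [h k (by omega), h (k + 1) (by omega)]
    · rw [← h k (by omega), ← h (k + 1) (by omega)]
      exact hP.2 k hk
  anti n t v hP := ⟨fun i j hij hj => hP.1 i j hij (by omega), fun k hk => hP.2 k (by omega)⟩
  meas n v := by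
    have : {t : Environment | (∀ i j, i ≤ j → j ≤ n →
        ∑ k ∈ Finset.Ico i j, t s(v k, v (k + 1)) = pt H t (v i) (v j)) ∧
        ∀ k, k < n → H.Adj (v k) (v (k + 1))} =
      (⋂ i, ⋂ j, ⋂ (_ : i ≤ j), ⋂ (_ : j ≤ n), {t : Environment |
        ∑ k ∈ Finset.Ico i j, t s(v k, v (k + 1)) = pt H t (v i) (v j)}) ∩
        {_t : Environment | ∀ k, k < n → H.Adj (v k) (v (k + 1))} := by
      ext t
      simp
    rw [this]
    refine MeasurableSet.inter ?_ (MeasurableSet.const _)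
    refine MeasurableSet.iInter fun i => MeasurableSet.iInter fun j => MeasurableSet.iInter fun _ =>
      MeasurableSet.iInter fun _ => measurableSet_eq_fun ?_ (measurable_pt' H _ _)
    exact Finset.measurable_sum _ fun k _ => measurable_pi_apply _

theorem sat_geoPred {H : SimpleGraph (ℤ × ℤ)} (hH : H ≤ squareLattice) {x : ℤ × ℤ}
    {t : Environment} {v : ℕ → ℤ × ℤ} :
    (geoPred H).Sat x t v ↔ v 0 = x ∧ IsRay t H v :=
  ⟨fun h => ⟨h.zero, ⟨fun k => (h.prop (k + 1)).2 k (Nat.lt_succ_self k),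
      fun i j hij => (h.prop j).1 i j hij le_rfl⟩⟩,
    fun h => ⟨h.1, fun n => hH (h.2.adj n), fun _ =>
      ⟨fun i j hij _ => h.2.geo i j hij, fun k _ => h.2.adj k⟩⟩⟩

/-- geodesic ray of `H` with a side condition -/
def rayPred (H : SimpleGraph (ℤ × ℤ)) (C : ℕ → Set (ℤ × ℤ)) : Pred1 :=
  (geoPred H).and (sidePred C)

theorem sat_rayPred {H : SimpleGraph (ℤ × ℤ)} (hH : H ≤ squareLattice) {C : ℕ → Set (ℤ × ℤ)}
    {x : ℤ × ℤ} {t : Environment} {v : ℕ → ℤ × ℤ} :
    (rayPred H C).Sat x t v ↔ v 0 = x ∧ IsRay t H v ∧ ∀ k, v k ∈ C k := by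
  rw [rayPred, Pred1.sat_and, sat_geoPred hH, sat_sidePred]
  constructor
  · rintro ⟨⟨h1, h2⟩, -, -, h3⟩
    exact ⟨h1, h2, h3⟩
  · rintro ⟨h1, h2, h3⟩
    exact ⟨⟨h1, h2⟩, h1, fun n => hH (h2.adj n), h3⟩

theorem measurableSet_exists_ray {H : SimpleGraph (ℤ × ℤ)} (hH : H ≤ squareLattice)
    (C : ℕ → Set (ℤ × ℤ)) (x : ℤ × ℤ) :
    MeasurableSet {t : Environment | ∃ v, v 0 = x ∧ IsRay t H v ∧ ∀ k, v k ∈ C k} := by
  have := (rayPred H C).measurableSet_exists x
  simpa only [sat_rayPred hH] using this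

/-- A path with measurable steps: `S t x y` = "the step from `x` to `y` is allowed". -/
def stepPred (S : Environment → ℤ × ℤ → ℤ × ℤ → Prop) (hS : ∀ x y, MeasurableSet {t | S t x y}) :
    Pred1 where
  P n t v := ∀ k, k < n → S t (v k) (v (k + 1))
  cong n t v v' h hP := fun k hk => by
    rw [← h k (by omega), ← h (k + 1) (by omega)]
    exact hP k hk
  anti n t v hP := fun k hk => hP k (by omega)
  meas n v := by
    have : {t : Environment | ∀ k, k < n → S t (v k) (v (k + 1))} =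
        ⋂ k, ⋂ (_ : k < n), {t | S t (v k) (v (k + 1))} := by
      ext t
      simp
    rw [this]
    exact MeasurableSet.iInter fun k => MeasurableSet.iInter fun _ => hS _ _

theorem sat_stepPred {S : Environment → ℤ × ℤ → ℤ × ℤ → Prop}
    {hS : ∀ x y, MeasurableSet {t | S t x y}} {x : ℤ × ℤ} {t : Environment} {v : ℕ → ℤ × ℤ} :
    (stepPred S hS).Sat x t v ↔ v 0 = x ∧ (∀ n, squareLattice.Adj (v n) (v (n + 1))) ∧
      ∀ k, S t (v k) (v (k + 1)) :=
  ⟨fun h => ⟨h.zero, h.adj, fun k => h.prop (k + 1) k (Nat.lt_succ_self k)⟩,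
    fun h => ⟨h.1, h.2.1, fun _ k _ => h.2.2 k⟩⟩

theorem measurableSet_gradStep {H : SimpleGraph (ℤ × ℤ)} {f : Environment → ℤ × ℤ → ℝ}
    (hf : ∀ x, Measurable fun t => f t x) (x y : ℤ × ℤ) :
    MeasurableSet {t : Environment | GradStep t H (f t) x y} := by
  unfold GradStep
  exact (MeasurableSet.const _).inter
    (measurableSet_eq_fun ((hf x).sub (hf y)) (measurable_pi_apply _))

/-- gradient ray of the random function `f`, with a side condition -/
def gradPred (H : SimpleGraph (ℤ × ℤ)) (f : Environment → ℤ × ℤ → ℝ)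
    (hf : ∀ x, Measurable fun t => f t x) (C : ℕ → Set (ℤ × ℤ)) : Pred1 :=
  (stepPred (fun t => GradStep t H (f t)) (measurableSet_gradStep hf)).and (sidePred C)

theorem sat_gradPred {H : SimpleGraph (ℤ × ℤ)} (hH : H ≤ squareLattice)
    {f : Environment → ℤ × ℤ → ℝ} {hf : ∀ x, Measurable fun t => f t x} {C : ℕ → Set (ℤ × ℤ)}
    {x : ℤ × ℤ} {t : Environment} {v : ℕ → ℤ × ℤ} :
    (gradPred H f hf C).Sat x t v ↔ v 0 = x ∧ IsGrad t H (f t) v ∧ ∀ k, v k ∈ C k := by
  rw [gradPred, Pred1.sat_and, sat_stepPred, sat_sidePred]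
  constructor
  · rintro ⟨⟨h1, -, h2⟩, -, -, h3⟩
    exact ⟨h1, h2, h3⟩
  · rintro ⟨h1, h2, h3⟩
    have h4 : ∀ n, squareLattice.Adj (v n) (v (n + 1)) := fun n => hH (h2 n).1
    exact ⟨⟨h1, h4, h2⟩, h1, h4, h3⟩

/-! ## two-sided predicates -/

/-- conjunction -/
def Pred2.and (Q Q' : Pred2) : Pred2 where
  P n t v := Q.P n t v ∧ Q'.P n t v
  cong n t v v' h hP := ⟨Q.cong n t v v' h hP.1, Q'.cong n t v v' h hP.2⟩
  anti n t v hP := ⟨Q.anti n t v hP.1, Q'.anti n t v hP.2⟩
  meas n v := (Q.meas n v).inter (Q'.meas n v)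

theorem Pred2.sat_and {Q Q' : Pred2} {x : ℤ × ℤ} {t : Environment} {v : ℤ → ℤ × ℤ} :
    (Q.and Q').Sat x t v ↔ Q.Sat x t v ∧ Q'.Sat x t v :=
  ⟨fun h => ⟨⟨h.zero, h.adj, fun n => (h.prop n).1⟩, ⟨h.zero, h.adj, fun n => (h.prop n).2⟩⟩,
    fun h => ⟨h.1.zero, h.1.adj, fun n => ⟨h.1.prop n, h.2.prop n⟩⟩⟩

/-- side condition `v k ∈ C k` -/
def sidePred2 (C : ℤ → Set (ℤ × ℤ)) : Pred2 where
  P n _ v := ∀ k : ℤ, |k| ≤ n → v k ∈ C k
  cong n _ v v' h hP := fun k hk => by rw [← h k hk]; exact hP k hk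
  anti n _ v hP := fun k hk => hP k (by push_cast; omega)
  meas n v := MeasurableSet.const _

theorem sat_sidePred2 {C : ℤ → Set (ℤ × ℤ)} {x : ℤ × ℤ} {t : Environment} {v : ℤ → ℤ × ℤ} :
    (sidePred2 C).Sat x t v ↔
      v 0 = x ∧ (∀ n, squareLattice.Adj (v n) (v (n + 1))) ∧ ∀ k, v k ∈ C k :=
  ⟨fun h => ⟨h.zero, h.adj, fun k => h.prop k.natAbs k (by rw [Int.natCast_natAbs])⟩,
    fun h => ⟨h.1, h.2.1, fun _ k _ => h.2.2 k⟩⟩

/-- injective two-sided geodesics of the square lattice -/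
def bigPred : Pred2 where
  P n t v := (∀ i j : ℤ, |i| ≤ n → |j| ≤ n → v i = v j → i = j) ∧
    ∀ i j : ℤ, |i| ≤ n → |j| ≤ n → i < j →
      ∑ k ∈ Finset.Ico i j, t s(v k, v (k + 1)) = passageTime t (v i) (v j)
  cong n t v v' h hP := by
    refine ⟨fun i j hi hj hv => hP.1 i j hi hj ?_, fun i j hi hj hij => ?_⟩
    · rw [h i hi, h j hj, hv]
    · rw [← h i hi, ← h j hj, ← hP.2 i j hi hj hij]
      refine Finset.sum_congr rfl fun k hk => ?_
      rw [Finset.mem_Ico] at hk
      rw [abs_le] at hi hj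
      rw [h k (abs_le.2 (by omega)), h (k + 1) (abs_le.2 (by omega))]
  anti n t v hP := ⟨fun i j hi hj => hP.1 i j (by push_cast; omega) (by push_cast; omega),
    fun i j hi hj => hP.2 i j (by push_cast; omega) (by push_cast; omega)⟩
  meas n v := by
    have : {t : Environment | (∀ i j : ℤ, |i| ≤ n → |j| ≤ n → v i = v j → i = j) ∧
        ∀ i j : ℤ, |i| ≤ n → |j| ≤ n → i < j →
          ∑ k ∈ Finset.Ico i j, t s(v k, v (k + 1)) = passageTime t (v i) (v j)} =
      {_t : Environment | ∀ i j : ℤ, |i| ≤ n → |j| ≤ n → v i = v j → i = j} ∩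
      (⋂ i : ℤ, ⋂ j : ℤ, ⋂ (_ : |i| ≤ n), ⋂ (_ : |j| ≤ n), ⋂ (_ : i < j), {t : Environment |
        ∑ k ∈ Finset.Ico i j, t s(v k, v (k + 1)) = passageTime t (v i) (v j)}) := by
      ext t
      simp
    rw [this]
    refine MeasurableSet.inter (MeasurableSet.const _) ?_
    refine MeasurableSet.iInter fun i => MeasurableSet.iInter fun j => MeasurableSet.iInter fun _ =>
      MeasurableSet.iInter fun _ => MeasurableSet.iInter fun _ =>
        measurableSet_eq_fun ?_ (K.measurable_pt _ _)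
    exact Finset.measurable_sum _ fun k _ => measurable_pi_apply _

theorem sat_bigPred {x : ℤ × ℤ} {t : Environment} {v : ℤ → ℤ × ℤ} :
    bigPred.Sat x t v ↔ v 0 = x ∧ IsBigeodesic t v := by
  constructor
  · intro h
    refine ⟨h.zero, fun i j hij => ?_, h.adj, fun i j hij => ?_⟩
    · have h1 := h.prop (max i.natAbs j.natAbs)
      refine h1.1 i j ?_ ?_ hij <;> push_cast <;> simp
    · have h1 := h.prop (max i.natAbs j.natAbs)
      refine h1.2 i j ?_ ?_ hij <;> push_cast <;> simp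
  · rintro ⟨h1, h2, h3, h4⟩
    exact ⟨h1, h3, fun n => ⟨fun i j _ _ hij => h2 hij, fun i j _ _ hij => h4 i j hij⟩⟩

/-- bigeodesics with a side condition -/
def bigeoPred (C : ℤ → Set (ℤ × ℤ)) : Pred2 := bigPred.and (sidePred2 C)

theorem sat_bigeoPred {C : ℤ → Set (ℤ × ℤ)} {x : ℤ × ℤ} {t : Environment} {v : ℤ → ℤ × ℤ} :
    (bigeoPred C).Sat x t v ↔ v 0 = x ∧ IsBigeodesic t v ∧ ∀ k, v k ∈ C k := by
  rw [bigeoPred, Pred2.sat_and, sat_bigPred, sat_sidePred2]
  constructor
  · rintro ⟨⟨h1, h2⟩, -, -, h3⟩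
    exact ⟨h1, h2, h3⟩
  · rintro ⟨h1, h2, h3⟩
    exact ⟨⟨h1, h2⟩, h1, h2.2.1, h3⟩

theorem measurableSet_exists_bigeodesic_through (C : ℤ → Set (ℤ × ℤ)) (x : ℤ × ℤ) :
    MeasurableSet {t : Environment | ∃ v, v 0 = x ∧ IsBigeodesic t v ∧ ∀ k, v k ∈ C k} := by
  have := (bigeoPred C).measurableSet_exists x
  simpa only [sat_bigeoPred] using this

theorem measurableSet_exists_bigeodesic :
    MeasurableSet {t : Environment | ∃ v, IsBigeodesic t v} := by
  have h : {t : Environment | ∃ v, IsBigeodesic t v} =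
      ⋃ x, {t : Environment | ∃ v, v 0 = x ∧ IsBigeodesic t v ∧
        ∀ k, v k ∈ (fun _ : ℤ => (Set.univ : Set (ℤ × ℤ))) k} := by
    ext t
    simp only [Set.mem_ofPred_eq, Set.mem_iUnion, Set.mem_univ, implies_true, and_true]
    constructor
    · rintro ⟨v, hv⟩
      exact ⟨v 0, v, rfl, hv⟩
    · rintro ⟨x, v, -, hv⟩
      exact ⟨v, hv⟩
  rw [h]
  exact MeasurableSet.iUnion fun x => measurableSet_exists_bigeodesic_through _ x

/-! ## translations -/

theorem wcost_shift (z : ℤ × ℤ) (t : Environment) {H H' : SimpleGraph (ℤ × ℤ)}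
    (φ : H →g H') (hφ : ∀ x, φ x = x + z) {x y : ℤ × ℤ} (w : H.Walk x y) :
    wcost (A.shift z t) w = wcost t (w.map φ) := by
  rw [wcost_map]
  congr 1
  funext e
  induction e with
  | _ a b => simp [A.shift, hφ]

/-- passage times of translated graphs -/
theorem pt_shift (z : ℤ × ℤ) (t : Environment) {H H' : SimpleGraph (ℤ × ℤ)}
    (hH : ∀ x y, H.Adj x y ↔ H'.Adj (x + z) (y + z)) (x y : ℤ × ℤ) :
    pt H (A.shift z t) x y = pt H' t (x + z) (y + z) := by
  let φ : H ≃g H' := ⟨Equiv.addRight z, fun {a b} => (hH a b).symm⟩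
  have hφ : ∀ x, φ.toHom x = x + z := fun x => rfl
  unfold pt
  refine Function.Surjective.iInf_congr (fun w : H.Walk x y => w.map φ.toHom) ?_ ?_
  · intro w
    have hx : φ.symm.toHom (x + z) = x := by
      change (Equiv.addRight z).symm (x + z) = x
      simp
    have hy : φ.symm.toHom (y + z) = y := by
      change (Equiv.addRight z).symm (y + z) = y
      simp
    refine ⟨(w.map φ.symm.toHom).copy hx hy, ?_⟩
    apply SimpleGraph.Walk.ext_support
    rw [SimpleGraph.Walk.support_map, SimpleGraph.Walk.support_copy,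
      SimpleGraph.Walk.support_map, List.map_map]
    refine (List.map_congr_left fun a _ => ?_).trans (List.map_id _)
    change (Equiv.addRight z) ((Equiv.addRight z).symm a) = a
    simp
  · intro w
    exact (wcost_shift z t φ.toHom hφ w).symm

theorem squareLattice_adj_add (z x y : ℤ × ℤ) :
    squareLattice.Adj (x + z) (y + z) ↔ squareLattice.Adj x y := by
  rw [squareLattice, SimpleGraph.fromRel_adj, SimpleGraph.fromRel_adj]
  obtain ⟨z1, z2⟩ := z
  obtain ⟨x1, x2⟩ := x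
  obtain ⟨y1, y2⟩ := y
  simp only [Prod.mk_add_mk, ne_eq, Prod.mk.injEq]
  constructor <;> intro h <;> omega

theorem passageTime_shift (z : ℤ × ℤ) (t : Environment) (x y : ℤ × ℤ) :
    passageTime (A.shift z t) x y = passageTime t (x + z) (y + z) := by
  rw [passageTime_eq_pt, passageTime_eq_pt]
  exact pt_shift z t (fun a b => (squareLattice_adj_add z a b).symm) x y

theorem isRay_shift (z : ℤ × ℤ) (t : Environment) {H H' : SimpleGraph (ℤ × ℤ)}
    (hH : ∀ x y, H.Adj x y ↔ H'.Adj (x + z) (y + z)) (v : ℕ → ℤ × ℤ) :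
    IsRay (A.shift z t) H v ↔ IsRay t H' fun k => v k + z := by
  constructor
  · intro h
    refine ⟨fun k => (hH _ _).1 (h.adj k), fun i j hij => ?_⟩
    rw [← pt_shift z t hH, ← h.geo i j hij]
    rfl
  · intro h
    refine ⟨fun k => (hH _ _).2 (h.adj k), fun i j hij => ?_⟩
    rw [pt_shift z t hH, ← h.geo i j hij]
    rfl

theorem isBigeodesic_shift (z : ℤ × ℤ) (t : Environment) (v : ℤ → ℤ × ℤ) :
    IsBigeodesic (A.shift z t) v ↔ IsBigeodesic t fun k => v k + z := by
  unfold IsBigeodesic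
  refine and_congr ?_ (and_congr ?_ ?_)
  · constructor
    · intro h i j hij
      exact h (add_right_cancel hij)
    · intro h i j hij
      exact h (by simp only [hij])
  · exact forall_congr' fun i => (squareLattice_adj_add z _ _).symm
  · refine forall_congr' fun i => forall_congr' fun j => forall_congr' fun _ => ?_
    rw [passageTime_shift]
    rfl

theorem bus_shift (z : ℤ × ℤ) (t : Environment) {H H' : SimpleGraph (ℤ × ℤ)}
    (hH : ∀ x y, H.Adj x y ↔ H'.Adj (x + z) (y + z)) (v : ℕ → ℤ × ℤ) (x : ℤ × ℤ) :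
    bus (A.shift z t) H v x = bus t H' (fun k => v k + z) (x + z) := by
  unfold bus
  refine iInf_congr fun n => ?_
  rw [pt_shift z t hH, pt_shift z t hH]

theorem equiv_geoPred {z : ℤ × ℤ} {H : SimpleGraph (ℤ × ℤ)}
    (hH : ∀ x y, H.Adj x y ↔ H.Adj (x + z) (y + z)) : (geoPred H).Equiv z := by
  intro n t v
  unfold geoPred
  refine and_congr ?_ ?_
  · refine forall_congr' fun i => forall_congr' fun j => forall_congr' fun _ =>
      forall_congr' fun _ => ?_
    rw [pt_shift z t hH]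
    rfl
  · exact forall_congr' fun k => forall_congr' fun _ => hH _ _

theorem equiv_sidePred {z : ℤ × ℤ} {C : ℕ → Set (ℤ × ℤ)}
    (hC : ∀ k x, x ∈ C k ↔ x + z ∈ C k) : (sidePred C).Equiv z := by
  intro n t v
  exact forall_congr' fun k => forall_congr' fun _ => hC k _

theorem Pred1.Equiv.and {z : ℤ × ℤ} {Q Q' : Pred1} (h : Q.Equiv z) (h' : Q'.Equiv z) :
    (Q.and Q').Equiv z := fun n t v => and_congr (h n t v) (h' n t v)

theorem equiv_rayPred {z : ℤ × ℤ} {H : SimpleGraph (ℤ × ℤ)}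
    (hH : ∀ x y, H.Adj x y ↔ H.Adj (x + z) (y + z)) {C : ℕ → Set (ℤ × ℤ)}
    (hC : ∀ k x, x ∈ C k ↔ x + z ∈ C k) : (rayPred H C).Equiv z :=
  (equiv_geoPred hH).and (equiv_sidePred hC)

theorem equiv_stepPred {z : ℤ × ℤ} {S : Environment → ℤ × ℤ → ℤ × ℤ → Prop}
    {hS : ∀ x y, MeasurableSet {t | S t x y}}
    (h : ∀ t x y, S (A.shift z t) x y ↔ S t (x + z) (y + z)) : (stepPred S hS).Equiv z := by
  intro n t v
  exact forall_congr' fun k => forall_congr' fun _ => h _ _ _

theorem Pred2.Equiv.and {z : ℤ × ℤ} {Q Q' : Pred2} (h : Q.Equiv z) (h' : Q'.Equiv z) :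
    (Q.and Q').Equiv z := fun n t v => and_congr (h n t v) (h' n t v)

theorem equiv_bigPred (z : ℤ × ℤ) : bigPred.Equiv z := by
  intro n t v
  unfold bigPred
  refine and_congr ?_ ?_
  · refine forall_congr' fun i => forall_congr' fun j => forall_congr' fun _ =>
      forall_congr' fun _ => ?_
    rw [add_left_inj]
  · refine forall_congr' fun i => forall_congr' fun j => forall_congr' fun _ =>
      forall_congr' fun _ => forall_congr' fun _ => ?_
    rw [passageTime_shift]
    rfl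

theorem equiv_sidePred2 {z : ℤ × ℤ} {C : ℤ → Set (ℤ × ℤ)}
    (hC : ∀ k x, x ∈ C k ↔ x + z ∈ C k) : (sidePred2 C).Equiv z := by
  intro n t v
  exact forall_congr' fun k => forall_congr' fun _ => hC k _

theorem equiv_bigeoPred {z : ℤ × ℤ} {C : ℤ → Set (ℤ × ℤ)}
    (hC : ∀ k x, x ∈ C k ↔ x + z ∈ C k) : (bigeoPred C).Equiv z :=
  (equiv_bigPred z).and (equiv_sidePred2 hC)

end Crest.Agent.R151.SEL
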