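import Mathlib
import Crest.Prelude.Def_PlanarFPP
import Crest.Agent.R151.S113C

/-!
# R151, SEL D (helper113): the selected bigeodesic that leaves the lower half plane at `z`

* `CrP t v` : `v` is a bigeodesic, `v (-1)` is the vertex below `v 0` and `v k`, `k ≥ 0`, stays
  in `{y ≥ (v 0).2}`.
* `Cr z t` : there is one with `v 0 = z`; `gam z t`: the selected one.
* `jn z t`: entrance index, `xh z t`: the last vertex of the lower ray.
* `upray`, `loray`: the two rays, `fg`, `gg` their Busemann functions.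
Everything is measurable in `t` and covariant under all translations of the lattice.
-/

set_option autoImplicit false

open MeasureTheory
open Crest.ProbabilityR.FirstPassage

namespace Crest.Agent.R151.SEL

open Crest.Agent.R151 Crest.Agent.R151.Y

/-- the half plane `{y ≥ k}` -/
def Up (k : ℤ) : Set (ℤ × ℤ) := {z | k ≤ z.2}

/-- the half plane `{y ≤ k}` -/
def Dn (k : ℤ) : Set (ℤ × ℤ) := {z | z.2 ≤ k}

@[simp] theorem mem_Up {k : ℤ} {z : ℤ × ℤ} : z ∈ Up k ↔ k ≤ z.2 := Iff.rfl

@[simp] theorem mem_Dn {k : ℤ} {z : ℤ × ℤ} : z ∈ Dn k ↔ z.2 ≤ k := Iff.rfl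

theorem adj_Up_add (k : ℤ) (a x y : ℤ × ℤ) :
    (reg (Up k)).Adj x y ↔ (reg (Up (k + a.2))).Adj (x + a) (y + a) := by
  rw [reg_adj, reg_adj, squareLattice_adj_add]
  simp only [mem_Up, Prod.snd_add, add_le_add_iff_right]

theorem adj_Dn_add (k : ℤ) (a x y : ℤ × ℤ) :
    (reg (Dn k)).Adj x y ↔ (reg (Dn (k + a.2))).Adj (x + a) (y + a) := by
  rw [reg_adj, reg_adj, squareLattice_adj_add]
  simp only [mem_Dn, Prod.snd_add, add_le_add_iff_right]

/-! ## the predicate -/

/-- `v (-1)` is below `v 0`, and `v k`, `k ≥ 0`, stays above the line of `v 0` -/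
def LastUp (v : ℤ → ℤ × ℤ) : Prop :=
  (v (-1)).2 = (v 0).2 - 1 ∧ ∀ k : ℕ, (v 0).2 ≤ (v k).2

/-- the side condition as a prefix predicate -/
def lastUpPred : Pred2 where
  P n _ v := ∀ k : ℤ, |k| ≤ n → (k = -1 → (v k).2 = (v 0).2 - 1) ∧ (0 ≤ k → (v 0).2 ≤ (v k).2)
  cong n _ v v' h hP := fun k hk => by
    rw [← h k hk, ← h 0 (by simp)]
    exact hP k hk
  anti n _ v hP := fun k hk => hP k (by push_cast; omega)
  meas n v := MeasurableSet.const _

theorem sat_lastUpPred {x : ℤ × ℤ} {t : Environment} {v : ℤ → ℤ × ℤ} :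
    lastUpPred.Sat x t v ↔ v 0 = x ∧ (∀ n, squareLattice.Adj (v n) (v (n + 1))) ∧ LastUp v := by
  constructor
  · intro h
    refine ⟨h.zero, h.adj, (h.prop 1 (-1) (by simp)).1 rfl, fun k => ?_⟩
    exact (h.prop k k (by simp)).2 (by omega)
  · rintro ⟨h1, h2, h3, h4⟩
    refine ⟨h1, h2, fun n k _ => ⟨fun hk => by rw [hk]; exact h3, fun hk => ?_⟩⟩
    obtain ⟨m, rfl⟩ := Int.eq_ofNat_of_zero_le hk
    exact h4 m

theorem equiv_lastUpPred (z : ℤ × ℤ) : lastUpPred.Equiv z := by
  intro n t v
  refine forall_congr' fun k => forall_congr' fun _ => and_congr (imp_congr_right fun _ => ?_)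
    (imp_congr_right fun _ => ?_)
  · simp only [Prod.snd_add]
    omega
  · simp only [Prod.snd_add]
    omega

/-- bigeodesics whose last upward crossing of the row of `V`-edges below `v 0` is at time `0` -/
def CrP (t : Environment) (v : ℤ → ℤ × ℤ) : Prop := IsBigeodesic t v ∧ LastUp v

/-- the prefix predicate of `CrP` -/
def crPred : Pred2 := bigPred.and lastUpPred

theorem sat_crPred {x : ℤ × ℤ} {t : Environment} {v : ℤ → ℤ × ℤ} :
    crPred.Sat x t v ↔ v 0 = x ∧ CrP t v := by
  rw [crPred, Pred2.sat_and, sat_bigPred, sat_lastUpPred]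
  constructor
  · rintro ⟨⟨h1, h2⟩, -, -, h3⟩
    exact ⟨h1, h2, h3⟩
  · rintro ⟨h1, h2, h3⟩
    exact ⟨⟨h1, h2⟩, h1, h2.2.1, h3⟩

theorem equiv_crPred (z : ℤ × ℤ) : crPred.Equiv z :=
  (equiv_bigPred z).and (equiv_lastUpPred z)

/-- there is a bigeodesic with last upward crossing at `z` -/
def Cr (z : ℤ × ℤ) (t : Environment) : Prop := ∃ v, v 0 = z ∧ CrP t v

theorem cr_iff {z : ℤ × ℤ} {t : Environment} : Cr z t ↔ ∃ v, crPred.Sat z t v := by
  simp only [sat_crPred]
  rfl

theorem measurableSet_cr (z : ℤ × ℤ) : MeasurableSet {t | Cr z t} := by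
  simp only [cr_iff]
  exact crPred.measurableSet_exists z

/-- a bigeodesic that eventually stays above the line `k` and is somewhere below it crosses -/
theorem exists_cr_of_bigeodesic {t : Environment} {v : ℤ → ℤ × ℤ} (h : IsBigeodesic t v) {k : ℤ}
    (hup : ∃ N : ℤ, ∀ n, N ≤ n → k ≤ (v n).2) (hlow : ∃ n, (v n).2 < k) :
    ∃ i : ℤ, (v i).2 = k ∧ CrP t fun n => v (i + n) := by
  obtain ⟨N, hN⟩ := hup
  obtain ⟨m, hm⟩ := hlow
  -- the last time below
  have hb : ∃ b : ℤ, ∀ n, (v n).2 < k → n ≤ b := ⟨N, fun n hn => by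
    by_contra hcon
    exact absurd (hN n (by omega)) (not_le.2 hn)⟩
  obtain ⟨j, hj, hmax⟩ := Int.exists_greatest_of_bdd hb ⟨m, hm⟩
  have hj1 : k ≤ (v (j + 1)).2 := by
    by_contra hcon
    have := hmax (j + 1) (not_le.1 hcon)
    omega
  obtain ⟨a, ha⟩ := exists_dir (h.2.1 j)
  have hda : (dir a).2 ≤ 1 := by
    fin_cases a <;> simp [dir]
  have hj2 : (v (j + 1)).2 = (v j).2 + (dir a).2 := by rw [ha, Prod.snd_add]
  have hk : (v (j + 1)).2 = k := by omega
  refine ⟨j + 1, hk, ?_, ?_, ?_⟩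
  · refine ⟨fun a b hab => ?_, fun i => ?_, fun i i' hii => ?_⟩
    · have := h.1 hab
      omega
    · have := h.2.1 (j + 1 + i)
      rw [add_assoc (j + 1) i 1] at this
      exact this
    · have := h.2.2 (j + 1 + i) (j + 1 + i') (by omega)
      rw [← this]
      refine Finset.sum_bij (fun k _ => j + 1 + k) ?_ ?_ ?_ ?_
      · intro k hk
        rw [Finset.mem_Ico] at *
        omega
      · intro a₁ _ a₂ _ h
        simpa using h
      · intro k hk
        rw [Finset.mem_Ico] at hk
        exact ⟨k - (j + 1), by rw [Finset.mem_Ico]; omega, by omega⟩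
      · intro k _
        rw [add_assoc (j + 1) k 1]
  · change (v (j + 1 + -1)).2 = (v (j + 1 + 0)).2 - 1
    rw [show j + 1 + -1 = j by ring, add_zero]
    omega
  · intro n
    change (v (j + 1 + 0)).2 ≤ (v (j + 1 + n)).2
    rw [add_zero, hk]
    by_contra hcon
    have := hmax (j + 1 + n) (not_le.1 hcon)
    omega

/-- the selected bigeodesic -/
noncomputable def gam (z : ℤ × ℤ) (t : Environment) : ℤ → ℤ × ℤ := crPred.sel2 z t

theorem gam_spec {z : ℤ × ℤ} {t : Environment} (h : Cr z t) : gam z t 0 = z ∧ CrP t (gam z t) := by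
  rw [cr_iff] at h
  exact sat_crPred.1 (crPred.sat_sel2 h)

theorem measurable_gam (z : ℤ × ℤ) (k : ℤ) : Measurable fun t => gam z t k :=
  crPred.measurable_sel2_apply z k

theorem gam_add (z a : ℤ × ℤ) (t : Environment) (k : ℤ) :
    gam (z + a) t k = gam z (A.shift a t) k + a := (equiv_crPred a).sel2 z t k

theorem cr_add (z a : ℤ × ℤ) (t : Environment) : Cr (z + a) t ↔ Cr z (A.shift a t) := by
  rw [cr_iff, cr_iff]
  constructor
  · rintro ⟨v, hv⟩
    refine ⟨fun k => v k - a, ?_⟩
    rw [(equiv_crPred a).sat_iff]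
    simpa using hv
  · rintro ⟨v, hv⟩
    rw [(equiv_crPred a).sat_iff] at hv
    exact ⟨_, hv⟩

/-! ## least index of a random set of natural numbers -/

theorem measurable_sInf_nat {Ω : Type*} [MeasurableSpace Ω] {P : Ω → ℕ → Prop}
    (h : ∀ j, MeasurableSet {ω | P ω j}) : Measurable fun ω => sInf {j | P ω j} := by
  refine measurable_to_countable' fun m => ?_
  have key : (fun ω => sInf {j | P ω j}) ⁻¹' {m} =
      ({ω | P ω m} ∩ ⋂ i, ⋂ (_ : i < m), {ω | P ω i}ᶜ) ∪
        ({_ω | m = 0} ∩ ⋂ i, {ω | P ω i}ᶜ) := by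
    ext ω
    simp only [Set.mem_preimage, Set.mem_singleton_iff, Set.mem_union, Set.mem_inter_iff,
      Set.mem_ofPred_eq, Set.mem_iInter, Set.mem_compl_iff]
    constructor
    · intro hm
      by_cases hne : {j | P ω j}.Nonempty
      · left
        have h1 := Nat.sInf_mem hne
        rw [hm] at h1
        refine ⟨h1, fun i hi hP => ?_⟩
        have h2 : sInf {j | P ω j} ≤ i := Nat.sInf_le hP
        omega
      · right
        rw [Set.not_nonempty_iff_eq_empty] at hne
        refine ⟨by rw [← hm, hne, Nat.sInf_empty], fun i hP => ?_⟩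
        have : i ∈ {j | P ω j} := hP
        rw [hne] at this
        exact this
    · rintro (⟨h1, h2⟩ | ⟨h1, h2⟩)
      · refine le_antisymm (Nat.sInf_le h1) ?_
        by_contra hlt
        have hlt : sInf {j | P ω j} < m := not_le.1 hlt
        exact h2 _ hlt (Nat.sInf_mem ⟨m, h1⟩)
      · have : {j | P ω j} = ∅ := Set.eq_empty_iff_forall_notMem.2 h2
        rw [this, Nat.sInf_empty, h1]
  rw [key]
  refine MeasurableSet.union ((h m).inter ?_) ((MeasurableSet.const _).inter ?_)
  · exact MeasurableSet.iInter fun i => MeasurableSet.iInter fun _ => (h i).compl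
  · exact MeasurableSet.iInter fun i => (h i).compl

/-! ## the lower ray -/

/-- entrance index: the least `j` such that `gam (-i)`, `i ≥ j`, stays strictly below the line -/
noncomputable def jn (z : ℤ × ℤ) (t : Environment) : ℕ :=
  sInf {j | ∀ i : ℕ, j ≤ i → (gam z t (-i)).2 ≤ z.2 - 1}

/-- the path comes from below: the set in the definition of `jn` is nonempty -/
def Below (z : ℤ × ℤ) (t : Environment) : Prop :=
  ∃ j : ℕ, ∀ i : ℕ, j ≤ i → (gam z t (-i)).2 ≤ z.2 - 1

theorem measurable_jn (z : ℤ × ℤ) : Measurable fun t => jn z t := by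
  refine measurable_sInf_nat fun j => ?_
  have : {t | ∀ i : ℕ, j ≤ i → (gam z t (-i)).2 ≤ z.2 - 1} =
      ⋂ i : ℕ, ⋂ (_ : j ≤ i), (fun t => gam z t (-i)) ⁻¹' {w | w.2 ≤ z.2 - 1} := by
    ext t
    simp
  rw [this]
  exact MeasurableSet.iInter fun i => MeasurableSet.iInter fun _ =>
    measurable_gam z _ (MeasurableSet.of_discrete)

theorem measurableSet_below (z : ℤ × ℤ) : MeasurableSet {t | Below z t} := by
  have : {t | Below z t} = ⋃ j : ℕ, ⋂ i : ℕ, ⋂ (_ : j ≤ i),
      (fun t => gam z t (-i)) ⁻¹' {w | w.2 ≤ z.2 - 1} := by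
    ext t
    simp [Below]
  rw [this]
  exact MeasurableSet.iUnion fun j => MeasurableSet.iInter fun i => MeasurableSet.iInter fun _ =>
    measurable_gam z _ (MeasurableSet.of_discrete)

theorem jn_add (z a : ℤ × ℤ) (t : Environment) : jn (z + a) t = jn z (A.shift a t) := by
  unfold jn
  congr 1
  ext j
  simp only [gam_add, Prod.snd_add, Set.mem_ofPred_eq]
  refine forall_congr' fun i => forall_congr' fun _ => ?_
  constructor <;> intro h <;> omega

theorem below_add (z a : ℤ × ℤ) (t : Environment) : Below (z + a) t ↔ Below z (A.shift a t) := by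
  unfold Below
  simp only [gam_add, Prod.snd_add]
  refine exists_congr fun j => forall_congr' fun i => forall_congr' fun _ => ?_
  constructor <;> intro h <;> omega

theorem jn_spec {z : ℤ × ℤ} {t : Environment} (h : Below z t) {i : ℕ} (hi : jn z t ≤ i) :
    (gam z t (-i)).2 ≤ z.2 - 1 := by
  have := Nat.sInf_mem (s := {j | ∀ i : ℕ, j ≤ i → (gam z t (-i)).2 ≤ z.2 - 1}) h
  exact this i hi

theorem one_le_jn {z : ℤ × ℤ} {t : Environment} (hc : Cr z t) (h : Below z t) : 1 ≤ jn z t := by
  by_contra hcon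
  have h0 : jn z t = 0 := by omega
  have := jn_spec h (i := 0) (by omega)
  have h1 := (gam_spec hc).1
  simp only [Nat.cast_zero, neg_zero, h1] at this
  omega

/-- the last vertex of the lower ray -/
noncomputable def xh (z : ℤ × ℤ) (t : Environment) : ℤ × ℤ := gam z t (-(jn z t : ℤ))

theorem measurable_xh (z : ℤ × ℤ) : Measurable fun t => xh z t :=
  measurable_eval (f := fun t (n : ℕ) => gam z t (-(n : ℤ))) (fun _ => measurable_gam z _)
    (measurable_jn z)

theorem xh_add (z a : ℤ × ℤ) (t : Environment) : xh (z + a) t = xh z (A.shift a t) + a := by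
  unfold xh
  rw [gam_add, jn_add]

theorem xh_snd {z : ℤ × ℤ} {t : Environment} (hc : Cr z t) (h : Below z t) :
    (xh z t).2 = z.2 - 1 := by
  have h1 := one_le_jn hc h
  have h2 := jn_spec h le_rfl
  -- one step earlier (in `i`) the path is not below
  have h3 : ¬ ∀ i : ℕ, jn z t - 1 ≤ i → (gam z t (-i)).2 ≤ z.2 - 1 := by
    intro hcon
    have : jn z t ≤ jn z t - 1 := Nat.sInf_le hcon
    omega
  push Not at h3
  obtain ⟨i, hi1, hi2⟩ := h3
  have hi3 : i = jn z t - 1 := by
    by_contra hne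
    have := jn_spec h (i := i) (by omega)
    omega
  have hadj := (gam_spec hc).2.1.2.1 (-(jn z t : ℤ))
  obtain ⟨a, ha⟩ := exists_dir hadj
  have hda : (dir a).2 ≤ 1 := by
    fin_cases a <;> simp [dir]
  have h4 : (gam z t (-(jn z t : ℤ) + 1)).2 = (gam z t (-(jn z t : ℤ))).2 + (dir a).2 := by
    rw [ha, Prod.snd_add]
  have h5 : -(jn z t : ℤ) + 1 = -(i : ℤ) := by omega
  rw [h5] at h4
  unfold xh
  omega

/-- upper ray -/
noncomputable def upray (z : ℤ × ℤ) (t : Environment) (k : ℕ) : ℤ × ℤ := gam z t k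

/-- lower ray -/
noncomputable def loray (z : ℤ × ℤ) (t : Environment) (k : ℕ) : ℤ × ℤ :=
  gam z t (-(jn z t + k : ℕ))

theorem measurable_upray (z : ℤ × ℤ) (k : ℕ) : Measurable fun t => upray z t k :=
  measurable_gam z k

theorem measurable_loray (z : ℤ × ℤ) (k : ℕ) : Measurable fun t => loray z t k :=
  measurable_eval (f := fun t (n : ℕ) => gam z t (-((n + k : ℕ) : ℤ)))
    (fun _ => measurable_gam z _) (measurable_jn z)

theorem upray_add (z a : ℤ × ℤ) (t : Environment) (k : ℕ) :
    upray (z + a) t k = upray z (A.shift a t) k + a := gam_add z a t k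

theorem loray_add (z a : ℤ × ℤ) (t : Environment) (k : ℕ) :
    loray (z + a) t k = loray z (A.shift a t) k + a := by
  unfold loray
  rw [gam_add, jn_add]

theorem upray_zero {z : ℤ × ℤ} {t : Environment} (h : Cr z t) : upray z t 0 = z :=
  (gam_spec h).1

theorem loray_zero (z : ℤ × ℤ) (t : Environment) : loray z t 0 = xh z t := by
  simp [loray, xh]

theorem isRay_upray {z : ℤ × ℤ} {t : Environment} (ht : ∀ e, 0 ≤ t e) (h : Cr z t) :
    IsRay t (reg (Up z.2)) (upray z t) := by
  obtain ⟨h0, h1, h2, h3⟩ := gam_spec h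
  have hr := isRay_of_isBigeodesic h1 ht 0
  simp only [zero_add] at hr
  refine hr.of_le ht (reg_le _) fun k => ?_
  rw [reg_adj]
  have e1 := h3 k
  have e2 := h3 (k + 1)
  rw [h0] at e1 e2
  exact ⟨hr.adj k, e1, e2⟩

theorem isRay_loray {z : ℤ × ℤ} {t : Environment} (ht : ∀ e, 0 ≤ t e) (h : Cr z t)
    (hb : Below z t) : IsRay t (reg (Dn (z.2 - 1))) (loray z t) := by
  obtain ⟨h0, h1, h2, h3⟩ := gam_spec h
  have hr := isRay_of_isBigeodesic_neg h1 ht (-(jn z t : ℤ))
  have hv : (fun k : ℕ => gam z t (-(jn z t : ℤ) - k)) = loray z t := by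
    funext k
    unfold loray
    congr 1
    push_cast
    ring
  rw [hv] at hr
  refine hr.of_le ht (reg_le _) fun k => ?_
  rw [reg_adj]
  exact ⟨hr.adj k, jn_spec hb (by omega), jn_spec hb (by omega)⟩

/-! ## label functions -/

/-- Busemann function of the upper ray in the half plane above -/
noncomputable def fg (z : ℤ × ℤ) (t : Environment) (w : ℤ × ℤ) : ℝ :=
  bus t (reg (Up z.2)) (upray z t) w

/-- Busemann function of the lower ray in the half plane below -/
noncomputable def gg (z : ℤ × ℤ) (t : Environment) (w : ℤ × ℤ) : ℝ :=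
  bus t (reg (Dn (z.2 - 1))) (loray z t) w

theorem measurable_fg (z w : ℤ × ℤ) : Measurable fun t => fg z t w :=
  measurable_bus _ measurable_id (fun n => measurable_upray z n) w

theorem measurable_gg (z w : ℤ × ℤ) : Measurable fun t => gg z t w :=
  measurable_bus _ measurable_id (fun n => measurable_loray z n) w

theorem fg_add (z a : ℤ × ℤ) (t : Environment) (w : ℤ × ℤ) :
    fg (z + a) t (w + a) = fg z (A.shift a t) w := by
  unfold fg
  rw [bus_shift a t (adj_Up_add z.2 a)]
  have : (fun k => upray z (A.shift a t) k + a) = upray (z + a) t :=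
    funext fun k => (upray_add z a t k).symm
  rw [this, Prod.snd_add]

theorem gg_add (z a : ℤ × ℤ) (t : Environment) (w : ℤ × ℤ) :
    gg (z + a) t (w + a) = gg z (A.shift a t) w := by
  unfold gg
  rw [bus_shift a t (adj_Dn_add (z.2 - 1) a)]
  have : (fun k => loray z (A.shift a t) k + a) = loray (z + a) t :=
    funext fun k => (loray_add z a t k).symm
  rw [this, Prod.snd_add, show z.2 - 1 + a.2 = z.2 + a.2 - 1 by ring]

end Crest.Agent.R151.SEL
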