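import Mathlib
import Crest.Prelude.Def_PlanarFPP
import Crest.Agent.R151.S113D

/-!
# R151, SEL E (helper113): last entrance to a half plane, tails, label functions at every level

For a two-sided path `v` with `(v n).2 → ±∞` as `n → ±∞` (`UpDown v`):
* `entU k v`: the time of the last entrance to `{y ≥ k}`; `tailU k v : ℕ → ℤ × ℤ` the path from
  there on; `fU t k v w` its Busemann function in `reg (Up k)`;
* `entD k v`: the time of the first exit from `{y ≤ k}`; `tailD k v` the path from there backwards;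
  `fD t k v w` its Busemann function in `reg (Dn k)`.
All of them are measurable functions of a measurable path, and covariant.
-/

set_option autoImplicit false

open MeasureTheory Filter
open Crest.ProbabilityR.FirstPassage

namespace Crest.Agent.R151.SEL

open Crest.Agent.R151 Crest.Agent.R151.Y

/-- the path comes from `y = -∞` and goes to `y = +∞` -/
def UpDown (v : ℤ → ℤ × ℤ) : Prop :=
  Tendsto (fun n => (v n).2) atTop atTop ∧ Tendsto (fun n => (v n).2) atBot atBot

/-- last entrance time to `{y ≥ k}` -/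
noncomputable def entU (k : ℤ) (v : ℤ → ℤ × ℤ) : ℤ := sInf {j | ∀ i, j ≤ i → k ≤ (v i).2}

/-- first exit time from `{y ≤ k}` -/
noncomputable def entD (k : ℤ) (v : ℤ → ℤ × ℤ) : ℤ := sSup {j | ∀ i, i ≤ j → (v i).2 ≤ k}

/-- the part in `{y ≥ k}` -/
noncomputable def tailU (k : ℤ) (v : ℤ → ℤ × ℤ) (n : ℕ) : ℤ × ℤ := v (entU k v + n)

/-- the part in `{y ≤ k}`, backwards -/
noncomputable def tailD (k : ℤ) (v : ℤ → ℤ × ℤ) (n : ℕ) : ℤ × ℤ := v (entD k v - n)

section deterministic

variable {k : ℤ} {v : ℤ → ℤ × ℤ}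

theorem UpDown.nonemptyU (h : UpDown v) (k : ℤ) :
    ({j | ∀ i, j ≤ i → k ≤ (v i).2} : Set ℤ).Nonempty := by
  obtain ⟨N, hN⟩ := eventually_atTop.1 (h.1.eventually (eventually_ge_atTop k))
  exact ⟨N, fun i hi => hN i hi⟩

theorem UpDown.bddBelowU (h : UpDown v) (k : ℤ) :
    BddBelow {j : ℤ | ∀ i, j ≤ i → k ≤ (v i).2} := by
  obtain ⟨N, hN⟩ := eventually_atBot.1 (h.2.eventually (eventually_le_atBot (k - 1)))
  refine ⟨N, fun j hj => ?_⟩
  by_contra hcon
  have h1 := hN N le_rfl
  have h2 := hj N (by omega)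
  omega

theorem UpDown.entU_spec (h : UpDown v) {i : ℤ} (hi : entU k v ≤ i) : k ≤ (v i).2 :=
  (Int.csInf_mem (h.nonemptyU k) (h.bddBelowU k)) i hi

theorem UpDown.entU_le (h : UpDown v) {j : ℤ} (hj : ∀ i, j ≤ i → k ≤ (v i).2) : entU k v ≤ j :=
  csInf_le (h.bddBelowU k) hj

theorem UpDown.entU_pred (h : UpDown v) : (v (entU k v - 1)).2 < k := by
  by_contra hcon
  have : entU k v ≤ entU k v - 1 := by
    refine h.entU_le fun i hi => ?_
    rcases eq_or_lt_of_le hi with h1 | h1
    · rw [← h1]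
      omega
    · exact h.entU_spec (by omega)
  omega

theorem snd_succ_le {v : ℤ → ℤ × ℤ} (hadj : ∀ n, squareLattice.Adj (v n) (v (n + 1))) (n : ℤ) :
    (v (n + 1)).2 ≤ (v n).2 + 1 ∧ (v n).2 ≤ (v (n + 1)).2 + 1 ∧
      (v (n + 1)).1 ≤ (v n).1 + 1 ∧ (v n).1 ≤ (v (n + 1)).1 + 1 ∧
      ((v (n + 1)).2 = (v n).2 ∨ (v (n + 1)).1 = (v n).1) := by
  obtain ⟨a, ha⟩ := exists_dir (hadj n)
  have h1 : (v (n + 1)).2 = (v n).2 + (dir a).2 := by rw [ha, Prod.snd_add]
  have h2 : (v (n + 1)).1 = (v n).1 + (dir a).1 := by rw [ha, Prod.fst_add]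
  fin_cases a <;> simp [dir] at h1 h2 <;> omega

theorem UpDown.entU_snd (h : UpDown v) (hadj : ∀ n, squareLattice.Adj (v n) (v (n + 1))) :
    (v (entU k v)).2 = k := by
  have h1 := h.entU_pred (k := k)
  have h2 := h.entU_spec (k := k) le_rfl
  have h3 := snd_succ_le hadj (entU k v - 1)
  rw [sub_add_cancel] at h3
  omega

theorem UpDown.entU_pred_eq (h : UpDown v) (hadj : ∀ n, squareLattice.Adj (v n) (v (n + 1))) :
    v (entU k v - 1) = ((v (entU k v)).1, k - 1) := by
  have h1 := h.entU_pred (k := k)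
  have h2 := h.entU_spec (k := k) le_rfl
  have h3 := snd_succ_le hadj (entU k v - 1)
  rw [sub_add_cancel] at h3
  have h4 := h.entU_snd (k := k) hadj
  refine Prod.ext ?_ ?_
  · omega
  · change _ = k - 1
    omega

theorem UpDown.nonemptyD (h : UpDown v) (k : ℤ) :
    ({j | ∀ i, i ≤ j → (v i).2 ≤ k} : Set ℤ).Nonempty := by
  obtain ⟨N, hN⟩ := eventually_atBot.1 (h.2.eventually (eventually_le_atBot k))
  exact ⟨N, fun i hi => hN i hi⟩

theorem UpDown.bddAboveD (h : UpDown v) (k : ℤ) :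
    BddAbove {j : ℤ | ∀ i, i ≤ j → (v i).2 ≤ k} := by
  obtain ⟨N, hN⟩ := eventually_atTop.1 (h.1.eventually (eventually_ge_atTop (k + 1)))
  refine ⟨N, fun j hj => ?_⟩
  by_contra hcon
  have h1 := hN N le_rfl
  have h2 := hj N (by omega)
  omega

theorem UpDown.entD_spec (h : UpDown v) {i : ℤ} (hi : i ≤ entD k v) : (v i).2 ≤ k :=
  (Int.csSup_mem (h.nonemptyD k) (h.bddAboveD k)) i hi

theorem UpDown.le_entD (h : UpDown v) {j : ℤ} (hj : ∀ i, i ≤ j → (v i).2 ≤ k) : j ≤ entD k v :=
  le_csSup (h.bddAboveD k) hj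

theorem UpDown.entD_succ (h : UpDown v) : k < (v (entD k v + 1)).2 := by
  by_contra hcon
  have : entD k v + 1 ≤ entD k v := by
    refine h.le_entD fun i hi => ?_
    rcases eq_or_lt_of_le hi with h1 | h1
    · rw [h1]
      omega
    · exact h.entD_spec (by omega)
  omega

theorem UpDown.entD_snd (h : UpDown v) (hadj : ∀ n, squareLattice.Adj (v n) (v (n + 1))) :
    (v (entD k v)).2 = k := by
  have h1 := h.entD_succ (k := k)
  have h2 := h.entD_spec (k := k) le_rfl
  have h3 := snd_succ_le hadj (entD k v)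
  omega

theorem UpDown.entD_lt_entU (h : UpDown v) {k l : ℤ} (hkl : k < l) : entD k v < entU l v := by
  by_contra hcon
  have h1 := h.entD_spec (k := k) (i := entU l v) (by omega)
  have h2 := h.entU_spec (k := l) (i := entU l v) le_rfl
  omega

theorem UpDown.entU_mono (h : UpDown v) {k l : ℤ} (hkl : k ≤ l) : entU k v ≤ entU l v :=
  h.entU_le fun _ hi => hkl.trans (h.entU_spec hi)

theorem UpDown.entD_mono (h : UpDown v) {k l : ℤ} (hkl : k ≤ l) : entD k v ≤ entD l v :=
  h.le_entD fun _ hi => (h.entD_spec hi).trans hkl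

theorem UpDown.shift (h : UpDown v) (a : ℤ × ℤ) : UpDown fun n => v n + a := by
  refine ⟨?_, ?_⟩
  · simpa using tendsto_atTop_add_const_right _ a.2 h.1
  · simpa using tendsto_atBot_add_const_right _ a.2 h.2

theorem updown_add_iff (v : ℤ → ℤ × ℤ) (a : ℤ × ℤ) : (UpDown fun n => v n + a) ↔ UpDown v := by
  refine ⟨fun h => ?_, fun h => h.shift a⟩
  have := h.shift (-a)
  simpa using this

theorem UpDown.reparam (h : UpDown v) (m : ℤ) : UpDown fun n => v (m + n) :=
  ⟨h.1.comp (tendsto_atTop_add_const_left _ m tendsto_id),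
    h.2.comp (tendsto_atBot_add_const_left _ m tendsto_id)⟩

theorem entU_add (k : ℤ) (v : ℤ → ℤ × ℤ) (a : ℤ × ℤ) :
    entU (k + a.2) (fun n => v n + a) = entU k v := by
  unfold entU
  congr 1
  ext j
  simp

theorem entD_add (k : ℤ) (v : ℤ → ℤ × ℤ) (a : ℤ × ℤ) :
    entD (k + a.2) (fun n => v n + a) = entD k v := by
  unfold entD
  congr 1
  ext j
  simp

theorem tailU_add (k : ℤ) (v : ℤ → ℤ × ℤ) (a : ℤ × ℤ) :
    tailU (k + a.2) (fun n => v n + a) = fun n => tailU k v n + a := by
  funext n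
  unfold tailU
  rw [entU_add]

theorem tailD_add (k : ℤ) (v : ℤ → ℤ × ℤ) (a : ℤ × ℤ) :
    tailD (k + a.2) (fun n => v n + a) = fun n => tailD k v n + a := by
  funext n
  unfold tailD
  rw [entD_add]

theorem UpDown.entU_reparam (h : UpDown v) (m : ℤ) :
    entU k (fun n => v (m + n)) = entU k v - m := by
  refine le_antisymm ((h.reparam m).entU_le fun i hi => h.entU_spec (by omega)) ?_
  have : entU k v ≤ entU k (fun n => v (m + n)) + m := by
    refine h.entU_le fun i hi => ?_
    have := (h.reparam m).entU_spec (k := k) (i := i - m) (by omega)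
    simpa using this
  omega

theorem UpDown.entD_reparam (h : UpDown v) (m : ℤ) :
    entD k (fun n => v (m + n)) = entD k v - m := by
  refine le_antisymm ?_ ((h.reparam m).le_entD fun i hi => h.entD_spec (by omega))
  have : entD k (fun n => v (m + n)) + m ≤ entD k v := by
    refine h.le_entD fun i hi => ?_
    have := (h.reparam m).entD_spec (k := k) (i := i - m) (by omega)
    simpa using this
  omega

theorem UpDown.tailU_reparam (h : UpDown v) (m : ℤ) :
    tailU k (fun n => v (m + n)) = tailU k v := by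
  funext n
  unfold tailU
  rw [h.entU_reparam]
  congr 1
  ring

theorem UpDown.tailD_reparam (h : UpDown v) (m : ℤ) :
    tailD k (fun n => v (m + n)) = tailD k v := by
  funext n
  unfold tailD
  rw [h.entD_reparam]
  congr 1
  ring

/-- reflection in the line `y = 0` composed with time reversal -/
def rv (v : ℤ → ℤ × ℤ) (n : ℤ) : ℤ × ℤ := ((v (-n)).1, -(v (-n)).2)

theorem rv_rv (v : ℤ → ℤ × ℤ) : rv (rv v) = v := by
  funext n
  simp [rv]

theorem UpDown.rv (h : UpDown v) : UpDown (rv v) := by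
  refine ⟨?_, ?_⟩
  · have := (tendsto_neg_atBot_atTop.comp h.2).comp tendsto_neg_atTop_atBot
    exact this
  · have := (tendsto_neg_atTop_atBot.comp h.1).comp tendsto_neg_atBot_atTop
    exact this

theorem UpDown.entU_rv (h : UpDown v) : entU (-k) (SEL.rv v) = -entD k v := by
  have hr := h.rv
  refine le_antisymm ?_ ?_
  · refine hr.entU_le fun i hi => ?_
    have := h.entD_spec (k := k) (i := -i) (by omega)
    simp only [SEL.rv]
    omega
  · have : -entU (-k) (SEL.rv v) ≤ entD k v := by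
      refine h.le_entD fun i hi => ?_
      have := hr.entU_spec (k := -k) (i := -i) (by omega)
      simp only [SEL.rv, neg_neg] at this
      omega
    omega

theorem UpDown.tailU_rv (h : UpDown v) (n : ℕ) :
    tailU (-k) (SEL.rv v) n = ((tailD k v n).1, -(tailD k v n).2) := by
  unfold tailU tailD
  rw [h.entU_rv]
  simp only [SEL.rv]
  have : -(-entD k v + (n : ℤ)) = entD k v - n := by ring
  rw [this]

end deterministic

section rays

variable {t : Environment} {v : ℤ → ℤ × ℤ}

theorem isRay_tailU (h : IsBigeodesic t v) (ht : ∀ e, 0 ≤ t e) (hv : UpDown v) (k : ℤ) :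
    IsRay t (reg (Up k)) (tailU k v) := by
  have hr := isRay_of_isBigeodesic h ht (entU k v)
  refine hr.of_le ht (reg_le _) fun n => ?_
  rw [reg_adj]
  exact ⟨hr.adj n, hv.entU_spec (by omega), hv.entU_spec (by omega)⟩

theorem isRay_tailD (h : IsBigeodesic t v) (ht : ∀ e, 0 ≤ t e) (hv : UpDown v) (k : ℤ) :
    IsRay t (reg (Dn k)) (tailD k v) := by
  have hr := isRay_of_isBigeodesic_neg h ht (entD k v)
  refine hr.of_le ht (reg_le _) fun n => ?_
  rw [reg_adj]
  exact ⟨hr.adj n, hv.entD_spec (by omega), hv.entD_spec (by omega)⟩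

/-- Busemann function of the upper tail in `{y ≥ k}` -/
noncomputable def fU (t : Environment) (k : ℤ) (v : ℤ → ℤ × ℤ) (w : ℤ × ℤ) : ℝ :=
  bus t (reg (Up k)) (tailU k v) w

/-- Busemann function of the lower tail in `{y ≤ k}` -/
noncomputable def fD (t : Environment) (k : ℤ) (v : ℤ → ℤ × ℤ) (w : ℤ × ℤ) : ℝ :=
  bus t (reg (Dn k)) (tailD k v) w

theorem fU_shift (a : ℤ × ℤ) (t : Environment) (k : ℤ) (v : ℤ → ℤ × ℤ) (w : ℤ × ℤ) :
    fU t (k + a.2) (fun n => v n + a) (w + a) = fU (A.shift a t) k v w := by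
  unfold fU
  rw [tailU_add, bus_shift a t (adj_Up_add k a)]

theorem fD_shift (a : ℤ × ℤ) (t : Environment) (k : ℤ) (v : ℤ → ℤ × ℤ) (w : ℤ × ℤ) :
    fD t (k + a.2) (fun n => v n + a) (w + a) = fD (A.shift a t) k v w := by
  unfold fD
  rw [tailD_add, bus_shift a t (adj_Dn_add k a)]

theorem fU_reparam (hv : UpDown v) (m k : ℤ) (w : ℤ × ℤ) :
    fU t k (fun n => v (m + n)) w = fU t k v w := by
  unfold fU
  rw [hv.tailU_reparam]

theorem fD_reparam (hv : UpDown v) (m k : ℤ) (w : ℤ × ℤ) :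
    fD t k (fun n => v (m + n)) w = fD t k v w := by
  unfold fD
  rw [hv.tailD_reparam]

end rays

/-! ## measurability -/

section meas

variable {Ω : Type*} [MeasurableSpace Ω]

theorem int_sSup_eq (S : Set ℤ) : sSup S = -sInf (-S) := by
  by_cases hne : S.Nonempty
  · by_cases hb : BddAbove S
    · rw [csInf_neg hne hb, neg_neg]
    · have hb' : ¬ BddBelow (-S) := by
        rwa [bddBelow_neg]
      rw [Int.csSup_of_not_bddAbove hb, Int.csInf_of_not_bddBelow hb', neg_zero]
  · rw [Set.not_nonempty_iff_eq_empty] at hne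
    rw [hne, Set.neg_empty, Int.csSup_empty, Int.csInf_empty, neg_zero]

/-- infimum of a random upward closed set of integers -/
theorem measurable_sInf_int {P : Ω → ℤ → Prop} (h : ∀ j, MeasurableSet {ω | P ω j})
    (hup : ∀ ω i j, i ≤ j → P ω i → P ω j) : Measurable fun ω => sInf {j | P ω j} := by
  refine measurable_to_countable' fun m => ?_
  have key : (fun ω => sInf {j | P ω j}) ⁻¹' {m} =
      ({ω | P ω m} ∩ {ω | P ω (m - 1)}ᶜ) ∪
        ({_ω | m = 0} ∩ ((⋂ i, {ω | P ω i}ᶜ) ∪ (⋂ i, {ω | P ω i}))) := by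
    ext ω
    simp only [Set.mem_preimage, Set.mem_singleton_iff, Set.mem_union, Set.mem_inter_iff,
      Set.mem_ofPred_eq, Set.mem_iInter, Set.mem_compl_iff]
    constructor
    · intro hm
      by_cases hne : {j | P ω j}.Nonempty
      · by_cases hb : BddBelow {j | P ω j}
        · left
          have h1 := Int.csInf_mem hne hb
          rw [hm] at h1
          refine ⟨h1, fun hP => ?_⟩
          have h2 : sInf {j | P ω j} ≤ m - 1 := csInf_le hb hP
          omega
        · right
          rw [Int.csInf_of_not_bddBelow hb] at hm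
          refine ⟨hm.symm, Or.inr fun i => ?_⟩
          rw [not_bddBelow_iff] at hb
          obtain ⟨j, hj, hji⟩ := hb i
          exact hup ω j i hji.le hj
      · right
        rw [Set.not_nonempty_iff_eq_empty] at hne
        refine ⟨?_, Or.inl fun i hP => ?_⟩
        · rw [← hm, hne, Int.csInf_empty]
        · have : i ∈ {j | P ω j} := hP
          rw [hne] at this
          exact this
    · rintro (⟨h1, h2⟩ | ⟨h0, h1 | h1⟩)
      · have hlow : ∀ j, P ω j → m ≤ j := fun j hj => by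
          by_contra hcon
          exact h2 (hup ω j (m - 1) (by omega) hj)
        exact le_antisymm (csInf_le ⟨m, hlow⟩ h1) (le_csInf ⟨m, h1⟩ hlow)
      · have : {j | P ω j} = ∅ := Set.eq_empty_iff_forall_notMem.2 h1
        rw [this, Int.csInf_empty, h0]
      · have hb : ¬ BddBelow {j | P ω j} := by
          rw [not_bddBelow_iff]
          exact fun j => ⟨j - 1, h1 _, by omega⟩
        rw [Int.csInf_of_not_bddBelow hb, h0]
  rw [key]
  refine MeasurableSet.union ((h m).inter (h (m - 1)).compl) ((MeasurableSet.const _).inter ?_)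
  exact (MeasurableSet.iInter fun i => (h i).compl).union (MeasurableSet.iInter fun i => h i)

variable {γ : Ω → ℤ → ℤ × ℤ}

theorem measurable_entU (hγ : ∀ n, Measurable fun ω => γ ω n) (k : ℤ) :
    Measurable fun ω => entU k (γ ω) := by
  refine measurable_sInf_int (P := fun ω j => ∀ i, j ≤ i → k ≤ (γ ω i).2) (fun j => ?_)
    (fun ω i j hij h l hl => h l (hij.trans hl))
  have : {ω | ∀ i, j ≤ i → k ≤ (γ ω i).2} =
      ⋂ i : ℤ, ⋂ (_ : j ≤ i), (fun ω => γ ω i) ⁻¹' {w | k ≤ w.2} := by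
    ext ω
    simp
  rw [this]
  exact MeasurableSet.iInter fun i => MeasurableSet.iInter fun _ =>
    hγ i (MeasurableSet.of_discrete)

theorem measurable_entD (hγ : ∀ n, Measurable fun ω => γ ω n) (k : ℤ) :
    Measurable fun ω => entD k (γ ω) := by
  have h1 : ∀ ω, entD k (γ ω) = -sInf {j | ∀ i, i ≤ -j → (γ ω i).2 ≤ k} := by
    intro ω
    unfold entD
    have h2 : {j : ℤ | ∀ i, i ≤ -j → (γ ω i).2 ≤ k} =
        -{j : ℤ | ∀ i, i ≤ j → (γ ω i).2 ≤ k} := by
      ext j
      simp
    rw [int_sSup_eq, h2]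
  simp_rw [h1]
  refine (measurable_sInf_int (P := fun ω j => ∀ i, i ≤ -j → (γ ω i).2 ≤ k) (fun j => ?_)
    (fun ω i j hij h l hl => h l (by omega))).neg
  have : {ω | ∀ i, i ≤ -j → (γ ω i).2 ≤ k} =
      ⋂ i : ℤ, ⋂ (_ : i ≤ -j), (fun ω => γ ω i) ⁻¹' {w | w.2 ≤ k} := by
    ext ω
    simp
  rw [this]
  exact MeasurableSet.iInter fun i => MeasurableSet.iInter fun _ =>
    hγ i (MeasurableSet.of_discrete)

theorem measurable_tailU (hγ : ∀ n, Measurable fun ω => γ ω n) (k : ℤ) (n : ℕ) :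
    Measurable fun ω => tailU k (γ ω) n :=
  measurable_eval (f := fun ω (m : ℤ) => γ ω (m + n)) (fun m => hγ (m + n)) (measurable_entU hγ k)

theorem measurable_tailD (hγ : ∀ n, Measurable fun ω => γ ω n) (k : ℤ) (n : ℕ) :
    Measurable fun ω => tailD k (γ ω) n :=
  measurable_eval (f := fun ω (m : ℤ) => γ ω (m - n)) (fun m => hγ (m - n)) (measurable_entD hγ k)

theorem measurable_fU {τ : Ω → Environment} (hτ : Measurable τ)
    (hγ : ∀ n, Measurable fun ω => γ ω n) (k : ℤ) (w : ℤ × ℤ) :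
    Measurable fun ω => fU (τ ω) k (γ ω) w :=
  measurable_bus _ hτ (fun n => measurable_tailU hγ k n) w

theorem measurable_fD {τ : Ω → Environment} (hτ : Measurable τ)
    (hγ : ∀ n, Measurable fun ω => γ ω n) (k : ℤ) (w : ℤ × ℤ) :
    Measurable fun ω => fD (τ ω) k (γ ω) w :=
  measurable_bus _ hτ (fun n => measurable_tailD hγ k n) w

theorem measurableSet_updown (hγ : ∀ n, Measurable fun ω => γ ω n) :
    MeasurableSet {ω | UpDown (γ ω)} := by
  have h1 : ∀ ω, UpDown (γ ω) ↔ (∀ k : ℤ, ∃ j : ℤ, ∀ i, j ≤ i → k ≤ (γ ω i).2) ∧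
      ∀ k : ℤ, ∃ j : ℤ, ∀ i, i ≤ j → (γ ω i).2 ≤ k := by
    intro ω
    unfold UpDown
    rw [tendsto_atTop, tendsto_atBot]
    simp only [eventually_atTop, eventually_atBot]
  have h2 : {ω | UpDown (γ ω)} =
      (⋂ k : ℤ, ⋃ j : ℤ, ⋂ i : ℤ, ⋂ (_ : j ≤ i), (fun ω => γ ω i) ⁻¹' {w | k ≤ w.2}) ∩
      (⋂ k : ℤ, ⋃ j : ℤ, ⋂ i : ℤ, ⋂ (_ : i ≤ j), (fun ω => γ ω i) ⁻¹' {w | w.2 ≤ k}) := by
    ext ω
    simp only [Set.mem_ofPred_eq, h1, Set.mem_inter_iff, Set.mem_iInter, Set.mem_iUnion,
      Set.mem_preimage]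
  rw [h2]
  refine MeasurableSet.inter ?_ ?_ <;>
    exact MeasurableSet.iInter fun k => MeasurableSet.iUnion fun j => MeasurableSet.iInter fun i =>
      MeasurableSet.iInter fun _ => hγ i (MeasurableSet.of_discrete)

end meas

/-! ## the selected bigeodesic -/

theorem entU_gam {z : ℤ × ℤ} {t : Environment} (h : Cr z t) (hv : UpDown (gam z t)) :
    entU z.2 (gam z t) = 0 := by
  obtain ⟨h0, h1, h2, h3⟩ := gam_spec h
  refine le_antisymm (hv.entU_le fun i hi => ?_) ?_
  · obtain ⟨n, rfl⟩ := Int.eq_ofNat_of_zero_le hi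
    have := h3 n
    rwa [h0] at this
  · by_contra hcon
    have := hv.entU_spec (k := z.2) (i := -1) (by omega)
    rw [h2, h0] at this
    omega

theorem tailU_gam {z : ℤ × ℤ} {t : Environment} (h : Cr z t) (hv : UpDown (gam z t)) :
    tailU z.2 (gam z t) = upray z t := by
  funext n
  unfold tailU upray
  rw [entU_gam h hv, zero_add]

theorem gam_add' (z a : ℤ × ℤ) (t : Environment) :
    gam (z + a) t = fun n => gam z (A.shift a t) n + a := funext fun n => gam_add z a t n

/-- covariance of the label functions at all levels -/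
theorem fU_gam_add (z a : ℤ × ℤ) (t : Environment) (k : ℤ) (w : ℤ × ℤ) :
    fU t (k + a.2) (gam (z + a) t) (w + a) = fU (A.shift a t) k (gam z (A.shift a t)) w := by
  rw [gam_add', fU_shift]

theorem fD_gam_add (z a : ℤ × ℤ) (t : Environment) (k : ℤ) (w : ℤ × ℤ) :
    fD t (k + a.2) (gam (z + a) t) (w + a) = fD (A.shift a t) k (gam z (A.shift a t)) w := by
  rw [gam_add', fD_shift]

theorem tailU_gam_add (z a : ℤ × ℤ) (t : Environment) (k : ℤ) (n : ℕ) :
    tailU (k + a.2) (gam (z + a) t) n = tailU k (gam z (A.shift a t)) n + a := by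
  rw [gam_add', tailU_add]

theorem tailD_gam_add (z a : ℤ × ℤ) (t : Environment) (k : ℤ) (n : ℕ) :
    tailD (k + a.2) (gam (z + a) t) n = tailD k (gam z (A.shift a t)) n + a := by
  rw [gam_add', tailD_add]

end Crest.Agent.R151.SEL
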