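import Mathlib
import Crest.Agent.R151.Y635E

/-!
# R151, Y635F: Busemann functions on two levels (deterministic layer)

`k ≤ j`; `u`, `w` rays of `H_k = reg (Up k)` that live in `H_j = reg (Up j)`.
* `hopfLax_Up`: Hopf-Lax between the levels;
* `D_k = bus_k u - bus_k w` on `L_k` is controlled by `D_j = bus_j u - bus_j w` on `L_j`;
* `RunTop`, `RunBot`: the minimisers run to `±∞` with the starting point (`runTop_of_growth`,
  `runBot_of_growth`);
* bigeodesics: `inc_le_of_inc_le`, `inc_eq_of_inc_eq` (order of increments on the two levels),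
  `tsum_inc_le` (o5).
-/

set_option autoImplicit false

open Crest.ProbabilityR.FirstPassage
open scoped Classical
open Filter Topology

namespace Crest.Agent.R151.Y

open Crest.Agent.R151 Crest.Agent.R151.SEL

section levels

variable {t : Environment} {k j : ℤ}

theorem Up_anti (hkj : k ≤ j) : Up j ⊆ Up k := fun _ hz => hkj.trans hz

theorem sep_Up (hkj : k ≤ j) :
    Sep (reg (Up k)) (reg (Up j)) (Up j) {z | z.2 = j} := by
  refine ⟨reg_mono (Up_anti hkj), fun z (hz : z.2 = j) => (show j ≤ z.2 from hz.ge), ?_⟩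
  intro a b hab hb hbL
  have h1 : j < b.2 := lt_of_le_of_ne hb fun h => hbL h.symm
  have h2 := adj_snd_le hab.1
  have ha : a ∈ Up j := show j ≤ a.2 by omega
  exact ⟨⟨hab.1, ha, hb⟩, ha⟩

variable {u w : ℕ → ℤ × ℤ}

/-- Hopf-Lax between two levels, inequality and `ε`-minimisers. -/
theorem hopfLax_Up (hkj : k ≤ j) (ht : ∀ e, 0 ≤ t e) (hu : IsRay t (reg (Up k)) u)
    (huj : ∀ n, j ≤ (u n).2) {x : ℤ × ℤ} (hx : k ≤ x.2) (hxj : x.2 ≤ j) :
    (∀ z : ℤ, bus t (reg (Up k)) u x ≤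
      pt (reg (Up k)) t x (z, j) + bus t (reg (Up j)) u (z, j)) ∧
    ∀ ε > 0, ∃ z : ℤ, pt (reg (Up k)) t x (z, j) + bus t (reg (Up j)) u (z, j) <
      bus t (reg (Up k)) u x + ε := by
  have h := (sep_Up hkj).hopfLax_bus ht hu
    (fun n => ⟨(hu.adj n).1, huj n, huj (n + 1)⟩) (fun n => huj n)
    (reachable_Up hx (hu.mem_Up 0)) (fun hA => le_antisymm hxj hA)
    (fun z (hz : z.2 = j) => reachable_Up hz.ge (huj 0))
  refine ⟨fun z => h.1 (z, j) rfl, fun ε hε => ?_⟩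
  have : Nonempty {z : ℤ × ℤ | z.2 = j} := ⟨⟨(0, j), rfl⟩⟩
  obtain ⟨⟨⟨a, b⟩, hz⟩, hlt⟩ := exists_lt_of_ciInf_lt (f := fun z : {z : ℤ × ℤ | z.2 = j} =>
    pt (reg (Up k)) t x z + bus t (reg (Up j)) u z) (a := bus t (reg (Up k)) u x + ε) (by
      rw [← h.2]
      linarith)
  have hb : b = j := hz
  subst hb
  exact ⟨a, hlt⟩

/-- lower bound of the difference on the lower level by an `ε`-minimiser of `u` -/
theorem diff_gt_of_min (hkj : k ≤ j) (ht : ∀ e, 0 ≤ t e)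
    (hw : IsRay t (reg (Up k)) w) (hwj : ∀ n, j ≤ (w n).2) {x : ℤ × ℤ} (hx : k ≤ x.2)
    (hxj : x.2 ≤ j) {z : ℤ} {ε : ℝ}
    (hz : pt (reg (Up k)) t x (z, j) + bus t (reg (Up j)) u (z, j) <
      bus t (reg (Up k)) u x + ε) :
    bus t (reg (Up j)) u (z, j) - bus t (reg (Up j)) w (z, j) - ε <
      bus t (reg (Up k)) u x - bus t (reg (Up k)) w x := by
  have := (hopfLax_Up hkj ht hw hwj hx hxj).1 z
  linarith

/-- The differences on the lower level lie between the bounds of those on the upper level. -/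
theorem diff_le_of_forall (hkj : k ≤ j) (ht : ∀ e, 0 ≤ t e) (hu : IsRay t (reg (Up k)) u)
    (huj : ∀ n, j ≤ (u n).2) (hw : IsRay t (reg (Up k)) w) (hwj : ∀ n, j ≤ (w n).2) {C : ℝ}
    (hC : ∀ z : ℤ, bus t (reg (Up j)) u (z, j) - bus t (reg (Up j)) w (z, j) ≤ C)
    {x : ℤ × ℤ} (hx : k ≤ x.2) (hxj : x.2 ≤ j) :
    bus t (reg (Up k)) u x - bus t (reg (Up k)) w x ≤ C := by
  refine le_of_forall_pos_le_add fun ε hε => ?_
  obtain ⟨z, hz⟩ := (hopfLax_Up hkj ht hw hwj hx hxj).2 ε hε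
  have h1 := diff_gt_of_min hkj ht hu huj hx hxj hz
  have h2 := hC z
  linarith

theorem le_diff_of_forall (hkj : k ≤ j) (ht : ∀ e, 0 ≤ t e) (hu : IsRay t (reg (Up k)) u)
    (huj : ∀ n, j ≤ (u n).2) (hw : IsRay t (reg (Up k)) w) (hwj : ∀ n, j ≤ (w n).2) {C : ℝ}
    (hC : ∀ z : ℤ, C ≤ bus t (reg (Up j)) u (z, j) - bus t (reg (Up j)) w (z, j))
    {x : ℤ × ℤ} (hx : k ≤ x.2) (hxj : x.2 ≤ j) :
    C ≤ bus t (reg (Up k)) u x - bus t (reg (Up k)) w x := by
  refine le_of_forall_pos_le_add fun ε hε => ?_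
  obtain ⟨z, hz⟩ := (hopfLax_Up hkj ht hu huj hx hxj).2 ε hε
  have h1 := diff_gt_of_min hkj ht hw hwj hx hxj hz
  have h2 := hC z
  linarith

/-- The (almost) minimisers of `T_{H_k}((x,k), .) + bus_j u` on `L_j` run to `+∞` with `x`. -/
def RunTop (t : Environment) (k j : ℤ) (u : ℕ → ℤ × ℤ) : Prop :=
  ∀ z1 : ℤ, ∀ᶠ x : ℤ in atTop, ∀ z : ℤ, z ≤ z1 →
    bus t (reg (Up k)) u (x, k) + 1 ≤
      pt (reg (Up k)) t (x, k) (z, j) + bus t (reg (Up j)) u (z, j)

/-- The (almost) minimisers of `T_{H_k}((x,k), .) + bus_j u` on `L_j` run to `-∞` with `x`. -/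
def RunBot (t : Environment) (k j : ℤ) (u : ℕ → ℤ × ℤ) : Prop :=
  ∀ z0 : ℤ, ∀ᶠ x : ℤ in atBot, ∀ z : ℤ, z0 ≤ z →
    bus t (reg (Up k)) u (x, k) + 1 ≤
      pt (reg (Up k)) t (x, k) (z, j) + bus t (reg (Up j)) u (z, j)

theorem RunTop.le_diff (hrt : RunTop t k j u) (hkj : k ≤ j) (ht : ∀ e, 0 ≤ t e)
    (hu : IsRay t (reg (Up k)) u) (huj : ∀ n, j ≤ (u n).2) (hw : IsRay t (reg (Up k)) w)
    (hwj : ∀ n, j ≤ (w n).2)
    (hmono : ∀ a b : ℤ, a ≤ b →
      bus t (reg (Up j)) u (a, j) - bus t (reg (Up j)) w (a, j) ≤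
        bus t (reg (Up j)) u (b, j) - bus t (reg (Up j)) w (b, j)) (z1 : ℤ) :
    ∀ᶠ x : ℤ in atTop, bus t (reg (Up j)) u (z1, j) - bus t (reg (Up j)) w (z1, j) ≤
      bus t (reg (Up k)) u (x, k) - bus t (reg (Up k)) w (x, k) := by
  filter_upwards [hrt z1] with x hx
  refine le_of_forall_pos_le_add fun ε hε => ?_
  obtain ⟨z, hz⟩ := (hopfLax_Up hkj ht hu huj (x := (x, k)) le_rfl hkj).2 (min ε 1)
    (lt_min hε one_pos)
  have h1 : z1 ≤ z := by
    by_contra hcon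
    have h2 := hx z (by omega)
    have h3 := min_le_right ε 1
    linarith
  have h2 := diff_gt_of_min hkj ht hw hwj (x := (x, k)) le_rfl hkj hz
  have h3 := hmono z1 z h1
  have h4 := min_le_left ε 1
  linarith

theorem RunBot.diff_le (hrt : RunBot t k j w) (hkj : k ≤ j) (ht : ∀ e, 0 ≤ t e)
    (hu : IsRay t (reg (Up k)) u) (huj : ∀ n, j ≤ (u n).2) (hw : IsRay t (reg (Up k)) w)
    (hwj : ∀ n, j ≤ (w n).2)
    (hmono : ∀ a b : ℤ, a ≤ b →
      bus t (reg (Up j)) u (a, j) - bus t (reg (Up j)) w (a, j) ≤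
        bus t (reg (Up j)) u (b, j) - bus t (reg (Up j)) w (b, j)) (z0 : ℤ) :
    ∀ᶠ x : ℤ in atBot, bus t (reg (Up k)) u (x, k) - bus t (reg (Up k)) w (x, k) ≤
      bus t (reg (Up j)) u (z0, j) - bus t (reg (Up j)) w (z0, j) := by
  filter_upwards [hrt z0] with x hx
  refine le_of_forall_pos_le_add fun ε hε => ?_
  obtain ⟨z, hz⟩ := (hopfLax_Up hkj ht hw hwj (x := (x, k)) le_rfl hkj).2 (min ε 1)
    (lt_min hε one_pos)
  have h1 : z ≤ z0 := by
    by_contra hcon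
    have h2 := hx z (by omega)
    have h3 := min_le_right ε 1
    linarith
  have h2 := diff_gt_of_min hkj ht hu huj (x := (x, k)) le_rfl hkj hz
  have h3 := hmono z z0 h1
  have h4 := min_le_left ε 1
  linarith

end levels

section growth

/-- real arithmetic behind `RunTop` -/
theorem growth_aux {m s C X Z A : ℝ} (hm : |s| < m) (hA' : |X - Z| = A)
    (h1 : X / 2 ≤ A) (h2 : |Z| / 2 ≤ A)
    (hbig : 8 * (3 * C + 1) ≤ (m - |s|) * X) :
    -s * X + (m - |s|) / 16 * X + C + 1 ≤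
      m * A - (m - |s|) / 16 * (X + |Z|) - C + (-s * Z - (m - |s|) / 16 * |Z| - C) := by
  have h3 : s * (Z - X) ≤ |s| * A := by
    rw [← hA', ← abs_mul]
    refine (le_abs_self _).trans (le_of_eq ?_)
    rw [abs_mul, abs_mul, abs_sub_comm]
  have hd : 0 < m - |s| := by linarith
  have h4 : (m - |s|) * (X / 2) ≤ (m - |s|) * A := mul_le_mul_of_nonneg_left h1 hd.le
  have h5 : (m - |s|) * (|Z| / 2) ≤ (m - |s|) * A := mul_le_mul_of_nonneg_left h2 hd.le
  have h6 : 0 ≤ (m - |s|) * |Z| := mul_nonneg hd.le (abs_nonneg _)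
  linarith

variable {t : Environment} {k j : ℤ} {u : ℕ → ℤ × ℤ}

/-- Growth of the Busemann functions and of the passage times gives `RunTop`: `m` a lower bound of
the speed, `|s| < m` the slope. -/
theorem runTop_of_growth {m s : ℝ} (hs : |s| < m)
    (hT : ∀ ε > 0, ∃ C : ℝ, ∀ x z : ℤ, m * |(x : ℝ) - z| - ε * (|(x : ℝ)| + |(z : ℝ)|) - C ≤
      pt (reg (Up k)) t (x, k) (z, j))
    (hk : ∀ ε > 0, ∃ C : ℝ, ∀ x : ℤ, |bus t (reg (Up k)) u (x, k) + s * x| ≤ ε * |(x : ℝ)| + C)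
    (hj : ∀ ε > 0, ∃ C : ℝ, ∀ x : ℤ, |bus t (reg (Up j)) u (x, j) + s * x| ≤ ε * |(x : ℝ)| + C) :
    RunTop t k j u := by
  have hd : 0 < (m - |s|) / 16 := by linarith
  obtain ⟨C1, h1⟩ := hT _ hd
  obtain ⟨C2, h2⟩ := hk _ hd
  obtain ⟨C3, h3⟩ := hj _ hd
  intro z1
  obtain ⟨N, hN⟩ := exists_nat_gt (8 * (3 * max (max C1 C2) C3 + 1) / (m - |s|))
  filter_upwards [eventually_ge_atTop ((N : ℤ) + 2 * |z1|)] with x hx z hz
  have a1 := h1 x z
  have a2 := h2 x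
  have a3 := h3 z
  rw [abs_le] at a2 a3
  have b1 := le_max_left (max C1 C2) C3
  have b2 := le_max_left C1 C2
  have b3 := le_max_right C1 C2
  have b4 := le_max_right (max C1 C2) C3
  have hzr : (z : ℝ) ≤ |(z1 : ℝ)| := by
    have : z ≤ |z1| := hz.trans (le_abs_self _)
    have h : ((z : ℤ) : ℝ) ≤ ((|z1| : ℤ) : ℝ) := by exact_mod_cast this
    rwa [Int.cast_abs] at h
  have hxr : (N : ℝ) + 2 * |(z1 : ℝ)| ≤ x := by
    have h : (((N : ℤ) + 2 * |z1| : ℤ) : ℝ) ≤ ((x : ℤ) : ℝ) := by exact_mod_cast hx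
    push_cast at h
    exact h
  have hz1 : 0 ≤ |(z1 : ℝ)| := abs_nonneg _
  have hN0 : (0 : ℝ) ≤ N := Nat.cast_nonneg N
  have hx0 : (0 : ℝ) ≤ x := by linarith
  have hxz : (z : ℝ) ≤ x := by linarith
  have hA : |(x : ℝ) - z| = x - z := abs_of_nonneg (by linarith)
  have hlt : 8 * (3 * max (max C1 C2) C3 + 1) < (m - |s|) * x := by
    have h4 : 8 * (3 * max (max C1 C2) C3 + 1) / (m - |s|) < x := by linarith
    rw [div_lt_iff₀ (by linarith)] at h4
    linarith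
  have key := growth_aux (m := m) (s := s) (C := max (max C1 C2) C3) (X := x) (Z := z)
    (A := (x : ℝ) - z) hs hA (by
      linarith) (by
      rcases le_total 0 (z : ℝ) with h | h
      · rw [abs_of_nonneg h]
        linarith
      · rw [abs_of_nonpos h]
        linarith) hlt.le
  rw [hA, abs_of_nonneg hx0] at a1
  rw [abs_of_nonneg hx0] at a2
  linarith [a1, a2.2, a3.1]

/-- mirror image of `runTop_of_growth` -/
theorem runBot_of_growth {m s : ℝ} (hs : |s| < m)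
    (hT : ∀ ε > 0, ∃ C : ℝ, ∀ x z : ℤ, m * |(x : ℝ) - z| - ε * (|(x : ℝ)| + |(z : ℝ)|) - C ≤
      pt (reg (Up k)) t (x, k) (z, j))
    (hk : ∀ ε > 0, ∃ C : ℝ, ∀ x : ℤ, |bus t (reg (Up k)) u (x, k) + s * x| ≤ ε * |(x : ℝ)| + C)
    (hj : ∀ ε > 0, ∃ C : ℝ, ∀ x : ℤ, |bus t (reg (Up j)) u (x, j) + s * x| ≤ ε * |(x : ℝ)| + C) :
    RunBot t k j u := by
  have hd : 0 < (m - |s|) / 16 := by linarith
  obtain ⟨C1, h1⟩ := hT _ hd
  obtain ⟨C2, h2⟩ := hk _ hd
  obtain ⟨C3, h3⟩ := hj _ hd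
  intro z0
  obtain ⟨N, hN⟩ := exists_nat_gt (8 * (3 * max (max C1 C2) C3 + 1) / (m - |s|))
  filter_upwards [eventually_le_atBot (-((N : ℤ) + 2 * |z0|))] with x hx z hz
  have a1 := h1 x z
  have a2 := h2 x
  have a3 := h3 z
  rw [abs_le] at a2 a3
  have b1 := le_max_left (max C1 C2) C3
  have b2 := le_max_left C1 C2
  have b3 := le_max_right C1 C2
  have b4 := le_max_right (max C1 C2) C3
  have hzr : -(z : ℝ) ≤ |(z0 : ℝ)| := by
    have : -z ≤ |z0| := (neg_le_neg hz).trans (neg_le_abs _)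
    have h : ((-z : ℤ) : ℝ) ≤ ((|z0| : ℤ) : ℝ) := by exact_mod_cast this
    rw [Int.cast_abs, Int.cast_neg] at h
    exact h
  have hxr : (N : ℝ) + 2 * |(z0 : ℝ)| ≤ -x := by
    have h : (((N : ℤ) + 2 * |z0| : ℤ) : ℝ) ≤ ((-x : ℤ) : ℝ) := by
      have : (N : ℤ) + 2 * |z0| ≤ -x := by omega
      exact_mod_cast this
    push_cast at h
    exact h
  have hz1 : 0 ≤ |(z0 : ℝ)| := abs_nonneg _
  have hN0 : (0 : ℝ) ≤ N := Nat.cast_nonneg N
  have hx0 : (x : ℝ) ≤ 0 := by linarith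
  have hxz : (x : ℝ) ≤ z := by linarith
  have hA : |(x : ℝ) - z| = z - x := by
    rw [abs_sub_comm]
    exact abs_of_nonneg (by linarith)
  have hlt : 8 * (3 * max (max C1 C2) C3 + 1) < (m - |s|) * (-x) := by
    have h4 : 8 * (3 * max (max C1 C2) C3 + 1) / (m - |s|) < -x := by linarith
    rw [div_lt_iff₀ (by linarith)] at h4
    linarith
  have key := growth_aux (m := m) (s := -s) (C := max (max C1 C2) C3) (X := -x) (Z := -z)
    (A := (z : ℝ) - x) (by rwa [abs_neg]) (by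
      rw [show -(x : ℝ) - -z = z - x by ring]
      exact abs_of_nonneg (by linarith)) (by
      linarith) (by
      rw [abs_neg]
      rcases le_total 0 (z : ℝ) with h | h
      · rw [abs_of_nonneg h]
        linarith
      · rw [abs_of_nonpos h]
        linarith) (by rw [abs_neg]; exact hlt.le)
  rw [abs_neg, abs_neg] at key
  rw [hA, abs_of_nonpos hx0] at a1
  rw [abs_of_nonpos hx0] at a2
  linarith [a1, a2.2, a3.1]

end growth

section tsum

/-- The total variation of nondecreasing functions on `ℤ`, compared. -/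
theorem tsum_inc_le_of_osc {D E : ℤ → ℝ} (hD : Monotone D) (hE : Monotone E)
    (h : ∀ a b, a ≤ b → ∃ c d, c ≤ d ∧ D b - D a ≤ E d - E c) :
    ∑' e : ℤ, ENNReal.ofReal (D (e + 1) - D e) ≤ ∑' e : ℤ, ENNReal.ofReal (E (e + 1) - E e) := by
  have tele : ∀ (D : ℤ → ℝ), Monotone D → ∀ a b : ℤ, a ≤ b →
      ∑ e ∈ Finset.Ico a b, ENNReal.ofReal (D (e + 1) - D e) = ENNReal.ofReal (D b - D a) := by
    intro D hD a b hab
    induction b, hab using Int.leInduction with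
    | base => simp
    | succ b hb ih =>
      have hins : Finset.Ico a (b + 1) = insert b (Finset.Ico a b) := by
        ext e
        simp only [Finset.mem_Ico, Finset.mem_insert]
        omega
      rw [hins, Finset.sum_insert (by simp), ih, ← ENNReal.ofReal_add]
      · congr 1
        ring
      · exact sub_nonneg.2 (hD (by omega))
      · exact sub_nonneg.2 (hD hb)
  rw [ENNReal.tsum_eq_iSup_sum]
  refine iSup_le fun s => ?_
  obtain ⟨a, b, hab, hs⟩ : ∃ a b : ℤ, a ≤ b ∧ s ⊆ Finset.Ico a b := by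
    obtain ⟨a, ha⟩ := s.finite_toSet.bddBelow
    obtain ⟨b, hb⟩ := s.finite_toSet.bddAbove
    refine ⟨min a b, b + 1, by omega, fun x hx => ?_⟩
    have h1 := ha hx
    have h2 := hb hx
    rw [Finset.mem_Ico]
    omega
  obtain ⟨c, d, hcd, hle⟩ := h a b hab
  calc ∑ e ∈ s, ENNReal.ofReal (D (e + 1) - D e)
      ≤ ∑ e ∈ Finset.Ico a b, ENNReal.ofReal (D (e + 1) - D e) :=
        Finset.sum_le_sum_of_subset hs
    _ = ENNReal.ofReal (D b - D a) := tele D hD a b hab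
    _ ≤ ENNReal.ofReal (E d - E c) := ENNReal.ofReal_le_ofReal hle
    _ = ∑ e ∈ Finset.Ico c d, ENNReal.ofReal (E (e + 1) - E e) := (tele E hE c d hcd).symm
    _ ≤ ∑' e : ℤ, ENNReal.ofReal (E (e + 1) - E e) := ENNReal.sum_le_tsum _

end tsum

section order

variable {t : Environment} {k j : ℤ} {u w : ℕ → ℤ × ℤ}

theorem IsRay.up (ht : ∀ e, 0 ≤ t e) (hkj : k ≤ j) (hu : IsRay t (reg (Up k)) u)
    (huj : ∀ n, j ≤ (u n).2) : IsRay t (reg (Up j)) u :=
  hu.of_le ht (reg_mono (Up_anti hkj)) fun n => ⟨(hu.adj n).1, huj n, huj (n + 1)⟩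

theorem sub_eq_of_inc_eq {D : ℤ → ℝ} (h : ∀ e, D (e + 1) = D e) (a : ℤ) : D a = D 0 := by
  induction a using Int.induction_on with
  | zero => rfl
  | succ n ih => rw [h, ih]
  | pred n ih =>
    have := h (-(n : ℤ) - 1)
    rw [sub_add_cancel] at this
    rw [← this, ih]

/-- Equality of the increments on the upper line gives equality on the lower line. -/
theorem inc_eq_of_inc_eq (hkj : k ≤ j) (ht : ∀ e, 0 ≤ t e) (hu : IsRay t (reg (Up k)) u)
    (huj : ∀ n, j ≤ (u n).2) (hw : IsRay t (reg (Up k)) w) (hwj : ∀ n, j ≤ (w n).2)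
    (h : ∀ e : ℤ, bus t (reg (Up j)) w (e + 1, j) - bus t (reg (Up j)) w (e, j) =
      bus t (reg (Up j)) u (e + 1, j) - bus t (reg (Up j)) u (e, j)) {x y : ℤ × ℤ}
    (hx : k ≤ x.2) (hxj : x.2 ≤ j) (hy : k ≤ y.2) (hyj : y.2 ≤ j) :
    bus t (reg (Up k)) w y - bus t (reg (Up k)) w x =
      bus t (reg (Up k)) u y - bus t (reg (Up k)) u x := by
  have hc : ∀ z : ℤ, bus t (reg (Up j)) u (z, j) - bus t (reg (Up j)) w (z, j) =
      bus t (reg (Up j)) u (0, j) - bus t (reg (Up j)) w (0, j) :=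
    sub_eq_of_inc_eq (D := fun z : ℤ => bus t (reg (Up j)) u (z, j) -
      bus t (reg (Up j)) w (z, j)) fun e => by
        have := h e
        linarith
  have h1 := fun {x : ℤ × ℤ} (hx : k ≤ x.2) (hxj : x.2 ≤ j) =>
    diff_le_of_forall hkj ht hu huj hw hwj (fun z => (hc z).le) hx hxj
  have h2 := fun {x : ℤ × ℤ} (hx : k ≤ x.2) (hxj : x.2 ≤ j) =>
    le_diff_of_forall hkj ht hu huj hw hwj (fun z => (hc z).ge) hx hxj
  have a1 := h1 hx hxj
  have a2 := h2 hx hxj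
  have a3 := h1 hy hyj
  have a4 := h2 hy hyj
  linarith

/-- The order of the increments is the same on the lower line. -/
theorem inc_le_of_inc_le (hkj : k ≤ j) (hnt : NoTies t) (ht : ∀ e, 0 ≤ t e)
    (hu : IsRay t (reg (Up k)) u) (huj : ∀ n, j ≤ (u n).2) (hw : IsRay t (reg (Up k)) w)
    (hwj : ∀ n, j ≤ (w n).2)
    (h : ∀ e : ℤ, bus t (reg (Up j)) w (e + 1, j) - bus t (reg (Up j)) w (e, j) ≤
      bus t (reg (Up j)) u (e + 1, j) - bus t (reg (Up j)) u (e, j)) {x y : ℤ × ℤ}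
    (hx : x.2 = k) (hy : y.2 = k) (hxy : x.1 ≤ y.1) :
    bus t (reg (Up k)) w y - bus t (reg (Up k)) w x ≤
      bus t (reg (Up k)) u y - bus t (reg (Up k)) u x := by
  have hpos := fun e => hnt.pos ht e
  rcases IsRay.coal_or_evDisj hnt ht hu hw with hc | hc
  · exact (bus_inc_eq_of_coal ht hu hw hc hx.ge hy.ge).le
  · rcases Pl.endLT_or (hu.hray hpos) (hw.hray hpos) hc with hc | hc
    · exact bus_mono_of_endLT hpos hu hw hc hx hy hxy
    · have huj' := hu.up ht hkj huj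
      have hwj' := hw.up ht hkj hwj
      refine (inc_eq_of_inc_eq hkj ht hu huj hw hwj (fun e => le_antisymm (h e) ?_) hx.ge
        (hx.le.trans hkj) hy.ge (hy.le.trans hkj)).le
      exact bus_mono_of_endLT hpos hwj' huj' hc rfl rfl (by simp)

/-- (o5) for rays: the total variation of the difference does not decrease from `L_j` to `L_k`. -/
theorem tsum_inc_bus_le (hkj : k ≤ j) (hnt : NoTies t) (ht : ∀ e, 0 ≤ t e)
    (hu : IsRay t (reg (Up k)) u) (huj : ∀ n, j ≤ (u n).2) (hw : IsRay t (reg (Up k)) w)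
    (hwj : ∀ n, j ≤ (w n).2)
    (h : ∀ e : ℤ, bus t (reg (Up j)) w (e + 1, j) - bus t (reg (Up j)) w (e, j) ≤
      bus t (reg (Up j)) u (e + 1, j) - bus t (reg (Up j)) u (e, j))
    (htop : RunTop t k j u) (hbot : RunBot t k j w) :
    ∑' e : ℤ, ENNReal.ofReal
        ((bus t (reg (Up j)) u (e + 1, j) - bus t (reg (Up j)) u (e, j)) -
          (bus t (reg (Up j)) w (e + 1, j) - bus t (reg (Up j)) w (e, j))) ≤
      ∑' e : ℤ, ENNReal.ofReal
        ((bus t (reg (Up k)) u (e + 1, k) - bus t (reg (Up k)) u (e, k)) -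
          (bus t (reg (Up k)) w (e + 1, k) - bus t (reg (Up k)) w (e, k))) := by
  have hD : Monotone fun e : ℤ => bus t (reg (Up j)) u (e, j) - bus t (reg (Up j)) w (e, j) := by
    refine monotone_int_of_le_succ fun e => ?_
    have := h e
    linarith
  have hE : Monotone fun e : ℤ => bus t (reg (Up k)) u (e, k) - bus t (reg (Up k)) w (e, k) := by
    refine monotone_int_of_le_succ fun e => ?_
    have := inc_le_of_inc_le hkj hnt ht hu huj hw hwj h (x := (e, k)) (y := (e + 1, k)) rfl rfl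
      (by simp)
    linarith
  have key := tsum_inc_le_of_osc hD hE fun a b hab => by
    have h1 := htop.le_diff hkj ht hu huj hw hwj (fun a b hab => hD hab) b
    have h2 := hbot.diff_le hkj ht hu huj hw hwj (fun a b hab => hD hab) a
    obtain ⟨d, hd1, hd2⟩ := (h1.and (eventually_ge_atTop 0)).exists
    obtain ⟨c, hc1, hc2⟩ := (h2.and (eventually_le_atBot 0)).exists
    refine ⟨c, d, hc2.trans hd2, ?_⟩
    linarith
  refine (le_of_eq ?_).trans (key.trans (le_of_eq ?_))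
  · refine tsum_congr fun e => ?_
    congr 1
    ring
  · refine tsum_congr fun e => ?_
    congr 1
    ring

end order

section bigeodesic

variable {t : Environment} {k j : ℤ} {v w : ℤ → ℤ × ℤ}

theorem tailU_eq_tail (hvU : UpDown v) (hkj : k ≤ j) :
    tailU j v = fun n => tailU k v ((entU j v - entU k v).toNat + n) := by
  funext n
  have := hvU.entU_mono hkj
  unfold tailU
  congr 1
  push_cast
  omega

theorem isRay_tailU' (hv : IsBigeodesic t v) (ht : ∀ e, 0 ≤ t e) (hvU : UpDown v)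
    (hkj : k ≤ j) : IsRay t (reg (Up k)) (tailU j v) := by
  rw [tailU_eq_tail hvU hkj]
  exact (isRay_tailU hv ht hvU k).tail _

theorem tailU_mem (hvU : UpDown v) (n : ℕ) : j ≤ (tailU j v n).2 :=
  hvU.entU_spec (by omega)

/-- `fU t k v` has the same increments as the Busemann function in `H_k` of the tail above `j`. -/
theorem fU_sub_eq (hv : IsBigeodesic t v) (ht : ∀ e, 0 ≤ t e) (hvU : UpDown v) (hkj : k ≤ j)
    {x y : ℤ × ℤ} (hx : k ≤ x.2) (hy : k ≤ y.2) :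
    fU t k v x - fU t k v y =
      bus t (reg (Up k)) (tailU j v) x - bus t (reg (Up k)) (tailU j v) y := by
  have h := isRay_tailU hv ht hvU k
  rw [tailU_eq_tail hvU hkj]
  exact (bus_tail_sub ht h (reachable_Up hx (h.mem_Up 0)) (reachable_Up hy (h.mem_Up 0)) _).symm

theorem bus_tailU_eq (hv : IsBigeodesic t v) (ht : ∀ e, 0 ≤ t e) (hvU : UpDown v) (hkj : k ≤ j)
    {x : ℤ × ℤ} (hx : k ≤ x.2) :
    bus t (reg (Up k)) (tailU j v) x = fU t k v x - fU t k v (tailU j v 0) := by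
  have h0 : k ≤ (tailU j v 0).2 := hkj.trans (tailU_mem hvU 0)
  have := fU_sub_eq hv ht hvU hkj hx h0
  rw [bus_zero ht (isRay_tailU' hv ht hvU hkj)] at this
  linarith

/-- order of increments on the lower line from the order on the upper line, bigeodesics -/
theorem inc_fU_le_of_le (hnt : NoTies t) (ht : ∀ e, 0 ≤ t e) (hv : IsBigeodesic t v)
    (hvU : UpDown v) (hw : IsBigeodesic t w) (hwU : UpDown w) (hkj : k ≤ j)
    (h : ∀ e : ℤ, fU t j w (e + 1, j) - fU t j w (e, j) ≤ fU t j v (e + 1, j) - fU t j v (e, j))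
    (e : ℤ) :
    fU t k w (e + 1, k) - fU t k w (e, k) ≤ fU t k v (e + 1, k) - fU t k v (e, k) := by
  rw [fU_sub_eq hv ht hvU hkj le_rfl le_rfl, fU_sub_eq hw ht hwU hkj le_rfl le_rfl]
  exact inc_le_of_inc_le hkj hnt ht (isRay_tailU' hv ht hvU hkj) (tailU_mem hvU)
    (isRay_tailU' hw ht hwU hkj) (tailU_mem hwU) h rfl rfl (by simp)

theorem inc_fU_eq_of_eq (ht : ∀ e, 0 ≤ t e) (hv : IsBigeodesic t v)
    (hvU : UpDown v) (hw : IsBigeodesic t w) (hwU : UpDown w) (hkj : k ≤ j)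
    (h : ∀ e : ℤ, fU t j w (e + 1, j) - fU t j w (e, j) = fU t j v (e + 1, j) - fU t j v (e, j))
    (e : ℤ) :
    fU t k w (e + 1, k) - fU t k w (e, k) = fU t k v (e + 1, k) - fU t k v (e, k) := by
  rw [fU_sub_eq hv ht hvU hkj le_rfl le_rfl, fU_sub_eq hw ht hwU hkj le_rfl le_rfl]
  exact inc_eq_of_inc_eq hkj ht (isRay_tailU' hv ht hvU hkj) (tailU_mem hvU)
    (isRay_tailU' hw ht hwU hkj) (tailU_mem hwU) h le_rfl hkj le_rfl hkj

/-- (o5) for bigeodesics -/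
theorem tsum_inc_fU_le (hnt : NoTies t) (ht : ∀ e, 0 ≤ t e) (hv : IsBigeodesic t v)
    (hvU : UpDown v) (hw : IsBigeodesic t w) (hwU : UpDown w) (hkj : k ≤ j)
    (h : ∀ e : ℤ, fU t j w (e + 1, j) - fU t j w (e, j) ≤ fU t j v (e + 1, j) - fU t j v (e, j))
    (htop : RunTop t k j (tailU j v)) (hbot : RunBot t k j (tailU j w)) :
    ∑' e : ℤ, ENNReal.ofReal ((fU t j v (e + 1, j) - fU t j v (e, j)) -
        (fU t j w (e + 1, j) - fU t j w (e, j))) ≤
      ∑' e : ℤ, ENNReal.ofReal ((fU t k v (e + 1, k) - fU t k v (e, k)) -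
        (fU t k w (e + 1, k) - fU t k w (e, k))) := by
  refine (tsum_inc_bus_le hkj hnt ht (isRay_tailU' hv ht hvU hkj) (tailU_mem hvU)
    (isRay_tailU' hw ht hwU hkj) (tailU_mem hwU) h htop hbot).trans (le_of_eq ?_)
  refine tsum_congr fun e => ?_
  rw [fU_sub_eq hv ht hvU hkj le_rfl le_rfl, fU_sub_eq hw ht hwU hkj le_rfl le_rfl]

theorem growth_tailU (hv : IsBigeodesic t v) (ht : ∀ e, 0 ≤ t e) (hvU : UpDown v) (hkj : k ≤ j)
    {s : ℝ} (hk : ∀ ε > 0, ∃ C : ℝ, ∀ x : ℤ, |fU t k v (x, k) + s * x| ≤ ε * |(x : ℝ)| + C) :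
    ∀ ε > 0, ∃ C : ℝ, ∀ x : ℤ,
      |bus t (reg (Up k)) (tailU j v) (x, k) + s * x| ≤ ε * |(x : ℝ)| + C := by
  intro ε hε
  obtain ⟨C, hC⟩ := hk ε hε
  refine ⟨C + |fU t k v (tailU j v 0)|, fun x => ?_⟩
  rw [bus_tailU_eq hv ht hvU hkj le_rfl]
  have h1 := hC x
  have h2 := abs_sub (fU t k v (x, k) + s * x) (fU t k v (tailU j v 0))
  rw [show fU t k v (x, k) - fU t k v (tailU j v 0) + s * x =
    fU t k v (x, k) + s * x - fU t k v (tailU j v 0) by ring]
  linarith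

/-- (o5) for bigeodesics of the same slope `s`, `|s| < m`, growth form. -/
theorem tsum_inc_fU_le_of_growth (hnt : NoTies t) (ht : ∀ e, 0 ≤ t e) (hv : IsBigeodesic t v)
    (hvU : UpDown v) (hw : IsBigeodesic t w) (hwU : UpDown w) (hkj : k ≤ j) {m s s' : ℝ}
    (hs : |s| < m) (hs' : |s'| < m)
    (hT : ∀ ε > 0, ∃ C : ℝ, ∀ x z : ℤ, m * |(x : ℝ) - z| - ε * (|(x : ℝ)| + |(z : ℝ)|) - C ≤
      pt (reg (Up k)) t (x, k) (z, j))
    (hvk : ∀ ε > 0, ∃ C : ℝ, ∀ x : ℤ, |fU t k v (x, k) + s * x| ≤ ε * |(x : ℝ)| + C)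
    (hvj : ∀ ε > 0, ∃ C : ℝ, ∀ x : ℤ, |fU t j v (x, j) + s * x| ≤ ε * |(x : ℝ)| + C)
    (hwk : ∀ ε > 0, ∃ C : ℝ, ∀ x : ℤ, |fU t k w (x, k) + s' * x| ≤ ε * |(x : ℝ)| + C)
    (hwj : ∀ ε > 0, ∃ C : ℝ, ∀ x : ℤ, |fU t j w (x, j) + s' * x| ≤ ε * |(x : ℝ)| + C)
    (h : ∀ e : ℤ, fU t j w (e + 1, j) - fU t j w (e, j) ≤
      fU t j v (e + 1, j) - fU t j v (e, j)) :
    ∑' e : ℤ, ENNReal.ofReal ((fU t j v (e + 1, j) - fU t j v (e, j)) -
        (fU t j w (e + 1, j) - fU t j w (e, j))) ≤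
      ∑' e : ℤ, ENNReal.ofReal ((fU t k v (e + 1, k) - fU t k v (e, k)) -
        (fU t k w (e + 1, k) - fU t k w (e, k))) :=
  tsum_inc_fU_le hnt ht hv hvU hw hwU hkj h
    (runTop_of_growth hs hT (growth_tailU hv ht hvU hkj hvk) hvj)
    (runBot_of_growth hs' hT (growth_tailU hw ht hwU hkj hwk) hwj)

end bigeodesic

end Crest.Agent.R151.Y
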