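import Crest.Agent.R151.E39d
import Crest.Agent.R151.Y635F

/-!
# R151, block E39e (helper39): `prob_g3`; from a near tie of the pair functional on the rows
`-1`, `0` to the near tie `NT` on the rows `±(k+1)`
-/

set_option autoImplicit false

open MeasureTheory ProbabilityTheory Set Filter
open scoped ENNReal Topology
open Crest.ProbabilityR.FirstPassage
open Crest.Agent.R151.K

namespace Crest.Agent.R151.E39

/-- the property of `b`, `c` from 52's `exists_high` -/
def High (G : Measure ℝ) (b c : ℝ) : Prop :=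
  ∀ (n : ℕ) (x : ℤ × ℤ), ∃ B : Set Environment, MeasurableSet B ∧
    (iidLaw G).real B ≤ (1 / 2) ^ n ∧
    ∀ t, t ∉ B → ∀ (y : ℤ × ℤ) (w : squareLattice.Walk x y), w.edges.Nodup → n ≤ w.length →
      c * n ≤ ((w.edges.toFinset.filter fun e => b ≤ t e).card : ℝ)

/-- property `g3` of `Good` -/
def G3 (k : ℕ) (c b : ℝ) (y : ℤ) (t : Environment) : Prop :=
  ∀ (v : ℤ × ℤ) (w : squareLattice.Walk (y, 0) v), w.edges.Nodup → w.length = k →
    c * k ≤ ((w.edges.toFinset.filter fun e => b ≤ t e).card : ℝ)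

theorem prob_g3 {G : Measure ℝ} [IsProbabilityMeasure G] {b c : ℝ} (h : High G b c) (k : ℕ)
    (y : ℤ) : iidLaw G {t | ¬ G3 k c b y t} ≤ ENNReal.ofReal ((1 / 2) ^ k) := by
  obtain ⟨B, -, hB, hB'⟩ := h k (y, 0)
  have hsub : {t | ¬ G3 k c b y t} ⊆ B := by
    intro t ht
    by_contra hcon
    exact ht fun v w hw hlen => hB' t hcon v w hw hlen.ge
  refine (measure_mono hsub).trans ?_
  rw [← ENNReal.ofReal_toReal (measure_ne_top (iidLaw G) B)]
  exact ENNReal.ofReal_le_ofReal hB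

/-! ## lower half planes -/

open Crest.Agent.R151 Crest.Agent.R151.Y Crest.Agent.R151.SEL

section lower

theorem reachable_Dn {k : ℤ} {x y : ℤ × ℤ} (hx : x.2 ≤ k) (hy : y.2 ≤ k) :
    (reg (Dn k)).Reachable x y := by
  have hor : ∀ (n : ℕ) (a c : ℤ), c ≤ k → (reg (Dn k)).Reachable (a, c) (a + n, c) := by
    intro n
    induction n with
    | zero => intro a c _; simp
    | succ n ih =>
      intro a c hc
      refine (ih a c hc).trans (SimpleGraph.Adj.reachable ?_)
      push_cast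
      rw [← add_assoc, reg_adj]
      exact ⟨Y.adj_right _ _, hc, hc⟩
  have ver : ∀ (n : ℕ) (a c : ℤ), c + n ≤ k → (reg (Dn k)).Reachable (a, c) (a, c + n) := by
    intro n
    induction n with
    | zero => intro a c _; simp
    | succ n ih =>
      intro a c hc
      push_cast at hc
      refine (ih a c (by omega)).trans (SimpleGraph.Adj.reachable ?_)
      push_cast
      rw [← add_assoc, reg_adj]
      exact ⟨Y.adj_up _ _, show c + n ≤ k by omega, show c + n + 1 ≤ k by omega⟩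
  obtain ⟨a, c⟩ := x
  obtain ⟨b, d⟩ := y
  simp only at hx hy
  have h1 : (reg (Dn k)).Reachable (a, c) (b, c) := by
    rcases le_total a b with h | h
    · have := hor (b - a).toNat a c hx
      rwa [show a + ((b - a).toNat : ℤ) = b by omega] at this
    · have := hor (a - b).toNat b c hx
      rw [show b + ((a - b).toNat : ℤ) = a by omega] at this
      exact this.symm
  have h2 : (reg (Dn k)).Reachable (b, c) (b, d) := by
    rcases le_total c d with h | h
    · have := ver (d - c).toNat b c (by omega)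
      rwa [show c + ((d - c).toNat : ℤ) = d by omega] at this
    · have := ver (c - d).toNat b d (by omega)
      rw [show d + ((c - d).toNat : ℤ) = c by omega] at this
      exact this.symm
  exact h1.trans h2

variable {t : Environment} {k j : ℤ}

theorem Dn_mono (hjk : j ≤ k) : Dn j ⊆ Dn k := fun _ (hz : _ ≤ j) => show _ ≤ k from hz.trans hjk

theorem sep_Dn (hjk : j ≤ k) :
    Sep (reg (Dn k)) (reg (Dn j)) (Dn j) {z | z.2 = j} := by
  refine ⟨reg_mono (Dn_mono hjk), fun z (hz : z.2 = j) => (show z.2 ≤ j from hz.le), ?_⟩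
  intro a b hab hb hbL
  have h1 : b.2 < j := lt_of_le_of_ne hb fun h => hbL h
  have h2 := adj_snd_le hab.1.symm
  have ha : a ∈ Dn j := show a.2 ≤ j by omega
  exact ⟨⟨hab.1, ha, hb⟩, ha⟩

variable {u : ℕ → ℤ × ℤ}

theorem mem_Dn_of_isRay (h : IsRay t (reg (Dn k)) u) (n : ℕ) : (u n).2 ≤ k := (h.adj n).2.1

/-- Hopf-Lax between two levels, lower half planes. -/
theorem hopfLax_Dn (hjk : j ≤ k) (ht : ∀ e, 0 ≤ t e) (hu : IsRay t (reg (Dn k)) u)
    (huj : ∀ n, (u n).2 ≤ j) {x : ℤ × ℤ} (hx : x.2 ≤ k) (hxj : j ≤ x.2) :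
    (∀ z : ℤ, bus t (reg (Dn k)) u x ≤
      pt (reg (Dn k)) t x (z, j) + bus t (reg (Dn j)) u (z, j)) ∧
    ∀ ε > 0, ∃ z : ℤ, pt (reg (Dn k)) t x (z, j) + bus t (reg (Dn j)) u (z, j) <
      bus t (reg (Dn k)) u x + ε := by
  have h := (sep_Dn hjk).hopfLax_bus ht hu
    (fun n => ⟨(hu.adj n).1, huj n, huj (n + 1)⟩) (fun n => huj n)
    (reachable_Dn hx (mem_Dn_of_isRay hu 0)) (fun hA => le_antisymm hA hxj)
    (fun z (hz : z.2 = j) => reachable_Dn hz.le (huj 0))
  refine ⟨fun z => h.1 (z, j) rfl, fun ε hε => ?_⟩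
  have : Nonempty {z : ℤ × ℤ | z.2 = j} := ⟨⟨(0, j), rfl⟩⟩
  obtain ⟨⟨⟨a, b⟩, hz⟩, hlt⟩ := exists_lt_of_ciInf_lt (f := fun z : {z : ℤ × ℤ | z.2 = j} =>
    pt (reg (Dn k)) t x z + bus t (reg (Dn j)) u z) (a := bus t (reg (Dn k)) u x + ε) (by
      rw [← h.2]
      linarith)
  have hb : b = j := hz
  subst hb
  exact ⟨a, hlt⟩

variable {v : ℤ → ℤ × ℤ}

theorem tailD_eq_tail (hvU : UpDown v) (hjk : j ≤ k) :
    tailD j v = fun n => tailD k v ((entD k v - entD j v).toNat + n) := by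
  funext n
  have := hvU.entD_mono hjk
  unfold tailD
  congr 1
  push_cast
  omega

theorem isRay_tailD' (hv : IsBigeodesic t v) (ht : ∀ e, 0 ≤ t e) (hvU : UpDown v)
    (hjk : j ≤ k) : IsRay t (reg (Dn k)) (tailD j v) := by
  rw [tailD_eq_tail hvU hjk]
  exact (isRay_tailD hv ht hvU k).tail _

theorem tailD_mem (hvU : UpDown v) (n : ℕ) : (tailD j v n).2 ≤ j :=
  hvU.entD_spec (by omega)

theorem fD_sub_eq (hv : IsBigeodesic t v) (ht : ∀ e, 0 ≤ t e) (hvU : UpDown v) (hjk : j ≤ k)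
    {x y : ℤ × ℤ} (hx : x.2 ≤ k) (hy : y.2 ≤ k) :
    fD t k v x - fD t k v y =
      bus t (reg (Dn k)) (tailD j v) x - bus t (reg (Dn k)) (tailD j v) y := by
  have h := isRay_tailD hv ht hvU k
  rw [tailD_eq_tail hvU hjk]
  exact (bus_tail_sub ht h (reachable_Dn hx (mem_Dn_of_isRay h 0))
    (reachable_Dn hy (mem_Dn_of_isRay h 0)) _).symm

theorem bus_tailD_eq (hv : IsBigeodesic t v) (ht : ∀ e, 0 ≤ t e) (hvU : UpDown v) (hjk : j ≤ k)
    {x : ℤ × ℤ} (hx : x.2 ≤ k) :
    bus t (reg (Dn k)) (tailD j v) x = fD t k v x - fD t k v (tailD j v 0) := by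
  have h0 : (tailD j v 0).2 ≤ k := (tailD_mem hvU 0).trans hjk
  have := fD_sub_eq hv ht hvU hjk hx h0
  rw [bus_zero ht (isRay_tailD' hv ht hvU hjk)] at this
  linarith

end lower

section bridge

variable {t : Environment} {v : ℤ → ℤ × ℤ}

/-- value of `fU t k v` at a later entrance point of `v` -/
theorem fU_ent (hv : IsBigeodesic t v) (ht : ∀ e, 0 < t e) (hvU : UpDown v) {k j : ℤ}
    (hkj : k ≤ j) : fU t k v (tailU j v 0) = -passageTime t (tailU k v 0) (tailU j v 0) := by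
  have ht0 : ∀ e, 0 ≤ t e := fun e => (ht e).le
  have h1 := isRay_tailU hv ht0 hvU k
  have h2 : tailU j v 0 = tailU k v (entU j v - entU k v).toNat := by
    rw [tailU_eq_tail hvU hkj]; rfl
  have h3 : IsRay t squareLattice (tailU k v) := isRay_of_isBigeodesic hv ht0 (entU k v)
  rw [h2]
  unfold fU
  rw [bus_ray ht0 h1, passageTime_eq_pt,
    h3.pt_eq_of_le ht0 (reg_le _) (fun n => h1.adj n) (Nat.zero_le _)]

theorem fD_ent (hv : IsBigeodesic t v) (ht : ∀ e, 0 < t e) (hvU : UpDown v) {k j : ℤ}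
    (hjk : j ≤ k) : fD t k v (tailD j v 0) = -passageTime t (tailD k v 0) (tailD j v 0) := by
  have ht0 : ∀ e, 0 ≤ t e := fun e => (ht e).le
  have h1 := isRay_tailD hv ht0 hvU k
  have h2 : tailD j v 0 = tailD k v (entD k v - entD j v).toNat := by
    rw [tailD_eq_tail hvU hjk]; rfl
  have h3 : IsRay t squareLattice (tailD k v) := isRay_of_isBigeodesic_neg hv ht0 (entD k v)
  rw [h2]
  unfold fD
  rw [bus_ray ht0 h1, passageTime_eq_pt,
    h3.pt_eq_of_le ht0 (reg_le _) (fun n => h1.adj n) (Nat.zero_le _)]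

/-- localised minimiser of `T(x, .) + f` on a row -/
theorem exists_loc_min {D : ℕ} {x : ℤ} {g : ℤ → ℝ} (h : ∀ w : ℤ, (D : ℤ) < |w - x| → g x ≤ g w) :
    ∃ w : ℤ, |w - x| ≤ D ∧ ∀ w', g w ≤ g w' := by
  obtain ⟨w, hw, hmin⟩ := Finset.exists_min_image (Finset.Icc (x - D) (x + D)) g
    ⟨x, by rw [Finset.mem_Icc]; constructor <;> omega⟩
  rw [Finset.mem_Icc] at hw
  refine ⟨w, abs_le.2 ⟨by omega, by omega⟩, fun w' => ?_⟩
  by_cases hw' : (D : ℤ) < |w' - x|
  · exact (hmin x (by rw [Finset.mem_Icc]; constructor <;> omega)).trans (h w' hw')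
  · rw [not_lt, abs_le] at hw'
    exact hmin w' (by rw [Finset.mem_Icc]; constructor <;> omega)

/-- **near tie on the rows `-1`, `0` ⟹ near tie `NT` on the rows `±(k+1)`** -/
theorem nt_of_gap (ht : ∀ e, 0 < t e) (hv : IsBigeodesic t v) (hvU : UpDown v) {k D : ℕ}
    {K : ℝ} {x xh : ℤ}
    (hgap : fD t (-1) v (xh, -1) + passageTime t (xh, -1) (x, 0) + fU t 0 v (x, 0) ≤
      passageTime t (tailD (-1) v 0) (tailU 0 v 0) + K)
    (hlu : ∀ w : ℤ, (D : ℤ) < |w - x| →
      passageTime t (x, 0) (x, (k : ℤ) + 1) + fU t ((k : ℤ) + 1) v (x, (k : ℤ) + 1) ≤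
      passageTime t (x, 0) (w, (k : ℤ) + 1) + fU t ((k : ℤ) + 1) v (w, (k : ℤ) + 1))
    (hll : ∀ z : ℤ, (D : ℤ) < |z - x| →
      passageTime t (x, -((k : ℤ) + 1)) (x, 0) +
        fD t (-((k : ℤ) + 1)) v (x, -((k : ℤ) + 1)) ≤
      passageTime t (z, -((k : ℤ) + 1)) (x, 0) +
        fD t (-((k : ℤ) + 1)) v (z, -((k : ℤ) + 1))) :
    NT k D K (fun w => fU t ((k : ℤ) + 1) v (w, (k : ℤ) + 1),
      fun w => fD t (-((k : ℤ) + 1)) v (w, -((k : ℤ) + 1))) x t := by
  have ht0 : ∀ e, 0 ≤ t e := fun e => (ht e).le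
  set j : ℤ := (k : ℤ) + 1 with hj
  have hj0 : (0 : ℤ) ≤ j := by omega
  obtain ⟨w, hw, hwmin⟩ := exists_loc_min
    (g := fun w => passageTime t (x, 0) (w, j) + fU t j v (w, j)) hlu
  obtain ⟨z, hz, hzmin⟩ := exists_loc_min
    (g := fun z => passageTime t (z, -j) (x, 0) + fD t (-j) v (z, -j)) hll
  refine ⟨z, w, hz, hw, fun z' w' => ?_⟩
  -- the upper side
  have hU : passageTime t (x, 0) (w, j) + fU t j v (w, j) ≤
      fU t 0 v (x, 0) + passageTime t (tailU 0 v 0) (tailU j v 0) := by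
    have h1 := bus_tailU_eq hv ht0 hvU hj0 (x := (x, 0)) le_rfl
    rw [fU_ent hv ht hvU hj0] at h1
    have h2 := (hopfLax_Up hj0 ht0 (isRay_tailU' hv ht0 hvU hj0) (fun n => tailU_mem hvU n)
      (x := (x, 0)) le_rfl hj0).2
    refine le_of_forall_pos_le_add fun ε hε => ?_
    obtain ⟨z₁, hz₁⟩ := h2 ε hε
    have h3 : passageTime t (x, 0) (z₁, j) ≤ pt (reg (Up 0)) t (x, 0) (z₁, j) := by
      rw [passageTime_eq_pt]
      exact pt_anti (reg_le _) ht0 (reachable_Up le_rfl hj0)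
    have h4 := hwmin z₁
    have h5 : bus t (reg (Up j)) (tailU j v) (z₁, j) = fU t j v (z₁, j) := rfl
    rw [h5] at hz₁
    linarith
  -- the lower side
  have hD : passageTime t (z, -j) (x, 0) + fD t (-j) v (z, -j) ≤
      fD t (-1) v (xh, -1) + passageTime t (xh, -1) (x, 0) +
        passageTime t (tailD (-1) v 0) (tailD (-j) v 0) := by
    have hj1 : -j ≤ (-1 : ℤ) := by omega
    have h1 := bus_tailD_eq hv ht0 hvU hj1 (x := (xh, -1)) le_rfl
    rw [fD_ent hv ht hvU hj1] at h1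
    have h2 := (hopfLax_Dn hj1 ht0 (isRay_tailD' hv ht0 hvU hj1) (fun n => tailD_mem hvU n)
      (x := (xh, -1)) le_rfl hj1).2
    refine le_of_forall_pos_le_add fun ε hε => ?_
    obtain ⟨z₁, hz₁⟩ := h2 ε hε
    have h3 : passageTime t (xh, -1) (z₁, -j) ≤ pt (reg (Dn (-1))) t (xh, -1) (z₁, -j) := by
      rw [passageTime_eq_pt]
      exact pt_anti (reg_le _) ht0 (reachable_Dn le_rfl hj1)
    have h4 := hzmin z₁
    have h5 : bus t (reg (Dn (-j))) (tailD (-j) v) (z₁, -j) = fD t (-j) v (z₁, -j) := rfl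
    have h6 : passageTime t (z₁, -j) (x, 0) ≤
        passageTime t (xh, -1) (z₁, -j) + passageTime t (xh, -1) (x, 0) := by
      simp only [passageTime_eq_pt]
      rw [pt_comm squareLattice t (xh, -1) (z₁, -j)]
      exact pt_triangle ht0 (R151.K.reachable _ _) (R151.K.reachable _ _)
    rw [h5] at hz₁
    linarith
  -- the middle: the passage time between the two crossing points
  have hbi := (isBigeodesic_iff ht).1 hv
  have e1 : entD (-j) v ≤ entD (-1) v := hvU.entD_mono (by omega)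
  have e2 : entD (-1) v ≤ entU 0 v := (hvU.entD_lt_entU (by omega)).le
  have e3 : entU 0 v ≤ entU j v := hvU.entU_mono hj0
  have hsum : passageTime t (tailD (-1) v 0) (tailD (-j) v 0) +
      passageTime t (tailD (-1) v 0) (tailU 0 v 0) +
      passageTime t (tailU 0 v 0) (tailU j v 0) =
      passageTime t (tailD (-j) v 0) (tailU j v 0) := by
    simp only [passageTime_eq_pt, tailU, tailD, Nat.cast_zero, add_zero, sub_zero]
    rw [pt_comm squareLattice t (v (entD (-1) v)) (v (entD (-j) v)),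
      hbi.pt_add e1 e2, hbi.pt_add (e1.trans e2) e3]
  have hpm := hbi.pair_min (Hp := reg (Up j)) (Hm := reg (Dn (-j))) (i := entD (-j) v)
    (j := entU j v) (p := (z', -j)) (q := (w', j)) ht0 (reg_le _) (reg_le _)
    (hvU.entD_lt_entU (by omega)).le
    (fun n hn => ⟨hv.2.1 n, hvU.entU_spec hn, hvU.entU_spec (by omega)⟩)
    (fun n hn => ⟨hv.2.1 n, hvU.entD_spec hn.le, hvU.entD_spec (by omega)⟩)
    (reachable_Dn le_rfl (hvU.entD_spec le_rfl)) (reachable_Up le_rfl (hvU.entU_spec le_rfl))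
  have hpm' : passageTime t (tailD (-j) v 0) (tailU j v 0) ≤
      fD t (-j) v (z', -j) + passageTime t (z', -j) (w', j) + fU t j v (w', j) := by
    simp only [passageTime_eq_pt, tailU, tailD, Nat.cast_zero, add_zero, sub_zero]
    exact hpm
  unfold Psi
  simp only
  rw [← hj]
  linarith

end bridge

end Crest.Agent.R151.E39
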