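import Mathlib
import Crest.Agent.R151.H617b

/-!
# R151/H617c — block (C), general form (owner helper617)

`chain_event`: `f` is a family of label functions with `E TV_W (f p - f q) ≤ C (q - p)`,
`N p q d` a family of events independent of `f`, which shrink with the interval `(p,q)` and with
`d`, and such that every DETERMINISTIC slope `s` escapes a.s.  Then a.s. for EVERY slope `s`
simultaneously: `f` does not jump at `s`, or `s` escapes.
(856's (7.3)/(7.4) : lower coalescence at all jump slopes of the upper family.)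
-/

set_option autoImplicit false

open MeasureTheory ProbabilityTheory Filter Set
open scoped ENNReal Topology

namespace Crest.Agent.R151.H

variable {Ω : Type*} [MeasurableSpace Ω] {P : Measure Ω}

/-- the slope `s` escapes the events `N` -/
def Esc (D : Set ℝ) (N : ℝ → ℝ → ℕ → Set Ω) (s : ℝ) (ω : Ω) : Prop :=
  ∃ p ∈ D, ∃ q ∈ D, p < s ∧ s < q ∧ ∃ d, ω ∉ N p q d

/-- one cell of the event version -/
lemma cell_event_le [IsProbabilityMeasure P] {F F' : Ω → ℤ → ℝ}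
    (hF : ∀ x, Measurable fun ω => F ω x) (hF' : ∀ x, Measurable fun ω => F' ω x)
    (w : ℕ) {c κ : ℝ} (hκ : 0 < κ)
    (h1 : ∀ x, ∫⁻ ω, ENNReal.ofReal |inc (F ω) x - inc (F' ω) x| ∂P ≤ ENNReal.ofReal c)
    {E : Set Ω} {δ : ℝ≥0∞} (hE : P E ≤ δ)
    (hi : P ({ω | κ < tv w (F ω) (F' ω)} ∩ E) = P {ω | κ < tv w (F ω) (F' ω)} * P E) :
    P ({ω | κ < tv w (F ω) (F' ω)} ∩ E) ≤ ENNReal.ofReal (2 * w * c / κ) * δ := by
  rw [hi]
  refine mul_le_mul' ?_ hE
  have hm := lintegral_tv_le (P := P) hF hF' w h1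
  have hmk := mul_meas_ge_le_lintegral₀ (μ := P)
    (f := fun ω => ENNReal.ofReal (tv w (F ω) (F' ω)))
    (measurable_tv hF hF' w).ennreal_ofReal.aemeasurable (ENNReal.ofReal κ)
  have hk0 : ENNReal.ofReal κ ≠ 0 := by simpa using hκ
  rw [ENNReal.ofReal_div_of_pos hκ, ENNReal.le_div_iff_mul_le (Or.inl hk0)
    (Or.inl ENNReal.ofReal_ne_top), mul_comm]
  refine le_trans ?_ (hmk.trans hm)
  refine mul_le_mul_right (measure_mono fun ω hω => ?_) _
  exact ENNReal.ofReal_le_ofReal (le_of_lt hω)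

/-- uniform smallness of the bad events on compact intervals of slopes -/
lemma exists_uniform [IsProbabilityMeasure P] {D : Set ℝ} {A B : ℝ}
    (hD : ∀ x y, A < x → x < y → y < B → ∃ p ∈ D, x < p ∧ p < y)
    {N : ℝ → ℝ → ℕ → Set Ω}
    (hN : ∀ p ∈ D, ∀ q ∈ D, ∀ d, MeasurableSet (N p q d))
    (hNd : ∀ p ∈ D, ∀ q ∈ D, ∀ d d', d ≤ d' → N p q d' ⊆ N p q d)
    (hNm : ∀ p ∈ D, ∀ q ∈ D, ∀ p' ∈ D, ∀ q' ∈ D, ∀ d, p ≤ p' → q' ≤ q → N p' q' d ⊆ N p q d)
    (hs : ∀ s, A < s → s < B → ∀ᵐ ω ∂P, Esc D N s ω)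
    {a b : ℝ} (ha : A < a) (hb : b < B) {δ : ℝ≥0∞} (hδ : 0 < δ) :
    ∃ η > 0, ∃ d : ℕ, ∀ p ∈ D, ∀ q ∈ D, p < q → q - p ≤ η → a ≤ p → q ≤ b →
      P (N p q d) ≤ δ := by
  -- local statement
  have hloc : ∀ s, A < s → s < B → ∃ p ∈ D, ∃ q ∈ D, p < s ∧ s < q ∧ ∃ d, P (N p q d) ≤ δ := by
    intro s hs1 hs2
    obtain ⟨hl, hr⟩ := twoSided_of_dense hD hs1 hs2
    -- sequences in `D` converging to `s` from the two sides
    have hl' : ∀ n : ℕ, ∃ p ∈ D, s - 1 / ((n : ℝ) + 1) < p ∧ p < s := fun n =>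
      hl _ (by have : (0 : ℝ) < 1 / ((n : ℝ) + 1) := by positivity
               linarith)
    have hr' : ∀ n : ℕ, ∃ q ∈ D, s < q ∧ q < s + 1 / ((n : ℝ) + 1) := fun n =>
      hr _ (by have : (0 : ℝ) < 1 / ((n : ℝ) + 1) := by positivity
               linarith)
    choose u huD hu1 hu2 using hl'
    choose v hvD hv1 hv2 using hr'
    -- monotone rearrangements: take the best among the first `n`
    have hmaxD : ∀ n : ℕ, ∃ p ∈ D, p < s ∧ s - 1 / ((n : ℝ) + 1) < p ∧ ∀ m ≤ n, u m ≤ p := by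
      intro n
      obtain ⟨m, hm, hmax⟩ := Finset.exists_max_image (Finset.range (n + 1)) u ⟨0, by simp⟩
      refine ⟨u m, huD m, hu2 m, (hu1 n).trans_le (hmax n (by simp)), fun k hk =>
        hmax k (by simpa using Nat.lt_succ_of_le hk)⟩
    have hminD : ∀ n : ℕ, ∃ q ∈ D, s < q ∧ q < s + 1 / ((n : ℝ) + 1) ∧ ∀ m ≤ n, q ≤ v m := by
      intro n
      obtain ⟨m, hm, hmin⟩ := Finset.exists_min_image (Finset.range (n + 1)) v ⟨0, by simp⟩
      refine ⟨v m, hvD m, hv1 m, (hmin n (by simp)).trans_lt (hv2 n), fun k hk =>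
        hmin k (by simpa using Nat.lt_succ_of_le hk)⟩
    -- the decreasing intersection along `D × D × ℕ`
    by_contra hcon
    push Not at hcon
    have hdir : ∀ n : ℕ, ∃ E : Set Ω, MeasurableSet E ∧ δ < P E ∧
        E = ⋂ m ∈ Finset.range (n + 1), ⋂ k ∈ Finset.range (n + 1), N (u m) (v m) k ∩
          ⋂ m' ∈ Finset.range (n + 1), N (u m) (v m') k := by
      intro n
      refine ⟨_, ?_, ?_, rfl⟩
      · refine Finset.measurableSet_biInter _ fun m _ => ?_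
        refine Finset.measurableSet_biInter _ fun k _ => ?_
        refine (hN _ (huD m) _ (hvD m) k).inter ?_
        exact Finset.measurableSet_biInter _ fun m' _ => hN _ (huD m) _ (hvD m') k
      · obtain ⟨p, hpD, hp1, -, hp3⟩ := hmaxD n
        obtain ⟨q, hqD, hq1, -, hq3⟩ := hminD n
        refine (hcon p hpD q hqD hp1 hq1 n).trans_le (measure_mono ?_)
        intro ω hω
        simp only [mem_iInter, mem_inter_iff, Finset.mem_range]
        intro m hm k hk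
        refine ⟨?_, ?_⟩
        · exact hNd _ (huD m) _ (hvD m) k n (by omega)
            (hNm _ (huD m) _ (hvD m) _ hpD _ hqD n (hp3 m (by omega)) (hq3 m (by omega)) hω)
        · intro m' hm'
          exact hNd _ (huD m) _ (hvD m') k n (by omega)
            (hNm _ (huD m) _ (hvD m') _ hpD _ hqD n (hp3 m (by omega)) (hq3 m' (by omega)) hω)
    choose E hEm hEδ hEeq using hdir
    have hanti : Antitone E := by
      intro n n' hnn ω hω
      rw [hEeq] at hω ⊢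
      simp only [mem_iInter, mem_inter_iff, Finset.mem_range] at hω ⊢
      intro m hm k hk
      exact ⟨(hω m (by omega) k (by omega)).1, fun m' hm' =>
        (hω m (by omega) k (by omega)).2 m' (by omega)⟩
    have hlim := tendsto_measure_iInter_atTop (μ := P) (fun n => (hEm n).nullMeasurableSet)
      hanti ⟨0, measure_ne_top _ _⟩
    have hge : δ ≤ P (⋂ n, E n) := ge_of_tendsto hlim (Eventually.of_forall fun n => (hEδ n).le)
    have hz : P (⋂ n, E n) = 0 := by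
      refine measure_mono_null ?_ (ae_iff.1 (hs s hs1 hs2))
      intro ω hω
      rintro ⟨p, hp, q, hq, hps, hsq, d, hnot⟩
      apply hnot
      -- find `m` with `p ≤ u m`, `v m ≤ q`
      obtain ⟨m, hm⟩ := exists_nat_one_div_lt (lt_min (sub_pos.2 hps) (sub_pos.2 hsq))
      have hpm : p ≤ u m := by
        have := hu1 m
        have := hm.trans_le (min_le_left _ _)
        linarith
      have hqm : v m ≤ q := by
        have := hv2 m
        have := hm.trans_le (min_le_right _ _)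
        linarith
      have h1 := mem_iInter.1 hω (max m d)
      rw [hEeq] at h1
      simp only [mem_iInter, mem_inter_iff, Finset.mem_range] at h1
      have h2 := (h1 m (by omega) d (by omega)).1
      exact hNm _ hp _ hq _ (huD m) _ (hvD m) d hpm hqm h2
    rw [hz] at hge
    exact absurd hge (not_le.2 hδ)
  -- compactness of `[a,b]`
  choose! pl hplD ql hqlD hpl hql dl hdl using hloc
  have hcover : Icc a b ⊆ ⋃ s ∈ Icc a b, Ioo (pl s) (ql s) := by
    intro s hsab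
    rw [mem_iUnion₂]
    exact ⟨s, hsab, hpl s (ha.trans_le hsab.1) (hsab.2.trans_lt hb),
      hql s (ha.trans_le hsab.1) (hsab.2.trans_lt hb)⟩
  obtain ⟨t, ht, htfin, htc⟩ := isCompact_Icc.elim_finite_subcover_image
    (fun s _ => isOpen_Ioo (a := pl s) (b := ql s)) hcover
  have hleb : ∃ η > 0, ∀ x ∈ Icc a b, ∃ s ∈ t, Metric.ball x η ⊆ Ioo (pl s) (ql s) := by
    obtain ⟨η, hη, h⟩ := lebesgue_number_lemma_of_metric (ι := t)
      (c := fun s => Ioo (pl s) (ql s)) isCompact_Icc (fun s => isOpen_Ioo)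
      (by rwa [biUnion_eq_iUnion] at htc)
    exact ⟨η, hη, fun x hx => by
      obtain ⟨s, hs⟩ := h x hx
      exact ⟨s, s.2, hs⟩⟩
  obtain ⟨η, hη, hball⟩ := hleb
  obtain ⟨d, hd⟩ : ∃ d : ℕ, ∀ s ∈ t, dl s ≤ d := by
    obtain ⟨d, hd⟩ := (htfin.image dl).bddAbove
    exact ⟨d, fun s hs => hd ⟨s, hs, rfl⟩⟩
  refine ⟨η / 2, half_pos hη, d, fun p hp q hq hpq hle hap hqb => ?_⟩
  obtain ⟨s, hst, hsb⟩ := hball p ⟨hap, hpq.le.trans hqb⟩
  have hsI := ht hst
  have hAs : A < s := ha.trans_le hsI.1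
  have hsB : s < B := hsI.2.trans_lt hb
  have hp' : p ∈ Ioo (pl s) (ql s) := hsb (Metric.mem_ball_self hη)
  have hq' : q ∈ Ioo (pl s) (ql s) := by
    apply hsb
    rw [Metric.mem_ball, Real.dist_eq, abs_of_pos (by linarith)]
    linarith
  refine (measure_mono ?_).trans (hdl s hAs hsB)
  exact (hNd _ hp _ hq (dl s) d (hd s hst)).trans
    (hNm _ (hplD s hAs hsB) _ (hqlD s hAs hsB) _ hp _ hq _ hp'.1.le hq'.2.le)

/-- a grid of slopes of `D` with double cells covering `(a,b)` -/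
lemma exists_grid {D : Set ℝ} {a' b' a b : ℝ} (h1 : a' < a) (h2 : a < b) (h3 : b < b')
    (hD : ∀ x y, a' ≤ x → x < y → y ≤ b' → ∃ p ∈ D, x < p ∧ p < y) :
    ∃ n0 : ℕ, ∀ n ≥ n0, ∃ pk : ℕ → ℝ, (∀ i < n, pk i ∈ D ∧ a' ≤ pk i ∧ pk i ≤ b') ∧
      (∀ i, i + 2 < n → pk i < pk (i + 2) ∧ pk (i + 2) - pk i ≤ 3 * ((b' - a') / n)) ∧
      ∀ s, a < s → s < b → ∃ i, i + 2 < n ∧ pk i < s ∧ s < pk (i + 2) := by
  set L : ℝ := b' - a' with hL
  have hL0 : 0 < L := by linarith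
  have hlim1 : Tendsto (fun n : ℕ => L / n) atTop (𝓝 0) := tendsto_const_div_atTop_nhds_zero_nat L
  have e1 : ∀ᶠ n : ℕ in atTop, L / n < a - a' := hlim1.eventually_lt_const (by linarith)
  have e2 : ∀ᶠ n : ℕ in atTop, L / n < (b' - b) / 2 := hlim1.eventually_lt_const (by linarith)
  obtain ⟨n0, hn0⟩ := eventually_atTop.1 (e1.and (e2.and (eventually_gt_atTop 0)))
  refine ⟨n0, fun n hnn => ?_⟩
  obtain ⟨hna, hnb, hn⟩ := hn0 n hnn
  have hn' : (0 : ℝ) < n := by exact_mod_cast hn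
  set δ : ℝ := L / n with hδ
  have hδ0 : 0 < δ := by positivity
  have hnδ : n * δ = L := by rw [hδ]; field_simp
  have hex : ∀ i : ℕ, i < n → ∃ p ∈ D, a' + i * δ < p ∧ p < a' + (i + 1) * δ := by
    intro i hi'
    have hi1 : (0 : ℝ) ≤ i := Nat.cast_nonneg i
    have hi2 : (i : ℝ) + 1 ≤ n := by exact_mod_cast hi'
    refine hD _ _ ?_ ?_ ?_
    · have : 0 ≤ (i : ℝ) * δ := by positivity
      linarith
    · linarith
    · have : ((i : ℝ) + 1) * δ ≤ n * δ := by gcongr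
      rw [hnδ] at this
      linarith
  choose! pk hpD hpl hpu using hex
  refine ⟨pk, fun i hi => ⟨hpD i hi, ?_, ?_⟩, fun i hi => ?_, fun s hs1 hs2 => ?_⟩
  · have := hpl i hi
    have h0 : 0 ≤ (i : ℝ) * δ := by positivity
    linarith
  · have := hpu i hi
    have hi2 : (i : ℝ) + 1 ≤ n := by exact_mod_cast hi
    have : ((i : ℝ) + 1) * δ ≤ n * δ := by gcongr
    rw [hnδ] at this
    linarith
  · have u1 := hpl i (by omega)
    have u1' := hpu i (by omega)
    have u2 := hpu (i + 2) (by omega)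
    have u2' := hpl (i + 2) (by omega)
    push_cast at u1 u1' u2 u2'
    constructor <;> nlinarith
  · have hs0 : 0 ≤ (s - a') / δ := by
      apply div_nonneg _ hδ0.le
      linarith
    set m : ℕ := ⌊(s - a') / δ⌋₊ with hm
    have hm1 : (m : ℝ) * δ ≤ s - a' := by
      have := Nat.floor_le hs0
      rwa [← hm, le_div_iff₀ hδ0] at this
    have hm2 : s - a' < (m + 1) * δ := by
      have := Nat.lt_floor_add_one ((s - a') / δ)
      rwa [← hm, div_lt_iff₀ hδ0] at this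
    have hm3 : 1 ≤ m := by
      by_contra h
      have h0 : m = 0 := by omega
      rw [h0] at hm2
      simp only [Nat.cast_zero, zero_add, one_mul] at hm2
      linarith
    have hm4 : m + 2 ≤ n := by
      have h3 : (m : ℝ) + 2 < n + 1 := by
        have h4 : ((m : ℝ) + 2) * δ < (n + 1) * δ := by
          have : ((n : ℝ) + 1) * δ = L + δ := by rw [add_mul, hnδ, one_mul]
          rw [this]
          have : ((m : ℝ) + 2) * δ = m * δ + 2 * δ := by ring
          linarith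
        exact lt_of_mul_lt_mul_right h4 hδ0.le
      have h5 : m + 2 < n + 1 := by exact_mod_cast h3
      omega
    obtain ⟨i, hmi⟩ : ∃ i, m = i + 1 := ⟨m - 1, by omega⟩
    rw [hmi] at hm1 hm2 hm3 hm4
    have u1 := hpu i (by omega)
    have u2 := hpl (i + 2) (by omega)
    push_cast at hm1 hm2 u1 u2
    refine ⟨i, by omega, ?_, ?_⟩
    · linarith
    · have : ((i : ℝ) + 1 + 1) * δ = (i + 2) * δ := by ring
      linarith

/-- the bad set of the event version -/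
def Bad2 (D : Set ℝ) (f : ℝ → Ω → ℤ → ℝ) (N : ℝ → ℝ → ℕ → Set Ω) (a b : ℝ) (w : ℕ) (κ : ℝ) :
    Set Ω :=
  {ω | ∃ s, a < s ∧ s < b ∧ (∀ p ∈ D, ∀ q ∈ D, p < s → s < q → κ < tv w (f p ω) (f q ω)) ∧
    ¬ Esc D N s ω}

theorem measure_bad2 [IsProbabilityMeasure P] {D : Set ℝ} {A B C : ℝ}
    (hD : ∀ x y, A < x → x < y → y < B → ∃ p ∈ D, x < p ∧ p < y)
    {f : ℝ → Ω → ℤ → ℝ} {N : ℝ → ℝ → ℕ → Set Ω}
    (hf : ∀ p ∈ D, ∀ x, Measurable fun ω => f p ω x) (hC : 0 ≤ C)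
    (h1 : ∀ p ∈ D, ∀ q ∈ D, p ≤ q → ∀ x,
      ∫⁻ ω, ENNReal.ofReal |inc (f p ω) x - inc (f q ω) x| ∂P ≤ ENNReal.ofReal (C * (q - p)))
    (hN : ∀ p ∈ D, ∀ q ∈ D, ∀ d, MeasurableSet (N p q d))
    (hNd : ∀ p ∈ D, ∀ q ∈ D, ∀ d d', d ≤ d' → N p q d' ⊆ N p q d)
    (hNm : ∀ p ∈ D, ∀ q ∈ D, ∀ p' ∈ D, ∀ q' ∈ D, ∀ d, p ≤ p' → q' ≤ q → N p' q' d ⊆ N p q d)
    (hs : ∀ s, A < s → s < B → ∀ᵐ ω ∂P, Esc D N s ω)
    (hi : ∀ p ∈ D, ∀ q ∈ D, ∀ (w d : ℕ) (κ : ℝ),
      P ({ω | κ < tv w (f p ω) (f q ω)} ∩ N p q d) =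
        P {ω | κ < tv w (f p ω) (f q ω)} * P (N p q d))
    {a b : ℝ} (ha : A < a) (hb : b < B) (w : ℕ) {κ : ℝ} (hκ : 0 < κ) :
    P (Bad2 D f N a b w κ) = 0 := by
  rcases le_or_gt b a with hba | hab
  · have : Bad2 D f N a b w κ = ∅ := by
      ext ω
      simp only [Bad2, mem_ofPred_eq, mem_empty_iff_false, iff_false, not_exists, not_and]
      intro s h1 h2
      linarith
    rw [this, measure_empty]
  obtain ⟨a', ha1, ha2⟩ := exists_between ha
  obtain ⟨b', hb1, hb2⟩ := exists_between hb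
  set K : ℝ := 2 * w * (C * (3 * (b' - a'))) / κ with hK
  have hK0 : 0 ≤ K := by
    have : 0 ≤ b' - a' := by linarith
    positivity
  obtain ⟨n0, hn0⟩ := exists_grid ha2 hab hb1 fun x y hx hxy hy =>
    hD x y (ha1.trans_le hx) hxy (hy.trans_lt hb2)
  have main : ∀ δ : ℝ≥0∞, 0 < δ → P (Bad2 D f N a b w κ) ≤ ENNReal.ofReal K * δ := by
    intro δ hδ
    obtain ⟨η, hη, d, hd⟩ := exists_uniform (P := P) hD hN hNd hNm hs ha1 hb2 hδ
    have hlim : Tendsto (fun n : ℕ => 3 * ((b' - a') / n)) atTop (𝓝 0) := by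
      simpa using (tendsto_const_div_atTop_nhds_zero_nat (b' - a')).const_mul 3
    obtain ⟨n, hnη, hnn0, hn⟩ := ((hlim.eventually_le_const hη).and
      ((eventually_ge_atTop n0).and (eventually_gt_atTop 0))).exists
    have hn' : (0 : ℝ) < n := by exact_mod_cast hn
    obtain ⟨pk, hpk, hcell, hcov⟩ := hn0 n hnn0
    have hsub : Bad2 D f N a b w κ ⊆ ⋃ i ∈ Finset.range (n - 2),
        ({ω | κ < tv w (f (pk i) ω) (f (pk (i + 2)) ω)} ∩ N (pk i) (pk (i + 2)) d) := by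
      rintro ω ⟨s, hs1, hs2, hs3, hs4⟩
      obtain ⟨i, hin, hi1, hi2⟩ := hcov s hs1 hs2
      rw [mem_iUnion₂]
      refine ⟨i, Finset.mem_range.2 (by omega), ?_, ?_⟩
      · exact hs3 _ (hpk i (by omega)).1 _ (hpk (i + 2) (by omega)).1 hi1 hi2
      · by_contra hnot
        exact hs4 ⟨_, (hpk i (by omega)).1, _, (hpk (i + 2) (by omega)).1, hi1, hi2, d, hnot⟩
    refine (measure_mono hsub).trans ((measure_biUnion_finset_le _ _).trans ?_)
    have hcell' : ∀ i ∈ Finset.range (n - 2),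
        P ({ω | κ < tv w (f (pk i) ω) (f (pk (i + 2)) ω)} ∩ N (pk i) (pk (i + 2)) d) ≤
          ENNReal.ofReal (K / n) * δ := by
      intro i hi'
      rw [Finset.mem_range] at hi'
      obtain ⟨hlt, hlen⟩ := hcell i (by omega)
      obtain ⟨hp1, hp2, hp3⟩ := hpk i (by omega)
      obtain ⟨hq1, hq2, hq3⟩ := hpk (i + 2) (by omega)
      have hcc : ENNReal.ofReal (C * (pk (i + 2) - pk i)) ≤
          ENNReal.ofReal (C * (3 * ((b' - a') / n))) :=
        ENNReal.ofReal_le_ofReal (mul_le_mul_of_nonneg_left hlen hC)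
      have := cell_event_le (P := P) (hf _ hp1) (hf _ hq1) w hκ
        (fun x => (h1 _ hp1 _ hq1 hlt.le x).trans hcc)
        (hd _ hp1 _ hq1 hlt (hlen.trans hnη) hp2 hq3) (hi _ hp1 _ hq1 w d κ)
      refine this.trans_eq ?_
      congr 2
      rw [hK]
      field_simp
    refine (Finset.sum_le_sum hcell').trans ?_
    rw [Finset.sum_const, Finset.card_range, nsmul_eq_mul, ← mul_assoc]
    refine mul_le_mul_left ?_ _
    rw [← ENNReal.ofReal_natCast, ← ENNReal.ofReal_mul (Nat.cast_nonneg _)]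
    refine ENNReal.ofReal_le_ofReal ?_
    have h5 : (((n - 2 : ℕ) : ℝ)) ≤ n := by exact_mod_cast Nat.sub_le n 2
    calc ((n - 2 : ℕ) : ℝ) * (K / n) ≤ n * (K / n) := by gcongr
      _ = K := by field_simp
  refine le_antisymm ?_ zero_le
  have hlim : Tendsto (fun δ : ℝ≥0∞ => ENNReal.ofReal K * δ) (𝓝[>] 0) (𝓝 0) := by
    have : Tendsto (fun δ : ℝ≥0∞ => ENNReal.ofReal K * δ) (𝓝 0) (𝓝 (ENNReal.ofReal K * 0)) :=
      ENNReal.Tendsto.const_mul tendsto_id (Or.inr ENNReal.ofReal_ne_top)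
    rw [mul_zero] at this
    exact this.mono_left nhdsWithin_le_nhds
  exact ge_of_tendsto hlim (eventually_nhdsWithin_of_forall fun δ hδ => main δ hδ)

/-- **CHAIN, event version**: a.s. for every slope `s` of `(A,B)` either the family `f` does not
jump at `s`, or `s` escapes the events `N`. -/
theorem chain_event_ae [IsProbabilityMeasure P] {D : Set ℝ} {A B C : ℝ}
    (hD : ∀ x y, A < x → x < y → y < B → ∃ p ∈ D, x < p ∧ p < y)
    {f : ℝ → Ω → ℤ → ℝ} {N : ℝ → ℝ → ℕ → Set Ω}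
    (hf : ∀ p ∈ D, ∀ x, Measurable fun ω => f p ω x) (hC : 0 ≤ C)
    (h1 : ∀ p ∈ D, ∀ q ∈ D, p ≤ q → ∀ x,
      ∫⁻ ω, ENNReal.ofReal |inc (f p ω) x - inc (f q ω) x| ∂P ≤ ENNReal.ofReal (C * (q - p)))
    (hN : ∀ p ∈ D, ∀ q ∈ D, ∀ d, MeasurableSet (N p q d))
    (hNd : ∀ p ∈ D, ∀ q ∈ D, ∀ d d', d ≤ d' → N p q d' ⊆ N p q d)
    (hNm : ∀ p ∈ D, ∀ q ∈ D, ∀ p' ∈ D, ∀ q' ∈ D, ∀ d, p ≤ p' → q' ≤ q → N p' q' d ⊆ N p q d)
    (hs : ∀ s, A < s → s < B → ∀ᵐ ω ∂P, Esc D N s ω)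
    (hi : ∀ p ∈ D, ∀ q ∈ D, ∀ (w d : ℕ) (κ : ℝ),
      P ({ω | κ < tv w (f p ω) (f q ω)} ∩ N p q d) =
        P {ω | κ < tv w (f p ω) (f q ω)} * P (N p q d)) :
    ∀ᵐ ω ∂P, ∀ s, A < s → s < B → ContAt D (fun p => f p ω) s ∨ Esc D N s ω := by
  have hall : ∀ᵐ ω ∂P, ∀ (a b : ℚ) (w k : ℕ), A < a → (b : ℝ) < B →
      ω ∉ Bad2 D f N a b w (1 / ((k : ℝ) + 1)) := by
    rw [ae_all_iff]; intro a
    rw [ae_all_iff]; intro b
    rw [ae_all_iff]; intro w
    rw [ae_all_iff]; intro k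
    by_cases ha : A < a
    · by_cases hb : (b : ℝ) < B
      · have := measure_bad2 (P := P) hD hf hC h1 hN hNd hNm hs hi ha hb w
          (κ := 1 / ((k : ℝ) + 1)) (by positivity)
        filter_upwards [measure_eq_zero_iff_ae_notMem.1 this] with ω hω _ _
        exact hω
      · exact Eventually.of_forall fun ω _ h => absurd h hb
    · exact Eventually.of_forall fun ω h => absurd h ha
  filter_upwards [hall] with ω hω s hs1 hs2
  by_contra hcon
  rw [not_or] at hcon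
  obtain ⟨hc1, hc2⟩ := hcon
  unfold ContAt at hc1
  push Not at hc1
  obtain ⟨w1, ε1, hε1, H1⟩ := hc1
  obtain ⟨a, ha1, ha2⟩ := exists_rat_btwn hs1
  obtain ⟨b, hb1, hb2⟩ := exists_rat_btwn hs2
  obtain ⟨k, hk⟩ := exists_nat_one_div_lt hε1
  exact hω a b w1 k ha1 hb2 ⟨s, ha2, hb1, fun p hp q hq hps hsq =>
    hk.trans (H1 p hp q hq hps hsq), hc2⟩

end Crest.Agent.R151.H
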