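import Mathlib
import Crest.Agent.R151.H617b
import Crest.Agent.R151.A565a

/-!
# R151/H617d — block (C): environment form, total order of the labels, CLASS (owner helper617)
-/

set_option autoImplicit false

open MeasureTheory ProbabilityTheory Filter Set
open scoped ENNReal Topology
open Crest.ProbabilityR.FirstPassage

namespace Crest.Agent.R151.H

/-! ### total order of labels -/

/-- label order: upper increments decrease, lower increments increase -/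
def LabLe (a b : (ℤ → ℝ) × (ℤ → ℝ)) : Prop :=
  (∀ x, inc b.1 x ≤ inc a.1 x) ∧ ∀ x, inc a.2 x ≤ inc b.2 x

lemma LabLe.refl (a : (ℤ → ℝ) × (ℤ → ℝ)) : LabLe a a := ⟨fun _ => le_rfl, fun _ => le_rfl⟩

lemma LabLe.trans {a b c : (ℤ → ℝ) × (ℤ → ℝ)} (h1 : LabLe a b) (h2 : LabLe b c) : LabLe a c :=
  ⟨fun x => (h2.1 x).trans (h1.1 x), fun x => (h1.2 x).trans (h2.2 x)⟩

/-- increasing convention: `inc (f p) ≤ inc h ≤ inc (f q)` for `p < s < q`. -/
structure SandUp (D : Set ℝ) (f : ℝ → ℤ → ℝ) (s : ℝ) (h : ℤ → ℝ) : Prop where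
  ge : ∀ p ∈ D, p < s → ∀ x, inc (f p) x ≤ inc h x
  le : ∀ q ∈ D, s < q → ∀ x, inc h x ≤ inc (f q) x

lemma SandUp.sandU {D : Set ℝ} {f : ℝ → ℤ → ℝ} {s : ℝ} {h : ℤ → ℝ} (H : SandUp D f s h) :
    SandU D f s h := fun p hp q hq hps hsq x =>
  mem_uIcc.2 (Or.inl ⟨H.ge p hp hps x, H.le q hq hsq x⟩)

lemma SandUp.inc_le {D : Set ℝ} {f : ℝ → ℤ → ℝ} {s s' : ℝ} {h h' : ℤ → ℝ}
    (H : SandUp D f s h) (H' : SandUp D f s' h') {p : ℝ} (hp : p ∈ D) (h1 : s < p) (h2 : p < s')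
    (x : ℤ) : inc h x ≤ inc h' x :=
  (H.le p hp h1 x).trans (H'.ge p hp h2 x)

/-- (C3) in the increasing convention -/
theorem SandUp.hasSlope {D : Set ℝ} {f : ℝ → ℤ → ℝ} {s : ℝ} {h : ℤ → ℝ} {θ : ℝ → ℝ}
    (H : SandUp D f s h) (hD : TwoSided D s) (hθ : ContinuousAt θ s)
    (hf : ∀ p ∈ D, HasSlope (f p) (θ p)) : HasSlope h (θ s) := by
  refine hasSlope_of_squeeze ?_ ?_
  · intro a ha
    have := hθ.eventually_lt_const ha
    obtain ⟨δ, hδ, hball⟩ := Metric.eventually_nhds_iff.1 this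
    obtain ⟨q, hq, hq1, hq2⟩ := hD.2 (s + δ) (by linarith)
    refine ⟨f q, θ q, hball ?_, hf q hq, H.le q hq hq1⟩
    rw [Real.dist_eq, abs_lt]
    constructor <;> linarith
  · intro a ha
    have := hθ.eventually_const_lt ha
    obtain ⟨δ, hδ, hball⟩ := Metric.eventually_nhds_iff.1 this
    obtain ⟨p, hp, hp1, hp2⟩ := hD.1 (s - δ) (by linarith)
    refine ⟨f p, θ p, hball ?_, hf p hp, H.ge p hp hp2⟩
    rw [Real.dist_eq, abs_lt]
    constructor <;> linarith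

/-- two functions with comparable increments -/
def Cmp (h k : ℤ → ℝ) : Prop := (∀ x, inc h x ≤ inc k x) ∨ ∀ x, inc k x ≤ inc h x

lemma Cmp.symm {h k : ℤ → ℝ} (H : Cmp h k) : Cmp k h := Or.symm H

/-- **total order**, upper family decreasing (`Sand`), lower family increasing (`SandUp`) in the
slope parameter.  Only for equal slopes comparability of the functions is used. -/
theorem lab_total {D : Set ℝ} {f g : ℝ → ℤ → ℝ}
    {a b : (ℤ → ℝ) × (ℤ → ℝ)} {s s' : ℝ}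
    (hDs : ∀ x y, min s s' ≤ x → y ≤ max s s' → x < y → ∃ p ∈ D, x < p ∧ p < y)
    (hc : ContAt D f s ∨ ContAt D g s)
    (ha1 : Sand D f s a.1) (ha2 : SandUp D g s a.2)
    (hb1 : Sand D f s' b.1) (hb2 : SandUp D g s' b.2)
    (h1 : s = s' → Cmp a.1 b.1) (h2 : s = s' → Cmp a.2 b.2) :
    LabLe a b ∨ LabLe b a := by
  rcases lt_trichotomy s s' with hss | hss | hss
  · obtain ⟨p, hp, hp1, hp2⟩ := hDs s s' (min_le_left _ _) (le_max_right _ _) hss
    exact Or.inl ⟨fun x => ha1.inc_le hb1 hp hp1 hp2 x, fun x => ha2.inc_le hb2 hp hp1 hp2 x⟩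
  · subst hss
    rcases hc with hc | hc
    · have heq : ∀ x, inc a.1 x = inc b.1 x := fun x => ha1.sandU.inc_eq hc hb1.sandU x
      rcases h2 rfl with h | h
      · exact Or.inl ⟨fun x => (heq x).ge, h⟩
      · exact Or.inr ⟨fun x => (heq x).le, h⟩
    · have heq : ∀ x, inc a.2 x = inc b.2 x := fun x => ha2.sandU.inc_eq hc hb2.sandU x
      rcases h1 rfl with h | h
      · exact Or.inr ⟨h, fun x => (heq x).ge⟩
      · exact Or.inl ⟨h, fun x => (heq x).le⟩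
  · obtain ⟨p, hp, hp1, hp2⟩ := hDs s' s (min_le_right _ _) (le_max_left _ _) hss
    exact Or.inr ⟨fun x => hb1.inc_le ha1 hp hp1 hp2 x, fun x => hb2.inc_le ha2 hp hp1 hp2 x⟩

/-- **total order**, upper family increasing (`SandUp`), lower family decreasing (`Sand`). -/
theorem lab_total' {D : Set ℝ} {f g : ℝ → ℤ → ℝ}
    {a b : (ℤ → ℝ) × (ℤ → ℝ)} {s s' : ℝ}
    (hDs : ∀ x y, min s s' ≤ x → y ≤ max s s' → x < y → ∃ p ∈ D, x < p ∧ p < y)
    (hc : ContAt D f s ∨ ContAt D g s)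
    (ha1 : SandUp D f s a.1) (ha2 : Sand D g s a.2)
    (hb1 : SandUp D f s' b.1) (hb2 : Sand D g s' b.2)
    (h1 : s = s' → Cmp a.1 b.1) (h2 : s = s' → Cmp a.2 b.2) :
    LabLe a b ∨ LabLe b a := by
  rcases lt_trichotomy s s' with hss | hss | hss
  · obtain ⟨p, hp, hp1, hp2⟩ := hDs s s' (min_le_left _ _) (le_max_right _ _) hss
    exact Or.inr ⟨fun x => ha1.inc_le hb1 hp hp1 hp2 x, fun x => ha2.inc_le hb2 hp hp1 hp2 x⟩
  · subst hss
    rcases hc with hc | hc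
    · have heq : ∀ x, inc a.1 x = inc b.1 x := fun x => ha1.sandU.inc_eq hc hb1.sandU x
      rcases h2 rfl with h | h
      · exact Or.inl ⟨fun x => (heq x).ge, h⟩
      · exact Or.inr ⟨fun x => (heq x).le, h⟩
    · have heq : ∀ x, inc a.2 x = inc b.2 x := fun x => ha2.sandU.inc_eq hc hb2.sandU x
      rcases h1 rfl with h | h
      · exact Or.inr ⟨h, fun x => (heq x).ge⟩
      · exact Or.inl ⟨h, fun x => (heq x).le⟩
  · obtain ⟨p, hp, hp1, hp2⟩ := hDs s' s (min_le_right _ _) (le_max_left _ _) hss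
    exact Or.inl ⟨fun x => hb1.inc_le ha1 hp hp1 hp2 x, fun x => hb2.inc_le ha2 hp hp1 hp2 x⟩

/-! ### CLASS: few representatives -/

/-- the mass of a label on the window `[lo, hi]` -/
def mass (lo hi : ℤ) (a : (ℤ → ℝ) × (ℤ → ℝ)) : ℝ := (a.1 hi - a.1 lo) - (a.2 hi - a.2 lo)

lemma LabLe.osc_le {a b : (ℤ → ℝ) × (ℤ → ℝ)} (h : LabLe a b) {lo hi x y : ℤ}
    (hx1 : lo ≤ x) (hx2 : x ≤ hi) (hy1 : lo ≤ y) (hy2 : y ≤ hi) :
    |(a.1 x - b.1 x) - (a.1 y - b.1 y)| ≤ mass lo hi a - mass lo hi b ∧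
      |(a.2 x - b.2 x) - (a.2 y - b.2 y)| ≤ mass lo hi a - mass lo hi b := by
  have m1 : Monotone fun z => a.1 z - b.1 z :=
    monotone_of_inc_nonneg fun x => by rw [inc_sub]; linarith [h.1 x]
  have m2 : Monotone fun z => b.2 z - a.2 z :=
    monotone_of_inc_nonneg fun x => by rw [inc_sub]; linarith [h.2 x]
  have a1 := m1 hx1
  have a2 := m1 hx2
  have a3 := m1 hy1
  have a4 := m1 hy2
  have b1 := m2 hx1
  have b2 := m2 hx2
  have b3 := m2 hy1
  have b4 := m2 hy2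
  simp only at a1 a2 a3 a4 b1 b2 b3 b4
  unfold mass
  constructor <;> rw [abs_le] <;> constructor <;> linarith

/-- mass is monotone -/
lemma LabLe.mass_le {a b : (ℤ → ℝ) × (ℤ → ℝ)} (h : LabLe a b) {lo hi : ℤ} (hlh : lo ≤ hi) :
    mass lo hi b ≤ mass lo hi a := by
  have := (h.osc_le le_rfl hlh le_rfl hlh).1
  rw [sub_self, abs_zero] at this
  linarith

/-- **CLASS**, deterministic part: a totally preordered set of labels whose variation on the window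
is at most `M` has at most `2 M / κ + 2` representatives up to oscillation `κ`. -/
theorem exists_rep {L : Set ((ℤ → ℝ) × (ℤ → ℝ))}
    (htot : ∀ a ∈ L, ∀ b ∈ L, LabLe a b ∨ LabLe b a) (lo hi : ℤ) {M κ : ℝ} (hM0 : 0 ≤ M)
    (hκ : 0 < κ) (hM : ∀ a ∈ L, |a.1 hi - a.1 lo| + |a.2 hi - a.2 lo| ≤ M) :
    ∃ Rep : Finset ((ℤ → ℝ) × (ℤ → ℝ)), (∀ b ∈ Rep, b ∈ L) ∧ (Rep.card : ℝ) ≤ 2 * M / κ + 2 ∧
      ∀ a ∈ L, ∃ b ∈ Rep, ∀ x y, lo ≤ x → x ≤ hi → lo ≤ y → y ≤ hi →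
        |(a.1 x - b.1 x) - (a.1 y - b.1 y)| ≤ κ ∧ |(a.2 x - b.2 x) - (a.2 y - b.2 y)| ≤ κ := by
  classical
  set I : Finset ℤ := Finset.Icc ⌊-M / κ⌋ ⌊M / κ⌋ with hI
  have hex : ∀ i : ℤ, (∃ a ∈ L, ⌊mass lo hi a / κ⌋ = i) ∨ ¬ ∃ a ∈ L, ⌊mass lo hi a / κ⌋ = i :=
    fun i => em _
  let r : ℤ → (ℤ → ℝ) × (ℤ → ℝ) := fun i =>
    if h : ∃ a ∈ L, ⌊mass lo hi a / κ⌋ = i then h.choose else default
  have hr : ∀ i, (∃ a ∈ L, ⌊mass lo hi a / κ⌋ = i) → r i ∈ L ∧ ⌊mass lo hi (r i) / κ⌋ = i := by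
    intro i h
    have : r i = h.choose := dif_pos h
    rw [this]
    exact h.choose_spec
  refine ⟨(I.filter fun i => ∃ a ∈ L, ⌊mass lo hi a / κ⌋ = i).image r, ?_, ?_, ?_⟩
  · intro b hb
    rw [Finset.mem_image] at hb
    obtain ⟨i, hi', rfl⟩ := hb
    rw [Finset.mem_filter] at hi'
    exact (hr i hi'.2).1
  · have h1 : (((I.filter fun i => ∃ a ∈ L, ⌊mass lo hi a / κ⌋ = i).image r).card : ℝ) ≤
        (I.card : ℝ) := by
      exact_mod_cast Finset.card_image_le.trans (Finset.card_filter_le _ _)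
    refine h1.trans ?_
    rw [hI, Int.card_Icc]
    have h2 : ⌊-M / κ⌋ ≤ ⌊M / κ⌋ := Int.floor_le_floor (by gcongr; linarith)
    have h3 : (((⌊M / κ⌋ + 1 - ⌊-M / κ⌋).toNat : ℤ) : ℝ) = (⌊M / κ⌋ + 1 - ⌊-M / κ⌋ : ℤ) := by
      rw [Int.toNat_of_nonneg (by omega)]
    have h4 : ((⌊M / κ⌋ + 1 - ⌊-M / κ⌋).toNat : ℝ) = (⌊M / κ⌋ : ℝ) + 1 - (⌊-M / κ⌋ : ℝ) := by
      have := h3
      push_cast at this
      exact_mod_cast this
    rw [h4]
    have h5 := Int.floor_le (M / κ)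
    have h6 := Int.lt_floor_add_one (-M / κ)
    rw [neg_div] at h6
    have h7 : (⌊-M / κ⌋ : ℝ) = (⌊-(M / κ)⌋ : ℝ) := by rw [neg_div]
    rw [h7]
    have h8 : 2 * M / κ = 2 * (M / κ) := by ring
    rw [h8]
    linarith
  · intro a haL
    have hm : |mass lo hi a| ≤ M := by
      unfold mass
      exact (abs_sub _ _).trans (hM a haL)
    rw [abs_le] at hm
    have hfa : ∃ a' ∈ L, ⌊mass lo hi a' / κ⌋ = ⌊mass lo hi a / κ⌋ := ⟨a, haL, rfl⟩
    obtain ⟨hrL, hrf⟩ := hr _ hfa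
    refine ⟨r ⌊mass lo hi a / κ⌋, ?_, ?_⟩
    · rw [Finset.mem_image]
      refine ⟨_, ?_, rfl⟩
      rw [Finset.mem_filter, hI, Finset.mem_Icc]
      exact ⟨⟨Int.floor_le_floor (by gcongr; exact hm.1), Int.floor_le_floor (by gcongr; exact hm.2)⟩, hfa⟩
    · set b := r ⌊mass lo hi a / κ⌋ with hb
      intro x y hx1 hx2 hy1 hy2
      have hlt := Int.abs_sub_lt_one_of_floor_eq_floor hrf
      have hlt' : |mass lo hi b - mass lo hi a| < κ := by
        have : mass lo hi b / κ - mass lo hi a / κ = (mass lo hi b - mass lo hi a) / κ := by ring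
        rw [this, abs_div, abs_of_pos hκ, div_lt_one hκ] at hlt
        exact hlt
      rw [abs_lt] at hlt'
      rcases htot a haL b hrL with h | h
      · obtain ⟨o1, o2⟩ := h.osc_le hx1 hx2 hy1 hy2
        exact ⟨by linarith, by linarith⟩
      · obtain ⟨o1, o2⟩ := h.osc_le hx1 hx2 hy1 hy2
        rw [← abs_neg] at o1 o2
        have e1 : -((b.1 x - a.1 x) - (b.1 y - a.1 y)) = (a.1 x - b.1 x) - (a.1 y - b.1 y) := by
          ring
        have e2 : -((b.2 x - a.2 x) - (b.2 y - a.2 y)) = (a.2 x - b.2 x) - (a.2 y - b.2 y) := by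
          ring
        rw [e1] at o1
        rw [e2] at o2
        exact ⟨by linarith, by linarith⟩

end Crest.Agent.R151.H
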