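import Mathlib
import Crest.Agent.R151.H617c
import Crest.Agent.R151.H617d

/-!
# R151/H617e — block (C): mean form of the hypotheses, environment form, CLASS in mean
(owner helper617)
-/

set_option autoImplicit false

open MeasureTheory ProbabilityTheory Filter Set
open scoped ENNReal Topology
open Crest.ProbabilityR.FirstPassage

namespace Crest.Agent.R151.H

variable {Ω : Type*} [MeasurableSpace Ω] {P : Measure Ω}

/-- ordered integrable increments: `E |inc F - inc G|` is the difference of the means -/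
lemma lintegral_inc_of_le {F G : Ω → ℤ → ℝ} {x : ℤ}
    (hF : Integrable (fun ω => inc (F ω) x) P) (hG : Integrable (fun ω => inc (G ω) x) P)
    (hle : ∀ᵐ ω ∂P, inc (G ω) x ≤ inc (F ω) x) :
    ∫⁻ ω, ENNReal.ofReal |inc (F ω) x - inc (G ω) x| ∂P =
      ENNReal.ofReal (∫ ω, inc (F ω) x ∂P - ∫ ω, inc (G ω) x ∂P) := by
  have hFG : Integrable (fun ω => inc (F ω) x - inc (G ω) x) P := hF.sub hG
  have h0 : 0 ≤ᵐ[P] fun ω => inc (F ω) x - inc (G ω) x := by
    filter_upwards [hle] with ω hω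
    simp only [Pi.zero_apply]
    linarith
  rw [← integral_sub hF hG, ofReal_integral_eq_lintegral_ofReal hFG h0]
  refine lintegral_congr_ae ?_
  filter_upwards [hle] with ω hω
  rw [abs_of_nonneg (by linarith)]

/-- hypotheses on a monotone family of labels with affine means; `σ = -1` decreasing
(`E inc f_p = c - p`), `σ = 1` increasing (`E inc f_p = c + p`). -/
structure MeanFam (P : Measure Ω) (D : Set ℝ) (f : ℝ → Ω → ℤ → ℝ) (c σ : ℝ) : Prop where
  sign : σ = 1 ∨ σ = -1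
  meas : ∀ p ∈ D, ∀ x, Measurable fun ω => f p ω x
  int : ∀ p ∈ D, ∀ x, Integrable (fun ω => inc (f p ω) x) P
  mean : ∀ p ∈ D, ∀ x, ∫ ω, inc (f p ω) x ∂P = c + σ * p
  mono : ∀ p ∈ D, ∀ q ∈ D, p < q → ∀ᵐ ω ∂P, ∀ x, σ * inc (f p ω) x ≤ σ * inc (f q ω) x

lemma MeanFam.lintegral_le {D : Set ℝ} {f : ℝ → Ω → ℤ → ℝ} {c σ : ℝ}
    (H : MeanFam P D f c σ) : ∀ p ∈ D, ∀ q ∈ D, p ≤ q → ∀ x,
      ∫⁻ ω, ENNReal.ofReal |inc (f p ω) x - inc (f q ω) x| ∂P ≤
        ENNReal.ofReal (1 * (q - p)) := by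
  intro p hp q hq hpq x
  rcases hpq.eq_or_lt with rfl | hlt
  · simp
  rcases H.sign with hσ | hσ
  · have h1 : ∀ ω, |inc (f p ω) x - inc (f q ω) x| = |inc (f q ω) x - inc (f p ω) x| :=
      fun ω => abs_sub_comm _ _
    simp_rw [h1]
    rw [lintegral_inc_of_le (H.int q hq x) (H.int p hp x), H.mean p hp, H.mean q hq, hσ]
    · refine ENNReal.ofReal_le_ofReal ?_
      linarith
    · filter_upwards [H.mono p hp q hq hlt] with ω hω
      have := hω x
      rw [hσ] at this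
      linarith
  · rw [lintegral_inc_of_le (H.int p hp x) (H.int q hq x), H.mean p hp, H.mean q hq, hσ]
    · refine ENNReal.ofReal_le_ofReal ?_
      linarith
    · filter_upwards [H.mono p hp q hq hlt] with ω hω
      have := hω x
      rw [hσ] at this
      linarith

/-- `tv` of functions that depend on the edges in `S` -/
lemma dependsOn_tv {F G : Environment → ℤ → ℝ} {S : Set (Sym2 (ℤ × ℤ))}
    (hF : ∀ x, DependsOn (fun t => inc (F t) x) S) (hG : ∀ x, DependsOn (fun t => inc (G t) x) S)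
    (w : ℕ) : DependsOn (fun t => tv w (F t) (G t)) S := by
  intro t t' h
  simp only [tv]
  refine Finset.sum_congr rfl fun x _ => ?_
  have h1 : inc (F t) x = inc (F t') x := hF x h
  have h2 : inc (G t) x = inc (G t') x := hG x h
  rw [h1, h2]

lemma dependsOn_inc {F : Environment → ℤ → ℝ} {S : Set (Sym2 (ℤ × ℤ))}
    (hF : ∀ x, DependsOn (fun t => F t x) S) (x : ℤ) : DependsOn (fun t => inc (F t) x) S := by
  intro t t' h
  have h1 : F t (x + 1) = F t' (x + 1) := hF (x + 1) h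
  have h2 : F t x = F t' x := hF x h
  simp only [inc, h1, h2]

/-- **(C) CHAIN for the environment**: upper family depending on `S`, lower family on `T`. -/
theorem chain_env (G : Measure ℝ) [IsProbabilityMeasure G] {D : Set ℝ} {A B : ℝ}
    (hD : ∀ x y, A < x → x < y → y < B → ∃ p ∈ D, x < p ∧ p < y)
    {f g : ℝ → Environment → ℤ → ℝ} {S T : Set (Sym2 (ℤ × ℤ))} (hST : Disjoint S T)
    {c σ c' σ' : ℝ} (hf : MeanFam (iidLaw G) D f c σ) (hg : MeanFam (iidLaw G) D g c' σ')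
    (hfS : ∀ p ∈ D, ∀ x, DependsOn (fun t => inc (f p t) x) S)
    (hgT : ∀ p ∈ D, ∀ x, DependsOn (fun t => inc (g p t) x) T) :
    ∀ᵐ t ∂(iidLaw G), ∀ s, A < s → s < B →
      ContAt D (fun p => f p t) s ∨ ContAt D (fun p => g p t) s :=
  chain_ae (P := iidLaw G) hD hf.meas hg.meas zero_le_one hf.lintegral_le hg.lintegral_le
    fun p hp q hq w => R151.A.indepFun_of_dependsOn G
      (measurable_tv (hf.meas p hp) (hf.meas q hq) w) (measurable_tv (hg.meas p hp) (hg.meas q hq) w)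
      (dependsOn_tv (hfS p hp) (hfS q hq) w) (dependsOn_tv (hgT p hp) (hgT q hq) w) hST

/-- a.e. version of the dependence (the families may be modified on a null set) -/
theorem chain_env_ae (G : Measure ℝ) [IsProbabilityMeasure G] {D : Set ℝ} {A B : ℝ}
    (hD : ∀ x y, A < x → x < y → y < B → ∃ p ∈ D, x < p ∧ p < y)
    {f g : ℝ → Environment → ℤ → ℝ} {S T : Set (Sym2 (ℤ × ℤ))} (hST : Disjoint S T)
    {c σ c' σ' : ℝ} (hf : MeanFam (iidLaw G) D f c σ) (hg : MeanFam (iidLaw G) D g c' σ')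
    (hfS : ∀ p ∈ D, ∃ F : Environment → ℤ → ℝ, (∀ x, Measurable fun t => F t x) ∧
      (∀ x, DependsOn (fun t => inc (F t) x) S) ∧ ∀ᵐ t ∂(iidLaw G), F t = f p t)
    (hgT : ∀ p ∈ D, ∃ F : Environment → ℤ → ℝ, (∀ x, Measurable fun t => F t x) ∧
      (∀ x, DependsOn (fun t => inc (F t) x) T) ∧ ∀ᵐ t ∂(iidLaw G), F t = g p t) :
    ∀ᵐ t ∂(iidLaw G), ∀ s, A < s → s < B →
      ContAt D (fun p => f p t) s ∨ ContAt D (fun p => g p t) s := by
  refine chain_ae (P := iidLaw G) hD hf.meas hg.meas zero_le_one hf.lintegral_le hg.lintegral_le ?_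
  intro p hp q hq w
  obtain ⟨F, hF1, hF2, hF3⟩ := hfS p hp
  obtain ⟨F', hF1', hF2', hF3'⟩ := hfS q hq
  obtain ⟨K, hK1, hK2, hK3⟩ := hgT p hp
  obtain ⟨K', hK1', hK2', hK3'⟩ := hgT q hq
  have hind := R151.A.indepFun_of_dependsOn G (measurable_tv hF1 hF1' w) (measurable_tv hK1 hK1' w)
    (dependsOn_tv hF2 hF2' w) (dependsOn_tv hK2 hK2' w) hST
  refine hind.congr ?_ ?_
  · filter_upwards [hF3, hF3'] with t h1 h2
    rw [h1, h2]
  · filter_upwards [hK3, hK3'] with t h1 h2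
    rw [h1, h2]

/-! ### CLASS, in mean -/

/-- **CLASS** (input of the local finite energy block): a.s. totally preordered labels with
increments bounded by integrable fields have at most `N t` classes of oscillation `≤ κ` on
`[-h, h]`, with `E N ≤ C₁ (h + 1)`. -/
theorem class_int [IsProbabilityMeasure P] {L : Ω → Set ((ℤ → ℝ) × (ℤ → ℝ))}
    (htot : ∀ᵐ ω ∂P, ∀ a ∈ L ω, ∀ b ∈ L ω, LabLe a b ∨ LabLe b a)
    {U V : Ω → ℤ → ℝ} (hUm : ∀ x, Measurable fun ω => U ω x) (hVm : ∀ x, Measurable fun ω => V ω x)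
    (hUi : ∀ x, Integrable (fun ω => U ω x) P) (hVi : ∀ x, Integrable (fun ω => V ω x) P)
    {C₀ : ℝ} (hUC : ∀ x, ∫ ω, |U ω x| ∂P ≤ C₀) (hVC : ∀ x, ∫ ω, |V ω x| ∂P ≤ C₀)
    (hb : ∀ᵐ ω ∂P, ∀ a ∈ L ω, ∀ x, |inc a.1 x| ≤ U ω x ∧ |inc a.2 x| ≤ V ω x)
    {κ : ℝ} (hκ : 0 < κ) :
    ∃ C₁ : ℝ, 0 ≤ C₁ ∧ ∀ h : ℕ, ∃ N : Ω → ℝ, Measurable N ∧ (∀ ω, 0 ≤ N ω) ∧ Integrable N P ∧
      ∫ ω, N ω ∂P ≤ C₁ * (h + 1) ∧
      ∀ᵐ ω ∂P, ∃ Rep : Finset ((ℤ → ℝ) × (ℤ → ℝ)), (∀ b ∈ Rep, b ∈ L ω) ∧ (Rep.card : ℝ) ≤ N ω ∧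
        ∀ a ∈ L ω, ∃ b ∈ Rep, ∀ x y : ℤ, -(h : ℤ) ≤ x → x ≤ h → -(h : ℤ) ≤ y → y ≤ h →
          |(a.1 x - b.1 x) - (a.1 y - b.1 y)| ≤ κ ∧ |(a.2 x - b.2 x) - (a.2 y - b.2 y)| ≤ κ := by
  have hC0 : 0 ≤ C₀ := (integral_nonneg fun ω => abs_nonneg _).trans (hUC 0)
  refine ⟨8 * C₀ / κ + 2, by positivity, fun h => ?_⟩
  let M : Ω → ℝ := fun ω => ∑ x ∈ Finset.Ico (-(h : ℤ)) h, (|U ω x| + |V ω x|)
  have hM0 : ∀ ω, 0 ≤ M ω := fun ω => Finset.sum_nonneg fun x _ => by positivity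
  have hMm : Measurable M := Finset.measurable_sum _ fun x _ => (hUm x).abs.add (hVm x).abs
  have hUVi : ∀ x, Integrable (fun ω => |U ω x| + |V ω x|) P := fun x =>
    (hUi x).abs.add (hVi x).abs
  have hMi : Integrable M P := integrable_finsetSum _ fun x _ => hUVi x
  have hMint : ∫ ω, M ω ∂P ≤ 2 * h * (2 * C₀) := by
    simp only [M]
    rw [integral_finsetSum _ fun x _ => hUVi x]
    have h1 : ∀ x ∈ Finset.Ico (-(h : ℤ)) h, ∫ ω, (|U ω x| + |V ω x|) ∂P ≤ 2 * C₀ := by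
      intro x _
      rw [integral_add (hUi x).abs (hVi x).abs]
      linarith [hUC x, hVC x]
    refine (Finset.sum_le_sum h1).trans ?_
    rw [Finset.sum_const, Int.card_Ico, nsmul_eq_mul]
    have : (((h : ℤ) - -(h : ℤ)).toNat : ℝ) = 2 * h := by
      have : ((h : ℤ) - -(h : ℤ)).toNat = 2 * h := by omega
      rw [this]; push_cast; ring
    rw [this]
  refine ⟨fun ω => 2 * M ω / κ + 2, ((hMm.const_mul 2).div_const κ).add_const 2,
    fun ω => by have := hM0 ω; positivity, ((hMi.const_mul 2).div_const κ).add (integrable_const 2),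
    ?_, ?_⟩
  · rw [integral_add ((hMi.const_mul 2).div_const κ) (integrable_const 2), integral_div,
      integral_const_mul, integral_const]
    simp only [probReal_univ, smul_eq_mul, one_mul]
    have h1 : 2 * ∫ ω, M ω ∂P ≤ 8 * C₀ * h := by
      calc 2 * ∫ ω, M ω ∂P ≤ 2 * (2 * h * (2 * C₀)) := by gcongr
        _ = 8 * C₀ * h := by ring
    have hh : (0 : ℝ) ≤ h := Nat.cast_nonneg h
    calc (2 * ∫ ω, M ω ∂P) / κ + 2 ≤ 8 * C₀ * h / κ + 2 := by gcongr
      _ ≤ (8 * C₀ / κ + 2) * (h + 1) := by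
        have e1 : (8 * C₀ / κ + 2) * ((h : ℝ) + 1) =
            8 * C₀ * h / κ + 2 + (8 * C₀ / κ + 2 * h) := by ring
        rw [e1]
        have : 0 ≤ 8 * C₀ / κ + 2 * h := by positivity
        linarith
  · filter_upwards [htot, hb] with ω h1 h2
    have hvar : ∀ a ∈ L ω, |a.1 (h : ℤ) - a.1 (-(h : ℤ))| + |a.2 (h : ℤ) - a.2 (-(h : ℤ))| ≤
        M ω := by
      intro a ha
      have key : ∀ k : ℤ → ℝ, ∀ W : ℤ → ℝ, (∀ x, |inc k x| ≤ |W x|) →
          |k (h : ℤ) - k (-(h : ℤ))| ≤ ∑ x ∈ Finset.Ico (-(h : ℤ)) h, |W x| := by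
        intro k W hW
        have e := sum_inc k (-(h : ℤ)) (2 * h)
        have e' : (-(h : ℤ) + ((2 * h : ℕ) : ℤ)) = h := by push_cast; ring
        rw [e'] at e
        rw [← e]
        refine (Finset.abs_sum_le_sum_abs _ _).trans ?_
        have : ∑ i ∈ Finset.range (2 * h), |inc k (-(h : ℤ) + i)| =
            ∑ x ∈ Finset.Ico (-(h : ℤ)) h, |inc k x| := by
          refine Finset.sum_bij (fun i _ => -(h : ℤ) + i) ?_ ?_ ?_ ?_
          · intro i hi
            rw [Finset.mem_range] at hi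
            rw [Finset.mem_Ico]
            omega
          · intro i _ j _ hij
            have : (i : ℤ) = j := by linarith
            exact_mod_cast this
          · intro x hx
            rw [Finset.mem_Ico] at hx
            exact ⟨(x + h).toNat, by rw [Finset.mem_range]; omega, by omega⟩
          · intro i _; rfl
        rw [this]
        exact Finset.sum_le_sum fun x _ => hW x
      have k1 := key a.1 (U ω) fun x => ((h2 a ha x).1).trans (le_abs_self _)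
      have k2 := key a.2 (V ω) fun x => ((h2 a ha x).2).trans (le_abs_self _)
      simp only [M]
      rw [Finset.sum_add_distrib]
      linarith
    obtain ⟨Rep, r1, r2, r3⟩ := exists_rep h1 (-(h : ℤ)) h (hM0 ω) hκ hvar
    exact ⟨Rep, r1, r2, fun a ha => by
      obtain ⟨b, hb, hbb⟩ := r3 a ha
      exact ⟨b, hb, fun x y hx1 hx2 hy1 hy2 => hbb x y hx1 hx2 hy1 hy2⟩⟩

end Crest.Agent.R151.H
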