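import Crest.Agent.R151.K9d

/-!
# R151/K9e — the upper shape bound in regions, for the law of S0213 (owner helper507)

`RegMom G R M` : first and `5/4`-th moments of the passage times restricted to `R`.
`regMom_col`, `regMom_row` : slabs, strips and half-planes, with a uniform constant.
`Mom.region_upper`, `Mom.slab_upper`.
-/

set_option autoImplicit false
set_option linter.unusedSectionVars false

open MeasureTheory Filter ProbabilityTheory
open Crest.ProbabilityR.FirstPassage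
open scoped ENNReal

namespace Crest.Agent.R151.K

variable {G : Measure ℝ} [IsProbabilityMeasure G] {m : ℝ} {μ : ℝ × ℝ → ℝ}

lemma isDist_pR (h0 : G (Set.Iio 0) = 0) {R : Set (ℤ × ℤ)}
    (hR : ∀ x ∈ R, ∀ y ∈ R, Conn R x y) : M51.IsDist G R (fun t x y => pR t R x y) where
  meas x y := (measurable_pR R x y).aestronglyMeasurable
  nonneg := by
    filter_upwards [ae_Nn h0] with t ht x _ y _
    exact pR_nonneg ht R x y
  tri := by
    filter_upwards [ae_Nn h0] with t ht x hx y hy z hz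
    exact pR_triangle ht (hR x hx y hy) (hR y hy z hz)
  dom := by
    filter_upwards [ae_Nn h0] with t ht x y w hw
    exact pR_le ht w hw

/-- Moments of the passage times restricted to the region `R`. -/
structure RegMom (G : Measure ℝ) (R : Set (ℤ × ℤ)) (M : ℝ) : Prop where
  conn : ∀ x ∈ R, ∀ y ∈ R, Conn R x y
  int : ∀ x ∈ R, ∀ y ∈ R, Integrable (fun t => pR t R x y) (iidLaw G)
  le : ∀ x ∈ R, ∀ y ∈ R, ∫ t, pR t R x y ∂(iidLaw G) ≤ M * n1 (y - x)
  pint : ∀ x ∈ R, ∀ y ∈ R, Integrable (fun t => pR t R x y ^ (5 / 4 : ℝ)) (iidLaw G)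
  ple : ∀ x ∈ R, ∀ y ∈ R,
    ∫ t, pR t R x y ^ (5 / 4 : ℝ) ∂(iidLaw G) ≤ (M * n1 (y - x)) ^ (5 / 4 : ℝ)

/-- the constant for regions with three detours -/
noncomputable def cM (G : Measure ℝ) : ℝ := (M51.mC G 3 (5 / 4)).toReal

lemma cM_nonneg (G : Measure ℝ) : 0 ≤ cM G := ENNReal.toReal_nonneg

lemma mC3_lt_top (hG : M51.Law213 G) : M51.mC G 3 (5 / 4) < ⊤ :=
  M51.mC_lt_top (by norm_num) (M51.mom_lt_top (M51.mom_four_two hG.h0 hG.mom) (k := 3)
    (by norm_num) (by norm_num))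

/-- moments from an `L^{5/4}` bound -/
lemma regMom_of_eLp (hG : M51.Law213 G) {R : Set (ℤ × ℤ)}
    (hR : ∀ x ∈ R, ∀ y ∈ R, Conn R x y)
    (h : ∀ x ∈ R, ∀ y ∈ R, x ≠ y → eLpNorm (fun t => pR t R x y) (ENNReal.ofReal (5 / 4))
      (iidLaw G) ≤ n1 (y - x) * M51.mC G 3 (5 / 4)) : RegMom G R (cM G) := by
  have hfin := mC3_lt_top hG
  have hnn : ∀ x y, ∀ᵐ t ∂(iidLaw G), 0 ≤ pR t R x y := fun x y => by
    filter_upwards [ae_Nn hG.h0] with t ht using pR_nonneg ht R x y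
  -- the bound including `x = y`
  have h' : ∀ x ∈ R, ∀ y ∈ R, eLpNorm (fun t => pR t R x y) (ENNReal.ofReal (5 / 4))
      (iidLaw G) ≤ n1 (y - x) * M51.mC G 3 (5 / 4) := by
    intro x hx y hy
    rcases eq_or_ne x y with rfl | hxy
    · have : (fun t => pR t R x x) =ᵐ[iidLaw G] 0 := by
        filter_upwards [ae_Nn hG.h0] with t ht
        rw [pR_self ht hx]; rfl
      rw [eLpNorm_congr_ae this]; simp
    · exact h x hx y hy hxy
  have hmem : ∀ x ∈ R, ∀ y ∈ R, MemLp (fun t => pR t R x y) (ENNReal.ofReal (5 / 4))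
      (iidLaw G) := fun x hx y hy =>
    ⟨(measurable_pR R x y).aestronglyMeasurable, lt_of_le_of_lt (h' x hx y hy)
      (ENNReal.mul_lt_top (ENNReal.natCast_lt_top _) hfin)⟩
  have hint : ∀ x ∈ R, ∀ y ∈ R, Integrable (fun t => pR t R x y) (iidLaw G) :=
    fun x hx y hy => (hmem x hx y hy).integrable (by
      rw [← ENNReal.ofReal_one]; exact ENNReal.ofReal_le_ofReal (by norm_num))
  have hpint : ∀ x ∈ R, ∀ y ∈ R, Integrable (fun t => pR t R x y ^ (5 / 4 : ℝ)) (iidLaw G) := by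
    intro x hx y hy
    have := (hmem x hx y hy).integrable_norm_rpow (by simp) ENNReal.ofReal_ne_top
    refine this.congr ?_
    filter_upwards [hnn x y] with t ht
    rw [ENNReal.toReal_ofReal (by norm_num), Real.norm_of_nonneg ht]
  -- the value of the norm
  have hval : ∀ x ∈ R, ∀ y ∈ R, (∫ t, pR t R x y ^ (5 / 4 : ℝ) ∂(iidLaw G)) ^ (4 / 5 : ℝ) ≤
      cM G * n1 (y - x) := by
    intro x hx y hy
    have h1 := (hmem x hx y hy).eLpNorm_eq_integral_rpow_norm (by simp) ENNReal.ofReal_ne_top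
    rw [ENNReal.toReal_ofReal (by norm_num)] at h1
    have h2 : ∫ t, ‖pR t R x y‖ ^ (5 / 4 : ℝ) ∂(iidLaw G) =
        ∫ t, pR t R x y ^ (5 / 4 : ℝ) ∂(iidLaw G) := by
      refine integral_congr_ae ?_
      filter_upwards [hnn x y] with t ht
      rw [Real.norm_of_nonneg ht]
    rw [h2] at h1
    have h3 := h' x hx y hy
    rw [h1] at h3
    have h4 := ENNReal.toReal_mono (ENNReal.mul_lt_top (ENNReal.natCast_lt_top _) hfin).ne h3
    have h5 : 0 ≤ ∫ t, pR t R x y ^ (5 / 4 : ℝ) ∂(iidLaw G) := by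
      refine integral_nonneg_of_ae ?_
      filter_upwards [hnn x y] with t ht
      exact Real.rpow_nonneg ht _
    rw [ENNReal.toReal_ofReal (by positivity), ENNReal.toReal_mul, ENNReal.toReal_natCast] at h4
    have h6 : ((5 / 4 : ℝ))⁻¹ = 4 / 5 := by norm_num
    rw [h6] at h4
    unfold cM
    linarith
  have hple : ∀ x ∈ R, ∀ y ∈ R,
      ∫ t, pR t R x y ^ (5 / 4 : ℝ) ∂(iidLaw G) ≤ (cM G * n1 (y - x)) ^ (5 / 4 : ℝ) := by
    intro x hx y hy
    have h5 : 0 ≤ ∫ t, pR t R x y ^ (5 / 4 : ℝ) ∂(iidLaw G) := by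
      refine integral_nonneg_of_ae ?_
      filter_upwards [hnn x y] with t ht
      exact Real.rpow_nonneg ht _
    have h6 := Real.rpow_le_rpow (by positivity) (hval x hx y hy)
      (show (0 : ℝ) ≤ 5 / 4 by norm_num)
    rw [← Real.rpow_mul h5] at h6
    norm_num at h6
    exact h6
  refine ⟨hR, hint, fun x hx y hy => ?_, hpint, hple⟩
  -- Jensen
  have h1 : eLpNorm (fun t => pR t R x y) 1 (iidLaw G) ≤
      eLpNorm (fun t => pR t R x y) (ENNReal.ofReal (5 / 4)) (iidLaw G) :=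
    eLpNorm_le_eLpNorm_of_exponent_le (by
      rw [← ENNReal.ofReal_one]; exact ENNReal.ofReal_le_ofReal (by norm_num))
      (measurable_pR R x y).aestronglyMeasurable
  have h2 := h1.trans (h' x hx y hy)
  rw [eLpNorm_one_eq_lintegral_enorm] at h2
  have h3 : ∫ t, pR t R x y ∂(iidLaw G) = (∫⁻ t, ‖pR t R x y‖ₑ ∂(iidLaw G)).toReal := by
    rw [integral_eq_lintegral_of_nonneg_ae (hnn x y) (measurable_pR R x y).aestronglyMeasurable]
    congr 1
    refine lintegral_congr_ae ?_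
    filter_upwards [hnn x y] with t ht
    rw [Real.enorm_eq_ofReal ht]
  rw [h3]
  have h4 := ENNReal.toReal_mono (ENNReal.mul_lt_top (ENNReal.natCast_lt_top _) hfin).ne h2
  rw [ENNReal.toReal_mul, ENNReal.toReal_natCast] at h4
  unfold cM
  linarith

lemma conn_prod {A B : Set ℤ} (hA : A.OrdConnected) (hB : B.OrdConnected) {x y : ℤ × ℤ}
    (hx : x.1 ∈ A ∧ x.2 ∈ B) (hy : y.1 ∈ A ∧ y.2 ∈ B) :
    Conn {z : ℤ × ℤ | z.1 ∈ A ∧ z.2 ∈ B} x y := by
  obtain ⟨w, -, hw⟩ := M51.exists_walk_prod hA hB hx hy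
  exact ⟨w, hw⟩

/-- slabs and half-planes with vertical boundary -/
theorem regMom_col (hG : M51.Law213 G) {A : Set ℤ} (hA : M51.Thick A) (hA' : A.OrdConnected) :
    RegMom G {z : ℤ × ℤ | z.1 ∈ A} (cM G) := by
  have hconn : ∀ x ∈ {z : ℤ × ℤ | z.1 ∈ A}, ∀ y ∈ {z : ℤ × ℤ | z.1 ∈ A},
      Conn {z : ℤ × ℤ | z.1 ∈ A} x y := by
    intro x hx y hy
    exact (conn_prod (B := Set.univ) hA' Set.ordConnected_univ ⟨hx, trivial⟩ ⟨hy, trivial⟩).mono
      fun z hz => hz.1
  refine regMom_of_eLp hG hconn fun x hx y hy hxy => ?_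
  exact M51.eLpNorm_col (by norm_num) hA hA' (isDist_pR hG.h0 hconn) hx hy hxy

/-- strips and half-planes with horizontal boundary -/
theorem regMom_row (hG : M51.Law213 G) {B : Set ℤ} (hB : M51.Thick B) (hB' : B.OrdConnected) :
    RegMom G {z : ℤ × ℤ | z.2 ∈ B} (cM G) := by
  have hconn : ∀ x ∈ {z : ℤ × ℤ | z.2 ∈ B}, ∀ y ∈ {z : ℤ × ℤ | z.2 ∈ B},
      Conn {z : ℤ × ℤ | z.2 ∈ B} x y := by
    intro x hx y hy
    exact (conn_prod (A := Set.univ) Set.ordConnected_univ hB' ⟨trivial, hx⟩ ⟨trivial, hy⟩).mono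
      fun z hz => hz.2
  refine regMom_of_eLp hG hconn fun x hx y hy hxy => ?_
  exact M51.eLpNorm_row (by norm_num) hB hB' (isDist_pR hG.h0 hconn) hx hy hxy

lemma regMom_slab (hG : M51.Law213 G) {a b : ℤ} (hab : a + 2 ≤ b) :
    RegMom G (slab a b) (cM G) :=
  regMom_col hG (M51.thick_Icc hab) Set.ordConnected_Icc

/-- **Pointwise upper bound in a region**, connection form. -/
lemma region_pointwise' {t : Environment} {R : Set (ℤ × ℤ)} (ht : Nn t) {c m1 : ℝ} (hc : 0 < c)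
    (hm : 0 ≤ m1)
    (hlow : ∀ v, c * l1 v ≤ μ v) (hup : ∀ v, μ v ≤ m1 * l1 v)
    (hlip : ∀ v w, |μ v - μ w| ≤ m1 * l1 (v - w)) (hhom : ∀ s : ℝ, 0 ≤ s → ∀ v, μ (s • v) = s * μ v)
    {K J n C : ℕ} (hJ : 0 < J) (hKJ : 2 * J < K) {x y : ℤ × ℤ} (hx : x ∈ box (C * n))
    (hy : y ∈ box (C * n))
    (c1 : Conn R x (ch x y K J)) (c2 : Conn R (ch x y K (K - J)) y)
    (hB : ∀ i, J ≤ i → i ≤ K - J → ∀ z, n1 (z - ch x y K i) ≤ J * (n / K) → z ∈ R)
    (hD : m1 * (4 * C * n / K + 2) + 2 * dev μ ((C + 2) * n) t ≤ c * (J * (n / K) : ℕ))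
    (hn : 0 < n) :
    pR t R x y ≤ pR t R x (ch x y K J) + pR t R (ch x y K (K - J)) y +
      (μ (toR (y - x)) + 2 * K * m1 + K * dev μ ((C + 2) * n) t) := by
  set D := dev μ ((C + 2) * n) t with hDdef
  have hD0 : 0 ≤ D := dev_nonneg _ _ _
  have hK : 0 < K := by omega
  have hKR : (0 : ℝ) < K := by exact_mod_cast hK
  have hmu0 : ∀ v, 0 ≤ μ v := fun v => (mul_nonneg hc.le (l1_nonneg v)).trans (hlow v)
  have hρ : J * (n / K) ≤ n := by
    calc J * (n / K) ≤ K * (n / K) := Nat.mul_le_mul_right _ (by omega)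
      _ ≤ n := Nat.mul_div_le n K
  have hmem : ∀ i ≤ K, ch x y K i ∈ box ((C + 2) * n) := fun i hi =>
    mem_box_of_near (k := 0) (ch_mem_box hK hi hx hy) (by simp [n1]) (by
      rw [add_mul]; omega)
  -- the inner pieces
  have hinner : ∀ i, J ≤ i → i < K - J → Conn R (ch x y K i) (ch x y K (i + 1)) ∧
      pR t R (ch x y K i) (ch x y K (i + 1)) ≤ (1 / K : ℝ) * μ (toR (y - x)) + 2 * m1 + D := by
    intro i hi1 hi2
    have hstep := ch_step_n1 x y hK i
    have hn1 : (n1 (y - x) : ℝ) ≤ 4 * (C * n : ℕ) := by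
      exact_mod_cast n1_le_of_box hx hy
    have hloc := local_eq (R := R) (μ := μ) ht hc hlow hup (N := (C + 2) * n)
      (ρ := J * (n / K)) (x := ch x y K i) (y := ch x y K (i + 1)) (hmem _ (by omega))
      (fun z hz => mem_box_of_near (ch_mem_box hK (show i ≤ K by omega) hx hy) hz (by
        rw [add_mul]; omega))
      (fun z hz => hB i hi1 hi2.le z hz) (by
        refine le_trans ?_ hD
        have : (n1 (ch x y K (i + 1) - ch x y K i) : ℝ) ≤ 4 * C * n / K + 2 := by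
          refine hstep.trans ?_
          have : (n1 (y - x) : ℝ) / K ≤ 4 * C * n / K := by
            gcongr
            push_cast at hn1
            linarith
          linarith
        have := mul_le_mul_of_nonneg_left this hm
        linarith)
    refine ⟨hloc.1, ?_⟩
    rw [hloc.2]
    have h1 := le_dev μ t (hmem i (by omega)) (hmem (i + 1) (by omega))
    rw [← hDdef, abs_le] at h1
    have h2 := hlip (toR (ch x y K (i + 1) - ch x y K i)) ((1 / K : ℝ) • toR (y - x))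
    have h3 := ch_step x y hK i
    have h4 := mul_le_mul_of_nonneg_left h3 hm
    rw [hhom _ (by positivity), abs_le] at h2
    linarith
  -- the chain of the inner pieces
  obtain ⟨hc1, hc2⟩ := pR_chain (R := R) ht (fun i => ch x y K (J + i)) (K - J - J) (by
      exact hB J le_rfl (by omega) _ (by simp [n1])) (by
      intro i hi
      exact (hinner (J + i) (by omega) (by omega)).1)
  have hsum : ∑ i ∈ Finset.range (K - J - J), pR t R (ch x y K (J + i)) (ch x y K (J + (i + 1)))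
      ≤ μ (toR (y - x)) + 2 * K * m1 + K * D := by
    have h1 : ∑ i ∈ Finset.range (K - J - J), pR t R (ch x y K (J + i)) (ch x y K (J + (i + 1)))
        ≤ ∑ _i ∈ Finset.range (K - J - J), ((1 / K : ℝ) * μ (toR (y - x)) + 2 * m1 + D) := by
      refine Finset.sum_le_sum fun i hi => ?_
      rw [Finset.mem_range] at hi
      exact (hinner (J + i) (by omega) (by omega)).2
    refine h1.trans ?_
    rw [Finset.sum_const, Finset.card_range, nsmul_eq_mul]
    have h2 : ((K - J - J : ℕ) : ℝ) ≤ K := by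
      have : K - J - J ≤ K := by omega
      exact_mod_cast this
    have h3 : 0 ≤ (1 / K : ℝ) * μ (toR (y - x)) + 2 * m1 + D := by
      have := hmu0 (toR (y - x))
      positivity
    refine (mul_le_mul_of_nonneg_right h2 h3).trans (le_of_eq ?_)
    field_simp
  simp only [add_zero] at hc1 hc2
  have hend : J + (K - J - J) = K - J := by omega
  rw [hend] at hc1 hc2
  have t1 := pR_triangle ht c1 (hc1.trans c2)
  have t2 := pR_triangle ht hc1 c2
  linarith

/-- tail of the `5/4`-th moment -/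
lemma rpow_tail {T a : ℝ} (hT : 0 ≤ T) (ha : 0 < a) :
    T ≤ a + T ^ (5 / 4 : ℝ) / a ^ (1 / 4 : ℝ) := by
  rcases le_total T a with h | h
  · have : 0 ≤ T ^ (5 / 4 : ℝ) / a ^ (1 / 4 : ℝ) := by positivity
    linarith
  · have hT0 : 0 < T := by linarith
    have h1 : T ^ (5 / 4 : ℝ) = T * T ^ (1 / 4 : ℝ) := by
      rw [← Real.rpow_one_add' hT0.le (by norm_num)]
      norm_num
    have h2 : a ^ (1 / 4 : ℝ) ≤ T ^ (1 / 4 : ℝ) := Real.rpow_le_rpow ha.le h (by norm_num)
    have h3 : T ≤ T ^ (5 / 4 : ℝ) / a ^ (1 / 4 : ℝ) := by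
      rw [le_div_iff₀ (by positivity), h1]
      gcongr
    linarith

namespace Mom

variable (hM : Mom G m) (hμ : IsTC1 G μ)
include hM hμ

/-- **Upper shape bound in regions.** -/
theorem region_upper (hz : G {0} = 0) (hL : LocCtl G) {ε : ℝ} (hε : 0 < ε) (C : ℕ) {M : ℝ}
    (hM0 : 0 ≤ M) :
    ∃ K J n0 : ℕ, 0 < J ∧ 2 * J < K ∧ ∀ n ≥ n0, 0 < n ∧ ∀ x y : ℤ × ℤ,
      x ∈ box (C * n) → y ∈ box (C * n) → ∀ R : Set (ℤ × ℤ), RegMom G R M → x ∈ R → y ∈ R →
      (∀ i, J ≤ i → i ≤ K - J → ∀ z, n1 (z - ch x y K i) ≤ J * (n / K) → z ∈ R) →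
      Integrable (fun t => pR t R x y) (iidLaw G) ∧
      ∫ t, pR t R x y ∂(iidLaw G) ≤ μ (toR (y - x)) + ε * n := by
  obtain ⟨c, hc, hlow⟩ := hM.exists_mu_ge hμ hz
  have hm := hM.nonneg
  have hup : ∀ v, μ v ≤ m * l1 v := fun v => hM.mu_le hμ v
  have hlip : ∀ v w, |μ v - μ w| ≤ m * l1 (v - w) := fun v w => hM.abs_mu_sub_le hμ v w
  have hhom : ∀ s : ℝ, 0 ≤ s → ∀ v, μ (s • v) = s * μ v := fun s hs v => hM.mu_smul hμ hs v
  -- the number of pieces to skip
  obtain ⟨J, hJ1, hJ2⟩ : ∃ J : ℕ, 0 < J ∧ 4 * C * m + 1 ≤ c * J := by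
    obtain ⟨J, hJ⟩ := exists_nat_gt ((4 * C * m + 1) / c)
    rw [div_lt_iff₀ hc] at hJ
    refine ⟨J + 1, Nat.succ_pos _, ?_⟩
    push_cast
    nlinarith
  obtain ⟨K, hKJ, hK2⟩ : ∃ K : ℕ, 2 * J < K ∧ 8 * C * J * M / K ≤ ε / 8 := by
    obtain ⟨K, hK⟩ := exists_nat_gt (8 * C * J * M / (ε / 8))
    refine ⟨K + 2 * J + 1, by omega, ?_⟩
    rw [div_lt_iff₀ (by positivity)] at hK
    rw [div_le_iff₀ (by positivity)]
    push_cast
    have : (0 : ℝ) ≤ ε / 8 * (2 * J + 1) := by positivity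
    nlinarith
  have hKpos : 0 < K := by omega
  have hKR : (0 : ℝ) < K := by exact_mod_cast hKpos
  obtain ⟨S, hS1, hS2⟩ : ∃ S : ℝ, 0 < S ∧ (M * (4 * C)) ^ (5 / 4 : ℝ) / S ^ (1 / 4 : ℝ) ≤
      ε / 8 := by
    have hlim : Tendsto (fun S : ℝ => (M * (4 * C)) ^ (5 / 4 : ℝ) / S ^ (1 / 4 : ℝ)) atTop
        (nhds 0) := tendsto_const_nhds.div_atTop (tendsto_rpow_atTop (by norm_num))
    obtain ⟨S, h1, h2⟩ := ((hlim.eventually_le_const (show (0 : ℝ) < ε / 8 by positivity)).and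
      (eventually_gt_atTop 0)).exists
    exact ⟨S, h2, h1⟩
  obtain ⟨n1', hn1'⟩ := hM.uniform_shape hμ hL
    (ε := ε / 8 / ((K + 4 * K * S) * (C + 2))) (by positivity)
  obtain ⟨n2', hn2'⟩ : ∃ n2' : ℕ, 2 * K * (2 * m + c * J) ≤ n2' :=
    exists_nat_ge _
  obtain ⟨n3', hn3'⟩ : ∃ n3' : ℕ, (2 * K * m + 4 * J * M) / (ε / 8) ≤ n3' := exists_nat_ge _
  refine ⟨K, J, n1' + n2' + n3' + 1, hJ1, hKJ, fun n hn => ⟨by omega, ?_⟩⟩
  intro x y hx hy R hRM hxR hyR hB
  have hnpos : 0 < n := by omega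
  have hnR : (0 : ℝ) < n := by exact_mod_cast hnpos
  have hJR : ch x y K J ∈ R := hB J le_rfl (by omega) _ (by simp [n1])
  have hKJR : ch x y K (K - J) ∈ R := hB (K - J) (by omega) le_rfl _ (by simp [n1])
  have hn2 : 2 * K * (2 * m + c * J) ≤ (n : ℝ) := by
    have : (n2' : ℝ) ≤ n := by exact_mod_cast (by omega : n2' ≤ n)
    linarith
  have hn3 : 2 * K * m + 4 * J * M ≤ ε / 8 * n := by
    have h1 : (n3' : ℝ) ≤ n := by exact_mod_cast (by omega : n3' ≤ n)
    rw [div_le_iff₀ (by positivity)] at hn3'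
    nlinarith
  obtain ⟨hDi, hDE⟩ := hn1' ((C + 2) * n) (by
    have : n ≤ (C + 2) * n := by nlinarith
    omega)
  have hint := hRM.int x hxR y hyR
  refine ⟨hint, ?_⟩
  -- pointwise bound
  have hpt : ∀ t : Environment, Nn t → pR t R x y ≤
      (pR t R x (ch x y K J) + pR t R (ch x y K (K - J)) y
        + (μ (toR (y - x)) + 2 * K * m)) +
      ((K + 4 * K * S) * dev μ ((C + 2) * n) t +
        pR t R x y ^ (5 / 4 : ℝ) / (S * n) ^ (1 / 4 : ℝ)) := by
    intro t ht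
    have hmu0 : 0 ≤ μ (toR (y - x)) := hM.mu_nonneg hμ _
    have hD0 := dev_nonneg μ ((C + 2) * n) t
    have p1 := pR_nonneg ht R x (ch x y K J)
    have p2 := pR_nonneg ht R (ch x y K (K - J)) y
    have p3 := pR_nonneg ht R x y
    have p4 : 0 ≤ pR t R x y ^ (5 / 4 : ℝ) / (S * n) ^ (1 / 4 : ℝ) := by positivity
    have p5 : 0 ≤ 4 * K * S * dev μ ((C + 2) * n) t := by positivity
    have p6 : 0 ≤ K * dev μ ((C + 2) * n) t := by positivity
    have p7 : (0 : ℝ) ≤ 2 * K * m := by positivity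
    rcases le_or_gt (dev μ ((C + 2) * n) t) (n / (4 * K)) with hgood | hbad
    · have hD : m * (4 * C * n / K + 2) + 2 * dev μ ((C + 2) * n) t
          ≤ c * (J * (n / K) : ℕ) := by
        have e1 : ((n : ℝ) / K) - 1 ≤ ((n / K : ℕ) : ℝ) := by
          rw [sub_le_iff_le_add, div_le_iff₀ hKR]
          have : n < (n / K + 1) * K := by
            have := Nat.lt_div_mul_add (a := n) hKpos
            linarith [add_mul (n / K) 1 K]
          have : (n : ℝ) < ((n / K : ℕ) + 1) * K := by exact_mod_cast this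
          linarith
        have e2 : c * J * ((n : ℝ) / K - 1) ≤ c * (J * (n / K) : ℕ) := by
          push_cast
          rw [mul_assoc]
          gcongr
        refine le_trans ?_ e2
        have e3 : 2 * dev μ ((C + 2) * n) t ≤ n / K / 2 := by
          have : (n : ℝ) / K / 2 = 2 * (n / (4 * K)) := by field_simp; norm_num
          rw [this]; linarith
        have e4 : 2 * m + c * J ≤ n / K / 2 := by
          rw [div_div, le_div_iff₀ (by positivity)]
          linarith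
        have e5 : (4 * C * m + 1) * ((n : ℝ) / K) ≤ c * J * (n / K) := by gcongr
        have e6 : m * (4 * C * n / K + 2) = 4 * C * m * (n / K) + 2 * m := by ring
        rw [e6]
        linarith
      have := region_pointwise' (R := R) ht hc hm hlow hup hlip hhom hJ1 hKJ hx hy
        (hRM.conn _ hxR _ hJR) (hRM.conn _ hKJR _ hyR) hB hD hnpos
      linarith
    · have b1 := rpow_tail p3 (show 0 < S * n by positivity)
      have b2 : S * n ≤ 4 * K * S * dev μ ((C + 2) * n) t := by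
        rw [div_lt_iff₀ (by positivity)] at hbad
        nlinarith
      linarith
  -- integrate
  have i1 := hRM.int x hxR _ hJR
  have i2 := hRM.int _ hKJR y hyR
  have i3 := hRM.pint x hxR y hyR
  have e3 := hRM.ple x hxR y hyR
  have e1 := hRM.le x hxR _ hJR
  have e2 := hRM.le _ hKJR y hyR
  have I1 : Integrable (fun t => pR t R x (ch x y K J) + pR t R (ch x y K (K - J)) y
        + (μ (toR (y - x)) + 2 * K * m)) (iidLaw G) := (i1.add i2).add (integrable_const _)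
  have I2 : Integrable (fun t => (K + 4 * K * S) * dev μ ((C + 2) * n) t
        + pR t R x y ^ (5 / 4 : ℝ) / (S * n) ^ (1 / 4 : ℝ)) (iidLaw G) :=
    (hDi.const_mul _).add (i3.div_const _)
  refine (integral_mono_ae hint (I1.add I2) (by
    filter_upwards [ae_Nn (G := G) hM.h0] with t ht using hpt t ht)).trans ?_
  have E1 := integral_add3 (μ (toR (y - x)) + 2 * K * m) i1 i2
  have E2 : ∫ t, ((K + 4 * K * S) * dev μ ((C + 2) * n) t +
      pR t R x y ^ (5 / 4 : ℝ) / (S * n) ^ (1 / 4 : ℝ)) ∂(iidLaw G)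
      = (K + 4 * K * S) * ∫ t, dev μ ((C + 2) * n) t ∂(iidLaw G)
        + (∫ t, pR t R x y ^ (5 / 4 : ℝ) ∂(iidLaw G)) / (S * n) ^ (1 / 4 : ℝ) := by
    rw [integral_add (hDi.const_mul _) (i3.div_const _), integral_const_mul, integral_div]
  rw [integral_add' I1 I2, E1, E2]
  -- the ends
  have hnn : (n1 (y - x) : ℝ) ≤ 4 * C * n := by
    have : (n1 (y - x) : ℝ) ≤ ((4 * (C * n) : ℕ) : ℝ) := by exact_mod_cast n1_le_of_box hx hy
    push_cast at this
    linarith
  have f1 : (n1 (ch x y K J - x) : ℝ) ≤ J * (4 * C * n / K + 2) := by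
    have h := ch_dist x y hKpos 0 J
    rw [zero_add, ch_zero] at h
    refine h.trans ?_
    gcongr
  have f2 : (n1 (y - ch x y K (K - J)) : ℝ) ≤ J * (4 * C * n / K + 2) := by
    have h := ch_dist x y hKpos (K - J) J
    rw [show K - J + J = K by omega, ch_self x y hKpos] at h
    refine h.trans ?_
    gcongr
  have g1 : ∫ t, pR t R x (ch x y K J) ∂(iidLaw G) ≤ M * (J * (4 * C * n / K + 2)) :=
    e1.trans (mul_le_mul_of_nonneg_left f1 hM0)
  have g2 : ∫ t, pR t R (ch x y K (K - J)) y ∂(iidLaw G) ≤ M * (J * (4 * C * n / K + 2)) :=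
    e2.trans (mul_le_mul_of_nonneg_left f2 hM0)
  have g3 : (∫ t, pR t R x y ^ (5 / 4 : ℝ) ∂(iidLaw G)) / (S * n) ^ (1 / 4 : ℝ) ≤ ε / 8 * n := by
    have k1 : (M * (n1 (y - x) : ℝ)) ^ (5 / 4 : ℝ) ≤ (M * (4 * C * n)) ^ (5 / 4 : ℝ) := by
      have : (0 : ℝ) ≤ (n1 (y - x) : ℝ) := Nat.cast_nonneg _
      gcongr
    have k2 : (∫ t, pR t R x y ^ (5 / 4 : ℝ) ∂(iidLaw G)) / (S * n) ^ (1 / 4 : ℝ) ≤
        (M * (4 * C * n)) ^ (5 / 4 : ℝ) / (S * n) ^ (1 / 4 : ℝ) := by
      gcongr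
      exact e3.trans k1
    refine k2.trans ?_
    have k3 : (M * (4 * C * n)) ^ (5 / 4 : ℝ) / (S * n) ^ (1 / 4 : ℝ) =
        (M * (4 * C)) ^ (5 / 4 : ℝ) / S ^ (1 / 4 : ℝ) * n := by
      have q1 : (M * (4 * C * n)) ^ (5 / 4 : ℝ) = (M * (4 * C)) ^ (5 / 4 : ℝ) *
          (n : ℝ) ^ (5 / 4 : ℝ) := by
        rw [← Real.mul_rpow (by positivity) hnR.le]
        congr 1; ring
      have q2 : (S * n) ^ (1 / 4 : ℝ) = S ^ (1 / 4 : ℝ) * (n : ℝ) ^ (1 / 4 : ℝ) :=
        Real.mul_rpow hS1.le hnR.le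
      have q3 : (n : ℝ) ^ (5 / 4 : ℝ) = n * (n : ℝ) ^ (1 / 4 : ℝ) := by
        rw [← Real.rpow_one_add' hnR.le (by norm_num)]
        norm_num
      rw [q1, q2, q3]
      have q4 : (0 : ℝ) < (n : ℝ) ^ (1 / 4 : ℝ) := by positivity
      have q5 : (0 : ℝ) < S ^ (1 / 4 : ℝ) := by positivity
      field_simp
    rw [k3]
    gcongr
  have g4 : (K + 4 * K * S) * ∫ t, dev μ ((C + 2) * n) t ∂(iidLaw G) ≤ ε / 8 * n := by
    have k1 : (K + 4 * K * S) * ∫ t, dev μ ((C + 2) * n) t ∂(iidLaw G) ≤ (K + 4 * K * S) *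
      (ε / 8 / ((K + 4 * K * S) * (C + 2)) * ((C + 2) * n : ℕ)) := by gcongr
    refine k1.trans (le_of_eq ?_)
    push_cast
    field_simp
  have g5 : M * (J * (4 * C * n / K + 2)) + M * (J * (4 * C * n / K + 2))
      = 8 * C * J * M / K * n + 4 * J * M := by
    field_simp
    ring
  have g6 : 8 * C * J * M / K * n ≤ ε / 8 * n := by gcongr
  have g7 : 0 ≤ ε * n := by positivity
  linarith

/-- **Slab upper shape bound** for the law of S0213. -/
theorem slab_upper (hz : G {0} = 0) (hG : M51.Law213 G) {ε : ℝ} (hε : 0 < ε) (C : ℕ) :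
    ∃ g0 : ℕ, ∀ g ≥ g0, ∀ h : ℤ, |h| ≤ C * g →
      Integrable (fun t => pR t (slab 0 g) (0, 0) (g, h)) (iidLaw G) ∧
      ∫ t, pR t (slab 0 g) (0, 0) (g, h) ∂(iidLaw G) ≤ μ (g, h) + ε * g := by
  obtain ⟨K, J, n0, hJ, hKJ, H⟩ := hM.region_upper hμ hz (locCtl_of_law213 hG) hε (C + 1)
    (cM_nonneg G)
  refine ⟨n0 + 2, fun g hg h hh => ?_⟩
  obtain ⟨hgpos, H⟩ := H g (by omega)
  have hK : 0 < K := by omega
  have hK' : (0 : ℤ) < K := by exact_mod_cast hK
  have hg' : (0 : ℤ) < g := by exact_mod_cast hgpos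
  have h1 := H (0, 0) ((g : ℤ), h) (zero_mem_box _) (by
    rw [mem_box]
    push_cast
    rw [abs_le] at hh
    have : (0 : ℤ) ≤ C * g := by positivity
    constructor
    · constructor <;> nlinarith
    · constructor <;> nlinarith) (slab 0 g) (regMom_slab hG (by omega))
    (by simp [slab]) (by simp [slab]) (by
      intro i hi1 hi2 z hz'
      have e1 : (z.1 - (g : ℤ) * i / K).natAbs ≤ J * (g / K) := by
        simp only [n1, ch, Prod.fst_sub, Prod.snd_sub, sub_zero, zero_add] at hz'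
        omega
      have q1 : ((J * (g / K) : ℕ) : ℤ) ≤ (g : ℤ) * i / K := by
        rw [Int.le_ediv_iff_mul_le hK']
        have a1 : (J * (g / K)) * K ≤ g * i := by
          calc (J * (g / K)) * K = J * (K * (g / K)) := by ring
            _ ≤ J * g := Nat.mul_le_mul_left _ (Nat.mul_div_le g K)
            _ ≤ i * g := Nat.mul_le_mul_right _ hi1
            _ = g * i := mul_comm _ _
        exact_mod_cast a1
      have q2 : (g : ℤ) * i / K ≤ g - ((J * (g / K) : ℕ) : ℤ) := by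
        have a2 : (g : ℤ) * i / K * K ≤ g * i := Int.ediv_mul_le _ hK'.ne'
        have a3 : (J * (g / K)) * K ≤ g * J := by
          calc (J * (g / K)) * K = J * (K * (g / K)) := by ring
            _ ≤ J * g := Nat.mul_le_mul_left _ (Nat.mul_div_le g K)
            _ = g * J := mul_comm _ _
        have a3' : (((J * (g / K) : ℕ)) : ℤ) * K ≤ g * J := by exact_mod_cast a3
        have a4 : (g : ℤ) * i + g * J ≤ g * K := by
          have : (i : ℤ) + J ≤ K := by omega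
          nlinarith
        have a5 : ((g : ℤ) * i / K + ((J * (g / K) : ℕ) : ℤ)) * K ≤ g * K := by
          rw [add_mul]; linarith
        have := le_of_mul_le_mul_right a5 hK'
        linarith
      simp only [slab, Set.mem_ofPred_eq]
      constructor <;> omega)
  have e : toR (((g : ℤ), h) - ((0 : ℤ), (0 : ℤ))) = ((g : ℝ), (h : ℝ)) := by
    simp [toR]
  rw [e] at h1
  exact h1

end Mom

end Crest.Agent.R151.K
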