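import Mathlib
import Crest.Agent.R151.H617e
import Crest.Agent.R151.S113E
import Crest.Agent.R151.K9e

/-!
# R151/H617f — block (C): reindexing by slopes, cut slopes, percolation instance (owner helper617)
-/

set_option autoImplicit false

open MeasureTheory ProbabilityTheory Filter Set
open scoped ENNReal Topology
open Crest.ProbabilityR.FirstPassage

namespace Crest.Agent.R151.H

variable {Ω : Type*} [MeasurableSpace Ω] {P : Measure Ω}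

/-! ### reindexing by slopes -/

/-- label functions indexed by directions `t ∈ Q ∩ T`, mean increment `-φ₁ t`, decreasing in `t` -/
structure DirFam (P : Measure Ω) (Q T : Set ℝ) (φ₁ : ℝ → ℝ) (F : ℝ → Ω → ℤ → ℝ) : Prop where
  open_T : IsOpen T
  mono_φ : MonotoneOn φ₁ T
  cont_φ : ContinuousOn φ₁ T
  count : Q.Countable
  dense : Dense Q
  meas : ∀ t ∈ Q ∩ T, ∀ x, Measurable fun ω => F t ω x
  int : ∀ t ∈ Q ∩ T, ∀ x, Integrable (fun ω => inc (F t ω) x) P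
  mean : ∀ t ∈ Q ∩ T, ∀ x, ∫ ω, inc (F t ω) x ∂P = -φ₁ t
  mono : ∀ t ∈ Q ∩ T, ∀ t' ∈ Q ∩ T, t < t' → ∀ᵐ ω ∂P, ∀ x, inc (F t' ω) x ≤ inc (F t ω) x

/-- the slopes -/
def slopes (Q T : Set ℝ) (φ₁ : ℝ → ℝ) : Set ℝ := φ₁ '' (Q ∩ T)

open Classical in
/-- a direction with given slope -/
noncomputable def dirOf (Q T : Set ℝ) (φ₁ : ℝ → ℝ) (p : ℝ) : ℝ :=
  if h : ∃ t ∈ Q ∩ T, φ₁ t = p then h.choose else 0

lemma dirOf_mem {Q T : Set ℝ} {φ₁ : ℝ → ℝ} {p : ℝ} (hp : p ∈ slopes Q T φ₁) :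
    dirOf Q T φ₁ p ∈ Q ∩ T ∧ φ₁ (dirOf Q T φ₁ p) = p := by
  have h : ∃ t ∈ Q ∩ T, φ₁ t = p := hp
  have e : dirOf Q T φ₁ p = h.choose := dif_pos h
  rw [e]
  exact h.choose_spec

lemma dirOf_lt {Q T : Set ℝ} {φ₁ : ℝ → ℝ} (hm : MonotoneOn φ₁ T) {p q : ℝ}
    (hp : p ∈ slopes Q T φ₁) (hq : q ∈ slopes Q T φ₁) (hpq : p < q) :
    dirOf Q T φ₁ p < dirOf Q T φ₁ q := by
  by_contra hcon
  push Not at hcon
  obtain ⟨h1, h2⟩ := dirOf_mem hp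
  obtain ⟨h3, h4⟩ := dirOf_mem hq
  have := hm h3.2 h1.2 hcon
  rw [h2, h4] at this
  linarith

/-- the family indexed by slopes -/
noncomputable def fs (Q T : Set ℝ) (φ₁ : ℝ → ℝ) (F : ℝ → Ω → ℤ → ℝ) (p : ℝ) : Ω → ℤ → ℝ :=
  F (dirOf Q T φ₁ p)

theorem DirFam.meanFam {Q T : Set ℝ} {φ₁ : ℝ → ℝ} {F : ℝ → Ω → ℤ → ℝ} (H : DirFam P Q T φ₁ F) :
    MeanFam P (slopes Q T φ₁) (fs Q T φ₁ F) 0 (-1) where
  sign := Or.inr rfl
  meas p hp x := H.meas _ (dirOf_mem hp).1 x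
  int p hp x := H.int _ (dirOf_mem hp).1 x
  mean p hp x := by
    have := H.mean _ (dirOf_mem hp).1 x
    rw [(dirOf_mem hp).2] at this
    unfold fs
    rw [this]; ring
  mono p hp q hq hpq := by
    filter_upwards [H.mono _ (dirOf_mem hp).1 _ (dirOf_mem hq).1 (dirOf_lt H.mono_φ hp hq hpq)]
      with ω hω x
    have := hω x
    unfold fs
    linarith

lemma slopes_countable {Q T : Set ℝ} {φ₁ : ℝ → ℝ} (hQ : Q.Countable) :
    (slopes Q T φ₁).Countable := (hQ.mono inter_subset_left).image _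

theorem slopes_dense {Q T : Set ℝ} {φ₁ : ℝ → ℝ} (hT : IsOpen T) (hc : ContinuousOn φ₁ T)
    (hQ : Dense Q) {A B : ℝ} (hAB : Ioo A B ⊆ φ₁ '' T) :
    ∀ x y, A < x → x < y → y < B → ∃ p ∈ slopes Q T φ₁, x < p ∧ p < y := by
  intro x y hx hxy hy
  obtain ⟨z, hz1, hz2⟩ := exists_between hxy
  obtain ⟨t, htT, htz⟩ := hAB ⟨hx.trans hz1, hz2.trans hy⟩
  have hca : ContinuousAt φ₁ t := hc.continuousAt (hT.mem_nhds htT)
  have hev : ∀ᶠ u in 𝓝 t, φ₁ u ∈ Ioo x y := by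
    apply hca.eventually_mem
    rw [htz]
    exact Ioo_mem_nhds hz1 hz2
  have hev2 : ∀ᶠ u in 𝓝 t, φ₁ u ∈ Ioo x y ∧ u ∈ T := hev.and (hT.mem_nhds htT)
  obtain ⟨U, hU, hUo, htU⟩ := mem_nhds_iff.1 hev2
  obtain ⟨u, huU, huQ⟩ := hQ.inter_open_nonempty U hUo ⟨t, htU⟩
  obtain ⟨h1, h2⟩ := hU huU
  exact ⟨φ₁ u, ⟨u, ⟨huQ, h2⟩, rfl⟩, h1.1, h1.2⟩

/-- a.s. the functions of the same slope agree (facets) -/
theorem DirFam.ae_eq {Q T : Set ℝ} {φ₁ : ℝ → ℝ} {F : ℝ → Ω → ℤ → ℝ} (H : DirFam P Q T φ₁ F) :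
    ∀ᵐ ω ∂P, ∀ t ∈ Q ∩ T, ∀ x, inc (fs Q T φ₁ F (φ₁ t) ω) x = inc (F t ω) x := by
  rw [ae_ball_iff (H.count.mono inter_subset_left)]
  intro t ht
  have hp : φ₁ t ∈ slopes Q T φ₁ := ⟨t, ht, rfl⟩
  obtain ⟨h1, h2⟩ := dirOf_mem hp
  have key : ∀ u ∈ Q ∩ T, ∀ u' ∈ Q ∩ T, u < u' → φ₁ u = φ₁ u' →
      ∀ᵐ ω ∂P, ∀ x, inc (F u ω) x = inc (F u' ω) x := by
    intro u hu u' hu' hlt he
    rw [ae_all_iff]
    intro x
    have hle : (fun ω => inc (F u' ω) x) ≤ᵐ[P] fun ω => inc (F u ω) x := by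
      filter_upwards [H.mono u hu u' hu' hlt] with ω hω using hω x
    have hint : ∫ ω, inc (F u' ω) x ∂P = ∫ ω, inc (F u ω) x ∂P := by
      rw [H.mean u hu, H.mean u' hu', he]
    have := (integral_eq_iff_of_ae_le (H.int u' hu' x) (H.int u hu x) hle).1 hint
    filter_upwards [this] with ω hω
    exact hω.symm
  unfold fs
  rcases lt_trichotomy (dirOf Q T φ₁ (φ₁ t)) t with h | h | h
  · exact key _ h1 _ ht h h2
  · rw [h]; exact Eventually.of_forall fun ω x => rfl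
  · filter_upwards [key _ ht _ h1 h h2.symm] with ω hω x
    exact (hω x).symm

/-! ### the cut slope -/

/-- **cut**: a function comparable with every member of a decreasing family has a slope label -/
theorem exists_slope {D : Set ℝ} {f : ℝ → ℤ → ℝ} {A B : ℝ} (hAB : A ≤ B) (hD : D ⊆ Icc A B)
    (hmono : ∀ p ∈ D, ∀ q ∈ D, p < q → ∀ x, inc (f q) x ≤ inc (f p) x) {h : ℤ → ℝ}
    (hcmp : ∀ p ∈ D, (∀ x, inc h x ≤ inc (f p) x) ∨ ∀ x, inc (f p) x ≤ inc h x) :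
    ∃ s ∈ Icc A B, Sand D f s h := by
  set E : Set ℝ := insert A {p | p ∈ D ∧ ∀ x, inc h x ≤ inc (f p) x} with hE
  have hEb : ∀ p ∈ E, p ≤ B := by
    rintro p (rfl | ⟨hp, -⟩)
    · exact hAB
    · exact (hD hp).2
  have hbdd : BddAbove E := ⟨B, hEb⟩
  have hA : A ∈ E := mem_insert _ _
  refine ⟨sSup E, ⟨le_csSup hbdd hA, csSup_le ⟨A, hA⟩ hEb⟩, ⟨?_, ?_⟩⟩
  · intro p hp hps x
    obtain ⟨p', hp', hlt⟩ := exists_lt_of_lt_csSup ⟨A, hA⟩ hps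
    rcases hp' with rfl | ⟨hp'D, hp'x⟩
    · exact absurd (hD hp).1 (not_le.2 hlt)
    · exact (hp'x x).trans (hmono p hp p' hp'D hlt x)
  · intro q hq hsq x
    rcases hcmp q hq with h1 | h1
    · exact absurd (le_csSup hbdd (mem_insert_of_mem _ ⟨hq, h1⟩)) (not_le.2 hsq)
    · exact h1 x

/-- the same for an increasing family -/
theorem exists_slope_up {D : Set ℝ} {f : ℝ → ℤ → ℝ} {A B : ℝ} (hAB : A ≤ B) (hD : D ⊆ Icc A B)
    (hmono : ∀ p ∈ D, ∀ q ∈ D, p < q → ∀ x, inc (f p) x ≤ inc (f q) x) {h : ℤ → ℝ}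
    (hcmp : ∀ p ∈ D, (∀ x, inc h x ≤ inc (f p) x) ∨ ∀ x, inc (f p) x ≤ inc h x) :
    ∃ s ∈ Icc A B, SandUp D f s h := by
  set E : Set ℝ := insert A {p | p ∈ D ∧ ∀ x, inc (f p) x ≤ inc h x} with hE
  have hEb : ∀ p ∈ E, p ≤ B := by
    rintro p (rfl | ⟨hp, -⟩)
    · exact hAB
    · exact (hD hp).2
  have hbdd : BddAbove E := ⟨B, hEb⟩
  have hA : A ∈ E := mem_insert _ _
  refine ⟨sSup E, ⟨le_csSup hbdd hA, csSup_le ⟨A, hA⟩ hEb⟩, ⟨?_, ?_⟩⟩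
  · intro p hp hps x
    obtain ⟨p', hp', hlt⟩ := exists_lt_of_lt_csSup ⟨A, hA⟩ hps
    rcases hp' with rfl | ⟨hp'D, hp'x⟩
    · exact absurd (hD hp).1 (not_le.2 hlt)
    · exact (hmono p hp p' hp'D hlt x).trans (hp'x x)
  · intro q hq hsq x
    rcases hcmp q hq with h1 | h1
    · exact h1 x
    · exact absurd (le_csSup hbdd (mem_insert_of_mem _ ⟨hq, h1⟩)) (not_le.2 hsq)

/-- uniqueness of the cut, from two-sided slopes or simply from separation of the family -/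
theorem Sand.unique {D : Set ℝ} {f : ℝ → ℤ → ℝ} {s s' : ℝ} {h : ℤ → ℝ}
    (H : Sand D f s h) (H' : Sand D f s' h)
    (hsep : ∀ x y, min s s' ≤ x → y ≤ max s s' → x < y → ∃ p ∈ D, ∃ q ∈ D, x < p ∧ p < q ∧ q < y ∧
      ∃ z, inc (f p) z ≠ inc (f q) z)
    (hmono : ∀ p ∈ D, ∀ q ∈ D, p < q → ∀ x, inc (f q) x ≤ inc (f p) x) : s = s' := by
  have key : ∀ {s s' : ℝ}, Sand D f s h → Sand D f s' h → s < s' →
      (∃ p ∈ D, ∃ q ∈ D, s < p ∧ p < q ∧ q < s' ∧ ∃ z, inc (f p) z ≠ inc (f q) z) → False := by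
    rintro s s' H H' hlt ⟨p, hp, q, hq, h1, h2, h3, z, hz⟩
    have e1 := H.ge p hp h1 z
    have e2 := H'.le q hq h3 z
    have e3 := hmono p hp q hq h2 z
    exact hz (le_antisymm (e1.trans e2) e3)
  rcases lt_trichotomy s s' with hlt | h0 | hlt
  · exact (key H H' hlt (hsep s s' (min_le_left _ _) (le_max_right _ _) hlt)).elim
  · exact h0
  · exact (key H' H hlt (hsep s' s (min_le_right _ _) (le_max_left _ _) hlt)).elim

/-! ### percolation instance -/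

open Crest.Agent.R151 Crest.Agent.R151.Y Crest.Agent.R151.SEL

/-- a ray function restricted to a row: increments are bounded by the boundary passage times -/
theorem abs_inc_le_of_isLip {t : Environment} {R : Set (ℤ × ℤ)} {f : ℤ × ℤ → ℝ}
    (hf : IsLip t (reg R) f) {k x : ℤ} (h1 : ((x, k) : ℤ × ℤ) ∈ R)
    (h2 : ((x + 1, k) : ℤ × ℤ) ∈ R) :
    |inc (fun w => f (w, k)) x| ≤ K.pR t R (x, k) (x + 1, k) := by
  rw [pR_eq_pt h1]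
  have hadj : (reg R).Adj (x, k) (x + 1, k) := by
    rw [reg_adj]
    exact ⟨K.adj_right x k, h1, h2⟩
  have := hf.abs_sub_le_pt hadj.reachable
  unfold inc
  rwa [abs_sub_comm]

/-- the label of an up-down path: rows `k` (upper) and `j` (lower) -/
noncomputable def lab (t : Environment) (k j : ℤ) (v : ℤ → ℤ × ℤ) : (ℤ → ℝ) × (ℤ → ℝ) :=
  (fun w => fU t k v (w, k), fun w => fD t j v (w, j))

theorem inc_lab_le {t : Environment} (ht : ∀ e, 0 ≤ t e) {v : ℤ → ℤ × ℤ} (h : IsBigeodesic t v)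
    (hv : UpDown v) (k j x : ℤ) :
    |inc (lab t k j v).1 x| ≤ K.pR t (Up k) (x, k) (x + 1, k) ∧
      |inc (lab t k j v).2 x| ≤ K.pR t (Dn j) (x, j) (x + 1, j) :=
  ⟨abs_inc_le_of_isLip (isLip_bus ht (isRay_tailU h ht hv k)) (by simp [Up]) (by simp [Up]),
    abs_inc_le_of_isLip (isLip_bus ht (isRay_tailD h ht hv j)) (by simp [Dn]) (by simp [Dn])⟩

/-- **CLASS for percolation**: rows `k` (functions of `Up k`) and `j` (functions of `Dn j`). -/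
theorem class_rows {G : Measure ℝ} [IsProbabilityMeasure G] (hG : M51.Law213 G) (k j : ℤ)
    {L : Environment → Set ((ℤ → ℝ) × (ℤ → ℝ))}
    (htot : ∀ᵐ t ∂(iidLaw G), ∀ a ∈ L t, ∀ b ∈ L t, LabLe a b ∨ LabLe b a)
    (hb : ∀ᵐ t ∂(iidLaw G), ∀ a ∈ L t, ∀ x, |inc a.1 x| ≤ K.pR t (Up k) (x, k) (x + 1, k) ∧
      |inc a.2 x| ≤ K.pR t (Dn j) (x, j) (x + 1, j))
    {κ : ℝ} (hκ : 0 < κ) :
    ∃ C₁ : ℝ, 0 ≤ C₁ ∧ ∀ h : ℕ, ∃ N : Environment → ℝ, Measurable N ∧ (∀ t, 0 ≤ N t) ∧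
      Integrable N (iidLaw G) ∧ ∫ t, N t ∂(iidLaw G) ≤ C₁ * (h + 1) ∧
      ∀ᵐ t ∂(iidLaw G), ∃ Rep : Finset ((ℤ → ℝ) × (ℤ → ℝ)), (∀ b ∈ Rep, b ∈ L t) ∧
        (Rep.card : ℝ) ≤ N t ∧
        ∀ a ∈ L t, ∃ b ∈ Rep, ∀ x y : ℤ, -(h : ℤ) ≤ x → x ≤ h → -(h : ℤ) ≤ y → y ≤ h →
          |(a.1 x - b.1 x) - (a.1 y - b.1 y)| ≤ κ ∧ |(a.2 x - b.2 x) - (a.2 y - b.2 y)| ≤ κ := by
  have hUr : ({z : ℤ × ℤ | z.2 ∈ Ici k} : Set (ℤ × ℤ)) = Up k := rfl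
  have hDr : ({z : ℤ × ℤ | z.2 ∈ Iic j} : Set (ℤ × ℤ)) = Dn j := rfl
  have rU := K.regMom_row hG (M51.thick_Ici k) ordConnected_Ici
  have rD := K.regMom_row hG (M51.thick_Iic j) ordConnected_Iic
  rw [hUr] at rU
  rw [hDr] at rD
  have hnn : ∀ᵐ t ∂(iidLaw G), K.Nn t := K.ae_Nn hG.h0
  have mean : ∀ (R : Set (ℤ × ℤ)) (k : ℤ), K.RegMom G R (K.cM G) →
      (∀ x : ℤ, ((x, k) : ℤ × ℤ) ∈ R) → ∀ x : ℤ,
      Integrable (fun t => K.pR t R (x, k) (x + 1, k)) (iidLaw G) ∧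
      ∫ t, |K.pR t R (x, k) (x + 1, k)| ∂(iidLaw G) ≤ K.cM G := by
    intro R k hR hmem x
    refine ⟨hR.int _ (hmem _) _ (hmem _), ?_⟩
    have h1 : ∫ t, |K.pR t R (x, k) (x + 1, k)| ∂(iidLaw G) =
        ∫ t, K.pR t R (x, k) (x + 1, k) ∂(iidLaw G) := by
      refine integral_congr_ae ?_
      filter_upwards [hnn] with t ht
      rw [abs_of_nonneg (K.pR_nonneg ht _ _ _)]
    rw [h1]
    have h2 := hR.le _ (hmem x) _ (hmem (x + 1))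
    have h3 : (K.n1 (((x + 1, k) : ℤ × ℤ) - (x, k)) : ℝ) = 1 := by
      simp [K.n1]
    rw [h3] at h2
    linarith
  exact class_int htot (U := fun t x => K.pR t (Up k) (x, k) (x + 1, k))
    (V := fun t x => K.pR t (Dn j) (x, j) (x + 1, j))
    (fun x => K.measurable_pR _ _ _) (fun x => K.measurable_pR _ _ _)
    (fun x => (mean _ _ rU (fun x => by simp [Up]) x).1)
    (fun x => (mean _ _ rD (fun x => by simp [Dn]) x).1)
    (C₀ := K.cM G) (fun x => (mean _ _ rU (fun x => by simp [Up]) x).2)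
    (fun x => (mean _ _ rD (fun x => by simp [Dn]) x).2) hb hκ

/-- edges of `Up k` and of `Dn j` are disjoint for `j < k` -/
lemma disjoint_edges {j k : ℤ} (hjk : j < k) :
    Disjoint {e : Sym2 (ℤ × ℤ) | ∀ z ∈ e, z ∈ Up k} {e : Sym2 (ℤ × ℤ) | ∀ z ∈ e, z ∈ Dn j} := by
  rw [Set.disjoint_left]
  intro e h1 h2
  induction e with
  | _ x y =>
    have a := h1 x (by simp)
    have b := h2 x (by simp)
    simp only [Up, Dn, mem_ofPred_eq] at a b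
    omega

/-- **total order of all labels**, from CHAIN -/
theorem labels_total {Ω : Type*} [MeasurableSpace Ω] {P : Measure Ω} {D : Set ℝ} {A B : ℝ}
    (hD : ∀ x y, A < x → x < y → y < B → ∃ p ∈ D, x < p ∧ p < y)
    {f g : ℝ → Ω → ℤ → ℝ}
    (hc : ∀ᵐ ω ∂P, ∀ s, A < s → s < B →
      ContAt D (fun p => f p ω) s ∨ ContAt D (fun p => g p ω) s)
    {L : Ω → Set ((ℤ → ℝ) × (ℤ → ℝ))} {sl : Ω → (ℤ → ℝ) × (ℤ → ℝ) → ℝ}
    (hL : ∀ᵐ ω ∂P, ∀ a ∈ L ω, A < sl ω a ∧ sl ω a < B ∧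
      Sand D (fun p => f p ω) (sl ω a) a.1 ∧ SandUp D (fun p => g p ω) (sl ω a) a.2)
    (hU : ∀ᵐ ω ∂P, ∀ a ∈ L ω, ∀ b ∈ L ω, sl ω a = sl ω b → Cmp a.1 b.1)
    (hV : ∀ᵐ ω ∂P, ∀ a ∈ L ω, ∀ b ∈ L ω, sl ω a = sl ω b → Cmp a.2 b.2) :
    ∀ᵐ ω ∂P, ∀ a ∈ L ω, ∀ b ∈ L ω, LabLe a b ∨ LabLe b a := by
  filter_upwards [hc, hL, hU, hV] with ω h1 h2 h3 h4 a ha b hb
  obtain ⟨a1, a2, a3, a4⟩ := h2 a ha
  obtain ⟨b1, b2, b3, b4⟩ := h2 b hb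
  refine lab_total ?_ (h1 _ a1 a2) a3 a4 b3 b4 (h3 a ha b hb) (h4 a ha b hb)
  intro x y hx hy hxy
  refine hD x y ((lt_min a1 b1).trans_le hx) hxy (hy.trans_lt (max_lt a2 b2))

end Crest.Agent.R151.H
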