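import Crest.Agent.R151.F592e
import Crest.Agent.R151.H617f
import Crest.Agent.R151.Y635E

/-!
# R151, F592f (helper592): SUCC for percolation, part 1

Rows `a < b`; `pu b v`, `pd a v` places of the last entrance / first exit; `Ps t a b v u w` the pair
functional of the label of `v`; `Ps_min`; `gp` the gap.
`Sel0` : abstract selected family of bigeodesics on the level `0`; `Sel0.toPField`,
`Sel0.gap_cov`, `Sel0.hcyc` (averaged cyclic sums).
-/

set_option autoImplicit false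

namespace Crest.Agent.R151.F592

open Finset MeasureTheory Filter Topology
open Crest.ProbabilityR.FirstPassage
open Crest.Agent.R151 Crest.Agent.R151.Y Crest.Agent.R151.SEL
open scoped Classical ENNReal

section det

variable {t : Environment} {v : ℤ → ℤ × ℤ}

/-- place of the last entrance to `{y ≥ b}` -/
noncomputable def pu (b : ℤ) (v : ℤ → ℤ × ℤ) : ℤ := (v (entU b v)).1

/-- place of the first exit from `{y ≤ a}` -/
noncomputable def pd (a : ℤ) (v : ℤ → ℤ × ℤ) : ℤ := (v (entD a v)).1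

/-- pair functional of the label of `v`, rows `a < b` -/
noncomputable def Ps (t : Environment) (a b : ℤ) (v : ℤ → ℤ × ℤ) (u w : ℤ) : ℝ :=
  fD t a v (w, a) + passageTime t (w, a) (u, b) + fU t b v (u, b)

/-- the gap of `v'` for the label of `v` -/
noncomputable def gp (t : Environment) (a b : ℤ) (v v' : ℤ → ℤ × ℤ) : ℝ :=
  Ps t a b v (pu b v') (pd a v') - Ps t a b v (pu b v) (pd a v)

theorem reachable_Dn {k : ℤ} {x y : ℤ × ℤ} (hx : x.2 ≤ k) (hy : y.2 ≤ k) :
    (reg (Dn k)).Reachable x y := by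
  rw [← conn_iff_reachable (by simpa using hx)]
  refine (K.conn_prod (A := Set.univ) (B := Set.Iic k) Set.ordConnected_univ
    Set.ordConnected_Iic ⟨trivial, hx⟩ ⟨trivial, hy⟩).mono ?_
  intro z hz
  exact hz.2

theorem pu_mk (hv : UpDown v) (hadj : ∀ n, squareLattice.Adj (v n) (v (n + 1))) (b : ℤ) :
    v (entU b v) = (pu b v, b) := by
  have := hv.entU_snd (k := b) hadj
  unfold pu
  exact Prod.ext rfl this

theorem pd_mk (hv : UpDown v) (hadj : ∀ n, squareLattice.Adj (v n) (v (n + 1))) (a : ℤ) :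
    v (entD a v) = (pd a v, a) := by
  have := hv.entD_snd (k := a) hadj
  unfold pd
  exact Prod.ext rfl this

theorem fU_pu (ht : ∀ e, 0 ≤ t e) (hv : IsBigeodesic t v) (hvU : UpDown v) (b : ℤ) :
    fU t b v (pu b v, b) = 0 := by
  rw [← pu_mk hvU hv.2.1 b]
  have h := bus_zero ht (isRay_tailU hv ht hvU b)
  unfold fU
  have e : tailU b v 0 = v (entU b v) := by simp [tailU]
  rwa [e] at h

theorem fD_pd (ht : ∀ e, 0 ≤ t e) (hv : IsBigeodesic t v) (hvU : UpDown v) (a : ℤ) :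
    fD t a v (pd a v, a) = 0 := by
  rw [← pd_mk hvU hv.2.1 a]
  have h := bus_zero ht (isRay_tailD hv ht hvU a)
  unfold fD
  have e : tailD a v 0 = v (entD a v) := by simp [tailD]
  rwa [e] at h

theorem Ps_self (ht : ∀ e, 0 ≤ t e) (hv : IsBigeodesic t v) (hvU : UpDown v) (a b : ℤ) :
    Ps t a b v (pu b v) (pd a v) = passageTime t (v (entD a v)) (v (entU b v)) := by
  unfold Ps
  rw [fU_pu ht hv hvU, fD_pd ht hv hvU, pu_mk hvU hv.2.1 b, pd_mk hvU hv.2.1 a]
  ring

/-- the crossing of `v` minimises its pair functional -/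
theorem Ps_min (ht : ∀ e, 0 < t e) (hv : IsBigeodesic t v) (hvU : UpDown v) {a b : ℤ}
    (hab : a < b) (u w : ℤ) : Ps t a b v (pu b v) (pd a v) ≤ Ps t a b v u w := by
  have ht0 : ∀ e, 0 ≤ t e := fun e => (ht e).le
  rw [Ps_self ht0 hv hvU]
  have hB := isBiRay_of_isBigeodesic ht hv
  have hij : entD a v < entU b v := hvU.entD_lt_entU hab
  have h := hB.pair_min (Hp := reg (Up b)) (Hm := reg (Dn a)) (i := entD a v) (j := entU b v)
    (p := (w, a)) (q := (u, b)) ht0 (reg_le _) (reg_le _) hij.le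
    (fun k hk => by
      rw [reg_adj]
      exact ⟨hB.adj k, hvU.entU_spec hk, hvU.entU_spec (by omega)⟩)
    (fun k hk => by
      rw [reg_adj]
      exact ⟨hB.adj k, hvU.entD_spec (by omega), hvU.entD_spec (by omega)⟩)
    (reachable_Dn (by simp) (by rw [hvU.entD_snd hB.adj]))
    (reachable_Up (by simp) (by rw [hvU.entU_snd hB.adj]))
  rw [← passageTime_eq_pt, ← passageTime_eq_pt] at h
  exact h

theorem gp_nonneg (ht : ∀ e, 0 < t e) (hv : IsBigeodesic t v) (hvU : UpDown v) {a b : ℤ}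
    (hab : a < b) (v' : ℤ → ℤ × ℤ) : 0 ≤ gp t a b v v' :=
  sub_nonneg.2 (Ps_min ht hv hvU hab _ _)

theorem gp_self (a b : ℤ) (v : ℤ → ℤ × ℤ) : gp t a b v v = 0 := sub_self _

/-- telescoping -/
theorem abs_sub_le_sum {F p : ℤ → ℝ} (h : ∀ e, |H.inc F e| ≤ p e) {x y : ℤ} (hxy : x ≤ y) :
    |F x - F y| ≤ ∑ e ∈ Finset.Ico x y, p e := by
  obtain ⟨n, rfl⟩ : ∃ n : ℕ, y = x + n := ⟨(y - x).toNat, by omega⟩
  clear hxy
  induction n with
  | zero => simp
  | succ n ih =>
    have h1 : (Finset.Ico x (x + ((n + 1 : ℕ) : ℤ))) = insert (x + n) (Finset.Ico x (x + n)) := by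
      ext e
      simp only [Finset.mem_Ico, Finset.mem_insert]
      push_cast
      omega
    rw [h1, Finset.sum_insert (by simp)]
    have h2 := h (x + n)
    unfold H.inc at h2
    push_cast
    rw [← add_assoc]
    have h3 := abs_sub_le (F x) (F (x + n)) (F (x + n + 1))
    rw [abs_sub_comm (F (x + n)) (F (x + n + 1))] at h3
    linarith

theorem sum_Ico_mono {p : ℤ → ℝ} (hp : ∀ e, 0 ≤ p e) {x y x' y' : ℤ} (h1 : x' ≤ x) (h2 : y ≤ y') :
    ∑ e ∈ Finset.Ico x y, p e ≤ ∑ e ∈ Finset.Ico x' y', p e :=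
  Finset.sum_le_sum_of_subset_of_nonneg (Finset.Ico_subset_Ico h1 h2) fun e _ _ => hp e

end det

/-- An abstract selected family of bigeodesics on the level `0`: `x ∈ X t` is the place of the last
entrance to `{y ≥ 0}`. -/
structure Sel0 (P : Measure Environment) (γ : ℤ → Environment → ℤ → ℤ × ℤ)
    (X : Environment → Set ℤ) (m0 : ℕ) : Prop where
  measγ : ∀ x n, Measurable fun t => γ x t n
  measX : ∀ x, MeasurableSet {t | x ∈ X t}
  covγ : ∀ z x t n, γ (x + z) t n = γ x (A.shift (z, 0) t) n + (z, 0)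
  covX : ∀ z t x, x ∈ X (A.shift (z, 0) t) ↔ x + z ∈ X t
  mp : ∀ z : ℤ, MeasurePreserving (A.shift (z, 0)) P P
  pos : ∀ᵐ t ∂P, ∀ e, 0 < t e
  big : ∀ᵐ t ∂P, ∀ x ∈ X t, IsBigeodesic t (γ x t)
  ud : ∀ᵐ t ∂P, ∀ x ∈ X t, UpDown (γ x t)
  locU : ∀ᵐ t ∂P, ∀ x ∈ X t, pu 0 (γ x t) = x
  locD : ∀ᵐ t ∂P, ∀ x ∈ X t, |pd (-1) (γ x t) - x| ≤ m0
  tot : ∀ᵐ t ∂P, ∀ x ∈ X t, ∀ y ∈ X t,
    H.LabLe (H.lab t 0 (-1) (γ x t)) (H.lab t 0 (-1) (γ y t)) ∨
      H.LabLe (H.lab t 0 (-1) (γ y t)) (H.lab t 0 (-1) (γ x t))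

namespace Sel0

variable {P : Measure Environment} {γ : ℤ → Environment → ℤ → ℤ × ℤ}
  {X : Environment → Set ℤ} {m0 : ℕ}

/-- the preorder of the labels -/
def le (γ : ℤ → Environment → ℤ → ℤ × ℤ) (t : Environment) (x y : ℤ) : Prop :=
  H.LabLe (H.lab t 0 (-1) (γ x t)) (H.lab t 0 (-1) (γ y t))

theorem γ_add (D : Sel0 P γ X m0) (z x : ℤ) (t : Environment) :
    γ (x + z) t = fun n => γ x (A.shift (z, 0) t) n + (z, 0) :=
  funext fun n => D.covγ z x t n

theorem fU_cov (D : Sel0 P γ X m0) (z x : ℤ) (t : Environment) (k w : ℤ) :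
    fU (A.shift (z, 0) t) k (γ x (A.shift (z, 0) t)) (w, k) = fU t k (γ (x + z) t) (w + z, k) := by
  rw [D.γ_add z x t, ← fU_shift]
  simp

theorem fD_cov (D : Sel0 P γ X m0) (z x : ℤ) (t : Environment) (k w : ℤ) :
    fD (A.shift (z, 0) t) k (γ x (A.shift (z, 0) t)) (w, k) = fD t k (γ (x + z) t) (w + z, k) := by
  rw [D.γ_add z x t, ← fD_shift]
  simp

theorem pu_cov (D : Sel0 P γ X m0) (z x : ℤ) (t : Environment) (k : ℤ) :
    pu k (γ (x + z) t) = pu k (γ x (A.shift (z, 0) t)) + z := by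
  unfold pu
  have h := entU_add k (γ x (A.shift (z, 0) t)) (z, 0)
  simp only [add_zero] at h
  rw [D.γ_add z x t, h]
  rfl

theorem pd_cov (D : Sel0 P γ X m0) (z x : ℤ) (t : Environment) (k : ℤ) :
    pd k (γ (x + z) t) = pd k (γ x (A.shift (z, 0) t)) + z := by
  unfold pd
  have h := entD_add k (γ x (A.shift (z, 0) t)) (z, 0)
  simp only [add_zero] at h
  rw [D.γ_add z x t, h]
  rfl

theorem Ps_cov (D : Sel0 P γ X m0) (z x : ℤ) (t : Environment) (a b u w : ℤ) :
    Ps (A.shift (z, 0) t) a b (γ x (A.shift (z, 0) t)) u w =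
      Ps t a b (γ (x + z) t) (u + z) (w + z) := by
  unfold Ps
  rw [D.fU_cov, D.fD_cov, passageTime_shift]
  simp

theorem gap_cov (D : Sel0 P γ X m0) (z x y : ℤ) (t : Environment) (a b : ℤ) :
    gp (A.shift (z, 0) t) a b (γ x (A.shift (z, 0) t)) (γ y (A.shift (z, 0) t)) =
      gp t a b (γ (x + z) t) (γ (y + z) t) := by
  unfold gp
  rw [D.Ps_cov, D.Ps_cov, D.pu_cov, D.pu_cov, D.pd_cov, D.pd_cov]

theorem le_cov (D : Sel0 P γ X m0) (z x y : ℤ) (t : Environment) :
    le γ (A.shift (z, 0) t) x y ↔ le γ t (x + z) (y + z) := by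
  have hf : ∀ p : ℤ → Prop, (∀ k, p (k + z)) ↔ ∀ k, p k := fun p =>
    ⟨fun h k => by simpa using h (k - z), fun h k => h _⟩
  unfold le H.LabLe H.lab H.inc
  simp only [D.fU_cov, D.fD_cov]
  have e : ∀ k : ℤ, k + 1 + z = k + z + 1 := fun k => by ring
  simp only [e]
  rw [hf fun k => fU t 0 (γ (y + z) t) (k + 1, 0) - fU t 0 (γ (y + z) t) (k, 0) ≤
      fU t 0 (γ (x + z) t) (k + 1, 0) - fU t 0 (γ (x + z) t) (k, 0),
    hf fun k => fD t (-1) (γ (x + z) t) (k + 1, -1) - fD t (-1) (γ (x + z) t) (k, -1) ≤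
      fD t (-1) (γ (y + z) t) (k + 1, -1) - fD t (-1) (γ (y + z) t) (k, -1)]

theorem measurable_fU' (D : Sel0 P γ X m0) (x k : ℤ) (w : ℤ × ℤ) :
    Measurable fun t => fU t k (γ x t) w :=
  measurable_fU (τ := fun t => t) measurable_id (D.measγ x) k w

theorem measurable_fD' (D : Sel0 P γ X m0) (x k : ℤ) (w : ℤ × ℤ) :
    Measurable fun t => fD t k (γ x t) w :=
  measurable_fD (τ := fun t => t) measurable_id (D.measγ x) k w

theorem measurable_pu (D : Sel0 P γ X m0) (x k : ℤ) : Measurable fun t => pu k (γ x t) :=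
  measurable_fst.comp (measurable_eval (f := fun t (m : ℤ) => γ x t m) (fun m => D.measγ x m)
    (measurable_entU (D.measγ x) k))

theorem measurable_pd (D : Sel0 P γ X m0) (x k : ℤ) : Measurable fun t => pd k (γ x t) :=
  measurable_fst.comp (measurable_eval (f := fun t (m : ℤ) => γ x t m) (fun m => D.measγ x m)
    (measurable_entD (D.measγ x) k))

theorem measurable_Ps (D : Sel0 P γ X m0) (x a b u w : ℤ) :
    Measurable fun t => Ps t a b (γ x t) u w :=
  ((D.measurable_fD' x a _).add (by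
    simp_rw [passageTime_eq_pt]
    exact measurable_pt' _ _ _)).add (D.measurable_fU' x b _)

theorem measurable_Ps_uncurry (D : Sel0 P γ X m0) (x a b : ℤ) :
    Measurable fun p : Environment × (ℤ × ℤ) => Ps p.1 a b (γ x p.1) p.2.1 p.2.2 := by
  have h2 : ∀ q : ℤ × ℤ, Measurable fun t => Ps t a b (γ x t) q.1 q.2 := fun q =>
    D.measurable_Ps x a b q.1 q.2
  exact measurable_from_prod_countable_left h2

theorem measurable_Ps_at (D : Sel0 P γ X m0) (x a b y : ℤ) :
    Measurable fun t => Ps t a b (γ x t) (pu b (γ y t)) (pd a (γ y t)) := by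
  have h1 : Measurable fun t => (t, (pu b (γ y t), pd a (γ y t))) :=
    measurable_id.prodMk ((D.measurable_pu y b).prodMk (D.measurable_pd y a))
  have h3 := (D.measurable_Ps_uncurry x a b).comp h1
  exact h3

theorem measurable_gap (D : Sel0 P γ X m0) (x y a b : ℤ) :
    Measurable fun t => gp t a b (γ x t) (γ y t) :=
  (D.measurable_Ps_at x a b y).sub (D.measurable_Ps_at x a b x)

theorem toPField (D : Sel0 P γ X m0) :
    PField P (fun z : ℤ => A.shift (z, 0)) X (le γ) where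
  mp := D.mp
  measA := D.measX
  measle x y := by
    unfold le H.LabLe H.lab H.inc
    refine mset_and (mset_forall fun e => ?_) (mset_forall fun e => ?_)
    · exact measurableSet_le ((D.measurable_fU' y 0 _).sub (D.measurable_fU' y 0 _))
        ((D.measurable_fU' x 0 _).sub (D.measurable_fU' x 0 _))
    · exact measurableSet_le ((D.measurable_fD' x (-1) _).sub (D.measurable_fD' x (-1) _))
        ((D.measurable_fD' y (-1) _).sub (D.measurable_fD' y (-1) _))
  covA := D.covX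
  covle := fun z t x y => D.le_cov z x y t
  trans := Eventually.of_forall fun t x _ y _ z _ h1 h2 => H.LabLe.trans h1 h2
  tot := D.tot

/-- the strict order -/
def lt (γ : ℤ → Environment → ℤ → ℤ × ℤ) : Environment → ℤ → ℤ → Prop := ltOf (le γ)

theorem monotone_fU {t : Environment} {x y : ℤ} (h : le γ t x y) :
    Monotone fun u : ℤ => fU t 0 (γ x t) (u, 0) - fU t 0 (γ y t) (u, 0) := by
  refine monotone_int_of_le_succ fun u => ?_
  have := h.1 u
  simp only [H.lab, H.inc] at this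
  linarith

theorem antitone_fD {t : Environment} {x y : ℤ} (h : le γ t x y) :
    Antitone fun w : ℤ => fD t (-1) (γ x t) (w, -1) - fD t (-1) (γ y t) (w, -1) := by
  refine antitone_int_of_succ_le fun w => ?_
  have := h.2 w
  simp only [H.lab, H.inc] at this
  linarith

/-- upper boundary passage times -/
noncomputable def tU (t : Environment) (e : ℤ) : ℝ := K.pR t (Up 0) (e, 0) (e + 1, 0)

/-- lower boundary passage times -/
noncomputable def tD (t : Environment) (e : ℤ) : ℝ := K.pR t (Dn (-1)) (e, -1) (e + 1, -1)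

/-- pointwise cyclic sum -/
theorem cyc_pointwise (D : Sel0 P γ X m0) : ∀ᵐ t ∂P, ∀ h : ℕ,
    ∑ x ∈ Finset.range h, ∑ j ∈ Finset.range h,
      Set.indicator {t | Nxt (X t) (lt γ t) (Set.Ico 0 (h : ℤ)) x j}
        (fun t => ENNReal.ofReal (gp t (-1) 0 (γ x t) (γ j t))) t ≤
      ENNReal.ofReal (2 * ∑ e ∈ Finset.Ico (0 : ℤ) h, tU t e +
        2 * ∑ e ∈ Finset.Ico (-(m0 : ℤ)) (h + m0), tD t e) := by
  filter_upwards [D.toPField.toLField.sto, D.pos, D.big, D.ud, D.locU, D.locD]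
    with t hsto hpos hbig hud hlU hlD h
  have ht0 : ∀ e, 0 ≤ t e := fun e => (hpos e).le
  have htU : ∀ e, 0 ≤ tU t e := fun e => K.pR_nonneg ht0 _ _ _
  have htD : ∀ e, 0 ≤ tD t e := fun e => K.pR_nonneg ht0 _ _ _
  set W : Set ℤ := Set.Ico 0 (h : ℤ) with hW
  have hfin : (X t ∩ W).Finite := (Set.finite_Ico 0 (h : ℤ)).subset Set.inter_subset_right
  obtain ⟨σ, hbij, hσ⟩ := exists_cyc hsto hfin
  set s : Finset ℤ := hfin.toFinset with hs
  have hsX : ∀ i ∈ s, i ∈ X t := fun i hi => (hfin.mem_toFinset.1 hi).1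
  have hsW : ∀ i ∈ s, i ∈ W := fun i hi => (hfin.mem_toFinset.1 hi).2
  have hcoe : (s : Set ℤ) = X t ∩ W := by rw [hs]; exact hfin.coe_toFinset
  have hbij' : Set.BijOn σ (s : Set ℤ) s := by rw [hcoe]; exact hbij
  -- the double sum is a sum over `s`
  have e1 : ∑ x ∈ Finset.range h, ∑ j ∈ Finset.range h,
      Set.indicator {t | Nxt (X t) (lt γ t) W x j}
        (fun t => ENNReal.ofReal (gp t (-1) 0 (γ x t) (γ j t))) t =
      ∑ x ∈ s, ENNReal.ofReal (gp t (-1) 0 (γ x t) (γ (σ x) t)) := by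
    have h1 : ∀ F : ℤ → ℝ≥0∞, ∑ x ∈ Finset.range h, F x = ∑ x ∈ Finset.Ico (0 : ℤ) h, F x := by
      intro F
      refine Finset.sum_nbij (fun n : ℕ => (n : ℤ)) ?_ ?_ ?_ ?_
      · intro n hn
        simp only [Finset.mem_Ico, Finset.mem_range] at hn ⊢
        omega
      · intro a _ b _ hab
        simpa using hab
      · intro z hz
        simp only [Finset.coe_Ico, Set.mem_Ico] at hz
        refine ⟨z.toNat, ?_, by simp [hz.1]⟩
        simp only [Finset.coe_range, Set.mem_Iio]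
        omega
      · intro n _
        rfl
    rw [h1 fun x => ∑ j ∈ Finset.range h, Set.indicator {t | Nxt (X t) (lt γ t) W x j}
        (fun t => ENNReal.ofReal (gp t (-1) 0 (γ x t) (γ j t))) t]
    have h2 : s ⊆ Finset.Ico (0 : ℤ) h := by
      intro i hi
      have := hsW i hi
      rw [hW, Set.mem_Ico] at this
      rw [Finset.mem_Ico]
      exact this
    rw [← Finset.sum_subset h2]
    · refine Finset.sum_congr rfl fun x hx => ?_
      rw [h1 fun j => Set.indicator {t | Nxt (X t) (lt γ t) W x j}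
        (fun t => ENNReal.ofReal (gp t (-1) 0 (γ x t) (γ j t))) t]
      have hxm : x ∈ X t ∩ W := ⟨hsX x hx, hsW x hx⟩
      have hσx : σ x ∈ X t ∩ W := hbij.mapsTo hxm
      rw [Finset.sum_eq_single_of_mem (σ x)]
      · rw [Set.indicator_of_mem]
        exact (hσ x hxm _).2 rfl
      · have := hσx.2
        rw [hW, Set.mem_Ico] at this
        rw [Finset.mem_Ico]
        exact this
      · intro j _ hj
        refine Set.indicator_of_notMem ?_ _
        intro hN
        exact hj ((hσ x hxm j).1 hN)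
    · intro x _ hx
      refine Finset.sum_eq_zero fun j _ => Set.indicator_of_notMem ?_ _
      intro hN
      exact hx (hfin.mem_toFinset.2 hN.1)
  rw [e1]
  rcases s.eq_empty_or_nonempty with h0 | hne
  · rw [h0]
    simp
  -- top and bottom
  obtain ⟨tp, htp, hmax⟩ := hsto.exists_max s hsX hne
  have hσlt : ∀ i ∈ s, i ≠ tp → lt γ t i (σ i) := by
    intro i hi hit
    have him : i ∈ X t ∩ W := ⟨hsX i hi, hsW i hi⟩
    have hN := (hσ i him _).2 rfl
    rcases hN.2.2 with h1 | h1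
    · exact h1.1
    · exact absurd (hmax i hi hit) (h1 tp (hsW tp htp) (hsX tp htp)).1
  have hkey := cyc_sum_le hsto hsX hbij' htp rfl hσlt
    (fun i u => fU t 0 (γ i t) (u, 0)) (fun i w => fD t (-1) (γ i t) (w, -1))
    (fun u w => passageTime t (w, -1) (u, 0)) (fun i => pu 0 (γ i t)) (fun i => pd (-1) (γ i t))
    (h : ℤ) (-(m0 : ℤ)) (fun i hi => by
      rw [hlU i (hsX i hi)]
      have := hsW i hi
      rw [hW, Set.mem_Ico] at this
      exact this.2.le) (fun i hi => by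
      have h1 := hlD i (hsX i hi)
      have h2 := hsW i hi
      rw [hW, Set.mem_Ico] at h2
      rw [abs_le] at h1
      omega) (fun i _ j _ hij => monotone_fU hij.1) (fun i _ j _ hij => antitone_fD hij.1)
  have e2 : ∑ x ∈ s, ENNReal.ofReal (gp t (-1) 0 (γ x t) (γ (σ x) t)) =
      ENNReal.ofReal (∑ x ∈ s, gp t (-1) 0 (γ x t) (γ (σ x) t)) :=
    (ENNReal.ofReal_sum_of_nonneg fun i hi =>
      gp_nonneg hpos (hbig i (hsX i hi)) (hud i (hsX i hi)) (by norm_num) _).symm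
  rw [e2]
  refine ENNReal.ofReal_le_ofReal ?_
  have e3 : ∑ x ∈ s, gp t (-1) 0 (γ x t) (γ (σ x) t) = ∑ i ∈ s,
      ((fU t 0 (γ i t) (pu 0 (γ (σ i) t), 0) + passageTime t (pd (-1) (γ (σ i) t), -1)
          (pu 0 (γ (σ i) t), 0) + fD t (-1) (γ i t) (pd (-1) (γ (σ i) t), -1)) -
        (fU t 0 (γ i t) (pu 0 (γ i t), 0) + passageTime t (pd (-1) (γ i t), -1)
          (pu 0 (γ i t), 0) + fD t (-1) (γ i t) (pd (-1) (γ i t), -1))) := by
    refine Finset.sum_congr rfl fun i _ => ?_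
    unfold gp Ps
    ring
  rw [e3]
  refine hkey.trans ?_
  -- bounds
  have hbs : σ tp ∈ s := hbij'.mapsTo htp
  set b := σ tp with hb
  have hlab : ∀ i ∈ s, (∀ e, |H.inc (fun u => fU t 0 (γ i t) (u, 0)) e| ≤ tU t e) ∧
      ∀ e, |H.inc (fun w => fD t (-1) (γ i t) (w, -1)) e| ≤ tD t e := by
    intro i hi
    have h1 := fun e => H.inc_lab_le ht0 (hbig i (hsX i hi)) (hud i (hsX i hi)) 0 (-1) e
    exact ⟨fun e => (h1 e).1, fun e => (h1 e).2⟩
  have hbW : 0 ≤ b ∧ b < h := by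
    have := hsW b hbs
    rwa [hW, Set.mem_Ico] at this
  have hpub : pu 0 (γ b t) = b := hlU b (hsX b hbs)
  have hpdb := hlD b (hsX b hbs)
  rw [abs_le] at hpdb
  have a1 := abs_sub_le_sum (hlab tp htp).1 (x := pu 0 (γ b t)) (y := (h : ℤ)) (by omega)
  have a2 := abs_sub_le_sum (hlab b hbs).1 (x := pu 0 (γ b t)) (y := (h : ℤ)) (by omega)
  have a3 := abs_sub_le_sum (hlab tp htp).2 (x := -(m0 : ℤ)) (y := pd (-1) (γ b t)) (by omega)
  have a4 := abs_sub_le_sum (hlab b hbs).2 (x := -(m0 : ℤ)) (y := pd (-1) (γ b t)) (by omega)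
  have b1 := sum_Ico_mono htU (x := pu 0 (γ b t)) (y := (h : ℤ)) (x' := 0) (y' := (h : ℤ))
    (by omega) le_rfl
  have b2 := sum_Ico_mono htD (x := -(m0 : ℤ)) (y := pd (-1) (γ b t)) (x' := -(m0 : ℤ))
    (y' := (h : ℤ) + m0) le_rfl (by omega)
  rw [abs_le] at a1 a2 a3 a4
  linarith [a1.1, a1.2, a2.1, a2.2, a3.1, a3.2, a4.1, a4.2]

theorem measurable_tU (e : ℤ) : Measurable fun t => tU t e := K.measurable_pR _ _ _

theorem measurable_tD (e : ℤ) : Measurable fun t => tD t e := K.measurable_pR _ _ _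

variable {G : Measure ℝ} [IsProbabilityMeasure G]

theorem integral_row (hG : M51.Law213 G) {B : Set ℤ} (hB : M51.Thick B) (hB' : B.OrdConnected)
    {k : ℤ} (hk : k ∈ B) (e : ℤ) :
    Integrable (fun t => K.pR t {z : ℤ × ℤ | z.2 ∈ B} (e, k) (e + 1, k)) (iidLaw G) ∧
      ∫ t, K.pR t {z : ℤ × ℤ | z.2 ∈ B} (e, k) (e + 1, k) ∂(iidLaw G) ≤ K.cM G := by
  have hR := K.regMom_row hG hB hB'
  refine ⟨hR.int _ hk _ hk, ?_⟩
  have h2 := hR.le (e, k) hk (e + 1, k) hk
  have h3 : (K.n1 (((e + 1, k) : ℤ × ℤ) - (e, k)) : ℝ) = 1 := by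
    simp [K.n1]
  rwa [h3, mul_one] at h2

theorem integral_tU (hG : M51.Law213 G) (e : ℤ) :
    Integrable (fun t => tU t e) (iidLaw G) ∧ ∫ t, tU t e ∂(iidLaw G) ≤ K.cM G :=
  integral_row hG (M51.thick_Ici 0) Set.ordConnected_Ici (k := 0) (by simp) e

theorem integral_tD (hG : M51.Law213 G) (e : ℤ) :
    Integrable (fun t => tD t e) (iidLaw G) ∧ ∫ t, tD t e ∂(iidLaw G) ≤ K.cM G :=
  integral_row hG (M51.thick_Iic (-1)) Set.ordConnected_Iic (k := -1) (by simp) e

/-- the averaged cyclic sum -/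
theorem hcyc (D : Sel0 (iidLaw G) γ X m0) (hG : M51.Law213 G) (h : ℕ) :
    ∑ x ∈ Finset.range h, ∑ j ∈ Finset.range h,
      ∫⁻ t, Set.indicator {t | Nxt (X t) (lt γ t) (Set.Ico 0 (h : ℤ)) x j}
        (fun t => ENNReal.ofReal (gp t (-1) 0 (γ x t) (γ j t))) t ∂(iidLaw G) ≤
      ENNReal.ofReal ((4 + 4 * m0) * K.cM G) * h := by
  rcases Nat.eq_zero_or_pos h with rfl | hh
  · simp
  have hmeas : ∀ x j : ℤ, AEMeasurable (fun t => Set.indicator
      {t | Nxt (X t) (lt γ t) (Set.Ico 0 (h : ℤ)) x j}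
        (fun t => ENNReal.ofReal (gp t (-1) 0 (γ x t) (γ j t))) t) (iidLaw G) := fun x j =>
    ((D.measurable_gap x j (-1) 0).ennreal_ofReal.aemeasurable).indicator₀
      (D.toPField.toLField.nullMeasurable_nxt _ x j)
  have e1 : ∑ x ∈ Finset.range h, ∑ j ∈ Finset.range h,
      ∫⁻ t, Set.indicator {t | Nxt (X t) (lt γ t) (Set.Ico 0 (h : ℤ)) x j}
        (fun t => ENNReal.ofReal (gp t (-1) 0 (γ x t) (γ j t))) t ∂(iidLaw G) =
      ∫⁻ t, ∑ x ∈ Finset.range h, ∑ j ∈ Finset.range h,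
        Set.indicator {t | Nxt (X t) (lt γ t) (Set.Ico 0 (h : ℤ)) x j}
        (fun t => ENNReal.ofReal (gp t (-1) 0 (γ x t) (γ j t))) t ∂(iidLaw G) := by
    rw [lintegral_finsetSum' (Finset.range h) (f := fun (x : ℕ) t => ∑ j ∈ Finset.range h,
        Set.indicator {t | Nxt (X t) (lt γ t) (Set.Ico 0 (h : ℤ)) x j}
        (fun t => ENNReal.ofReal (gp t (-1) 0 (γ x t) (γ j t))) t)
        fun x _ => Finset.aemeasurable_fun_sum _ fun j _ => hmeas x j]
    refine Finset.sum_congr rfl fun x _ => ?_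
    rw [lintegral_finsetSum' (Finset.range h) (f := fun (j : ℕ) t =>
        Set.indicator {t | Nxt (X t) (lt γ t) (Set.Ico 0 (h : ℤ)) x j}
        (fun t => ENNReal.ofReal (gp t (-1) 0 (γ x t) (γ j t))) t) fun j _ => hmeas x j]
  rw [e1]
  have hint : Integrable (fun t => 2 * ∑ e ∈ Finset.Ico (0 : ℤ) h, tU t e +
        2 * ∑ e ∈ Finset.Ico (-(m0 : ℤ)) (h + m0), tD t e) (iidLaw G) :=
    ((integrable_finsetSum _ fun e _ => (integral_tU hG e).1).const_mul 2).add
      ((integrable_finsetSum _ fun e _ => (integral_tD hG e).1).const_mul 2)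
  have hc0 := K.cM_nonneg G
  calc _ ≤ ∫⁻ t, ENNReal.ofReal (2 * ∑ e ∈ Finset.Ico (0 : ℤ) h, tU t e +
        2 * ∑ e ∈ Finset.Ico (-(m0 : ℤ)) (h + m0), tD t e) ∂(iidLaw G) := by
        refine lintegral_mono_ae ?_
        filter_upwards [D.cyc_pointwise] with t ht using ht h
    _ = ENNReal.ofReal (∫ t, (2 * ∑ e ∈ Finset.Ico (0 : ℤ) h, tU t e +
        2 * ∑ e ∈ Finset.Ico (-(m0 : ℤ)) (h + m0), tD t e) ∂(iidLaw G)) := by
        rw [ofReal_integral_eq_lintegral_ofReal hint]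
        filter_upwards [D.pos] with t hpos
        have ht0 : ∀ e, 0 ≤ t e := fun e => (hpos e).le
        have h1 : 0 ≤ ∑ e ∈ Finset.Ico (0 : ℤ) h, tU t e :=
          Finset.sum_nonneg fun e _ => K.pR_nonneg ht0 _ _ _
        have h2 : 0 ≤ ∑ e ∈ Finset.Ico (-(m0 : ℤ)) (h + m0), tD t e :=
          Finset.sum_nonneg fun e _ => K.pR_nonneg ht0 _ _ _
        simp only [Pi.zero_apply]
        linarith
    _ ≤ ENNReal.ofReal (((4 + 4 * m0) * K.cM G) * h) := by
        refine ENNReal.ofReal_le_ofReal ?_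
        rw [integral_add ((integrable_finsetSum _ fun e _ => (integral_tU hG e).1).const_mul 2)
          ((integrable_finsetSum _ fun e _ => (integral_tD hG e).1).const_mul 2),
          integral_const_mul, integral_const_mul,
          integral_finsetSum _ fun e _ => (integral_tU hG e).1,
          integral_finsetSum _ fun e _ => (integral_tD hG e).1]
        have h1 := Finset.sum_le_card_nsmul (Finset.Ico (0 : ℤ) h)
          (fun e => ∫ t, tU t e ∂(iidLaw G)) (K.cM G) fun e _ => (integral_tU hG e).2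
        have h2 := Finset.sum_le_card_nsmul (Finset.Ico (-(m0 : ℤ)) (h + m0))
          (fun e => ∫ t, tD t e ∂(iidLaw G)) (K.cM G) fun e _ => (integral_tD hG e).2
        rw [Int.card_Ico, nsmul_eq_mul] at h1 h2
        have c1 : (((h : ℤ) - 0).toNat : ℝ) = h := by simp
        have c2 : ((((h : ℤ) + m0) - -(m0 : ℤ)).toNat : ℝ) = h + 2 * m0 := by
          have : ((h : ℤ) + m0 - -(m0 : ℤ)).toNat = h + 2 * m0 := by omega
          rw [this]
          push_cast
          ring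
        rw [c1] at h1
        rw [c2] at h2
        have h3 : (m0 : ℝ) * K.cM G ≤ m0 * K.cM G * h := by
          have : (1 : ℝ) ≤ h := by exact_mod_cast hh
          exact le_mul_of_one_le_right (by positivity) this
        nlinarith
    _ = ENNReal.ofReal ((4 + 4 * m0) * K.cM G) * h := by
        rw [ENNReal.ofReal_mul (by positivity), ENNReal.ofReal_natCast]

/-- **existence of successors for percolation**; the remaining input is LFE + goodness -/
theorem ae_exists_succ (D : Sel0 (iidLaw G) γ X m0) (hG : M51.Law213 G)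
    (hgood : ∀ K : ℝ, 0 < K → ∀ β : ℝ≥0∞, 0 < β → ∃ Gd : Environment → Set ℤ,
      (∀ x, NullMeasurableSet {t | x ∈ Gd t} (iidLaw G)) ∧
      (∀ z t x, x ∈ Gd (A.shift (z, 0) t) ↔ x + z ∈ Gd t) ∧
      (iidLaw G) {t | (0 : ℤ) ∈ X t ∧ (0 : ℤ) ∉ Gd t} ≤ β ∧
      ∀ᵐ t ∂(iidLaw G), (0 : ℤ) ∈ X t → (0 : ℤ) ∈ Gd t →
        {j : ℤ | j ∈ X t ∧ j ∈ Gd t ∧ gp t (-1) 0 (γ 0 t) (γ j t) ≤ K}.Finite) :
    ∀ᵐ t ∂(iidLaw G), ∀ x ∈ X t, ∃ j, IsSucc (X t) (lt γ t) x j :=
  D.toPField.toLField.ae_exists_succ (gap := fun t x y => gp t (-1) 0 (γ x t) (γ y t))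
    (fun x y _ => (measurableSet_le (D.measurable_gap x y (-1) 0)
      measurable_const).nullMeasurableSet)
    (fun z t x y => D.gap_cov z x y t (-1) 0) ENNReal.ofReal_ne_top (D.hcyc hG) hgood

end Sel0

end Crest.Agent.R151.F592
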