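import Crest.Agent.R151.G785a

/-!
# R151, block S1 (helper785), part b: the goodness event `GM` has large probability, covariance
-/

set_option autoImplicit false

open MeasureTheory ProbabilityTheory Set Filter
open scoped ENNReal Topology
open Crest.ProbabilityR.FirstPassage
open Crest.Agent.R151.K

namespace Crest.Agent.R151.G785

/-- increasing events that fill the space -/
theorem exists_compl_le {Ω : Type*} [MeasurableSpace Ω] (P : Measure Ω) [IsProbabilityMeasure P]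
    {E : ℕ → Set Ω} (hm : ∀ n, MeasurableSet (E n)) (hmono : Monotone E)
    (hae : ∀ᵐ ω ∂P, ∃ n, ω ∈ E n) {e : ℝ} (he : 0 < e) :
    ∃ n0, ∀ n, n0 ≤ n → P.real (E n)ᶜ ≤ e := by
  have h1 : Tendsto (fun n => P (E n)) atTop (𝓝 (P (⋃ n, E n))) :=
    tendsto_measure_iUnion_atTop hmono
  have h2 : P (⋃ n, E n) = 1 := by
    rw [prob_compl_eq_zero_iff (MeasurableSet.iUnion hm) |>.symm, measure_eq_zero_iff_ae_notMem]
    filter_upwards [hae] with ω hω h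
    exact h (mem_iUnion.2 hω)
  rw [h2] at h1
  have h3 : Tendsto (fun n => P.real (E n)) atTop (𝓝 1) := by
    have := (ENNReal.tendsto_toReal ENNReal.one_ne_top).comp h1
    simpa [Function.comp_def, Measure.real] using this
  obtain ⟨n0, hn0⟩ := (h3.eventually (lt_mem_nhds (show 1 - e < 1 by linarith))).exists_forall_of_atTop
  refine ⟨n0, fun n hn => ?_⟩
  rw [measureReal_compl (hm n)]
  have := hn0 n hn
  simp only [probReal_univ]
  linarith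

section

variable {k : ℕ} {j : ℤ} {Fp Fq Hp Hq : Environment → ℤ → ℝ} {t : Environment}

theorem exists_G1 {μ : ℝ × ℝ → ℝ} {m1 sp sq' : ℝ} (hm0 : 0 ≤ m1)
    (hm : ∀ x y : ℝ, m1 * |x| ≤ μ (x, y)) (hS : ∀ ε > 0, ∀ᶠ n : ℕ in atTop, dev μ n t ≤ ε * n)
    (hsp : -m1 < sp) (hsq : sq' < m1)
    (hp : Tendsto (fun x : ℤ => Fp t x / x) atTop (𝓝 sp))
    (hq : Tendsto (fun x : ℤ => Fq t x / x) atBot (𝓝 sq')) (C3 : ℝ) (y : ℤ) :
    ∃ D : ℕ, t ∈ G1 k D C3 j Fp Fq y := by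
  obtain ⟨D, hD⟩ := coercive (c1 := max (-sp) sq') hm0 hm (max_lt (by linarith) hsq) hS
    (k + y.natAbs + 1) j (g := fun w => sq (Fp t) (Fq t) y w)
    (fun ε hε => sq_lower hp hq (by have := le_max_left (-sp) sq'; linarith) (le_max_right _ _) hε y)
    (∑ e ∈ E39.boxE k y, t e + (2 * C3 + 10))
  refine ⟨D + y.natAbs, fun z hz1 hz2 w hw => ?_⟩
  have h1 := abs_le.1 hz1
  have h2 := abs_le.1 hz2
  have h5 := neg_abs_le y
  have h6 := le_abs_self y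
  have h7 := abs_nonneg y
  refine hD z ?_ ?_ w ?_
  · rw [abs_le]; push_cast; omega
  · rw [abs_le]; push_cast; omega
  · push_cast at hw
    have h3 := abs_sub w y
    rw [lt_abs] at hw ⊢
    rcases hw with hw | hw
    · rcases le_or_gt 0 y with h | h
      · left; rw [abs_of_nonneg h] at hw; omega
      · rw [abs_of_neg h] at hw; left; omega
    · rcases le_or_gt 0 y with h | h
      · right; rw [abs_of_nonneg h] at hw; omega
      · rw [abs_of_neg h] at hw; right; omega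

end

section law

variable {G : Measure ℝ} [IsProbabilityMeasure G]

/-- the a.s. hypotheses on the squeeze functions of one row -/
structure SqzLaw (G : Measure ℝ) (m1 : ℝ) (Fp Fq : Environment → ℤ → ℝ) : Prop where
  measp : ∀ x, Measurable fun t => Fp t x
  measq : ∀ x, Measurable fun t => Fq t x
  slopes : ∃ sp sq' : ℝ, -m1 < sp ∧ sq' < m1 ∧
    (∀ᵐ t ∂(iidLaw G), Tendsto (fun x : ℤ => Fp t x / x) atTop (𝓝 sp)) ∧
    ∀ᵐ t ∂(iidLaw G), Tendsto (fun x : ℤ => Fq t x / x) atBot (𝓝 sq')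

theorem prob_G1 {μ : ℝ × ℝ → ℝ} {m1 : ℝ} (hm0 : 0 ≤ m1) (hm : ∀ x y : ℝ, m1 * |x| ≤ μ (x, y))
    (hS : ∀ᵐ t ∂(iidLaw G), ∀ ε > 0, ∀ᶠ n : ℕ in atTop, dev μ n t ≤ ε * n) (k : ℕ) (j : ℤ)
    {Fp Fq : Environment → ℤ → ℝ} (hF : SqzLaw G m1 Fp Fq) (C3 : ℝ) (y : ℤ) {e : ℝ} (he : 0 < e) :
    ∃ D0, ∀ D, D0 ≤ D → (iidLaw G).real (G1 k D C3 j Fp Fq y)ᶜ ≤ e := by
  obtain ⟨sp, sq', h1, h2, h3, h4⟩ := hF.slopes
  refine exists_compl_le (iidLaw G) (fun D => measurableSet_G1 hF.measp hF.measq)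
    (fun D D' hD t ht => G1.mono ht hD le_rfl) ?_ he
  filter_upwards [hS, h3, h4] with t a1 a2 a3
  exact exists_G1 hm0 hm a1 h1 h2 a2 a3 C3 y

theorem prob_G2 (k : ℕ) (y : ℤ) {e : ℝ} (he : 0 < e) :
    ∃ C0 : ℝ, 0 ≤ C0 ∧ ∀ C3, C0 ≤ C3 → (iidLaw G).real (G2 k C3 y)ᶜ ≤ e := by
  obtain ⟨n0, hn0⟩ := exists_compl_le (iidLaw G) (E := fun n : ℕ => G2 k (n : ℝ) y)
    (fun n => measurableSet_G2)
    (fun n m hnm t ht => le_trans (show _ ≤ (n : ℝ) from ht) (by exact_mod_cast hnm))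
    (Eventually.of_forall fun t => by
      obtain ⟨n, hn⟩ := exists_nat_ge (∑ e ∈ E39.boxE k y, t e)
      exact ⟨n, hn⟩) he
  refine ⟨n0, Nat.cast_nonneg _, fun C3 hC => ?_⟩
  refine (measureReal_mono ?_).trans (hn0 n0 le_rfl)
  refine compl_subset_compl.2 fun t ht => ?_
  exact le_trans (show _ ≤ (n0 : ℝ) from ht) hC

/-- **the goodness event has probability close to one** -/
theorem exists_GM [NullSingletonClass G] (h0 : G (Iio 0) = 0) :
    ∃ a b c : ℝ, a < b ∧ 0 < c ∧ 0 < G.real (Iio a) ∧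
      ∀ (μ : ℝ × ℝ → ℝ) (m1 : ℝ), 0 ≤ m1 → (∀ x y : ℝ, m1 * |x| ≤ μ (x, y)) →
      (∀ᵐ t ∂(iidLaw G), ∀ ε > 0, ∀ᶠ n : ℕ in atTop, dev μ n t ≤ ε * n) →
      ∀ (k : ℕ) (Fp Fq Hp Hq : Environment → ℤ → ℝ), SqzLaw G m1 Fp Fq → SqzLaw G m1 Hp Hq →
      ∀ (y : ℤ) (e : ℝ), 0 < e → ∃ C0 : ℝ, 0 ≤ C0 ∧ ∀ C3, C0 ≤ C3 → ∃ D0, ∀ D, D0 ≤ D →
        (iidLaw G).real (GM k D C3 c b Fp Fq Hp Hq y)ᶜ ≤ (1 / 2) ^ k + e := by
  classical
  obtain ⟨a, b, c, hab, hc, ha, hB⟩ := V.exists_high (G := G) h0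
  refine ⟨a, b, c, hab, hc, ha, fun μ m1 hm0 hm hS k Fp Fq Hp Hq hF hH y e he => ?_⟩
  obtain ⟨C0, hC0, hC0'⟩ := prob_G2 (G := G) k y (show 0 < e / 3 by linarith)
  refine ⟨C0, hC0, fun C3 hC3 => ?_⟩
  obtain ⟨D1, hD1⟩ := prob_G1 hm0 hm hS k ((k : ℤ) + 1) hF C3 y (show 0 < e / 3 by linarith)
  obtain ⟨D2, hD2⟩ := prob_G1 hm0 hm hS k (-((k : ℤ) + 1)) hH C3 y (show 0 < e / 3 by linarith)
  refine ⟨max D1 D2, fun D hD => ?_⟩
  obtain ⟨B, hBm, hBp, hBh⟩ := hB k (y, 0)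
  have hsub : (GM k D C3 c b Fp Fq Hp Hq y)ᶜ ⊆
      ((G1 k D C3 ((k : ℤ) + 1) Fp Fq y)ᶜ ∪ (G1 k D C3 (-((k : ℤ) + 1)) Hp Hq y)ᶜ) ∪
        ((G2 k C3 y)ᶜ ∪ B) := by
    intro t ht
    by_contra hcon
    simp only [mem_union, mem_compl_iff, not_or, not_not] at hcon
    obtain ⟨⟨h1, h2⟩, h3, h4⟩ := hcon
    refine ht ⟨⟨⟨h1, h2⟩, h3⟩, fun v w hn hl => ?_⟩
    have := hBh t h4 v w hn hl.ge
    convert this
  refine (measureReal_mono hsub).trans ((measureReal_union_le _ _).trans ?_)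
  have a1 := measureReal_union_le (μ := iidLaw G) (G1 k D C3 ((k : ℤ) + 1) Fp Fq y)ᶜ
    (G1 k D C3 (-((k : ℤ) + 1)) Hp Hq y)ᶜ
  have a2 := measureReal_union_le (μ := iidLaw G) (G2 k C3 y)ᶜ B
  have a3 := hD1 D ((le_max_left _ _).trans hD)
  have a4 := hD2 D ((le_max_right _ _).trans hD)
  have a5 := hC0' C3 hC3
  linarith

end law

/-! ## covariance -/

lemma boxE_shift (k : ℕ) (y : ℤ) :
    (E39.boxE k 0).map ⟨A.eShift (y, 0), A.eShift_injective (y, 0)⟩ = E39.boxE k y := by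
  ext e
  rw [Finset.mem_map]
  constructor
  · rintro ⟨e', he', rfl⟩
    rw [E39.mem_boxE] at he' ⊢
    rcases he' with ⟨a, b, ⟨h1, h2, h3, h4⟩, rfl⟩ | ⟨a, b, ⟨h1, h2, h3, h4⟩, rfl⟩
    · left
      exact ⟨a + y, b, ⟨by omega, by omega, h3, h4⟩, by simp [eH]; ring_nf⟩
    · right
      exact ⟨a + y, b, ⟨by omega, by omega, h3, h4⟩, by simp [eV]⟩
  · intro he
    rw [E39.mem_boxE] at he
    rcases he with ⟨a, b, ⟨h1, h2, h3, h4⟩, rfl⟩ | ⟨a, b, ⟨h1, h2, h3, h4⟩, rfl⟩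
    · refine ⟨eH (a - y) b, ?_, by simp [eH]; ring_nf⟩
      rw [E39.mem_boxE]
      left
      exact ⟨a - y, b, ⟨by omega, by omega, h3, h4⟩, rfl⟩
    · refine ⟨eV (a - y) b, ?_, by simp [eV]⟩
      rw [E39.mem_boxE]
      right
      exact ⟨a - y, b, ⟨by omega, by omega, h3, h4⟩, rfl⟩

lemma sum_box_shift (k : ℕ) (y : ℤ) (t : Environment) :
    ∑ e ∈ E39.boxE k 0, A.shift (y, 0) t e = ∑ e ∈ E39.boxE k y, t e := by
  rw [← boxE_shift k y, Finset.sum_map]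
  rfl

/-- covariance of the increments -/
def IncCov (F : Environment → ℤ → ℝ) (y : ℤ) (t : Environment) : Prop :=
  ∀ w, F (A.shift (y, 0) t) w - F (A.shift (y, 0) t) 0 = F t (w + y) - F t y

lemma G1_shift {k D : ℕ} {C3 : ℝ} {j : ℤ} {Fp Fq : Environment → ℤ → ℝ} {y : ℤ} {t : Environment}
    (hp : IncCov Fp y t) (hq : IncCov Fq y t) :
    A.shift (y, 0) t ∈ G1 k D C3 j Fp Fq 0 ↔ t ∈ G1 k D C3 j Fp Fq y := by
  have hsq : ∀ w, sq (Fp (A.shift (y, 0) t)) (Fq (A.shift (y, 0) t)) 0 w =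
      sq (Fp t) (Fq t) y (w + y) := by
    intro w
    unfold sq
    by_cases hw : 0 < w
    · rw [if_pos hw, if_pos (by omega), hp w]
    · rw [if_neg hw, if_neg (by omega), hq w]
  constructor
  · intro h z hz1 hz2 w hw
    have h1 := h (z - (y, 0)) (by simpa using hz1) (by simpa using hz2) (w - y)
      (by simpa using hw)
    rw [sum_box_shift, A.pt_shift, hsq] at h1
    simpa using h1
  · intro h z hz1 hz2 w hw
    have h1 := h (z + (y, 0)) (by simpa using hz1) (by simpa using hz2) (w + y)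
      (by simpa using hw)
    rw [sum_box_shift, A.pt_shift, hsq]
    simpa using h1

lemma G3_shift_aux {k : ℕ} {c b : ℝ} {y z : ℤ} {t : Environment} (h : t ∈ G3 k c b (z + y)) :
    A.shift (y, 0) t ∈ G3 k c b z := by
  classical
  intro v w hn hl
  set φ : squareLattice →g squareLattice := (tr (y, 0)).toHom with hφ
  have hφi : Function.Injective (Sym2.map φ) := Sym2.map.injective (tr (y, 0)).injective
  have hst : φ (z, 0) = (z + y, 0) := by simp [hφ]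
  set w' : squareLattice.Walk (z + y, 0) (φ v) := (w.map φ).copy hst rfl with hw'
  have hed : w'.edges = w.edges.map (Sym2.map φ) := by
    rw [hw', SimpleGraph.Walk.edges_copy, SimpleGraph.Walk.edges_map]
  have h1 := h (φ v) w' (by rw [hed]; exact hn.map hφi) (by rw [hw']; simpa using hl)
  refine h1.trans (le_of_eq ?_)
  congr 1
  rw [hed]
  have h2 : (w.edges.map (Sym2.map φ)).toFinset = w.edges.toFinset.image (Sym2.map φ) := by
    ext e; simp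
  rw [h2]
  have h3 : (w.edges.toFinset.image (Sym2.map φ)).filter (fun e => b ≤ t e) =
      (w.edges.toFinset.filter fun e => b ≤ A.shift (y, 0) t e).image (Sym2.map φ) := by
    ext e
    simp only [Finset.mem_filter, Finset.mem_image]
    constructor
    · rintro ⟨⟨e', he', rfl⟩, hb⟩
      exact ⟨e', ⟨he', hb⟩, rfl⟩
    · rintro ⟨e', ⟨he', hb⟩, rfl⟩
      exact ⟨⟨e', he', rfl⟩, hb⟩
  convert congrArg Finset.card h3 using 1
  rw [Finset.card_image_of_injective _ hφi]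

lemma G3_shift {k : ℕ} {c b : ℝ} {y : ℤ} {t : Environment} :
    A.shift (y, 0) t ∈ G3 k c b 0 ↔ t ∈ G3 k c b y := by
  constructor
  · intro h
    have h1 : A.shift (y, 0) t ∈ G3 k c b (y + -y) := by simpa using h
    have h2 := G3_shift_aux h1
    rw [A.shift_shift] at h2
    have h3 : A.shift ((0 : ℤ), (0 : ℤ)) t = t := A.shift_zero t
    have h4 : ((-y, 0) : ℤ × ℤ) + (y, 0) = (0, 0) := by simp
    rw [h4, h3] at h2
    exact h2
  · intro h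
    exact G3_shift_aux (z := 0) (by simpa using h)

theorem GM_shift {k D : ℕ} {C3 c b : ℝ} {Fp Fq Hp Hq : Environment → ℤ → ℝ} {y : ℤ}
    {t : Environment} (hp : IncCov Fp y t) (hq : IncCov Fq y t) (hp' : IncCov Hp y t)
    (hq' : IncCov Hq y t) :
    A.shift (y, 0) t ∈ GM k D C3 c b Fp Fq Hp Hq 0 ↔ t ∈ GM k D C3 c b Fp Fq Hp Hq y := by
  have h2 : A.shift (y, 0) t ∈ G2 k C3 0 ↔ t ∈ G2 k C3 y := by
    show (∑ e ∈ E39.boxE k 0, A.shift (y, 0) t e ≤ C3) ↔ (∑ e ∈ E39.boxE k y, t e ≤ C3)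
    rw [sum_box_shift]
  unfold GM
  simp only [mem_inter_iff, G1_shift hp hq, G1_shift hp' hq', h2, G3_shift]

/-- at a good abscissa a near tie with ANY end points is a near tie with end points at distance
at most `D` -/
theorem GM.nt {k D : ℕ} {C3 c b : ℝ} {Fp Fq Hp Hq : Environment → ℤ → ℝ} {y : ℤ}
    {t : Environment} (ht : Nn t) (h : t ∈ GM k D C3 c b Fp Fq Hp Hq y) (hC : 0 ≤ C3)
    {a : (ℤ → ℝ) × (ℤ → ℝ)} (hf : Sqz (Fp t) (Fq t) a.1) (hh : Sqz (Hp t) (Hq t) a.2) {K : ℝ}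
    {z₀ w₀ : ℤ} (hn : ∀ z' w' : ℤ, a.2 z₀ + passageTime t (z₀, -((k : ℤ) + 1)) (y, 0) +
      passageTime t (y, 0) (w₀, (k : ℤ) + 1) + a.1 w₀ ≤ E39.Psi k a t z' w' + K) :
    E39.NT k D K a y t := by
  obtain ⟨⟨⟨h1, h2⟩, -⟩, -⟩ := h
  have hk1 : |(k : ℤ) + 1| ≤ (k : ℤ) + 1 := by rw [abs_of_nonneg (by omega)]
  have hk2 : |-((k : ℤ) + 1)| ≤ (k : ℤ) + 1 := by rw [abs_neg]; exact hk1
  have h0 : |((y, 0) : ℤ × ℤ).1 - y| ≤ (k : ℤ) := by simp
  have h0' : |((y, 0) : ℤ × ℤ).2| ≤ (k : ℤ) + 1 := by simp; omega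
  obtain ⟨w, hw, hwm⟩ := G1.exists_min ht h1 hC hk1 hf h0 h0'
  obtain ⟨z, hz, hzm⟩ := G1.exists_min ht h2 hC hk2 hh h0 h0'
  refine ⟨z, w, hz, hw, fun z' w' => ?_⟩
  have e1 := hn z' w'
  have e2 := hwm w₀
  have e3 := hzm z₀
  rw [pt_symm ht (y, 0) (z, _), pt_symm ht (y, 0) (z₀, _)] at e3
  linarith

end Crest.Agent.R151.G785
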