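import Crest.Agent.R151.A565a

/-!
# R151, block N (helper792): the hard wall

`AStar` (free search, proved by helper565) implies the hard wall: in a tilted box of half-height `b`
and arbitrary length, with high probability no crossing has energy `< a |lateral| - η b`.
-/

set_option autoImplicit false

open MeasureTheory ProbabilityTheory Filter Topology
open Crest.ProbabilityR.FirstPassage
open scoped ENNReal

namespace Crest.Agent.R151.N

open Crest.Agent.R151.A

/-- the free search inequality (helper565's block (1)) for the functional `(x, y) ↦ p x + q y`: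
a selection of an entrance height `i ≥ 0`, an exit height `j` and a crossing of the half-open slab
`[0, n)` from `(0, i)` to `(n, j)` with cost at most `c`, everything measurable with respect to the
slab, has mean energy at least `- ε W - C E[i; i > W]`, uniformly in `n`. -/
def AStar (G : Measure ℝ) (p q C : ℝ) : Prop :=
  ∀ ε : ℝ, 0 < ε → ∃ W0 : ℝ, ∀ n : ℤ, 1 ≤ n → ∀ W : ℝ, W0 ≤ W →
    ∀ (i j : Environment → ℤ) (c : Environment → ℝ),
      Measurable i → Measurable j → Measurable c →
      DependsOn i (block 0 n) → DependsOn j (block 0 n) → DependsOn c (block 0 n) →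
      Integrable (fun t => (i t : ℝ)) (iidLaw G) → Integrable (fun t => (j t : ℝ)) (iidLaw G) →
      Integrable c (iidLaw G) →
      (∀ᵐ t ∂(iidLaw G), 0 ≤ i t) →
      (∀ᵐ t ∂(iidLaw G), ∃ w : squareLattice.Walk (0, i t) (n, j t),
        (∀ e ∈ w.edges, e ∈ block 0 n) ∧ walkCost t w ≤ c t) →
      -(ε * W) - C * ∫ t, (if W < (i t : ℝ) then (i t : ℝ) else 0) ∂(iidLaw G) ≤
        ∫ t, (c t - (p * n + q * ((j t : ℝ) - (i t : ℝ)))) ∂(iidLaw G)

/-! ### first success -/

/-- measurable choice of the first index of a sequence of events -/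
lemma exists_first {S : Set (Sym2 (ℤ × ℤ))} (B : ℕ → Set Environment)
    (hB : ∀ k, MeasurableSet (B k)) (hS : ∀ k, DependsOn (fun t => t ∈ B k) S) :
    ∃ N : Environment → ℕ, Measurable N ∧ DependsOn N S ∧
      (∀ t, (∃ k, t ∈ B k) → t ∈ B (N t)) ∧ ∀ t, ∀ k < N t, t ∉ B k := by
  classical
  have hp : ∀ t : Environment, ∃ k, (t ∈ B k ∨ ∀ l, t ∉ B l) := by
    intro t
    by_cases h : ∃ k, t ∈ B k
    · obtain ⟨k, hk⟩ := h
      exact ⟨k, Or.inl hk⟩
    · push Not at h
      exact ⟨0, Or.inr h⟩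
  refine ⟨fun t => Nat.find (hp t), ?_, ?_, ?_, ?_⟩
  · refine measurable_find hp fun k => ?_
    have : {t | t ∈ B k ∨ ∀ l, t ∉ B l} = B k ∪ ⋂ l, (B l)ᶜ := by
      ext t; simp
    rw [this]
    exact (hB k).union (MeasurableSet.iInter fun l => (hB l).compl)
  · intro t t' htt
    have h1 : ∀ k, (t ∈ B k) = (t' ∈ B k) := fun k => hS k htt
    simp only [h1]
  · rintro t ⟨k, hk⟩
    rcases Nat.find_spec (hp t) with h | h
    · exact h
    · exact absurd hk (h k)
  · intro t k hk
    have := Nat.find_min (hp t) hk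
    push Not at this
    exact this.1

/-- translates of an event are unlikely to fail many times -/
lemma measure_fail (G : Measure ℝ) [IsProbabilityMeasure G] {S : Set (Sym2 (ℤ × ℤ))}
    {B : Set Environment} (hB : MeasurableSet B) (hS : DependsOn (fun t => t ∈ B) S)
    (v : ℕ → ℤ × ℤ)
    (hv : ∀ k l, k ≠ l → ∀ e ∈ S, ∀ e' ∈ S, eShift (v k) e ≠ eShift (v l) e') (m : ℕ) :
    iidLaw G {t | ∀ k < m, shift (v k) t ∉ B} = (iidLaw G Bᶜ) ^ m := by
  induction m with
  | zero => simp
  | succ m ih =>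
    have hmeas : ∀ m : ℕ, MeasurableSet {t : Environment | ∀ k < m, shift (v k) t ∉ B} := by
      intro m
      have : {t : Environment | ∀ k < m, shift (v k) t ∉ B} =
          ⋂ k ∈ Finset.range m, (shift (v k) ⁻¹' B)ᶜ := by
        ext t; simp
      rw [this]
      exact Finset.measurableSet_biInter _ fun k _ => (measurable_shift _ hB).compl
    have hm2 : MeasurableSet {t : Environment | shift (v m) t ∉ B} :=
      (measurable_shift (v m) hB).compl
    have hd1 : DependsOn (fun t => ∀ k < m, shift (v k) t ∉ B)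
        (⋃ k ∈ Set.Iio m, eShift (v k) '' S) := by
      intro t t' htt
      have : ∀ k < m, (shift (v k) t ∈ B) = (shift (v k) t' ∈ B) := by
        intro k hk
        refine hS fun e he => htt _ ?_
        simp only [Set.mem_Iio, Set.mem_iUnion]
        exact ⟨k, hk, e, he, rfl⟩
      simp only [eq_iff_iff]
      constructor
      · intro h k hk; rw [← this k hk]; exact h k hk
      · intro h k hk; rw [this k hk]; exact h k hk
    have hd2 : DependsOn (fun t => shift (v m) t ∉ B) (eShift (v m) '' S) := by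
      intro t t' htt
      have : (shift (v m) t ∈ B) = (shift (v m) t' ∈ B) :=
        hS fun e he => htt _ ⟨e, he, rfl⟩
      simp only [this]
    have hdisj : Disjoint (⋃ k ∈ Set.Iio m, eShift (v k) '' S) (eShift (v m) '' S) := by
      rw [Set.disjoint_left]
      intro e he he'
      simp only [Set.mem_Iio, Set.mem_iUnion] at he
      obtain ⟨k, hk, e1, he1, rfl⟩ := he
      obtain ⟨e2, he2, h⟩ := he'
      exact hv k m hk.ne e1 he1 e2 he2 h.symm
    have hind := indepFun_of_dependsOn G (f := fun t => ∀ k < m, shift (v k) t ∉ B)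
      (g := fun t => shift (v m) t ∉ B) (measurableSet_setOfPred.1 (hmeas m))
      (measurableSet_setOfPred.1 hm2) hd1 hd2 hdisj
    have h3 := hind.measure_inter_preimage_eq_mul {True} {True} (MeasurableSet.singleton _)
      (MeasurableSet.singleton _)
    have e1 : (fun t : Environment => ∀ k < m, shift (v k) t ∉ B) ⁻¹' {True} =
        {t | ∀ k < m, shift (v k) t ∉ B} := by
      ext t; simp
    have e2 : (fun t : Environment => shift (v m) t ∉ B) ⁻¹' {True} =
        shift (v m) ⁻¹' Bᶜ := by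
      ext t; simp
    have e3 : {t : Environment | ∀ k < m + 1, shift (v k) t ∉ B} =
        {t | ∀ k < m, shift (v k) t ∉ B} ∩ shift (v m) ⁻¹' Bᶜ := by
      ext t
      simp only [Set.mem_ofPred_eq, Set.mem_inter_iff, Set.mem_preimage, Set.mem_compl_iff]
      constructor
      · intro h
        exact ⟨fun k hk => h k (hk.trans (Nat.lt_succ_self m)), h m (Nat.lt_succ_self m)⟩
      · rintro ⟨h1, h2⟩ k hk
        rcases Nat.lt_succ_iff_lt_or_eq.1 hk with h | h
        · exact h1 k h
        · subst h; exact h2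
    rw [e1, e2, ih] at h3
    rw [e3, h3, (mp_shift G (v m)).measure_preimage hB.compl.nullMeasurableSet, pow_succ]

/-! ### geometric tails -/

/-- a bound for the second moment of a random index with geometric tail -/
noncomputable def M2 (e : ℝ) : ℝ := ∑' m : ℕ, ((m : ℝ) + 1) ^ 2 * (1 - e) ^ m

lemma summable_M2 {e : ℝ} (h0 : 0 < e) (h1 : e ≤ 1) :
    Summable (fun m : ℕ => ((m : ℝ) + 1) ^ 2 * (1 - e) ^ m) := by
  have hr : ‖(1 - e : ℝ)‖ < 1 := by
    rw [Real.norm_eq_abs, abs_lt]
    constructor <;> linarith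
  have h2 := summable_pow_mul_geometric_of_norm_lt_one 2 hr
  have h3 := summable_pow_mul_geometric_of_norm_lt_one 1 hr
  have h4 := summable_pow_mul_geometric_of_norm_lt_one 0 hr
  have := (h2.add (h3.mul_left 2)).add h4
  refine this.congr fun m => ?_
  ring

lemma M2_nonneg {e : ℝ} (h1 : e ≤ 1) : 0 ≤ M2 e := by
  refine tsum_nonneg fun m => ?_
  have : (0 : ℝ) ≤ 1 - e := by linarith
  positivity

lemma lintegral_sq_le {Ω : Type*} [MeasurableSpace Ω] (P : Measure Ω) {N : Ω → ℕ}
    (hN : Measurable N) {e : ℝ} (h0 : 0 < e) (h1 : e ≤ 1)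
    (htail : ∀ m : ℕ, P {t | m ≤ N t} ≤ ENNReal.ofReal ((1 - e) ^ m)) :
    ∫⁻ t, ENNReal.ofReal (((N t : ℝ) + 1) ^ 2) ∂P ≤ ENNReal.ofReal (M2 e) := by
  have h2 : ∫⁻ t, ENNReal.ofReal (((N t : ℝ) + 1) ^ 2) ∂P =
      ∫⁻ m : ℕ, ENNReal.ofReal (((m : ℝ) + 1) ^ 2) ∂(P.map N) := by
    rw [lintegral_map (measurable_of_countable _) hN]
  rw [h2, lintegral_countable']
  rw [M2, ENNReal.ofReal_tsum_of_nonneg _ (summable_M2 h0 h1)]
  · refine ENNReal.tsum_le_tsum fun m => ?_
    rw [ENNReal.ofReal_mul (by positivity)]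
    gcongr
    rw [Measure.map_apply hN (measurableSet_singleton m)]
    refine (measure_mono ?_).trans (htail m)
    intro t ht
    simp only [Set.mem_preimage, Set.mem_singleton_iff] at ht
    simp [ht]
  · intro m
    have : (0 : ℝ) ≤ 1 - e := by linarith
    positivity

lemma integrable_sq {Ω : Type*} [MeasurableSpace Ω] (P : Measure Ω) {N : Ω → ℕ}
    (hN : Measurable N) {e : ℝ} (h0 : 0 < e) (h1 : e ≤ 1)
    (htail : ∀ m : ℕ, P {t | m ≤ N t} ≤ ENNReal.ofReal ((1 - e) ^ m)) :
    Integrable (fun t => ((N t : ℝ) + 1) ^ 2) P ∧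
      ∫ t, ((N t : ℝ) + 1) ^ 2 ∂P ≤ M2 e := by
  have hm : Measurable (fun t => ((N t : ℝ) + 1) ^ 2) :=
    (measurable_of_countable (fun m : ℕ => ((m : ℝ) + 1) ^ 2)).comp hN
  have h2 := lintegral_sq_le P hN h0 h1 htail
  have hi : Integrable (fun t => ((N t : ℝ) + 1) ^ 2) P := by
    refine ⟨hm.aestronglyMeasurable, ?_⟩
    rw [hasFiniteIntegral_iff_ofReal (Eventually.of_forall fun t => by positivity)]
    exact h2.trans_lt ENNReal.ofReal_lt_top
  refine ⟨hi, ?_⟩
  rw [integral_eq_lintegral_of_nonneg_ae (Eventually.of_forall fun t => by positivity)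
    hm.aestronglyMeasurable]
  refine ENNReal.toReal_le_of_le_ofReal (M2_nonneg h1) h2

/-! ### walks, tubes -/

/-- pairs inside the tilted strip `|y - s x - u| ≤ b` -/
def tube (s u b : ℝ) : Set (Sym2 (ℤ × ℤ)) := {e | ∀ z ∈ e, |(z.2 : ℝ) - s * z.1 - u| ≤ b}

lemma measurable_walkCost {x y : ℤ × ℤ} (w : squareLattice.Walk x y) :
    Measurable (fun t : Environment => walkCost t w) := by
  unfold walkCost
  generalize w.edges = l
  induction l with
  | nil => simp
  | cons a l ih =>
    simp only [List.map_cons, List.sum_cons]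
    exact (measurable_pi_apply a).add ih

lemma walkCost_congr {S : Set (Sym2 (ℤ × ℤ))} {x y : ℤ × ℤ} (w : squareLattice.Walk x y)
    (h : ∀ e ∈ w.edges, e ∈ S) {t t' : Environment} (htt : ∀ e ∈ S, t e = t' e) :
    walkCost t w = walkCost t' w := by
  unfold walkCost
  congr 1
  exact List.map_congr_left fun e he => htt e (h e he)

instance countable_walk (x y : ℤ × ℤ) : Countable (squareLattice.Walk x y) :=
  Function.Injective.countable (f := fun p : squareLattice.Walk x y => p.support)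
    fun _ _ h => SimpleGraph.Walk.ext_support h

/-- there is a cheap walk inside `S` -/
def bad1 (S : Set (Sym2 (ℤ × ℤ))) (x y : ℤ × ℤ) (r : ℝ) : Set Environment :=
  {t | ∃ w : squareLattice.Walk x y, (∀ e ∈ w.edges, e ∈ S) ∧ walkCost t w < r}

lemma measurableSet_bad1 (S : Set (Sym2 (ℤ × ℤ))) (x y : ℤ × ℤ) (r : ℝ) :
    MeasurableSet (bad1 S x y r) := by
  have : bad1 S x y r = ⋃ w : squareLattice.Walk x y, ⋃ _ : (∀ e ∈ w.edges, e ∈ S),
      {t | walkCost t w < r} := by
    ext t; simp [bad1]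
  rw [this]
  exact MeasurableSet.iUnion fun w => MeasurableSet.iUnion fun _ =>
    measurableSet_lt (measurable_walkCost w) measurable_const

lemma dependsOn_bad1 (S : Set (Sym2 (ℤ × ℤ))) (x y : ℤ × ℤ) (r : ℝ) :
    DependsOn (fun t => t ∈ bad1 S x y r) S := by
  intro t t' htt
  simp only [bad1, Set.mem_ofPred_eq, eq_iff_iff]
  constructor
  · rintro ⟨w, h1, h2⟩
    exact ⟨w, h1, by rwa [← walkCost_congr w h1 fun e he => htt e he]⟩
  · rintro ⟨w, h1, h2⟩
    exact ⟨w, h1, by rwa [walkCost_congr w h1 fun e he => htt e he]⟩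

/-- translations are graph homomorphisms -/
def trHom (v : ℤ × ℤ) : squareLattice →g squareLattice where
  toFun := fun x => x + v
  map_rel' := by
    intro a b h
    simp only [squareLattice, SimpleGraph.fromRel_adj] at h ⊢
    refine ⟨fun hh => h.1 (add_right_cancel hh), ?_⟩
    rcases h.2 with (⟨h1, h2⟩ | ⟨h1, h2⟩) | (⟨h1, h2⟩ | ⟨h1, h2⟩)
    · exact Or.inl (Or.inl ⟨by simp [h1], by simp [h2]; ring⟩)
    · exact Or.inl (Or.inr ⟨by simp [h1], by simp [h2]; ring⟩)
    · exact Or.inr (Or.inl ⟨by simp [h1], by simp [h2]; ring⟩)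
    · exact Or.inr (Or.inr ⟨by simp [h1], by simp [h2]; ring⟩)

lemma walkCost_map (v : ℤ × ℤ) (t : Environment) {x y : ℤ × ℤ} (w : squareLattice.Walk x y) :
    walkCost t (w.map (trHom v)) = walkCost (shift v t) w := by
  simp only [walkCost, SimpleGraph.Walk.edges_map, List.map_map]
  rfl

lemma edges_map_mem {S T : Set (Sym2 (ℤ × ℤ))} {x y v : ℤ × ℤ} {w : squareLattice.Walk x y}
    (h : ∀ e ∈ w.edges, e ∈ S) (hST : ∀ e ∈ S, eShift v e ∈ T) :
    ∀ e ∈ (w.map (trHom v)).edges, e ∈ T := by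
  intro e he
  rw [SimpleGraph.Walk.edges_map, List.mem_map] at he
  obtain ⟨e', he', rfl⟩ := he
  exact hST e' (h e' he')

lemma exists_shifted {S T : Set (Sym2 (ℤ × ℤ))} {x y x' y' v : ℤ × ℤ}
    {w : squareLattice.Walk x y} (h : ∀ e ∈ w.edges, e ∈ S) (hST : ∀ e ∈ S, eShift v e ∈ T)
    (hx : x + v = x') (hy : y + v = y') (t : Environment) :
    ∃ w' : squareLattice.Walk x' y', (∀ e ∈ w'.edges, e ∈ T) ∧
      walkCost t w' = walkCost (shift v t) w := by
  subst hx hy
  exact ⟨w.map (trHom v), edges_map_mem h hST, walkCost_map v t w⟩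

lemma mem_eShift {v z : ℤ × ℤ} {e : Sym2 (ℤ × ℤ)} (hz : z ∈ eShift v e) : z - v ∈ e := by
  unfold eShift at hz
  rw [Sym2.mem_map] at hz
  obtain ⟨a, ha, rfl⟩ := hz
  simpa using ha

lemma mem_eShift' {v z : ℤ × ℤ} {e : Sym2 (ℤ × ℤ)} (hz : z ∈ e) : z + v ∈ eShift v e := by
  unfold eShift
  rw [Sym2.mem_map]
  exact ⟨z, hz, rfl⟩

lemma tube_disjoint {s b : ℝ} {a a' : ℤ} (h : 2 * b < |(a : ℝ) - a'|) :
    ∀ e ∈ tube s 0 b, ∀ e' ∈ tube s 0 b, eShift (0, a) e ≠ eShift (0, a') e' := by
  intro e he e' he' heq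
  obtain ⟨z, hz⟩ : ∃ z, z ∈ e := by
    induction e with | _ x y => exact ⟨x, Sym2.mem_mk_left x y⟩
  have h1 : z + (0, a) - (0, a') ∈ e' := by
    refine mem_eShift ?_
    rw [← heq]
    exact mem_eShift' hz
  have h2 := he z hz
  have h3 := he' _ h1
  simp only [Prod.fst_sub, Prod.fst_add, Prod.snd_sub, Prod.snd_add, add_zero, sub_zero] at h2 h3
  push_cast at h3
  rw [abs_le] at h2 h3
  rcases lt_abs.1 h with h4 | h4 <;> linarith [h2.1, h2.2, h3.1, h3.2]

/-- a non-trivial walk has its end points in its edges -/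
lemma exists_edge_left {x y : ℤ × ℤ} (w : squareLattice.Walk x y) (h : x ≠ y) :
    ∃ e ∈ w.edges, x ∈ e := by
  cases w with
  | nil => exact absurd rfl h
  | @cons _ v _ hadj p =>
    exact ⟨s(x, v), by simp [SimpleGraph.Walk.edges_cons], Sym2.mem_mk_left _ _⟩

lemma exists_edge_right {x y : ℤ × ℤ} (w : squareLattice.Walk x y) (h : x ≠ y) :
    ∃ e ∈ w.edges, y ∈ e := by
  obtain ⟨e, he, hx⟩ := exists_edge_left w.reverse h.symm
  rw [SimpleGraph.Walk.edges_reverse, List.mem_reverse] at he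
  exact ⟨e, he, hx⟩

/-! ### the hard wall, one side -/

/-- the bad event of the wall: a cheap crossing of the tilted box -/
def badUp (p q s u b r : ℝ) (n : ℤ) : Set Environment :=
  {t | ∃ (i j : ℤ) (w : squareLattice.Walk (0, i) (n, j)),
    (∀ e ∈ w.edges, e ∈ block 0 n ∩ tube s u b) ∧
      walkCost t w < p * n + q * ((j : ℝ) - i) - r}

set_option maxHeartbeats 800000 in
theorem wall_up_zero (G : Measure ℝ) [IsProbabilityMeasure G] {p q C s : ℝ} (h : AStar G p q C)
    {η : ℝ} (hη : 0 < η) {e : ℝ} (he : 0 < e) :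
    ∃ b0 : ℝ, ∀ b : ℝ, b0 ≤ b → ∀ n : ℤ, 1 ≤ n →
      iidLaw G (badUp p q s 0 b (η * b) n) ≤ ENNReal.ofReal e := by
  wlog he1 : e ≤ 1 generalizing e with H
  · obtain ⟨b0, hb0⟩ := H one_pos le_rfl
    refine ⟨b0, fun b hb n hn => (hb0 b hb n hn).trans (ENNReal.ofReal_le_ofReal ?_)⟩
    linarith [not_le.1 he1]
  -- constants
  set C' := |C| with hC'
  have hC'0 : 0 ≤ C' := abs_nonneg C
  have hM0 := M2_nonneg he1
  set K : ℝ := 24 * C' * M2 e / η + 1 with hK
  have hK1 : 1 ≤ K := by
    have : 0 ≤ 24 * C' * M2 e / η := by positivity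
    linarith
  have hK0 : 0 < K := by linarith
  set ε : ℝ := η / (24 * K) with hε
  have hε0 : 0 < ε := by positivity
  obtain ⟨W0, hW0⟩ := h ε hε0
  refine ⟨max 1 W0, fun b hb n hn => ?_⟩
  have hb1 : 1 ≤ b := (le_max_left _ _).trans hb
  have hbW : W0 ≤ b := (le_max_right _ _).trans hb
  by_contra hcon
  rw [not_le] at hcon
  -- the step of the stack
  set b' : ℤ := ⌈b⌉ + 1 with hb'
  have hb'1 : b + 1 ≤ (b' : ℝ) := by
    rw [hb']; push_cast; linarith [Int.le_ceil b]
  have hb'2 : (b' : ℝ) ≤ 3 * b := by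
    rw [hb']; push_cast; linarith [Int.ceil_lt_add_one b]
  set W : ℝ := 2 * b' * K with hW
  have hb'0 : (0 : ℝ) < b' := by linarith
  have hWpos : 0 < W := by positivity
  have hWW0 : W0 ≤ W := by
    have : (b' : ℝ) * 1 ≤ b' * K := by gcongr
    have h2 : W = b' * K + b' * K := by rw [hW]; ring
    linarith
  -- the box and the bad event
  set S : Set (Sym2 (ℤ × ℤ)) := block 0 n ∩ tube s 0 b with hS
  obtain ⟨φ⟩ : Nonempty (ℕ ≃ ℤ × ℤ) := ⟨(Denumerable.eqv (ℤ × ℤ)).symm⟩
  let E : ℕ → Set Environment := fun m =>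
    bad1 S (0, (φ m).1) (n, (φ m).2) (p * n + q * (((φ m).2 : ℝ) - (φ m).1) - η * b)
  have hEm : ∀ m, MeasurableSet (E m) := fun m => measurableSet_bad1 _ _ _ _
  have hEd : ∀ m, DependsOn (fun t => t ∈ E m) S := fun m => dependsOn_bad1 _ _ _ _
  set B : Set Environment := badUp p q s 0 b (η * b) n with hB
  have hBE : ∀ t, t ∈ B ↔ ∃ m, t ∈ E m := by
    intro t
    constructor
    · rintro ⟨i, j, w, h1, h2⟩
      refine ⟨φ.symm (i, j), ?_⟩
      simp only [E, Equiv.apply_symm_apply]
      exact ⟨w, h1, h2⟩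
    · rintro ⟨m, w, h1, h2⟩
      exact ⟨_, _, w, h1, h2⟩
  have hBm : MeasurableSet B := by
    have : B = ⋃ m, E m := by ext t; simp [hBE]
    rw [this]; exact MeasurableSet.iUnion hEm
  have hBd : DependsOn (fun t => t ∈ B) S := by
    intro t t' htt
    simp only [hBE]
    have : ∀ m, (t ∈ E m) = (t' ∈ E m) := fun m => hEd m htt
    simp only [this]
  obtain ⟨M, hMm, hMd, hM, -⟩ := exists_first E hEm hEd
  -- endpoints are in the box
  have hends : ∀ t ∈ B, |((φ (M t)).1 : ℝ)| ≤ b ∧ |((φ (M t)).2 : ℝ) - s * n| ≤ b := by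
    intro t ht
    obtain ⟨w, h1, h2⟩ := hM t ((hBE t).1 ht)
    have hne : ((0 : ℤ), (φ (M t)).1) ≠ (n, (φ (M t)).2) := by
      intro h
      have := congrArg Prod.fst h
      simp only at this
      omega
    obtain ⟨e1, he1, hx⟩ := exists_edge_left w hne
    obtain ⟨e2, he2, hy⟩ := exists_edge_right w hne
    constructor
    · simpa using (h1 e1 he1).2 _ hx
    · simpa using (h1 e2 he2).2 _ hy
  -- heights of the stacked boxes
  let hh : ℕ → ℤ := fun k => b' * (2 * k + 1)
  let v : ℕ → ℤ × ℤ := fun k => (0, hh k)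
  have hv : ∀ k l, k ≠ l → ∀ e ∈ S, ∀ e' ∈ S, eShift (v k) e ≠ eShift (v l) e' := by
    intro k l hkl e1 he1 e2 he2
    refine tube_disjoint ?_ e1 he1.2 e2 he2.2
    have h3 : ((hh k : ℤ) : ℝ) - hh l = 2 * b' * ((k : ℝ) - l) := by
      simp only [hh]; push_cast; ring
    have h4 : (1 : ℝ) ≤ |(k : ℝ) - l| := by
      have : (1 : ℤ) ≤ |(k : ℤ) - l| := Int.one_le_abs (by omega)
      exact_mod_cast this
    rw [h3, abs_mul, abs_of_pos (by positivity : (0 : ℝ) < 2 * b')]
    nlinarith
  have hSb : ∀ k, ∀ e ∈ S, eShift (v k) e ∈ block 0 n := by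
    intro k e he
    have := he.1
    simp only [block, Set.mem_ofPred_eq, eX_eShift, v, add_zero] at this ⊢
    exact this
  have hBkd : ∀ k, DependsOn (fun t => t ∈ shift (v k) ⁻¹' B) (block 0 n) := by
    intro k t t' htt
    exact hBd fun e he => htt _ (hSb k e he)
  obtain ⟨N, hNm, hNd, hN, hNmin⟩ := exists_first (fun k => shift (v k) ⁻¹' B)
    (fun k => measurable_shift _ hBm) hBkd
  -- tails
  have hpc : iidLaw G Bᶜ ≤ ENNReal.ofReal (1 - e) := by
    rw [prob_compl_eq_one_sub hBm, ENNReal.ofReal_sub _ he.le, ENNReal.ofReal_one]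
    exact tsub_le_tsub_left hcon.le _
  have hfail : ∀ m : ℕ, iidLaw G {t | ∀ k < m, shift (v k) t ∉ B} ≤
      ENNReal.ofReal ((1 - e) ^ m) := by
    intro m
    rw [measure_fail G hBm hBd v hv m, ENNReal.ofReal_pow (by linarith)]
    gcongr
  have htail : ∀ m : ℕ, iidLaw G {t | m ≤ N t} ≤ ENNReal.ofReal ((1 - e) ^ m) := by
    intro m
    refine (measure_mono ?_).trans (hfail m)
    intro t ht k hk
    exact hNmin t k (lt_of_lt_of_le hk ht)
  have hae : ∀ᵐ t ∂(iidLaw G), shift (v (N t)) t ∈ B := by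
    have h0 : iidLaw G {t | ∀ k, shift (v k) t ∉ B} = 0 := by
      have h1 : ∀ m : ℕ, iidLaw G {t | ∀ k, shift (v k) t ∉ B} ≤
          ENNReal.ofReal ((1 - e) ^ m) := by
        intro m
        refine (measure_mono ?_).trans (hfail m)
        intro t ht k _
        exact ht k
      have h2 : Tendsto (fun m : ℕ => ENNReal.ofReal ((1 - e) ^ m)) atTop (𝓝 0) := by
        rw [← ENNReal.ofReal_zero]
        exact ENNReal.tendsto_ofReal
          (tendsto_pow_atTop_nhds_zero_of_lt_one (by linarith) (by linarith))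
      exact le_antisymm (ge_of_tendsto' h2 h1) bot_le
    have h3 : ∀ᵐ t ∂(iidLaw G), ¬ ∀ k, shift (v k) t ∉ B := by
      rw [ae_iff]; simpa using h0
    filter_upwards [h3] with t ht
    push Not at ht
    exact hN t ht
  -- the selection
  let sel : Environment → ℤ × ℤ := fun t => φ (M (shift (v (N t)) t))
  have hselm : Measurable (fun t => (N t, M (shift (v (N t)) t))) := by
    refine hNm.prodMk ?_
    have h1 : Measurable (fun x : ℕ × Environment => M (shift (v x.1) x.2)) :=
      measurable_from_prod_countable_right fun k => hMm.comp (measurable_shift (v k))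
    exact h1.comp (hNm.prodMk measurable_id)
  have hseld : DependsOn (fun t => (N t, M (shift (v (N t)) t))) (block 0 n) := by
    intro t t' htt
    have h1 : N t = N t' := hNd htt
    have h2 : M (shift (v (N t)) t) = M (shift (v (N t')) t') := by
      rw [← h1]
      exact hMd fun e he => htt _ (hSb _ e he)
    exact Prod.ext h1 h2
  let i : Environment → ℤ := fun t => (sel t).1 + hh (N t)
  let j : Environment → ℤ := fun t => (sel t).2 + hh (N t)
  let c : Environment → ℝ := fun t => p * n + q * (((sel t).2 : ℝ) - (sel t).1) - η * b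
  have him : Measurable i := by
    have h1 : Measurable (fun x : ℕ × ℕ => (φ x.2).1 + hh x.1) := measurable_of_countable _
    exact h1.comp hselm
  have hjm : Measurable j := by
    have h1 : Measurable (fun x : ℕ × ℕ => (φ x.2).2 + hh x.1) := measurable_of_countable _
    exact h1.comp hselm
  have hcm : Measurable c := by
    have h1 : Measurable (fun x : ℕ × ℕ =>
      p * n + q * (((φ x.2).2 : ℝ) - (φ x.2).1) - η * b) := measurable_of_countable _
    have h2 := h1.comp hselm
    exact h2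
  have hid : DependsOn i (block 0 n) := fun t t' htt =>
    congrArg (fun x : ℕ × ℕ => (φ x.2).1 + hh x.1) (hseld htt)
  have hjd : DependsOn j (block 0 n) := fun t t' htt =>
    congrArg (fun x : ℕ × ℕ => (φ x.2).2 + hh x.1) (hseld htt)
  have hcd : DependsOn c (block 0 n) := fun t t' htt =>
    congrArg (fun x : ℕ × ℕ => p * n + q * (((φ x.2).2 : ℝ) - (φ x.2).1) - η * b) (hseld htt)
  obtain ⟨hsqi, hsq⟩ := integrable_sq (iidLaw G) hNm he he1 htail
  have hib : ∀ᵐ t ∂(iidLaw G), 0 ≤ (i t : ℝ) ∧ (i t : ℝ) ≤ 2 * b' * ((N t : ℝ) + 1) := by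
    filter_upwards [hae] with t ht
    have h1 := (hends _ ht).1
    rw [abs_le] at h1
    simp only [i, sel, hh]
    push_cast
    have h2 : (0 : ℝ) ≤ N t := Nat.cast_nonneg _
    constructor
    · nlinarith [h1.1, mul_nonneg hb'0.le h2]
    · nlinarith [h1.2, mul_nonneg hb'0.le h2]
  have hii : Integrable (fun t => (i t : ℝ)) (iidLaw G) := by
    refine Integrable.mono' (hsqi.const_mul (2 * (b' : ℝ)))
      ((measurable_of_countable (fun k : ℤ => (k : ℝ))).comp him).aestronglyMeasurable ?_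
    filter_upwards [hib] with t ht
    rw [Real.norm_eq_abs, abs_of_nonneg ht.1]
    refine ht.2.trans ?_
    have h2 : (0 : ℝ) ≤ N t := Nat.cast_nonneg _
    gcongr
    nlinarith
  have hdiff : ∀ t, ((j t : ℝ) - i t) = ((sel t).2 : ℝ) - (sel t).1 := by
    intro t; simp only [i, j]; push_cast; ring
  have hdb : ∀ᵐ t ∂(iidLaw G), |((sel t).2 : ℝ) - (sel t).1| ≤ 2 * b + |s * n| := by
    filter_upwards [hae] with t ht
    have h1 := hends _ ht
    have h3 : ((sel t).2 : ℝ) - (sel t).1 = (((sel t).2 : ℝ) - s * n) - (sel t).1 + s * n := by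
      ring
    rw [h3]
    refine (abs_add_le _ _).trans ?_
    refine add_le_add ((abs_sub _ _).trans ?_) le_rfl
    simp only [sel]
    linarith [h1.1, h1.2]
  have hdm : Measurable (fun t => ((sel t).2 : ℝ) - (sel t).1) := by
    have h1 : Measurable (fun x : ℕ × ℕ => ((φ x.2).2 : ℝ) - (φ x.2).1) :=
      measurable_of_countable _
    exact h1.comp hselm
  have hdi : Integrable (fun t => ((sel t).2 : ℝ) - (sel t).1) (iidLaw G) :=
    Integrable.mono' (integrable_const (2 * b + |s * n|)) hdm.aestronglyMeasurable hdb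
  have hji : Integrable (fun t => (j t : ℝ)) (iidLaw G) := by
    have : (fun t => (j t : ℝ)) = fun t => (((sel t).2 : ℝ) - (sel t).1) + i t := by
      funext t; rw [← hdiff]; ring
    rw [this]; exact hdi.add hii
  have hci : Integrable c (iidLaw G) :=
    (((integrable_const (p * n)).add (hdi.const_mul q)).sub (integrable_const (η * b)))
  have hi0 : ∀ᵐ t ∂(iidLaw G), 0 ≤ i t := by
    filter_upwards [hib] with t ht
    exact_mod_cast ht.1
  have hwalk : ∀ᵐ t ∂(iidLaw G), ∃ w : squareLattice.Walk (0, i t) (n, j t),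
      (∀ e ∈ w.edges, e ∈ block 0 n) ∧ walkCost t w ≤ c t := by
    filter_upwards [hae] with t ht
    obtain ⟨w, h1, h2⟩ := hM _ ((hBE _).1 ht)
    obtain ⟨w', hw1, hw2⟩ := exists_shifted (x' := (0, i t)) (y' := (n, j t)) h1 (hSb (N t))
      (by simp [v, i, sel]) (by simp [v, j, sel]) t
    exact ⟨w', hw1, by rw [hw2]; exact h2.le⟩
  have key := hW0 n hn W hWW0 i j c him hjm hcm hid hjd hcd hii hji hci hi0 hwalk
  -- evaluate both sides
  have hrhs : ∫ t, (c t - (p * n + q * ((j t : ℝ) - (i t : ℝ)))) ∂(iidLaw G) = -(η * b) := by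
    have : ∀ t, c t - (p * n + q * ((j t : ℝ) - (i t : ℝ))) = -(η * b) := by
      intro t; rw [hdiff]; simp only [c]; ring
    simp only [this]
    simp
  have hlhs0 : 0 ≤ ∫ t, (if W < (i t : ℝ) then (i t : ℝ) else 0) ∂(iidLaw G) := by
    refine integral_nonneg_of_ae ?_
    filter_upwards [hib] with t ht
    split_ifs
    · exact ht.1
    · exact le_rfl
  have hlhs : ∫ t, (if W < (i t : ℝ) then (i t : ℝ) else 0) ∂(iidLaw G) ≤
      2 * b' / K * M2 e := by
    have h1 : ∫ t, (if W < (i t : ℝ) then (i t : ℝ) else 0) ∂(iidLaw G) ≤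
        ∫ t, (2 * b' / K) * ((N t : ℝ) + 1) ^ 2 ∂(iidLaw G) := by
      refine integral_mono_of_nonneg ?_ (hsqi.const_mul _) ?_
      · filter_upwards [hib] with t ht
        split_ifs
        · exact ht.1
        · exact le_rfl
      · filter_upwards [hib] with t ht
        have h2 : (0 : ℝ) ≤ N t := Nat.cast_nonneg _
        split_ifs with hif
        · have h3 : K < (N t : ℝ) + 1 := by
            have : 2 * b' * K < 2 * b' * ((N t : ℝ) + 1) := lt_of_lt_of_le hif ht.2
            exact lt_of_mul_lt_mul_left this (by positivity)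
          have h4 : (1 : ℝ) ≤ ((N t : ℝ) + 1) / K := by
            rw [le_div_iff₀ hK0]; linarith
          calc (i t : ℝ) ≤ 2 * b' * ((N t : ℝ) + 1) * 1 := by rw [mul_one]; exact ht.2
            _ ≤ 2 * b' * ((N t : ℝ) + 1) * (((N t : ℝ) + 1) / K) := by gcongr
            _ = _ := by ring
        · positivity
    refine h1.trans ?_
    rw [integral_const_mul]
    gcongr
  rw [hrhs] at key
  have hCle : C * ∫ t, (if W < (i t : ℝ) then (i t : ℝ) else 0) ∂(iidLaw G) ≤
      C' * (2 * b' / K * M2 e) :=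
    (mul_le_mul_of_nonneg_right (le_abs_self C) hlhs0).trans
      (mul_le_mul_of_nonneg_left hlhs hC'0)
  have h5 : η * b ≤ ε * W + C' * (2 * b' / K * M2 e) := by linarith
  have h6 : ε * W = η * b' / 12 := by
    rw [hε, hW]; field_simp; ring
  have h7 : C' * (2 * b' / K * M2 e) ≤ η * b' / 12 := by
    have h8 : 24 * C' * M2 e / η ≤ K := by rw [hK]; linarith
    rw [div_le_iff₀ hη] at h8
    have h9 : C' * (2 * b' / K * M2 e) = (2 * b' * (C' * M2 e)) / K := by ring
    rw [h9, div_le_iff₀ hK0]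
    nlinarith
  rw [h6] at h5
  nlinarith

/-! ### arbitrary position -/

lemma tube_eShift {s u b : ℝ} {v : ℤ × ℤ} {e : Sym2 (ℤ × ℤ)} :
    eShift v e ∈ tube s u b ↔ e ∈ tube s (u + s * v.1 - v.2) b := by
  constructor
  · intro h z hz
    have := h _ (mem_eShift' (v := v) hz)
    simp only [Prod.fst_add, Prod.snd_add] at this
    push_cast at this
    convert this using 2
    ring
  · intro h z hz
    have := h _ (mem_eShift hz)
    simp only [Prod.fst_sub, Prod.snd_sub] at this
    push_cast at this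
    convert this using 2
    ring

lemma tube_mono {s u u' b b' : ℝ} (h : |u - u'| + b ≤ b') : tube s u b ⊆ tube s u' b' := by
  intro e he z hz
  have h1 := he z hz
  have h2 : (z.2 : ℝ) - s * z.1 - u' = ((z.2 : ℝ) - s * z.1 - u) + (u - u') := by ring
  rw [h2]
  exact (abs_add_le _ _).trans (by linarith)

/-- the bad event of the wall at abscissa `x0` for a general threshold function `F` of the lateral
displacement -/
def badF (F : ℤ → ℝ) (s u b : ℝ) (x0 n : ℤ) : Set Environment :=
  {t | ∃ (i j : ℤ) (w : squareLattice.Walk (x0, i) (x0 + n, j)),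
    (∀ e ∈ w.edges, e ∈ block x0 (x0 + n) ∩ tube s u b) ∧ walkCost t w < F (j - i)}

lemma measurableSet_badF (F : ℤ → ℝ) (s u b : ℝ) (x0 n : ℤ) :
    MeasurableSet (badF F s u b x0 n) := by
  have : badF F s u b x0 n = ⋃ i : ℤ, ⋃ j : ℤ,
      bad1 (block x0 (x0 + n) ∩ tube s u b) (x0, i) (x0 + n, j) (F (j - i)) := by
    ext t; simp [badF, bad1]
  rw [this]
  exact MeasurableSet.iUnion fun i => MeasurableSet.iUnion fun j => measurableSet_bad1 _ _ _ _

lemma dependsOn_badF (F : ℤ → ℝ) (s u b : ℝ) (x0 n : ℤ) :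
    DependsOn (fun t => t ∈ badF F s u b x0 n) (block x0 (x0 + n) ∩ tube s u b) := by
  intro t t' htt
  have h1 : ∀ i j : ℤ,
      (t ∈ bad1 (block x0 (x0 + n) ∩ tube s u b) (x0, i) (x0 + n, j) (F (j - i))) =
      (t' ∈ bad1 (block x0 (x0 + n) ∩ tube s u b) (x0, i) (x0 + n, j) (F (j - i))) :=
    fun i j => dependsOn_bad1 _ _ _ _ htt
  simp only [bad1, Set.mem_ofPred_eq, eq_iff_iff] at h1
  simp only [badF, Set.mem_ofPred_eq, eq_iff_iff]
  exact exists_congr fun i => exists_congr fun j => h1 i j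

/-- translation covariance of the bad event -/
lemma badF_subset_shift {F : ℤ → ℝ} {s u b u' b' : ℝ} {x0 n : ℤ} (v : ℤ × ℤ)
    (h : |u + s * v.1 - v.2 - u'| + b ≤ b') :
    badF F s u b (x0 + v.1) n ⊆ shift v ⁻¹' badF F s u' b' x0 n := by
  rintro t ⟨i, j, w, h1, h2⟩
  have h3 : ∀ e ∈ block (x0 + v.1) (x0 + v.1 + n) ∩ tube s u b,
      eShift (-v) e ∈ block x0 (x0 + n) ∩ tube s u' b' := by
    intro e he
    refine ⟨?_, ?_⟩
    · have := he.1
      simp only [block, Set.mem_ofPred_eq, eX_eShift, Prod.fst_neg] at this ⊢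
      omega
    · refine tube_mono h (tube_eShift.2 ?_)
      convert he.2 using 2
      simp only [Prod.fst_neg, Prod.snd_neg]
      push_cast
      ring
  obtain ⟨w', hw1, hw2⟩ := exists_shifted (x' := (x0, i - v.2)) (y' := (x0 + n, j - v.2)) h1 h3
    (by ext <;> simp; ring) (by ext <;> simp <;> ring) (shift v t)
  refine ⟨i - v.2, j - v.2, w', hw1, ?_⟩
  rw [hw2, shift_shift, neg_add_cancel, shift_zero]
  convert h2 using 2
  ring

/-! ### reflection -/

/-- reflection `y ↦ -y` of unordered pairs -/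
def eRefl (e : Sym2 (ℤ × ℤ)) : Sym2 (ℤ × ℤ) := e.map (fun z => (z.1, -z.2))

/-- the reflected environment -/
def refl (t : Environment) : Environment := fun e => t (eRefl e)

lemma eRefl_eRefl (e : Sym2 (ℤ × ℤ)) : eRefl (eRefl e) = e := by
  induction e with
  | _ x y => simp [eRefl]

lemma refl_refl (t : Environment) : refl (refl t) = t := by
  funext e; simp [refl, eRefl_eRefl]

lemma measurable_refl : Measurable refl :=
  measurable_pi_lambda _ fun _ => measurable_pi_apply _

lemma mp_refl (G : Measure ℝ) [IsProbabilityMeasure G] :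
    MeasurePreserving refl (iidLaw G) (iidLaw G) :=
  ⟨measurable_refl,
    Measure.map_infinitePi_infinitePi_of_inj (P := fun _ : Sym2 (ℤ × ℤ) => G)
      (Function.LeftInverse.injective eRefl_eRefl)⟩

/-- reflection is a graph homomorphism -/
def reflHom : squareLattice →g squareLattice where
  toFun := fun z => (z.1, -z.2)
  map_rel' := by
    intro a b h
    simp only [squareLattice, SimpleGraph.fromRel_adj] at h ⊢
    refine ⟨fun hh => h.1 ?_, ?_⟩
    · rw [Prod.ext_iff] at hh ⊢
      simp only [neg_inj] at hh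
      exact hh
    rcases h.2 with (⟨h1, h2⟩ | ⟨h1, h2⟩) | (⟨h1, h2⟩ | ⟨h1, h2⟩)
    · exact Or.inr (Or.inl ⟨by simp [h1], by simp [h2]⟩)
    · exact Or.inl (Or.inr ⟨by simp [h1], by simp [h2]⟩)
    · exact Or.inl (Or.inl ⟨by simp [h1], by simp [h2]⟩)
    · exact Or.inr (Or.inr ⟨by simp [h1], by simp [h2]⟩)

lemma eX_eRefl (e : Sym2 (ℤ × ℤ)) : eX (eRefl e) = eX e := by
  induction e with
  | _ x y => simp [eRefl]

lemma eRefl_mem_tube {s u b : ℝ} {e : Sym2 (ℤ × ℤ)} (h : e ∈ tube s u b) :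
    eRefl e ∈ tube (-s) (-u) b := by
  intro z hz
  unfold eRefl at hz
  rw [Sym2.mem_map] at hz
  obtain ⟨a, ha, rfl⟩ := hz
  have := h a ha
  rw [← abs_neg]
  convert this using 2
  push_cast
  ring

lemma exists_reflected {S T : Set (Sym2 (ℤ × ℤ))} {x y x' y' : ℤ × ℤ}
    {w : squareLattice.Walk x y} (h : ∀ e ∈ w.edges, e ∈ S) (hST : ∀ e ∈ S, eRefl e ∈ T)
    (hx : (x.1, -x.2) = x') (hy : (y.1, -y.2) = y') (t : Environment) :
    ∃ w' : squareLattice.Walk x' y', (∀ e ∈ w'.edges, e ∈ T) ∧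
      walkCost t w' = walkCost (refl t) w := by
  subst hx hy
  refine ⟨w.map reflHom, ?_, ?_⟩
  · intro e he
    have h1 : e ∈ w.edges.map (Sym2.map reflHom) := by
      rw [← SimpleGraph.Walk.edges_map]; exact he
    rw [List.mem_map] at h1
    obtain ⟨e', he', rfl⟩ := h1
    exact hST e' (h e' he')
  · have h1 : walkCost t (w.map reflHom) = walkCost (refl t) w := by
      simp only [walkCost, SimpleGraph.Walk.edges_map, List.map_map]
      rfl
    exact h1

lemma badF_subset_refl {F : ℤ → ℝ} {s u b : ℝ} {x0 n : ℤ} :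
    badF F s u b x0 n ⊆ refl ⁻¹' badF (fun d => F (-d)) (-s) (-u) b x0 n := by
  rintro t ⟨i, j, w, h1, h2⟩
  obtain ⟨w', hw1, hw2⟩ := exists_reflected (x' := (x0, -i)) (y' := (x0 + n, -j))
    (T := block x0 (x0 + n) ∩ tube (-s) (-u) b) h1 (by
      intro e he
      refine ⟨?_, eRefl_mem_tube he.2⟩
      have h4 := he.1
      simp only [block, Set.mem_ofPred_eq, eX_eRefl] at h4 ⊢
      exact h4) rfl rfl (refl t)
  refine ⟨-i, -j, w', hw1, ?_⟩
  rw [hw2, refl_refl]
  have h5 : - (-j - -i) = j - i := by ring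
  simp only [h5]
  exact h2

/-! ### the hard wall -/

theorem wall_up (G : Measure ℝ) [IsProbabilityMeasure G] {p q C s : ℝ} (h : AStar G p q C)
    {η : ℝ} (hη : 0 < η) {e : ℝ} (he : 0 < e) :
    ∃ b0 : ℝ, ∀ b : ℝ, b0 ≤ b → ∀ x0 n : ℤ, 1 ≤ n → ∀ u : ℝ,
      iidLaw G (badF (fun d => p * n + q * d - η * b) s u b x0 n) ≤ ENNReal.ofReal e := by
  obtain ⟨b0, hb0⟩ := wall_up_zero G (s := s) h (half_pos hη) he
  refine ⟨max 1 b0, fun b hb x0 n hn u => ?_⟩
  have hb1 : 1 ≤ b := (le_max_left _ _).trans hb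
  have hb2 : b0 ≤ b := (le_max_right _ _).trans hb
  set m : ℤ := ⌊u + s * x0⌋ with hm
  have hsub := badF_subset_shift (F := fun d => p * n + q * d - η * b) (s := s) (u := u) (b := b)
    (u' := 0) (b' := b + 1) (x0 := 0) (n := n) (x0, m) (by
      have h1 := Int.floor_le (u + s * x0)
      have h2 := Int.lt_floor_add_one (u + s * x0)
      have h3 : |u + s * ((x0, m) : ℤ × ℤ).1 - ((x0, m) : ℤ × ℤ).2 - 0| ≤ 1 := by
        simp only [sub_zero]
        rw [abs_le]
        constructor <;> linarith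
      linarith)
  simp only [zero_add] at hsub
  have hmeas := measurableSet_badF (fun d => p * n + q * d - η * b) s 0 (b + 1) 0 n
  calc iidLaw G (badF (fun d => p * n + q * d - η * b) s u b x0 n)
      ≤ iidLaw G (shift (x0, m) ⁻¹' badF (fun d => p * n + q * d - η * b) s 0 (b + 1) 0 n) :=
        measure_mono hsub
    _ = iidLaw G (badF (fun d => p * n + q * d - η * b) s 0 (b + 1) 0 n) :=
        (mp_shift G _).measure_preimage hmeas.nullMeasurableSet
    _ ≤ iidLaw G (badUp p q s 0 (b + 1) (η / 2 * (b + 1)) n) := by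
        refine measure_mono ?_
        rintro t ⟨i, j, w, h1, h2⟩
        have key : ∀ (m : ℤ) (hm : 0 + n = m) (w : squareLattice.Walk (0, i) (0 + n, j)),
            ∃ w' : squareLattice.Walk (0, i) (m, j), w'.edges = w.edges ∧
              walkCost t w' = walkCost t w := by
          intro m hm w; subst hm; exact ⟨w, rfl, rfl⟩
        obtain ⟨w', hw1, hw2⟩ := key n (zero_add n) w
        refine ⟨i, j, w', ?_, ?_⟩
        · intro e he
          rw [hw1] at he
          have := h1 e he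
          rwa [zero_add] at this
        · rw [hw2]
          refine h2.trans_le ?_
          push_cast
          nlinarith
    _ ≤ ENNReal.ofReal e := hb0 (b + 1) (by linarith) n hn

/-- HARD WALL: with probability at least `1 - e` every crossing of the half-open slab
`[x0, x0 + n)` inside the tilted strip `|y - s x - u| ≤ b` from height `i` to height `j` costs at
least `p0 n + q0 (j - i) + a |j - i - s n| - η b`, uniformly in `x0, n, u`. -/
theorem hard_wall (G : Measure ℝ) [IsProbabilityMeasure G] {p0 q0 a s C C' : ℝ}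
    (h : AStar G (p0 - a * s) (q0 + a) C) (h' : AStar G (p0 + a * s) (-(q0 - a)) C')
    {η : ℝ} (hη : 0 < η) {e : ℝ} (he : 0 < e) :
    ∃ b0 : ℝ, ∀ b : ℝ, b0 ≤ b → ∀ x0 n : ℤ, 1 ≤ n → ∀ u : ℝ,
      iidLaw G (badF (fun d => p0 * n + q0 * d + a * |(d : ℝ) - s * n| - η * b) s u b x0 n) ≤
        ENNReal.ofReal e := by
  obtain ⟨b1, hb1⟩ := wall_up G (s := s) h hη (half_pos he)
  obtain ⟨b2, hb2⟩ := wall_up G (s := -s) h' hη (half_pos he)
  refine ⟨max b1 b2, fun b hb x0 n hn u => ?_⟩
  have h1 := hb1 b ((le_max_left _ _).trans hb) x0 n hn u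
  have h2 := hb2 b ((le_max_right _ _).trans hb) x0 n hn (-u)
  have h3 : iidLaw G (badF (fun d => (p0 + a * s) * n + (q0 - a) * d - η * b) s u b x0 n) ≤
      ENNReal.ofReal (e / 2) := by
    refine (measure_mono badF_subset_refl).trans ?_
    rw [(mp_refl G).measure_preimage (measurableSet_badF _ _ _ _ _ _).nullMeasurableSet]
    have h4 : (fun d : ℤ => (p0 + a * s) * (n : ℝ) + (q0 - a) * ((-d : ℤ) : ℝ) - η * b) =
        fun d : ℤ => (p0 + a * s) * (n : ℝ) + -(q0 - a) * (d : ℝ) - η * b := by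
      funext d
      push_cast
      ring
    rw [h4]
    exact h2
  have hsub : badF (fun d => p0 * n + q0 * d + a * |(d : ℝ) - s * n| - η * b) s u b x0 n ⊆
      badF (fun d => (p0 - a * s) * n + (q0 + a) * d - η * b) s u b x0 n ∪
        badF (fun d => (p0 + a * s) * n + (q0 - a) * d - η * b) s u b x0 n := by
    rintro t ⟨i, j, w, h4, h5⟩
    rcases le_total 0 (((j - i : ℤ) : ℝ) - s * n) with h6 | h6
    · refine Or.inl ⟨i, j, w, h4, ?_⟩
      simp only [abs_of_nonneg h6] at h5
      refine h5.trans_le (le_of_eq ?_)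
      ring
    · refine Or.inr ⟨i, j, w, h4, ?_⟩
      simp only [abs_of_nonpos h6] at h5
      refine h5.trans_le (le_of_eq ?_)
      ring
  refine (measure_mono hsub).trans ((measure_union_le _ _).trans ?_)
  refine (add_le_add h1 h3).trans (le_of_eq ?_)
  rw [← ENNReal.ofReal_add (by linarith) (by linarith)]
  congr 1
  ring

end Crest.Agent.R151.N
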