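import Crest.Agent.R151.RFL890A
import Crest.Agent.R151.N3
import Crest.Agent.R151.S113E

/-!
# R151/RFL890B — lattice automorphisms and the reflection `y ↦ -y` (owner helper890)

* `ry : squareLattice ≃g squareLattice` is `z ↦ (z.1, -z.2)`, `act ry = N.refl` (`refl_eq_act`);
  `K.ng` is `z ↦ (-z.1, z.2)`, `K.sw` the swap, `K.tr a` the translation.
* `Mir φ R R'` : `φ` maps the region `R` onto the region `R'`.  Then `Mir.pt, Mir.pR, Mir.isRay,
  Mir.bus, Mir.isLip, Mir.grad, Mir.isGrad, Mir.hasGrad, Mir.distTo, Mir.dependsOn ...` transport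
  statements about `(act φ t, R)` to statements about `(t, R')`.
* measure: `mp_act`, `ae_act`, `integral_act`, `lintegral_act`, `measure_act`, no measurability.
-/

set_option autoImplicit false

open Filter Topology MeasureTheory
open Crest.ProbabilityR.FirstPassage

namespace Crest.Agent.R151.RFL

open Crest.Agent.R151 Crest.Agent.R151.Y
open Crest.Agent.R151.K (act sw ng tr mp_act pR Conn edgesIn Nn)

/-! ### automorphisms -/

section automorphism

variable (φ : squareLattice ≃g squareLattice)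

/-- the underlying bijection -/
abbrev eq (φ : squareLattice ≃g squareLattice) : (ℤ × ℤ) ≃ (ℤ × ℤ) := φ.toEquiv

theorem act_eq_pull (t : Environment) : act φ t = pull (eq φ) t := rfl

theorem act_mk (t : Environment) (x y : ℤ × ℤ) : act φ t s(x, y) = t s(φ x, φ y) := rfl

theorem act_act (ψ : squareLattice ≃g squareLattice) (t : Environment) :
    act φ (act ψ t) = act (φ.trans ψ) t := by
  funext e
  induction e with
  | _ a b => rfl

theorem act_symm_act (t : Environment) : act φ.symm (act φ t) = t := by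
  funext e
  induction e with
  | _ a b =>
    change t s(φ (φ.symm a), φ (φ.symm b)) = _
    simp

theorem act_act_symm (t : Environment) : act φ (act φ.symm t) = t := by
  funext e
  induction e with
  | _ a b =>
    change t s(φ.symm (φ a), φ.symm (φ b)) = _
    simp

theorem nonneg_act {t : Environment} : (∀ e, 0 ≤ act φ t e) ↔ ∀ e, 0 ≤ t e :=
  nonneg_pull (σ := eq φ)

theorem pos_act {t : Environment} : (∀ e, 0 < act φ t e) ↔ ∀ e, 0 < t e :=
  pos_pull (σ := eq φ)

theorem nn_act {t : Environment} : Nn (act φ t) ↔ Nn t := nonneg_act φ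

theorem noTies_act {t : Environment} : NoTies (act φ t) ↔ NoTies t := noTies_pull (σ := eq φ)

theorem coal_act {v w : ℕ → ℤ × ℤ} :
    Coal (fun k => φ (v k)) (fun k => φ (w k)) ↔ Coal v w := coal_map (eq φ)

theorem trans_lattice : Trans (eq φ) squareLattice squareLattice := fun _ _ =>
  φ.map_rel_iff'.symm

theorem passageTime_act (t : Environment) (x y : ℤ × ℤ) :
    passageTime (act φ t) x y = passageTime t (φ x) (φ y) := K.pt_act t φ x y

theorem isBigeodesic_act (t : Environment) (v : ℤ → ℤ × ℤ) :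
    IsBigeodesic (act φ t) v ↔ IsBigeodesic t fun k => φ (v k) := by
  unfold IsBigeodesic
  refine and_congr ?_ (and_congr ?_ ?_)
  · exact ⟨fun h => φ.injective.comp h, fun h a b hab => h (by simp only [hab])⟩
  · exact forall_congr' fun i => φ.map_rel_iff'.symm
  · refine forall_congr' fun i => forall_congr' fun j => forall_congr' fun _ => ?_
    rw [passageTime_act]
    rfl

/-- translations and automorphisms -/
theorem shift_act {a b : ℤ × ℤ} (h : ∀ x, φ (x + a) = φ x + b) (t : Environment) :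
    A.shift a (act φ t) = act φ (A.shift b t) := by
  funext e
  induction e with
  | _ x y =>
    change t s(φ (x + a), φ (y + a)) = t s(φ x + b, φ y + b)
    rw [h, h]

theorem shift_eq_act (a : ℤ × ℤ) (t : Environment) : A.shift a t = act (tr a) t := by
  funext e
  induction e with
  | _ x y => rfl

end automorphism

/-! ### measure -/

section measure

variable (φ : squareLattice ≃g squareLattice)

/-- the action as a measurable equivalence -/
def actEquiv : Environment ≃ᵐ Environment where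
  toFun := act φ
  invFun := act φ.symm
  left_inv := act_symm_act φ
  right_inv := act_act_symm φ
  measurable_toFun := by
    change Measurable (act φ)
    unfold act
    exact measurable_pi_lambda _ fun e => measurable_pi_apply _
  measurable_invFun := by
    change Measurable (act φ.symm)
    unfold act
    exact measurable_pi_lambda _ fun e => measurable_pi_apply _

theorem measurable_act : Measurable (act φ) := (actEquiv φ).measurable

variable {G : Measure ℝ} [IsProbabilityMeasure G]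

theorem mp_actEquiv : MeasurePreserving (actEquiv φ) (iidLaw G) (iidLaw G) := mp_act φ

theorem ae_act {P : Environment → Prop} :
    (∀ᵐ t ∂(iidLaw G), P (act φ t)) ↔ ∀ᵐ t ∂(iidLaw G), P t := by
  constructor
  · intro h
    have := (mp_act (G := G) φ.symm).quasiMeasurePreserving.ae h
    simpa only [act_act_symm] using this
  · exact fun h => (mp_act (G := G) φ).quasiMeasurePreserving.ae h

theorem integral_act {E : Type*} [NormedAddCommGroup E] [NormedSpace ℝ E] (F : Environment → E) :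
    ∫ t, F (act φ t) ∂(iidLaw G) = ∫ t, F t ∂(iidLaw G) :=
  (mp_actEquiv (G := G) φ).integral_comp (actEquiv φ).measurableEmbedding F

theorem lintegral_act (F : Environment → ENNReal) :
    ∫⁻ t, F (act φ t) ∂(iidLaw G) = ∫⁻ t, F t ∂(iidLaw G) :=
  (mp_actEquiv (G := G) φ).lintegral_comp_emb (actEquiv φ).measurableEmbedding F

theorem measure_act (S : Set Environment) : iidLaw G {t | act φ t ∈ S} = iidLaw G S :=
  (mp_actEquiv (G := G) φ).measure_preimage_emb (actEquiv φ).measurableEmbedding S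

theorem integrable_act {E : Type*} [NormedAddCommGroup E] {F : Environment → E} :
    Integrable (fun t => F (act φ t)) (iidLaw G) ↔ Integrable F (iidLaw G) :=
  (mp_actEquiv (G := G) φ).integrable_comp_emb (actEquiv φ).measurableEmbedding

theorem eLpNorm_act {E : Type*} [NormedAddCommGroup E] (F : Environment → E) (p : ENNReal) :
    eLpNorm (fun t => F (act φ t)) p (iidLaw G) = eLpNorm F p (iidLaw G) := by
  have h := (actEquiv φ).measurableEmbedding.eLpNorm_map_measure (μ := iidLaw G) (p := p) (g := F)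
  rw [(mp_actEquiv (G := G) φ).map_eq] at h
  exact h.symm

theorem measurableSet_act {S : Set Environment} :
    MeasurableSet {t | act φ t ∈ S} ↔ MeasurableSet S :=
  (actEquiv φ).measurableSet_preimage

end measure

/-! ### regions -/

/-- `φ` maps the region `R` onto the region `R'`. -/
def Mir (φ : squareLattice ≃g squareLattice) (R R' : Set (ℤ × ℤ)) : Prop :=
  ∀ z, z ∈ R ↔ φ z ∈ R'

namespace Mir

variable {φ : squareLattice ≃g squareLattice} {R R' S S' : Set (ℤ × ℤ)}

theorem preimage (φ : squareLattice ≃g squareLattice) (R' : Set (ℤ × ℤ)) :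
    Mir φ (φ ⁻¹' R') R' := fun _ => Iff.rfl

theorem eq_preimage (h : Mir φ R R') : R = φ ⁻¹' R' := Set.ext h

theorem symm (h : Mir φ R R') : Mir φ.symm R' R := by
  intro z
  rw [h, φ.apply_symm_apply]

theorem univ (φ : squareLattice ≃g squareLattice) : Mir φ Set.univ Set.univ := fun _ => by simp

theorem empty (φ : squareLattice ≃g squareLattice) : Mir φ ∅ ∅ := fun _ => by simp

theorem inter (h : Mir φ R R') (h' : Mir φ S S') : Mir φ (R ∩ S) (R' ∩ S') := fun z =>
  and_congr (h z) (h' z)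

theorem union (h : Mir φ R R') (h' : Mir φ S S') : Mir φ (R ∪ S) (R' ∪ S') := fun z =>
  or_congr (h z) (h' z)

theorem compl (h : Mir φ R R') : Mir φ Rᶜ R'ᶜ := fun z => not_congr (h z)

theorem subset_iff (h : Mir φ R R') (h' : Mir φ S S') : R ⊆ S ↔ R' ⊆ S' := by
  constructor
  · intro hl z hz
    obtain ⟨z, rfl⟩ := φ.surjective z
    exact (h' z).1 (hl ((h z).2 hz))
  · intro hl z hz
    exact (h' z).2 (hl ((h z).1 hz))

theorem singleton (x : ℤ × ℤ) : Mir φ {x} {φ x} := fun z => by simp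

theorem trans (h : Mir φ R R') : Trans (eq φ) (reg R) (reg R') := by
  intro x y
  rw [reg_adj, reg_adj, h x, h y, trans_lattice φ x y]
  rfl

theorem pt (h : Mir φ R R') (t : Environment) (x y : ℤ × ℤ) :
    pt (reg R) (act φ t) x y = R151.pt (reg R') t (φ x) (φ y) := h.trans.pt t x y

theorem pR (h : Mir φ R R') (t : Environment) (x y : ℤ × ℤ) :
    pR (act φ t) R x y = K.pR t R' (φ x) (φ y) := by
  rw [h.eq_preimage]
  exact K.pR_act t φ R' x y

theorem reachable (h : Mir φ R R') {x y : ℤ × ℤ} :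
    (reg R).Reachable x y ↔ (reg R').Reachable (φ x) (φ y) := h.trans.reachable

theorem conn (h : Mir φ R R') {x y : ℤ × ℤ} : Conn R x y ↔ Conn R' (φ x) (φ y) := by
  constructor
  · intro hc
    exact (conn_iff_reachable ((h x).1 hc.left_mem)).2
      (h.reachable.1 ((conn_iff_reachable hc.left_mem).1 hc))
  · intro hc
    have hx : x ∈ R := (h x).2 hc.left_mem
    exact (conn_iff_reachable hx).2 (h.reachable.2 ((conn_iff_reachable hc.left_mem).1 hc))

theorem isRay (h : Mir φ R R') {t : Environment} {v : ℕ → ℤ × ℤ} :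
    IsRay (act φ t) (reg R) v ↔ IsRay t (reg R') fun k => φ (v k) := h.trans.isRay

theorem isBiRay (h : Mir φ R R') {t : Environment} {v : ℤ → ℤ × ℤ} :
    IsBiRay (act φ t) (reg R) v ↔ IsBiRay t (reg R') fun k => φ (v k) := h.trans.isBiRay

theorem bus (h : Mir φ R R') (t : Environment) (v : ℕ → ℤ × ℤ) (x : ℤ × ℤ) :
    bus (act φ t) (reg R) v x = Y.bus t (reg R') (fun k => φ (v k)) (φ x) := h.trans.bus t v x

theorem isLip (h : Mir φ R R') {t : Environment} {f : ℤ × ℤ → ℝ} :
    IsLip (act φ t) (reg R) (fun x => f (φ x)) ↔ IsLip t (reg R') f := h.trans.isLip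

theorem gradStep (h : Mir φ R R') {t : Environment} {f : ℤ × ℤ → ℝ} {x y : ℤ × ℤ} :
    GradStep (act φ t) (reg R) (fun x => f (φ x)) x y ↔ GradStep t (reg R') f (φ x) (φ y) :=
  h.trans.gradStep

theorem grad (h : Mir φ R R') {t : Environment} {f : ℤ × ℤ → ℝ} {x y : ℤ × ℤ} :
    Grad (act φ t) (reg R) (fun x => f (φ x)) x y ↔ Grad t (reg R') f (φ x) (φ y) :=
  h.trans.grad

theorem isGrad (h : Mir φ R R') {t : Environment} {f : ℤ × ℤ → ℝ} {v : ℕ → ℤ × ℤ} :
    IsGrad (act φ t) (reg R) (fun x => f (φ x)) v ↔ IsGrad t (reg R') f fun k => φ (v k) :=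
  h.trans.isGrad

theorem hasGrad (h : Mir φ R R') (h' : Mir φ S S') {t : Environment} {f : ℤ × ℤ → ℝ} :
    HasGrad (act φ t) (reg R) (fun x => f (φ x)) S ↔ HasGrad t (reg R') f S' := by
  rw [h'.eq_preimage]
  exact h.trans.hasGrad

theorem distTo (h : Mir φ R R') (h' : Mir φ S S') (t : Environment) (c : ℤ × ℤ → ℝ)
    (x : ℤ × ℤ) :
    distTo (act φ t) (reg R) S (fun x => c (φ x)) x = Y.distTo t (reg R') S' c (φ x) := by
  rw [h'.eq_preimage]
  exact h.trans.distTo t S' c x

theorem geoFin (h : Mir φ R R') {t : Environment} {x : ℤ × ℤ} :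
    GeoFin (reg R) (act φ t) x ↔ GeoFin (reg R') t (φ x) := h.trans.geoFin

theorem mem_edgesIn (h : Mir φ R R') {e : Sym2 (ℤ × ℤ)} :
    Sym2.map φ e ∈ edgesIn R' ↔ e ∈ edgesIn R := by
  induction e with
  | _ a b =>
    rw [Sym2.map_mk, K.mem_edgesIn, K.mem_edgesIn, h a, h b]

/-- dependence on the edges of a region -/
theorem dependsOn (h : Mir φ R R') {α : Type*} {F : Environment → α}
    (hF : DependsOn F (edgesIn R)) : DependsOn (fun t => F (act φ t)) (edgesIn R') := by
  intro t t' htt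
  refine hF fun e he => ?_
  exact htt _ (h.mem_edgesIn.2 he)

end Mir

/-! ### the reflection `y ↦ -y` -/

/-- the reflection `y ↦ -y` -/
def ry : squareLattice ≃g squareLattice where
  toEquiv := Equiv.prodCongr (Equiv.refl ℤ) (Equiv.neg ℤ)
  map_rel_iff' := by
    intro a b
    obtain ⟨a1, a2⟩ := a
    obtain ⟨b1, b2⟩ := b
    simp only [squareLattice, SimpleGraph.fromRel_adj, Equiv.prodCongr_apply, Prod.map_apply,
      Equiv.neg_apply, Equiv.refl_apply, ne_eq, Prod.mk.injEq, neg_inj]
    constructor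
    · rintro ⟨h1, h2⟩
      exact ⟨h1, by omega⟩
    · rintro ⟨h1, h2⟩
      exact ⟨h1, by omega⟩

@[simp] theorem ry_apply (x : ℤ × ℤ) : ry x = (x.1, -x.2) := rfl

theorem ry_ry (x : ℤ × ℤ) : ry (ry x) = x := by simp

theorem ng_ng (x : ℤ × ℤ) : ng (ng x) = x := by simp

theorem refl_eq_act (t : Environment) : N.refl t = act ry t := rfl

theorem refl_eq_act' : N.refl = act ry := rfl

theorem act_ry_act_ry (t : Environment) : act ry (act ry t) = t := N.refl_refl t

theorem act_ng_act_ng (t : Environment) : act ng (act ng t) = t := by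
  funext e
  induction e with
  | _ a b =>
    change t s(ng (ng a), ng (ng b)) = _
    rw [ng_ng, ng_ng]

theorem shift_refl (a : ℤ × ℤ) (t : Environment) :
    A.shift a (N.refl t) = N.refl (A.shift (a.1, -a.2) t) := by
  refine shift_act ry (fun x => ?_) t
  ext <;> simp <;> ring

theorem shift_ng (a : ℤ × ℤ) (t : Environment) :
    A.shift a (act ng t) = act ng (A.shift (-a.1, a.2) t) := by
  refine shift_act ng (fun x => ?_) t
  ext <;> simp <;> ring

section refl_measure

variable {G : Measure ℝ} [IsProbabilityMeasure G]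

theorem ae_refl {P : Environment → Prop} :
    (∀ᵐ t ∂(iidLaw G), P (N.refl t)) ↔ ∀ᵐ t ∂(iidLaw G), P t := ae_act ry

theorem ae_refl_of {P : Environment → Prop} (h : ∀ᵐ t ∂(iidLaw G), P t) :
    ∀ᵐ t ∂(iidLaw G), P (N.refl t) := ae_refl.2 h

theorem integral_refl {E : Type*} [NormedAddCommGroup E] [NormedSpace ℝ E]
    (F : Environment → E) :
    ∫ t, F (N.refl t) ∂(iidLaw G) = ∫ t, F t ∂(iidLaw G) := integral_act ry F

theorem lintegral_refl (F : Environment → ENNReal) :
    ∫⁻ t, F (N.refl t) ∂(iidLaw G) = ∫⁻ t, F t ∂(iidLaw G) := lintegral_act ry F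

theorem measure_refl (S : Set Environment) :
    iidLaw G {t | N.refl t ∈ S} = iidLaw G S := measure_act ry S

theorem integrable_refl {E : Type*} [NormedAddCommGroup E] {F : Environment → E} :
    Integrable (fun t => F (N.refl t)) (iidLaw G) ↔ Integrable F (iidLaw G) := integrable_act ry

end refl_measure

theorem nn_refl {t : Environment} : Nn (N.refl t) ↔ Nn t := nn_act ry

theorem nonneg_refl {t : Environment} : (∀ e, 0 ≤ N.refl t e) ↔ ∀ e, 0 ≤ t e := nonneg_act ry

theorem pos_refl {t : Environment} : (∀ e, 0 < N.refl t e) ↔ ∀ e, 0 < t e := pos_act ry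

theorem noTies_refl {t : Environment} : NoTies (N.refl t) ↔ NoTies t := noTies_act ry

theorem isBigeodesic_refl (t : Environment) (v : ℤ → ℤ × ℤ) :
    IsBigeodesic (N.refl t) v ↔ IsBigeodesic t fun k => ((v k).1, -(v k).2) :=
  isBigeodesic_act ry t v

/-! ### half planes and strips -/

theorem mir_up (k : ℤ) : Mir ry {z | k ≤ z.2} {z | z.2 ≤ -k} := fun z => by
  simp only [Set.mem_ofPred_eq, ry_apply]
  omega

theorem mir_dn (k : ℤ) : Mir ry {z | z.2 ≤ k} {z | -k ≤ z.2} := fun z => by
  simp only [Set.mem_ofPred_eq, ry_apply]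
  omega

theorem mir_up' (k : ℤ) : Mir ry {z | -k ≤ z.2} {z | z.2 ≤ k} := fun z => by
  simp only [Set.mem_ofPred_eq, ry_apply]
  omega

theorem mir_dn' (k : ℤ) : Mir ry {z | z.2 ≤ -k} {z | k ≤ z.2} := fun z => by
  simp only [Set.mem_ofPred_eq, ry_apply]
  omega

theorem mir_strip (a b : ℤ) : Mir ry {z | a ≤ z.2 ∧ z.2 ≤ b} {z | -b ≤ z.2 ∧ z.2 ≤ -a} :=
  fun z => by
  simp only [Set.mem_ofPred_eq, ry_apply]
  omega

theorem mir_row (k : ℤ) : Mir ry {z | z.2 = k} {z | z.2 = -k} := fun z => by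
  simp only [Set.mem_ofPred_eq, ry_apply]
  omega

theorem mir_ng_up (k : ℤ) : Mir ng {z | k ≤ z.2} {z | k ≤ z.2} := fun _ => Iff.rfl

theorem mir_ng_dn (k : ℤ) : Mir ng {z | z.2 ≤ k} {z | z.2 ≤ k} := fun _ => Iff.rfl

theorem mir_ng_strip (a b : ℤ) :
    Mir ng {z | a ≤ z.2 ∧ z.2 ≤ b} {z | a ≤ z.2 ∧ z.2 ≤ b} := fun _ => Iff.rfl

theorem mir_SEL_up (k : ℤ) : Mir ry (SEL.Up k) (SEL.Dn (-k)) := mir_up k

theorem mir_SEL_dn (k : ℤ) : Mir ry (SEL.Dn k) (SEL.Up (-k)) := mir_dn k

theorem mir_SEL_up' (k : ℤ) : Mir ry (SEL.Up (-k)) (SEL.Dn k) := mir_up' k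

theorem mir_SEL_dn' (k : ℤ) : Mir ry (SEL.Dn (-k)) (SEL.Up k) := mir_dn' k

/-- passage times of lower half planes -/
theorem pt_dn (t : Environment) (k : ℤ) (x y : ℤ × ℤ) :
    pt (reg (SEL.Dn k)) t x y = pt (reg (SEL.Up (-k))) (N.refl t) (x.1, -x.2) (y.1, -y.2) := by
  have h := (mir_SEL_up' k).pt t (x.1, -x.2) (y.1, -y.2)
  simp only [ry_apply, neg_neg, Prod.mk.eta] at h
  exact h.symm

theorem pt_up (t : Environment) (k : ℤ) (x y : ℤ × ℤ) :
    pt (reg (SEL.Up k)) t x y = pt (reg (SEL.Dn (-k))) (N.refl t) (x.1, -x.2) (y.1, -y.2) := by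
  have h := (mir_SEL_dn' k).pt t (x.1, -x.2) (y.1, -y.2)
  simp only [ry_apply, neg_neg, Prod.mk.eta] at h
  exact h.symm

theorem pR_refl {R R' : Set (ℤ × ℤ)} (h : Mir ry R R') (t : Environment) (x y : ℤ × ℤ) :
    pR t R' x y = pR (N.refl t) R (x.1, -x.2) (y.1, -y.2) := by
  have h1 := h.pR t (x.1, -x.2) (y.1, -y.2)
  simp only [ry_apply, neg_neg, Prod.mk.eta] at h1
  exact h1.symm

theorem pt_refl {R R' : Set (ℤ × ℤ)} (h : Mir ry R R') (t : Environment) (x y : ℤ × ℤ) :
    pt (reg R') t x y = pt (reg R) (N.refl t) (x.1, -x.2) (y.1, -y.2) := by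
  have h1 := h.pt t (x.1, -x.2) (y.1, -y.2)
  simp only [ry_apply, neg_neg, Prod.mk.eta] at h1
  exact h1.symm

theorem isRay_refl {R R' : Set (ℤ × ℤ)} (h : Mir ry R R') {t : Environment} {v : ℕ → ℤ × ℤ} :
    IsRay t (reg R') v ↔ IsRay (N.refl t) (reg R) fun k => ((v k).1, -(v k).2) := by
  have h1 := h.isRay (t := t) (v := fun k => ((v k).1, -(v k).2))
  simp only [ry_apply, neg_neg, Prod.mk.eta] at h1
  exact h1.symm

theorem bus_refl {R R' : Set (ℤ × ℤ)} (h : Mir ry R R') (t : Environment) (v : ℕ → ℤ × ℤ)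
    (x : ℤ × ℤ) : bus t (reg R') v x =
      bus (N.refl t) (reg R) (fun k => ((v k).1, -(v k).2)) (x.1, -x.2) := by
  have h1 := h.bus t (fun k => ((v k).1, -(v k).2)) (x.1, -x.2)
  simp only [ry_apply, neg_neg, Prod.mk.eta] at h1
  exact h1.symm

theorem isLip_refl {R R' : Set (ℤ × ℤ)} (h : Mir ry R R') {t : Environment} {f : ℤ × ℤ → ℝ} :
    IsLip t (reg R') f ↔ IsLip (N.refl t) (reg R) fun x => f (x.1, -x.2) := h.isLip.symm

theorem coal_refl {v w : ℕ → ℤ × ℤ} :
    Coal (fun k => ((v k).1, -(v k).2)) (fun k => ((w k).1, -(w k).2)) ↔ Coal v w := coal_act ry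

/-! ### tails of two-sided paths (S113E) -/

section tails

open Crest.Agent.R151.SEL

variable {t : Environment} {v : ℤ → ℤ × ℤ}

theorem rv_eq (v : ℤ → ℤ × ℤ) (n : ℤ) : rv v n = ry (v (-n)) := rfl

theorem isBigeodesic_rv (h : IsBigeodesic t v) : IsBigeodesic (N.refl t) (rv v) := by
  rw [isBigeodesic_refl]
  simp only [rv, neg_neg, Prod.mk.eta]
  exact isBigeodesic_neg h

theorem isBigeodesic_rv_iff : IsBigeodesic (N.refl t) (rv v) ↔ IsBigeodesic t v := by
  refine ⟨fun h => ?_, isBigeodesic_rv⟩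
  have := isBigeodesic_rv h
  rwa [N.refl_refl, rv_rv] at this

theorem updown_rv_iff : UpDown (rv v) ↔ UpDown v := by
  refine ⟨fun h => ?_, fun h => h.rv⟩
  have := h.rv
  rwa [rv_rv] at this

theorem entD_rv (h : UpDown v) (k : ℤ) : entD (-k) (rv v) = -entU k v := by
  have := h.rv.entU_rv (k := -k)
  rw [rv_rv, neg_neg] at this
  omega

theorem tailD_rv (h : UpDown v) (k : ℤ) (n : ℕ) :
    tailD (-k) (rv v) n = ((tailU k v n).1, -(tailU k v n).2) := by
  have := h.rv.tailU_rv (k := -k) n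
  rw [rv_rv, neg_neg] at this
  rw [this]
  simp

/-- the lower function of `v` is the upper function of the reflected path -/
theorem fD_eq (h : UpDown v) (t : Environment) (k : ℤ) (w : ℤ × ℤ) :
    fD t k v w = fU (N.refl t) (-k) (rv v) (w.1, -w.2) := by
  unfold fD fU
  rw [bus_refl (mir_SEL_up' k)]
  congr 1
  funext n
  rw [h.tailU_rv]

theorem fU_eq (h : UpDown v) (t : Environment) (k : ℤ) (w : ℤ × ℤ) :
    fU t k v w = fD (N.refl t) (-k) (rv v) (w.1, -w.2) := by
  rw [fD_eq h.rv, N.refl_refl, rv_rv, neg_neg]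
  simp

theorem coal_tailD_iff {v w : ℤ → ℤ × ℤ} (hv : UpDown v) (hw : UpDown w) (k l : ℤ) :
    Coal (tailD k v) (tailD l w) ↔ Coal (tailU (-k) (rv v)) (tailU (-l) (rv w)) := by
  have e1 : tailU (-k) (rv v) = fun n => ((tailD k v n).1, -(tailD k v n).2) :=
    funext fun n => hv.tailU_rv n
  have e2 : tailU (-l) (rv w) = fun n => ((tailD l w n).1, -(tailD l w n).2) :=
    funext fun n => hw.tailU_rv n
  rw [e1, e2, coal_refl]

end tails

end Crest.Agent.R151.RFL
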