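import Crest.Agent.R151.F592c

/-!
# R151, F592d (helper592): successor orbits

* `sucF A lt x` : the successor (if it exists);
* `ae_exists_pred` : the successor map is onto (mass transport);
* `ae_slope_eq` : a bounded monotone slope is constant along successor orbits;
* `ae_recur` : Poincaré recurrence along successor orbits;
* `ae_not_mem_of_ties` : if consecutive labels have the same functional, there are no labels.
-/

set_option autoImplicit false

namespace Crest.Agent.R151.F592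

open Finset MeasureTheory Filter Topology
open scoped Classical ENNReal

section det

variable {ι : Type*} {A : Set ι} {lt : ι → ι → Prop}

theorem IsSucc.uniq (h : STO A lt) {i j j' : ι} (h1 : IsSucc A lt i j) (h2 : IsSucc A lt i j') :
    j = j' := by
  obtain ⟨hi, hj, h3, h4⟩ := h1
  obtain ⟨-, hj', h5, h6⟩ := h2
  by_contra hne
  rcases h.tri j hj j' hj' hne with h7 | h7
  · exact h6 j hj ⟨h3, h7⟩
  · exact h4 j' hj' ⟨h5, h7⟩

theorem IsSucc.inj (h : STO A lt) {i i' j : ι} (h1 : IsSucc A lt i j) (h2 : IsSucc A lt i' j) :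
    i = i' := by
  obtain ⟨hi, hj, h3, h4⟩ := h1
  obtain ⟨hi', -, h5, h6⟩ := h2
  by_contra hne
  rcases h.tri i hi i' hi' hne with h7 | h7
  · exact h4 i' hi' ⟨h7, h5⟩
  · exact h6 i hi ⟨h7, h3⟩

/-- the successor of `x` (junk value `x`) -/
noncomputable def sucF (A : Set ι) (lt : ι → ι → Prop) (x : ι) : ι :=
  if h : ∃ j, IsSucc A lt x j then h.choose else x

theorem isSucc_sucF {x : ι} (h : ∃ j, IsSucc A lt x j) : IsSucc A lt x (sucF A lt x) := by
  unfold sucF
  rw [dif_pos h]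
  exact h.choose_spec

theorem sucF_eq (h : STO A lt) {x j : ι} (hj : IsSucc A lt x j) : sucF A lt x = j :=
  IsSucc.uniq h (isSucc_sucF ⟨j, hj⟩) hj

/-- iterated successors are active and increase strictly -/
theorem iterate_mem (hex : ∀ x ∈ A, ∃ j, IsSucc A lt x j) {x : ι} (hx : x ∈ A) (n : ℕ) :
    (sucF A lt)^[n] x ∈ A := by
  induction n with
  | zero => exact hx
  | succ n ih =>
    rw [Function.iterate_succ_apply']
    exact (isSucc_sucF (hex _ ih)).2.1

theorem lt_iterate (h : STO A lt) (hex : ∀ x ∈ A, ∃ j, IsSucc A lt x j) {x : ι} (hx : x ∈ A)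
    (n : ℕ) : lt x ((sucF A lt)^[n + 1] x) := by
  induction n with
  | zero => exact (isSucc_sucF (hex x hx)).2.2.1
  | succ n ih =>
    rw [Function.iterate_succ_apply']
    have hn := iterate_mem hex hx (n + 1)
    exact h.trans x hx _ hn _ (isSucc_sucF (hex _ hn)).2.1 ih (isSucc_sucF (hex _ hn)).2.2.1

theorem iterate_injective (h : STO A lt) (hex : ∀ x ∈ A, ∃ j, IsSucc A lt x j) {x : ι}
    (hx : x ∈ A) : Function.Injective fun n : ℕ => (sucF A lt)^[n] x := by
  have key : ∀ n m : ℕ, n < m → (sucF A lt)^[n] x ≠ (sucF A lt)^[m] x := by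
    intro n m hnm he
    obtain ⟨k, rfl⟩ := Nat.exists_eq_add_of_lt hnm
    have h1 := lt_iterate h hex (iterate_mem hex hx n) k
    have h2 : (sucF A lt)^[k + 1] ((sucF A lt)^[n] x) = (sucF A lt)^[n + k + 1] x := by
      rw [← Function.iterate_add_apply]
      congr 1
      omega
    rw [h2, ← he] at h1
    exact h.irrefl _ (iterate_mem hex hx n) h1
  intro n m he
  rcases lt_trichotomy n m with h1 | h1 | h1
  · exact absurd he (key n m h1)
  · exact h1
  · exact absurd he.symm (key m n h1)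

/-- a total preorder together with the position gives a strict total order -/
theorem sto_of_preorder {A : Set ℤ} {le : ℤ → ℤ → Prop}
    (htrans : ∀ x ∈ A, ∀ y ∈ A, ∀ z ∈ A, le x y → le y z → le x z)
    (htot : ∀ x ∈ A, ∀ y ∈ A, le x y ∨ le y x) :
    STO A (fun x y => le x y ∧ (¬ le y x ∨ x < y)) := by
  refine ⟨fun i hi h => ?_, fun i hi j hj k hk h1 h2 => ⟨htrans i hi j hj k hk h1.1 h2.1, ?_⟩,
    fun i hi j hj hne => ?_⟩
  · rcases h with ⟨h1, h2 | h2⟩
    · exact h2 h1
    · exact lt_irrefl _ h2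
  · by_cases h3 : le k i
    · right
      have h4 : le j i := htrans j hj k hk i hi h2.1 h3
      have h5 : le k j := htrans k hk i hi j hj h3 h1.1
      rcases h1.2 with h6 | h6
      · exact absurd h4 h6
      · rcases h2.2 with h7 | h7
        · exact absurd h5 h7
        · exact h6.trans h7
    · exact Or.inl h3
  · by_cases h1 : le i j
    · by_cases h2 : le j i
      · rcases lt_or_gt_of_ne hne with h3 | h3
        · exact Or.inl ⟨h1, Or.inr h3⟩
        · exact Or.inr ⟨h2, Or.inr h3⟩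
      · exact Or.inl ⟨h1, Or.inl h2⟩
    · rcases htot i hi j hj with h2 | h2
      · exact absurd h2 h1
      · exact Or.inr ⟨h2, Or.inl h1⟩

end det

variable {Ω : Type*} [MeasurableSpace Ω] {μ : Measure Ω}
variable {S : ℤ → Ω → Ω} {A : Ω → Set ℤ} {lt : Ω → ℤ → ℤ → Prop}

namespace LField

theorem sucF_shift (D : LField μ S A lt) {z : ℤ} {ω : Ω} (h : STO (A ω) (lt ω)) (x : ℤ) :
    sucF (A (S z ω)) (lt (S z ω)) x + z = sucF (A ω) (lt ω) (x + z) := by
  by_cases hex : ∃ j, IsSucc (A ω) (lt ω) (x + z) j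
  · obtain ⟨j, hj⟩ := hex
    have h1 : IsSucc (A (S z ω)) (lt (S z ω)) x (j - z) := by
      rw [D.cov_isSucc, sub_add_cancel]
      exact hj
    have h2 := isSucc_sucF ⟨_, h1⟩
    rw [D.cov_isSucc] at h2
    rw [sucF_eq h hj]
    exact IsSucc.uniq h h2 hj
  · have h1 : ¬ ∃ j, IsSucc (A (S z ω)) (lt (S z ω)) x j := by
      rintro ⟨j, hj⟩
      rw [D.cov_isSucc] at hj
      exact hex ⟨_, hj⟩
    unfold sucF
    rw [dif_neg hex, dif_neg h1]

/-- `{ω | succ^n x = y}` is null measurable (on the event that successors exist) -/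
theorem nullMeasurable_sucF (D : LField μ S A lt) (x y : ℤ) :
    NullMeasurableSet {ω | sucF (A ω) (lt ω) x = y} μ := by
  have h1 : NullMeasurableSet {ω | IsSucc (A ω) (lt ω) x y ∨
      ((∀ j, ¬ IsSucc (A ω) (lt ω) x j) ∧ x = y)} μ :=
    nullMeasurableSet_or (D.nullMeasurable_isSucc x y)
      (nullMeasurableSet_and (nullMeasurableSet_forall fun j =>
        nullMeasurableSet_not (D.nullMeasurable_isSucc x j)) (nullMeasurableSet_const _))
  refine h1.congr ?_
  filter_upwards [D.sto] with ω hω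
  apply propext
  change (IsSucc (A ω) (lt ω) x y ∨ ((∀ j, ¬ IsSucc (A ω) (lt ω) x j) ∧ x = y)) ↔
    sucF (A ω) (lt ω) x = y
  constructor
  · rintro (h | ⟨h, rfl⟩)
    · exact sucF_eq hω h
    · unfold sucF
      rw [dif_neg (not_exists.2 h)]
  · intro h
    by_cases hex : ∃ j, IsSucc (A ω) (lt ω) x j
    · left
      rw [← h]
      exact isSucc_sucF hex
    · right
      refine ⟨not_exists.1 hex, ?_⟩
      unfold sucF at h
      rwa [dif_neg hex] at h

theorem nullMeasurable_iterate (D : LField μ S A lt) (n : ℕ) (x y : ℤ) :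
    NullMeasurableSet {ω | (sucF (A ω) (lt ω))^[n] x = y} μ := by
  induction n generalizing y with
  | zero => exact nullMeasurableSet_const (μ := μ) (x = y)
  | succ n ih =>
    have : {ω | (sucF (A ω) (lt ω))^[n + 1] x = y} =
        {ω | ∃ z : ℤ, (sucF (A ω) (lt ω))^[n] x = z ∧ sucF (A ω) (lt ω) z = y} := by
      ext ω
      simp only [Set.mem_ofPred_eq, Function.iterate_succ_apply']
      exact ⟨fun h => ⟨_, rfl, h⟩, fun ⟨z, h1, h2⟩ => by rw [h1, h2]⟩
    rw [this]
    exact nullMeasurableSet_exists fun z => nullMeasurableSet_and (ih z)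
      (D.nullMeasurable_sucF z y)

theorem iterate_shift (D : LField μ S A lt) {z : ℤ} {ω : Ω} (h : STO (A ω) (lt ω)) (n : ℕ)
    (x : ℤ) : (sucF (A (S z ω)) (lt (S z ω)))^[n] x + z = (sucF (A ω) (lt ω))^[n] (x + z) := by
  induction n with
  | zero => rfl
  | succ n ih =>
    rw [Function.iterate_succ_apply', Function.iterate_succ_apply', ← ih, D.sucF_shift h]

/-- the integral of an indicator sum which is an indicator -/
theorem lintegral_tsum_indicator {p : ℤ → Set Ω} (hp : ∀ j, NullMeasurableSet (p j) μ)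
    (huniq : ∀ᵐ ω ∂μ, ∀ j j', ω ∈ p j → ω ∈ p j' → j = j') :
    ∑' j, ∫⁻ ω, Set.indicator (p j) (fun _ => (1 : ℝ≥0∞)) ω ∂μ = μ (⋃ j, p j) := by
  rw [← lintegral_tsum fun j => aemeasurable_const.indicator₀ (hp j)]
  have hU : NullMeasurableSet (⋃ j, p j) μ := NullMeasurableSet.iUnion hp
  calc _ = ∫⁻ ω, Set.indicator (⋃ j, p j) (fun _ => (1 : ℝ≥0∞)) ω ∂μ := by
        refine lintegral_congr_ae ?_
        filter_upwards [huniq] with ω hω
        by_cases hex : ∃ j, ω ∈ p j
        · obtain ⟨j, hj⟩ := hex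
          rw [Set.indicator_of_mem (Set.mem_iUnion.2 ⟨j, hj⟩), tsum_eq_single j,
            Set.indicator_of_mem hj]
          intro j' hne
          exact Set.indicator_of_notMem (fun h => hne (hω j' j h hj)) _
        · rw [Set.indicator_of_notMem (fun h => hex (Set.mem_iUnion.1 h))]
          rw [ENNReal.tsum_eq_zero]
          intro j
          exact Set.indicator_of_notMem (fun h => hex ⟨j, h⟩) _
    _ = μ (⋃ j, p j) := by rw [lintegral_indicator_const₀ hU, one_mul]

/-- the successor map is onto -/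
theorem ae_exists_pred [IsProbabilityMeasure μ] (D : LField μ S A lt)
    (hex : ∀ᵐ ω ∂μ, ∀ x ∈ A ω, ∃ j, IsSucc (A ω) (lt ω) x j) :
    ∀ᵐ ω ∂μ, ∀ x ∈ A ω, ∃ j, IsSucc (A ω) (lt ω) j x := by
  have hm : ∀ x y, NullMeasurableSet {ω | IsSucc (A ω) (lt ω) x y} μ := D.nullMeasurable_isSucc
  have h1 := mass_transport D.mp (m := fun ω x y =>
    Set.indicator {ω | IsSucc (A ω) (lt ω) x y} (fun _ => (1 : ℝ≥0∞)) ω)
    (fun x y => aemeasurable_const.indicator₀ (hm x y)) (fun z ω x y => by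
      simp only [Set.indicator, Set.mem_ofPred_eq, D.cov_isSucc])
  rw [lintegral_tsum_indicator (p := fun y => {ω | IsSucc (A ω) (lt ω) 0 y}) (fun y => hm 0 y)
      (by filter_upwards [D.sto] with ω hω j j' h h' using IsSucc.uniq hω h h'),
    lintegral_tsum_indicator (p := fun y => {ω | IsSucc (A ω) (lt ω) y 0}) (fun y => hm y 0)
      (by filter_upwards [D.sto] with ω hω j j' h h' using IsSucc.inj hω h h')] at h1
  have hU : NullMeasurableSet (⋃ y : ℤ, {ω | IsSucc (A ω) (lt ω) y 0}) μ :=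
    NullMeasurableSet.iUnion fun y => hm y 0
  have h2 : μ {ω | (0 : ℤ) ∈ A ω} ≤ μ (⋃ y : ℤ, {ω | IsSucc (A ω) (lt ω) y 0}) := by
    rw [← h1]
    refine measure_mono_ae ?_
    filter_upwards [hex] with ω hω h
    obtain ⟨j, hj⟩ := hω 0 h
    exact Set.mem_iUnion.2 ⟨j, hj⟩
  have h3 : (⋃ y : ℤ, {ω | IsSucc (A ω) (lt ω) y 0}) ⊆ {ω | (0 : ℤ) ∈ A ω} := by
    intro ω hω
    obtain ⟨j, hj⟩ := Set.mem_iUnion.1 hω
    exact hj.2.1
  have h4 : μ ({ω | (0 : ℤ) ∈ A ω} \ ⋃ y : ℤ, {ω | IsSucc (A ω) (lt ω) y 0}) = 0 := by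
    rw [measure_sdiff h3 hU (measure_ne_top _ _)]
    exact tsub_eq_zero_of_le h2
  have h0 : ∀ᵐ ω ∂μ, ((0 : ℤ) ∈ A ω → ∃ j, IsSucc (A ω) (lt ω) j 0) := by
    rw [ae_iff]
    convert h4 using 2
    ext ω
    simp
  refine ae_forall_of_ae_zero (p := fun ω x => x ∈ A ω → ∃ j, IsSucc (A ω) (lt ω) j x) D.mp
    (fun z ω x => ?_) h0
  have hf : ∀ p : ℤ → Prop, (∃ k, p (k + z)) ↔ ∃ k, p k := fun p =>
    ⟨fun ⟨k, hk⟩ => ⟨_, hk⟩, fun ⟨k, hk⟩ => ⟨k - z, by rwa [sub_add_cancel]⟩⟩
  simp only [D.covA, D.cov_isSucc]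
  rw [hf fun k => IsSucc (A ω) (lt ω) k (x + z)]

/-- slopes are constant along successor orbits -/
theorem ae_slope_eq [IsProbabilityMeasure μ] (D : LField μ S A lt)
    {sl : Ω → ℤ → ℝ} (hslm : ∀ x, AEMeasurable (fun ω => sl ω x) μ)
    (hslc : ∀ z ω x, sl (S z ω) x = sl ω (x + z)) {B : ℝ} (hB : 0 ≤ B)
    (hmono : ∀ᵐ ω ∂μ, ∀ x ∈ A ω, ∀ y ∈ A ω, lt ω x y → sl ω x ≤ sl ω y)
    (hbd : ∀ᵐ ω ∂μ, ∀ x ∈ A ω, |sl ω x| ≤ B) :
    ∀ᵐ ω ∂μ, ∀ x j, IsSucc (A ω) (lt ω) x j → sl ω j = sl ω x := by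
  -- jump at `x`
  set J : Ω → ℤ → ℝ≥0∞ := fun ω x => ∑' j, Set.indicator {ω | IsSucc (A ω) (lt ω) x j}
    (fun ω => ENNReal.ofReal (sl ω j - sl ω x)) ω with hJ
  have hterm : ∀ x j, AEMeasurable (fun ω => Set.indicator {ω | IsSucc (A ω) (lt ω) x j}
      (fun ω => ENNReal.ofReal (sl ω j - sl ω x)) ω) μ := fun x j =>
    (((hslm j).sub (hslm x)).ennreal_ofReal).indicator₀ (D.nullMeasurable_isSucc x j)
  have hJm : ∀ x, AEMeasurable (fun ω => J ω x) μ := fun x =>
    AEMeasurable.tsum fun j => hterm x j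
  have hJc : ∀ z ω x, J (S z ω) x = J ω (x + z) := by
    intro z ω x
    simp only [hJ, Set.indicator, Set.mem_ofPred_eq, D.cov_isSucc, hslc]
    exact (Equiv.addRight z).tsum_eq fun j => if IsSucc (A ω) (lt ω) (x + z) j then
      ENNReal.ofReal (sl ω j - sl ω (x + z)) else 0
  have hJeq : ∀ x : ℤ, ∫⁻ ω, J ω x ∂μ = ∫⁻ ω, J ω 0 ∂μ := by
    intro x
    rw [← lintegral_comp_mp (D.mp x) (hJm 0)]
    refine lintegral_congr fun ω => ?_
    rw [hJc, zero_add]
  have hval : ∀ᵐ ω ∂μ, ∀ x j, IsSucc (A ω) (lt ω) x j →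
      J ω x = ENNReal.ofReal (sl ω j - sl ω x) := by
    filter_upwards [D.sto] with ω hω x j hj
    simp only [hJ]
    rw [tsum_eq_single j]
    · exact Set.indicator_of_mem (s := {ω | IsSucc (A ω) (lt ω) x j}) hj _
    · intro j' hne
      exact Set.indicator_of_notMem (s := {ω | IsSucc (A ω) (lt ω) x j'})
        (fun h => hne (IsSucc.uniq hω h hj)) _
  have hsum : ∀ n : ℕ, (n : ℝ≥0∞) * ∫⁻ ω, J ω 0 ∂μ ≤ ENNReal.ofReal (B - -B) := by
    intro n
    have h1 : (n : ℝ≥0∞) * ∫⁻ ω, J ω 0 ∂μ = ∑ x ∈ Finset.range n, ∫⁻ ω, J ω (x : ℤ) ∂μ := by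
      simp [hJeq]
    have h2 : ∑ x ∈ Finset.range n, ∫⁻ ω, J ω (x : ℤ) ∂μ =
        ∫⁻ ω, ∑ x ∈ Finset.range n, J ω (x : ℤ) ∂μ :=
      (lintegral_finsetSum' (Finset.range n) (f := fun (x : ℕ) ω => J ω (x : ℤ))
        fun x _ => hJm x).symm
    rw [h1, h2]
    calc _ ≤ ∫⁻ _ω, ENNReal.ofReal (B - -B) ∂μ := by
          refine lintegral_mono_ae ?_
          filter_upwards [D.sto, hmono, hbd, hval] with ω hω hmono hbd hval
          set s : Finset ℤ := ((Finset.range n).image fun x : ℕ => (x : ℤ)).filter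
            fun x => ∃ j, IsSucc (A ω) (lt ω) x j with hs
          have h3 : ∑ x ∈ Finset.range n, J ω (x : ℤ) = ∑ x ∈ s, J ω x := by
            rw [hs, Finset.sum_filter, Finset.sum_image (fun a _ b _ h => by exact_mod_cast h)]
            refine Finset.sum_congr rfl fun x _ => ?_
            split_ifs with h
            · rfl
            · simp only [hJ]
              rw [ENNReal.tsum_eq_zero]
              intro j
              exact Set.indicator_of_notMem (s := {ω | IsSucc (A ω) (lt ω) (x : ℤ) j})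
                (fun h' => h ⟨j, h'⟩) _
          rw [h3]
          have hsu : ∀ x ∈ s, IsSucc (A ω) (lt ω) x (sucF (A ω) (lt ω) x) := fun x hx =>
            isSucc_sucF (Finset.mem_filter.1 hx).2
          have h4 : ∑ x ∈ s, J ω x =
              ENNReal.ofReal (∑ x ∈ s, (sl ω (sucF (A ω) (lt ω) x) - sl ω x)) := by
            rw [ENNReal.ofReal_sum_of_nonneg]
            · exact Finset.sum_congr rfl fun x hx => hval x _ (hsu x hx)
            · intro x hx
              obtain ⟨h5, h6, h7, -⟩ := hsu x hx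
              exact sub_nonneg.2 (hmono x h5 _ h6 h7)
          rw [h4]
          refine ENNReal.ofReal_le_ofReal (slope_sum_le hω s (fun x hx => (hsu x hx).1) (sl ω)
            hmono _ hsu (fun x hx => (abs_le.1 (hbd x hx)).1) (fun x hx => (abs_le.1 (hbd x hx)).2)
            (by linarith))
      _ = _ := by simp
  have hzero : ∫⁻ ω, J ω 0 ∂μ = 0 := by
    by_contra hne
    have hne' : ∫⁻ ω, J ω 0 ∂μ ≠ ⊤ := by
      intro htop
      have := hsum 1
      rw [htop] at this
      simp at this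
    have hlt : ENNReal.ofReal (B - -B) / (∫⁻ ω, J ω 0 ∂μ) < ⊤ :=
      ENNReal.div_lt_top ENNReal.ofReal_ne_top hne
    obtain ⟨n, hn⟩ := ENNReal.exists_nat_gt hlt.ne
    rw [ENNReal.div_lt_iff (Or.inl hne) (Or.inl hne')] at hn
    exact absurd (hsum n) (not_le.2 hn)
  have hz0 : ∀ᵐ ω ∂μ, J ω 0 = 0 := by
    have := (lintegral_eq_zero_iff' (hJm 0)).1 hzero
    filter_upwards [this] with ω hω using hω
  have hzall := ae_forall_of_ae_zero (p := fun ω x => J ω x = 0) D.mp
    (fun z ω x => by rw [hJc]) hz0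
  filter_upwards [hzall, hval, hmono] with ω hω hval hmono x j hj
  have h1 := hval x j hj
  rw [hω x, eq_comm, ENNReal.ofReal_eq_zero] at h1
  have h2 := hmono x hj.1 j hj.2.1 hj.2.2.1
  linarith

/-- Poincaré recurrence along successor orbits -/
theorem ae_recur [IsProbabilityMeasure μ] (D : LField μ S A lt)
    (hex : ∀ᵐ ω ∂μ, ∀ x ∈ A ω, ∃ j, IsSucc (A ω) (lt ω) x j)
    {Gd : Ω → Set ℤ} (hGm : ∀ x, NullMeasurableSet {ω | x ∈ Gd ω} μ)
    (hGc : ∀ z ω x, x ∈ Gd (S z ω) ↔ x + z ∈ Gd ω) :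
    ∀ᵐ ω ∂μ, ∀ x ∈ A ω, x ∈ Gd ω → ∀ m : ℕ, ∃ n ≥ m, (sucF (A ω) (lt ω))^[n] x ∈ Gd ω := by
  -- the last visit
  set L : Ω → ℤ → Prop := fun ω x => x ∈ A ω ∧ x ∈ Gd ω ∧
    ∀ n : ℕ, (sucF (A ω) (lt ω))^[n + 1] x ∉ Gd ω with hL
  have hLm : ∀ x, NullMeasurableSet {ω | L ω x} μ := by
    intro x
    refine nullMeasurableSet_and (D.measA x) (nullMeasurableSet_and (hGm x)
      (nullMeasurableSet_forall fun n => ?_))
    have : {ω | (sucF (A ω) (lt ω))^[n + 1] x ∉ Gd ω} =
        {ω | ∀ y : ℤ, (sucF (A ω) (lt ω))^[n + 1] x = y → ¬ y ∈ Gd ω} := by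
      ext ω
      simp only [Set.mem_ofPred_eq]
      exact ⟨fun h y hy => hy ▸ h, fun h => h _ rfl⟩
    rw [this]
    exact nullMeasurableSet_forall fun y => nullMeasurableSet_imp
      (D.nullMeasurable_iterate (n + 1) x y) (nullMeasurableSet_not (hGm y))
  have hpred := D.ae_exists_pred hex
  set m : Ω → ℤ → ℤ → ℝ≥0∞ := fun ω x y => Set.indicator
    {ω | STO (A ω) (lt ω) ∧ x ∈ A ω ∧ L ω y ∧ ∃ n : ℕ, (sucF (A ω) (lt ω))^[n] x = y}
    (fun _ => (1 : ℝ≥0∞)) ω with hm
  have hSTOm : NullMeasurableSet {ω | STO (A ω) (lt ω)} μ := by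
    have h1 : {ω | STO (A ω) (lt ω)} =ᵐ[μ] (Set.univ : Set Ω) := by
      filter_upwards [D.sto] with ω hω
      exact eq_true hω
    exact (MeasurableSet.univ.nullMeasurableSet (μ := μ)).congr h1.symm
  have hset : ∀ x y, NullMeasurableSet {ω | STO (A ω) (lt ω) ∧ x ∈ A ω ∧ L ω y ∧
      ∃ n : ℕ, (sucF (A ω) (lt ω))^[n] x = y} μ := fun x y =>
    nullMeasurableSet_and hSTOm (nullMeasurableSet_and (D.measA x) (nullMeasurableSet_and (hLm y)
      (nullMeasurableSet_exists fun n => D.nullMeasurable_iterate n x y)))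
  have hmm : ∀ x y, AEMeasurable (fun ω => m ω x y) μ := fun x y =>
    aemeasurable_const.indicator₀ (hset x y)
  have hf : ∀ z : ℤ, ∀ p : ℤ → Prop, (∀ k, p (k + z)) ↔ ∀ k, p k := fun z p =>
    ⟨fun h k => by have := h (k - z); rwa [sub_add_cancel] at this, fun h k => h _⟩
  have hSTOc : ∀ z ω, STO (A (S z ω)) (lt (S z ω)) ↔ STO (A ω) (lt ω) := by
    intro z ω
    constructor
    · intro h
      refine ⟨fun i hi h' => ?_, fun i hi j hj k hk h1 h2 => ?_, fun i hi j hj hne => ?_⟩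
      · refine h.irrefl (i - z) ((D.covA _ _ _).2 (by simpa using hi)) ((D.covlt _ _ _ _).2 ?_)
        simpa using h'
      · have := h.trans (i - z) ((D.covA _ _ _).2 (by simpa using hi)) (j - z)
          ((D.covA _ _ _).2 (by simpa using hj)) (k - z) ((D.covA _ _ _).2 (by simpa using hk))
          ((D.covlt _ _ _ _).2 (by simpa using h1)) ((D.covlt _ _ _ _).2 (by simpa using h2))
        simpa using (D.covlt _ _ _ _).1 this
      · have := h.tri (i - z) ((D.covA _ _ _).2 (by simpa using hi)) (j - z)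
          ((D.covA _ _ _).2 (by simpa using hj)) (fun h' => hne (by omega))
        simpa [D.covlt] using this
    · intro h
      refine ⟨fun i hi h' => ?_, fun i hi j hj k hk h1 h2 => ?_, fun i hi j hj hne => ?_⟩
      · exact h.irrefl _ ((D.covA _ _ _).1 hi) ((D.covlt _ _ _ _).1 h')
      · exact (D.covlt _ _ _ _).2 (h.trans _ ((D.covA _ _ _).1 hi) _ ((D.covA _ _ _).1 hj) _
          ((D.covA _ _ _).1 hk) ((D.covlt _ _ _ _).1 h1) ((D.covlt _ _ _ _).1 h2))
      · simpa [D.covlt] using h.tri _ ((D.covA _ _ _).1 hi) _ ((D.covA _ _ _).1 hj)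
          (fun h' => hne (by omega))
  have hLc : ∀ z ω x, STO (A ω) (lt ω) → (L (S z ω) x ↔ L ω (x + z)) := by
    intro z ω x hω
    simp only [hL, D.covA, hGc]
    simp only [D.iterate_shift hω]
  have hmc : ∀ z ω x y, m (S z ω) x y = m ω (x + z) (y + z) := by
    intro z ω x y
    simp only [hm, Set.indicator, Set.mem_ofPred_eq, hSTOc, D.covA]
    by_cases hω : STO (A ω) (lt ω)
    · have h1 : (∃ n : ℕ, (sucF (A (S z ω)) (lt (S z ω)))^[n] x = y) ↔
          ∃ n : ℕ, (sucF (A ω) (lt ω))^[n] (x + z) = y + z := by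
        refine exists_congr fun n => ?_
        rw [← D.iterate_shift hω]
        omega
      simp only [hLc z ω y hω, h1]
    · simp [hω]
  have hmt := mass_transport' D.mp hmm hmc
  -- sent mass is at most one
  have hsent : ∫⁻ ω, ∑' y, m ω 0 y ∂μ ≤ 1 := by
    calc _ ≤ ∫⁻ _ω, 1 ∂μ := by
          refine lintegral_mono_ae ?_
          filter_upwards [hex] with ω hexω
          by_cases hy : ∃ y, STO (A ω) (lt ω) ∧ (0 : ℤ) ∈ A ω ∧ L ω y ∧
              ∃ n : ℕ, (sucF (A ω) (lt ω))^[n] 0 = y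
          · obtain ⟨y, hω, h0, hLy, n, hn⟩ := hy
            rw [tsum_eq_single y]
            · exact Set.indicator_le_self' (by simp) ω
            · intro y' hne
              refine Set.indicator_of_notMem (s := {ω | STO (A ω) (lt ω) ∧ (0 : ℤ) ∈ A ω ∧
                L ω y' ∧ ∃ n : ℕ, (sucF (A ω) (lt ω))^[n] 0 = y'}) ?_ _
              rintro ⟨-, -, hLy', n', hn'⟩
              rcases lt_trichotomy n n' with h | h | h
              · obtain ⟨k, rfl⟩ := Nat.exists_eq_add_of_lt h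
                refine hLy.2.2 k ?_
                have : (sucF (A ω) (lt ω))^[k + 1] y = y' := by
                  rw [← hn, ← hn', ← Function.iterate_add_apply]
                  congr 1
                  omega
                rw [this]
                exact hLy'.2.1
              · exact hne (by rw [← hn, ← hn', h])
              · obtain ⟨k, rfl⟩ := Nat.exists_eq_add_of_lt h
                refine hLy'.2.2 k ?_
                have : (sucF (A ω) (lt ω))^[k + 1] y' = y := by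
                  rw [← hn, ← hn', ← Function.iterate_add_apply]
                  congr 1
                  omega
                rw [this]
                exact hLy.2.1
          · have : ∑' y, m ω 0 y = 0 := by
              rw [ENNReal.tsum_eq_zero]
              intro y
              exact Set.indicator_of_notMem (s := {ω | STO (A ω) (lt ω) ∧ (0 : ℤ) ∈ A ω ∧
                L ω y ∧ ∃ n : ℕ, (sucF (A ω) (lt ω))^[n] 0 = y}) (fun h => hy ⟨y, h⟩) _
            rw [this]
            exact zero_le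
      _ = 1 := by simp
  -- received mass is infinite at a last visit
  have hrec : ∀ᵐ ω ∂μ, L ω 0 → ∑' y, m ω y 0 = ⊤ := by
    filter_upwards [D.sto, hex, hpred] with ω hω hexω hpredω hL0
    choose! pr hpr using hpredω
    have hprA : ∀ n : ℕ, pr^[n] 0 ∈ A ω := by
      intro n
      induction n with
      | zero => exact hL0.1
      | succ n ih =>
        rw [Function.iterate_succ_apply']
        exact (hpr _ ih).1
    have hsu : ∀ n : ℕ, (sucF (A ω) (lt ω))^[n] (pr^[n] 0) = 0 := by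
      intro n
      induction n with
      | zero => rfl
      | succ n ih =>
        rw [Function.iterate_succ_apply, Function.iterate_succ_apply',
          sucF_eq hω (hpr _ (hprA n))]
        exact ih
    have hinj : Function.Injective fun n : ℕ => pr^[n] 0 := by
      have key : ∀ n k : ℕ, pr^[n] 0 ≠ pr^[n + k + 1] 0 := by
        intro n k he
        have h1 : (sucF (A ω) (lt ω))^[k + 1] (pr^[n + k + 1] 0) = pr^[n] 0 := by
          have : ∀ j : ℕ, (sucF (A ω) (lt ω))^[j] (pr^[n + j] 0) = pr^[n] 0 := by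
            intro j
            induction j with
            | zero => rfl
            | succ j ih =>
              rw [Function.iterate_succ_apply, ← add_assoc, Function.iterate_succ_apply',
                sucF_eq hω (hpr _ (hprA _))]
              exact ih
          exact this (k + 1)
        have h2 := lt_iterate hω hexω (hprA (n + k + 1)) k
        rw [h1, ← he] at h2
        exact hω.irrefl _ (hprA n) h2
      intro n n' he
      rcases lt_trichotomy n n' with h | h | h
      · obtain ⟨k, rfl⟩ := Nat.exists_eq_add_of_lt h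
        exact absurd he (key n k)
      · exact h
      · obtain ⟨k, rfl⟩ := Nat.exists_eq_add_of_lt h
        exact absurd he.symm (key n' k)
    have h1 : ∑' n : ℕ, m ω (pr^[n] 0) 0 ≤ ∑' y, m ω y 0 :=
      ENNReal.tsum_comp_le_tsum_of_injective hinj fun y => m ω y 0
    have h2 : ∀ n : ℕ, m ω (pr^[n] 0) 0 = 1 := fun n =>
      Set.indicator_of_mem (s := {ω | STO (A ω) (lt ω) ∧ pr^[n] 0 ∈ A ω ∧ L ω 0 ∧
        ∃ k : ℕ, (sucF (A ω) (lt ω))^[k] (pr^[n] 0) = 0}) ⟨hω, hprA n, hL0, n, hsu n⟩ _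
    simp only [h2] at h1
    rw [ENNReal.tsum_const_eq_top_of_ne_zero one_ne_zero] at h1
    exact top_le_iff.1 h1
  have hzero : μ {ω | L ω 0} = 0 := by
    by_contra hne
    have h1 : ∫⁻ ω, Set.indicator {ω | L ω 0} (fun _ => (⊤ : ℝ≥0∞)) ω ∂μ ≤ 1 := by
      refine le_trans (lintegral_mono_ae ?_) (hmt ▸ hsent)
      filter_upwards [hrec] with ω hω
      by_cases h : L ω 0
      · rw [hω h]
        exact le_top
      · rw [Set.indicator_of_notMem (s := {ω | L ω 0}) h]
        exact zero_le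
    rw [lintegral_indicator_const₀ (hLm 0), ENNReal.top_mul hne] at h1
    simp at h1
  have h0 : ∀ᵐ ω ∂μ, (STO (A ω) (lt ω) → ¬ L ω 0) := by
    have : ∀ᵐ ω ∂μ, ¬ L ω 0 := by
      rw [ae_iff]
      simpa using hzero
    filter_upwards [this] with ω hω _ using hω
  have hall := ae_forall_of_ae_zero (p := fun ω x => STO (A ω) (lt ω) → ¬ L ω x) D.mp
    (fun z ω x => by
      rw [hSTOc]
      exact ⟨fun h hω => by rw [← hLc z ω x hω]; exact h hω,
        fun h hω => by rw [hLc z ω x hω]; exact h hω⟩) h0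
  filter_upwards [hall, D.sto, hex] with ω hall hω hexω x hxA hxG m
  induction m with
  | zero => exact ⟨0, le_rfl, hxG⟩
  | succ m ih =>
    obtain ⟨n, hn, hnG⟩ := ih
    have h1 := hall ((sucF (A ω) (lt ω))^[n] x) hω
    simp only [hL, not_and, not_forall, not_not] at h1
    obtain ⟨k, hk⟩ := h1 (iterate_mem hexω hxA n) hnG
    rw [← Function.iterate_add_apply] at hk
    exact ⟨k + 1 + n, by omega, hk⟩

/-- if consecutive labels have the same functional, there are no labels -/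
theorem measure_eq_zero_of_ties [IsProbabilityMeasure μ] (D : LField μ S A lt)
    {gap : Ω → ℤ → ℤ → ℝ}
    (hex : ∀ᵐ ω ∂μ, ∀ x ∈ A ω, ∃ j, IsSucc (A ω) (lt ω) x j)
    (hties : ∀ᵐ ω ∂μ, ∀ x j, IsSucc (A ω) (lt ω) x j → ∀ k ∈ A ω, gap ω x k = gap ω j k)
    (hself : ∀ᵐ ω ∂μ, ∀ x ∈ A ω, gap ω x x ≤ 1)
    (hgood : ∀ β : ℝ≥0∞, 0 < β → ∃ Gd : Ω → Set ℤ,
      (∀ x, NullMeasurableSet {ω | x ∈ Gd ω} μ) ∧ (∀ z ω x, x ∈ Gd (S z ω) ↔ x + z ∈ Gd ω) ∧
      μ {ω | (0 : ℤ) ∈ A ω ∧ (0 : ℤ) ∉ Gd ω} ≤ β ∧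
      ∀ᵐ ω ∂μ, (0 : ℤ) ∈ A ω → (0 : ℤ) ∈ Gd ω →
        {j : ℤ | j ∈ A ω ∧ j ∈ Gd ω ∧ gap ω 0 j ≤ 1}.Finite) :
    μ {ω | (0 : ℤ) ∈ A ω} = 0 := by
  have hle : ∀ β : ℝ≥0∞, 0 < β → μ {ω | (0 : ℤ) ∈ A ω} ≤ β := by
    intro β hβ
    obtain ⟨Gd, hGm, hGc, hGβ, hfin⟩ := hgood β hβ
    refine (measure_mono_ae ?_).trans hGβ
    filter_upwards [D.sto, hex, hties, hself, D.ae_recur hex hGm hGc, hfin]
      with ω hω hexω hties hself hrec hfin h0A
    refine ⟨h0A, fun h0G => ?_⟩
    have hF := hfin h0A h0G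
    have hrec0 := hrec 0 h0A h0G
    have hgap : ∀ n : ℕ, gap ω 0 ((sucF (A ω) (lt ω))^[n] 0) ≤ 1 := by
      intro n
      have key : ∀ k : ℕ, k ≤ n → gap ω 0 ((sucF (A ω) (lt ω))^[n] 0) =
          gap ω ((sucF (A ω) (lt ω))^[k] 0) ((sucF (A ω) (lt ω))^[n] 0) := by
        intro k
        induction k with
        | zero => intro _; rfl
        | succ k ih =>
          intro hk
          rw [ih (by omega), Function.iterate_succ_apply']
          exact hties _ _ (isSucc_sucF (hexω _ (iterate_mem hexω h0A k))) _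
            (iterate_mem hexω h0A n)
      rw [key n le_rfl]
      exact hself _ (iterate_mem hexω h0A n)
    have hinf : {n : ℕ | (sucF (A ω) (lt ω))^[n] 0 ∈ Gd ω}.Infinite := by
      rw [Set.infinite_iff_exists_gt]
      intro m
      obtain ⟨n, hn, hnG⟩ := hrec0 (m + 1)
      exact ⟨n, hnG, by omega⟩
    have h1 : ((fun n : ℕ => (sucF (A ω) (lt ω))^[n] 0) ''
        {n : ℕ | (sucF (A ω) (lt ω))^[n] 0 ∈ Gd ω}).Infinite :=
      hinf.image (iterate_injective hω hexω h0A).injOn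
    refine h1 (hF.subset ?_)
    rintro _ ⟨n, hn, rfl⟩
    exact ⟨iterate_mem hexω h0A n, hn, hgap n⟩
  by_contra hne
  obtain ⟨β, hβ, hβ'⟩ := exists_between (pos_iff_ne_zero.2 hne)
  exact absurd (hle β hβ) (not_le.2 hβ')

end LField

end Crest.Agent.R151.F592
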