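import Mathlib
import Crest.Prelude.Def_PlanarFPP
import Crest.Agent.R151.S113E

/-!
# R151, SEL F (helper113): selection among bigeodesics with a closed side condition

* generic: `relPred D` (`v k - v 0 ∈ D k` for all `k`), `CrD D z t`, `gamD D z t` = selected
  bigeodesic through `z` with the side condition; measurable and covariant.
* cone form of helper96 (#10274): `coneD C R`, `CrR C R z t`, `gamR C R z t`;
  `UpDown`, `ProperUp` of the selected path, existence for some `R` at every level for every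
  `ProperUp` bigeodesic.
-/

set_option autoImplicit false

open MeasureTheory Filter
open Crest.ProbabilityR.FirstPassage

namespace Crest.Agent.R151.SEL

open Crest.Agent.R151 Crest.Agent.R151.Y

/-! ## generic side conditions -/

/-- the side condition `v k - v 0 ∈ D k` as a prefix predicate -/
def relPred (D : ℤ → Set (ℤ × ℤ)) : Pred2 where
  P n _ v := ∀ k : ℤ, |k| ≤ n → v k - v 0 ∈ D k
  cong n _ v v' h hP := fun k hk => by
    rw [← h k hk, ← h 0 (by simp)]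
    exact hP k hk
  anti n _ v hP := fun k hk => hP k (by push_cast; omega)
  meas n v := MeasurableSet.const _

theorem sat_relPred {D : ℤ → Set (ℤ × ℤ)} {x : ℤ × ℤ} {t : Environment} {v : ℤ → ℤ × ℤ} :
    (relPred D).Sat x t v ↔ v 0 = x ∧ (∀ n, squareLattice.Adj (v n) (v (n + 1))) ∧
      ∀ k, v k - x ∈ D k := by
  constructor
  · intro h
    refine ⟨h.zero, h.adj, fun k => ?_⟩
    have := h.prop k.natAbs k (by simp)
    rwa [h.zero] at this
  · rintro ⟨h1, h2, h3⟩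
    refine ⟨h1, h2, fun n k _ => ?_⟩
    rw [h1]
    exact h3 k

theorem equiv_relPred (D : ℤ → Set (ℤ × ℤ)) (z : ℤ × ℤ) : (relPred D).Equiv z := by
  intro n t v
  refine forall_congr' fun k => imp_congr_right fun _ => ?_
  simp only [add_sub_add_right_eq_sub]

/-- bigeodesics through `z` (at time `0`) with the side condition `D` -/
def CrDP (D : ℤ → Set (ℤ × ℤ)) (z : ℤ × ℤ) (t : Environment) (v : ℤ → ℤ × ℤ) : Prop :=
  v 0 = z ∧ IsBigeodesic t v ∧ ∀ k, v k - z ∈ D k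

/-- the existence event -/
def CrD (D : ℤ → Set (ℤ × ℤ)) (z : ℤ × ℤ) (t : Environment) : Prop := ∃ v, CrDP D z t v

/-- the prefix predicate of `CrDP` -/
def crDPred (D : ℤ → Set (ℤ × ℤ)) : Pred2 := bigPred.and (relPred D)

theorem sat_crDPred {D : ℤ → Set (ℤ × ℤ)} {x : ℤ × ℤ} {t : Environment} {v : ℤ → ℤ × ℤ} :
    (crDPred D).Sat x t v ↔ CrDP D x t v := by
  rw [crDPred, Pred2.sat_and, sat_bigPred, sat_relPred]
  constructor
  · rintro ⟨⟨h1, h2⟩, -, -, h3⟩
    exact ⟨h1, h2, h3⟩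
  · rintro ⟨h1, h2, h3⟩
    exact ⟨⟨h1, h2⟩, h1, h2.2.1, h3⟩

theorem equiv_crDPred (D : ℤ → Set (ℤ × ℤ)) (z : ℤ × ℤ) : (crDPred D).Equiv z :=
  (equiv_bigPred z).and (equiv_relPred D z)

theorem crD_iff {D : ℤ → Set (ℤ × ℤ)} {z : ℤ × ℤ} {t : Environment} :
    CrD D z t ↔ ∃ v, (crDPred D).Sat z t v := by
  simp only [sat_crDPred]
  rfl

theorem measurableSet_crD (D : ℤ → Set (ℤ × ℤ)) (z : ℤ × ℤ) : MeasurableSet {t | CrD D z t} := by
  simp only [crD_iff]
  exact (crDPred D).measurableSet_exists z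

/-- the selected bigeodesic -/
noncomputable def gamD (D : ℤ → Set (ℤ × ℤ)) (z : ℤ × ℤ) (t : Environment) : ℤ → ℤ × ℤ :=
  (crDPred D).sel2 z t

theorem gamD_spec {D : ℤ → Set (ℤ × ℤ)} {z : ℤ × ℤ} {t : Environment} (h : CrD D z t) :
    CrDP D z t (gamD D z t) := by
  rw [crD_iff] at h
  exact sat_crDPred.1 ((crDPred D).sat_sel2 h)

theorem measurable_gamD (D : ℤ → Set (ℤ × ℤ)) (z : ℤ × ℤ) (k : ℤ) :
    Measurable fun t => gamD D z t k :=
  (crDPred D).measurable_sel2_apply z k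

theorem gamD_add (D : ℤ → Set (ℤ × ℤ)) (z a : ℤ × ℤ) (t : Environment) (k : ℤ) :
    gamD D (z + a) t k = gamD D z (A.shift a t) k + a := (equiv_crDPred D a).sel2 z t k

theorem gamD_add' (D : ℤ → Set (ℤ × ℤ)) (z a : ℤ × ℤ) (t : Environment) :
    gamD D (z + a) t = fun n => gamD D z (A.shift a t) n + a := funext fun n => gamD_add D z a t n

theorem crDP_add {D : ℤ → Set (ℤ × ℤ)} {z a : ℤ × ℤ} {t : Environment} {v : ℤ → ℤ × ℤ} :
    CrDP D (z + a) t (fun n => v n + a) ↔ CrDP D z (A.shift a t) v := by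
  unfold CrDP
  rw [isBigeodesic_shift]
  simp only [add_left_inj, add_sub_add_right_eq_sub]

theorem crD_add (D : ℤ → Set (ℤ × ℤ)) (z a : ℤ × ℤ) (t : Environment) :
    CrD D (z + a) t ↔ CrD D z (A.shift a t) := by
  constructor
  · rintro ⟨v, hv⟩
    refine ⟨fun k => v k - a, ?_⟩
    rw [← crDP_add]
    simpa using hv
  · rintro ⟨v, hv⟩
    exact ⟨_, crDP_add.2 hv⟩

theorem CrD.mono {D D' : ℤ → Set (ℤ × ℤ)} (h : ∀ k, D k ⊆ D' k) {z : ℤ × ℤ} {t : Environment} :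
    CrD D z t → CrD D' z t := by
  rintro ⟨v, h1, h2, h3⟩
  exact ⟨v, h1, h2, fun k => h k (h3 k)⟩

/-! ### label functions of the selected one -/

theorem fU_gamD_add (D : ℤ → Set (ℤ × ℤ)) (z a : ℤ × ℤ) (t : Environment) (k : ℤ) (w : ℤ × ℤ) :
    fU t (k + a.2) (gamD D (z + a) t) (w + a) =
      fU (A.shift a t) k (gamD D z (A.shift a t)) w := by
  rw [gamD_add', fU_shift]

theorem fD_gamD_add (D : ℤ → Set (ℤ × ℤ)) (z a : ℤ × ℤ) (t : Environment) (k : ℤ) (w : ℤ × ℤ) :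
    fD t (k + a.2) (gamD D (z + a) t) (w + a) =
      fD (A.shift a t) k (gamD D z (A.shift a t)) w := by
  rw [gamD_add', fD_shift]

theorem tailU_gamD_add (D : ℤ → Set (ℤ × ℤ)) (z a : ℤ × ℤ) (t : Environment) (k : ℤ) (n : ℕ) :
    tailU (k + a.2) (gamD D (z + a) t) n = tailU k (gamD D z (A.shift a t)) n + a := by
  rw [gamD_add', tailU_add]

theorem tailD_gamD_add (D : ℤ → Set (ℤ × ℤ)) (z a : ℤ × ℤ) (t : Environment) (k : ℤ) (n : ℕ) :
    tailD (k + a.2) (gamD D (z + a) t) n = tailD k (gamD D z (A.shift a t)) n + a := by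
  rw [gamD_add', tailD_add]

theorem entU_gamD_add (D : ℤ → Set (ℤ × ℤ)) (z a : ℤ × ℤ) (t : Environment) (k : ℤ) :
    entU (k + a.2) (gamD D (z + a) t) = entU k (gamD D z (A.shift a t)) := by
  rw [gamD_add', entU_add]

theorem entD_gamD_add (D : ℤ → Set (ℤ × ℤ)) (z a : ℤ × ℤ) (t : Environment) (k : ℤ) :
    entD (k + a.2) (gamD D (z + a) t) = entD k (gamD D z (A.shift a t)) := by
  rw [gamD_add', entD_add]

theorem measurable_fU_gamD (D : ℤ → Set (ℤ × ℤ)) (z : ℤ × ℤ) (k : ℤ) (w : ℤ × ℤ) :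
    Measurable fun t => fU t k (gamD D z t) w :=
  measurable_fU (τ := fun t => t) measurable_id (measurable_gamD D z) k w

theorem measurable_fD_gamD (D : ℤ → Set (ℤ × ℤ)) (z : ℤ × ℤ) (k : ℤ) (w : ℤ × ℤ) :
    Measurable fun t => fD t k (gamD D z t) w :=
  measurable_fD (τ := fun t => t) measurable_id (measurable_gamD D z) k w

theorem measurable_tailU_gamD (D : ℤ → Set (ℤ × ℤ)) (z : ℤ × ℤ) (k : ℤ) (n : ℕ) :
    Measurable fun t => tailU k (gamD D z t) n :=
  measurable_tailU (measurable_gamD D z) k n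

theorem measurable_tailD_gamD (D : ℤ → Set (ℤ × ℤ)) (z : ℤ × ℤ) (k : ℤ) (n : ℕ) :
    Measurable fun t => tailD k (gamD D z t) n :=
  measurable_tailD (measurable_gamD D z) k n

/-! ## the cone class -/

/-- the cone condition: last upward crossing at time `0`, upper part in the cone `|x| ≤ C y + R`,
lower part in the cone `|x| ≤ C |y| + R`, `y ≤ R` -/
def coneD (C : ℝ) (R : ℕ) (k : ℤ) : Set (ℤ × ℤ) :=
  {w | (k = -1 → w = (0, -1)) ∧ (0 ≤ k → 0 ≤ w.2 ∧ |(w.1 : ℝ)| ≤ C * w.2 + R) ∧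
    (k < 0 → w.2 ≤ R ∧ |(w.1 : ℝ)| ≤ C * |(w.2 : ℝ)| + R)}

/-- the existence event of the cone class -/
def CrR (C : ℝ) (R : ℕ) (z : ℤ × ℤ) (t : Environment) : Prop := CrD (coneD C R) z t

/-- the selected bigeodesic of the cone class -/
noncomputable def gamR (C : ℝ) (R : ℕ) (z : ℤ × ℤ) (t : Environment) : ℤ → ℤ × ℤ :=
  gamD (coneD C R) z t

theorem coneD_mono {C : ℝ} {R R' : ℕ} (h : R ≤ R') (k : ℤ) : coneD C R k ⊆ coneD C R' k := by
  rintro w ⟨h1, h2, h3⟩
  have h' : (R : ℝ) ≤ R' := by exact_mod_cast h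
  refine ⟨h1, fun hk => ⟨(h2 hk).1, (h2 hk).2.trans (by linarith)⟩, fun hk => ⟨?_, ?_⟩⟩
  · exact (h3 hk).1.trans (by exact_mod_cast h)
  · exact (h3 hk).2.trans (by linarith)

theorem CrR.mono {C : ℝ} {R R' : ℕ} (h : R ≤ R') {z : ℤ × ℤ} {t : Environment} :
    CrR C R z t → CrR C R' z t := CrD.mono (coneD_mono h)

theorem measurableSet_crR (C : ℝ) (R : ℕ) (z : ℤ × ℤ) : MeasurableSet {t | CrR C R z t} :=
  measurableSet_crD _ z

theorem crR_add (C : ℝ) (R : ℕ) (z a : ℤ × ℤ) (t : Environment) :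
    CrR C R (z + a) t ↔ CrR C R z (A.shift a t) := crD_add _ z a t

theorem gamR_spec {C : ℝ} {R : ℕ} {z : ℤ × ℤ} {t : Environment} (h : CrR C R z t) :
    CrDP (coneD C R) z t (gamR C R z t) := gamD_spec h

theorem measurable_gamR (C : ℝ) (R : ℕ) (z : ℤ × ℤ) (k : ℤ) : Measurable fun t => gamR C R z t k :=
  measurable_gamD _ z k

theorem gamR_add (C : ℝ) (R : ℕ) (z a : ℤ × ℤ) (t : Environment) (k : ℤ) :
    gamR C R (z + a) t k = gamR C R z (A.shift a t) k + a := gamD_add _ z a t k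

theorem gamR_add' (C : ℝ) (R : ℕ) (z a : ℤ × ℤ) (t : Environment) :
    gamR C R (z + a) t = fun n => gamR C R z (A.shift a t) n + a := gamD_add' _ z a t

section cone

variable {C : ℝ} {R : ℕ} {z : ℤ × ℤ} {t : Environment} {v : ℤ → ℤ × ℤ}

/-- an injective sequence of points of a set with finite intersections with the half planes
`{w.2 ≤ m}` goes to `+∞` -/
theorem tendsto_snd_of_injective {v : ℕ → ℤ × ℤ} (hv : Function.Injective v) {S : Set (ℤ × ℤ)}
    (hS : ∀ m : ℤ, (S ∩ {w | w.2 ≤ m}).Finite) (h : ∀ n, v n ∈ S) :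
    Tendsto (fun n => (v n).2) atTop atTop := by
  rw [tendsto_atTop]
  intro m
  have h1 : (v ⁻¹' (S ∩ {w | w.2 ≤ m})).Finite := (hS m).preimage hv.injOn
  have h2 : ∀ᶠ n in atTop, n ∉ v ⁻¹' (S ∩ {w | w.2 ≤ m}) := by
    rw [← Nat.cofinite_eq_atTop]
    exact h1.compl_mem_cofinite
  filter_upwards [h2] with n hn
  simp only [Set.mem_preimage, Set.mem_inter_iff, h n, true_and, Set.mem_ofPred_eq, not_le] at hn
  exact hn.le

theorem finite_box (a b c d : ℤ) : {w : ℤ × ℤ | a ≤ w.1 ∧ w.1 ≤ b ∧ c ≤ w.2 ∧ w.2 ≤ d}.Finite := by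
  have : {w : ℤ × ℤ | a ≤ w.1 ∧ w.1 ≤ b ∧ c ≤ w.2 ∧ w.2 ≤ d} = Set.Icc a b ×ˢ Set.Icc c d := by
    ext w
    simp only [Set.mem_ofPred_eq, Set.mem_prod, Set.mem_Icc]
    tauto
  rw [this]
  exact (Set.finite_Icc a b).prod (Set.finite_Icc c d)

theorem tendsto_int_atTop {α : Type*} {l : Filter α} {g : ℤ → α}
    (h : Tendsto (fun n : ℕ => g n) atTop l) : Tendsto g atTop l := by
  rw [← Nat.map_cast_int_atTop]
  exact h

theorem tendsto_int_atBot {α : Type*} {l : Filter α} {g : ℤ → α}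
    (h : Tendsto (fun n : ℕ => g (-n)) atTop l) : Tendsto g atBot l := by
  have h1 : Tendsto (fun n : ℤ => g (-n)) atTop l :=
    tendsto_int_atTop (g := fun n : ℤ => g (-n)) h
  have h2 := h1.comp (tendsto_neg_atBot_atTop (G := ℤ))
  simpa [Function.comp_def] using h2

theorem isBigeodesic_reparam {t : Environment} {v : ℤ → ℤ × ℤ} (h : IsBigeodesic t v) (m : ℤ) :
    IsBigeodesic t fun n => v (m + n) := by
  refine ⟨fun a b hab => ?_, fun i => ?_, fun i i' hii => ?_⟩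
  · have := h.1 hab
    omega
  · have := h.2.1 (m + i)
    rw [add_assoc m i 1] at this
    exact this
  · have := h.2.2 (m + i) (m + i') (by omega)
    rw [← this]
    refine Finset.sum_bij (fun k _ => m + k) ?_ ?_ ?_ ?_
    · intro k hk
      rw [Finset.mem_Ico] at *
      omega
    · intro a₁ _ a₂ _ h
      simpa using h
    · intro k hk
      rw [Finset.mem_Ico] at hk
      exact ⟨k - m, by rw [Finset.mem_Ico]; omega, by omega⟩
    · intro k _
      rw [add_assoc m k 1]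

/-- the finiteness used twice -/
theorem finite_cone (C : ℝ) (R : ℕ) (z : ℤ × ℤ) (a m : ℤ) :
    {w : ℤ × ℤ | a ≤ w.2 ∧ w.2 ≤ m ∧
      |((w.1 - z.1 : ℤ) : ℝ)| ≤ C * |((w.2 - z.2 : ℤ) : ℝ)| + R}.Finite := by
  obtain ⟨M, hM⟩ := exists_int_gt (|C| * (|(m : ℝ)| + |(a : ℝ)| + |(z.2 : ℝ)|) + R)
  refine (finite_box (z.1 - M) (z.1 + M) a m).subset ?_
  rintro w ⟨hw1, hw2, hw3⟩
  have e2 : |((w.2 - z.2 : ℤ) : ℝ)| ≤ |(m : ℝ)| + |(a : ℝ)| + |(z.2 : ℝ)| := by
    push_cast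
    have a1 : (w.2 : ℝ) ≤ m := by exact_mod_cast hw2
    have a1' : (a : ℝ) ≤ w.2 := by exact_mod_cast hw1
    have a2 := le_abs_self (m : ℝ)
    have a4 := neg_abs_le (m : ℝ)
    have a3 := neg_abs_le (z.2 : ℝ)
    have a5 := neg_abs_le (a : ℝ)
    have a6 := le_abs_self (z.2 : ℝ)
    have a7 := abs_nonneg (m : ℝ)
    have a8 := abs_nonneg (a : ℝ)
    rw [abs_le]
    constructor <;> linarith
  have e3 : C * |((w.2 - z.2 : ℤ) : ℝ)| ≤ |C| * (|(m : ℝ)| + |(a : ℝ)| + |(z.2 : ℝ)|) :=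
    (mul_le_mul_of_nonneg_right (le_abs_self C) (abs_nonneg _)).trans
      (mul_le_mul_of_nonneg_left e2 (abs_nonneg C))
  have e4 : |((w.1 - z.1 : ℤ) : ℝ)| < M := by linarith
  rw [← Int.cast_abs] at e4
  have e5 : |w.1 - z.1| < M := by exact_mod_cast e4
  rw [abs_lt] at e5
  exact ⟨by omega, by omega, hw1, hw2⟩

theorem CrDP.updown (h : CrDP (coneD C R) z t v) : UpDown v := by
  obtain ⟨h0, hb, hc⟩ := h
  have hinj := hb.1
  constructor
  · -- up
    refine tendsto_int_atTop ?_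
    refine tendsto_snd_of_injective (v := fun n : ℕ => v n)
      (fun a b hab => by simpa using hinj hab)
      (S := {w | z.2 ≤ w.2 ∧ |((w.1 - z.1 : ℤ) : ℝ)| ≤ C * |((w.2 - z.2 : ℤ) : ℝ)| + R})
      (fun m => ?_) (fun n => ?_)
    · refine (finite_cone C R z z.2 m).subset ?_
      rintro w ⟨⟨hw1, hw2⟩, hw3⟩
      exact ⟨hw1, hw3, hw2⟩
    · obtain ⟨h1, h2⟩ := (hc n).2.1 (by omega)
      simp only [Prod.fst_sub, Prod.snd_sub] at h1 h2
      refine ⟨by omega, ?_⟩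
      have e1 : (0 : ℝ) ≤ (((v n).2 - z.2 : ℤ) : ℝ) := by exact_mod_cast h1
      rw [abs_of_nonneg e1]
      exact h2
  · refine tendsto_int_atBot ?_
    have key : Tendsto (fun n : ℕ => -(v (-(n : ℤ) - 1)).2) atTop atTop := by
      refine tendsto_snd_of_injective
        (v := fun n : ℕ => ((v (-(n : ℤ) - 1)).1, -(v (-(n : ℤ) - 1)).2)) (fun a b hab => ?_)
        (S := {w | -(z.2 + R) ≤ w.2 ∧
          |((w.1 - z.1 : ℤ) : ℝ)| ≤ C * |((-w.2 - z.2 : ℤ) : ℝ)| + R}) (fun m => ?_) (fun n => ?_)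
      · simp only [Prod.mk.injEq, neg_inj] at hab
        have := hinj (Prod.ext hab.1 hab.2)
        omega
      · refine ((finite_cone C R z (-m) (z.2 + R)).image
          (fun w : ℤ × ℤ => (w.1, -w.2))).subset ?_
        rintro w ⟨⟨hw1, hw2⟩, hw3⟩
        refine ⟨(w.1, -w.2), ⟨?_, ?_, hw2⟩, by simp⟩
        · simp only [Set.mem_ofPred_eq] at hw3
          simpa using hw3
        · simp only
          omega
      · obtain ⟨h1, h2⟩ := (hc (-(n : ℤ) - 1)).2.2 (by omega)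
        simp only [Prod.fst_sub, Prod.snd_sub] at h1 h2
        refine ⟨?_, ?_⟩
        · simp only
          omega
        · simp only [neg_neg]
          exact h2
    have key2 : Tendsto (fun n : ℕ => (v (-(n : ℤ) - 1)).2) atTop atBot := by
      have := tendsto_neg_atTop_atBot.comp key
      simpa [Function.comp_def] using this
    rw [← tendsto_add_atTop_iff_nat 1]
    refine key2.congr fun n => ?_
    congr 2
    push_cast
    ring

theorem updown_gamR (h : CrR C R z t) : UpDown (gamR C R z t) := (gamR_spec h).updown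

/-- the last entrance to the level of `z` is at time `0` -/
theorem CrDP.entU (h : CrDP (coneD C R) z t v) : entU z.2 v = 0 := by
  have hv := h.updown
  obtain ⟨h0, hb, hc⟩ := h
  refine le_antisymm (hv.entU_le fun i hi => ?_) ?_
  · have := ((hc i).2.1 hi).1
    simp only [Prod.snd_sub] at this
    omega
  · by_contra hcon
    have h1 := hv.entU_spec (k := z.2) (i := -1) (by omega)
    have h2 := (hc (-1)).1 rfl
    have h3 : (v (-1) - z).2 = -1 := by rw [h2]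
    simp only [Prod.snd_sub] at h3
    omega

theorem CrDP.neg_one (h : CrDP (coneD C R) z t v) : v (-1) = (z.1, z.2 - 1) := by
  have h2 := (h.2.2 (-1)).1 rfl
  rw [sub_eq_iff_eq_add] at h2
  rw [h2]
  ext <;> simp
  ring

theorem CrDP.tailU (h : CrDP (coneD C R) z t v) (n : ℕ) : tailU z.2 v n = v n := by
  unfold SEL.tailU
  rw [h.entU, zero_add]

/-- the selected path is proper with every larger width -/
theorem CrDP.cone (h : CrDP (coneD C R) z t v) {C' : ℝ} (hC : C < C') :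
    (∀ᶠ n in atTop, |((v n).1 : ℝ)| ≤ C' * ((v n).2 : ℝ)) ∧
      (∀ᶠ n in atBot, |((v n).1 : ℝ)| ≤ -(C' * ((v n).2 : ℝ))) := by
  have hv := h.updown
  obtain ⟨h0, hb, hc⟩ := h
  obtain ⟨M, hM⟩ := exists_int_gt ((|C| * |(z.2 : ℝ)| + |(z.1 : ℝ)| + R) / (C' - C))
  rw [div_lt_iff₀ (by linarith)] at hM
  have hz := neg_abs_le (z.1 : ℝ)
  have hz' := le_abs_self (z.1 : ℝ)
  have hz2 : C * (z.2 : ℝ) ≤ |C| * |(z.2 : ℝ)| := by
    rw [← abs_mul]; exact le_abs_self _
  have hz3 : -(|C| * |(z.2 : ℝ)|) ≤ C * (z.2 : ℝ) := by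
    rw [← abs_mul]; exact neg_abs_le _
  constructor
  · filter_upwards [eventually_ge_atTop 0, hv.1.eventually (eventually_ge_atTop M)] with n hn hnM
    have h2 := ((hc n).2.1 hn).2
    simp only [Prod.fst_sub, Prod.snd_sub, Int.cast_sub] at h2
    have hnM' : (M : ℝ) ≤ (v n).2 := by exact_mod_cast hnM
    have h3 : (C' - C) * M ≤ (C' - C) * (v n).2 := mul_le_mul_of_nonneg_left hnM' (by linarith)
    rw [abs_le] at h2 ⊢
    constructor <;> nlinarith [h2.1, h2.2]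
  · filter_upwards [eventually_lt_atBot 0, hv.2.eventually (eventually_le_atBot (-M)),
      hv.2.eventually (eventually_le_atBot z.2)] with n hn hnM hnz
    have h2 := ((hc n).2.2 hn).2
    simp only [Prod.fst_sub, Prod.snd_sub, Int.cast_sub] at h2
    have hnz' : ((v n).2 : ℝ) - z.2 ≤ 0 := by
      have : ((v n).2 : ℝ) ≤ z.2 := by exact_mod_cast hnz
      linarith
    rw [abs_of_nonpos hnz'] at h2
    have hnM' : (M : ℝ) ≤ -((v n).2 : ℝ) := by
      have : ((v n).2 : ℝ) ≤ ((-M : ℤ) : ℝ) := by exact_mod_cast hnM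
      push_cast at this
      linarith
    have h3 : (C' - C) * M ≤ (C' - C) * -((v n).2 : ℝ) :=
      mul_le_mul_of_nonneg_left hnM' (by linarith)
    rw [abs_le] at h2 ⊢
    constructor <;> nlinarith [h2.1, h2.2]

/-- a bigeodesic in the open cone, reparametrised at its last entrance to level `k`, is in the
cone class for some `R` -/
theorem exists_crDP_of_proper (hb : IsBigeodesic t v) (hv : UpDown v)
    (h1 : ∀ᶠ n in atTop, |((v n).1 : ℝ)| ≤ C * ((v n).2 : ℝ))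
    (h2 : ∀ᶠ n in atBot, |((v n).1 : ℝ)| ≤ -(C * ((v n).2 : ℝ))) (k : ℤ) :
    ∃ R : ℕ, CrDP (coneD C R) (v (SEL.entU k v)) t (fun n => v (SEL.entU k v + n)) := by
  have hadj := hb.2.1
  obtain ⟨m, hm⟩ : ∃ m, m = SEL.entU k v := ⟨_, rfl⟩
  have hk : (v m).2 = k := by rw [hm]; exact hv.entU_snd hadj
  rw [← hm]
  obtain ⟨N1, hN1, hmN⟩ : ∃ N1, (∀ n, N1 ≤ n → |((v n).1 : ℝ)| ≤ C * ((v n).2 : ℝ)) ∧ m ≤ N1 := by
    obtain ⟨N1, hN1⟩ := eventually_atTop.1 h1
    exact ⟨max N1 m, fun n hn => hN1 n (by omega), le_max_right _ _⟩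
  obtain ⟨N2, hN2⟩ := eventually_atBot.1 (h2.and (hv.2.eventually (eventually_le_atBot k)))
  -- bounded part
  obtain ⟨B, hB⟩ : ∃ B : ℕ, ∀ n, N2 ≤ n → n ≤ N1 →
      |((v n).1 : ℝ) - (v m).1| + |C| * |((v n).2 : ℝ) - k| + |((v n).2 : ℝ) - k| ≤ B := by
    have hfin : (Set.Icc N2 N1).Finite := Set.finite_Icc _ _
    obtain ⟨b, hb'⟩ := (hfin.image fun n =>
      |((v n).1 : ℝ) - (v m).1| + |C| * |((v n).2 : ℝ) - k| + |((v n).2 : ℝ) - k|).bddAbove
    refine ⟨⌈b⌉₊, fun n hn1 hn2 => ?_⟩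
    exact (hb' ⟨n, ⟨hn1, hn2⟩, rfl⟩).trans (Nat.le_ceil b)
  obtain ⟨B2, hB2⟩ : ∃ B2 : ℕ, |C| * |(k : ℝ)| + |((v m).1 : ℝ)| ≤ B2 := ⟨⌈_⌉₊, Nat.le_ceil _⟩
  have hk1 : C * (k : ℝ) ≤ |C| * |(k : ℝ)| := by rw [← abs_mul]; exact le_abs_self _
  have hk2 : -(|C| * |(k : ℝ)|) ≤ C * (k : ℝ) := by rw [← abs_mul]; exact neg_abs_le _
  have hx1 := neg_abs_le ((v m).1 : ℝ)
  have hx2 := le_abs_self ((v m).1 : ℝ)
  refine ⟨B + B2, by simp, ?_, fun i => ⟨fun hi => ?_, fun hi => ?_, fun hi => ?_⟩⟩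
  · exact isBigeodesic_reparam hb m
  · have := hv.entU_pred_eq (k := k) hadj
    rw [← hm] at this
    change v (m + i) - v m = (0, -1)
    rw [hi, show m + -1 = m - 1 by ring, this]
    ext
    · simp
    · simp [hk]
  · have hlow : k ≤ (v (m + i)).2 := hv.entU_spec (by omega)
    simp only [Prod.fst_sub, Prod.snd_sub, Int.cast_sub, hk]
    refine ⟨by omega, ?_⟩
    have hl' : (k : ℝ) ≤ (v (m + i)).2 := by exact_mod_cast hlow
    push_cast
    by_cases hi1 : N1 ≤ m + i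
    · have := hN1 _ hi1
      rw [abs_le] at this ⊢
      constructor <;> nlinarith [this.1, this.2]
    · by_cases hi2 : N2 ≤ m + i
      · have h3 := hB (m + i) hi2 (by omega)
        have h4 : -(|C| * |((v (m + i)).2 : ℝ) - k|) ≤ C * (((v (m + i)).2 : ℝ) - k) := by
          rw [← abs_mul]; exact neg_abs_le _
        have h5 := abs_nonneg (((v (m + i)).2 : ℝ) - k)
        have h6 : (0 : ℝ) ≤ B2 := by positivity
        linarith
      · have h3 := hN2 (m + i) (by omega)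
        have hkk : (v (m + i)).2 = k := le_antisymm h3.2 hlow
        have h4 := h3.1
        rw [hkk] at h4 ⊢
        have h6 : (0 : ℝ) ≤ B := by positivity
        rw [abs_le] at h4 ⊢
        constructor <;> nlinarith [h4.1, h4.2]
  · simp only [Prod.fst_sub, Prod.snd_sub, Int.cast_sub, hk]
    push_cast
    by_cases hi2 : m + i < N2
    · obtain ⟨h3, h3'⟩ := hN2 (m + i) hi2.le
      refine ⟨by omega, ?_⟩
      have h5 : ((v (m + i)).2 : ℝ) - k ≤ 0 := by
        have : ((v (m + i)).2 : ℝ) ≤ k := by exact_mod_cast h3'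
        linarith
      rw [abs_of_nonpos h5]
      have h6 : (0 : ℝ) ≤ B := by positivity
      rw [abs_le] at h3 ⊢
      constructor <;> nlinarith [h3.1, h3.2]
    · have hi1 : m + i ≤ N1 := by omega
      · have h3 := hB (m + i) (by omega) hi1
        have h4 : -(|C| * |((v (m + i)).2 : ℝ) - k|) ≤ C * |((v (m + i)).2 : ℝ) - k| := by
          rw [← neg_mul]
          exact mul_le_mul_of_nonneg_right (neg_abs_le C) (abs_nonneg _)
        have h5 := abs_nonneg (((v (m + i)).2 : ℝ) - k)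
        have h6 : (0 : ℝ) ≤ B2 := by positivity
        have h7 := abs_nonneg (((v (m + i)).1 : ℝ) - (v m).1)
        have h8 : 0 ≤ |C| * |((v (m + i)).2 : ℝ) - k| := by positivity
        refine ⟨?_, by linarith⟩
        have h9 : ((v (m + i)).2 : ℝ) - k ≤ B := (le_abs_self _).trans (by linarith)
        have h10 : (((v (m + i)).2 - k : ℤ) : ℝ) ≤ ((B : ℤ) : ℝ) := by push_cast; exact h9
        have h11 : (v (m + i)).2 - k ≤ (B : ℤ) := by exact_mod_cast h10
        omega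

theorem exists_crR_of_proper (hb : IsBigeodesic t v) (hv : UpDown v)
    (h1 : ∀ᶠ n in atTop, |((v n).1 : ℝ)| ≤ C * ((v n).2 : ℝ))
    (h2 : ∀ᶠ n in atBot, |((v n).1 : ℝ)| ≤ -(C * ((v n).2 : ℝ))) (k : ℤ) :
    ∃ (R : ℕ) (x : ℤ), v (SEL.entU k v) = (x, k) ∧ CrR C R (x, k) t := by
  obtain ⟨R, hR⟩ := exists_crDP_of_proper hb hv h1 h2 k
  have h3 : v (SEL.entU k v) = ((v (SEL.entU k v)).1, k) :=
    Prod.ext rfl (hv.entU_snd hb.2.1)
  exact ⟨R, _, h3, by rw [← h3]; exact ⟨_, hR⟩⟩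

/-! ### the API of `gamR` -/

theorem gamR_zero (h : CrR C R z t) : gamR C R z t 0 = z := (gamR_spec h).1

theorem gamR_bigeodesic (h : CrR C R z t) : IsBigeodesic t (gamR C R z t) := (gamR_spec h).2.1

theorem gamR_neg_one (h : CrR C R z t) : gamR C R z t (-1) = (z.1, z.2 - 1) :=
  (gamR_spec h).neg_one

theorem entU_gamR (h : CrR C R z t) : SEL.entU z.2 (gamR C R z t) = 0 := (gamR_spec h).entU

theorem tailU_gamR (h : CrR C R z t) (n : ℕ) : SEL.tailU z.2 (gamR C R z t) n = gamR C R z t n :=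
  (gamR_spec h).tailU n

theorem gamR_cone (h : CrR C R z t) {C' : ℝ} (hC : C < C') :
    (∀ᶠ n in atTop, |((gamR C R z t n).1 : ℝ)| ≤ C' * ((gamR C R z t n).2 : ℝ)) ∧
      (∀ᶠ n in atBot, |((gamR C R z t n).1 : ℝ)| ≤ -(C' * ((gamR C R z t n).2 : ℝ))) :=
  (gamR_spec h).cone hC

end cone

theorem fU_gamR_add (C : ℝ) (R : ℕ) (z a : ℤ × ℤ) (t : Environment) (k : ℤ) (w : ℤ × ℤ) :
    fU t (k + a.2) (gamR C R (z + a) t) (w + a) =
      fU (A.shift a t) k (gamR C R z (A.shift a t)) w := fU_gamD_add _ z a t k w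

theorem fD_gamR_add (C : ℝ) (R : ℕ) (z a : ℤ × ℤ) (t : Environment) (k : ℤ) (w : ℤ × ℤ) :
    fD t (k + a.2) (gamR C R (z + a) t) (w + a) =
      fD (A.shift a t) k (gamR C R z (A.shift a t)) w := fD_gamD_add _ z a t k w

theorem tailU_gamR_add (C : ℝ) (R : ℕ) (z a : ℤ × ℤ) (t : Environment) (k : ℤ) (n : ℕ) :
    tailU (k + a.2) (gamR C R (z + a) t) n = tailU k (gamR C R z (A.shift a t)) n + a :=
  tailU_gamD_add _ z a t k n

theorem tailD_gamR_add (C : ℝ) (R : ℕ) (z a : ℤ × ℤ) (t : Environment) (k : ℤ) (n : ℕ) :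
    tailD (k + a.2) (gamR C R (z + a) t) n = tailD k (gamR C R z (A.shift a t)) n + a :=
  tailD_gamD_add _ z a t k n

theorem measurable_fU_gamR (C : ℝ) (R : ℕ) (z : ℤ × ℤ) (k : ℤ) (w : ℤ × ℤ) :
    Measurable fun t => fU t k (gamR C R z t) w := measurable_fU_gamD _ z k w

theorem measurable_fD_gamR (C : ℝ) (R : ℕ) (z : ℤ × ℤ) (k : ℤ) (w : ℤ × ℤ) :
    Measurable fun t => fD t k (gamR C R z t) w := measurable_fD_gamD _ z k w

theorem measurable_tailU_gamR (C : ℝ) (R : ℕ) (z : ℤ × ℤ) (k : ℤ) (n : ℕ) :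
    Measurable fun t => tailU k (gamR C R z t) n := measurable_tailU_gamD _ z k n

theorem measurable_tailD_gamR (C : ℝ) (R : ℕ) (z : ℤ × ℤ) (k : ℤ) (n : ℕ) :
    Measurable fun t => tailD k (gamR C R z t) n := measurable_tailD_gamD _ z k n

/-- countable exhaustion: a positive-probability set of environments with a proper bigeodesic gives
a level-`0` selection event of positive probability -/
theorem measure_crR_pos {P : Measure Environment} {C : ℝ}
    (hinv : ∀ a : ℤ × ℤ, P.map (A.shift a) = P) {v0 : Set Environment}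
    (hv0 : P v0 ≠ 0)
    (hpos : ∀ t ∈ v0, ∃ v, IsBigeodesic t v ∧ UpDown v ∧
      (∀ᶠ n in atTop, |((v n).1 : ℝ)| ≤ C * ((v n).2 : ℝ)) ∧
      (∀ᶠ n in atBot, |((v n).1 : ℝ)| ≤ -(C * ((v n).2 : ℝ)))) :
    ∃ R : ℕ, P {t | CrR C R (0, 0) t} ≠ 0 := by
  by_contra hcon
  push Not at hcon
  have hx : ∀ (R : ℕ) (x : ℤ), P {t | CrR C R (x, 0) t} = 0 := by
    intro R x
    have h1 : {t | CrR C R (x, 0) t} = A.shift (x, 0) ⁻¹' {t | CrR C R (0, 0) t} := by
      ext t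
      have := crR_add C R (0, 0) (x, 0) t
      simpa using this
    rw [h1, ← Measure.map_apply (A.measurable_shift _) (measurableSet_crR _ _ _), hinv]
    exact hcon R
  refine hv0 (measure_mono_null (t := ⋃ R : ℕ, ⋃ x : ℤ, {t | CrR C R (x, 0) t}) ?_ ?_)
  · intro t ht
    obtain ⟨v, hb, hv, h1, h2⟩ := hpos t ht
    obtain ⟨R, x, -, h3⟩ := exists_crR_of_proper hb hv h1 h2 0
    simp only [Set.mem_iUnion]
    exact ⟨R, x, h3⟩
  · exact measure_iUnion_null fun R => measure_iUnion_null fun x => hx R x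

end Crest.Agent.R151.SEL
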