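import Crest.Agent.R151.E39e
import Crest.Agent.R151.F592f
import Crest.Agent.R151.G785b
import Crest.Agent.R151.Y96D
import Crest.Agent.R151.RFL890B

/-!
# R151, block E39f (helper39), [HG]: LFE + CLASS + goodness ⟹ `hgood` of F592

* `RowFam` : the slope family of one row (upper or lower side);
* `LabSet` : the labels on the rows `±j` with a slope in `(-q, q)`; it is a function of the edges off
  the strip, `classHyp_labSet`;
* `lab_mem_labSet` : the label of a bigeodesic belongs to `LabSet`;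
* `hgood_of_rows` : the input `hgood` of `F592.Sel0.ae_exists_succ`.
-/

set_option autoImplicit false

open MeasureTheory ProbabilityTheory Set Filter
open scoped ENNReal Topology
open Crest.ProbabilityR.FirstPassage

namespace Crest.Agent.R151.E39

open Crest.Agent.R151 Crest.Agent.R151.Y Crest.Agent.R151.SEL Crest.Agent.R151.H

/-- The slope family of one row `j`: functions of the region `R`; `σ = -1` for the upper side,
`σ = 1` for the lower side. -/
structure RowFam (G : Measure ℝ) (D : Set ℝ) (R : Set (ℤ × ℤ)) (j : ℤ) (σ : ℝ)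
    (f : ℝ → Environment → ℤ → ℝ) : Prop where
  mean : MeanFam (iidLaw G) D f 0 σ
  dep : ∀ p ∈ D, ∀ t t' : Environment, (∀ e ∈ K.edgesIn R, t e = t' e) →
    ∀ x, inc (f p t) x = inc (f p t') x
  slope : ∀ p ∈ D, ∀ᵐ t ∂(iidLaw G), HasSlope (f p t) (σ * p)
  cov : ∀ p ∈ D, ∀ᵐ t ∂(iidLaw G), ∀ y : ℤ, G785.IncCov (f p) y t
  cmp : ∀ p ∈ D, ∀ᵐ t ∂(iidLaw G), ∀ u : ℕ → ℤ × ℤ, IsRay t (reg R) u →
    (∀ N : ℤ, ∃ n, N ≤ |(u n).2|) → Cmp (f p t) (fun x => bus t (reg R) u (x, j))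

/-- labels on the rows `j`, `-j` with a slope in `(-q, q)` -/
def LabSet (D : Set ℝ) (q : ℝ) (j : ℤ) (f g : ℝ → Environment → ℤ → ℝ) (t : Environment) :
    Set ((ℤ → ℝ) × (ℤ → ℝ)) :=
  {a | (∃ u, IsRay t (reg (Up j)) u ∧ a.1 = fun x => bus t (reg (Up j)) u (x, j)) ∧
    (∃ u, IsRay t (reg (Dn (-j))) u ∧ a.2 = fun x => bus t (reg (Dn (-j))) u (x, -j)) ∧
    ∃ s, -q < s ∧ s < q ∧ Sand D (fun p => f p t) s a.1 ∧ SandUp D (fun p => g p t) s a.2}

section det

variable {D : Set ℝ} {q : ℝ} {j : ℤ} {f g : ℝ → Environment → ℤ → ℝ} {t t' : Environment}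

lemma reg_edge {R : Set (ℤ × ℤ)} {e : Sym2 (ℤ × ℤ)} (he : e ∈ (reg R).edgeSet) :
    e ∈ K.edgesIn R := by
  induction e with
  | _ x y =>
    rw [SimpleGraph.mem_edgeSet, reg_adj] at he
    intro z hz
    rw [Sym2.mem_iff] at hz
    rcases hz with rfl | rfl
    · exact he.2.1
    · exact he.2.2

lemma bus_congr {V : Type*} {H : SimpleGraph V} {t t' : Sym2 V → ℝ}
    (h : ∀ e ∈ H.edgeSet, t e = t' e) (u : ℕ → V) (x : V) : bus t H u x = bus t' H u x := by
  unfold bus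
  simp only [pt_congr h]

lemma labSet_subset (hf : ∀ p ∈ D, ∀ x, inc (f p t) x = inc (f p t') x)
    (hg : ∀ p ∈ D, ∀ x, inc (g p t) x = inc (g p t') x)
    (hU : ∀ e ∈ K.edgesIn (Up j), t e = t' e) (hD : ∀ e ∈ K.edgesIn (Dn (-j)), t e = t' e) :
    LabSet D q j f g t ⊆ LabSet D q j f g t' := by
  rintro a ⟨⟨u, hu, hau⟩, ⟨u', hu', hau'⟩, s, h1, h2, h3, h4⟩
  have eU : ∀ e ∈ (reg (Up j)).edgeSet, t e = t' e := fun e he => hU e (reg_edge he)
  have eD : ∀ e ∈ (reg (Dn (-j))).edgeSet, t e = t' e := fun e he => hD e (reg_edge he)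
  refine ⟨⟨u, hu.congr eU, ?_⟩, ⟨u', hu'.congr eD, ?_⟩, s, h1, h2,
    ⟨fun p hp hps x => ?_, fun p hp hps x => ?_⟩, ⟨fun p hp hps x => ?_, fun p hp hps x => ?_⟩⟩
  · rw [hau]; funext x; exact bus_congr eU u _
  · rw [hau']; funext x; exact bus_congr eD u' _
  · rw [← hf p hp]; exact h3.le p hp hps x
  · rw [← hf p hp]; exact h3.ge p hp hps x
  · rw [← hg p hp]; exact h4.ge p hp hps x
  · rw [← hg p hp]; exact h4.le p hp hps x

/-- edges off the strip `|y| ≤ k` -/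
lemma notMem_strip_of_up {k : ℕ} {e : Sym2 (ℤ × ℤ)} (he : e ∈ K.edgesIn (Up ((k : ℤ) + 1))) :
    e ∉ strip k := by
  rintro ⟨a, b, rfl, -, ha⟩
  have h1 : (k : ℤ) + 1 ≤ a.2 := he a (by simp)
  rw [abs_le] at ha
  omega

lemma notMem_strip_of_dn {k : ℕ} {e : Sym2 (ℤ × ℤ)}
    (he : e ∈ K.edgesIn (Dn (-((k : ℤ) + 1)))) : e ∉ strip k := by
  rintro ⟨a, b, rfl, -, ha⟩
  have h1 : a.2 ≤ -((k : ℤ) + 1) := he a (by simp)
  rw [abs_le] at ha
  omega

/-- the squeeze of the upper component -/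
lemma sqz_up {a : (ℤ → ℝ) × (ℤ → ℝ)} (ha : a ∈ LabSet D q j f g t) {p1 p2 : ℝ} (hp1 : p1 ∈ D)
    (hp2 : p2 ∈ D) (h1 : p1 ≤ -q) (h2 : q ≤ p2) : G785.Sqz (f p2 t) (f p1 t) a.1 := by
  obtain ⟨-, -, s, hs1, hs2, h3, -⟩ := ha
  exact fun x => ⟨h3.ge p2 hp2 (by linarith) x, h3.le p1 hp1 (by linarith) x⟩

lemma sqz_dn {a : (ℤ → ℝ) × (ℤ → ℝ)} (ha : a ∈ LabSet D q j f g t) {p1 p2 : ℝ} (hp1 : p1 ∈ D)
    (hp2 : p2 ∈ D) (h1 : p1 ≤ -q) (h2 : q ≤ p2) : G785.Sqz (g p1 t) (g p2 t) a.2 := by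
  obtain ⟨-, -, s, hs1, hs2, -, h4⟩ := ha
  exact fun x => ⟨h4.ge p1 hp1 (by linarith) x, h4.le p2 hp2 (by linarith) x⟩

/-- the increments of a comparable pair are ordered by the slopes -/
lemma inc_le_of_cmp {h h' : ℤ → ℝ} {c c' : ℝ} (hh : HasSlope h c) (hh' : HasSlope h' c')
    (hlt : c < c') (hc : Cmp h h') (x : ℤ) : inc h x ≤ inc h' x := by
  rcases hc with hc | hc
  · exact hc x
  · exfalso
    have hle : c' ≤ c := by
      have key : ∀ x : ℤ, 0 ≤ x → h' x - h' 0 ≤ h x - h 0 := by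
        intro x hx
        exact G785.inc_le_of_step (p := h') (f := h) (fun y => hc y) hx
      have l1 : Tendsto (fun x : ℤ => (h' x - h' 0) / x) atTop (𝓝 c') := by
        have := (hh'.add_const (-(h' 0))).top
        simpa [sub_eq_add_neg] using this
      have l2 : Tendsto (fun x : ℤ => (h x - h 0) / x) atTop (𝓝 c) := by
        have := (hh.add_const (-(h 0))).top
        simpa [sub_eq_add_neg] using this
      refine le_of_tendsto_of_tendsto l1 l2 ?_
      filter_upwards [eventually_gt_atTop (0 : ℤ)] with x hx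
      have hx' : (0 : ℝ) < x := by exact_mod_cast hx
      exact div_le_div_of_nonneg_right (key x hx.le) hx'.le
    linarith

lemma tailU_high {v : ℤ → ℤ × ℤ} (hv : UpDown v) (j : ℤ) (N : ℤ) :
    ∃ n, N ≤ |(tailU j v n).2| := by
  have h1 : Tendsto (fun n : ℕ => (tailU j v n).2) atTop atTop :=
    hv.1.comp (tendsto_atTop_add_const_left _ (entU j v) tendsto_natCast_atTop_atTop)
  obtain ⟨n, hn⟩ := (h1.eventually (eventually_ge_atTop N)).exists
  exact ⟨n, hn.trans (le_abs_self _)⟩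

lemma tailD_high {v : ℤ → ℤ × ℤ} (hv : UpDown v) (j : ℤ) (N : ℤ) :
    ∃ n, N ≤ |(tailD j v n).2| := by
  have h0 : Tendsto (fun n : ℕ => entD j v - (n : ℤ)) atTop atBot := by
    refine tendsto_atBot.2 fun b => ?_
    filter_upwards [eventually_ge_atTop (entD j v - b).toNat] with n hn
    omega
  have h1 : Tendsto (fun n : ℕ => (tailD j v n).2) atTop atBot := hv.2.comp h0
  obtain ⟨n, hn⟩ := (h1.eventually (eventually_le_atBot (-N))).exists
  refine ⟨n, le_trans ?_ (neg_le_abs _)⟩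
  omega

/-- **the label of a bigeodesic is in `LabSet`** -/
lemma lab_mem_labSet (ht : ∀ e, 0 ≤ t e) {v : ℤ → ℤ × ℤ} (hv : IsBigeodesic t v)
    (hvU : UpDown v) {s : ℝ} (hs1 : -q < s) (hs2 : s < q)
    (hup : HasSlope (fun x => fU t j v (x, j)) (-s))
    (hdn : HasSlope (fun x => fD t (-j) v (x, -j)) s)
    (hfs : ∀ p ∈ D, HasSlope (f p t) (-1 * p)) (hgs : ∀ p ∈ D, HasSlope (g p t) (1 * p))
    (hfc : ∀ p ∈ D, ∀ u : ℕ → ℤ × ℤ, IsRay t (reg (Up j)) u → (∀ N : ℤ, ∃ n, N ≤ |(u n).2|) →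
      Cmp (f p t) (fun x => bus t (reg (Up j)) u (x, j)))
    (hgc : ∀ p ∈ D, ∀ u : ℕ → ℤ × ℤ, IsRay t (reg (Dn (-j))) u →
      (∀ N : ℤ, ∃ n, N ≤ |(u n).2|) → Cmp (g p t) (fun x => bus t (reg (Dn (-j))) u (x, -j))) :
    lab t j (-j) v ∈ LabSet D q j f g t := by
  have hrU := isRay_tailU hv ht hvU j
  have hrD := isRay_tailD hv ht hvU (-j)
  refine ⟨⟨tailU j v, hrU, rfl⟩, ⟨tailD (-j) v, hrD, rfl⟩, s, hs1, hs2,
    ⟨fun p hp hps x => ?_, fun p hp hps x => ?_⟩, ⟨fun p hp hps x => ?_, fun p hp hps x => ?_⟩⟩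
  · exact inc_le_of_cmp hup (hfs p hp) (by linarith)
      (hfc p hp _ hrU (tailU_high hvU j)).symm x
  · exact inc_le_of_cmp (hfs p hp) hup (by linarith)
      (hfc p hp _ hrU (tailU_high hvU j)) x
  · exact inc_le_of_cmp (hgs p hp) hdn (by linarith)
      (hgc p hp _ hrD (tailD_high hvU (-j))) x
  · exact inc_le_of_cmp hdn (hgs p hp) (by linarith)
      (hgc p hp _ hrD (tailD_high hvU (-j))).symm x

end det

section class_

variable {G : Measure ℝ} [IsProbabilityMeasure G]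

/-- lower rays: increments along the boundary line are comparable (by reflection of 635's
`inc_total`) -/
lemma cmp_rays_up {t : Environment} (hnt : NoTies t) (ht : ∀ e, 0 ≤ t e) {j : ℤ}
    {u w : ℕ → ℤ × ℤ} (hu : IsRay t (reg (Up j)) u) (hw : IsRay t (reg (Up j)) w) :
    Cmp (fun x => bus t (reg (Up j)) u (x, j)) (fun x => bus t (reg (Up j)) w (x, j)) := by
  rcases inc_total hnt ht hu hw with h | h
  · exact Or.inr fun x => h (x, j) (x + 1, j) rfl rfl (by simp)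
  · exact Or.inl fun x => h (x, j) (x + 1, j) rfl rfl (by simp)

lemma cmp_rays_dn {t : Environment} (hnt : NoTies t) (ht : ∀ e, 0 ≤ t e) {j : ℤ}
    {u w : ℕ → ℤ × ℤ} (hu : IsRay t (reg (Dn j)) u) (hw : IsRay t (reg (Dn j)) w) :
    Cmp (fun x => bus t (reg (Dn j)) u (x, j)) (fun x => bus t (reg (Dn j)) w (x, j)) := by
  have hm : RFL.Mir RFL.ry (Up (-j)) (Dn j) := RFL.mir_SEL_up' j
  rw [RFL.isRay_refl hm] at hu hw
  have h := cmp_rays_up (RFL.noTies_refl.2 hnt) (RFL.nonneg_refl.2 ht) hu hw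
  have e1 : (fun x => bus t (reg (Dn j)) u (x, j)) = fun x =>
      bus (N.refl t) (reg (Up (-j))) (fun k => ((u k).1, -(u k).2)) (x, -j) := by
    funext x
    rw [RFL.bus_refl hm]
  have e2 : (fun x => bus t (reg (Dn j)) w (x, j)) = fun x =>
      bus (N.refl t) (reg (Up (-j))) (fun k => ((w k).1, -(w k).2)) (x, -j) := by
    funext x
    rw [RFL.bus_refl hm]
  rw [e1, e2]
  exact h

open Classical in
/-- the slope of a label (junk value if there is none) -/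
noncomputable def slOf (D : Set ℝ) (q : ℝ) (f g : ℝ → Environment → ℤ → ℝ) (t : Environment)
    (a : (ℤ → ℝ) × (ℤ → ℝ)) : ℝ :=
  if h : ∃ s, -q < s ∧ s < q ∧ Sand D (fun p => f p t) s a.1 ∧ SandUp D (fun p => g p t) s a.2
  then h.choose else 0

lemma slOf_spec {D : Set ℝ} {q : ℝ} {j : ℤ} {f g : ℝ → Environment → ℤ → ℝ} {t : Environment}
    {a : (ℤ → ℝ) × (ℤ → ℝ)} (ha : a ∈ LabSet D q j f g t) :
    -q < slOf D q f g t a ∧ slOf D q f g t a < q ∧
      Sand D (fun p => f p t) (slOf D q f g t a) a.1 ∧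
      SandUp D (fun p => g p t) (slOf D q f g t a) a.2 := by
  obtain ⟨-, -, h⟩ := ha
  unfold slOf
  rw [dif_pos h]
  exact h.choose_spec

/-- **CLASS for the labels of the rows `±j`** -/
theorem classHyp_labSet [NullSingletonClass G] (hG : M51.Law213 G) {D : Set ℝ} {q : ℝ} {j : ℤ}
    (hj : 1 ≤ j) (hDd : ∀ x y, -q < x → x < y → y < q → ∃ p ∈ D, x < p ∧ p < y)
    {f g : ℝ → Environment → ℤ → ℝ} (hf : RowFam G D (Up j) j (-1) f)
    (hg : RowFam G D (Dn (-j)) (-j) 1 g) : ClassHyp G (LabSet D q j f g) := by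
  have hat : ∀ x, G {x} = 0 := fun x => measure_singleton x
  have hnt := ae_noTies (G := G) hat
  have hnn : ∀ᵐ t ∂(iidLaw G), K.Nn t := K.ae_Nn hG.h0
  have hdis : Disjoint (K.edgesIn (Up j)) (K.edgesIn (Dn (-j))) :=
    disjoint_edges (show -j < j by omega)
  have hc := chain_env G hDd hdis hf.mean hg.mean
    (fun p hp x t t' h => hf.dep p hp t t' h x) (fun p hp x t t' h => hg.dep p hp t t' h x)
  have htot := labels_total hDd hc (L := LabSet D q j f g) (sl := slOf D q f g)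
    (Eventually.of_forall fun t a ha => slOf_spec ha)
    (by
      filter_upwards [hnt, hnn] with t h1 h2 a ha b hb _
      obtain ⟨u, hu, hau⟩ := ha.1
      obtain ⟨w, hw, hbw⟩ := hb.1
      rw [hau, hbw]
      exact cmp_rays_up h1 h2 hu hw)
    (by
      filter_upwards [hnt, hnn] with t h1 h2 a ha b hb _
      obtain ⟨u, hu, hau⟩ := ha.2.1
      obtain ⟨w, hw, hbw⟩ := hb.2.1
      rw [hau, hbw]
      exact cmp_rays_dn h1 h2 hu hw)
  refine class_rows hG j (-j) htot ?_ one_pos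
  filter_upwards [hnn] with t h2 a ha x
  obtain ⟨⟨u, hu, hau⟩, ⟨w, hw, hbw⟩, -⟩ := ha
  rw [hau, hbw]
  exact ⟨abs_inc_le_of_isLip (isLip_bus h2 hu) (by simp [Up]) (by simp [Up]),
    abs_inc_le_of_isLip (isLip_bus h2 hw) (by simp [Dn]) (by simp [Dn])⟩

end class_

section good

variable {G : Measure ℝ} [IsProbabilityMeasure G]

open F592 in
/-- **[HG]** the input `hgood` of `F592.Sel0.ae_exists_succ` -/
theorem hgood_of_rows [NullSingletonClass G] (hG : M51.Law213 G) {μ : ℝ × ℝ → ℝ} {m : ℝ}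
    (hm0 : 0 < m) (hm : ∀ x y : ℝ, m * |x| ≤ μ (x, y))
    (hS : ∀ᵐ t ∂(iidLaw G), ∀ ε > 0, ∀ᶠ n : ℕ in atTop, K.dev μ n t ≤ ε * n)
    {D : Set ℝ} (hDc : D.Countable) (hDm : D ⊆ Ioo (-m) m)
    (hDd : ∀ x y, -m < x → x < y → y < m → ∃ p ∈ D, x < p ∧ p < y)
    (hrows : ∀ j : ℤ, 1 ≤ j → ∃ f g : ℝ → Environment → ℤ → ℝ,
      RowFam G D (Up j) j (-1) f ∧ RowFam G D (Dn (-j)) (-j) 1 g)
    {γ : ℤ → Environment → ℤ → ℤ × ℤ} {X : Environment → Set ℤ} {m0 : ℕ}
    (S : Sel0 (iidLaw G) γ X m0) (sl : ℤ → Environment → ℝ) (hslm : ∀ x, Measurable (sl x))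
    (hslc : ∀ z t x, sl x (A.shift (z, 0) t) = sl (x + z) t)
    (hsl : ∀ᵐ t ∂(iidLaw G), ∀ x ∈ X t, |sl x t| < m ∧ Y96.HasSl t (γ x t) (sl x t)) :
    ∀ κ : ℝ, 0 < κ → ∀ β : ℝ≥0∞, 0 < β → ∃ Gd : Environment → Set ℤ,
      (∀ x, NullMeasurableSet {t | x ∈ Gd t} (iidLaw G)) ∧
      (∀ z t x, x ∈ Gd (A.shift (z, 0) t) ↔ x + z ∈ Gd t) ∧
      (iidLaw G) {t | (0 : ℤ) ∈ X t ∧ (0 : ℤ) ∉ Gd t} ≤ β ∧
      ∀ᵐ t ∂(iidLaw G), (0 : ℤ) ∈ X t → (0 : ℤ) ∈ Gd t →
        {j : ℤ | j ∈ X t ∧ j ∈ Gd t ∧ gp t (-1) 0 (γ 0 t) (γ j t) ≤ κ}.Finite := by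
  intro κ hκ β hβ
  have hnn : ∀ᵐ t ∂(iidLaw G), K.Nn t := K.ae_Nn hG.h0
  -- a real bound
  obtain ⟨e, he, heβ⟩ : ∃ e : ℝ, 0 < e ∧ ENNReal.ofReal (4 * e) ≤ β := by
    rcases eq_or_ne β ⊤ with rfl | hβt
    · exact ⟨1, one_pos, le_top⟩
    · refine ⟨β.toReal / 4, by have := ENNReal.toReal_pos hβ.ne' hβt; linarith, ?_⟩
      rw [mul_div_cancel₀ _ (by norm_num : (4 : ℝ) ≠ 0), ENNReal.ofReal_toReal hβt]
  -- the bound on the slope
  obtain ⟨c1, hc1m, hc1⟩ : ∃ c1 : ℝ, c1 < m ∧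
      (iidLaw G).real {t | (0 : ℤ) ∈ X t → |sl 0 t| ≤ c1}ᶜ ≤ e := by
    have hmeas : ∀ n : ℕ, MeasurableSet {t | (0 : ℤ) ∈ X t → |sl 0 t| ≤ m - 1 / ((n : ℝ) + 1)} := by
      intro n
      exact F592.mset_imp (S.measX 0) (measurableSet_le (hslm 0).abs measurable_const)
    obtain ⟨n0, hn0⟩ := G785.exists_compl_le (iidLaw G)
      (E := fun n : ℕ => {t | (0 : ℤ) ∈ X t → |sl 0 t| ≤ m - 1 / ((n : ℝ) + 1)}) hmeas
      (fun n n' hnn' t ht h => (ht h).trans (by
        have : (1 : ℝ) / ((n' : ℝ) + 1) ≤ 1 / ((n : ℝ) + 1) :=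
          one_div_le_one_div_of_le (by positivity) (by
            have : (n : ℝ) ≤ n' := by exact_mod_cast hnn'
            linarith)
        linarith)) (by
        filter_upwards [hsl] with t ht
        by_cases h0 : (0 : ℤ) ∈ X t
        · have h1 := (ht 0 h0).1
          obtain ⟨n, hn⟩ := exists_nat_one_div_lt (show 0 < m - |sl 0 t| by linarith)
          exact ⟨n, fun _ => by linarith⟩
        · exact ⟨0, fun h => absurd h h0⟩) he
    exact ⟨m - 1 / ((n0 : ℝ) + 1), by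
      have : (0 : ℝ) < 1 / ((n0 : ℝ) + 1) := by positivity
      linarith, hn0 n0 le_rfl⟩
  set q : ℝ := (max c1 0 + m) / 2 with hq
  have hc1q : c1 < q := by
    have := le_max_left c1 0
    rw [hq]; linarith
  have hqm : q < m := by
    have : max c1 0 < m := max_lt hc1m hm0
    rw [hq]; linarith
  have hq0 : 0 < q := by
    have := le_max_right c1 0
    rw [hq]; linarith
  obtain ⟨p2, hp2, hp2q, -⟩ := hDd q ((q + m) / 2) (by linarith) (by linarith) (by linarith)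
  obtain ⟨p1, hp1, -, hp1q⟩ := hDd (-((q + m) / 2)) (-q) (by linarith) (by linarith) (by linarith)
  have hp2m := hDm hp2
  have hp1m := hDm hp1
  -- the constants of LFE
  obtain ⟨a, b, c, hab, hc, hga, hGM⟩ := G785.exists_GM (G := G) hG.h0
  obtain ⟨k0, hk0⟩ := lfe_cov_null_abc (G := G) hG.h0 hab hc hga κ
  obtain ⟨k, hkk0, hke⟩ : ∃ k : ℕ, k0 ≤ k ∧ ((1 : ℝ) / 2) ^ k ≤ e := by
    have h1 : Tendsto (fun n : ℕ => ((1 : ℝ) / 2) ^ n) atTop (𝓝 0) :=
      tendsto_pow_atTop_nhds_zero_of_lt_one (by norm_num) (by norm_num)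
    obtain ⟨n, hn⟩ := ((h1.eventually (ge_mem_nhds he)).and (eventually_ge_atTop k0)).exists
    exact ⟨n, hn.2, hn.1⟩
  set j : ℤ := (k : ℤ) + 1 with hj
  have hj1 : (1 : ℤ) ≤ j := by omega
  obtain ⟨f, g, hf, hg⟩ := hrows j hj1
  set L : Environment → Set ((ℤ → ℝ) × (ℤ → ℝ)) := LabSet D q j f g with hL
  have hclass : ClassHyp G L := classHyp_labSet hG hj1
    (fun x y hx hxy hy => hDd x y (by linarith) hxy (by linarith)) hf hg
  have hLdep : ∀ t t' : Environment, (∀ e, e ∉ strip k → t e = t' e) → L t = L t' := by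
    have key : ∀ t t' : Environment, (∀ e, e ∉ strip k → t e = t' e) → L t ⊆ L t' := by
      intro t t' h
      have hU : ∀ e ∈ K.edgesIn (Up j), t e = t' e := fun e he => h e (notMem_strip_of_up he)
      have hD : ∀ e ∈ K.edgesIn (Dn (-j)), t e = t' e := fun e he => h e (notMem_strip_of_dn he)
      exact labSet_subset (fun p hp x => hf.dep p hp t t' hU x)
        (fun p hp x => hg.dep p hp t t' hD x) hU hD
    intro t t' h
    exact (key t t' h).antisymm (key t' t fun e he => (h e he).symm)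
  -- goodness
  have hsqF : G785.SqzLaw G m (f p2) (f p1) := by
    refine ⟨hf.mean.meas p2 hp2, hf.mean.meas p1 hp1, -1 * p2, -1 * p1, ?_, ?_, ?_, ?_⟩
    · linarith [hp2m.2]
    · linarith [hp1m.1]
    · filter_upwards [hf.slope p2 hp2] with t ht using ht.top
    · filter_upwards [hf.slope p1 hp1] with t ht using ht.bot
  have hsqH : G785.SqzLaw G m (g p1) (g p2) := by
    refine ⟨hg.mean.meas p1 hp1, hg.mean.meas p2 hp2, 1 * p1, 1 * p2, ?_, ?_, ?_, ?_⟩
    · linarith [hp1m.1]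
    · linarith [hp2m.2]
    · filter_upwards [hg.slope p1 hp1] with t ht using ht.top
    · filter_upwards [hg.slope p2 hp2] with t ht using ht.bot
  obtain ⟨C0, hC0, hC0'⟩ := hGM μ m hm0.le hm hS k (f p2) (f p1) (g p1) (g p2) hsqF hsqH 0 e he
  obtain ⟨D0, hD0⟩ := hC0' C0 le_rfl
  set Dn' : ℕ := max D0 1 with hDn'
  have hGMp := hD0 Dn' (le_max_left _ _)
  set GM0 : Set Environment := G785.GM k Dn' C0 c b (f p2) (f p1) (g p1) (g p2) 0 with hGM0
  have hGM0m : MeasurableSet GM0 := G785.measurableSet_GM (hf.mean.meas p2 hp2)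
    (hf.mean.meas p1 hp1) (hg.mean.meas p1 hp1) (hg.mean.meas p2 hp2)
  obtain ⟨C, -, hfin⟩ := hk0 k hkk0 L hLdep hclass C0 Dn' hC0 (le_max_right _ _)
  set Gd : Environment → Set ℤ := fun t => {x | A.shift (x, 0) t ∈ GM0 ∧ |sl x t| ≤ c1} with hGd
  have hGdm : ∀ x, MeasurableSet {t | x ∈ Gd t} := by
    intro x
    exact F592.mset_and ((A.mp_shift G (x, 0)).measurable hGM0m)
      (measurableSet_le (hslm x).abs measurable_const)
  have hGdc : ∀ z t x, x ∈ Gd (A.shift (z, 0) t) ↔ x + z ∈ Gd t := by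
    intro z t x
    simp only [hGd, mem_ofPred_eq, A.shift_shift, hslc, Prod.mk_add_mk, add_zero]
  refine ⟨Gd, fun x => (hGdm x).nullMeasurableSet, hGdc, ?_, ?_⟩
  · -- probability
    have hsub : {t | (0 : ℤ) ∈ X t ∧ (0 : ℤ) ∉ Gd t} ⊆
        GM0ᶜ ∪ {t | (0 : ℤ) ∈ X t → |sl 0 t| ≤ c1}ᶜ := by
      rintro t ⟨h1, h2⟩
      by_cases h3 : t ∈ GM0
      · right
        intro h4
        refine h2 ⟨?_, h4 h1⟩
        have : A.shift ((0 : ℤ), (0 : ℤ)) t = t := A.shift_zero t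
        rwa [this]
      · exact Or.inl h3
    have h1 : (iidLaw G).real {t | (0 : ℤ) ∈ X t ∧ (0 : ℤ) ∉ Gd t} ≤ 4 * e := by
      refine (measureReal_mono hsub).trans ((measureReal_union_le _ _).trans ?_)
      linarith
    rw [← ENNReal.ofReal_toReal (measure_ne_top (iidLaw G) _)]
    exact (ENNReal.ofReal_le_ofReal h1).trans heβ
  · -- finiteness
    set E : ℤ → ℤ → Set Environment := fun x y =>
      {t | x ∈ X t ∧ x ∈ Gd t ∧ y ∈ X t ∧ y ∈ Gd t ∧ gp t (-1) 0 (γ x t) (γ y t) ≤ κ} with hE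
    have hEm : ∀ x y, MeasurableSet (E x y) := fun x y =>
      F592.mset_and (S.measX x) (F592.mset_and (hGdm x) (F592.mset_and (S.measX y)
        (F592.mset_and (hGdm y) (measurableSet_le (S.measurable_gap x y (-1) 0)
          measurable_const))))
    have hEc : ∀ x y, (iidLaw G) (E x y) = (iidLaw G) (E 0 (y - x)) := by
      intro x y
      have h1 : A.shift (x, 0) ⁻¹' (E 0 (y - x)) = E x y := by
        ext t
        simp only [hE, mem_preimage, mem_ofPred_eq, S.covX, hGdc, S.gap_cov, zero_add,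
          sub_add_cancel]
      rw [← h1, (A.mp_shift G (x, 0)).measure_preimage (hEm _ _).nullMeasurableSet]
    have hTwo : ∀ x y, ∀ᵐ t ∂(iidLaw G), t ∈ E x y → Two k Dn' κ C0 c b L x y t := by
      intro x y
      have cF := (ae_ball_iff hDc).2 hf.cmp
      have cG := (ae_ball_iff hDc).2 hg.cmp
      have sF := (ae_ball_iff hDc).2 hf.slope
      have sG := (ae_ball_iff hDc).2 hg.slope
      filter_upwards [hnn, S.pos, S.big, S.ud, S.locU, hsl, cF, cG, sF, sG,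
        hf.cov p1 hp1, hf.cov p2 hp2, hg.cov p1 hp1, hg.cov p2 hp2] with t h0 hpos hbig hud hloc
        hslt hcF hcG hsF hsG i1 i2 i3 i4 htE
      obtain ⟨hxX, hxG, hyX, hyG, hgap⟩ := htE
      have hgoodx : t ∈ G785.GM k Dn' C0 c b (f p2) (f p1) (g p1) (g p2) x :=
        (G785.GM_shift (i2 x) (i1 x) (i3 x) (i4 x)).1 hxG.1
      have hgoody : t ∈ G785.GM k Dn' C0 c b (f p2) (f p1) (g p1) (g p2) y :=
        (G785.GM_shift (i2 y) (i1 y) (i3 y) (i4 y)).1 hyG.1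
      have hsx := hslt x hxX
      have habs := abs_le.1 hxG.2
      set v := γ x t with hv
      have hmem : lab t j (-j) v ∈ L t := lab_mem_labSet h0 (hbig x hxX) (hud x hxX)
        (s := sl x t) (by linarith [habs.1]) (by linarith [habs.2]) (hsx.2.up j) (hsx.2.dn (-j))
        hsF hsG hcF hcG
      have hsqz1 : ∀ a ∈ L t, G785.Sqz (f p2 t) (f p1 t) a.1 := fun a ha =>
        sqz_up ha hp1 hp2 hp1q.le hp2q.le
      have hsqz2 : ∀ a ∈ L t, G785.Sqz (g p1 t) (g p2 t) a.2 := fun a ha =>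
        sqz_dn ha hp1 hp2 hp1q.le hp2q.le
      have hNT : ∀ y', t ∈ G785.GM k Dn' C0 c b (f p2) (f p1) (g p1) (g p2) y' → y' ∈ X t →
          gp t (-1) 0 v (γ y' t) ≤ κ → NT k Dn' κ (lab t j (-j) v) y' t := by
        intro y' hgy hyX' hgp
        have hg1 := hgy.1.1.1
        have hg2 := hgy.1.1.2
        have hk1 : |(k : ℤ) + 1| ≤ (k : ℤ) + 1 := by rw [abs_of_nonneg (by omega)]
        have hk2 : |-((k : ℤ) + 1)| ≤ (k : ℤ) + 1 := by rw [abs_neg]; exact hk1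
        have hz1 : |((y', 0) : ℤ × ℤ).1 - y'| ≤ (k : ℤ) := by simp
        have hz2 : |((y', 0) : ℤ × ℤ).2| ≤ (k : ℤ) + 1 := by simp; omega
        refine nt_of_gap (xh := F592.pd (-1) (γ y' t)) hpos (hbig x hxX) (hud x hxX) ?_ ?_ ?_
        · have h1 : gp t (-1) 0 v (γ y' t) = Ps t (-1) 0 v (pu 0 (γ y' t)) (pd (-1) (γ y' t)) -
              Ps t (-1) 0 v (pu 0 v) (pd (-1) v) := rfl
          rw [h1, Ps_self h0 (hbig x hxX) (hud x hxX), hloc y' hyX'] at hgp
          have h2 : tailD (-1) v 0 = v (entD (-1) v) := by simp [tailD]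
          have h3 : tailU 0 v 0 = v (entU 0 v) := by simp [tailU]
          rw [h2, h3]
          unfold Ps at hgp
          linarith
        · intro w hw
          have := G785.G1.loc h0 hg1 hk1 (hsqz1 _ hmem) hz1 hz2 hw
          simp only [lab] at this
          linarith
        · intro z hz
          have := G785.G1.loc h0 hg2 hk2 (hsqz2 _ hmem) hz1 hz2 hz
          simp only [lab] at this
          rw [K.pt_symm h0 (y', 0), K.pt_symm h0 (y', 0)] at this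
          linarith
      refine ⟨lab t j (-j) v, hmem, G785.GM.good hgoodx hsqz1, G785.GM.good hgoody hsqz1,
        hNT x hgoodx hxX ?_, hNT y hgoody hyX hgap⟩
      rw [hv, gp_self]
      exact hκ.le
    obtain ⟨-, hF⟩ := hfin E (fun x y => (hEm x y).nullMeasurableSet) hEc hTwo
    filter_upwards [hF] with t ht hx0 hg0
    refine ht.subset fun y hy => ?_
    exact ⟨hx0, hg0, hy.1, hy.2.1, hy.2.2⟩

end good

end Crest.Agent.R151.E39
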