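import Crest.Agent.R151.M192f

/-!
# R151 / S0214 part 2, E39h — the dichotomy, abstract part (helper39)

* `cheap_of_tail` : exponential tail with rate `64` on typical rows ⟹ `Cheap`;
* `costly_of` : small ball of the window kernel + `m`-cell exit + `cells_large` ⟹ `Costly`;
* `dich_of` : the dichotomy, according to the median of one inner row.
-/

set_option autoImplicit false

open MeasureTheory ProbabilityTheory Set Filter
open scoped ENNReal Topology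

namespace Crest.Agent.R151.E39

open Crest.Agent.R151.E191

section pure

variable {Ω : Type*} [MeasurableSpace Ω] {P : Measure Ω} [IsProbabilityMeasure P]

/-- mean of a nonnegative variable on a set, from an exponential tail -/
theorem mean_of_tail {f : Ω → ℝ} {T : Set Ω} (hf : Measurable f)
    (h0 : ∀ ω, 0 ≤ f ω) {c C : ℝ} (hc : 0 < c) (hC : 0 ≤ C)
    (ht : ∀ y, 0 ≤ y → P.real ({ω | y ≤ f ω} ∩ T) ≤ C * Real.exp (-(c * y))) :
    IntegrableOn f T P ∧ ∫ ω in T, f ω ∂P ≤ C / c := by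
  have hexp : ∫⁻ y in Ioi (0 : ℝ), ENNReal.ofReal (C * Real.exp (-(c * y))) =
      ENNReal.ofReal (C / c) := by
    have hint : IntegrableOn (fun y : ℝ => C * Real.exp (-(c * y))) (Ioi 0) := by
      have := (integrableOn_exp_mul_Ioi (a := -c) (by linarith) 0).const_mul C
      have h2 : (fun y : ℝ => C * Real.exp (-(c * y))) = fun y => C * Real.exp (-c * y) := by
        funext y; ring_nf
      rw [h2]
      exact this
    rw [← ofReal_integral_eq_lintegral_ofReal hint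
      (ae_of_all _ fun y => mul_nonneg hC (Real.exp_pos _).le)]
    congr 1
    rw [integral_const_mul]
    have h1 := integral_exp_mul_Ioi (a := -c) (by linarith) 0
    have h2 : (fun y : ℝ => Real.exp (-(c * y))) = fun y => Real.exp (-c * y) := by
      funext y; ring_nf
    rw [h2, h1]
    simp
    ring
  have hlint : ∫⁻ ω in T, ENNReal.ofReal (f ω) ∂P ≤ ENNReal.ofReal (C / c) := by
    rw [lintegral_eq_lintegral_meas_le _ (ae_of_all _ h0) hf.aemeasurable, ← hexp]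
    refine setLIntegral_mono' measurableSet_Ioi fun y hy => ?_
    rw [Measure.restrict_apply (measurableSet_le measurable_const hf)]
    rw [← ENNReal.ofReal_toReal (measure_ne_top P ({ω | y ≤ f ω} ∩ T))]
    exact ENNReal.ofReal_le_ofReal (ht y (le_of_lt hy))
  have hi : IntegrableOn f T P := by
    refine ⟨hf.aestronglyMeasurable, ?_⟩
    rw [hasFiniteIntegral_iff_ofReal (ae_of_all _ h0)]
    exact lt_of_le_of_lt hlint ENNReal.ofReal_lt_top
  refine ⟨hi, ?_⟩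
  rw [← ofReal_integral_eq_lintegral_ofReal hi (ae_of_all _ h0)] at hlint
  exact (ENNReal.ofReal_le_ofReal_iff (div_nonneg hC hc.le)).1 hlint

/-- `Cheap` from an exponential tail -/
theorem cheap_of_tail {R : RowA Ω} {C0 δ : ℝ}
    (hm : ∀ x : ℝ, -(1 / 16) ≤ x → x < 1 / 8 → Measurable (R.K x (x + 5 * δ)))
    (h0 : ∀ x : ℝ, -(1 / 16) ≤ x → x < 1 / 8 → ∀ ω, 0 ≤ R.K x (x + 5 * δ) ω)
    (ht : ∀ x y : ℝ, -(1 / 16) ≤ x → x < 1 / 8 → 0 ≤ y →
      P.real ({ω | y ≤ R.K x (x + 5 * δ) ω} ∩ R.T) ≤ 2 * Real.exp (-(64 * y)))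
    (hC : 2 ≤ C0) : R.Cheap P C0 δ where
  int x hx1 hx2 := (mean_of_tail (hm x hx1 hx2) (h0 x hx1 hx2) (c := 64) (C := 2)
    (by norm_num) (by norm_num) fun y hy => ht x y hx1 hx2 hy).1
  mean x hx1 hx2 := by
    have := (mean_of_tail (hm x hx1 hx2) (h0 x hx1 hx2) (c := 64) (C := 2)
      (by norm_num) (by norm_num) fun y hy => ht x y hx1 hx2 hy).2
    norm_num at this ⊢
    exact this
  tail x y hx1 hx2 hy := by
    refine (ht x y hx1 hx2 hy).trans ?_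
    have h1 : Real.exp (-(64 * y)) ≤ Real.exp (-y / C0) := by
      apply Real.exp_le_exp.2
      rw [neg_div, neg_le_neg_iff]
      have : y / C0 ≤ y := div_le_self hy (by linarith)
      linarith
    have h2 := Real.exp_pos (-y / C0)
    nlinarith

/-- number of cells to be crossed by a route leaving the window -/
lemma exists_cells {C1 e : ℝ} {n : ℕ} (hn : 1 ≤ Real.log n / C1 - C1) (he : 0 < e)
    (he1 : e ≤ 1) : ∃ m : ℕ, 1 ≤ m ∧ 3 * (m : ℝ) / 16 + 1 / 32 ≤ 1 / e ∧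
      2 * Real.exp (-((Real.log n / C1 - C1) * m)) ≤ e / 2 := by
  have h4e : 0 < 4 / e := by positivity
  have hlog : 0 < Real.log (4 / e) := Real.log_pos (by
    rw [lt_div_iff₀ he]; linarith)
  refine ⟨⌈Real.log (4 / e)⌉₊, Nat.one_le_iff_ne_zero.2 (by
    have := Nat.ceil_pos.2 hlog; omega), ?_, ?_⟩
  · have h1 := Nat.ceil_lt_add_one hlog.le
    have h2 : Real.log (4 / e) ≤ 4 / e - 1 := Real.log_le_sub_one_of_pos h4e
    have h3 : (1 : ℝ) ≤ 1 / e := by rw [le_div_iff₀ he]; linarith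
    have h4 : 4 / e = 4 * (1 / e) := by ring
    linarith
  · have h1 := Nat.le_ceil (Real.log (4 / e))
    have h2 : Real.exp (-((Real.log n / C1 - C1) * (⌈Real.log (4 / e)⌉₊ : ℝ))) ≤
        Real.exp (-Real.log (4 / e)) := by
      apply Real.exp_le_exp.2
      have h3 : (0 : ℝ) ≤ (⌈Real.log (4 / e)⌉₊ : ℝ) := Nat.cast_nonneg _
      nlinarith
    rw [Real.exp_neg (Real.log (4 / e)), Real.exp_log h4e, inv_div] at h2
    linarith

/-- **`Costly`** from the small ball of the window kernel `Kw`, the `m`-cell exit and the large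
deviations of the cells. -/
theorem costly_of {R : RowA Ω} {Kw : ℝ → ℝ → Ω → ℝ} {C0 C1 C2 δ v e : ℝ} {n : ℕ}
    (hC2 : 0 ≤ C2) (hC0 : C2 ≤ C0) (hC01 : 1 ≤ C0)
    (hn : 1 ≤ Real.log n / C1 - C1) (he : 0 < e) (he1 : e ≤ 1)
    (hM : ∀ (ω : Ω) (s t xR xL : ℝ) (m : ℕ), 1 ≤ m → |s| ≤ v → |t| ≤ v → t ≤ xR →
      xR + 3 * m / 16 + 1 / 32 ≤ v + 1 / e → -(v + 1 / e) ≤ xL → xL + 3 * m / 16 + 1 / 32 ≤ s →
      min (Kw s t ω) (min (R.cross xR m ω) (R.cross xL m ω)) ≤ R.K s t ω)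
    (hcells : ∀ (x : ℝ) (m : ℕ), |x| ≤ v + 1 / e → |x + 3 * m / 16 + 1 / 32| ≤ v + 1 / e →
      P.real ({ω | R.cross x m ω ≤ m} ∩ R.T) ≤ Real.exp (-((Real.log n / C1 - C1) * m)))
    (hw : ∀ x κ : ℝ, |x| ≤ v → |x + δ| ≤ v → 0 ≤ κ →
      P.real ({ω | Kw x (x + δ) ω ≤ κ} ∩ R.T) ≤ C2 * κ + e / 2) :
    R.Costly P C0 δ v e := by
  intro x κ hx hxδ hκ
  have hv : 0 ≤ v := (abs_nonneg x).trans hx
  have hP1 : P.real ({ω | R.K x (x + δ) ω ≤ κ} ∩ R.T) ≤ 1 := measureReal_le_one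
  rcases le_total 1 κ with h1 | h1
  · nlinarith
  obtain ⟨m, hm1, hm2, hm3⟩ := exists_cells hn he he1
  have hm1' : (1 : ℝ) ≤ m := by exact_mod_cast hm1
  set xR : ℝ := v with hxR
  set xL : ℝ := -v - 3 * m / 16 - 1 / 32 with hxL
  have hxa := abs_le.1 hx
  have hxb := abs_le.1 hxδ
  have hinv : 0 < 1 / e := by positivity
  have hsub : {ω | R.K x (x + δ) ω ≤ κ} ∩ R.T ⊆
      ({ω | Kw x (x + δ) ω ≤ κ} ∩ R.T) ∪
        (({ω | R.cross xR m ω ≤ m} ∩ R.T) ∪ ({ω | R.cross xL m ω ≤ m} ∩ R.T)) := by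
    rintro ω ⟨hω, hωT⟩
    have h2 := hM ω x (x + δ) xR xL m hm1 hx hxδ hxb.2 (by rw [hxR]; linarith) (by rw [hxL]; linarith)
      (by rw [hxL]; linarith)
    have h3 := h2.trans hω
    rcases min_le_iff.1 h3 with h4 | h4
    · exact Or.inl ⟨h4, hωT⟩
    · rcases min_le_iff.1 h4 with h5 | h5
      · exact Or.inr (Or.inl ⟨le_trans h5 (h1.trans hm1'), hωT⟩)
      · exact Or.inr (Or.inr ⟨le_trans h5 (h1.trans hm1'), hωT⟩)
  have hR := hcells xR m (by rw [hxR, abs_of_nonneg hv]; linarith)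
    (by rw [hxR, abs_of_nonneg (by positivity)]; linarith)
  have hL := hcells xL m (by rw [hxL, abs_le]; constructor <;> linarith)
    (by rw [hxL, abs_le]; constructor <;> linarith)
  have hW := hw x κ hx hxδ hκ
  have h6 := (measureReal_mono hsub (measure_ne_top P _)).trans (measureReal_union_le _ _)
  have h7 := measureReal_union_le (μ := P) ({ω | R.cross xR m ω ≤ m} ∩ R.T)
    ({ω | R.cross xL m ω ≤ m} ∩ R.T)
  have h8 : C2 * κ ≤ C0 * κ := mul_le_mul_of_nonneg_right hC0 hκ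
  linarith

/-- **the dichotomy**: `V` = cost of one inner row -/
theorem dich_of {R : RowA Ω} {Kw : ℝ → ℝ → Ω → ℝ} {V : Ω → ℝ} {C0 C1 C2 δ v e τ : ℝ} {n : ℕ}
    (hV : Measurable V)
    (hm : ∀ x : ℝ, -(1 / 16) ≤ x → x < 1 / 8 → Measurable (R.K x (x + 5 * δ)))
    (h0 : ∀ x : ℝ, -(1 / 16) ≤ x → x < 1 / 8 → ∀ ω, 0 ≤ R.K x (x + 5 * δ) ω)
    (hC2 : 0 ≤ C2) (hC0 : C2 ≤ C0) (hC01 : 2 ≤ C0)
    (hn : 1 ≤ Real.log n / C1 - C1) (he : 0 < e) (he1 : e ≤ 1)
    (hM : ∀ (ω : Ω) (s t xR xL : ℝ) (m : ℕ), 1 ≤ m → |s| ≤ v → |t| ≤ v → t ≤ xR →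
      xR + 3 * m / 16 + 1 / 32 ≤ v + 1 / e → -(v + 1 / e) ≤ xL → xL + 3 * m / 16 + 1 / 32 ≤ s →
      min (Kw s t ω) (min (R.cross xR m ω) (R.cross xL m ω)) ≤ R.K s t ω)
    (hcells : ∀ (x : ℝ) (m : ℕ), |x| ≤ v + 1 / e → |x + 3 * m / 16 + 1 / 32| ≤ v + 1 / e →
      P.real ({ω | R.cross x m ω ≤ m} ∩ R.T) ≤ Real.exp (-((Real.log n / C1 - C1) * m)))
    (hw : 1 / 2 ≤ P.real {ω | τ ≤ V ω} → ∀ x κ : ℝ, |x| ≤ v → |x + δ| ≤ v → 0 ≤ κ →
      P.real ({ω | Kw x (x + δ) ω ≤ κ} ∩ R.T) ≤ C2 * κ + e / 2)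
    (ht : 1 / 2 ≤ P.real {ω | V ω ≤ τ} → ∀ x y : ℝ, -(1 / 16) ≤ x → x < 1 / 8 → 0 ≤ y →
      P.real ({ω | y ≤ R.K x (x + 5 * δ) ω} ∩ R.T) ≤ 2 * Real.exp (-(64 * y))) :
    R.Cheap P C0 δ ∨ R.Costly P C0 δ v e := by
  rcases le_or_gt (1 / 2) (P.real {ω | τ ≤ V ω}) with h | h
  · exact Or.inr (costly_of hC2 hC0 (by linarith) hn he he1 hM hcells (hw h))
  · left
    refine cheap_of_tail hm h0 (ht ?_) hC01
    have h1 : MeasurableSet {ω | τ ≤ V ω} := measurableSet_le measurable_const hV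
    have h2 := probReal_compl_eq_one_sub (μ := P) h1
    have h3 : P.real {ω | τ ≤ V ω}ᶜ ≤ P.real {ω | V ω ≤ τ} := by
      refine measureReal_mono (fun ω hω => ?_) (measure_ne_top P _)
      simp only [mem_compl_iff, mem_ofPred_eq, not_le] at hω
      exact hω.le
    linarith

end pure

end Crest.Agent.R151.E39
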