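import Crest.Agent.R151.G338o
import Crest.Agent.R151.Q8c
import Crest.Agent.R151.V22
import Crest.Agent.R151.R78Q
import Crest.Agent.R151.E39h

/-!
# R151 / S0214 part 2, E39i — (T1), (T2) in unconditional form on the typical set (helper39)

`S` = a `σ(S)`-measurable set of typical rows; `D = gauge - ρ`.
* `gen_T1` : small ball of `R#` on `S`;
* `gen_T2` : exponential tail of `R#` on `S ∩ {|D| ≤ A}`.
-/

set_option autoImplicit false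

open MeasureTheory Filter ProbabilityTheory Topology Set
open scoped ENNReal
open Crest.ProbabilityR.FirstPassage

namespace Crest.Agent.R151.E39

open K R78 B710 G338 M192 Q

variable {μ : ℝ × ℝ → ℝ} {F : FlatData μ}

lemma hE_E0 (h : Hwy F) (d : ℝ × ℝ) (e : Sym2 (ℤ × ℤ)) :
    MeasurableSet {θ | e ∈ V.E0 h d θ} := V.measurableSet_E0 h d e

/-- **(T1), unconditional form** -/
theorem gen_T1 {r₀ : ℝ} (hr : 0 < r₀) [IsProbabilityMeasure (gammaMeasure 1 r₀)]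
    (h0 : gammaMeasure 1 r₀ (Set.Iio 0) = 0) (hμ : NormLike μ) {cψ : ℝ}
    (hpsi : ∀ (v : ℝ × ℝ) (A : ℝ), 0 ≤ A → F.al v ≤ -A → |F.be v| ≤ A → cψ * A ≤ F.ψ v)
    {h : Hwy F} {y g c Λ L : ℝ} {I I' : Set ℝ} {s s' σ σ' Δ : ℝ} {N : ℕ}
    (H : LowData h y g c Λ L I I' s s' σ σ' Δ N) (hI : MeasurableSet I)
    (hI' : MeasurableSet I') {ρ : RowS → ℝ} (hρm : Measurable ρ)
    (hρS : ∀ p t, ρ (V.cs (V.E0 h (dOv F y g)) p t) = ρ p)
    {A B e τ q₀ a : ℝ} (hA : 0 < A) (he : 0 ≤ e) (hτ : A < τ) (hτB : τ ≤ cψ * Δ - 4 * B)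
    (hq0 : 0 < q₀) (hq1 : q₀ ≤ 6) (hq : 6 * e ≤ q₀) (ha : 0 ≤ a) {S : Set RowS}
    (hSm : MeasurableSet S) (hSI : V.SInv (V.E0 h (dOv F y g)) S)
    (hpos : S ⊆ V.posS h (dOv F y g))
    (hK : S ⊆ V.typ (gammaMeasure 1 r₀) (V.E0 h (dOv F y g)) PF (NS (obK h y g c Λ L) A) e)
    (hD : S ⊆ V.typ (gammaMeasure 1 r₀) (V.E0 h (dOv F y g)) PF (NS (obD F y g N) B) e)
    (hG : S ⊆ V.typ (gammaMeasure 1 r₀) (V.E0 h (dOv F y g)) PF (NS (obG h y g L ρ) A) e)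
    (hin : q₀ ≤ (PR (gammaMeasure 1 r₀)).real {q | τ ≤ ski h y I' L σ σ' q}) :
    (PR (gammaMeasure 1 r₀)).real ({q | sko h y g I L s s' q ≤ a} ∩ S) ≤
      3 * e + (a + 3 * A) / (τ - A) * Real.log (6 / q₀) := by
  refine V.prob_inter_le (hE_E0 h _) hSm hSI
    (measurableSet_le (measurable_sko h y g hI L s s') measurable_const) ?_
    (ae_of_all _ fun p hp => ?_)
  · have h1 : 0 ≤ Real.log (6 / q₀) := Real.log_nonneg (by
      rw [le_div_iff₀ hq0]; linarith)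
    have h2 : 0 ≤ (a + 3 * A) / (τ - A) := div_nonneg (by linarith) (by linarith)
    have := mul_nonneg h2 h1
    linarith
  · exact (T1c hr h0 hμ hpsi H hI hI' hρm hρS hA he hτ hτB hq0 hq ha (hpos hp) (hK hp) (hD hp)
      (hG hp) hin).1

/-- **(T2), unconditional form** -/
theorem gen_T2 {r₀ : ℝ} (hr : 0 < r₀) [IsProbabilityMeasure (gammaMeasure 1 r₀)]
    (h0 : gammaMeasure 1 r₀ (Set.Iio 0) = 0)
    {h : Hwy F} {y g c Λ L α β s s' αi βi σ σ' α₀ β₀ a₀ b₀ α₁ β₁ a₁ b₁ : ℝ}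
    (H : UpData h y g c Λ L α β s s' αi βi σ σ' α₀ β₀ a₀ b₀ α₁ β₁ a₁ b₁)
    {ρ : RowS → ℝ} (hρm : Measurable ρ)
    (hρS : ∀ p t, ρ (V.cs (V.E0 h (dOv F y g)) p t) = ρ p)
    {A e τ q₀ a : ℝ} (hA : 0 < A) (he : 0 ≤ e) (hτ : 0 ≤ τ) (hq0 : 0 < q₀) (hq : 8 * e ≤ q₀)
    (ha : 0 ≤ a) {S : Set RowS}
    (hSm : MeasurableSet S) (hSI : V.SInv (V.E0 h (dOv F y g)) S)
    (hpos : S ⊆ V.posS h (dOv F y g))
    (hLo : S ⊆ V.typ (gammaMeasure 1 r₀) (V.E0 h (dOv F y g)) PF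
      (NS (obLo h g c α₀ β₀ L a₀ b₀) A) e)
    (hUp : S ⊆ V.typ (gammaMeasure 1 r₀) (V.E0 h (dOv F y g)) PF
      (NS (obUp h y g c α₁ β₁ L a₁ b₁) A) e)
    (hJ : S ⊆ V.typ (gammaMeasure 1 r₀) (V.E0 h (dOv F y g)) PF (NS (obJ h y g Λ L) A) e)
    (hG : S ⊆ V.typ (gammaMeasure 1 r₀) (V.E0 h (dOv F y g)) PF (NS (obG h y g L ρ) A) e)
    (hin : q₀ ≤ (PR (gammaMeasure 1 r₀)).real {q | ski h y (Set.Icc αi βi) L σ σ' q ≤ τ}) :
    (PR (gammaMeasure 1 r₀)).real ({q | a ≤ sko h y g (Set.Icc (α - h.κ) (β + h.κ)) L s s' q} ∩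
      (S ∩ {q | |V.hkR h (dOv F y g) univ (-L) L q - ρ q| ≤ A})) ≤
      2 * Real.exp (-(q₀ / 4) * (a / (τ + 6 * A))) := by
  have hIm : MeasurableSet (Set.Icc (α - h.κ) (β + h.κ)) := measurableSet_Icc
  have hB : MeasurableSet {q : RowS | a - A ≤
      V.hkR h (dOv F y g) (Set.Icc (α - h.κ) (β + h.κ)) s s' q - ρ q} :=
    measurableSet_le measurable_const ((V.measurable_hkR h _ hIm s s').sub hρm)
  have h1 := V.prob_inter_le (G := gammaMeasure 1 r₀) (ν := UU.prod UU)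
    (E := V.E0 h (dOv F y g)) (hE_E0 h _) hSm hSI hB
    (c := 2 * Real.exp (-(q₀ / 4) * (a / (τ + 6 * A)))) (by positivity)
    (ae_of_all _ fun p hp => by
      have := T2c hr h0 H hρm hρS hA he hτ hq0 hq ha (hpos hp) (hLo hp) (hUp hp) (hJ hp)
        (hG hp) hin
      simp only [mem_ofPred_eq, hρS]
      exact this)
  refine le_trans (measureReal_mono ?_ (measure_ne_top _ _)) h1
  rintro q ⟨hq1, hqS, hqD⟩
  refine ⟨?_, hqS⟩
  simp only [mem_ofPred_eq] at hq1 hqD ⊢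
  have h2 : sko h y g (Set.Icc (α - h.κ) (β + h.κ)) L s s' q =
      V.hkR h (dOv F y g) (Set.Icc (α - h.κ) (β + h.κ)) s s' q -
        V.hkR h (dOv F y g) univ (-L) L q := rfl
  rw [h2] at hq1
  have := (abs_le.1 hqD).1
  linarith

end Crest.Agent.R151.E39
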