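import Crest.Agent.R151.E39i
import Crest.Agent.R151.NF3

/-!
# R151 / S0214 part 2, E39j — the costly alternative for configurations (helper39)

* `DNum` : numerical facts; `ev_DNum`;
* `V0` : the inner row whose median decides;
* `D1` : small ball of the window kernel.
-/

set_option autoImplicit false

open MeasureTheory Filter ProbabilityTheory Topology Set
open scoped ENNReal
open Crest.ProbabilityR.FirstPassage

namespace Crest.Agent.R151.E39

open K R78 B710 G338 M192 Q NF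
open M56 (mg one_le_mg)

variable {μ : ℝ × ℝ → ℝ} {F : FlatData μ}

/-- numerical facts of a configuration used in the dichotomy -/
structure DNum {G : Measure ℝ} {w0 c0 K : ℝ} {p : NF.Num} (c : Cf G F w0 c0 K p) (cψ : ℝ) :
    Prop where
  std : c.Std
  small : 4 * cF F + 4 * mg F + c.h.κ + c.h.wH + c.g + 4 ≤ p.δ * p.W / 32
  gap : c.h.wH + 2 * mg F + cF F + 1 ≤ c.g
  row : c.h.wH + 2 * mg F + 1 ≤ c.y / 2
  win : (3 * (p.v + 1 / p.e) + 10) * p.W ≤ p.v' * p.W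
  lW : c.l ≤ cψ * p.δ * p.W / 16

/-- half width of the window (in units of `W`) -/
noncomputable def lamD (p : NF.Num) : ℝ := p.v + 1 / p.e

/-- the inner row: cost of the rise `0 → 3 δ W` at height `y / 2` -/
noncomputable def V0 {G : Measure ℝ} {w0 c0 K : ℝ} {p : NF.Num} (c : Cf G F w0 c0 K p)
    (q : RowS) : ℝ :=
  ski c.h (c.y / 2) (Jw ((2 * lamD p + 4) * p.W)) c.L 0 (3 * p.δ * p.W) q

lemma measurable_V0 {G : Measure ℝ} {w0 c0 K : ℝ} {p : NF.Num} (c : Cf G F w0 c0 K p) :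
    Measurable (V0 c) := measurable_ski c.h _ (measurable_Jw _) _ _ _

section ev

theorem ev_DNum {G : Measure ℝ} {w0 c0 K cψ : ℝ} (hψ : 0 < cψ) :
    Ev fun p => ∀ c : Cf G F w0 c0 K p, DNum c cψ := by
  have a1 := ev_std (G := G) (F := F) (w0 := w0) (c0 := c0) (K := K)
  have a2 := le_w (2 * (4 * cF F + 4 * mg F + 4))
  have a3 := strip_le_gap fun _ _ _ _ _ _ => 4 * (3 + |K|)
  have a4 := gap_le fun _ δ _ _ _ => 64 / δ
  have a5 := le_v' fun _ _ v e => 3 * (v + 1 / e) + 10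
  have a6 := l_small (G := G) (F := F) (w0 := w0) (c0 := c0) (K := K)
    fun _ δ _ _ _ _ _ => 16 / (cψ * δ)
  refine (((((a1.and a2).and a3).and a4).and a5).and a6).mono ?_
  rintro p ⟨⟨⟨⟨⟨a1, a2⟩, a3⟩, a4⟩, a5⟩, a6⟩ c
  have hc := a1 c
  have a6 := a6 c
  have hp := hc.toStd
  have hmg := one_le_mg F
  have hcF := cF_nonneg F
  have hW : 0 < p.W := zero_lt_one.trans_le hp.W
  have hD : 0 < p.δ0 * p.W := mul_pos hp.δ0_pos hW
  have hκ := c.κ_le
  have hκ0 := c.h.κ_nonneg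
  have hK : K * (p.δ0 * p.W) ≤ |K| * (p.δ0 * p.W) :=
    mul_le_mul_of_nonneg_right (le_abs_self _) hD.le
  have hKn : 0 ≤ |K| * (p.δ0 * p.W) := by positivity
  have hwH := c.wH
  have hg := c.g_eq
  have hδ := hp.δ_pos
  -- g small relative to δ W
  have hgδ : 64 * c.g ≤ p.δ * p.W := by
    have h1 : 64 / p.δ * (p.δ' * p.W) ≤ p.W := a4
    rw [div_mul_eq_mul_div, div_le_iff₀ hδ] at h1
    rw [hg]; linarith
  have hsum : 4 * cF F + 4 * mg F + c.h.κ + c.h.wH + 4 ≤ c.g := by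
    rw [hg, hwH]
    nlinarith
  refine ⟨hc, ?_, ?_, ?_, ?_, ?_⟩
  · linarith
  · linarith
  · have := hc.g_le
    have := hc.g_pos
    linarith
  · exact mul_le_mul_of_nonneg_right a5 hW.le
  · have h1 : 16 / (cψ * p.δ) * c.l ≤ p.W := a6
    have h2 : 0 < cψ * p.δ := by positivity
    rw [div_mul_eq_mul_div, div_le_iff₀ h2] at h1
    rw [le_div_iff₀ (by norm_num)]
    linarith

end ev

lemma real_mono_ae {Ω : Type*} [MeasurableSpace Ω] {P : Measure Ω} [IsFiniteMeasure P]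
    {A B : Set Ω} (h : ∀ᵐ ω ∂P, ω ∈ A → ω ∈ B) : P.real A ≤ P.real B :=
  ENNReal.toReal_mono (measure_ne_top _ _) (measure_mono_ae h)

instance {G : Measure ℝ} [IsProbabilityMeasure G] : IsProbabilityMeasure (nuR G) := by
  unfold nuR; infer_instance

/-- `skp` and `sko` -/
lemma ae_skp_sko {G : Measure ℝ} [IsProbabilityMeasure G] (h0 : G (Iio 0) = 0) {w0 c0 K : ℝ}
    {p : NF.Num} (c : Cf G F w0 c0 K p) (I : Set ℝ) (s r : ℝ) :
    ∀ᵐ q ∂(nuR G), skp c.h c.yA c.l c.L I s r q = sko c.h (c.y / 2) c.g I c.L s r q / c.l := by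
  filter_upwards [ae_skp h0 c.h c.yA c.l c.L I s r] with q hq
  rw [hq]
  rfl

set_option maxHeartbeats 2000000 in
/-- **(D1)** small ball of the window kernel -/
theorem D1 {r₀ : ℝ} (hr : 0 < r₀) [IsProbabilityMeasure (gammaMeasure 1 r₀)]
    (h0 : gammaMeasure 1 r₀ (Set.Iio 0) = 0) (hμ : NormLike μ) {cψ : ℝ}
    (hpsi : ∀ (v : ℝ × ℝ) (A : ℝ), 0 ≤ A → F.al v ≤ -A → |F.be v| ≤ A → cψ * A ≤ F.ψ v)
    {w0 c0 K : ℝ} {p : NF.Num} (c : Cf (gammaMeasure 1 r₀) F w0 c0 K p) (hc : DNum c cψ)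
    {Λ A B e' η τ : ℝ} {N : ℕ} (hΛ1 : (2 * lamD p + 4) * p.W ≤ Λ)
    (hΛ2 : Λ + (2 * lamD p + 4) * p.W ≤ c.L)
    {ρ : RowS → ℝ} (hρm : Measurable ρ)
    (hρS : ∀ q t, ρ (V.cs (V.E0 c.h (dOv F (c.y / 2) c.g)) q t) = ρ q)
    (hA : 0 < A) (he : 0 ≤ e') (he1 : 12 * e' ≤ 1) (hη : 16 * η ≤ p.δ)
    (hN : (c.L + 2 * cF F + (p.v + 2) * p.W) * ‖F.a‖ + (c.h.wH + c.g + cF F) * ‖F.b‖ + 1 ≤ N)
    (hAτ : A < τ) (hτ : τ ≤ c.l) (hB : 16 * B ≤ cψ * p.δ * p.W / 4)
    {S : Set RowS}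
    (hSm : MeasurableSet S) (hSI : V.SInv (V.E0 c.h (dOv F (c.y / 2) c.g)) S)
    (hpos : S ⊆ V.posS c.h (dOv F (c.y / 2) c.g))
    (hK : ∀ x : ℝ, |x| ≤ (p.v + 1) * p.W → ∃ c', x ≤ c' ∧ c' ≤ x + η * p.W ∧
      S ⊆ V.typ (gammaMeasure 1 r₀) (V.E0 c.h (dOv F (c.y / 2) c.g)) PF
        (NS (obK c.h (c.y / 2) c.g c' Λ c.L) A) e')
    (hD : S ⊆ V.typ (gammaMeasure 1 r₀) (V.E0 c.h (dOv F (c.y / 2) c.g)) PF
      (NS (obD F (c.y / 2) c.g N) B) e')
    (hG : S ⊆ V.typ (gammaMeasure 1 r₀) (V.E0 c.h (dOv F (c.y / 2) c.g)) PF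
      (NS (obG c.h (c.y / 2) c.g c.L ρ) A) e')
    (hin : 1 / 2 ≤ (nuR (gammaMeasure 1 r₀)).real {q | τ ≤ V0 c q})
    {x κ' : ℝ} (hx : |x| ≤ p.v) (hxδ : |x + p.δ| ≤ p.v) (hκ' : 0 ≤ κ') :
    (nuR (gammaMeasure 1 r₀)).real
      ({q | skp c.h c.yA c.l c.L (Icc (-(lamD p * p.W)) (lamD p * p.W)) (x * p.W)
        ((x + p.δ) * p.W) q ≤ κ'} ∩ S) ≤
      3 * e' + (κ' * c.l + 3 * A) / (τ - A) * Real.log 12 := by
  have hs := hc.std
  have hp := hs.toStd
  have hW : 0 < p.W := zero_lt_one.trans_le hp.W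
  have hmg := one_le_mg F
  have hcF := cF_nonneg F
  have hκ0 := c.h.κ_nonneg
  have hδ := hp.δ_pos
  have hδW : 0 < p.δ * p.W := mul_pos hδ hW
  have hδle : p.δ * p.W ≤ p.W := by
    have := mul_le_mul_of_nonneg_right hp.δ_le hW.le
    linarith
  have hsm := hc.small
  have hwH0 : 0 ≤ c.h.wH := by
    rw [c.wH]; exact mul_nonneg hp.δ0_pos.le hW.le
  have hg0 := hs.g_pos
  have hinv : 1 ≤ 1 / p.e := by
    rw [le_div_iff₀ hp.e_pos]; linarith [hp.e_le]
  have hlam : p.v + 1 ≤ lamD p := by unfold lamD; linarith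
  have hv1 : (p.v + 1) * p.W ≤ lamD p * p.W := mul_le_mul_of_nonneg_right hlam hW.le
  have hlam0 : 0 < lamD p := by linarith [hp.v]
  have hxW : |x * p.W| ≤ p.v * p.W := by
    rw [abs_mul, abs_of_pos hW]; exact mul_le_mul_of_nonneg_right hx hW.le
  have hxW' : |(x + p.δ) * p.W| ≤ p.v * p.W := by
    rw [abs_mul, abs_of_pos hW]; exact mul_le_mul_of_nonneg_right hxδ hW.le
  have e1 : (x + p.δ) * p.W = x * p.W + p.δ * p.W := by ring
  have e2 : (p.v + 1) * p.W = p.v * p.W + p.W := by ring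
  have e3 : (2 * lamD p + 4) * p.W = 2 * (lamD p * p.W) + 4 * p.W := by ring
  have e4 : (p.v + 2) * p.W = p.v * p.W + 2 * p.W := by ring
  rw [e2] at hv1
  rw [e3] at hΛ1 hΛ2
  obtain ⟨hx1, hx2⟩ := abs_le.1 hxW
  obtain ⟨hx3, hx4⟩ := abs_le.1 hxW'
  have hηW : 16 * (η * p.W) ≤ p.δ * p.W := by
    have := mul_le_mul_of_nonneg_right hη hW.le
    linarith
  -- the translation
  set Δ : ℝ := p.δ * p.W / 4 with hΔ
  obtain ⟨c', hc1, hc2, hKc⟩ := hK (x * p.W - cF F - Δ - η * p.W) (by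
    rw [e2, abs_le]
    have h5 : |η * p.W| ≤ p.δ * p.W ∨ True := Or.inr trivial
    have hη0 : 0 ≤ η * p.W ∨ η * p.W < 0 := le_or_gt _ _
    constructor
    · linarith
    · rcases hη0 with h | h
      · linarith
      · exfalso
        -- `η` may not be negative: the grid point would not exist
        obtain ⟨c'', h1, h2, -⟩ := hK 0 (by rw [abs_zero, e2]; nlinarith [hp.v])
        linarith)
  have hη0 : 0 ≤ η * p.W := by linarith
  have hc'abs : |c'| ≤ p.v * p.W + p.W := by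
    rw [abs_le]; constructor <;> linarith
  have hLow : LowData c.h (c.y / 2) c.g c' Λ c.L (Jw (lamD p * p.W))
      (Jw ((2 * lamD p + 4) * p.W)) (x * p.W) ((x + p.δ) * p.W) 0 (3 * p.δ * p.W) Δ N := by
    have hgap := hc.gap
    have hrow := hc.row
    refine ⟨⟨by linarith, by linarith, by nlinarith, ?_⟩, ?_, ?_, ?_, ?_, ?_, ?_, ?_, ?_, ?_, ?_,
      ?_, ?_⟩
    · linarith
    · exact Icc_subset_Icc (by linarith) (by linarith)
    · intro z hz u hu
      have h1 := abs_le.1 (abs_le_of_mem_Jw hz)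
      have h2 := abs_le.1 hu
      have h3 := abs_le.1 hc'abs
      rw [e3]
      constructor <;> linarith
    · linarith
    · linarith
    · linarith
    · linarith
    · linarith
    · rw [e1]
      have e5 : 3 * p.δ * p.W = 3 * (p.δ * p.W) := by ring
      rw [e5]
      linarith
    · linarith
    · refine le_trans ?_ hN
      have h1 : (c.L + 2 * cF F + |c'|) * ‖F.a‖ ≤ (c.L + 2 * cF F + (p.v + 2) * p.W) * ‖F.a‖ :=
        mul_le_mul_of_nonneg_right (by rw [e4]; linarith) (norm_nonneg _)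
      linarith
    · refine rt_out (σ₁ := x * p.W + p.δ * p.W / 2) (σ₂ := x * p.W + p.δ * p.W / 2)
        (by linarith) (by linarith) (by rw [e1]; linarith) ?_
      rw [min_self, max_self]
      exact Icc_subset_Icc (by linarith) (by linarith)
    · exact rt_gauge_out (by linarith) (by linarith) (by linarith)
  have hgen := gen_T1 hr h0 hμ hpsi hLow (measurable_Jw _) (measurable_Jw _) hρm hρS hA he
    hAτ (B := B) (by
      have h1 := hc.lW
      have e6 : cψ * Δ = cψ * p.δ * p.W / 4 := by rw [hΔ]; ring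
      rw [e6]
      linarith) (q₀ := 1 / 2) (by norm_num) (by norm_num)
    (by linarith) (a := κ' * c.l) (mul_nonneg hκ' hs.l_pos.le) hSm hSI hpos hKc hD hG hin
  have e7 : (6 : ℝ) / (1 / 2) = 12 := by norm_num
  rw [e7] at hgen
  refine le_trans (real_mono_ae (P := nuR (gammaMeasure 1 r₀)) ?_) hgen
  filter_upwards [ae_skp_sko h0 c (Icc (-(lamD p * p.W)) (lamD p * p.W)) (x * p.W)
    ((x + p.δ) * p.W)] with q hq hq2
  refine ⟨?_, hq2.2⟩
  have h3 : skp c.h c.yA c.l c.L (Icc (-(lamD p * p.W)) (lamD p * p.W)) (x * p.W)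
    ((x + p.δ) * p.W) q ≤ κ' := hq2.1
  rw [hq, div_le_iff₀ hs.l_pos] at h3
  exact h3

end Crest.Agent.R151.E39
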