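import Crest.Agent.R151.E39k
import Crest.Agent.R151.NF6

/-!
# R151 / S0214 part 2, E39l — (D1) in `Ev` form (helper39)
-/

set_option autoImplicit false

open MeasureTheory Filter ProbabilityTheory Topology Set
open scoped ENNReal
open Crest.ProbabilityR.FirstPassage

namespace Crest.Agent.R151.E39

open K R78 B710 G338 M192 Q NF
open M56 (mg one_le_mg)

variable {μ : ℝ × ℝ → ℝ} {F : FlatData μ}

lemma log12_pos : 0 < Real.log 12 := Real.log_pos (by norm_num)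

set_option maxHeartbeats 1000000 in
/-- **(D1)** in `Ev` form, for every set `S` of typical rows; `e₁ ≤ e ^ 2` -/
theorem ev_D1 {r₀ : ℝ} (hr : 0 < r₀) [IsProbabilityMeasure (gammaMeasure 1 r₀)]
    (h0 : gammaMeasure 1 r₀ (Set.Iio 0) = 0) (hμ : B710.NormLike μ) {w0 c0 K : ℝ} :
    Ev fun p => ∀ c : Cf (gammaMeasure 1 r₀) F w0 c0 K p, ∀ (e₁ : ℝ) (N : ℕ) (ρ : RowS → ℝ),
      0 < e₁ → e₁ ≤ p.e ^ 2 → 2 * c.L * ‖F.a‖ + p.W * ‖F.b‖ + 1 ≤ N →
      Measurable ρ → (∀ q t, ρ (V.cs (V.E0 c.h (dOv F (c.y / 2) c.g)) q t) = ρ q) →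
      ∀ S : Set RowS, MeasurableSet S → V.SInv (V.E0 c.h (dOv F (c.y / 2) c.g)) S →
      S ⊆ V.posS c.h (dOv F (c.y / 2) c.g) →
      (∀ x : ℝ, |x| ≤ (p.v + 1) * p.W → ∃ c', x ≤ c' ∧ c' ≤ x + p.δ / 16 * p.W ∧
        S ⊆ V.typ (gammaMeasure 1 r₀) (V.E0 c.h (dOv F (c.y / 2) c.g)) PF
          (NS (obK c.h (c.y / 2) c.g c' c.lam c.L) (e₁ * c.l)) e₁) →
      S ⊆ V.typ (gammaMeasure 1 r₀) (V.E0 c.h (dOv F (c.y / 2) c.g)) PF
        (NS (obD F (c.y / 2) c.g N) (e₁ * p.W)) e₁ →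
      S ⊆ V.typ (gammaMeasure 1 r₀) (V.E0 c.h (dOv F (c.y / 2) c.g)) PF
        (NS (obG c.h (c.y / 2) c.g c.L ρ) (e₁ * c.l)) e₁ →
      1 / 2 ≤ (nuR (gammaMeasure 1 r₀)).real {q | τ0 * c.l ≤ V0 c q} →
      ∀ x κ : ℝ, |x| ≤ p.v → |x + p.δ| ≤ p.v → 0 ≤ κ →
      (nuR (gammaMeasure 1 r₀)).real
        ({q | skp c.h c.yA c.l c.L (Icc (-(lamD p * p.W)) (lamD p * p.W)) (x * p.W)
          ((x + p.δ) * p.W) q ≤ κ} ∩ S) ≤ 4096 * Real.log 12 * κ + p.e / 2 := by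
  obtain ⟨cψ, hcψ, hpsi⟩ := Q.exists_psi_low hμ F
  have a1 := ev_DNum (G := gammaMeasure 1 r₀) (F := F) (w0 := w0) (c0 := c0) (K := K) hcψ
  have a2 := ev_lens (G := gammaMeasure 1 r₀) (F := F) (w0 := w0) (c0 := c0) (K := K)
  have a3 := le_e (fun _ δ _ => 64 / (cψ * δ) + 2048 * (16 + 16 * Real.log 12 * 2048))
  have a4 := le_v' (fun _ _ v e => 2 * (v + 1 / e) + 4)
  refine (((a1.and a2).and a3).and a4).mono ?_
  rintro p ⟨⟨⟨a1, a2⟩, a3⟩, a4⟩ c e₁ N ρ he₁ he₂ hN hρm hρS S hSm hSI hpos hK hD hG hV x κ hx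
    hxδ hκ
  have hc := a1 c
  have hl := a2 c
  have hp : p.Std := hl.toStd
  have hW : 0 < p.W := zero_lt_one.trans_le hp.W
  have hl0 : 0 < c.l := hl.l_pos
  have hδ := hp.δ_pos
  have he0 := hp.e_pos
  have hlog := log12_pos
  have hcF := cF_nonneg F
  have hsm := hc.small
  have hg0 := hl.g_pos
  have hκ0 := c.h.κ_nonneg
  have hmg := one_le_mg F
  -- the size of `e₁`
  have b1 : (64 / (cψ * p.δ) + 2048 * (16 + 16 * Real.log 12 * 2048)) * e₁ ≤ p.e := by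
    have h1 : 0 ≤ 64 / (cψ * p.δ) + 2048 * (16 + 16 * Real.log 12 * 2048) := by positivity
    calc (64 / (cψ * p.δ) + 2048 * (16 + 16 * Real.log 12 * 2048)) * e₁
        ≤ (64 / (cψ * p.δ) + 2048 * (16 + 16 * Real.log 12 * 2048)) * p.e ^ 2 :=
          mul_le_mul_of_nonneg_left he₂ h1
      _ = ((64 / (cψ * p.δ) + 2048 * (16 + 16 * Real.log 12 * 2048)) * p.e) * p.e := by ring
      _ ≤ 1 * p.e := mul_le_mul_of_nonneg_right a3 he0.le
      _ = p.e := one_mul _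
  have b2 : 0 ≤ 64 / (cψ * p.δ) * e₁ := by positivity
  have b3 : 0 ≤ Real.log 12 * e₁ := by positivity
  have b4 : 64 / (cψ * p.δ) * e₁ ≤ p.e := by nlinarith
  have b5 : 2048 * (16 * e₁ + 16 * 2048 * (Real.log 12 * e₁)) ≤ p.e := by nlinarith
  have b6 : 64 * e₁ ≤ cψ * p.δ := by
    have h2 : 0 < cψ * p.δ := by positivity
    have h3 := b4.trans hp.e_le
    rw [div_mul_eq_mul_div, div_le_iff₀ h2] at h3
    linarith
  have hwH0 : 0 ≤ c.h.wH := by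
    rw [c.wH]; exact mul_nonneg hp.δ0_pos.le hW.le
  have hδW : p.δ * p.W ≤ p.W := by
    have := mul_le_mul_of_nonneg_right hp.δ_le hW.le
    linarith
  have e1 : (2 * lamD p + 4) * p.W ≤ c.lam := by
    unfold lamD Cf.lam
    exact mul_le_mul_of_nonneg_right a4 hW.le
  have e2 := hl.lam_eq
  have hinv : 0 < 1 / p.e := by positivity
  have e3 : (2 * lamD p + 4) * p.W = 2 * (p.v * p.W) + 2 * (1 / p.e * p.W) + 4 * p.W := by
    unfold lamD; ring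
  have e4 : 0 < 1 / p.e * p.W := by positivity
  have e5 : 0 < p.v * p.W := by have := hp.v; positivity
  have hD1 := D1 hr h0 hμ hpsi c hc (Λ := c.lam) (A := e₁ * c.l) (B := e₁ * p.W) (e' := e₁)
    (η := p.δ / 16) (τ := τ0 * c.l) (N := N) e1 (by linarith) hρm hρS (by positivity) he₁.le
    (by nlinarith) (by linarith) (by
      refine le_trans ?_ hN
      have h1 : (c.L + 2 * cF F + (p.v + 2) * p.W) * ‖F.a‖ ≤ 2 * c.L * ‖F.a‖ :=
        mul_le_mul_of_nonneg_right (by nlinarith) (norm_nonneg _)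
      have h2 : (c.h.wH + c.g + cF F) * ‖F.b‖ ≤ p.W * ‖F.b‖ :=
        mul_le_mul_of_nonneg_right (by linarith) (norm_nonneg _)
      linarith)
    (by
      unfold τ0
      have h1 : 2048 * e₁ < 1 := by nlinarith [hp.e_le]
      nlinarith)
    (by unfold τ0; linarith)
    (by
      have h1 := mul_le_mul_of_nonneg_right b6 hW.le
      linarith) hSm hSI hpos hK hD hG hV hx hxδ hκ
  refine hD1.trans ?_
  -- numerics
  have h1 : 0 < τ0 * c.l - e₁ * c.l := by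
    unfold τ0
    have h1 : 2048 * e₁ < 1 := by nlinarith [hp.e_le]
    nlinarith
  have h2 : (κ * c.l + 3 * (e₁ * c.l)) / (τ0 * c.l - e₁ * c.l) ≤ 4096 * (κ + 3 * e₁) := by
    rw [div_le_iff₀ h1]
    have h3 : 4096 * e₁ ≤ 1 := by nlinarith [hp.e_le]
    have h4 : κ * c.l + 3 * (e₁ * c.l) = (κ + 3 * e₁) * c.l := by ring
    have h5 : 4096 * (κ + 3 * e₁) * (τ0 * c.l - e₁ * c.l) =
        (κ + 3 * e₁) * c.l * (2 - 4096 * e₁) := by unfold τ0; ring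
    rw [h4, h5]
    have h6 : 0 ≤ (κ + 3 * e₁) * c.l := by positivity
    nlinarith
  have h3 := mul_le_mul_of_nonneg_right h2 hlog.le
  have h4 : 4096 * (κ + 3 * e₁) * Real.log 12 = 4096 * Real.log 12 * κ +
      12288 * (Real.log 12 * e₁) := by ring
  rw [h4] at h3
  nlinarith

end Crest.Agent.R151.E39
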