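import Crest.Agent.R151.E39l

/-!
# R151 / S0214 part 2, E39m — (D1) for typical rows inside a typical set of strips (helper39)
-/

set_option autoImplicit false

open MeasureTheory Filter ProbabilityTheory Topology Set
open scoped ENNReal
open Crest.ProbabilityR.FirstPassage

namespace Crest.Agent.R151.E39

open K R78 B710 G338 M192 Q NF
open M56 (mg one_le_mg)

variable {μ : ℝ × ℝ → ℝ} {F : FlatData μ}

/-- `HD1` from the facts on the typical strips `S c ⊇ typ c` (level and thresholds `e ^ 2`) -/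
theorem HD1_of {r₀ : ℝ} (hr : 0 < r₀) [IsProbabilityMeasure (gammaMeasure 1 r₀)]
    (h0 : gammaMeasure 1 r₀ (Set.Iio 0) = 0) (hμ : B710.NormLike μ) {w0 c0 K : ℝ}
    {typ S : ∀ {p : NF.Num}, Cf (gammaMeasure 1 r₀) F w0 c0 K p → Set (Row (ℝ × ℝ))}
    {ρ : ∀ {p : NF.Num}, Cf (gammaMeasure 1 r₀) F w0 c0 K p → RowS → ℝ} {N : NF.Num → ℕ}
    (hS : Ev fun p => ∀ c : Cf (gammaMeasure 1 r₀) F w0 c0 K p, typ c ⊆ S c ∧
      2 * c.L * ‖F.a‖ + p.W * ‖F.b‖ + 1 ≤ N p ∧ Measurable (ρ c) ∧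
      (∀ q t, ρ c (V.cs (V.E0 c.h (dOv F (c.y / 2) c.g)) q t) = ρ c q) ∧
      MeasurableSet (S c) ∧ V.SInv (V.E0 c.h (dOv F (c.y / 2) c.g)) (S c) ∧
      S c ⊆ V.posS c.h (dOv F (c.y / 2) c.g) ∧
      (∀ x : ℝ, |x| ≤ (p.v + 1) * p.W → ∃ c', x ≤ c' ∧ c' ≤ x + p.δ / 16 * p.W ∧
        S c ⊆ V.typ (gammaMeasure 1 r₀) (V.E0 c.h (dOv F (c.y / 2) c.g)) PF
          (NS (obK c.h (c.y / 2) c.g c' c.lam c.L) (p.e ^ 2 * c.l)) (p.e ^ 2)) ∧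
      S c ⊆ V.typ (gammaMeasure 1 r₀) (V.E0 c.h (dOv F (c.y / 2) c.g)) PF
        (NS (obD F (c.y / 2) c.g (N p)) (p.e ^ 2 * p.W)) (p.e ^ 2) ∧
      S c ⊆ V.typ (gammaMeasure 1 r₀) (V.E0 c.h (dOv F (c.y / 2) c.g)) PF
        (NS (obG c.h (c.y / 2) c.g c.L (ρ c)) (p.e ^ 2 * c.l)) (p.e ^ 2)) :
    HD1 (gammaMeasure 1 r₀) F w0 c0 K typ (4096 * Real.log 12) := by
  unfold HD1
  refine (((ev_D1 (F := F) (w0 := w0) (c0 := c0) (K := K) hr h0 hμ).and hS).and Ev.std).mono ?_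
  rintro p ⟨⟨h1, h2⟩, hp⟩ c hV x κ hx hxδ hκ
  obtain ⟨a1, a2, a3, a4, a5, a6, a7, a8, a9, a10⟩ := h2 c
  have he := hp.e_pos
  have key := h1 c (p.e ^ 2) (N p) (ρ c) (by positivity) le_rfl a2 a3 a4 (S c) a5 a6 a7 a8 a9 a10
    hV x κ hx hxδ hκ
  refine le_trans (measureReal_mono ?_ (measure_ne_top _ _)) key
  exact inter_subset_inter_right _ a1

end Crest.Agent.R151.E39
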