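import Crest.Agent.R151.E39m

/-!
# R151 / S0214 part 2, E39o — restriction of the law of a row to a smaller range (helper39)
-/

set_option autoImplicit false

open MeasureTheory Filter ProbabilityTheory Topology Set
open scoped ENNReal
open Crest.ProbabilityR.FirstPassage

namespace Crest.Agent.R151.E39

/-- the law on the range `v` gives the law on every smaller range -/
theorem Law_of_le {Ω : Type*} {R : E191.RowA Ω} {m : MeasurableSpace Ω}
    [mΩ : MeasurableSpace Ω] {P : Measure Ω} {C0 : ℝ} {n : ℕ} {δ v v₀ e : ℝ} (hv : v₀ ≤ v)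
    (H : R.Law P m C0 n δ v e) : R.Law P m C0 n δ v₀ e where
  K_meas := fun s t hs ht => H.K_meas s t (hs.trans hv) (ht.trans hv)
  KL_meas := H.KL_meas
  F_meas := fun w x hx => H.F_meas w x (hx.trans hv)
  cell_meas := fun x h1 h2 => H.cell_meas x (h1.trans hv) (h2.trans hv)
  T_meas := H.T_meas
  T_prob := H.T_prob
  K_nonneg := fun s t ω hs ht => H.K_nonneg s t ω (hs.trans hv) (ht.trans hv)
  K_mono := fun s s' t ω h1 h2 h3 h4 => H.K_mono s s' t ω (h1.trans hv) (h2.trans hv)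
    (h3.trans hv) h4
  K_anti := fun s t t' ω h1 h2 h3 h4 => H.K_anti s t t' ω (h1.trans hv) (h2.trans hv)
    (h3.trans hv) h4
  KL_nonneg := H.KL_nonneg
  F_nonneg := fun w x ω hx => H.F_nonneg w x ω (hx.trans hv)
  F_tail := fun w x y hw hx hy => H.F_tail w x y hw (hx.trans hv) hy
  F_int := fun x hx => H.F_int x (hx.trans hv)
  F_ui := fun x hx => H.F_ui x (hx.trans hv)
  cell_small := fun x y h1 h2 hy => H.cell_small x y (h1.trans hv) (h2.trans hv) hy
  cells_large := fun x k h1 h2 => H.cells_large x k (h1.trans hv) (h2.trans hv)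
  window := fun ω hω s t x k h1 h2 h3 h4 => H.window ω hω s t x k (h1.trans hv) (h2.trans hv) h3 h4
  lane := H.lane

open NF

variable {μ : ℝ × ℝ → ℝ} {F : B710.FlatData μ}

/-- the field `law` from the law on the range `v + 1/e` -/
theorem ev_law_of {G : Measure ℝ} {w0 c0 K : ℝ}
    {typ : ∀ {p : NF.Num}, Cf G F w0 c0 K p → Set (M192.Row (ℝ × ℝ))}
    (hlaw : ∃ C1 : ℝ, 0 < C1 ∧ Ev fun p => ∀ c : Cf G F w0 c0 K p,
      (c.rowA (typ c)).Law (nuR G) c.mB C1 p.n p.δ (p.v + 1 / p.e) p.e) :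
    ∃ C1 : ℝ, 0 < C1 ∧ Ev fun p => ∀ c : Cf G F w0 c0 K p,
      (c.rowA (typ c)).Law (nuR G) c.mB C1 p.n p.δ p.v p.e := by
  obtain ⟨C1, hC1, h⟩ := hlaw
  refine ⟨C1, hC1, (h.and Ev.std).mono fun p ⟨h, hp⟩ c => Law_of_le ?_ (h c)⟩
  have := hp.e_pos
  have : 0 < 1 / p.e := by positivity
  linarith

end Crest.Agent.R151.E39
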