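import Crest.Agent.R151.E191G
import Crest.Agent.R151.E39o
import Crest.Agent.R151.D290b

/-!
# R151 / S0214 part 2, E39p — (D1) for `typA`, the field `dich` (helper39)
-/

set_option autoImplicit false

open MeasureTheory Filter ProbabilityTheory Topology Set
open scoped ENNReal
open Crest.ProbabilityR.FirstPassage

namespace Crest.Agent.R151.E39

open K R78 B710 G338 M192 Q NF
open M56 (mg one_le_mg)

variable {μ : ℝ × ℝ → ℝ} {F : FlatData μ}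

section sub

variable {G : Measure ℝ} {w0 c0 K : ℝ} {p : NF.Num}

lemma zero_mem_Mg (hp : p.Std) : (0 : ℤ) ∈ Finset.Icc (-p.Mg) p.Mg := by
  have h1 : 0 ≤ p.Mg := by
    unfold NF.Num.Mg
    have := hp.δ_pos
    have := hp.e_pos
    have := hp.v
    positivity
  rw [Finset.mem_Icc]
  exact ⟨by linarith, h1⟩

/-- the grid of `typA` -/
lemma grid_gr (hp : p.Std) {x : ℝ} (hx : |x| ≤ (p.v + 1 / p.e + 3) * p.W) :
    ∃ i ∈ Finset.Icc (-p.Mg) p.Mg, x ≤ p.gr i ∧ p.gr i ≤ x + p.δ / 128 * p.W := by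
  have hη : 0 < p.δ / 128 := by have := hp.δ_pos; positivity
  have hη1 : p.δ / 128 ≤ 1 := by have := hp.δ_le; linarith
  have hW : 0 < p.W := zero_lt_one.trans_le hp.W
  have hq : 0 < p.δ / 128 * p.W := mul_pos hη hW
  have h1 := Int.le_ceil (x / (p.δ / 128 * p.W))
  have h2 := Int.ceil_lt_add_one (x / (p.δ / 128 * p.W))
  have h3 : (p.v + 1 / p.e + 4) / (p.δ / 128) ≤ p.Mg := Int.le_ceil _
  rw [div_le_iff₀ hη] at h3
  have hx' := abs_le.1 hx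
  have h4 : x / (p.δ / 128 * p.W) ≤ p.Mg - 1 := by
    rw [div_le_iff₀ hq]
    have : (p.v + 1 / p.e + 3) * p.W ≤ (p.Mg - 1) * (p.δ / 128 * p.W) := by
      rw [← mul_assoc]
      refine mul_le_mul_of_nonneg_right ?_ hW.le
      linarith
    linarith [hx'.2]
  have h5 : -(p.Mg : ℝ) ≤ x / (p.δ / 128 * p.W) := by
    rw [le_div_iff₀ hq]
    have : (p.v + 1 / p.e + 3) * p.W ≤ p.Mg * (p.δ / 128 * p.W) := by
      rw [← mul_assoc]
      refine mul_le_mul_of_nonneg_right ?_ hW.le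
      linarith
    linarith [hx'.1]
  refine ⟨⌈x / (p.δ / 128 * p.W)⌉, ?_, ?_, ?_⟩
  · rw [Finset.mem_Icc]
    constructor
    · have : (-(p.Mg : ℝ)) ≤ (⌈x / (p.δ / 128 * p.W)⌉ : ℝ) := h5.trans h1
      exact_mod_cast this
    · have : (⌈x / (p.δ / 128 * p.W)⌉ : ℝ) ≤ p.Mg := by linarith
      exact_mod_cast this
  · rw [div_le_iff₀ hq] at h1
    exact h1
  · unfold NF.Num.gr
    have := mul_le_mul_of_nonneg_right h2.le hq.le
    rw [add_mul, div_mul_cancel₀ _ hq.ne', one_mul] at this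
    exact this

lemma meas_ob (c : Cf G F w0 c0 K p) (hρ : Measurable (c.rho (c.yA • F.b)))
    (k : Fin 6 × (ℤ × ℤ)) : (c.ob k).Meas := by
  obtain ⟨k, i, j⟩ := k
  unfold NF.Cf.ob
  fin_cases k
  · exact meas_obD _ _ _
  · exact meas_obG _ _ _ _ hρ
  · exact meas_obJ _ _ _ _ _
  · exact meas_obK _ _ _ _ _ _
  · exact meas_fLo _ _ _ _ _
  · exact meas_fUp _ _ _ _ _ _

variable [IsProbabilityMeasure G]

lemma measurableSet_TSA (c : Cf G F w0 c0 K p) (hρ : Measurable (c.rho (c.yA • F.b))) :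
    MeasurableSet c.TSA :=
  V.measurableSet_TSet (h := c.h) (d := c.yA • F.b) fun k _ =>
    measurableSet_NS (meas_ob c hρ k) _

lemma TSA_typ (c : Cf G F w0 c0 K p) (k : Fin 6) {i j : ℤ} (hi : i ∈ Finset.Icc (-p.Mg) p.Mg)
    (hj : j ∈ Finset.Icc (-p.Mg) p.Mg) :
    c.TSA ⊆ V.typ G (V.E0 c.h (c.yA • F.b)) PF (NS (c.ob (k, i, j)) (c.thr (k, i, j)))
      (p.e ^ 2) := by
  have h1 : (k, i, j) ∈ p.idx := by
    unfold NF.Num.idx
    simp only [Finset.mem_product, Finset.mem_univ, true_and]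
    exact ⟨hi, hj⟩
  exact V.TSet_subset_typ (κ := PF) (h := c.h) (d := c.yA • F.b)
    (N := fun k => NS (c.ob k) (c.thr k)) h1

lemma TSA_D (hp : p.Std) (c : Cf G F w0 c0 K p) :
    c.TSA ⊆ V.typ G (V.E0 c.h (dOv F (c.y / 2) c.g)) PF
      (NS (obD F (c.y / 2) c.g (p.Nb F)) (p.e ^ 2 * p.W)) (p.e ^ 2) := by
  have h1 : c.ob (0, 0, 0) = obD F (c.y / 2) c.g (p.Nb F) := rfl
  have h2 : c.thr (0, 0, 0) = p.e ^ 2 * p.W := rfl
  have := TSA_typ c 0 (zero_mem_Mg hp) (zero_mem_Mg hp)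
  rw [h1, h2] at this
  exact this

lemma TSA_G (hp : p.Std) (c : Cf G F w0 c0 K p) :
    c.TSA ⊆ V.typ G (V.E0 c.h (dOv F (c.y / 2) c.g)) PF
      (NS (obG c.h (c.y / 2) c.g c.L (c.rho (c.yA • F.b))) (p.e ^ 2 * c.l)) (p.e ^ 2) := by
  have h1 : c.ob (1, 0, 0) = obG c.h (c.y / 2) c.g c.L (c.rho (c.yA • F.b)) := rfl
  have h2 : c.thr (1, 0, 0) = p.e ^ 2 * c.l := rfl
  have := TSA_typ c 1 (zero_mem_Mg hp) (zero_mem_Mg hp)
  rw [h1, h2] at this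
  exact this

lemma TSA_K (hp : p.Std) (c : Cf G F w0 c0 K p) {i : ℤ} (hi : i ∈ Finset.Icc (-p.Mg) p.Mg) :
    c.TSA ⊆ V.typ G (V.E0 c.h (dOv F (c.y / 2) c.g)) PF
      (NS (obK c.h (c.y / 2) c.g (p.gr i) c.lam c.L) (p.e ^ 2 * c.l)) (p.e ^ 2) := by
  have h1 : c.ob (3, i, 0) = obK c.h (c.y / 2) c.g (p.gr i) c.lam c.L := rfl
  have h2 : c.thr (3, i, 0) = p.e ^ 2 * c.l := rfl
  have := TSA_typ c 3 hi (zero_mem_Mg hp)
  rw [h1, h2] at this
  exact this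

lemma TSA_posS (c : Cf G F w0 c0 K p) : c.TSA ⊆ V.posS c.h (dOv F (c.y / 2) c.g) :=
  V.TSet_subset_posS c.h (c.yA • F.b)

lemma TSA_SInv (c : Cf G F w0 c0 K p) : V.SInv (V.E0 c.h (dOv F (c.y / 2) c.g)) c.TSA :=
  V.sInv_TSet c.h (c.yA • F.b)

end sub

/-- **(D1) for `typA`** -/
theorem HD1_typA {r₀ : ℝ} (hr : 0 < r₀) [IsProbabilityMeasure (gammaMeasure 1 r₀)]
    (h0 : gammaMeasure 1 r₀ (Set.Iio 0) = 0)
    (h2 : Integrable (fun x : ℝ => x ^ 2) (gammaMeasure 1 r₀)) (hT : IsTC (gammaMeasure 1 r₀) μ)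
    (hμ : B710.NormLike μ) {w0 c0 K : ℝ} :
    HD1 (gammaMeasure 1 r₀) F w0 c0 K (fun c => c.typA) (4096 * Real.log 12) := by
  refine HD1_of hr h0 hμ (S := fun c => c.TSA) (ρ := fun c => c.rho (c.yA • F.b))
    (N := fun p => p.Nb F) ?_
  refine (((rho_spec (G := gammaMeasure 1 r₀) (F := F) (w0 := w0) (c0 := c0) (K := K) h0 h2 hT).and
    (ev_lens (G := gammaMeasure 1 r₀) (F := F) (w0 := w0) (c0 := c0) (K := K))).and
      Ev.std).mono ?_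
  rintro p ⟨⟨h1, hl⟩, hp⟩ c
  have hl := hl c
  have hρ := h1 c (c.y / 2) c.g (Cf.htA hl.toC)
  have hW : 0 < p.W := zero_lt_one.trans_le hp.W
  refine ⟨inter_subset_left, ?_, hρ.meas, hρ.glue, measurableSet_TSA c hρ.meas, TSA_SInv c,
    TSA_posS c, ?_, TSA_D hp c, TSA_G hp c⟩
  · refine le_trans ?_ (Nat.le_ceil _)
    have hL : c.L = 2 * (p.v' * p.W) := hl.lam_eq
    have h3 : 0 ≤ p.W * ‖F.a‖ := by positivity
    have h4 := hp.W
    rw [hL]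
    nlinarith
  · intro x hx
    have hδ := hp.δ_pos
    have he := hp.e_pos
    have h3 : (p.v + 1) * p.W ≤ (p.v + 1 / p.e + 3) * p.W := by
      refine mul_le_mul_of_nonneg_right ?_ hW.le
      have : 0 < 1 / p.e := by positivity
      linarith
    obtain ⟨i, hi, h4, h5⟩ := grid_gr hp (hx.trans h3)
    refine ⟨p.gr i, h4, h5.trans ?_, TSA_K hp c hi⟩
    have : 0 < p.δ * p.W := mul_pos hδ hW
    linarith

/-- **the field `dich` for `typA`** -/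
theorem dich_typA {r₀ : ℝ} (hr : 0 < r₀) [IsProbabilityMeasure (gammaMeasure 1 r₀)]
    (h0 : gammaMeasure 1 r₀ (Set.Iio 0) = 0)
    (h2 : Integrable (fun x : ℝ => x ^ 2) (gammaMeasure 1 r₀)) (hT : IsTC (gammaMeasure 1 r₀) μ)
    (hμ : B710.NormLike μ) {w0 c0 K : ℝ} (hK : 0 ≤ K)
    (hlaw : ∃ C1 : ℝ, 0 < C1 ∧ Ev fun p => ∀ c : Cf (gammaMeasure 1 r₀) F w0 c0 K p,
      (c.rowA c.typA).Law (nuR (gammaMeasure 1 r₀)) c.mB C1 p.n p.δ (p.v + 1 / p.e) p.e)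
    (hD2 : HD2 (gammaMeasure 1 r₀) F w0 c0 K (fun c => c.typA)) :
    ∃ C0 : ℝ, 0 < C0 ∧ Ev fun p => ∀ c : Cf (gammaMeasure 1 r₀) F w0 c0 K p,
      (c.rowA c.typA).Cheap (nuR (gammaMeasure 1 r₀)) C0 p.δ ∨
        (c.rowA c.typA).Costly (nuR (gammaMeasure 1 r₀)) C0 p.δ p.v p.e :=
  ev_dich hK (typ := fun c => c.typA) hlaw (HD1_typA hr h0 h2 hT hμ) hD2

end Crest.Agent.R151.E39
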