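import Crest.Agent.R151.E39p
import Crest.Agent.R151.D290c

/-!
# R151 / S0214 part 2, E39q — `law` and `dich` at `typA` from the law at `v + 1/e` (helper39)
-/

set_option autoImplicit false

open MeasureTheory Filter ProbabilityTheory Topology Set
open scoped ENNReal
open Crest.ProbabilityR.FirstPassage

namespace Crest.Agent.R151.E39

open K R78 B710 G338 M192 Q NF

variable {μ : ℝ × ℝ → ℝ} {F : FlatData μ}

/-- `law` and `dich` at `typA` from the law at `v + 1/e` -/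
theorem law_dich_typA {r₀ : ℝ} (hr : 0 < r₀) [IsProbabilityMeasure (gammaMeasure 1 r₀)]
    (h0 : gammaMeasure 1 r₀ (Set.Iio 0) = 0)
    (h2 : Integrable (fun x : ℝ => x ^ 2) (gammaMeasure 1 r₀)) (hT : IsTC (gammaMeasure 1 r₀) μ)
    {w0 c0 K : ℝ} (hK : 0 ≤ K)
    (hlaw : ∃ C1 : ℝ, 0 < C1 ∧ Ev fun p => ∀ c : Cf (gammaMeasure 1 r₀) F w0 c0 K p,
      (c.rowA c.typA).Law (nuR (gammaMeasure 1 r₀)) c.mB C1 p.n p.δ (p.v + 1 / p.e) p.e) :
    (∃ C0 : ℝ, 0 < C0 ∧ Ev fun p => ∀ c : Cf (gammaMeasure 1 r₀) F w0 c0 K p,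
      (c.rowA c.typA).Law (nuR (gammaMeasure 1 r₀)) c.mB C0 p.n p.δ p.v p.e) ∧
    (∃ C0 : ℝ, 0 < C0 ∧ Ev fun p => ∀ c : Cf (gammaMeasure 1 r₀) F w0 c0 K p,
      (c.rowA c.typA).Cheap (nuR (gammaMeasure 1 r₀)) C0 p.δ ∨
        (c.rowA c.typA).Costly (nuR (gammaMeasure 1 r₀)) C0 p.δ p.v p.e) :=
  ⟨ev_law_of (typ := fun c => c.typA) hlaw, dich_typA hr h0 h2 hT (normLike_gamma one_pos hr hT)
    hK hlaw (D290.hd2_typA hr h0 h2 hT)⟩

end Crest.Agent.R151.E39
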