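import Crest.Agent.R151.Q5d

/-!
# R151 / S0214 part 2, Q5e — the highways built from the blocks (owner helper777)
-/

set_option autoImplicit false

open MeasureTheory Filter ProbabilityTheory Topology
open Crest.ProbabilityR.FirstPassage
open Crest.Agent.R151.K

namespace Crest.Agent.R151.Q

open B710 (FlatData)

/-! ### General facts on `cat` -/

lemma len_map (L : ℤ → List (ℤ × ℤ)) (f : ℤ × ℤ → ℤ × ℤ) :
    len (fun j => (L j).map f) = len L := by
  funext j; unfold len; rw [List.length_map]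

lemma Blocks.cat_map {L : ℤ → List (ℤ × ℤ)} {nd : ℤ → ℤ × ℤ} (hL : Blocks L nd)
    (f : ℤ × ℤ → ℤ × ℤ) (k : ℤ) : cat (fun j => (L j).map f) k = f (cat L k) := by
  unfold cat
  rw [len_map]
  obtain ⟨h1, h2⟩ := bix_spec hL.one_le_len k
  rw [cum_succ] at h2
  have hlt : (k - cum (len L) (bix (len L) k)).toNat < (L (bix (len L) k)).length := by
    unfold len at h1 h2 ⊢; omega
  rw [List.getD_eq_getElem?_getD, List.getD_eq_getElem?_getD,
    List.getElem?_eq_getElem (by rwa [List.length_map]), List.getElem?_eq_getElem hlt]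
  simp

lemma cum_shift (ℓ : ℤ → ℤ) (N : ℤ) (j : ℤ) :
    cum (fun i => ℓ (i + N)) j = cum ℓ (j + N) - cum ℓ N := by
  induction j using Int.induction_on with
  | zero => rw [cum_zero, zero_add, sub_self]
  | succ i ih =>
    rw [cum_succ, ih]
    have : (i : ℤ) + 1 + N = (i + N) + 1 := by ring
    rw [this, cum_succ]; ring
  | pred i ih =>
    have h1 := cum_succ (fun i => ℓ (i + N)) (-(i : ℤ) - 1)
    have h2 := cum_succ ℓ (-(i : ℤ) - 1 + N)
    have e1 : -(i : ℤ) - 1 + 1 = -i := by ring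
    have e2 : -(i : ℤ) - 1 + N + 1 = -i + N := by ring
    rw [e1] at h1
    rw [e2] at h2
    linarith

lemma Blocks.cat_shift {L : ℤ → List (ℤ × ℤ)} {nd : ℤ → ℤ × ℤ} (hL : Blocks L nd) (N k : ℤ) :
    cat (fun j => L (j + N)) k = cat L (k + cum (len L) N) := by
  have hlen : len (fun j => L (j + N)) = fun i => len L (i + N) := rfl
  have h1' : ∀ j, 1 ≤ (fun i => len L (i + N)) j := fun j => hL.one_le_len _
  have hb : bix (len L) (k + cum (len L) N) = bix (fun i => len L (i + N)) k + N := by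
    obtain ⟨h1, h2⟩ := bix_spec h1' k
    rw [cum_shift] at h1 h2
    refine bix_unique hL.one_le_len (by omega) ?_
    have : bix (fun i => len L (i + N)) k + 1 + N = bix (fun i => len L (i + N)) k + N + 1 := by
      ring
    rw [this] at h2
    omega
  unfold cat
  rw [hlen, hb]
  congr 2
  rw [cum_shift]
  ring

section measurability

variable {α : Type*} [MeasurableSpace α] {L : α → ℤ → List (ℤ × ℤ)}

lemma measurable_len (hL : ∀ j, Measurable fun a => L a j) (j : ℤ) :
    Measurable fun a => len (L a) j := by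
  have : Measurable fun l : List (ℤ × ℤ) => ((l.length : ℤ) - 1) := Measurable.of_discrete
  exact this.comp (hL j)

lemma measurable_cum (hL : ∀ j, Measurable fun a => L a j) (j : ℤ) :
    Measurable fun a => cum (len (L a)) j := by
  unfold cum
  refine Measurable.sub ?_ ?_
  · exact Finset.measurable_sum _ fun i _ => measurable_len hL i
  · exact Finset.measurable_sum _ fun i _ => measurable_len hL i

lemma measurable_bix (hL : ∀ j, Measurable fun a => L a j) (h1 : ∀ a j, 1 ≤ len (L a) j) (k : ℤ) :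
    Measurable fun a => bix (len (L a)) k := by
  refine measurable_to_countable' fun j => ?_
  have : (fun a => bix (len (L a)) k) ⁻¹' {j} =
      {a | cum (len (L a)) j ≤ k} ∩ {a | k < cum (len (L a)) (j + 1)} := by
    ext a
    simp only [Set.mem_preimage, Set.mem_singleton_iff, Set.mem_inter_iff, Set.mem_setOf_eq]
    exact bix_iff (h1 a)
  rw [this]
  exact (measurableSet_le (measurable_cum hL j) measurable_const).inter
    (measurableSet_lt measurable_const (measurable_cum hL (j + 1)))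

lemma measurable_cat (hL : ∀ j, Measurable fun a => L a j) (h1 : ∀ a j, 1 ≤ len (L a) j) (k : ℤ) :
    Measurable fun a => cat (L a) k := by
  have h2 : Measurable fun q : α × ℤ =>
      (L q.1 q.2).getD (k - cum (len (L q.1)) q.2).toNat 0 := by
    refine measurable_from_prod_countable_left fun j => ?_
    have h3 : Measurable fun p : List (ℤ × ℤ) × ℤ => p.1.getD (k - p.2).toNat 0 :=
      Measurable.of_discrete
    exact h3.comp ((hL j).prodMk (measurable_cum hL j))
  exact h2.comp (measurable_id.prodMk (measurable_bix hL h1 k))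

end measurability

/-! ### The segments -/

variable {μ : ℝ × ℝ → ℝ}

/-- admissible parameters -/
structure Adm (F : FlatData μ) (w n0 κ : ℝ) : Prop where
  w_be : ‖F.be‖ ≤ w
  n0_pos : 0 < n0
  n0_al : ‖F.al‖ < n0
  κ_nonneg : 0 ≤ κ
  ne : ∀ θ : ℝ × ℝ, ‖θ‖ ≤ 1 / 2 → (pathsBT (Qbox F w n0 θ) 0 (nxt F n0 θ) (hgt F) κ).Nonempty

lemma exists_adm (F : FlatData μ) : ∃ w0 n00 : ℝ, ∀ w ≥ w0, ∀ n0 ≥ n00, ∀ κ ≥ 3 * ‖F.al‖,
    Adm F w n0 κ := by
  obtain ⟨w0, n00, h⟩ := pathsBT_nonempty F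
  refine ⟨max w0 ‖F.be‖, max n00 (‖F.al‖ + 1), fun w hw n0 hn0 κ hκ => ?_⟩
  have hN : 0 ≤ ‖F.al‖ := norm_nonneg _
  have h2 : ‖F.al‖ + 1 ≤ n0 := (le_max_right _ _).trans hn0
  exact ⟨(le_max_right _ _).trans hw, by linarith, by linarith, by linarith,
    fun θ hθ => h w ((le_max_left _ _).trans hw) n0 ((le_max_left _ _).trans hn0) κ hκ θ hθ⟩

variable {F : FlatData μ} {w n0 κ : ℝ}

lemma pos_rel (θ : ℝ × ℝ) (n z : ℤ × ℤ) : pos (θ + toR n) z = pos θ (z + n) := by
  unfold pos toR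
  refine Prod.ext ?_ ?_ <;> simp <;> ring

lemma nxt_rel (n0 : ℝ) (θ : ℝ × ℝ) (n : ℤ × ℤ) :
    nxt F n0 (θ + toR n) + n = nr (θ - n0 • F.a) := by
  unfold nxt
  have : θ + toR n - n0 • F.a = θ - n0 • F.a + toR n := by abel
  rw [this, nr_add, sub_add_cancel]

lemma Adm.norm_rel (_h : Adm F w n0 κ) (θ : ℝ × ℝ) : ‖θ + toR (nr θ)‖ ≤ 1 / 2 := by
  have := norm_pos_nr θ
  unfold pos at this
  rwa [add_comm] at this

lemma Adm.ne' (h : Adm F w n0 κ) (θ : ℝ × ℝ) :
    (pathsBT (Qbox F w n0 (θ + toR (nr θ))) 0 (nxt F n0 (θ + toR (nr θ))) (hgt F) κ).Nonempty :=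
  h.ne _ (h.norm_rel θ)

/-- description of the vertices of a segment -/
lemma Adm.mem_seg (h : Adm F w n0 κ) {θ : ℝ × ℝ} {t : Environment} {z : ℤ × ℤ}
    (hz : z ∈ seg F w n0 κ θ t) : z = nr (θ - n0 • F.a) ∨ (|F.be (pos θ z)| ≤ w / 2 ∧
      F.al (pos θ (nr θ)) ≤ F.al (pos θ z) ∧
      F.al (pos θ z) < F.al (pos θ (nr (θ - n0 • F.a)))) := by
  unfold seg at hz
  rw [List.mem_map] at hz
  obtain ⟨z', hz', rfl⟩ := hz
  have h1 := (geoL_mem (h.ne' θ) (act (tr (nr θ)) t)).2.2.1 z' hz'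
  rw [mem_Qbox F (h.norm_rel θ)] at h1
  rcases h1 with h1 | ⟨h1, h2, h3⟩
  · left
    rw [h1, nxt_rel]
  · right
    rw [pos_rel] at h1 h2 h3
    rw [zero_add, pos_rel] at h2
    rw [pos_rel, nxt_rel] at h3
    exact ⟨h1, h2, h3⟩

lemma Adm.seg_nodup (h : Adm F w n0 κ) (θ : ℝ × ℝ) (t : Environment) :
    (seg F w n0 κ θ t).Nodup := by
  unfold seg
  exact (geoL_mem (h.ne' θ) _).1.map (add_left_injective _)

lemma Adm.seg_chain (h : Adm F w n0 κ) (θ : ℝ × ℝ) (t : Environment) :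
    (seg F w n0 κ θ t).IsChain squareLattice.Adj := by
  unfold seg
  rw [List.isChain_map]
  refine (geoL_mem (h.ne' θ) _).2.1.imp ?_
  intro a b hab
  exact (tr (nr θ)).map_rel_iff.2 hab

lemma Adm.seg_head (h : Adm F w n0 κ) (θ : ℝ × ℝ) (t : Environment) :
    (seg F w n0 κ θ t).head? = some (nr θ) := by
  unfold seg
  rw [List.head?_map, (geoL_mem (h.ne' θ) _).2.2.2.1]
  simp

lemma Adm.seg_last (h : Adm F w n0 κ) (θ : ℝ × ℝ) (t : Environment) :
    (seg F w n0 κ θ t).getLast? = some (nr (θ - n0 • F.a)) := by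
  unfold seg
  rw [List.getLast?_map, (geoL_mem (h.ne' θ) _).2.2.2.2.1]
  simp only [Option.map_some]
  rw [nxt_rel]

lemma Adm.seg_bt (h : Adm F w n0 κ) (θ θ' : ℝ × ℝ) (t : Environment) :
    (seg F w n0 κ θ t).Pairwise fun a b => F.al (pos θ' a) ≤ F.al (pos θ' b) + κ := by
  unfold seg
  rw [List.pairwise_map]
  refine (geoL_mem (h.ne' θ) (act (tr (nr θ)) t)).2.2.2.2.2.imp ?_
  intro a b hab
  unfold hgt at hab
  show F.al (pos θ' (a + nr θ)) ≤ F.al (pos θ' (b + nr θ)) + κ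
  rw [← pos_rel, ← pos_rel]
  unfold pos
  simp only [map_add]
  linarith

lemma Adm.seg_congr (h : Adm F w n0 κ) {θ : ℝ × ℝ} {t t' : Environment}
    (ht : ∀ e ∈ edgesIn {z | |F.be (pos θ z)| ≤ w / 2}, t e = t' e) :
    seg F w n0 κ θ t = seg F w n0 κ θ t' := by
  unfold seg
  congr 1
  refine geoL_congr (h.ne' θ) ?_
  have hin : ∀ x ∈ Qbox F w n0 (θ + toR (nr θ)), |F.be (pos θ (x + nr θ))| ≤ w / 2 := by
    intro x hx
    rw [mem_Qbox F (h.norm_rel θ)] at hx
    rcases hx with hx | hx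
    · rw [← pos_rel, hx]
      refine (abs_be_nxt F n0 _).trans ?_
      have := h.w_be
      linarith
    · rw [← pos_rel]; exact hx.1
  intro x hx y hy
  have h1 := hin x hx
  have h2 := hin y hy
  show t (Sym2.map (tr (nr θ)) s(x, y)) = t' (Sym2.map (tr (nr θ)) s(x, y))
  rw [Sym2.map_mk]
  refine ht _ ?_
  exact mem_edgesIn.2 ⟨h1, h2⟩

lemma measurable_Qbox (F : FlatData μ) (w n0 : ℝ) : Measurable (Qbox F w n0) := by
  classical
  have hnx : Measurable (nxt F n0) := by
    unfold nxt; exact measurable_nr.comp (measurable_id.sub_const _)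
  have hp : ∀ z : ℤ × ℤ, Measurable fun θ : ℝ × ℝ => pos θ z := fun z => by
    unfold pos; exact measurable_const.add measurable_id
  have hpn : Measurable fun θ : ℝ × ℝ => pos θ (nxt F n0 θ) := by
    unfold pos
    exact ((measurable_of_countable toR).comp hnx).add measurable_id
  have hfil : Measurable fun θ : ℝ × ℝ => (box (bxN F w n0)).filter fun z =>
      |F.be (pos θ z)| ≤ w / 2 ∧ F.al (pos θ 0) ≤ F.al (pos θ z) ∧
        F.al (pos θ z) < F.al (pos θ (nxt F n0 θ)) := by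
    refine measurable_to_countable' fun S => ?_
    have e : (fun θ : ℝ × ℝ => (box (bxN F w n0)).filter fun z =>
        |F.be (pos θ z)| ≤ w / 2 ∧ F.al (pos θ 0) ≤ F.al (pos θ z) ∧
          F.al (pos θ z) < F.al (pos θ (nxt F n0 θ))) ⁻¹' {S} =
        ⋂ z : ℤ × ℤ, {θ | (z ∈ box (bxN F w n0) ∧ (|F.be (pos θ z)| ≤ w / 2 ∧
          F.al (pos θ 0) ≤ F.al (pos θ z) ∧ F.al (pos θ z) < F.al (pos θ (nxt F n0 θ)))) ↔
            z ∈ S} := by
      ext θ
      simp only [Set.mem_preimage, Set.mem_singleton_iff, Finset.ext_iff, Finset.mem_filter,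
        Set.mem_iInter, Set.mem_setOf_eq]
    rw [e]
    refine MeasurableSet.iInter fun z => ?_
    have m1 : MeasurableSet {θ : ℝ × ℝ | |F.be (pos θ z)| ≤ w / 2 ∧
          F.al (pos θ 0) ≤ F.al (pos θ z) ∧ F.al (pos θ z) < F.al (pos θ (nxt F n0 θ))} := by
      refine MeasurableSet.inter ?_ (MeasurableSet.inter ?_ ?_)
      · exact measurableSet_le ((F.be.continuous.measurable.comp (hp z)).norm) measurable_const
      · exact measurableSet_le (F.al.continuous.measurable.comp (hp 0))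
          (F.al.continuous.measurable.comp (hp z))
      · exact measurableSet_lt (F.al.continuous.measurable.comp (hp z))
          (F.al.continuous.measurable.comp hpn)
    by_cases hS : z ∈ S
    · by_cases hb : z ∈ box (bxN F w n0)
      · simpa [hS, hb] using m1
      · simp [hS, hb]
    · by_cases hb : z ∈ box (bxN F w n0)
      · have := m1.compl
        simpa [hS, hb, Set.compl_setOf] using this
      · simp [hS, hb]
  have h2 : Measurable fun p : (ℤ × ℤ) × Finset (ℤ × ℤ) => insert p.1 p.2 :=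
    Measurable.of_discrete
  exact h2.comp (hnx.prodMk hfil)

lemma measurable_nxt (F : FlatData μ) (n0 : ℝ) : Measurable (nxt F n0) := by
  unfold nxt; exact measurable_nr.comp (measurable_id.sub_const _)

lemma measurable_rel : Measurable fun θ : ℝ × ℝ => θ + toR (nr θ) :=
  measurable_id.add ((measurable_of_countable toR).comp measurable_nr)

lemma measurable_segQ (F : FlatData μ) (w n0 : ℝ) :
    Measurable fun q : (ℝ × ℝ) × Environment =>
      (((Qbox F w n0 (q.1 + toR (nr q.1)), nxt F n0 (q.1 + toR (nr q.1))),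
        act (tr (nr q.1)) q.2) : (Finset (ℤ × ℤ) × (ℤ × ℤ)) × Environment) := by
  have h1 : Measurable fun q : (ℝ × ℝ) × Environment => Qbox F w n0 (q.1 + toR (nr q.1)) := by
    have := (measurable_Qbox F w n0).comp (measurable_rel.comp
      (measurable_fst : Measurable (Prod.fst : (ℝ × ℝ) × Environment → ℝ × ℝ)))
    exact this
  have h2 : Measurable fun q : (ℝ × ℝ) × Environment => nxt F n0 (q.1 + toR (nr q.1)) := by
    have := (measurable_nxt F n0).comp (measurable_rel.comp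
      (measurable_fst : Measurable (Prod.fst : (ℝ × ℝ) × Environment → ℝ × ℝ)))
    exact this
  have h3 : Measurable fun q : (ℝ × ℝ) × Environment => act (tr (nr q.1)) q.2 := by
    have h4 : Measurable fun q : (ℝ × ℝ) × Environment => (nr q.1, q.2) :=
      (measurable_nr.comp measurable_fst).prodMk measurable_snd
    have := measurable_act_tr.comp h4
    exact this
  exact (h1.prodMk h2).prodMk h3

lemma measurable_seg (F : FlatData μ) (w n0 κ : ℝ) :
    Measurable fun q : (ℝ × ℝ) × Environment => seg F w n0 κ q.1 q.2 := by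
  have h1 := (measurable_geoL (hgt F) κ).comp (measurable_segQ F w n0)
  have h2 : Measurable fun p : List (ℤ × ℤ) × (ℤ × ℤ) => p.1.map (· + p.2) :=
    Measurable.of_discrete
  have hnr : Measurable fun q : (ℝ × ℝ) × Environment => nr q.1 := measurable_nr.comp measurable_fst
  have h3 := h2.comp (h1.prodMk hnr)
  exact h3

/-! ### The highway with phase zero -/

/-- the blocks -/
noncomputable def segs (F : FlatData μ) (w n0 κ : ℝ) (θ : ℝ × ℝ) (t : Environment) (j : ℤ) :
    List (ℤ × ℤ) := seg F w n0 κ (θ - ((j : ℝ) * n0) • F.a) t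

/-- the nodes -/
noncomputable def nods (F : FlatData μ) (n0 : ℝ) (θ : ℝ × ℝ) (j : ℤ) : ℤ × ℤ :=
  nr (θ - ((j : ℝ) * n0) • F.a)

lemma nods_succ (n0 : ℝ) (θ : ℝ × ℝ) (j : ℤ) :
    nr (θ - ((j : ℝ) * n0) • F.a - n0 • F.a) = nods F n0 θ (j + 1) := by
  unfold nods
  congr 1
  push_cast
  rw [sub_sub, ← add_smul]
  congr 2
  ring

lemma al_pos_sub (θ : ℝ × ℝ) (c : ℝ) (z : ℤ × ℤ) :
    F.al (pos (θ - c • F.a) z) = F.al (pos θ z) - c := by
  unfold pos
  rw [map_add, map_sub, map_smul, F.al_a, map_add, smul_eq_mul]; ring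

lemma be_pos_sub (θ : ℝ × ℝ) (c : ℝ) (z : ℤ × ℤ) :
    F.be (pos (θ - c • F.a) z) = F.be (pos θ z) := by
  unfold pos
  rw [map_add, map_sub, map_smul, F.be_a, map_add, smul_eq_mul]; ring

lemma abs_al_nods (n0 : ℝ) (θ : ℝ × ℝ) (j : ℤ) :
    |F.al (pos θ (nods F n0 θ j)) - j * n0| ≤ ‖F.al‖ / 2 := by
  have h := norm_pos_nr (θ - ((j : ℝ) * n0) • F.a)
  have h2 := abs_al_le F (pos (θ - ((j : ℝ) * n0) • F.a) (nods F n0 θ j))
  rw [al_pos_sub] at h2
  refine h2.trans ?_
  have := mul_le_mul_of_nonneg_left h (norm_nonneg F.al)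
  unfold nods
  linarith

lemma abs_be_nods (n0 : ℝ) (θ : ℝ × ℝ) (j : ℤ) :
    |F.be (pos θ (nods F n0 θ j))| ≤ ‖F.be‖ / 2 := by
  have h := norm_pos_nr (θ - ((j : ℝ) * n0) • F.a)
  have h2 := abs_be_le F (pos (θ - ((j : ℝ) * n0) • F.a) (nods F n0 θ j))
  rw [be_pos_sub] at h2
  refine h2.trans ?_
  have := mul_le_mul_of_nonneg_left h (norm_nonneg F.be)
  unfold nods
  linarith

lemma Adm.blocks (h : Adm F w n0 κ) (θ : ℝ × ℝ) (t : Environment) :
    Blocks (segs F w n0 κ θ t) (nods F n0 θ) where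
  nodup j := h.seg_nodup _ _
  chain j := h.seg_chain _ _
  head j := h.seg_head _ _
  last j := by
    have := h.seg_last (θ - ((j : ℝ) * n0) • F.a) t
    rw [nods_succ] at this
    exact this
  ne j := by
    intro heq
    have h1 := abs_al_nods (F := F) n0 θ j
    have h2 := abs_al_nods (F := F) n0 θ (j + 1)
    rw [← heq] at h2
    push_cast at h2
    rw [abs_le] at h1 h2
    have := h.n0_al
    linarith [h1.1, h1.2, h2.1, h2.2]

lemma Adm.ordered (h : Adm F w n0 κ) (θ : ℝ × ℝ) (t : Environment) :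
    Blocks.Ordered (segs F w n0 κ θ t) (nods F n0 θ) (fun z => F.al (pos θ z)) where
  low j z hz := by
    rcases h.mem_seg hz with h1 | ⟨h1, h2, h3⟩
    · rw [nods_succ] at h1
      rw [h1]
      have h1 := abs_al_nods (F := F) n0 θ j
      have h2 := abs_al_nods (F := F) n0 θ (j + 1)
      push_cast at h2
      rw [abs_le] at h1 h2
      have := h.n0_al
      linarith [h1.1, h1.2, h2.1, h2.2]
    · rw [al_pos_sub, al_pos_sub] at h2
      have : F.al (pos θ (nods F n0 θ j)) ≤ F.al (pos θ z) := by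
        unfold nods; linarith
      exact this
  high j z hz hne := by
    rcases h.mem_seg hz with h1 | ⟨h1, h2, h3⟩
    · rw [nods_succ] at h1
      exact absurd h1 hne
    · rw [nods_succ, al_pos_sub, al_pos_sub] at h3
      linarith

/-- the highway with phase zero -/
noncomputable def HH (F : FlatData μ) (w n0 κ : ℝ) (θ : ℝ × ℝ) (t : Environment) : ℤ → ℤ × ℤ :=
  cat (segs F w n0 κ θ t)

lemma Adm.HH_mem (h : Adm F w n0 κ) (θ : ℝ × ℝ) (t : Environment) (k : ℤ) :
    ∃ j, HH F w n0 κ θ t k ∈ segs F w n0 κ θ t j := by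
  obtain ⟨j, i, rfl, hi⟩ := (h.blocks θ t).exists_block k
  exact ⟨j, ((h.blocks θ t).mem_iff j _).2 ⟨i, hi.le, rfl⟩⟩

lemma Adm.HH_node (h : Adm F w n0 κ) (θ : ℝ × ℝ) (t : Environment) (j : ℤ) :
    HH F w n0 κ θ t (cum (len (segs F w n0 κ θ t)) j) = nods F n0 θ j := by
  have := (h.blocks θ t).cat_add j 0 (by have := (h.blocks θ t).one_le_len j; push_cast; omega)
  rw [(h.blocks θ t).getD_zero] at this
  unfold HH
  simpa using this

lemma Adm.HH_back (h : Adm F w n0 κ) (θ : ℝ × ℝ) (t : Environment) {j k : ℤ} (hjk : j ≤ k) :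
    F.al (pos θ (HH F w n0 κ θ t j)) ≤ F.al (pos θ (HH F w n0 κ θ t k)) + κ :=
  (h.blocks θ t).cat_back (h.ordered θ t) h.κ_nonneg (fun _ => h.seg_bt _ _ _) hjk

lemma Adm.HH_top (h : Adm F w n0 κ) (θ : ℝ × ℝ) (t : Environment) :
    Tendsto (fun k => F.al (pos θ (HH F w n0 κ θ t k))) atTop atTop := by
  refine tendsto_atTop.2 fun b => ?_
  obtain ⟨j, hj⟩ := exists_nat_gt ((b + κ + ‖F.al‖) / n0)
  rw [div_lt_iff₀ h.n0_pos] at hj
  filter_upwards [eventually_ge_atTop (cum (len (segs F w n0 κ θ t)) (j : ℤ))] with k hk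
  have h1 := h.HH_back θ t hk
  rw [h.HH_node] at h1
  have h2 := abs_al_nods (F := F) n0 θ (j : ℤ)
  rw [abs_le] at h2
  push_cast at h2
  have := norm_nonneg F.al
  linarith [h2.1]

lemma Adm.HH_bot (h : Adm F w n0 κ) (θ : ℝ × ℝ) (t : Environment) :
    Tendsto (fun k => F.al (pos θ (HH F w n0 κ θ t k))) atBot atBot := by
  refine tendsto_atBot.2 fun b => ?_
  obtain ⟨j, hj⟩ := exists_nat_gt ((-b + κ + ‖F.al‖) / n0)
  rw [div_lt_iff₀ h.n0_pos] at hj
  filter_upwards [eventually_le_atBot (cum (len (segs F w n0 κ θ t)) (-(j : ℤ)))] with k hk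
  have h1 := h.HH_back θ t hk
  rw [h.HH_node] at h1
  have h2 := abs_al_nods (F := F) n0 θ (-(j : ℤ))
  rw [abs_le] at h2
  push_cast at h2
  have := norm_nonneg F.al
  linarith [h2.2]

lemma Adm.HH_strip (h : Adm F w n0 κ) (θ : ℝ × ℝ) (t : Environment) (k : ℤ) :
    |F.be (pos θ (HH F w n0 κ θ t k))| ≤ w / 2 := by
  obtain ⟨j, hj⟩ := h.HH_mem θ t k
  rcases h.mem_seg hj with h1 | ⟨h1, h2, h3⟩
  · rw [nods_succ] at h1
    rw [h1]
    refine (abs_be_nods (F := F) n0 θ (j + 1)).trans ?_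
    have := h.w_be
    linarith
  · rwa [be_pos_sub] at h1

lemma segs_cov (θ : ℝ × ℝ) (t : Environment) (m : ℤ × ℤ) :
    segs F w n0 κ (θ + toR m) (act (tr m) t) = fun j => (segs F w n0 κ θ t j).map (· - m) := by
  funext j
  unfold segs
  have : θ + toR m - ((j : ℝ) * n0) • F.a = θ - ((j : ℝ) * n0) • F.a + toR m := by abel
  rw [this, seg_cov]

lemma Adm.HH_cov (h : Adm F w n0 κ) (θ : ℝ × ℝ) (t : Environment) (m : ℤ × ℤ) (k : ℤ) :
    HH F w n0 κ (θ + toR m) (act (tr m) t) k = HH F w n0 κ θ t k - m := by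
  unfold HH
  rw [segs_cov]
  exact (h.blocks θ t).cat_map _ k

lemma Adm.HH_shift (h : Adm F w n0 κ) (θ : ℝ × ℝ) (t : Environment) (N k : ℤ) :
    HH F w n0 κ (θ - ((N : ℝ) * n0) • F.a) t k =
      HH F w n0 κ θ t (k + cum (len (segs F w n0 κ θ t)) N) := by
  unfold HH
  rw [← (h.blocks θ t).cat_shift]
  congr 1
  funext j
  unfold segs
  congr 1
  push_cast
  rw [sub_sub, ← add_smul]
  congr 2
  ring

lemma Adm.HH_loc (h : Adm F w n0 κ) (θ : ℝ × ℝ) (t t' : Environment)
    (ht : ∀ e ∈ edgesIn {z | |F.be (pos θ z)| ≤ w / 2}, t e = t' e) :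
    HH F w n0 κ θ t = HH F w n0 κ θ t' := by
  unfold HH
  congr 1
  funext j
  unfold segs
  refine h.seg_congr ?_
  intro e he
  refine ht e ?_
  intro z hz
  have := he z hz
  simp only [Set.mem_setOf_eq, be_pos_sub] at this ⊢
  exact this

lemma measurable_segs (F : FlatData μ) (w n0 κ : ℝ) (j : ℤ) :
    Measurable fun q : (ℝ × ℝ) × Environment => segs F w n0 κ q.1 q.2 j := by
  have h4 : Measurable fun q : (ℝ × ℝ) × Environment => (q.1 - ((j : ℝ) * n0) • F.a, q.2) :=
    (measurable_fst.sub_const _).prodMk measurable_snd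
  have := (measurable_seg F w n0 κ).comp h4
  exact this

lemma Adm.HH_meas (h : Adm F w n0 κ) (k : ℤ) :
    Measurable fun q : (ℝ × ℝ) × Environment => HH F w n0 κ q.1 q.2 k := by
  have := measurable_cat (L := fun q : (ℝ × ℝ) × Environment => segs F w n0 κ q.1 q.2)
    (measurable_segs F w n0 κ) (fun a j => (h.blocks a.1 a.2).one_le_len j) k
  exact this

/-- the highway with phase `u` -/
noncomputable def HU (F : FlatData μ) (w n0 κ u : ℝ) (θ : ℝ × ℝ) (t : Environment) : ℤ → ℤ × ℤ :=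
  HH F w n0 κ (θ - (u * n0) • F.a) t

lemma Adm.HU_meas (h : Adm F w n0 κ) (k : ℤ) :
    Measurable fun q : ℝ × (ℝ × ℝ) × Environment => HU F w n0 κ q.1 q.2.1 q.2.2 k := by
  have h4 : Measurable fun q : ℝ × (ℝ × ℝ) × Environment =>
      (q.2.1 - (q.1 * n0) • F.a, q.2.2) := by
    refine Measurable.prodMk (Measurable.sub ?_ ?_) ?_
    · exact measurable_fst.comp measurable_snd
    · exact (measurable_fst.mul_const n0).smul_const F.a
    · exact measurable_snd.comp measurable_snd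
  have := (h.HH_meas k).comp h4
  exact this

lemma Adm.HU_strip (h : Adm F w n0 κ) (u : ℝ) (θ : ℝ × ℝ) (t : Environment) (k : ℤ) :
    |F.be (pos θ (HU F w n0 κ u θ t k))| ≤ w / 2 := by
  have := h.HH_strip (θ - (u * n0) • F.a) t k
  rwa [be_pos_sub] at this

lemma Adm.HU_back (h : Adm F w n0 κ) (u : ℝ) (θ : ℝ × ℝ) (t : Environment) (j k : ℤ)
    (hjk : j ≤ k) :
    F.al (pos θ (HU F w n0 κ u θ t j)) ≤ F.al (pos θ (HU F w n0 κ u θ t k)) + κ := by
  have := h.HH_back (θ - (u * n0) • F.a) t hjk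
  rw [al_pos_sub, al_pos_sub] at this
  unfold HU
  linarith

lemma Adm.HU_top (h : Adm F w n0 κ) (u : ℝ) (θ : ℝ × ℝ) (t : Environment) :
    Tendsto (fun k => F.al (pos θ (HU F w n0 κ u θ t k))) atTop atTop := by
  have := h.HH_top (θ - (u * n0) • F.a) t
  simp only [al_pos_sub] at this
  have h2 := tendsto_atTop_add_const_right atTop (u * n0) this
  simp only [sub_add_cancel] at h2
  exact h2

lemma Adm.HU_bot (h : Adm F w n0 κ) (u : ℝ) (θ : ℝ × ℝ) (t : Environment) :
    Tendsto (fun k => F.al (pos θ (HU F w n0 κ u θ t k))) atBot atBot := by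
  have := h.HH_bot (θ - (u * n0) • F.a) t
  simp only [al_pos_sub] at this
  have h2 := tendsto_atBot_add_const_right atBot (u * n0) this
  simp only [sub_add_cancel] at h2
  exact h2

lemma Adm.HU_cov (h : Adm F w n0 κ) (u : ℝ) (θ : ℝ × ℝ) (t : Environment) (m : ℤ × ℤ) (k : ℤ) :
    HU F w n0 κ u (θ + toR m) (act (tr m) t) k = HU F w n0 κ u θ t k - m := by
  unfold HU
  have : θ + toR m - (u * n0) • F.a = θ - (u * n0) • F.a + toR m := by abel
  rw [this, h.HH_cov]

lemma Adm.HU_ash (h : Adm F w n0 κ) (s u : ℝ) (θ : ℝ × ℝ) (t : Environment) :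
    ∃ c : ℤ, ∀ k, HU F w n0 κ (Int.fract (u + s / n0)) θ t k =
      HU F w n0 κ u (θ - s • F.a) t (k + c) := by
  have hn := h.n0_pos.ne'
  refine ⟨cum (len (segs F w n0 κ (θ - s • F.a - (u * n0) • F.a) t)) (-⌊u + s / n0⌋), fun k => ?_⟩
  unfold HU
  rw [← h.HH_shift]
  congr 1
  have e : Int.fract (u + s / n0) * n0 = s + u * n0 + ((-⌊u + s / n0⌋ : ℤ) : ℝ) * n0 := by
    unfold Int.fract
    push_cast
    field_simp
    ring
  rw [e, add_smul, add_smul]
  abel

lemma Adm.HU_loc (h : Adm F w n0 κ) (u : ℝ) (θ : ℝ × ℝ) (t t' : Environment)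
    (ht : ∀ e ∈ edgesIn {z | |F.be (pos θ z)| ≤ w / 2}, t e = t' e) :
    HU F w n0 κ u θ t = HU F w n0 κ u θ t' := by
  refine h.HH_loc _ t t' ?_
  intro e he
  refine ht e ?_
  intro z hz
  have := he z hz
  have h2 : |F.be (pos (θ - (u * n0) • F.a) z)| ≤ w / 2 := this
  rw [be_pos_sub] at h2
  exact h2

/-- **the system of highways** -/
noncomputable def Adm.hwy (h : Adm F w n0 κ) : Hwy F where
  wH := w
  n0 := n0
  κ := κ
  n0_pos := h.n0_pos
  κ_nonneg := h.κ_nonneg
  H := HU F w n0 κ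
  meas := h.HU_meas
  isHwy u θ t := (h.blocks _ t).cat_isHwy (h.ordered _ t)
  strip := h.HU_strip
  back := h.HU_back
  top := h.HU_top
  bot := h.HU_bot
  cov := h.HU_cov
  ash := h.HU_ash
  loc := h.HU_loc

end Crest.Agent.R151.Q
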