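import Crest.Agent.R151.Q4
import Crest.Agent.R151.Q5e

/-!
# R151 / S0214 part 2, Q6a — general facts on a system of highways (owner helper777)
-/

set_option autoImplicit false

open MeasureTheory Filter ProbabilityTheory Topology
open Crest.ProbabilityR.FirstPassage
open Crest.Agent.R151.K

namespace Crest.Agent.R151.Q

open B710 (FlatData)
open R78 (IsHwy hc hp stepc hc_zero hc_succ hc_sub_eq_sum hc_mono)

/-! ### `firstGe` -/

section firstGe

variable {h : ℤ → ℝ} (ht : Tendsto h atTop atTop) (hb : Tendsto h atBot atBot)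
include ht hb

lemma firstGe_spec (s : ℝ) : s ≤ h (firstGe h s) ∧ ∀ k < firstGe h s, h k < s := by
  have hne : {k | s ≤ h k}.Nonempty := by
    obtain ⟨k, hk⟩ := (ht.eventually_ge_atTop s).exists
    exact ⟨k, hk⟩
  have hbd : BddBelow {k | s ≤ h k} := by
    obtain ⟨k0, hk0⟩ := eventually_atBot.1 (hb.eventually_lt_atBot s)
    refine ⟨k0, fun k (hk : s ≤ h k) => ?_⟩
    by_contra hcon
    push Not at hcon
    have := hk0 k hcon.le
    linarith
  refine ⟨Int.csInf_mem hne hbd, fun k hk => ?_⟩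
  by_contra hcon
  push Not at hcon
  have := csInf_le hbd (show k ∈ {k | s ≤ h k} from hcon)
  unfold firstGe at hk
  omega

lemma firstGe_iff {s : ℝ} {k : ℤ} : firstGe h s = k ↔ s ≤ h k ∧ ∀ j < k, h j < s := by
  obtain ⟨h1, h2⟩ := firstGe_spec ht hb s
  constructor
  · rintro rfl; exact ⟨h1, h2⟩
  · rintro ⟨h3, h4⟩
    rcases lt_trichotomy (firstGe h s) k with hlt | heq | hgt
    · exact absurd h1 (not_le.2 (h4 _ hlt))
    · exact heq
    · exact absurd h3 (not_le.2 (h2 _ hgt))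

lemma firstGe_mono {s s' : ℝ} (hs : s ≤ s') : firstGe h s ≤ firstGe h s' := by
  by_contra hcon
  push Not at hcon
  have h1 := (firstGe_spec ht hb s').1
  have h2 := (firstGe_spec ht hb s).2 _ hcon
  linarith

lemma firstGe_le {s : ℝ} {k : ℤ} (hk : s ≤ h k) : firstGe h s ≤ k := by
  by_contra hcon
  push Not at hcon
  have := (firstGe_spec ht hb s).2 k hcon
  linarith

lemma lt_firstGe {s : ℝ} {k : ℤ} (hk : ∀ j ≤ k, h j < s) : k < firstGe h s := by
  by_contra hcon
  push Not at hcon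
  have := (firstGe_spec ht hb s).1
  have := hk _ hcon
  linarith

lemma firstGe_shift (s : ℝ) (c : ℤ) : firstGe (fun k => h (k + c)) s = firstGe h s - c := by
  have ht' : Tendsto (fun k : ℤ => h (k + c)) atTop atTop :=
    ht.comp (tendsto_atTop_add_const_right _ _ tendsto_id)
  have hb' : Tendsto (fun k : ℤ => h (k + c)) atBot atBot :=
    hb.comp (tendsto_atBot_add_const_right _ _ tendsto_id)
  rw [firstGe_iff ht' hb']
  obtain ⟨h1, h2⟩ := firstGe_spec ht hb s
  rw [sub_add_cancel]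
  exact ⟨h1, fun j hj => h2 _ (by omega)⟩

lemma firstGe_sub (s c : ℝ) : firstGe (fun k => h k - c) s = firstGe h (s + c) := by
  have ht' : Tendsto (fun k : ℤ => h k - c) atTop atTop := by
    simpa [sub_eq_add_neg] using tendsto_atTop_add_const_right atTop (-c) ht
  have hb' : Tendsto (fun k : ℤ => h k - c) atBot atBot := by
    simpa [sub_eq_add_neg] using tendsto_atBot_add_const_right atBot (-c) hb
  rw [firstGe_iff ht' hb']
  obtain ⟨h1, h2⟩ := firstGe_spec ht hb (s + c)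
  exact ⟨by linarith, fun j hj => by linarith [h2 j hj]⟩

end firstGe

/-! ### Potentials -/

lemma hc_congr {t t' : Environment} {H H' : ℤ → ℤ × ℤ} (h : ∀ k, stepc t H k = stepc t' H' k)
    (i : ℤ) : hc t H i = hc t' H' i := by
  induction i using Int.induction_on with
  | zero => rw [hc_zero, hc_zero]
  | succ i ih => rw [hc_succ, hc_succ, ih, h]
  | pred i ih =>
    have h1 := hc_succ t H (-(i : ℤ) - 1)
    have h2 := hc_succ t' H' (-(i : ℤ) - 1)
    have e1 : -(i : ℤ) - 1 + 1 = -i := by ring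
    rw [e1] at h1 h2
    have := h (-(i : ℤ) - 1)
    linarith

lemma hc_shift (t : Environment) (H : ℤ → ℤ × ℤ) (c i : ℤ) :
    hc t (fun k => H (k + c)) i = hc t H (i + c) - hc t H c := by
  have hst : ∀ k, stepc t (fun k => H (k + c)) k = stepc t H (k + c) := by
    intro k
    unfold stepc
    show t s(H (k + c), H (k + 1 + c)) = _
    have : k + 1 + c = k + c + 1 := by ring
    rw [this]
  induction i using Int.induction_on with
  | zero => rw [hc_zero, zero_add, sub_self]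
  | succ i ih =>
    rw [hc_succ, ih, hst]
    have : (i : ℤ) + 1 + c = i + c + 1 := by ring
    rw [this, hc_succ]; ring
  | pred i ih =>
    have h1 := hc_succ t (fun k => H (k + c)) (-(i : ℤ) - 1)
    have h2 := hc_succ t H (-(i : ℤ) - 1 + c)
    have e1 : -(i : ℤ) - 1 + 1 = -i := by ring
    have e2 : -(i : ℤ) - 1 + c + 1 = -i + c := by ring
    rw [e1] at h1
    rw [e2] at h2
    rw [hst] at h1
    linarith

lemma stepc_cov (t : Environment) (H : ℤ → ℤ × ℤ) (m : ℤ × ℤ) (k : ℤ) :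
    stepc (act (tr m) t) (fun k => H k - m) k = stepc t H k := by
  unfold stepc act
  rw [Sym2.map_mk]
  simp

namespace Hwy

variable {μ : ℝ × ℝ → ℝ} {F : FlatData μ} (h : Hwy F)

/-- two vertices differ by a bounded amount along a step -/
lemma al_step (u : ℝ) (θ : ℝ × ℝ) (t : Environment) (k : ℤ) :
    |F.al (pos θ (h.H u θ t (k + 1))) - F.al (pos θ (h.H u θ t k))| ≤ ‖F.al‖ := by
  have hadj := (h.isHwy u θ t).adj k
  have hn := n1_adj' hadj
  rw [← map_sub]
  refine (abs_al_le F _).trans ?_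
  have e : pos θ (h.H u θ t (k + 1)) - pos θ (h.H u θ t k) =
      toR (h.H u θ t (k + 1)) - toR (h.H u θ t k) := by unfold pos; abel
  rw [e]
  calc ‖F.al‖ * _ ≤ ‖F.al‖ * 1 := mul_le_mul_of_nonneg_left hn (norm_nonneg _)
    _ = ‖F.al‖ := mul_one _
where
  n1_adj' {x y : ℤ × ℤ} (h : squareLattice.Adj x y) : ‖toR y - toR x‖ ≤ 1 := by
    refine norm_toR_near ?_
    rw [squareLattice, SimpleGraph.fromRel_adj] at h
    obtain ⟨-, h⟩ := h
    unfold near
    rcases h with (⟨h1, h2⟩ | ⟨h1, h2⟩) | (⟨h1, h2⟩ | ⟨h1, h2⟩) <;> constructor <;>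
      simp [h1, h2]

lemma ixq_spec (s u : ℝ) (θ : ℝ × ℝ) (t : Environment) :
    s ≤ F.al (pos θ (h.x s u θ t)) ∧ ∀ k < h.ix s u θ t, F.al (pos θ (h.H u θ t k)) < s :=
  firstGe_spec (h.top u θ t) (h.bot u θ t) s

lemma ixq_mono {s s' : ℝ} (hs : s ≤ s') (u : ℝ) (θ : ℝ × ℝ) (t : Environment) :
    h.ix s u θ t ≤ h.ix s' u θ t := firstGe_mono (h.top u θ t) (h.bot u θ t) hs

/-- the first vertex with `al ≥ s` has `al < s + ‖al‖ + 1` -/
lemma alq_x_le (s u : ℝ) (θ : ℝ × ℝ) (t : Environment) :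
    F.al (pos θ (h.x s u θ t)) ≤ s + ‖F.al‖ := by
  have h1 := (h.ixq_spec s u θ t).2 (h.ix s u θ t - 1) (by omega)
  have h2 := h.al_step u θ t (h.ix s u θ t - 1)
  rw [sub_add_cancel] at h2
  rw [abs_le] at h2
  unfold x
  linarith [h2.2]

lemma norm_pos_x (s u : ℝ) (θ : ℝ × ℝ) (t : Environment) :
    ‖pos θ (h.x s u θ t)‖ ≤ (|s| + ‖F.al‖) * ‖F.a‖ + h.wH / 2 * ‖F.b‖ := by
  have h1 := (h.ixq_spec s u θ t).1
  have h2 := h.alq_x_le s u θ t
  have h3 := h.strip u θ t (h.ix s u θ t)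
  refine (norm_le_of_coord F _).trans (add_le_add ?_ ?_)
  · refine mul_le_mul_of_nonneg_right ?_ (norm_nonneg _)
    rw [abs_le]
    have := neg_abs_le s
    have := le_abs_self s
    have := norm_nonneg F.al
    constructor <;> linarith
  · exact mul_le_mul_of_nonneg_right h3 (norm_nonneg _)

/-! ### Covariance -/

lemma ix_cov (s u : ℝ) (θ : ℝ × ℝ) (t : Environment) (m : ℤ × ℤ) :
    h.ix s u (θ + toR m) (act (tr m) t) = h.ix s u θ t := by
  unfold ix
  congr 1
  funext k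
  rw [h.cov, pos_rel, sub_add_cancel]

lemma x_cov (s u : ℝ) (θ : ℝ × ℝ) (t : Environment) (m : ℤ × ℤ) :
    h.x s u (θ + toR m) (act (tr m) t) = h.x s u θ t - m := by
  unfold x
  rw [h.ix_cov, h.cov]

lemma hc_cov (u : ℝ) (θ : ℝ × ℝ) (t : Environment) (m : ℤ × ℤ) (i : ℤ) :
    hc (act (tr m) t) (h.H u (θ + toR m) (act (tr m) t)) i = hc t (h.H u θ t) i := by
  refine hc_congr (fun k => ?_) i
  have : h.H u (θ + toR m) (act (tr m) t) = fun k => h.H u θ t k - m := by
    funext k; exact h.cov u θ t m k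
  rw [this, stepc_cov]

lemma cst_cov (s s' u : ℝ) (θ : ℝ × ℝ) (t : Environment) (m : ℤ × ℤ) :
    h.cst s s' u (θ + toR m) (act (tr m) t) = h.cst s s' u θ t := by
  unfold cst
  rw [h.ix_cov, h.ix_cov, h.hc_cov, h.hc_cov]

lemma Y_eq (s s' u : ℝ) (θ : ℝ × ℝ) (t : Environment) :
    h.Y s s' u θ t = h.cst s s' u θ t - (phi F (h.x s' u θ t) - phi F (h.x s u θ t)) := by
  unfold Y cst hp x
  ring

lemma phiq_sub (θ : ℝ × ℝ) (z z' : ℤ × ℤ) :
    phi F z' - phi F z = F.ρ (pos θ z') - F.ρ (pos θ z) := by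
  unfold phi pos
  simp only [map_add]
  ring

lemma Y_cov (s s' u : ℝ) (θ : ℝ × ℝ) (t : Environment) (m : ℤ × ℤ) :
    h.Y s s' u (θ + toR m) (act (tr m) t) = h.Y s s' u θ t := by
  rw [Y_eq, Y_eq, h.cst_cov, h.x_cov, h.x_cov]
  congr 1
  rw [phiq_sub (θ + toR m), phiq_sub θ, pos_rel, pos_rel, sub_add_cancel, sub_add_cancel]

lemma Y_add (s s' s'' u : ℝ) (θ : ℝ × ℝ) (t : Environment) :
    h.Y s s' u θ t + h.Y s' s'' u θ t = h.Y s s'' u θ t := by
  unfold Y; ring

lemma cst_add (s s' s'' u : ℝ) (θ : ℝ × ℝ) (t : Environment) :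
    h.cst s s' u θ t + h.cst s' s'' u θ t = h.cst s s'' u θ t := by
  unfold cst; ring

lemma cst_nonneg {s s' : ℝ} (hs : s ≤ s') (u : ℝ) (θ : ℝ × ℝ) {t : Environment} (ht : Nn t) :
    0 ≤ h.cst s s' u θ t := by
  have := hc_mono ht (h.H u θ t) (h.ixq_mono hs u θ t)
  unfold cst; linarith

/-! ### Shift along `a` -/

lemma ix_ash (c s u : ℝ) (θ : ℝ × ℝ) (t : Environment) :
    ∃ N : ℤ, (∀ k, h.H (Int.fract (u + c / h.n0)) θ t k = h.H u (θ - c • F.a) t (k + N)) ∧
      ∀ s, h.ix (s + c) (Int.fract (u + c / h.n0)) θ t = h.ix s u (θ - c • F.a) t - N := by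
  obtain ⟨N, hN⟩ := h.ash c u θ t
  refine ⟨N, hN, fun s => ?_⟩
  unfold ix
  rw [← firstGe_shift (h.top u (θ - c • F.a) t) (h.bot u (θ - c • F.a) t)]
  have e : (fun k => F.al (pos (θ - c • F.a) (h.H u (θ - c • F.a) t (k + N)))) =
      fun k => F.al (pos θ (h.H (Int.fract (u + c / h.n0)) θ t k)) - c := by
    funext k
    rw [← hN, al_pos_sub]
  rw [e, firstGe_sub (h.top _ θ t) (h.bot _ θ t)]

lemma x_ash (c s u : ℝ) (θ : ℝ × ℝ) (t : Environment) :
    h.x (s + c) (Int.fract (u + c / h.n0)) θ t = h.x s u (θ - c • F.a) t := by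
  obtain ⟨N, hN, hs⟩ := h.ix_ash c s u θ t
  unfold x
  rw [hs, hN, sub_add_cancel]

lemma cst_ash (c s s' u : ℝ) (θ : ℝ × ℝ) (t : Environment) :
    h.cst (s + c) (s' + c) (Int.fract (u + c / h.n0)) θ t = h.cst s s' u (θ - c • F.a) t := by
  obtain ⟨N, hN, hs⟩ := h.ix_ash c s u θ t
  unfold cst
  have e : h.H (Int.fract (u + c / h.n0)) θ t = fun k => h.H u (θ - c • F.a) t (k + N) := by
    funext k; exact hN k
  rw [hs, hs, e, hc_shift, hc_shift, sub_add_cancel, sub_add_cancel]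
  ring

lemma Y_ash (c s s' u : ℝ) (θ : ℝ × ℝ) (t : Environment) :
    h.Y (s + c) (s' + c) (Int.fract (u + c / h.n0)) θ t = h.Y s s' u (θ - c • F.a) t := by
  rw [Y_eq, Y_eq, cst_ash, x_ash, x_ash]

/-! ### Measurability -/

lemma measurable_al (k : ℤ) :
    Measurable fun q : ℝ × (ℝ × ℝ) × Environment => F.al (pos q.2.1 (h.H q.1 q.2.1 q.2.2 k)) := by
  unfold pos
  refine F.al.continuous.measurable.comp ?_
  exact ((measurable_of_countable toR).comp (h.meas k)).add (measurable_fst.comp measurable_snd)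

lemma measurable_ix (s : ℝ) :
    Measurable fun q : ℝ × (ℝ × ℝ) × Environment => h.ix s q.1 q.2.1 q.2.2 := by
  refine measurable_to_countable' fun k => ?_
  have e : (fun q : ℝ × (ℝ × ℝ) × Environment => h.ix s q.1 q.2.1 q.2.2) ⁻¹' {k} =
      {q | s ≤ F.al (pos q.2.1 (h.H q.1 q.2.1 q.2.2 k))} ∩
        ⋂ j : Set.Iio k, {q | F.al (pos q.2.1 (h.H q.1 q.2.1 q.2.2 j)) < s} := by
    ext q
    simp only [Set.mem_preimage, Set.mem_singleton_iff, Set.mem_inter_iff, Set.mem_iInter]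
    refine (firstGe_iff (h.top _ _ _) (h.bot _ _ _)).trans ?_
    constructor
    · rintro ⟨h1, h2⟩; exact ⟨h1, fun j => h2 j.1 j.2⟩
    · rintro ⟨h1, h2⟩; exact ⟨h1, fun j hj => h2 ⟨j, hj⟩⟩
  rw [e]
  refine (measurableSet_le measurable_const (h.measurable_al k)).inter
    (MeasurableSet.iInter fun j => measurableSet_lt (h.measurable_al j) measurable_const)

lemma measurable_edge {α : Type*} [MeasurableSpace α] {T : α → Environment}
    {x y : α → ℤ × ℤ} (hT : Measurable T) (hx : Measurable x) (hy : Measurable y) :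
    Measurable fun a => T a s(x a, y a) := by
  have h : Measurable fun q : ((ℤ × ℤ) × (ℤ × ℤ)) × Environment => q.2 s(q.1.1, q.1.2) := by
    refine measurable_from_prod_countable_right fun m => ?_
    exact (measurable_pi_apply (s(m.1, m.2)) : Measurable fun t : Environment => t s(m.1, m.2))
  exact h.comp ((hx.prodMk hy).prodMk hT)

lemma measurable_hc (i : ℤ) : Measurable fun q : ℝ × (ℝ × ℝ) × Environment =>
    hc q.2.2 (h.H q.1 q.2.1 q.2.2) i := by
  have hst : ∀ k, Measurable fun q : ℝ × (ℝ × ℝ) × Environment =>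
      stepc q.2.2 (h.H q.1 q.2.1 q.2.2) k := by
    intro k
    unfold stepc
    exact measurable_edge (measurable_snd.comp measurable_snd) (h.meas k) (h.meas (k + 1))
  induction i using Int.induction_on with
  | zero => simp only [hc_zero]; exact measurable_const
  | succ i ih => simp only [hc_succ]; exact ih.add (hst _)
  | pred i ih =>
    have e : (fun q : ℝ × (ℝ × ℝ) × Environment => hc q.2.2 (h.H q.1 q.2.1 q.2.2) (-(i : ℤ) - 1)) =
        fun q => hc q.2.2 (h.H q.1 q.2.1 q.2.2) (-(i : ℤ)) -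
          stepc q.2.2 (h.H q.1 q.2.1 q.2.2) (-(i : ℤ) - 1) := by
      funext q
      have h1 := hc_succ q.2.2 (h.H q.1 q.2.1 q.2.2) (-(i : ℤ) - 1)
      have e1 : -(i : ℤ) - 1 + 1 = -i := by ring
      rw [e1] at h1
      linarith
    rw [e]
    exact ih.sub (hst _)

lemma measurable_H_ix (s : ℝ) : Measurable fun q : ℝ × (ℝ × ℝ) × Environment =>
    h.x s q.1 q.2.1 q.2.2 := by
  have h2 : Measurable fun q : (ℝ × (ℝ × ℝ) × Environment) × ℤ =>
      h.H q.1.1 q.1.2.1 q.1.2.2 q.2 :=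
    measurable_from_prod_countable_left fun k => h.meas k
  have h3 := h2.comp (measurable_id.prodMk (h.measurable_ix s))
  exact h3

lemma measurable_x (s : ℝ) : Measurable fun q : ℝ × (ℝ × ℝ) × Environment =>
    h.x s q.1 q.2.1 q.2.2 := h.measurable_H_ix s

lemma measurable_hc_ix (s : ℝ) : Measurable fun q : ℝ × (ℝ × ℝ) × Environment =>
    hc q.2.2 (h.H q.1 q.2.1 q.2.2) (h.ix s q.1 q.2.1 q.2.2) := by
  have h2 : Measurable fun q : (ℝ × (ℝ × ℝ) × Environment) × ℤ =>
      hc q.1.2.2 (h.H q.1.1 q.1.2.1 q.1.2.2) q.2 :=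
    measurable_from_prod_countable_left fun k => h.measurable_hc k
  have h3 := h2.comp (measurable_id.prodMk (h.measurable_ix s))
  exact h3

lemma measurable_cst (s s' : ℝ) : Measurable fun q : ℝ × (ℝ × ℝ) × Environment =>
    h.cst s s' q.1 q.2.1 q.2.2 := (h.measurable_hc_ix s').sub (h.measurable_hc_ix s)

lemma measurable_phi_x (s : ℝ) : Measurable fun q : ℝ × (ℝ × ℝ) × Environment =>
    phi F (h.x s q.1 q.2.1 q.2.2) :=
  (measurable_of_countable (phi F)).comp (h.measurable_x s)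

lemma measurable_Y (s s' : ℝ) : Measurable fun q : ℝ × (ℝ × ℝ) × Environment =>
    h.Y s s' q.1 q.2.1 q.2.2 := by
  have e : (fun q : ℝ × (ℝ × ℝ) × Environment => h.Y s s' q.1 q.2.1 q.2.2) = fun q =>
      h.cst s s' q.1 q.2.1 q.2.2 -
        (phi F (h.x s' q.1 q.2.1 q.2.2) - phi F (h.x s q.1 q.2.1 q.2.2)) := by
    funext q; exact h.Y_eq _ _ _ _ _
  rw [e]
  exact (h.measurable_cst s s').sub ((h.measurable_phi_x s').sub (h.measurable_phi_x s))

/-- the vertex `x s` as a covariant vertex with phase in `ℝ` -/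
lemma covV (s : ℝ) : CovV (Φ := ℝ) (fun θ t u => h.x s u θ t)
    ((|s| + ‖F.al‖) * ‖F.a‖ + h.wH / 2 * ‖F.b‖) where
  meas := by
    have h2 : Measurable fun q : ((ℝ × ℝ) × Environment) × ℝ => (q.2, q.1.1, q.1.2) := by fun_prop
    have := (h.measurable_x s).comp h2
    exact this
  cov m θ t u := h.x_cov s u θ t m
  bdd θ t u := h.norm_pos_x s u θ t

end Hwy

end Crest.Agent.R151.Q
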