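import Mathlib

/-!
R151, S0214 part 2: the deterministic algebra of rows (sections 5, 6, 8, 9, 11 of `P2_v2`).

A row between two highways `H` (index type `I`) and `H'` (index type `J`):
`R i j` = excess of the best crossing `i → j`, `p`, `p'` = potentials of the highways
(`Y_H (x → y) = p y - p x`), `a : I` the left end `-L` of `H`, `b : J` the right end `L` of `H'`.
`sharp R p p' a b i j = R i j + (p i - p a) + (p' b - p' j) - R a b`.
-/

set_option autoImplicit false

namespace Crest.Agent.R151.W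

section sharp

variable {I J : Type*}

/-- the gauge-free cost `R#` -/
def sharp (R : I → J → ℝ) (p : I → ℝ) (p' : J → ℝ) (a : I) (b : J) (i : I) (j : J) : ℝ :=
  R i j + (p i - p a) + (p' b - p' j) - R a b

variable {R : I → J → ℝ} {p : I → ℝ} {p' : J → ℝ} {a : I} {b : J}

theorem sharp_self : sharp R p p' a b a b = 0 := by simp [sharp]

theorem le_sharp_of {i : I} {j : J} {c : ℝ} (h : R a b + c ≤ R i j + (p i - p a) + (p' b - p' j)) :
    c ≤ sharp R p p' a b i j := by unfold sharp; linarith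

section order
variable [Preorder I] [Preorder J]

/-- the two concatenation inequalities of a row -/
structure IsRow (R : I → J → ℝ) (p : I → ℝ) (p' : J → ℝ) : Prop where
  left : ∀ {i' i : I} (j : J), i' ≤ i → R i' j ≤ (p i - p i') + R i j
  right : ∀ (i : I) {j j' : J}, j ≤ j' → R i j' ≤ R i j + (p' j' - p' j)

/-- the Monge property (crossing inequality) of an array -/
def Monge (A : I → J → ℝ) : Prop :=
  ∀ ⦃i i' : I⦄ ⦃j j' : J⦄, i ≤ i' → j ≤ j' → A i j + A i' j' ≤ A i j' + A i' j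

theorem IsRow.sharp_mono_left (h : IsRow R p p') {i' i : I} (j : J) (hi : i' ≤ i) :
    sharp R p p' a b i' j ≤ sharp R p p' a b i j := by
  have := h.left j hi; unfold sharp; linarith

theorem IsRow.sharp_anti_right (h : IsRow R p p') (i : I) {j j' : J} (hj : j ≤ j') :
    sharp R p p' a b i j' ≤ sharp R p p' a b i j := by
  have := h.right i hj; unfold sharp; linarith

theorem IsRow.sharp_nonneg (h : IsRow R p p') {i : I} {j : J} (hi : a ≤ i) (hj : j ≤ b) :
    0 ≤ sharp R p p' a b i j := by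
  have h1 := h.sharp_mono_left (a := a) (b := b) b hi
  have h2 := h.sharp_anti_right (a := a) (b := b) i hj
  rw [sharp_self] at h1; linarith

theorem Monge.sharp (h : Monge R) : Monge (sharp R p p' a b) := by
  intro i i' j j' hi hj
  have := h hi hj
  unfold W.sharp; linarith

theorem Monge.comp {I' J' : Type*} [Preorder I'] [Preorder J'] {A : I → J → ℝ} (h : Monge A)
    {f : I' → I} {g : J' → J} (hf : Monotone f) (hg : Monotone g) :
    Monge fun i j => A (f i) (g j) := fun _ _ _ _ hi hj => h (hf hi) (hg hj)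

end order

/-- Monge sum 1 (section 9): `Σ_{m<n} a_{m+1,m} ≤ a_{n,0} + Σ_{0<m<n} a_{mm}` (with `n ≥ 1`,
written for `n+1`). -/
theorem Monge.sum_sub {A : ℕ → ℕ → ℝ} (h : Monge A) (n : ℕ) :
    ∑ m ∈ Finset.range (n + 1), A (m + 1) m ≤ A (n + 1) 0 + ∑ m ∈ Finset.range n, A (m + 1) (m + 1) := by
  induction n with
  | zero => simp
  | succ n ih =>
    rw [Finset.sum_range_succ (fun m => A (m + 1) m) (n + 1),
      Finset.sum_range_succ (fun m => A (m + 1) (m + 1)) n]
    have := h (show n + 1 ≤ n + 2 by omega) (show 0 ≤ n + 1 by omega)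
    -- A (n+1) 0 + A (n+2) (n+1) ≤ A (n+1) (n+1) + A (n+2) 0
    have e : n + 1 + 1 = n + 2 := rfl
    rw [e]
    linarith

/-- Monge sum 2 (sections 9, 11): `Σ_{m≤n} a_{mm} ≤ Σ_{m<n} a_{m,m+1} + a_{n,0}`. -/
theorem Monge.sum_diag {A : ℕ → ℕ → ℝ} (h : Monge A) (n : ℕ) :
    ∑ m ∈ Finset.range (n + 1), A m m ≤ ∑ m ∈ Finset.range n, A m (m + 1) + A n 0 := by
  induction n with
  | zero => simp
  | succ n ih =>
    rw [Finset.sum_range_succ (fun m => A m m) (n + 1),
      Finset.sum_range_succ (fun m => A m (m + 1)) n]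
    have := h (show n ≤ n + 1 by omega) (show 0 ≤ n + 1 by omega)
    linarith

/-- Section 9 conclusion: the sum of the small falls is at most twice the large fall plus the sum of
the small rises. -/
theorem Monge.sum_sub_le {A : ℕ → ℕ → ℝ} (h : Monge A) (h0 : ∀ m, 0 ≤ A m m) (n : ℕ) :
    ∑ m ∈ Finset.range (n + 1), A (m + 1) m ≤
      2 * A (n + 1) 0 + ∑ m ∈ Finset.range (n + 1), A m (m + 1) := by
  have h1 := h.sum_sub n
  have h2 := h.sum_diag (n + 1)
  have h3 : ∑ m ∈ Finset.range n, A (m + 1) (m + 1) ≤ ∑ m ∈ Finset.range (n + 2), A m m := by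
    rw [Finset.sum_range_succ, Finset.sum_range_succ']
    have := h0 0; have := h0 (n + 1); linarith
  linarith

/-- Section 11: `Σ_{m<n} [a_{mm} - a_{m,m+1}] ≤ a_{n,0}`. -/
theorem Monge.sum_diag_sub {A : ℕ → ℕ → ℝ} (h : Monge A) (h0 : ∀ m, 0 ≤ A m m) (n : ℕ) :
    ∑ m ∈ Finset.range n, (A m m - A m (m + 1)) ≤ A n 0 := by
  have h1 := h.sum_diag n
  rw [Finset.sum_range_succ] at h1
  rw [Finset.sum_sub_distrib]
  have := h0 n; linarith

end sharp

section closeness

/-! ### Section 6: closeness of an outer row `03` and the inner row `12` -/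

variable {I0 I1 I2 I3 : Type*}

/-- `K0 = g1 - Y_{H1}(-L→L) + g2 - Y_{H2}(-L→L) + R12(-L→L) - R03(-L→L)` -/
def K0 (g1 g2 : ℝ) (p1 : I1 → ℝ) (p2 : I2 → ℝ) (R12 : I1 → I2 → ℝ) (R03 : I0 → I3 → ℝ)
    (l0 : I0) (l1 r1 : I1) (l2 r2 : I2) (r3 : I3) : ℝ :=
  g1 - (p1 r1 - p1 l1) + (g2 - (p2 r2 - p2 l2)) + R12 l1 r2 - R03 l0 r3

variable {R03 : I0 → I3 → ℝ} {R12 : I1 → I2 → ℝ} {p0 : I0 → ℝ} {p1 : I1 → ℝ} {p2 : I2 → ℝ}
  {p3 : I3 → ℝ} {A : I0 → I1 → ℝ} {B : I2 → I3 → ℝ} {l0 : I0} {l1 r1 : I1} {l2 r2 : I2} {r3 : I3}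
  {g1 g2 : ℝ}

/-- (6.2) exact form: a decomposition of a crossing of the outer row gives a crossing of the inner
row; the two brackets are nonnegative. -/
theorem sharp_outer_ge {i : I0} {j : I3} {i1 : I1} {j2 : I2}
    (hdec : A i i1 + R12 i1 j2 + B j2 j ≤ R03 i j) :
    sharp R12 p1 p2 l1 r2 i1 j2 + K0 g1 g2 p1 p2 R12 R03 l0 l1 r1 l2 r2 r3 +
      ((p0 i - p0 l0) + A i i1 + (p1 r1 - p1 i1) - g1) +
      ((p2 j2 - p2 l2) + B j2 j + (p3 r3 - p3 j) - g2) ≤ sharp R03 p0 p3 l0 r3 i j := by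
  unfold sharp K0; linarith

/-- (6.2) -/
theorem sharp_outer_ge' {i : I0} {j : I3} {i1 : I1} {j2 : I2}
    (hdec : A i i1 + R12 i1 j2 + B j2 j ≤ R03 i j)
    (hg1 : g1 ≤ (p0 i - p0 l0) + A i i1 + (p1 r1 - p1 i1))
    (hg2 : g2 ≤ (p2 j2 - p2 l2) + B j2 j + (p3 r3 - p3 j)) :
    sharp R12 p1 p2 l1 r2 i1 j2 + K0 g1 g2 p1 p2 R12 R03 l0 l1 r1 l2 r2 r3 ≤
      sharp R03 p0 p3 l0 r3 i j := by
  have := sharp_outer_ge (p0 := p0) (p1 := p1) (p2 := p2) (p3 := p3) (l0 := l0) (l1 := l1) (r1 := r1)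
    (l2 := l2) (r2 := r2) (r3 := r3) (g1 := g1) (g2 := g2) hdec
  linarith

/-- (6.1) `K0 ≤ 0` -/
theorem K0_nonpos {i1 : I1} {j2 : I2}
    (hdec : A l0 i1 + R12 i1 j2 + B j2 r3 ≤ R03 l0 r3)
    (hg1 : g1 ≤ A l0 i1 + (p1 r1 - p1 i1))
    (hg2 : g2 ≤ (p2 j2 - p2 l2) + B j2 r3)
    (hnn : 0 ≤ sharp R12 p1 p2 l1 r2 i1 j2) :
    K0 g1 g2 p1 p2 R12 R03 l0 l1 r1 l2 r2 r3 ≤ 0 := by
  unfold sharp at hnn; unfold K0
  linarith

/-- (6.3) -/
theorem sharp_outer_le {i : I0} {j : I3} {i1 : I1} {j2 : I2} {v1 v2 : ℝ}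
    (hup : R03 i j ≤ v1 + R12 i1 j2 + v2)
    (hK : K0 g1 g2 p1 p2 R12 R03 l0 l1 r1 l2 r2 r3 ≤ 0) :
    sharp R03 p0 p3 l0 r3 i j ≤ sharp R12 p1 p2 l1 r2 i1 j2 +
      (((p0 i - p0 l0) + v1 + (p1 r1 - p1 i1) - g1) +
        ((p2 j2 - p2 l2) + v2 + (p3 r3 - p3 j) - g2)) := by
  unfold sharp K0 at *; linarith

end closeness

section window

/-! ### Section 8: the window inequality (8.1)

Fences `0, …, m` from left to right; the path goes from fence `m` to fence `0`.
`al l = Y_H(-L → x_l)`, `bl l = Y_{H'}(x'_l → L)`, `V l` = cost of the fence path,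
`F l = V l + al l + bl l - G`, `Rl l` = lane restricted cost `x_{l+1} → x'_l`,
`up l`, `uq l` = potential of the fence path `l` at the first hit `p_l` and at the last exit `q_l`.
-/

theorem window_ineq {m : ℕ} {G ai bj cs ce : ℝ} {al bl V Rl up uq cpq cqp : ℕ → ℝ}
    (hs : G ≤ ai + cs + (V m - up m) + bl m)
    (he : G ≤ al 0 + up 0 + ce + bj)
    (hpq : ∀ l < m, uq (l + 1) - up (l + 1) - (V (l + 1) + al (l + 1) + bl (l + 1) - G) ≤ cpq (l + 1))
    (hqp : ∀ l < m, Rl l ≤ uq (l + 1) + cqp l + (V l - up l)) :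
    ∑ l ∈ Finset.range m, (Rl l + al (l + 1) + bl l - G) -
        ∑ l ∈ Finset.range (m + 1), (V l + al l + bl l - G) -
        ∑ l ∈ Finset.range m, (V (l + 1) + al (l + 1) + bl (l + 1) - G) ≤
      ai + cs + ∑ l ∈ Finset.range m, (cpq (l + 1) + cqp l) + ce + bj - G := by
  have h1 : ∑ l ∈ Finset.range m, (uq (l + 1) - up (l + 1) -
      (V (l + 1) + al (l + 1) + bl (l + 1) - G)) ≤ ∑ l ∈ Finset.range m, cpq (l + 1) :=
    Finset.sum_le_sum fun l hl => hpq l (Finset.mem_range.1 hl)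
  have h2 : ∑ l ∈ Finset.range m, (Rl l - uq (l + 1) - (V l - up l)) ≤
      ∑ l ∈ Finset.range m, cqp l :=
    Finset.sum_le_sum fun l hl => by have := hqp l (Finset.mem_range.1 hl); linarith
  have h3 : ∑ l ∈ Finset.range m, (up (l + 1) - up l) = up m - up 0 := Finset.sum_range_sub up m
  have h4 : ∑ l ∈ Finset.range m, (al (l + 1) - al l) = al m - al 0 := Finset.sum_range_sub al m
  have e1 : ∑ l ∈ Finset.range m, (Rl l + al (l + 1) + bl l - G) -
        ∑ l ∈ Finset.range (m + 1), (V l + al l + bl l - G) -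
        ∑ l ∈ Finset.range m, (V (l + 1) + al (l + 1) + bl (l + 1) - G)
      = ∑ l ∈ Finset.range m, (uq (l + 1) - up (l + 1) -
          (V (l + 1) + al (l + 1) + bl (l + 1) - G)) +
        ∑ l ∈ Finset.range m, (Rl l - uq (l + 1) - (V l - up l)) +
        ∑ l ∈ Finset.range m, (up (l + 1) - up l) + ∑ l ∈ Finset.range m, (al (l + 1) - al l)
        - (V m + al m + bl m - G) := by
    rw [Finset.sum_range_succ, ← sub_eq_zero]
    have : ∀ f g : ℕ → ℝ, ∑ l ∈ Finset.range m, (f l + g l) =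
      ∑ l ∈ Finset.range m, f l + ∑ l ∈ Finset.range m, g l := fun f g => Finset.sum_add_distrib
    simp only [Finset.sum_add_distrib, Finset.sum_sub_distrib]
    ring
  rw [e1, h3, h4, Finset.sum_add_distrib]
  linarith

/-- (8.1) in the form used: the defects counted twice. -/
theorem window_ineq' {m : ℕ} {G ai bj cs ce : ℝ} {al bl V Rl up uq cpq cqp : ℕ → ℝ}
    (hF : ∀ l ≤ m, 0 ≤ V l + al l + bl l - G)
    (hs : G ≤ ai + cs + (V m - up m) + bl m)
    (he : G ≤ al 0 + up 0 + ce + bj)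
    (hpq : ∀ l < m, uq (l + 1) - up (l + 1) - (V (l + 1) + al (l + 1) + bl (l + 1) - G) ≤ cpq (l + 1))
    (hqp : ∀ l < m, Rl l ≤ uq (l + 1) + cqp l + (V l - up l)) :
    ∑ l ∈ Finset.range m, (Rl l + al (l + 1) + bl l - G) -
        2 * ∑ l ∈ Finset.range (m + 1), (V l + al l + bl l - G) ≤
      ai + cs + ∑ l ∈ Finset.range m, (cpq (l + 1) + cqp l) + ce + bj - G := by
  have h := window_ineq hs he hpq hqp
  have h2 : ∑ l ∈ Finset.range m, (V (l + 1) + al (l + 1) + bl (l + 1) - G) ≤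
      ∑ l ∈ Finset.range (m + 1), (V l + al l + bl l - G) := by
    rw [Finset.sum_range_succ']
    have := hF 0 (Nat.zero_le _); linarith
  linarith

/-- The defect of a fence is at most `F`: two points with potentials `ux`, `uy` on the fence path. -/
theorem fence_defect {G al bl V ux uy Yxy : ℝ} (h : G ≤ al + ux + Yxy + (V - uy) + bl) :
    uy - ux - (V + al + bl - G) ≤ Yxy := by linarith

end window

section chain

/-! ### (5.2): telescoping along a chain of rows -/

/-- Path crossing the highways `H_0, …, H_N`. `pi k`, `pj k`: potential `p_k` at the last exit point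
`i_k` of `H_k`, and potential `p_{k+1}` at the first hit `j_k` of `H_{k+1}`; `pl k`, `pr k`:
potentials of `H_k` at `-L`, `L`; `c k` = cost of the piece `i_k → j_k`, `e k` = cost of the piece
`j_k → i_{k+1}` (on `H_{k+1}`), `D k` its defect, `S k = R#_k(i_k → j_k)`, `G k = R_k(-L → L)`. -/
theorem chain_ineq {N : ℕ} {pi pj pl pr c e D S G : ℕ → ℝ}
    (hc : ∀ k ≤ N, S k + G k - (pi k - pl k) - (pr (k + 1) - pj k) ≤ c k)
    (he : ∀ k < N, pi (k + 1) - pj k - D (k + 1) ≤ e k) :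
    ∑ k ∈ Finset.range (N + 1), S k - ∑ k ∈ Finset.range N, D (k + 1) +
        (G N + ∑ k ∈ Finset.range N, (G k - (pr (k + 1) - pl (k + 1)))) -
        (pi 0 - pl 0) - (pr (N + 1) - pj N) ≤
      ∑ k ∈ Finset.range (N + 1), c k + ∑ k ∈ Finset.range N, e k := by
  induction N with
  | zero => simpa using (by have := hc 0 le_rfl; linarith)
  | succ N ih =>
    have ih' := ih (fun k hk => hc k (by omega)) (fun k hk => he k (by omega))
    have h1 := hc (N + 1) le_rfl
    have h2 := he N (by omega)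
    rw [Finset.sum_range_succ S, Finset.sum_range_succ (fun k => D (k + 1)),
      Finset.sum_range_succ (fun k => G k - (pr (k + 1) - pl (k + 1))),
      Finset.sum_range_succ c, Finset.sum_range_succ e]
    linarith

/-- (5.3): the reverse inequality for a chain of routes glued along the highways (no defects;
`e k` is at most the highway cost). -/
theorem chain_upper {N : ℕ} {pi pj pl pr c e S G : ℕ → ℝ}
    (hc : ∀ k ≤ N, c k ≤ S k + G k - (pi k - pl k) - (pr (k + 1) - pj k))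
    (he : ∀ k < N, e k ≤ pi (k + 1) - pj k) :
    ∑ k ∈ Finset.range (N + 1), c k + ∑ k ∈ Finset.range N, e k ≤
    ∑ k ∈ Finset.range (N + 1), S k +
        (G N + ∑ k ∈ Finset.range N, (G k - (pr (k + 1) - pl (k + 1)))) -
        (pi 0 - pl 0) - (pr (N + 1) - pj N) := by
  induction N with
  | zero => simpa using (by have := hc 0 le_rfl; linarith)
  | succ N ih =>
    have ih' := ih (fun k hk => hc k (by omega)) (fun k hk => he k (by omega))
    have h1 := hc (N + 1) le_rfl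
    have h2 := he N (by omega)
    rw [Finset.sum_range_succ S,
      Finset.sum_range_succ (fun k => G k - (pr (k + 1) - pl (k + 1))),
      Finset.sum_range_succ c, Finset.sum_range_succ e]
    linarith

end chain

section infconv

/-! ### 777's form: `R#` from open crossings

`K i j = ⨅ over z ≥ i, w ≤ j of (R° z w + p z - p' w)`; Monge from the crossing inequality of open
crossings. Stated for finite linear orders (windows). -/

variable {I J : Type*} [LinearOrder I] [LinearOrder J] [Finite I] [Finite J]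

/-- inf-convolution of an array along the two highways -/
noncomputable def infc (A : I → J → ℝ) (i : I) (j : J) : ℝ :=
  ⨅ z : {z : I × J // i ≤ z.1 ∧ z.2 ≤ j}, A z.1.1 z.1.2

theorem infc_le (A : I → J → ℝ) {i z : I} {j w : J} (hz : i ≤ z) (hw : w ≤ j) :
    infc A i j ≤ A z w :=
  ciInf_le (Finite.bddBelow_range _) (⟨(z, w), hz, hw⟩ : {z : I × J // i ≤ z.1 ∧ z.2 ≤ j})

theorem exists_infc (A : I → J → ℝ) (i : I) (j : J) :
    ∃ z w, i ≤ z ∧ w ≤ j ∧ infc A i j = A z w := by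
  have : Nonempty {z : I × J // i ≤ z.1 ∧ z.2 ≤ j} := ⟨⟨(i, j), le_rfl, le_rfl⟩⟩
  obtain ⟨z, hz⟩ := exists_eq_ciInf_of_finite
    (f := fun z : {z : I × J // i ≤ z.1 ∧ z.2 ≤ j} => A z.1.1 z.1.2)
  exact ⟨z.1.1, z.1.2, z.2.1, z.2.2, hz.symm⟩

theorem infc_mono_left (A : I → J → ℝ) {i i' : I} (j : J) (h : i' ≤ i) :
    infc A i' j ≤ infc A i j := by
  obtain ⟨z, w, hz, hw, e⟩ := exists_infc A i j
  rw [e]; exact infc_le A (h.trans hz) hw

theorem infc_anti_right (A : I → J → ℝ) (i : I) {j j' : J} (h : j ≤ j') :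
    infc A i j' ≤ infc A i j := by
  obtain ⟨z, w, hz, hw, e⟩ := exists_infc A i j
  rw [e]; exact infc_le A hz (hw.trans h)

/-- crossing inequality for open crossings implies Monge for the inf-convolution -/
theorem monge_infc {A : I → J → ℝ}
    (h : ∀ ⦃z z' : I⦄ ⦃w w' : J⦄, z < z' → w < w' → A z w + A z' w' ≤ A z w' + A z' w) :
    Monge (infc A) := by
  intro i i' j j' hi hj
  obtain ⟨z1, w1, hz1, hw1, e1⟩ := exists_infc A i j'
  obtain ⟨z2, w2, hz2, hw2, e2⟩ := exists_infc A i' j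
  rw [e1, e2]
  by_cases c1 : w1 ≤ j
  · have a1 := infc_le A hz1 c1
    have a2 := infc_le A hz2 (hw2.trans hj)
    linarith
  by_cases c2 : i' ≤ z1
  · have a1 := infc_le A c2 hw1
    have a2 := infc_le A (hi.trans hz2) hw2
    linarith
  push Not at c1 c2
  have a1 := infc_le A hz1 hw2
  have a2 := infc_le A hz2 hw1
  have := h (lt_of_lt_of_le c2 hz2) (lt_of_le_of_lt hw2 c1)
  linarith

end infconv

end Crest.Agent.R151.W
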