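import Crest.Agent.R151.E685F1
import Crest.Agent.R151.M192f
import Crest.Agent.R151.W2

/-!
# R151 / S0214 part 2, E685F2 — Monge sums in the mean (helper685)

`A m m' = ∫ sk d I univ L (a m) (b m')` for labels in a lane; `monge_mean`:
`Σ_{m ≤ N} A (m+1) m ≤ A (N+1) 0 + Σ_{m < N} A (m+1) (m+1)`.
-/

set_option autoImplicit false

open MeasureTheory Filter ProbabilityTheory Topology Set
open Crest.ProbabilityR.FirstPassage

namespace Crest.Agent.R151.E685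

open Crest.Agent.R151.K Crest.Agent.R151.Q
open R78 (V Wk IsHwy hc hp stepc hull routes IsOpen shp hullY ptY gapK IsStrip Frame IsPos Back Sep)
open M192 (frame frame_al frame_be al_pos be_pos isStrip)
open B710 (FlatData)
open M56 (nu mg)

variable {μ : ℝ × ℝ → ℝ} {F : FlatData μ} (h : Hwy F)

/-- margin of the labels -/
noncomputable def mgn (h : Hwy F) : ℝ := 2 * mg F + h.κ + 1

lemma mgn_pos : 0 < mgn h := by
  have := M56.one_le_mg F
  have := h.κ_nonneg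
  unfold mgn; linarith

/-- parameters of a lane -/
structure LaneP (h : Hwy F) (d : ℝ × ℝ) (I : Set ℝ) (α β : ℝ) : Prop where
  be : h.wH + 2 * mg F < F.be d
  al : F.al d = 0
  meas : MeasurableSet I
  sub : Icc α β ⊆ I

variable {h} {d : ℝ × ℝ} {I J : Set ℝ} {α β L : ℝ}

namespace LaneP

variable (hL : LaneP h d I α β)
include hL

lemma ne {s s' : ℝ} (h1 : α ≤ s) (h2 : s + mgn h ≤ β) (h3 : α + mgn h ≤ s') (h4 : s' ≤ β)
    (θ : ℝ × ℝ) (t : Environment) (φ : ℝ × ℝ) :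
    (routes t (h.Lo θ t φ) (h.Up d θ t φ) (rg F I θ) (h.iL s θ t φ) (h.iU d s' θ t φ)).Nonempty := by
  have hm := M56.one_le_mg F
  have hκ := h.κ_nonneg
  unfold mgn at h2 h3
  refine M56.row_nonempty hL.be (σ₁ := s + mg F) (σ₂ := s' - mg F - h.κ - 1) le_rfl
    (by rw [hL.al]; linarith) ((Icc_subset_Icc ?_ ?_).trans hL.sub) θ t φ
  · rw [le_sub_iff_add_le, le_min_iff]; constructor <;> linarith
  · rw [← le_sub_iff_add_le, max_le_iff]; constructor <;> linarith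

variable {G : Measure ℝ} [IsProbabilityMeasure G] {ε : ℝ}

lemma int (hM : HwyMean G h ε) (h0 : G (Set.Iio 0) = 0) (h2' : Integrable (fun x : ℝ => x ^ 2) G)
    {s s' : ℝ} (h1 : α ≤ s) (h2 : s + mgn h ≤ β) (h3 : α + mgn h ≤ s') (h4 : s' ≤ β) :
    Integrable (fun q : ((ℝ × ℝ) × Environment) × (ℝ × ℝ) => h.hkY d I s s' q.1.1 q.1.2 q.2)
      (nu G) := by
  have hm := M56.one_le_mg F
  have hκ := h.κ_nonneg
  unfold mgn at h2 h3
  refine M56.hkY_integrable hM h0 h2' hL.be hL.meas (σ₁ := s + mg F) (σ₂ := s' - mg F - h.κ - 1)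
    le_rfl (by rw [hL.al]; linarith) ((Icc_subset_Icc ?_ ?_).trans hL.sub)
  · rw [le_sub_iff_add_le, le_min_iff]; constructor <;> linarith
  · rw [← le_sub_iff_add_le, max_le_iff]; constructor <;> linarith

lemma nonneg (hM : HwyMean G h ε) (h0 : G (Set.Iio 0) = 0)
    (h2' : Integrable (fun x : ℝ => x ^ 2) G) (hμ : IsTC G μ)
    {s s' : ℝ} (h1 : α ≤ s) (h2 : s + mgn h ≤ β) (h3 : α + mgn h ≤ s') (h4 : s' ≤ β) :
    0 ≤ ∫ q, h.hkY d I s s' q.1.1 q.1.2 q.2 ∂(nu G) := by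
  have hm := M56.one_le_mg F
  have hκ := h.κ_nonneg
  unfold mgn at h2 h3
  refine M56.hkY_nonneg hM h0 h2' hL.be hL.meas (σ₁ := s + mg F) (σ₂ := s' - mg F - h.κ - 1)
    le_rfl (by rw [hL.al]; linarith) ((Icc_subset_Icc ?_ ?_).trans hL.sub) hμ
  · rw [le_sub_iff_add_le, le_min_iff]; constructor <;> linarith
  · rw [← le_sub_iff_add_le, max_le_iff]; constructor <;> linarith

end LaneP

/-! ### Gauge over the whole plane -/

section gauge

variable {G : Measure ℝ} [IsProbabilityMeasure G] {ε : ℝ} (hM : HwyMean G h ε)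
  (h0 : G (Set.Iio 0) = 0) (h2' : Integrable (fun x : ℝ => x ^ 2) G)
include hM h0 h2'

lemma gauge_int (hd : h.wH + 2 * mg F < F.be d) (hal : F.al d = 0) (hLL : mgn h ≤ 2 * L) :
    Integrable (fun q : ((ℝ × ℝ) × Environment) × (ℝ × ℝ) =>
      h.hkY d univ (-L) L q.1.1 q.1.2 q.2) (nu G) :=
  (⟨hd, hal, MeasurableSet.univ, subset_univ _⟩ : LaneP h d univ (-L) L).int hM h0 h2' le_rfl
    (by linarith) (by linarith) le_rfl

lemma gauge_nonneg (hμ : IsTC G μ) (hd : h.wH + 2 * mg F < F.be d) (hal : F.al d = 0)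
    (hLL : mgn h ≤ 2 * L) :
    0 ≤ ∫ q, h.hkY d univ (-L) L q.1.1 q.1.2 q.2 ∂(nu G) :=
  (⟨hd, hal, MeasurableSet.univ, subset_univ _⟩ : LaneP h d univ (-L) L).nonneg hM h0 h2' hμ le_rfl
    (by linarith) (by linarith) le_rfl

end gauge

/-! ### Pointwise: monotonicity, sign and Monge -/

lemma sk_mono_pt {t : Environment} (ht : Nn t) {I I' : Set ℝ} (hI : I ⊆ I') {s s₁ s' s₁' : ℝ}
    (hs : s₁ ≤ s) (hs' : s' ≤ s₁') {θ φ : ℝ × ℝ}
    (hne : (routes t (h.Lo θ t φ) (h.Up d θ t φ) (rg F I θ) (h.iL s θ t φ)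
      (h.iU d s' θ t φ)).Nonempty) :
    h.sk d I' J L s₁ s₁' θ t φ ≤ h.sk d I J L s s' θ t φ := by
  have := R78.hull_mono (Q.bddBelow_routes ht _ _ _ _ _) hne (M192.rg_mono hI θ)
    (M192.iL_mono h hs θ t φ) (M192.iU_mono h d hs' θ t φ)
  unfold Hwy.sk Hwy.hk
  linarith

lemma sk_nonneg_pt {t : Environment} (ht : Nn t) {I : Set ℝ} {s s' : ℝ}
    (hs : -L ≤ s) (hs' : s' ≤ L) {θ φ : ℝ × ℝ}
    (hne : (routes t (h.Lo θ t φ) (h.Up d θ t φ) (rg F I θ) (h.iL s θ t φ)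
      (h.iU d s' θ t φ)).Nonempty) :
    0 ≤ h.sk d I univ L s s' θ t φ := by
  have := sk_mono_pt (J := univ) (L := L) ht (subset_univ I) hs hs' hne
  have e : h.sk d univ univ L (-L) L θ t φ = 0 := by unfold Hwy.sk; ring
  rwa [e] at this

lemma crosses_row (hd : h.wH < F.be d) (θ : ℝ × ℝ) (t : Environment) (φ : ℝ × ℝ) :
    R78.Crosses (h.Lo θ t φ) (h.Up d θ t φ) :=
  IsStrip.crosses (isStrip h φ.1 θ t) (isStrip h φ.2 (θ - d) t) (by rw [map_sub]; linarith)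

lemma sk_monge_pt (hd : h.wH < F.be d) {t : Environment} (ht : Nn t) {s s₂ s' s₂' : ℝ}
    (hs : s ≤ s₂) (hs' : s' ≤ s₂') {θ φ : ℝ × ℝ}
    (hne : (routes t (h.Lo θ t φ) (h.Up d θ t φ) (rg F I θ) (h.iL s₂ θ t φ)
      (h.iU d s' θ t φ)).Nonempty) :
    h.sk d I J L s s' θ t φ + h.sk d I J L s₂ s₂' θ t φ ≤
      h.sk d I J L s s₂' θ t φ + h.sk d I J L s₂ s' θ t φ := by
  have := R78.hull_monge' (t := t) (A := rg F I θ) (crosses_row hd θ t φ)
    (M192.iL_mono h hs θ t φ) (M192.iU_mono h d hs' θ t φ) (Q.bddBelow_routes ht _ _ _ _ _) hne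
  unfold Hwy.sk Hwy.hk
  linarith

/-! ### Monge sums in the mean -/

section mean

variable {G : Measure ℝ} [IsProbabilityMeasure G] {ε : ℝ} (hM : HwyMean G h ε)
  (h0 : G (Set.Iio 0) = 0) (h2' : Integrable (fun x : ℝ => x ^ 2) G)
  (hL : LaneP h d I α β) (hLL : mgn h ≤ 2 * L)
include hM h0 h2' hL hLL

lemma sk_int {s s' : ℝ} (h1 : α ≤ s) (h2 : s + mgn h ≤ β) (h3 : α + mgn h ≤ s') (h4 : s' ≤ β) :
    Integrable (fun q : ((ℝ × ℝ) × Environment) × (ℝ × ℝ) =>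
      h.sk d I univ L s s' q.1.1 q.1.2 q.2) (nu G) :=
  (sk_mean h hM (hL.int hM h0 h2' h1 h2 h3 h4) (gauge_int hM h0 h2' hL.be hL.al hLL)).1

omit h2' hLL hM in
lemma sk_mean_nonneg {s s' : ℝ} (h1 : α ≤ s) (h2 : s + mgn h ≤ β) (h3 : α + mgn h ≤ s')
    (h4 : s' ≤ β) (h5 : -L ≤ s) (h6 : s' ≤ L) :
    0 ≤ ∫ q, h.sk d I univ L s s' q.1.1 q.1.2 q.2 ∂(nu G) := by
  refine integral_nonneg_of_ae ?_
  filter_upwards [ae_P0_Nn (Ψ := ℝ × ℝ) (ν := UU.prod UU) h0] with q hq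
  exact sk_nonneg_pt hq.1 h5 h6 (hL.ne h1 h2 h3 h4 _ _ _)

/-- **Monge sum in the mean** -/
theorem monge_mean {a b : ℕ → ℝ} (ha : Monotone a) (hb : Monotone b)
    (ha1 : ∀ m, α ≤ a m) (ha2 : ∀ m, a m + mgn h ≤ β) (hb1 : ∀ m, α + mgn h ≤ b m)
    (hb2 : ∀ m, b m ≤ β) (N : ℕ) :
    ∑ m ∈ Finset.range (N + 1), ∫ q, h.sk d I univ L (a (m + 1)) (b m) q.1.1 q.1.2 q.2 ∂(nu G) ≤
      ∫ q, h.sk d I univ L (a (N + 1)) (b 0) q.1.1 q.1.2 q.2 ∂(nu G) +
      ∑ m ∈ Finset.range N,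
        ∫ q, h.sk d I univ L (a (m + 1)) (b (m + 1)) q.1.1 q.1.2 q.2 ∂(nu G) := by
  have hi : ∀ i j, Integrable (fun q : ((ℝ × ℝ) × Environment) × (ℝ × ℝ) =>
      h.sk d I univ L (a i) (b j) q.1.1 q.1.2 q.2) (nu G) := fun i j =>
    sk_int hM h0 h2' hL hLL (ha1 i) (ha2 i) (hb1 j) (hb2 j)
  have hwm : h.wH < F.be d := by
    have := hL.be
    have := M56.one_le_mg F
    linarith
  have key := integral_mono_ae
    (integrable_finsetSum (Finset.range (N + 1)) fun m _ => hi (m + 1) m)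
    ((hi (N + 1) 0).add (integrable_finsetSum (Finset.range N) fun m _ => hi (m + 1) (m + 1))) (by
      filter_upwards [ae_P0_Nn (Ψ := ℝ × ℝ) (ν := UU.prod UU) h0] with q hq
      have hmg : W.Monge fun i j : ℕ => h.sk d I univ L (a i) (b j) q.1.1 q.1.2 q.2 := by
        intro i i' j j' hii hjj
        exact sk_monge_pt hwm hq.1 (ha hii) (hb hjj) (hL.ne (ha1 _) (ha2 _) (hb1 _) (hb2 _) _ _ _)
      have := hmg.sum_sub N
      simp only [Pi.add_apply]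
      exact this)
  simp only [Pi.add_apply] at key
  rw [integral_finsetSum _ fun m _ => hi (m + 1) m,
    integral_add (hi (N + 1) 0) (integrable_finsetSum _ fun m _ => hi (m + 1) (m + 1)),
    integral_finsetSum _ fun m _ => hi (m + 1) (m + 1)] at key
  exact key

/-- a small term of the sum, among the last `k` -/
theorem exists_small {a b : ℕ → ℝ} (ha : Monotone a) (hb : Monotone b)
    (ha1 : ∀ m, α ≤ a m) (ha2 : ∀ m, a m + mgn h ≤ β) (hb1 : ∀ m, α + mgn h ≤ b m)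
    (hb2 : ∀ m, b m ≤ β) (haL : ∀ m, -L ≤ a m) (hbL : ∀ m, b m ≤ L) {N k : ℕ} (hk : 1 ≤ k)
    (hkN : k ≤ N + 1) {T U : ℝ}
    (hT : ∫ q, h.sk d I univ L (a (N + 1)) (b 0) q.1.1 q.1.2 q.2 ∂(nu G) ≤ T)
    (hU : ∀ m < N, ∫ q, h.sk d I univ L (a (m + 1)) (b (m + 1)) q.1.1 q.1.2 q.2 ∂(nu G) ≤ U) :
    ∃ m, N + 1 - k ≤ m ∧ m < N + 1 ∧
      ∫ q, h.sk d I univ L (a (m + 1)) (b m) q.1.1 q.1.2 q.2 ∂(nu G) ≤ (T + N * U) / k := by
  have key := monge_mean hM h0 h2' hL hLL ha hb ha1 ha2 hb1 hb2 N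
  set f : ℕ → ℝ := fun m => ∫ q, h.sk d I univ L (a (m + 1)) (b m) q.1.1 q.1.2 q.2 ∂(nu G) with hf
  have hf0 : ∀ m, 0 ≤ f m := fun m => sk_mean_nonneg h0 hL (ha1 _) (ha2 _) (hb1 _) (hb2 _)
    (haL _) (hbL _)
  have h3 : ∑ m ∈ Finset.range N,
      ∫ q, h.sk d I univ L (a (m + 1)) (b (m + 1)) q.1.1 q.1.2 q.2 ∂(nu G) ≤ N * U := by
    refine (Finset.sum_le_sum fun m hm => hU m (Finset.mem_range.1 hm)).trans ?_
    rw [Finset.sum_const, Finset.card_range, nsmul_eq_mul]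
  have h4 : ∑ m ∈ Finset.Ico (N + 1 - k) (N + 1), f m ≤ T + N * U := by
    have h5 : ∑ m ∈ Finset.Ico (N + 1 - k) (N + 1), f m ≤ ∑ m ∈ Finset.range (N + 1), f m := by
      refine Finset.sum_le_sum_of_subset_of_nonneg ?_ fun m _ _ => hf0 m
      intro m hm
      rw [Finset.mem_Ico] at hm
      exact Finset.mem_range.2 hm.2
    linarith
  have hcard : (Finset.Ico (N + 1 - k) (N + 1)).card = k := by rw [Nat.card_Ico]; omega
  have hk0 : (0 : ℝ) < k := by exact_mod_cast hk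
  have hne : (Finset.Ico (N + 1 - k) (N + 1)).Nonempty := by
    rw [← Finset.card_pos, hcard]; omega
  have h6 : ∑ m ∈ Finset.Ico (N + 1 - k) (N + 1), f m ≤
      ∑ _m ∈ Finset.Ico (N + 1 - k) (N + 1), (T + N * U) / k := by
    rw [Finset.sum_const, hcard, nsmul_eq_mul]
    have : (k : ℝ) * ((T + N * U) / k) = T + N * U := by field_simp
    rw [this]; exact h4
  obtain ⟨m, hm, hm2⟩ := Finset.exists_le_of_sum_le hne h6
  rw [Finset.mem_Ico] at hm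
  exact ⟨m, hm.1, hm.2, hm2⟩

end mean

end Crest.Agent.R151.E685
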