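import Crest.Agent.R151.J69o

/-!
# R151/J69p — moves of a configuration; `recA` (owner helper69)
-/

set_option autoImplicit false

open MeasureTheory Filter ProbabilityTheory Topology Set
open Crest.ProbabilityR.FirstPassage
open Crest.Agent.R151.K Crest.Agent.R151.Q

namespace Crest.Agent.R151.J69

open B710 (FlatData)
open C710 (GoodScale fn)
open NF hiding Num
open R78 (V Wk IsHwy hc hp hull routes IsOpen shp hullY IsStrip Frame IsPos Back)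
open M192 (frame frame_al frame_be al_pos be_pos isStrip)
open M56 (mg nu)

variable {μ : ℝ × ℝ → ℝ}

section sk

variable {F : FlatData μ} (h : Hwy F)

/-- the sharp kernel in excess form -/
lemma sk_eq (d : ℝ × ℝ) (I J : Set ℝ) (L s s' : ℝ) (θ : ℝ × ℝ) (t : Environment) (φ : ℝ × ℝ) :
    h.sk d I J L s s' θ t φ = h.hkY d I s s' θ t φ - h.hkY d J (-L) L θ t φ +
      h.Y (-L) s φ.1 θ t + h.Y s' L φ.2 (θ - d) t := by
  unfold Hwy.sk Hwy.hkY Hwy.hk hullY Hwy.Y Hwy.Lo Hwy.Up Hwy.iL Hwy.iU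
  ring

variable {h} {G : Measure ℝ} [IsProbabilityMeasure G]

/-- integrability and mean of the sharp kernel -/
theorem sk_int {ε : ℝ} (hm : HwyMean G h ε) {d : ℝ × ℝ} {I J : Set ℝ} {L s s' : ℝ}
    (hiI : Integrable (fun q => h.hkY d I s s' q.1.1 q.1.2 q.2) (nu G))
    (hiJ : Integrable (fun q => h.hkY d J (-L) L q.1.1 q.1.2 q.2) (nu G)) :
    Integrable (fun q : OR => h.sk d I J L s s' q.1.1 q.1.2 q.2) (PRow G) ∧
    ∫ q : OR, h.sk d I J L s s' q.1.1 q.1.2 q.2 ∂(PRow G) =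
      ∫ q, h.hkY d I s s' q.1.1 q.1.2 q.2 ∂(nu G) - ∫ q, h.hkY d J (-L) L q.1.1 q.1.2 q.2 ∂(nu G) +
      (s + L) * ε + (L - s') * ε := by
  obtain ⟨a1, b1⟩ := M56.Y_lo (G := G) hm (-L) s 0
  obtain ⟨a2, b2⟩ := M56.Y_up (G := G) hm s' L d
  simp only [sub_zero] at a1 b1
  have e : (fun q : OR => h.sk d I J L s s' q.1.1 q.1.2 q.2) =
      fun q : OR => ((h.hkY d I s s' q.1.1 q.1.2 q.2 - h.hkY d J (-L) L q.1.1 q.1.2 q.2) +
      h.Y (-L) s q.2.1 q.1.1 q.1.2) + h.Y s' L q.2.2 (q.1.1 - d) q.1.2 := by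
    funext q
    exact sk_eq h d I J L s s' _ _ _
  have j1 : Integrable (fun q : OR => h.hkY d I s s' q.1.1 q.1.2 q.2 -
    h.hkY d J (-L) L q.1.1 q.1.2 q.2) (PRow G) := hiI.sub hiJ
  have j2 : Integrable (fun q : OR => (h.hkY d I s s' q.1.1 q.1.2 q.2 -
    h.hkY d J (-L) L q.1.1 q.1.2 q.2) + h.Y (-L) s q.2.1 q.1.1 q.1.2) (PRow G) := j1.add a1
  have a2' : Integrable (fun q : OR => h.Y s' L q.2.2 (q.1.1 - d) q.1.2) (PRow G) := a2
  rw [e]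
  refine ⟨j2.add a2', ?_⟩
  rw [integral_add j2 a2', integral_add j1 (show Integrable (fun q : OR =>
    h.Y (-L) s q.2.1 q.1.1 q.1.2) (PRow G) from a1), integral_sub (show Integrable (fun q : OR =>
    h.hkY d I s s' q.1.1 q.1.2 q.2) (PRow G) from hiI) (show Integrable (fun q : OR =>
    h.hkY d J (-L) L q.1.1 q.1.2 q.2) (PRow G) from hiJ)]
  have c1 : ∫ q : OR, h.Y (-L) s q.2.1 q.1.1 q.1.2 ∂(PRow G) = (s - -L) * ε := b1
  have c2 : ∫ q : OR, h.Y s' L q.2.2 (q.1.1 - d) q.1.2 ∂(PRow G) = (L - s') * ε := b2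
  rw [c1, c2]
  show _ = ∫ q : OR, _ ∂(PRow G) - ∫ q : OR, _ ∂(PRow G) + _ + _
  ring

end sk

variable {G : Measure ℝ} {F : FlatData μ} {w0 c0 K : ℝ} {p : NF.Num}
  {c : Cf G F w0 c0 K p}

namespace SN

variable (hc : SN c)
include hc

lemma W_pos : 0 < p.W := zero_lt_one.trans_le hc.std.toStd.W

lemma g_pos : 0 < c.g := hc.std.g_pos

lemma basic : 0 < p.W ∧ 0 < c.g ∧ 0 ≤ c.h.κ ∧ 0 ≤ cF F ∧ 1 ≤ mg F ∧ 0 ≤ c.h.wH ∧
    64 * c.g ≤ p.δ * p.W ∧ p.δ * p.W ≤ p.W / 64 ∧ 8 * c.g ≤ c.y ∧ c.y / 2 ≤ c.yA ∧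
    c.y ≤ c.yB ∧ 0 ≤ c.P ∧ p.W ≤ c.L := by
  have hW := hc.W_pos
  have hn := hc.n_ge
  have hg := hc.g_pos
  have h1 := hc.g_le
  have h2 : 64 * c.g ≤ 64 * p.n * c.g := by nlinarith
  have h3 : p.δ * p.W ≤ 1 / 64 * p.W := mul_le_mul_of_nonneg_right hc.δ_le hW.le
  have hv' := hc.std.toStd.v'
  refine ⟨hW, hg, c.h.κ_nonneg, cF_nonneg F, M56.one_le_mg F, wH_nonneg2 c.h, by linarith,
    by linarith, hc.std.g_le, hc.std.half, hc.std.yB_ge, ?_, ?_⟩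
  · have := hc.std.yA_ge
    have := hc.std.y_pos
    linarith
  · rw [c.L_eq]; nlinarith

lemma mparA : MPar c.h c.P c.g c.yA 1 := by
  obtain ⟨hW, hg, hκ, hcF, hmg, hwH, h1, h2, h3, h4, h5, h6, h7⟩ := hc.basic
  have a1 := hc.len
  have a2 := hc.wH_le
  refine ⟨by linarith, by linarith, ?_, h6⟩
  rw [c.yA_eq']; push_cast; ring

lemma mparB : MPar c.h c.P c.g c.yB 2 := by
  obtain ⟨hW, hg, hκ, hcF, hmg, hwH, h1, h2, h3, h4, h5, h6, h7⟩ := hc.basic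
  have a1 := hc.len
  have a2 := hc.wH_le
  refine ⟨by linarith, by linarith, ?_, h6⟩
  rw [c.yB_eq']; push_cast; ring

lemma ins {s : ℝ} (hs : |s| ≤ 7 / 16 * p.W) : Ins c.h p.W s := by
  obtain ⟨hW, hg, hκ, hcF, hmg, hwH, h1, h2, h3, h4, h5, h6, h7⟩ := hc.basic
  have a1 := hc.len
  unfold Ins
  linarith

lemma ins' {x : ℝ} (hx : |x| ≤ 7 / 16) : Ins c.h p.W (x * p.W) := by
  refine hc.ins ?_
  rw [abs_mul, abs_of_pos hc.W_pos]
  exact mul_le_mul_of_nonneg_right hx hc.W_pos.le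

lemma WL : p.W / 2 ≤ c.L := by
  obtain ⟨hW, hg, hκ, hcF, hmg, hwH, h1, h2, h3, h4, h5, h6, h7⟩ := hc.basic
  linarith

/-- **gaps are cheap** -/
theorem eGap_small [IsProbabilityMeasure G] (h0 : G (Set.Iio 0) = 0)
    (h1 : Integrable (fun x : ℝ => x) G) (h2 : Integrable (fun x : ℝ => x ^ 2) G)
    (hμ : IsTC G μ) (hF : FM G c.h c.ε) {y : ℝ} {k : ℕ} (hM : MPar c.h c.P c.g y k) {s s' : ℝ}
    (hs : Ins c.h p.W s) (hs' : Ins c.h p.W s') (hss : s + p.δ * p.W / 2 ≤ s') :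
    eGap G c.h p.W c.P c.g c.L y k s s' ≤ p.e / 8 * c.l := by
  obtain ⟨hW, hg, hκ, hcF, hmg, hwH, a1, a2, a3, a4, a5, a6, a7⟩ := hc.basic
  have b1 := hc.len
  have b2 := hc.wH_le
  have key := eGap_le c.h h0 h1 h2 c.mean c.mean.nonneg hF hM (L := c.L) (by linarith) hs hs'
    (by linarith) hc.WL
  have hr := C710.rate_anti h0 h2 hμ F (w := p.δ * p.W / 4) (w' := s' - c.h.κ - cF F - 1 - s)
    hc.fn_le (by linarith)
  have h4 : 4 * c.g * rate G F (s' - c.h.κ - cF F - 1 - s) ≤ 4 * c.g * rate G F (p.δ * p.W / 4) :=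
    mul_le_mul_of_nonneg_left hr (by linarith)
  have h5 := hc.gap
  have h6 := hc.hwy
  linarith

/-- **the gauge of a row is cheap** -/
theorem eHk_small [IsProbabilityMeasure G] (h0 : G (Set.Iio 0) = 0)
    (h2 : Integrable (fun x : ℝ => x ^ 2) G)
    (hμ : IsTC G μ) (hF : FM G c.h c.ε) {y : ℝ} (hy : c.h.wH + 2 * mg F < y)
    (hy2 : y + 2 * c.g ≤ 2 * c.P) :
    eHk G c.h y Set.univ c.L ≤ p.e / 8 * c.l := by
  obtain ⟨hW, hg, hκ, hcF, hmg, hwH, a1, a2, a3, a4, a5, a6, a7⟩ := hc.basic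
  have b1 := hc.len
  have b2 := hc.wH_le
  have b3 := hc.fn_le
  have hv' := hc.std.toStd.v'
  have key := eHk_le c.h h0 h2 c.mean hF (y := y) (L := c.L) hy (by linarith)
  have hL : c.L = 2 * p.v' * p.W := c.L_eq
  have hvW : p.W ≤ p.v' * p.W := by nlinarith
  have hr := C710.rate_anti h0 h2 hμ F (w := p.v' * p.W) (w' := 2 * c.L - c.h.κ - 1)
    (by linarith) (by rw [hL]; linarith)
  have hr0 := C710.rate_nonneg h0 h2 hμ F (w := 2 * c.L - c.h.κ - 1) (by linarith)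
  have h4 : (y + c.h.wH + 2 * mg F + 1) * rate G F (2 * c.L - c.h.κ - 1) ≤
      2 * c.P * rate G F (p.v' * p.W) :=
    mul_le_mul (by linarith) hr hr0 (by linarith)
  have h5 := hc.far
  have h6 := hc.hwy
  linarith

end SN

end Crest.Agent.R151.J69
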