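import Crest.Agent.R151.E685F2
import Crest.Agent.R151.J69p

/-!
# R151 / S0214 part 2, E685F3 — [FALL]: the small fall from the big fall (helper685)

`hfall_of`: the mean of the fall `1/(2n)` from every label `x ∈ [0, 3/16)` is `≤ (48 C1 + 10^5) n ^ 4 l`
if the mean of the big fall `0 → -W/9` is `≤ C1 n ^ 5 l` (Monge sums in the mean, stationarity in the
mean, narrow lanes).
-/

set_option autoImplicit false

open MeasureTheory Filter ProbabilityTheory Topology Set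
open Crest.ProbabilityR.FirstPassage

namespace Crest.Agent.R151.E685

open Crest.Agent.R151.K Crest.Agent.R151.Q
open R78 (V Wk IsHwy hc hp stepc hull routes IsOpen shp hullY ptY gapK IsStrip Frame IsPos Back Sep)
open B710 (FlatData)
open M56 (nu mg)
open NF (Ev Cf nuR)
open J69 (SN)

variable {μ : ℝ × ℝ → ℝ} {G : Measure ℝ} {F : FlatData μ} {w0 c0 K : ℝ} {p : NF.Num}
  {c : Cf G F w0 c0 K p}

/-- extra numerical facts -/
structure XN (c : Cf G F w0 c0 K p) : Prop where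
  sn : SN c
  n_ge : 600 ≤ (p.n : ℝ)
  w0_le : w0 ≤ 1 / (8 * p.n) * p.W

theorem ev_XN (G : Measure ℝ) (F : FlatData μ) (w0 : ℝ) {c0 K : ℝ} (hc0 : 0 < c0) (hK : 0 ≤ K) :
    Ev fun p => ∀ c : Cf G F w0 c0 K p, XN c := by
  refine (((J69.ev_SN G F w0 hc0 hK).and (NF.le_n 600)).and
    (NF.le_W fun n _ _ _ _ _ _ _ => w0 * (8 * n))).mono ?_
  rintro p ⟨⟨h1, h2⟩, h3⟩ c
  refine ⟨h1 c, h2, ?_⟩
  rw [one_div, inv_mul_eq_div, le_div_iff₀ (by linarith)]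
  exact h3

namespace XN

variable (hc : XN c)
include hc

lemma basic : 0 < p.W ∧ 0 < (p.n : ℝ) ∧ mgn c.h ≤ p.W / (4096 * p.n) ∧ 0 < mgn c.h ∧
    p.W / p.n ≤ p.W / 600 ∧ 0 < p.W / p.n ∧ p.W ≤ c.L ∧
    c.h.wH + 2 * mg F < c.yB ∧ c.h.wH < 2 * c.P - c.yB ∧ 0 ≤ c.ε ∧ 0 < c.l ∧
    c.h.κ < p.W / (8 * p.n) ∧ 2 * mg F ≤ p.W / (8 * p.n) ∧ c.h.κ + 1 ≤ p.W / 8 := by
  obtain ⟨hW, hg, hκ, hcF, hmg, hwH, h1, h2, h3, h4, h5, h6, h7⟩ := hc.sn.basic
  have hn := hc.n_ge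
  have hn0 : (0 : ℝ) < p.n := by linarith
  have a1 := hc.sn.len
  have a2 := hc.sn.g_le
  have a3 := hc.sn.wH_le
  have b1 : c.g ≤ p.W / (4096 * p.n) := by
    rw [le_div_iff₀ (by positivity)]
    linarith
  have e1 : p.W / (8 * p.n) = 512 * (p.W / (4096 * p.n)) := by field_simp; norm_num
  have b3 : 0 < p.W / (4096 * p.n) := by positivity
  have b4 : p.W / p.n ≤ p.W / 600 := div_le_div_of_nonneg_left hW.le (by norm_num) hn
  have b5 : p.W / (4096 * p.n) ≤ p.W / 8 :=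
    div_le_div_of_nonneg_left hW.le (by norm_num) (by linarith)
  have b6 := mgn_pos c.h
  have e2 : mgn c.h = 2 * mg F + c.h.κ + 1 := rfl
  have b7 := c.yB_eq'
  have b8 := c.yB_eq
  have b9 := hc.sn.std.y_pos
  refine ⟨hW, hn0, ?_, b6, b4, by positivity, h7, ?_, ?_, c.mean.nonneg, hc.sn.std.l_pos, ?_, ?_, ?_⟩
  · rw [e2]; linarith
  · linarith
  · linarith
  · linarith
  · linarith
  · linarith

/-- the base lane -/
lemma lane : LaneP c.h (c.yB • F.b) (Icc (-(1 / 4 * p.W)) (1 / 4 * p.W)) (-(1 / 4 * p.W))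
    (1 / 4 * p.W) where
  be := by
    obtain ⟨-, -, -, -, -, -, -, h1, -⟩ := hc.basic
    rwa [map_smul, F.be_b, smul_eq_mul, mul_one]
  al := by rw [map_smul, F.al_b, smul_zero]
  meas := measurableSet_Icc
  sub := subset_rfl

lemma LL : mgn c.h ≤ 2 * c.L := by
  obtain ⟨hW, hn, h1, h2, h3, h4, h5, -⟩ := hc.basic
  have hn6 := hc.n_ge
  have b5 : p.W / (4096 * p.n) ≤ p.W / 1 :=
    div_le_div_of_nonneg_left hW.le (by norm_num) (by linarith)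
  rw [div_one] at b5
  linarith

variable [IsProbabilityMeasure G] (h0 : G (Set.Iio 0) = 0)
  (h2' : Integrable (fun x : ℝ => x ^ 2) G) (hμ : IsTC G μ)
include h0 h2' hμ

/-- mean of a fence of width `W / (4 n)` -/
lemma fence {s : ℝ} (h1 : -(1 / 8 * p.W) ≤ s) (h2 : s ≤ 1 / 8 * p.W) :
    ∫ q, c.h.sk (c.yB • F.b) (Icc (-(1 / 4 * p.W)) (1 / 4 * p.W)) univ c.L s (s + p.W / (4 * p.n))
      q.1.1 q.1.2 q.2 ∂(nu G) ≤ 8193 * p.n ^ 3 * c.l := by
  obtain ⟨hW, hn, a1, a2, a3, a4, a5, a6, a7, a8, a9, a10, a11, a12⟩ := hc.basic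
  have hn6 := hc.n_ge
  have eal : F.al (c.yB • F.b) = 0 := by rw [map_smul, F.al_b, smul_zero]
  have ebe : F.be (c.yB • F.b) = c.yB := by rw [map_smul, F.be_b, smul_eq_mul, mul_one]
  have hd : c.h.wH + 2 * mg F < F.be (c.yB • F.b) := by rw [ebe]; exact a6
  have e4 : p.W / (4 * p.n) = 2 * (p.W / (8 * p.n)) := by field_simp; norm_num
  have e8 : p.W / (8 * p.n) = (p.W / p.n) / 8 := by field_simp
  have hw8 : 0 < p.W / (8 * p.n) := by positivity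
  have hI : Icc s (s + p.W / (8 * p.n)) ⊆ Icc (-(1 / 4 * p.W)) (1 / 4 * p.W) :=
    Icc_subset_Icc (by linarith) (by linarith)
  have hs2 : s + p.W / (8 * p.n) + c.h.κ < s + p.W / (4 * p.n) + F.al (c.yB • F.b) := by
    rw [eal]; linarith
  have hw : 2 * mg F ≤ s + p.W / (8 * p.n) - s := by linarith
  have i1 := M56.fence_integrable (G := G) c.mean h0 h2' hd measurableSet_Icc le_rfl hs2 hI hw
  have m1 := M56.fence_mean' (G := G) c.mean h0 h2' hd measurableSet_Icc le_rfl hs2 hI hw hμ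
    (y2 := 2 * c.P) (by rw [ebe]; exact a7)
  have i2 := gauge_int (L := c.L) c.mean h0 h2' hd eal hc.LL
  have m2 := gauge_nonneg (L := c.L) c.mean h0 h2' hμ hd eal hc.LL
  obtain ⟨-, m3⟩ := sk_mean c.h c.mean (L := c.L) i1 i2
  rw [m3]
  rw [eal] at m1
  have e5 : s + p.W / (8 * p.n) - s = 1 / (8 * p.n) * p.W := by ring
  have hr := NF.P_rate_near c hc.sn.std (t := 1 / (8 * p.n)) (by positivity)
    (by rw [div_le_one (by positivity)]; linarith) hc.w0_le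
  have e6 : 8 / (1 / (8 * (p.n : ℝ))) ^ 3 * c.l = 4096 * p.n ^ 3 * c.l := by
    field_simp; norm_num
  rw [e6] at hr
  rw [e5] at m1
  have h4 := hc.sn.hwy
  have he1 : p.e ≤ 1 := hc.sn.std.toStd.e_le
  have h5 : p.e / 16 * c.l ≤ 1 * c.l := mul_le_mul_of_nonneg_right (by linarith) a9.le
  have h6 : c.l ≤ p.n ^ 3 * c.l := by
    have : (1 : ℝ) ≤ p.n ^ 3 := one_le_pow₀ (by linarith)
    nlinarith
  have h7 : (s + p.W / (4 * p.n) - s + (s + p.W / (8 * p.n)) - s + c.h.κ + 1 + 0) * c.ε +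
      (2 * c.L + s - (s + p.W / (4 * p.n))) * c.ε ≤ 4 * c.L * c.ε := by
    rw [← add_mul]
    refine mul_le_mul_of_nonneg_right ?_ a8
    linarith
  linarith

omit hμ in
/-- transfer of a small fall to every start label -/
lemma transfer {s V x : ℝ} (hs1 : -(1 / 32 * p.W) ≤ s) (hs2 : s ≤ 0)
    (hV : ∫ q, c.h.sk (c.yB • F.b) (Icc (-(1 / 4 * p.W)) (1 / 4 * p.W)) univ c.L s
      (s - p.W / p.n / 2) q.1.1 q.1.2 q.2 ∂(nu G) ≤ V) (hx0 : 0 ≤ x) (hx : x < 3 / 16) :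
    Integrable (fun q : ((ℝ × ℝ) × Environment) × (ℝ × ℝ) =>
      c.h.sk (c.yB • F.b) (Icc (-(1 / 4 * p.W)) (15 / 32 * p.W)) univ c.L (x * p.W)
        ((x - 1 / (2 * p.n)) * p.W) q.1.1 q.1.2 q.2) (nu G) ∧
    ∫ q, c.h.sk (c.yB • F.b) (Icc (-(1 / 4 * p.W)) (15 / 32 * p.W)) univ c.L (x * p.W)
        ((x - 1 / (2 * p.n)) * p.W) q.1.1 q.1.2 q.2 ∂(nu G) ≤ V := by
  obtain ⟨hW, hn, a1, a2, a3, a4, a5, a6, a7, a8, a9, a10, a11, a12⟩ := hc.basic
  have hn6 := hc.n_ge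
  set D := c.yB • F.b with hD
  set I0 := Icc (-(1 / 4 * p.W)) (1 / 4 * p.W) with hI0
  have hLane := hc.lane
  have hLL := hc.LL
  have eal : F.al D = 0 := by rw [hD, map_smul, F.al_b, smul_zero]
  have e40 : p.W / (4096 * p.n) = (p.W / p.n) / 4096 := by field_simp
  have e12 : (x - 1 / (2 * p.n)) * p.W = x * p.W - p.W / p.n / 2 := by field_simp
  set u := p.W / p.n with hu
  -- stationarity
  set z : ℝ := x * p.W - s with hz
  have hxW0 : 0 ≤ x * p.W := mul_nonneg hx0 hW.le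
  have hxW : x * p.W ≤ 3 / 16 * p.W := mul_le_mul_of_nonneg_right hx.le hW.le
  have es : s + z = x * p.W := by rw [hz]; ring
  have es' : s - u / 2 + z = (x - 1 / (2 * p.n)) * p.W := by rw [e12, hz]; ring
  have i0 := hLane.int c.mean h0 h2' (s := s) (s' := s - u / 2) (by linarith) (by linarith)
    (by linarith) (by linarith)
  obtain ⟨i1, m1⟩ := hkY_stat c.h h0 (hLane.meas) (d := D) (s := s) (s' := s - u / 2) z
    (fun θ t φ => hLane.ne (by linarith) (by linarith) (by linarith) (by linarith) θ t φ) i0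
  rw [es, es'] at i1 m1
  have hd : c.h.wH + 2 * mg F < F.be D := hLane.be
  have ig := gauge_int (L := c.L) c.mean h0 h2' hd eal hLL
  obtain ⟨i2, m2⟩ := sk_mean c.h c.mean (L := c.L) i1 ig
  obtain ⟨-, m3⟩ := sk_mean c.h c.mean (L := c.L) i0 ig
  have m4 : ∫ q, c.h.sk D ((fun v => v - z) ⁻¹' I0) univ c.L (x * p.W)
      ((x - 1 / (2 * p.n)) * p.W) q.1.1 q.1.2 q.2 ∂(nu G) =
      ∫ q, c.h.sk D I0 univ c.L s (s - u / 2) q.1.1 q.1.2 q.2 ∂(nu G) := by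
    rw [m2, m3, m1, ← es', ← es]
    ring
  -- the lane
  have hsub : (fun v => v - z) ⁻¹' I0 ⊆ Icc (-(1 / 4 * p.W)) (15 / 32 * p.W) := by
    intro v hv
    have hv' : v - z ∈ Icc (-(1 / 4 * p.W)) (1 / 4 * p.W) := hv
    exact ⟨by linarith [hv'.1], by linarith [hv'.2]⟩
  have hLane2 : LaneP c.h D (Icc (-(1 / 4 * p.W)) (15 / 32 * p.W)) (-(1 / 4 * p.W))
      (15 / 32 * p.W) := ⟨hd, eal, measurableSet_Icc, subset_rfl⟩
  have i3 := sk_int c.mean h0 h2' hLane2 hLL (s := x * p.W) (s' := (x - 1 / (2 * p.n)) * p.W)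
    (by linarith) (by linarith) (by rw [e12]; linarith) (by rw [e12]; linarith)
  refine ⟨i3, ?_⟩
  refine le_trans ?_ ((le_of_eq m4).trans hV)
  refine integral_mono_ae i3 i2 ?_
  filter_upwards [ae_P0_Nn (Ψ := ℝ × ℝ) (ν := UU.prod UU) h0] with q hq
  refine sk_mono_pt hq.1 hsub le_rfl le_rfl ?_
  have hLane3 : LaneP c.h D ((fun v => v - z) ⁻¹' I0) (-(1 / 4 * p.W) + z) (1 / 4 * p.W + z) := by
    refine ⟨hd, eal, (measurable_id.sub_const z) measurableSet_Icc, fun v hv => ?_⟩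
    show v - z ∈ Icc (-(1 / 4 * p.W)) (1 / 4 * p.W)
    exact ⟨by linarith [hv.1], by linarith [hv.2]⟩
  exact hLane3.ne (by linarith) (by linarith) (by rw [e12]; linarith) (by rw [e12]; linarith) _ _ _

end XN

/-- numerical value -/
lemma val_le {n k N C1 l : ℝ} (hC1 : 0 ≤ C1 * n ^ 5 * l) (hn : 0 < n) (hk : 1 ≤ k)
    (hN : N * 8 ≤ n) (hnk : n ≤ 48 * k) (hl : 0 < l) :
    (C1 * n ^ 5 * l + N * (8193 * n ^ 3 * l)) / k ≤ (48 * C1 + 10 ^ 5) * n ^ 4 * l := by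
  have hC1' : 0 ≤ C1 := by
    by_contra hneg
    push Not at hneg
    have h1 : 0 < n ^ 5 * l := by positivity
    have h2 : C1 * (n ^ 5 * l) < 0 := mul_neg_of_neg_of_pos hneg h1
    have h3 : C1 * n ^ 5 * l = C1 * (n ^ 5 * l) := by ring
    linarith
  rw [div_le_iff₀ (by linarith)]
  have h3 : 0 ≤ n ^ 3 * l := by positivity
  have h4 : 0 ≤ n ^ 4 * l := by positivity
  have g1 : C1 * n ^ 5 * l ≤ 48 * C1 * n ^ 4 * l * k := by
    have h5 : C1 * (n ^ 4 * l) * n ≤ C1 * (n ^ 4 * l) * (48 * k) :=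
      mul_le_mul_of_nonneg_left hnk (mul_nonneg hC1' h4)
    have e1 : C1 * n ^ 5 * l = C1 * (n ^ 4 * l) * n := by ring
    have e2 : 48 * C1 * n ^ 4 * l * k = C1 * (n ^ 4 * l) * (48 * k) := by ring
    rw [e1, e2]; exact h5
  have g2 : N * (8193 * n ^ 3 * l) ≤ 10 ^ 5 * n ^ 4 * l * k := by
    have q1 : N * (8193 * n ^ 3 * l) ≤ n / 8 * (8193 * n ^ 3 * l) :=
      mul_le_mul_of_nonneg_right (by linarith) (by positivity)
    have q2 : n / 8 * (8193 * n ^ 3 * l) ≤ 10 ^ 5 * n ^ 4 * l := by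
      have e : n / 8 * (8193 * n ^ 3 * l) = 8193 / 8 * (n ^ 4 * l) := by ring
      rw [e]; nlinarith
    have q3 : 10 ^ 5 * n ^ 4 * l * 1 ≤ 10 ^ 5 * n ^ 4 * l * k :=
      mul_le_mul_of_nonneg_left hk (by positivity)
    linarith
  have e3 : (48 * C1 + 10 ^ 5) * n ^ 4 * l * k =
      48 * C1 * n ^ 4 * l * k + 10 ^ 5 * n ^ 4 * l * k := by ring
  rw [e3]
  exact add_le_add g1 g2

/-- the start labels of the Monge sum -/
lemma labels {W n u : ℝ} (hun : u * n = W) (hu : 0 < u) (hn6 : 600 ≤ n) {N k : ℕ}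
    (hN8 : (N : ℝ) * 8 ≤ n) (hk24 : (k : ℝ) * 24 ≤ n) : ∃ a : ℕ → ℝ,
    Monotone a ∧ (∀ i, -(1 / 8 * W) ≤ a i) ∧ (∀ i, a i ≤ 0) ∧ a (N + 1) = 0 ∧
      -(1 / 9 * W) ≤ a 0 + u / 4 ∧ (∀ m, m < N + 1 → a m + u / 4 = a (m + 1) - u / 2) ∧
      ∀ m, N + 1 - k ≤ m → m < N + 1 → -(1 / 32 * W) ≤ a (m + 1) := by
  have hu6 : u ≤ W / 600 := by
    rw [le_div_iff₀ (by norm_num), ← hun]
    exact mul_le_mul_of_nonneg_left hn6 hu.le
  have hN1 : ((N : ℝ) + 1) * (3 / 4 * u) ≤ 1 / 9 * W + u / 4 := by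
    rw [← hun]; nlinarith
  have hN2 : ((N : ℝ) + 1) * (3 / 4 * u) ≤ 1 / 8 * W := by linarith
  obtain ⟨a, ha⟩ : ∃ a : ℕ → ℝ, ∀ i, a i = -(((N + 1 - i : ℕ) : ℝ) * (3 / 4 * u)) :=
    ⟨fun i => -(((N + 1 - i : ℕ) : ℝ) * (3 / 4 * u)), fun i => rfl⟩
  refine ⟨a, ?_, ?_, ?_, ?_, ?_, ?_, ?_⟩
  · intro i j hij
    have : (((N + 1 - j : ℕ) : ℝ)) ≤ ((N + 1 - i : ℕ) : ℝ) := by
      exact_mod_cast (by omega : N + 1 - j ≤ N + 1 - i)
    rw [ha, ha]
    nlinarith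
  · intro i
    have : (((N + 1 - i : ℕ) : ℝ)) ≤ (N : ℝ) + 1 := by
      exact_mod_cast (by omega : N + 1 - i ≤ N + 1)
    rw [ha]
    nlinarith
  · intro i
    have : (0 : ℝ) ≤ ((N + 1 - i : ℕ) : ℝ) := Nat.cast_nonneg _
    rw [ha]
    nlinarith
  · rw [ha]; simp
  · rw [ha]
    push_cast [Nat.sub_zero]
    linarith
  · intro m hm
    have : ((N + 1 - m : ℕ) : ℝ) = ((N + 1 - (m + 1) : ℕ) : ℝ) + 1 := by
      exact_mod_cast (by omega : N + 1 - m = (N + 1 - (m + 1)) + 1)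
    rw [ha, ha, this]; ring
  · intro m hm1 hm2
    have h5 : ((N + 1 - (m + 1) : ℕ) : ℝ) ≤ k := by
      exact_mod_cast (by omega : N + 1 - (m + 1) ≤ k)
    have h6 : (k : ℝ) * (3 / 4 * u) ≤ 1 / 32 * W := by
      rw [← hun]; nlinarith
    have h7 : ((N + 1 - (m + 1) : ℕ) : ℝ) * (3 / 4 * u) ≤ k * (3 / 4 * u) :=
      mul_le_mul_of_nonneg_right h5 (by positivity)
    rw [ha]
    linarith

namespace XN

variable (hc : XN c)
include hc

variable [IsProbabilityMeasure G] (h0 : G (Set.Iio 0) = 0)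
  (h2' : Integrable (fun x : ℝ => x ^ 2) G) (hμ : IsTC G μ)
include h0 h2' hμ

/-- one small fall is small -/
theorem exists_fall {C1 : ℝ}
    (hbig : ∫ q, c.h.sk (c.yB • F.b) (Icc (-(1 / 4 * p.W)) (1 / 4 * p.W)) univ c.L 0
      (-(1 / 9 * p.W)) q.1.1 q.1.2 q.2 ∂(nu G) ≤ C1 * p.n ^ 5 * c.l) :
    ∃ s : ℝ, -(1 / 32 * p.W) ≤ s ∧ s ≤ 0 ∧
      ∫ q, c.h.sk (c.yB • F.b) (Icc (-(1 / 4 * p.W)) (1 / 4 * p.W)) univ c.L s
        (s - p.W / p.n / 2) q.1.1 q.1.2 q.2 ∂(nu G) ≤ (48 * C1 + 10 ^ 5) * p.n ^ 4 * c.l := by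
  obtain ⟨hW, hn, a1, a2, a3, a4, a5, a6, a7, a8, a9, a10, a11, a12⟩ := hc.basic
  have hn6 := hc.n_ge
  have hnN : 600 ≤ p.n := by exact_mod_cast hn6
  have hLane := hc.lane
  have hLL := hc.LL
  have e40 : p.W / (4096 * p.n) = (p.W / p.n) / 4096 := by field_simp
  have e4 : p.W / (4 * p.n) = (p.W / p.n) / 4 := by field_simp
  have hun : p.W / p.n * p.n = p.W := by field_simp
  set u := p.W / p.n with hu
  have hN8 : ((p.n / 8 : ℕ) : ℝ) * 8 ≤ p.n := by exact_mod_cast Nat.div_mul_le_self p.n 8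
  have hk24 : ((p.n / 24 : ℕ) : ℝ) * 24 ≤ p.n := by exact_mod_cast Nat.div_mul_le_self p.n 24
  have hk48 : (p.n : ℝ) ≤ 48 * ((p.n / 24 : ℕ) : ℝ) := by
    exact_mod_cast (by omega : p.n ≤ 48 * (p.n / 24))
  have hk1 : 1 ≤ p.n / 24 := by omega
  have hkN : p.n / 24 ≤ p.n / 8 + 1 := by omega
  generalize p.n / 8 = N at hN8 hkN
  generalize p.n / 24 = k at hk24 hk48 hk1 hkN
  obtain ⟨a, amono, alo, ahi, aN, b0, hstep, hstart⟩ := labels hun a4 hn6 hN8 hk24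
  have bmono : Monotone fun i => a i + u / 4 := fun i j hij => by
    have := amono hij
    simp only
    linarith
  -- the big fall
  have hT : ∫ q, c.h.sk (c.yB • F.b) (Icc (-(1 / 4 * p.W)) (1 / 4 * p.W)) univ c.L (a (N + 1))
      (a 0 + u / 4) q.1.1 q.1.2 q.2 ∂(nu G) ≤ C1 * p.n ^ 5 * c.l := by
    rw [aN]
    refine le_trans ?_ hbig
    have b0u : a 0 + u / 4 ≤ u / 4 := by linarith [ahi 0]
    have i1 := sk_int c.mean h0 h2' hLane hLL (s := 0) (s' := a 0 + u / 4) (by linarith)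
      (by linarith) (by linarith) (by linarith)
    have i2 := sk_int c.mean h0 h2' hLane hLL (s := 0) (s' := -(1 / 9 * p.W)) (by linarith)
      (by linarith) (by linarith) (by linarith)
    refine integral_mono_ae i1 i2 ?_
    filter_upwards [ae_P0_Nn (Ψ := ℝ × ℝ) (ν := UU.prod UU) h0] with q hq
    exact sk_mono_pt hq.1 subset_rfl le_rfl b0 (hLane.ne (by linarith) (by linarith) (by linarith)
      (by linarith) _ _ _)
  have hU : ∀ m < N, ∫ q, c.h.sk (c.yB • F.b) (Icc (-(1 / 4 * p.W)) (1 / 4 * p.W)) univ c.L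
      (a (m + 1)) (a (m + 1) + u / 4) q.1.1 q.1.2 q.2 ∂(nu G) ≤ 8193 * p.n ^ 3 * c.l := by
    intro m _
    have := hc.fence h0 h2' hμ (s := a (m + 1)) (alo _) (by linarith [ahi (m + 1)])
    rw [e4] at this
    exact this
  have hT0 : 0 ≤ C1 * p.n ^ 5 * c.l := by
    refine le_trans (sk_mean_nonneg h0 hLane (s := a (N + 1)) (s' := a 0 + u / 4) ?_ ?_ ?_ ?_ ?_ ?_)
      hT
    · linarith [alo (N + 1)]
    · linarith [ahi (N + 1)]
    · linarith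
    · linarith [ahi 0]
    · linarith [alo (N + 1)]
    · linarith [ahi 0]
  obtain ⟨m, hm1, hm2, hm3⟩ := exists_small c.mean h0 h2' hLane hLL amono bmono
    (fun m => by linarith [alo m]) (fun m => by linarith [ahi m])
    (fun m => by linarith [alo m]) (fun m => by linarith [ahi m])
    (fun m => by linarith [alo m]) (fun m => by linarith [ahi m])
    (k := k) (N := N) hk1 hkN hT hU
  have hval := val_le (l := c.l) hT0 hn (by exact_mod_cast hk1) hN8 hk48 a9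
  refine ⟨a (m + 1), hstart m hm1 hm2, ahi _, ?_⟩
  rw [← hstep m hm2]
  exact hm3.trans hval

/-- **[FALL]**: the small falls -/
theorem hfall_of {C1 : ℝ}
    (hbig : ∫ q, c.h.sk (c.yB • F.b) (Icc (-(1 / 4 * p.W)) (1 / 4 * p.W)) univ c.L 0
      (-(1 / 9 * p.W)) q.1.1 q.1.2 q.2 ∂(nu G) ≤ C1 * p.n ^ 5 * c.l) {x : ℝ} (hx0 : 0 ≤ x)
    (hx : x < 3 / 16) :
    Integrable (fun q : ((ℝ × ℝ) × Environment) × (ℝ × ℝ) =>
      c.h.sk (c.yB • F.b) (Icc (-(1 / 4 * p.W)) (15 / 32 * p.W)) univ c.L (x * p.W)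
        ((x - 1 / (2 * p.n)) * p.W) q.1.1 q.1.2 q.2) (nu G) ∧
    ∫ q, c.h.sk (c.yB • F.b) (Icc (-(1 / 4 * p.W)) (15 / 32 * p.W)) univ c.L (x * p.W)
        ((x - 1 / (2 * p.n)) * p.W) q.1.1 q.1.2 q.2 ∂(nu G) ≤
      (48 * C1 + 10 ^ 5) * p.n ^ 4 * c.l := by
  obtain ⟨s, hs1, hs2, hs3⟩ := hc.exists_fall h0 h2' hμ hbig
  exact hc.transfer h0 h2' hs1 hs2 hs3 hx0 hx

end XN

end Crest.Agent.R151.E685
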