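import Crest.Agent.R151.J684c

/-!
# R151/J684d — the strategy from the two recursions (owner helper684)

`Rec c T C0` : `recA` (helper69) and `recB` (helper685) for `fA = fB = fS`, `wmin = wmn W`;
`strat_of_rec` : the field `strat` of `NF.Inputs`.
-/

set_option autoImplicit false

open MeasureTheory Filter ProbabilityTheory Topology Set
open Crest.ProbabilityR.FirstPassage
open Crest.Agent.R151.K Crest.Agent.R151.Q

namespace Crest.Agent.R151.J684

open B710 (FlatData)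
open NF
open J69 (fS)

variable {μ : ℝ × ℝ → ℝ} {G : Measure ℝ} {F : FlatData μ} {w0 c0 K : ℝ}

/-- the value function of the configuration -/
noncomputable def fC {p : NF.Num} (c : Cf G F w0 c0 K p) : ℕ → ℝ → ℝ :=
  fun N x => fS G c.h p.W c.P c.g c.L c.l N x

/-- the two recursions of the strategy -/
structure Rec {p : NF.Num} (c : Cf G F w0 c0 K p) (T : Set (M192.Row (ℝ × ℝ))) (C0 : ℝ) :
    Prop where
  recA : ∀ (N : ℕ) (x : ℝ), -(1 / 16) ≤ x → x < 1 / 8 →
    ∀ B : Set (M192.Row (ℝ × ℝ)), MeasurableSet[c.mB] B →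
    IntegrableOn ((c.rowA T).KL x) Bᶜ (nuR G) →
    fC c (N + 1) x ≤ ∫ ω in Bᶜ, (c.rowA T).KL x ω ∂(nuR G) +
      ∫ ω in B, (c.rowA T).F (1 / (4 * p.n)) x ω ∂(nuR G) + p.e +
      (nuR G).real Bᶜ * fC c N (x + 6 * p.δ) + (nuR G).real B * fC c N (x + 1 / (4 * p.n) + p.δ)
  recB : ∀ (N : ℕ) (x w : ℝ), 0 ≤ x → x < 3 / 16 → wmn p.W ≤ w →
    w ≤ (3 / 16 - x) / 2 → ∃ q : ℝ, 0 ≤ q ∧ q ≤ p.e ∧
    fC c (N + 2) x ≤ C0 * p.n ^ 4 + p.e / w ^ 3 + (1 - q) * fC c N (x - 1 / (2 * p.n) + p.δ) +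
      q * fC c N (x + 3 * w / 2)

variable [IsProbabilityMeasure G]

/-- **the strategy from the two recursions** -/
theorem strat_of_rec (h0 : G (Set.Iio 0) = 0) (h2 : Integrable (fun x : ℝ => x ^ 2) G)
    (hμ : IsTC G μ) (hc0 : 0 < c0)
    {typ : ∀ {p : NF.Num}, Cf G F w0 c0 K p → Set (M192.Row (ℝ × ℝ))} {C0 : ℝ}
    (hrec : Ev fun p => ∀ c : Cf G F w0 c0 K p, Rec c (typ c) C0) :
    Ev fun p => ∀ c : Cf G F w0 c0 K p,
      Nonempty (E191.Strategy (c.rowA (typ c)) (nuR G) c.mB C0 p.n p.δ p.e) := by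
  refine (((strat_base (F := F) (w0 := w0) (K := K) h0 h2 hμ hc0).and hrec).and Ev.std).mono
    fun p ⟨⟨hb, hr⟩, hp⟩ c => ?_
  obtain ⟨hA, C', hlow, hbase, htop⟩ := hb c
  have hr := hr c
  have hW : 0 < p.W := zero_lt_one.trans_le hp.W
  exact ⟨{
    fA := fC c
    fB := fC c
    wmin := wmn p.W
    Acr := CA F * p.W / c.l
    C' := C'
    wmin_pos := wmn_pos hW
    Acr_le := hA
    low := hlow
    base_A := fun N hN x h1 h2 => hbase N hN x (abs_le.2 ⟨by linarith, by linarith⟩)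
    base_B := fun N hN x h1 h2 => hbase N hN x (abs_le.2 ⟨by linarith, by linarith⟩)
    top := fun N x h1 h2 => htop N x (abs_le.2 ⟨by linarith, by linarith⟩)
    recA := by
      rintro f (rfl | rfl)
      · exact hr.recA
      · exact hr.recA
    recB := by
      rintro f (rfl | rfl)
      · exact hr.recB
      · exact hr.recB }⟩

end Crest.Agent.R151.J684
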