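import Crest.Agent.R151.E685F3
import Crest.Agent.R151.J684d

/-!
# R151 / S0214 part 2, E685F4 — `recB` (helper685)

`recB_of` : the field `recB` of helper684's `Rec c T C0` (with `q = 0`) from the big fall.
-/

set_option autoImplicit false

open MeasureTheory Filter ProbabilityTheory Topology Set
open Crest.ProbabilityR.FirstPassage

namespace Crest.Agent.R151.E685

open Crest.Agent.R151.K Crest.Agent.R151.Q
open R78 (V Wk IsHwy hc hp stepc hull routes IsOpen shp hullY ptY gapK IsStrip Frame IsPos Back Sep)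
open B710 (FlatData)
open M56 (nu mg)
open NF (Ev Cf nuR)
open J69 (SN FM eV eGap eHk Ins OR PRow)
open J684 (fC wmn wmn_pos)

variable {μ : ℝ × ℝ → ℝ} {G : Measure ℝ} {F : FlatData μ} {w0 c0 K : ℝ} {p : NF.Num}
  {c : Cf G F w0 c0 K p}

/-- helper56's fence mean in helper69's form -/
theorem fm [IsProbabilityMeasure G] (h0 : G (Set.Iio 0) = 0)
    (h2 : Integrable (fun x : ℝ => x ^ 2) G) (hμ : IsTC G μ) {h : Hwy F} {ε : ℝ}
    (hM : HwyMean G h ε) : FM G h ε := by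
  intro d I s s2 α β y2 hI hd hy hs hs2 hsub hw
  have := M56.one_le_mg F
  exact M56.fence_mean' hM h0 h2 hd hI hs hs2 hsub hw hμ (by linarith)

/-- the big fall -/
def BigFall (c : Cf G F w0 c0 K p) (C1 : ℝ) : Prop :=
  ∫ q, c.h.sk (c.yB • F.b) (Icc (-(1 / 4 * p.W)) (1 / 4 * p.W)) univ c.L 0
      (-(1 / 9 * p.W)) q.1.1 q.1.2 q.2 ∂(nuR G) ≤ C1 * p.n ^ 5 * c.l

variable [IsProbabilityMeasure G]

/-- one move down in a B-row -/
theorem moveB (hc : XN c) (h0 : G (Set.Iio 0) = 0) (h1 : Integrable (fun x : ℝ => x) G)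
    (h2 : Integrable (fun x : ℝ => x ^ 2) G) (hμ : IsTC G μ) {C1 : ℝ} (hbig : BigFall c C1)
    (N : ℕ) {x : ℝ} (hx0 : 0 ≤ x) (hx : x < 3 / 16) :
    eV G c.h p.W c.P c.g c.L (N + 2) (x * p.W) ≤ (48 * C1 + 10 ^ 5) * p.n ^ 4 * c.l +
      p.e * c.l + eV G c.h p.W c.P c.g c.L N ((x - 1 / (2 * p.n) + p.δ) * p.W) := by
  obtain ⟨hW, hg, hκ, hcF, hmg, hwH, b1, b2, b3, b4, b5, b6, b7⟩ := hc.sn.basic
  obtain ⟨-, hn, a1, a2, a3, a4, a5, a6, a7, a8, a9, a10, a11, a12⟩ := hc.basic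
  have hn6 := hc.n_ge
  have hlen := hc.sn.len
  have hδ0 := hc.sn.std.toStd.δ_pos
  have hδ := hc.sn.δ_le
  have he := hc.sn.std.toStd.e_pos
  have hxW0 : 0 ≤ x * p.W := mul_nonneg hx0 hW.le
  have hxW : x * p.W ≤ 3 / 16 * p.W := mul_le_mul_of_nonneg_right hx.le hW.le
  have e12 : (x - 1 / (2 * p.n)) * p.W = x * p.W - p.W / p.n / 2 := by field_simp
  have e13 : (x - 1 / (2 * p.n) + p.δ) * p.W = x * p.W - p.W / p.n / 2 + p.δ * p.W := by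
    rw [add_mul, e12]
  have e40 : p.W / (4096 * p.n) = (p.W / p.n) / 4096 := by field_simp
  obtain ⟨i1, m1⟩ := hc.hfall_of h0 h2 hμ hbig hx0 hx
  have hF := fm h0 h2 hμ c.mean
  have eal : F.al (c.yB • F.b) = 0 := by rw [map_smul, F.al_b, smul_zero]
  have ebe : F.be (c.yB • F.b) = c.yB := by rw [map_smul, F.be_b, smul_eq_mul, mul_one]
  have hd : c.h.wH + 2 * mg F < F.be (c.yB • F.b) := by rw [ebe]; exact a6
  have hLane : LaneP c.h (c.yB • F.b) (Icc (-(1 / 4 * p.W)) (15 / 32 * p.W)) (-(1 / 4 * p.W))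
      (15 / 32 * p.W) := ⟨hd, eal, measurableSet_Icc, subset_rfl⟩
  have ins1 : Ins c.h p.W (x * p.W) := hc.sn.ins (abs_le.2 ⟨by linarith, by linarith⟩)
  have ins2 : Ins c.h p.W ((x - 1 / (2 * p.n)) * p.W) := by
    rw [e12]; exact hc.sn.ins (abs_le.2 ⟨by linarith, by linarith⟩)
  have ins3 : Ins c.h p.W ((x - 1 / (2 * p.n) + p.δ) * p.W) := by
    rw [e13]; exact hc.sn.ins (abs_le.2 ⟨by linarith, by linarith⟩)
  have ins4 : Ins c.h p.W (-(1 / 4 * p.W)) := hc.sn.ins (abs_le.2 ⟨by linarith, by linarith⟩)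
  have ins5 : Ins c.h p.W (15 / 32 * p.W) := by
    unfold Ins
    rw [abs_of_nonneg (by linarith)]
    linarith
  have hne : ∀ θ t φ, (routes t (c.h.Lo θ t φ) (c.h.Up (c.yB • F.b) θ t φ)
      (rg F (Icc (-(1 / 4 * p.W)) (15 / 32 * p.W)) θ) (c.h.iL (x * p.W) θ t φ)
      (c.h.iU (c.yB • F.b) ((x - 1 / (2 * p.n)) * p.W) θ t φ)).Nonempty := fun θ t φ =>
    hLane.ne (by linarith) (by linarith) (by rw [e12]; linarith) (by rw [e12]; linarith) θ t φ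
  have ig : Integrable (fun q : OR => c.h.hkY (c.yB • F.b) univ (-c.L) c.L q.1.1 q.1.2 q.2)
      (PRow G) := gauge_int (L := c.L) c.mean h0 h2 hd eal hc.LL
  have i1' : Integrable (fun q : OR =>
      c.h.sk (c.yB • F.b) (Icc (-(1 / 4 * p.W)) (15 / 32 * p.W)) univ c.L (x * p.W)
        ((x - 1 / (2 * p.n)) * p.W) q.1.1 q.1.2 q.2) (PRow G) := i1
  have key := J69.move_mean c.h (G := G) h0 h1 h2 hμ c.mean c.mean.nonneg hc.sn.mparB
    (B := (∅ : Set OR)) (@MeasurableSet.empty _ (M192.mB c.h (c.yB • F.b))) (N := N) (s := x * p.W)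
    (s₁ := (x - 1 / (2 * p.n)) * p.W) (s₂ := (x - 1 / (2 * p.n)) * p.W)
    (s₁' := (x - 1 / (2 * p.n) + p.δ) * p.W) (s₂' := (x - 1 / (2 * p.n) + p.δ) * p.W)
    (r₁ := -(1 / 4 * p.W)) (r₁' := 15 / 32 * p.W) (r₂ := -(1 / 4 * p.W)) (r₂' := 15 / 32 * p.W)
    (I₁ := Icc (-(1 / 4 * p.W)) (15 / 32 * p.W)) (I₂ := Icc (-(1 / 4 * p.W)) (15 / 32 * p.W))
    (J := univ) measurableSet_Icc measurableSet_Icc MeasurableSet.univ
    ins1 ins2 ins2 ins3 ins3 ins4 ins5 ins4 ins5 subset_rfl subset_rfl hc.sn.WL hne hne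
    i1'.integrableOn i1'.integrableOn ig
  have hgap := hc.sn.eGap_small h0 h1 h2 hμ hF hc.sn.mparB ins2 ins3
    (by rw [e12, e13]; nlinarith)
  have hhk := hc.sn.eHk_small h0 h2 hμ hF (y := c.yB) a6 (by rw [c.yB_eq']; linarith)
  rw [compl_empty, setIntegral_univ, setIntegral_empty, probReal_univ, measureReal_empty,
    one_mul, zero_mul] at key
  have m1' : ∫ q : OR, c.h.sk (c.yB • F.b) (Icc (-(1 / 4 * p.W)) (15 / 32 * p.W)) univ c.L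
      (x * p.W) ((x - 1 / (2 * p.n)) * p.W) q.1.1 q.1.2 q.2 ∂(PRow G) ≤
      (48 * C1 + 10 ^ 5) * p.n ^ 4 * c.l := m1
  have hel : 0 ≤ p.e * c.l := mul_nonneg he.le a9.le
  linarith

/-- **`recB`** with `q = 0` -/
theorem recB_of (hc : XN c) (h0 : G (Set.Iio 0) = 0) (h1 : Integrable (fun x : ℝ => x) G)
    (h2 : Integrable (fun x : ℝ => x ^ 2) G) (hμ : IsTC G μ) {C1 : ℝ} (hbig : BigFall c C1)
    (N : ℕ) (x w : ℝ) (hx0 : 0 ≤ x) (hx : x < 3 / 16) (hw : wmn p.W ≤ w)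
    (hw2 : w ≤ (3 / 16 - x) / 2) : ∃ q : ℝ, 0 ≤ q ∧ q ≤ p.e ∧
    fC c (N + 2) x ≤ (48 * C1 + 10 ^ 5) * p.n ^ 4 + p.e / w ^ 3 +
      (1 - q) * fC c N (x - 1 / (2 * p.n) + p.δ) + q * fC c N (x + 3 * w / 2) := by
  have he := hc.sn.std.toStd.e_pos
  have hl := hc.sn.std.l_pos
  have hW : 0 < p.W := hc.basic.1
  refine ⟨0, le_rfl, he.le, ?_⟩
  have key := moveB hc h0 h1 h2 hμ hbig N hx0 hx
  have hw0 : 0 < w := (wmn_pos hW).trans_le hw
  have hw1 : w ≤ 1 := by linarith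
  have h3 : p.e ≤ p.e / w ^ 3 := by
    rw [le_div_iff₀ (by positivity)]
    have : w ^ 3 ≤ 1 := pow_le_one₀ hw0.le hw1
    nlinarith
  rw [sub_zero, one_mul, zero_mul, add_zero]
  have e1 : fC c (N + 2) x = eV G c.h p.W c.P c.g c.L (N + 2) (x * p.W) / c.l := rfl
  have e2 : fC c N (x - 1 / (2 * p.n) + p.δ) =
      eV G c.h p.W c.P c.g c.L N ((x - 1 / (2 * p.n) + p.δ) * p.W) / c.l := rfl
  rw [e1, e2, div_le_iff₀ hl, add_mul, add_mul, div_mul_cancel₀ _ hl.ne']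
  have h4 : p.e * c.l ≤ p.e / w ^ 3 * c.l := mul_le_mul_of_nonneg_right h3 hl.le
  linarith

/-- **`recB` for every configuration**, from the big fall -/
theorem ev_recB (h0 : G (Set.Iio 0) = 0) (h1 : Integrable (fun x : ℝ => x) G)
    (h2 : Integrable (fun x : ℝ => x ^ 2) G) (hμ : IsTC G μ) (hc0 : 0 < c0) (hK : 0 ≤ K) {C1 : ℝ}
    (hbig : Ev fun p => ∀ c : Cf G F w0 c0 K p, BigFall c C1) :
    Ev fun p => ∀ c : Cf G F w0 c0 K p, ∀ (N : ℕ) (x w : ℝ), 0 ≤ x → x < 3 / 16 → wmn p.W ≤ w →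
      w ≤ (3 / 16 - x) / 2 → ∃ q : ℝ, 0 ≤ q ∧ q ≤ p.e ∧
      fC c (N + 2) x ≤ (48 * C1 + 10 ^ 5) * p.n ^ 4 + p.e / w ^ 3 +
        (1 - q) * fC c N (x - 1 / (2 * p.n) + p.δ) + q * fC c N (x + 3 * w / 2) :=
  ((ev_XN G F w0 hc0 hK).and hbig).mono fun _ ⟨hx, hb⟩ c => recB_of (hx c) h0 h1 h2 hμ (hb c)

end Crest.Agent.R151.E685
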