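import Crest.Agent.R151.J69r
import Crest.Agent.R151.J684d
import Crest.Agent.R151.M56f

/-!
# R151/J69s — `J684.Rec` from the mean of the small fall of the B-rows (owner helper69)
-/

set_option autoImplicit false

open MeasureTheory Filter ProbabilityTheory Topology Set
open Crest.ProbabilityR.FirstPassage
open Crest.Agent.R151.K Crest.Agent.R151.Q

namespace Crest.Agent.R151.J69

open B710 (FlatData)
open C710 (GoodScale fn)
open NF hiding Num
open M56 (mg nu)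
open R78 (routes)

variable {μ : ℝ × ℝ → ℝ}
variable {G : Measure ℝ} {F : FlatData μ} {w0 c0 K : ℝ} {p : NF.Num}

/-- helper56's fence mean -/
theorem fm_of [IsProbabilityMeasure G] (h0 : G (Set.Iio 0) = 0)
    (h2 : Integrable (fun x : ℝ => x ^ 2) G) (hμ : IsTC G μ) {h : Hwy F} {ε : ℝ}
    (hm : HwyMean G h ε) : FM G h ε := by
  intro d I s s2 α β y2 hI hd hy hs hs2 hIab hw
  have := M56.one_le_mg F
  exact M56.fence_mean' hm h0 h2 hd hI hs hs2 hIab hw hμ (by linarith)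

/-- the mean of the small falls of a B-row -/
def Fall (c : Cf G F w0 c0 K p) (C0 : ℝ) : Prop :=
  ∀ x : ℝ, 0 ≤ x → x < 3 / 16 →
    ∫ q, c.h.sk (c.yB • F.b) (Icc (-(7 / 16 * p.W)) (7 / 16 * p.W)) univ c.L (x * p.W)
      ((x - 1 / (2 * p.n)) * p.W) q.1.1 q.1.2 q.2 ∂(nuR G) ≤ C0 * p.n ^ 4 * c.l

set_option maxHeartbeats 1000000 in
/-- **the B-row move** from the mean of the small falls -/
theorem SN.recB [IsProbabilityMeasure G] {c : Cf G F w0 c0 K p} (hc : SN c)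
    (h0 : G (Set.Iio 0) = 0)
    (h1 : Integrable (fun x : ℝ => x) G) (h2 : Integrable (fun x : ℝ => x ^ 2) G)
    (hμ : IsTC G μ) {C0 : ℝ} (hfall : Fall c C0) : RecB c (C0 + 1) := by
  intro N x hx1 hx2
  have hF : FM G c.h c.ε := fm_of h0 h2 hμ c.mean
  obtain ⟨hW, hg, hκ, hcF, hmg, hwH, a1, a2, a3, a4, a5, a6, a7⟩ := hc.basic
  have b1 := hc.len
  have b2 := hc.wH_le
  have b5 := hc.δ_le
  have b6 := hc.n_ge
  have b7 := hc.g_le
  have hδ := hc.std.toStd.δ_pos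
  have hl := hc.std.l_pos
  have he := hc.std.toStd.e_pos
  have he1 := hc.std.toStd.e_le
  have hn : (0 : ℝ) < p.n := by linarith
  set w : ℝ := 1 / (2 * (p.n : ℝ)) with hw
  have hw0 : 0 < w := by rw [hw]; positivity
  have hw1 : w ≤ 1 / 32 := by
    rw [hw]
    exact one_div_le_one_div_of_le (by norm_num) (by linarith)
  have hwW : 16 * c.g ≤ w * p.W := by
    have : 16 * c.g * (2 * p.n) ≤ p.W := by nlinarith
    rw [hw, div_mul_eq_mul_div, one_mul, le_div_iff₀ (by positivity)]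
    exact this
  have hxW1 : 0 ≤ x * p.W := mul_nonneg hx1 hW.le
  have hxW2 : x * p.W ≤ 3 / 16 * p.W := mul_le_mul_of_nonneg_right hx2.le hW.le
  have hwW1 : w * p.W ≤ 1 / 32 * p.W := mul_le_mul_of_nonneg_right hw1 hW.le
  have hyB : c.h.wH + 2 * mg F < c.yB := by linarith
  set I₁ : Set ℝ := Icc (-(7 / 16 * p.W)) (7 / 16 * p.W) with hI₁
  have exw : (x - w) * p.W = x * p.W - w * p.W := by ring
  have hdd : c.h.wH + 2 * mg F < F.be (c.yB • F.b) := by rw [be_smul_b']; exact hyB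
  have hs1 : x * p.W + mg F ≤ x * p.W + mg F := le_rfl
  have hs2 : (x - w) * p.W - 2 * mg F - c.h.κ + mg F + c.h.κ < (x - w) * p.W + F.al (c.yB • F.b) := by
    rw [al_smul_b]; linarith
  have hII : Icc (min (x * p.W + mg F) ((x - w) * p.W - 2 * mg F - c.h.κ) - mg F)
      (max (x * p.W + mg F) ((x - w) * p.W - 2 * mg F - c.h.κ) + mg F) ⊆ I₁ := by
    refine Icc_subset_Icc ?_ ?_
    · rw [le_sub_iff_add_le, le_min_iff, exw]
      constructor <;> linarith
    · rw [← le_sub_iff_add_le, max_le_iff, exw]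
      constructor <;> linarith
  -- integrability
  have jJ : Integrable (fun q => c.h.hkY (c.yB • F.b) univ (-c.L) c.L q.1.1 q.1.2 q.2) (nu G) :=
    int_fence h0 h2 c.mean hyB (a := -c.L) (b := c.L) le_rfl (by linarith) (by linarith)
      MeasurableSet.univ (subset_univ _)
  have j1 : Integrable (fun q => c.h.hkY (c.yB • F.b) I₁ (x * p.W) ((x - w) * p.W)
      q.1.1 q.1.2 q.2) (nu G) :=
    M56.hkY_integrable c.mean h0 h2 hdd measurableSet_Icc hs1 hs2 hII
  have k1 := (sk_int c.mean j1 jJ).1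
  have hs : Ins c.h p.W (x * p.W) := hc.ins' (by rw [abs_le]; constructor <;> linarith)
  have hs₁ : Ins c.h p.W ((x - w) * p.W) :=
    hc.ins' (by rw [abs_le]; constructor <;> linarith)
  have hs₁' : Ins c.h p.W ((x - w + p.δ) * p.W) :=
    hc.ins' (by rw [abs_le]; constructor <;> linarith)
  have hne := M56.row_nonempty (h := c.h) hdd hs1 hs2 hII
  have key := move_mean c.h h0 h1 h2 hμ c.mean c.mean.nonneg hc.mparB (B := ∅)
    (@MeasurableSet.empty _ (M192.mB c.h (c.yB • F.b))) (N := N)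
    (I₁ := I₁) (I₂ := I₁) (J := univ) (L := c.L) measurableSet_Icc measurableSet_Icc
    MeasurableSet.univ hs hs₁ hs₁ hs₁' hs₁'
    (r₁ := -(7 / 16 * p.W)) (r₁' := 7 / 16 * p.W) (r₂ := -(7 / 16 * p.W))
    (r₂' := 7 / 16 * p.W)
    (hc.ins (by rw [abs_neg, abs_of_pos (by positivity)]))
    (hc.ins (by rw [abs_of_pos (by positivity)]))
    (hc.ins (by rw [abs_neg, abs_of_pos (by positivity)]))
    (hc.ins (by rw [abs_of_pos (by positivity)])) subset_rfl subset_rfl hc.WL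
    hne hne k1.integrableOn k1.integrableOn jJ
  have g1 := hc.eGap_small h0 h1 h2 hμ hF hc.mparB hs₁ hs₁' (by nlinarith)
  have g3 := hc.eHk_small h0 h2 hμ hF hyB (by rw [c.yB_eq']; linarith)
  rw [eV_eq hc, eV_eq hc] at key
  have hP1 : (PRow G).real (∅ᶜ : Set OR) = 1 := by simp
  have hP2 : (PRow G).real (∅ : Set OR) = 0 := by simp
  rw [hP1, hP2, compl_empty, Measure.restrict_univ, Measure.restrict_empty, integral_zero_measure,
    zero_mul, one_mul] at key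
  have hf := hfall x hx1 hx2
  have hf' : ∫ q : OR, c.h.sk (c.yB • F.b) I₁ univ c.L (x * p.W) ((x - w) * p.W) q.1.1 q.1.2 q.2
      ∂(PRow G) ≤ C0 * p.n ^ 4 * c.l := hf
  have hn4 : (1 : ℝ) ≤ (p.n : ℝ) ^ 4 := one_le_pow₀ (by linarith)
  have hel : p.e * c.l ≤ p.n ^ 4 * c.l := by
    refine mul_le_mul_of_nonneg_right ?_ hl.le
    linarith
  have hel0 : 0 < p.e * c.l := mul_pos he hl
  refine le_of_mul_le_mul_right (key.trans ?_) hl
  have e3 : ((C0 + 1) * (p.n : ℝ) ^ 4 + fC c N (x - w + p.δ)) * c.l =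
      C0 * p.n ^ 4 * c.l + p.n ^ 4 * c.l + fC c N (x - w + p.δ) * c.l := by ring
  rw [e3]
  linarith

/-- **the two recursions of the strategy** from the small falls of the B-rows -/
theorem ev_rec [IsProbabilityMeasure G] (F : FlatData μ) (w0 : ℝ) {c0 K : ℝ}
    (hc0 : 0 < c0) (hK : 0 ≤ K) (h0 : G (Set.Iio 0) = 0)
    (h1 : Integrable (fun x : ℝ => x) G) (h2 : Integrable (fun x : ℝ => x ^ 2) G)
    (hμ : IsTC G μ) (hfall : ∃ C0 : ℝ, Ev fun p => ∀ c : Cf G F w0 c0 K p, Fall c C0)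
    (typ : ∀ {p : NF.Num}, Cf G F w0 c0 K p → Set (M192.Row (ℝ × ℝ))) :
    ∃ C0 : ℝ, Ev fun p => ∀ c : Cf G F w0 c0 K p, J684.Rec c (typ c) C0 := by
  obtain ⟨C0, hf⟩ := hfall
  refine ⟨C0 + 1, ((ev_SN G F w0 hc0 hK).and hf).mono ?_⟩
  rintro p ⟨a1, a2⟩ c
  have hc := a1 c
  have hF : FM G c.h c.ε := fm_of h0 h2 hμ c.mean
  refine ⟨fun N x hx1 hx2 B hB _ => hc.recA h0 h1 h2 hμ hF (typ c) N x hx1 hx2 B hB, ?_⟩
  intro N x w hx1 hx2 hw _
  have he := hc.std.toStd.e_pos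
  have h5 := hc.recB h0 h1 h2 hμ (a2 c) N x hx1 hx2
  have h5' : J684.fC c (N + 2) x ≤ (C0 + 1) * p.n ^ 4 +
      J684.fC c N (x - 1 / (2 * p.n) + p.δ) := h5
  refine ⟨0, le_rfl, he.le, ?_⟩
  have h6 : 0 ≤ p.e / w ^ 3 := by
    have : 0 < w := (J684.wmn_pos hc.W_pos).trans_le hw
    positivity
  linarith

end Crest.Agent.R151.J69
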