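import Crest.Agent.R151.E685F4
import Crest.Agent.R151.J69s

/-!
# R151 / S0214 part 2, E685F5 — `J684.Rec` from the big fall (helper685)
-/

set_option autoImplicit false

open MeasureTheory Filter ProbabilityTheory Topology Set
open Crest.ProbabilityR.FirstPassage

namespace Crest.Agent.R151.E685

open Crest.Agent.R151.K Crest.Agent.R151.Q
open B710 (FlatData)
open NF (Ev Cf nuR)

variable {μ : ℝ × ℝ → ℝ} {G : Measure ℝ}

/-- **the two recursions of the strategy** from the big fall of the B-rows -/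
theorem ev_rec_of_big [IsProbabilityMeasure G] (F : FlatData μ) (w0 : ℝ) {c0 K : ℝ}
    (hc0 : 0 < c0) (hK : 0 ≤ K) (h0 : G (Set.Iio 0) = 0)
    (h1 : Integrable (fun x : ℝ => x) G) (h2 : Integrable (fun x : ℝ => x ^ 2) G)
    (hμ : IsTC G μ) (hbig : ∃ C1 : ℝ, Ev fun p => ∀ c : Cf G F w0 c0 K p, BigFall c C1)
    (typ : ∀ {p : NF.Num}, Cf G F w0 c0 K p → Set (M192.Row (ℝ × ℝ))) :
    ∃ C0 : ℝ, Ev fun p => ∀ c : Cf G F w0 c0 K p, J684.Rec c (typ c) C0 := by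
  obtain ⟨C1, hb⟩ := hbig
  refine ⟨48 * C1 + 10 ^ 5, ((J69.ev_SN G F w0 hc0 hK).and
    (ev_recB h0 h1 h2 hμ hc0 hK hb)).mono ?_⟩
  rintro p ⟨a1, a2⟩ c
  exact ⟨fun N x hx1 hx2 B hB _ => (a1 c).recA h0 h1 h2 hμ (J69.fm_of h0 h2 hμ c.mean) (typ c) N x
    hx1 hx2 B hB, a2 c⟩

end Crest.Agent.R151.E685
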