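import Crest.Agent.R151.FA763a
import Crest.Agent.R151.U750m4
import Crest.Agent.R151.Q8c
import Crest.Agent.R151.NF6

/-!
# R151 / S0214 part 2, [FALL] (F1) : the mean of the fall of the big row, `Ev` form (helper763)

`big_fall` : in a B-row (height `y + 6 g`) the mean of the fall `0 → - W / 9`, half width `W / 4`,
is at most `2300 n ^ 5 l`.
-/

set_option autoImplicit false

open MeasureTheory Filter ProbabilityTheory Topology Set
open Crest.ProbabilityR.FirstPassage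

namespace Crest.Agent.R151.FALL

open K R78 B710 M192 Q NF
open M56 (mg one_le_mg)

variable {μ : ℝ × ℝ → ℝ} {F : FlatData μ} {w0 c0 K : ℝ}

/-- sum of three absolute values -/
lemma err_le {G : Measure ℝ} [IsProbabilityMeasure G] {h : Hwy F}
    {y g c Λ L α₀ β₀ a₀ b₀ α₁ β₁ a₁ b₁ : ℝ}
    (i1 : Integrable (fun q : RowS × ((ℝ × ℝ) × (ℝ × ℝ)) =>
      obLo h g c α₀ β₀ L a₀ b₀ q.1.1.1 q.1.1.2 q.1.2 q.2) ((PR G).prod PF))
    (i2 : Integrable (fun q : RowS × ((ℝ × ℝ) × (ℝ × ℝ)) =>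
      obUp h y g c α₁ β₁ L a₁ b₁ q.1.1.1 q.1.1.2 q.1.2 q.2) ((PR G).prod PF))
    (i3 : Integrable (fun q : RowS × ((ℝ × ℝ) × (ℝ × ℝ)) =>
      obJ h y g Λ L q.1.1.1 q.1.1.2 q.1.2 q.2) ((PR G).prod PF)) :
    Integrable (errV h y g c Λ L α₀ β₀ a₀ b₀ α₁ β₁ a₁ b₁)
      (((P0 G).prod (UU.prod UU)).prod κI) ∧
    ∫ x, |errV h y g c Λ L α₀ β₀ a₀ b₀ α₁ β₁ a₁ b₁ x| ∂(((P0 G).prod (UU.prod UU)).prod κI) ≤
      ∫ q, |obLo h g c α₀ β₀ L a₀ b₀ q.1.1.1 q.1.1.2 q.1.2 q.2| ∂((PR G).prod PF) +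
      ∫ q, |obUp h y g c α₁ β₁ L a₁ b₁ q.1.1.1 q.1.1.2 q.1.2 q.2| ∂((PR G).prod PF) +
      ∫ q, |obJ h y g Λ L q.1.1.1 q.1.1.2 q.1.2 q.2| ∂((PR G).prod PF) := by
  have hi : Integrable (errV h y g c Λ L α₀ β₀ a₀ b₀ α₁ β₁ a₁ b₁) ((PR G).prod PF) :=
    (i1.add i2).add i3
  refine ⟨hi, ?_⟩
  have e1 := integral_add i1.abs i2.abs
  have e2 := integral_add (i1.abs.add i2.abs) i3.abs
  simp only [Pi.add_apply] at e2
  rw [← e1, ← e2]
  refine integral_mono hi.abs ((i1.abs.add i2.abs).add i3.abs) fun q => ?_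
  show |_ + _ + _| ≤ |_| + |_| + |_|
  exact (abs_add_le _ _).trans (add_le_add (abs_add_le _ _) le_rfl)

section

variable {r : ℝ} (hr : 0 < r) {G : Measure ℝ} [IsProbabilityMeasure G] (hG : G = gammaMeasure 1 r)

include hr hG

set_option maxHeartbeats 2000000 in
theorem big_fall_aux (h0 : G (Set.Iio 0) = 0) (h2 : Integrable (fun x : ℝ => x ^ 2) G)
    (hμ : IsTC G μ) {p : NF.Num} (c : Cf G F w0 c0 K p)
    (hl : c.Len) (hgeo : Geo c.h c.y (3 * c.g) (p.W / 500) c.lam c.L)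
    (hgap : 1000000 * c.g ≤ p.W) (hB : c.Bf ≤ c.l)
    (hρ : c.IsRho (dOv F c.y (3 * c.g)) (c.rho (dOv F c.y (3 * c.g))))
    (hgy : 96 * 10 ^ 9 * c.g ≤ c.y) (hhw : 8 * p.v' * (p.W * c.ε) ≤ c.l) :
    Integrable (fun q : M192.Row (ℝ × ℝ) =>
      c.h.sk (c.yB • F.b) (Icc (-(1 / 4 * p.W)) (1 / 4 * p.W)) univ c.L 0 (-(1 / 9 * p.W))
        q.1.1 q.1.2 q.2) (nuR G) ∧
    ∫ q, c.h.sk (c.yB • F.b) (Icc (-(1 / 4 * p.W)) (1 / 4 * p.W)) univ c.L 0 (-(1 / 9 * p.W))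
        q.1.1 q.1.2 q.2 ∂(nuR G) ≤ 2300 * (p.n : ℝ) ^ 5 * c.l := by
  have hW : 0 < p.W := zero_lt_one.trans_le hl.W
  have hmg := one_le_mg F
  have hcF := cF_nonneg F
  have hmgl := hl.mg_le
  have h1w := hl.one_le_w
  have hκ := hl.κ_le'
  have hκ0 := c.h.κ_nonneg
  have hsl := hl.sl_le
  have hsl0 := hl.sl_nonneg
  have hw0 := hl.w0_le
  have hwH := hl.wH_eq
  have hgp := hl.g_pos
  have hyp := hl.y_pos
  have hPe := c.P_eq
  have hle := c.l_eq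
  have hrt := c.rt_pos
  have hWL := hl.WL
  have hL2 := hl.lam_eq
  have hlp := hl.l_pos
  have hlam : c.lam = p.v' * p.W := rfl
  have hv' := hl.v'
  have hε := c.mean.nonneg
  have hP0 : 0 ≤ c.P := by linarith [hl.yA_ge]
  have hWε : 0 ≤ p.W * c.ε := mul_nonneg hW.le hε
  have hgbig : c.h.wH + 2 * mg F + cF F < 3 * c.g := by linarith
  -- the three means
  have m1 := MN750.obLo_mean' (g := 3 * c.g) (c := p.W / 500) (α := 0) (β := 1 / 1000 * p.W)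
    (L := c.L) (s := 0) (s₁ := 0) h0 h2 c.mean hμ hgbig le_rfl (by linarith) (by linarith)
    (by linarith) (by linarith)
  have m2 := MN750.obUp_mean' (y := c.y) (g := 3 * c.g) (c := p.W / 500) (α := -(61 / 500 * p.W))
    (β := -(59 / 500 * p.W)) (L := c.L) (s₂ := -(p.W / 8)) (s' := -(1 / 9 * p.W)) h0 h2 c.mean hμ
    hgbig (by linarith) (by linarith) (by linarith) (by linarith) (by linarith)
  have m3 := MN750.obJ_mean' (y := c.y) (g := 3 * c.g) (L := c.L) (Λ := c.lam) h0 h2 c.mean hμ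
    (by linarith) hyp.le (by linarith) (by linarith) (by linarith)
  -- numerics
  have n0 : c.y ≤ 2 * c.P := by linarith
  have habs : |p.W / 500| = p.W / 500 := abs_of_pos (by linarith)
  have hwid : ∀ t : ℝ, 1 / 1000 ≤ t → t ≤ 1 →
      2 * (3 * c.g) * rate G F (t * p.W) ≤ c.l := by
    intro t ht ht1
    have ht0 : 0 < t := by linarith
    have hmul : 1 / 1000 * p.W ≤ t * p.W := mul_le_mul_of_nonneg_right ht hW.le
    have h1 := rate_near' c hl.toStd ht0 ht1 (by linarith)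
    have h3 : 8 / t ^ 3 ≤ 8 * 10 ^ 9 := by
      rw [div_le_iff₀ (by positivity)]
      have h4 : (1 / 1000 : ℝ) ^ 3 ≤ t ^ 3 := pow_le_pow_left₀ (by norm_num) ht 3
      norm_num at h4 ⊢
      linarith
    have h4 : rate G F (t * p.W) ≤ 8 * 10 ^ 9 * c.rt :=
      h1.trans (mul_le_mul_of_nonneg_right h3 hrt.le)
    calc 2 * (3 * c.g) * rate G F (t * p.W) ≤ 2 * (3 * c.g) * (8 * 10 ^ 9 * c.rt) :=
          mul_le_mul_of_nonneg_left h4 (by linarith)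
      _ = (48 * 10 ^ 9 * c.g) * c.rt := by ring
      _ ≤ c.P * c.rt := by
          refine mul_le_mul_of_nonneg_right ?_ hrt.le
          linarith
      _ = c.l := hle.symm
  have hhw' : ∀ X : ℝ, X ≤ 8 * (p.v' * p.W) → X * c.ε ≤ c.l := by
    intro X hX
    calc X * c.ε ≤ 8 * (p.v' * p.W) * c.ε := mul_le_mul_of_nonneg_right hX hε
      _ = 8 * p.v' * (p.W * c.ε) := by ring
      _ ≤ c.l := hhw
  have b1 : ∫ q, |obLo c.h (3 * c.g) (p.W / 500) 0 (1 / 1000 * p.W) c.L 0 0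
      q.1.1.1 q.1.1.2 q.1.2 q.2| ∂((PR G).prod PF) ≤ 2 * c.l := by
    refine m1.2.trans ?_
    rw [habs, sub_zero]
    have h5 := hwid (1 / 1000) le_rfl (by norm_num)
    have h6 := hhw' (2 * c.L + 1 / 1000 * p.W + c.h.κ + 1 + p.W / 500 + cF F) (by linarith)
    linarith
  have b2 : ∫ q, |obUp c.h c.y (3 * c.g) (p.W / 500) (-(61 / 500 * p.W)) (-(59 / 500 * p.W)) c.L
      (-(p.W / 8)) (-(1 / 9 * p.W)) q.1.1.1 q.1.1.2 q.1.2 q.2| ∂((PR G).prod PF) ≤ 2 * c.l := by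
    refine m2.2.trans ?_
    have e1 : -(59 / 500 * p.W) - -(61 / 500 * p.W) = 1 / 250 * p.W := by ring
    rw [habs, e1]
    have h5 := hwid (1 / 250) (by norm_num) (by norm_num)
    have h6 := hhw' (2 * c.L + 1 / 250 * p.W + c.h.κ + 1 + p.W / 500 + cF F) (by linarith)
    linarith
  have b3 : ∫ q, |obJ c.h c.y (3 * c.g) c.lam c.L q.1.1.1 q.1.1.2 q.1.2 q.2|
      ∂((PR G).prod PF) ≤ c.l := by
    refine m3.2.trans (le_trans ?_ hB)
    have k1 : rate G F (2 * c.lam) ≤ 2 * (2 * p.v') ^ (-0.03 : ℝ) * c.rt := by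
      have := rate_far c hl.toStd (t := 2 * p.v') (by linarith)
      rw [hlam, ← mul_assoc]
      exact this
    have k2 : (2 * p.v') ^ (-0.03 : ℝ) ≤ p.v' ^ (-0.03 : ℝ) :=
      Real.rpow_le_rpow_of_nonpos (by linarith) (by linarith) (by norm_num)
    have k3 : 0 ≤ p.v' ^ (-0.03 : ℝ) := Real.rpow_nonneg (by linarith) _
    have k4 : (1 : ℝ) ≤ 2 ^ (0.03 : ℝ) := Real.one_le_rpow (by norm_num) (by norm_num)
    have k5 : p.v' ^ (-0.03 : ℝ) ≤ 2 ^ (0.03 : ℝ) * p.v' ^ (-0.03 : ℝ) := by nlinarith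
    have k6 : (c.y + 4 * (3 * c.g)) * rate G F (2 * c.lam) ≤
        6 * (2 ^ (0.03 : ℝ) * p.v' ^ (-0.03 : ℝ)) * c.l := by
      calc (c.y + 4 * (3 * c.g)) * rate G F (2 * c.lam)
          ≤ (c.y + 4 * (3 * c.g)) * (2 * (2 * p.v') ^ (-0.03 : ℝ) * c.rt) :=
            mul_le_mul_of_nonneg_left k1 (by linarith)
        _ ≤ (3 * c.P) * (2 * (2 ^ (0.03 : ℝ) * p.v' ^ (-0.03 : ℝ)) * c.rt) := by
            refine mul_le_mul (by linarith) ?_ ?_ (by linarith)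
            · exact mul_le_mul_of_nonneg_right (by linarith) hrt.le
            · have := Real.rpow_nonneg (by linarith : (0 : ℝ) ≤ 2 * p.v') (-0.03)
              positivity
        _ = _ := by rw [hle]; ring
    have k7 : (2 * c.L + 2 * c.lam + c.h.κ + 1) * c.ε ≤ 12 * p.v' * (p.W * c.ε) := by
      calc (2 * c.L + 2 * c.lam + c.h.κ + 1) * c.ε ≤ 12 * (p.v' * p.W) * c.ε :=
            mul_le_mul_of_nonneg_right (by linarith) hε
        _ = _ := by ring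
    unfold Cf.Bf
    linarith
  -- routes
  have ht : 0 ≤ (p.n : ℝ) ^ 5 * (c.y * c.rt) := by positivity
  have hin : 1 / 2 ≤ ((P0 G).prod (UU.prod UU)).real
      {q | ski c.h c.y (Set.Icc (-(7 / 32 * p.W)) (7 / 32 * p.W)) c.L 0 (-(p.W / 8)) q ≤
        (p.n : ℝ) ^ 5 * (c.y * c.rt)} := c.q_le
  have hbe : c.h.wH + 2 * mg F < c.y + 2 * (3 * c.g) := by linarith [hl.g_le]
  have ey1 : (-(1 / 4 * p.W) + c.h.κ) - c.h.κ = -(1 / 4 * p.W) := by ring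
  have ey2 : (1 / 4 * p.W - c.h.κ) + c.h.κ = 1 / 4 * p.W := by ring
  have hlm : |p.W / 500| = p.W / 500 := habs
  have r0 : ∀ η, ‖η‖ ≤ 1 → Rt c.h (offv F (3 * c.g) (p.W / 500) η)
      (Set.Icc 0 (1 / 1000 * p.W)) 0 0 :=
    rt_lo (σ₁ := p.W / 2000) (σ₂ := p.W / 2000) hgbig (by linarith) (by linarith) (by linarith)
      (by linarith) (by linarith) (by linarith)
  have r2 : ∀ η, ‖η‖ ≤ 1 → Rt c.h
      (Hwy.dU (offv F (3 * c.g) (p.W / 500) η) (c.y • F.b) (dOv F c.y (3 * c.g)))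
      (Iup F c.y (3 * c.g) (p.W / 500) (-(61 / 500 * p.W)) (-(59 / 500 * p.W)) η)
      (-(p.W / 8)) (-(1 / 9 * p.W)) :=
    rt_up (σ₁ := -(60 / 500 * p.W)) (σ₂ := -(60 / 500 * p.W)) hgbig (by linarith) (by linarith)
      (by linarith) (by linarith) (by linarith) (by linarith)
  have ri : Rt c.h (c.y • F.b) (Set.Icc (-(7 / 32 * p.W)) (7 / 32 * p.W)) 0 (-(p.W / 8)) :=
    rt_inn (σ₁ := p.W / 100) (σ₂ := -(p.W / 7)) (by linarith [hl.g_le]) (by linarith) (by linarith)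
      (by linarith) (by linarith) (by linarith) (by linarith)
  have ro : Rt c.h (dOv F c.y (3 * c.g)) (Set.Icc ((-(1 / 4 * p.W) + c.h.κ) - c.h.κ)
      ((1 / 4 * p.W - c.h.κ) + c.h.κ)) 0 (-(1 / 9 * p.W)) := by
    rw [ey1, ey2]
    refine rt_out (σ₁ := p.W / 100) (σ₂ := -(p.W / 8)) hbe (by linarith) (by linarith)
      (Icc_subset_Icc ?_ ?_)
    · rw [min_eq_right (by linarith)]; linarith
    · rw [max_eq_left (by linarith)]; linarith
  have rJ : Rt c.h (dOv F c.y (3 * c.g)) (Jw c.lam) (-c.L) c.L :=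
    rt_gauge_out hbe (by linarith) (by linarith)
  obtain ⟨er1, er2⟩ := err_le (Λ := c.lam) m1.1 m2.1 m3.1
  have em : Measurable (errV c.h c.y (3 * c.g) (p.W / 500) c.lam c.L 0 (1 / 1000 * p.W) 0 0
      (-(61 / 500 * p.W)) (-(59 / 500 * p.W)) (-(p.W / 8)) (-(1 / 9 * p.W))) :=
    ((MN750.meas_obLo _ _ _ _ _ _ _ _).add (MN750.meas_obUp _ _ _ _ _ _ _ _ _)).add
      (MN750.meas_obJ _ _ _ _ _)
  have key := core hr hG h0 hgeo (α := -(1 / 4 * p.W) + c.h.κ) (β := 1 / 4 * p.W - c.h.κ)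
    (σ := 0) (σ' := -(p.W / 8)) (αi := -(7 / 32 * p.W)) (βi := 7 / 32 * p.W)
    (s := 0) (s' := -(1 / 9 * p.W)) (by linarith) (by linarith)
    (α₀ := 0) (β₀ := 1 / 1000 * p.W) (a₀ := 0) (b₀ := 0) (α₁ := -(61 / 500 * p.W))
    (β₁ := -(59 / 500 * p.W)) (a₁ := -(p.W / 8)) (b₁ := -(1 / 9 * p.W))
    (by linarith) (by linarith) le_rfl le_rfl (by linarith) (by linarith) le_rfl le_rfl
    (by linarith) (by linarith) r0 r2 ri ro rJ hρ.meas hρ.glue hρ.int ht hin em er1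
  rw [ey1, ey2] at key
  have hn5 : (1 : ℝ) ≤ (p.n : ℝ) ^ 5 := one_le_pow₀ (by exact_mod_cast hl.n)
  have hyB : dOv F c.y (3 * c.g) = c.yB • F.b := Cf.dOB c
  have e9 : (fun q : M192.Row (ℝ × ℝ) =>
      c.h.sk (c.yB • F.b) (Icc (-(1 / 4 * p.W)) (1 / 4 * p.W)) univ c.L 0 (-(1 / 9 * p.W))
        q.1.1 q.1.2 q.2) = sko c.h c.y (3 * c.g) (Icc (-(1 / 4 * p.W)) (1 / 4 * p.W)) c.L 0
          (-(1 / 9 * p.W)) := by
    funext q
    rw [← hyB]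
    rfl
  refine ⟨?_, ?_⟩
  · rw [e9]; exact key.1
  · have k1 : ∫ q, c.h.sk (c.yB • F.b) (Icc (-(1 / 4 * p.W)) (1 / 4 * p.W)) univ c.L 0
        (-(1 / 9 * p.W)) q.1.1 q.1.2 q.2 ∂(nuR G) =
        ∫ q, sko c.h c.y (3 * c.g) (Icc (-(1 / 4 * p.W)) (1 / 4 * p.W)) c.L 0
          (-(1 / 9 * p.W)) q ∂((P0 G).prod (UU.prod UU)) := by
      rw [e9]; rfl
    rw [k1]
    refine key.2.trans ?_
    have k2 : ∫ p, |V.hkR c.h (dOv F c.y (3 * c.g)) univ (-c.L) c.L p -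
        c.rho (dOv F c.y (3 * c.g)) p| ∂((P0 G).prod (UU.prod UU)) ≤ 3 * c.l :=
      hρ.mean.trans (by linarith)
    have k3 := er2.trans (add_le_add (add_le_add b1 b2) b3)
    have k4 : 10 * ((p.n : ℝ) ^ 5 * (c.y * c.rt)) ≤ 20 * (p.n : ℝ) ^ 5 * c.l := by
      have h5 : c.y * c.rt ≤ 2 * c.l := by
        rw [hle, ← mul_assoc]
        exact mul_le_mul_of_nonneg_right n0 hrt.le
      have h6 := mul_le_mul_of_nonneg_left h5 (by positivity : (0 : ℝ) ≤ (p.n : ℝ) ^ 5)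
      linarith
    have k5 : c.l ≤ (p.n : ℝ) ^ 5 * c.l := le_mul_of_one_le_left hlp.le hn5
    linarith

/-- **(F1)** : the mean of the fall `0 → - W / 9` (half width `W / 4`) of a B-row is at most
`2300 n ^ 5 l` -/
theorem big_fall (h0 : G (Set.Iio 0) = 0) (h2 : Integrable (fun x : ℝ => x ^ 2) G)
    (hμ : IsTC G μ) (F : FlatData μ) {w0 c0 K : ℝ} (hc0 : 0 < c0) :
    Ev fun p => ∀ c : Cf G F w0 c0 K p,
      Integrable (fun q : M192.Row (ℝ × ℝ) =>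
        c.h.sk (c.yB • F.b) (Icc (-(1 / 4 * p.W)) (1 / 4 * p.W)) univ c.L 0 (-(1 / 9 * p.W))
          q.1.1 q.1.2 q.2) (nuR G) ∧
      ∫ q, c.h.sk (c.yB • F.b) (Icc (-(1 / 4 * p.W)) (1 / 4 * p.W)) univ c.L 0 (-(1 / 9 * p.W))
          q.1.1 q.1.2 q.2 ∂(nuR G) ≤ 2300 * (p.n : ℝ) ^ 5 * c.l := by
  have a1 := ev_lens (G := G) (F := F) (w0 := w0) (c0 := c0) (K := K)
  have a2 := NF.ev_geo (G := G) (F := F) (w0 := w0) (c0 := c0) (K := K) fun _ _ _ _ => 1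
  have a3 := gap_le fun _ _ _ _ _ => 1000000
  have a4 := Bf_small (G := G) (F := F) (w0 := w0) (K := K) hc0 fun _ _ _ _ => 1
  have a5 := rho_spec (F := F) (w0 := w0) (c0 := c0) (K := K) h0 h2 hμ
  have a6 := le_y (G := G) (F := F) (w0 := w0) (c0 := c0) (K := K)
    fun _ _ _ _ _ δ' _ => 96 * 10 ^ 9 * δ'
  have a7 := highway_small (G := G) (F := F) (w0 := w0) (K := K) hc0
    fun _ _ _ _ v' _ _ => 8 * v'
  refine ((((((a1.and a2).and a3).and a4).and a5).and a6).and a7).mono ?_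
  rintro p ⟨⟨⟨⟨⟨⟨a1, a2⟩, a3⟩, a4⟩, a5⟩, a6⟩, a7⟩ c
  have hl := a1 c
  have hW : 0 < p.W := zero_lt_one.trans_le hl.W
  have hB := Cf.htB hl.toC
  refine big_fall_aux hr hG h0 h2 hμ c hl (a2 c _ _ hB (p.W / 500) ?_) ?_ ?_ (a5 c _ _ hB) ?_
    (a7 c)
  · rw [abs_of_pos (by linarith), one_mul]; linarith
  · rw [c.g_eq]; exact a3
  · have := a4 c; linarith
  · rw [c.g_eq]
    have := a6 c
    linarith

end

/-- **(F1)** for the Gamma laws -/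
theorem big_fall_gamma {r : ℝ} (hr : 0 < r) (hμ : IsTC (gammaMeasure 1 r) μ) (F : FlatData μ)
    {w0 c0 K : ℝ} (hc0 : 0 < c0) :
    Ev fun p => ∀ c : Cf (gammaMeasure 1 r) F w0 c0 K p,
      Integrable (fun q : M192.Row (ℝ × ℝ) =>
        c.h.sk (c.yB • F.b) (Icc (-(1 / 4 * p.W)) (1 / 4 * p.W)) univ c.L 0 (-(1 / 9 * p.W))
          q.1.1 q.1.2 q.2) (nuR (gammaMeasure 1 r)) ∧
      ∫ q, c.h.sk (c.yB • F.b) (Icc (-(1 / 4 * p.W)) (1 / 4 * p.W)) univ c.L 0 (-(1 / 9 * p.W))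
          q.1.1 q.1.2 q.2 ∂(nuR (gammaMeasure 1 r)) ≤ 2300 * (p.n : ℝ) ^ 5 * c.l := by
  have : IsProbabilityMeasure (gammaMeasure 1 r) := isProbabilityMeasure_gammaMeasure one_pos hr
  exact big_fall hr rfl (gamma_Iio 1 r) (integrable_sq (gamma_Iio 1 r) (half_pos hr)
    (gamma_exp one_pos hr)) hμ F hc0

end Crest.Agent.R151.FALL
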