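import Crest.Agent.R151.E685F5
import Crest.Agent.R151.FA763b

/-!
# R151 / S0214 part 2, E685F6 — the field `strat` of the inputs for the exponential laws (helper685)
-/

set_option autoImplicit false

open MeasureTheory Filter ProbabilityTheory Topology Set
open Crest.ProbabilityR.FirstPassage

namespace Crest.Agent.R151.E685

open Crest.Agent.R151.K Crest.Agent.R151.Q
open B710 (FlatData)
open NF (Ev Cf nuR)

variable {μ : ℝ × ℝ → ℝ} {r : ℝ}

/-- **`J684.Rec` for every configuration, unconditional** -/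
theorem ev_rec_gamma (hr : 0 < r) (hμ : IsTC (gammaMeasure 1 r) μ) (F : FlatData μ) (w0 : ℝ)
    {c0 K : ℝ} (hc0 : 0 < c0) (hK : 0 ≤ K)
    (typ : ∀ {p : NF.Num}, Cf (gammaMeasure 1 r) F w0 c0 K p → Set (M192.Row (ℝ × ℝ))) :
    ∃ C0 : ℝ, Ev fun p => ∀ c : Cf (gammaMeasure 1 r) F w0 c0 K p, J684.Rec c (typ c) C0 := by
  have : IsProbabilityMeasure (gammaMeasure 1 r) := isProbabilityMeasure_gammaMeasure one_pos hr
  have h0 := gamma_Iio 1 r
  have h2 := integrable_sq h0 (half_pos hr) (gamma_exp one_pos hr)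
  exact ev_rec_of_big F w0 hc0 hK h0 (integrable_id_of_sq h2) h2 hμ
    ⟨2300, (FALL.big_fall_gamma hr hμ F hc0).mono fun p h c => (h c).2⟩ typ

/-- **the field `strat`, unconditional** -/
theorem ev_strat_gamma (hr : 0 < r) (hμ : IsTC (gammaMeasure 1 r) μ) (F : FlatData μ) (w0 : ℝ)
    {c0 K : ℝ} (hc0 : 0 < c0) (hK : 0 ≤ K)
    (typ : ∀ {p : NF.Num}, Cf (gammaMeasure 1 r) F w0 c0 K p → Set (M192.Row (ℝ × ℝ))) :
    ∃ C0 : ℝ, Ev fun p => ∀ c : Cf (gammaMeasure 1 r) F w0 c0 K p,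
      Nonempty (E191.Strategy (c.rowA (typ c)) (nuR (gammaMeasure 1 r)) c.mB C0 p.n p.δ p.e) := by
  have : IsProbabilityMeasure (gammaMeasure 1 r) := isProbabilityMeasure_gammaMeasure one_pos hr
  obtain ⟨C0, hC⟩ := ev_rec_gamma hr hμ F w0 hc0 hK typ
  have h0 := gamma_Iio 1 r
  have h2 := integrable_sq h0 (half_pos hr) (gamma_exp one_pos hr)
  exact ⟨C0, J684.strat_of_rec h0 h2 hμ hc0 hC⟩

end Crest.Agent.R151.E685
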