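import Crest.Agent.R151.M192a

/-!
# R151 / S0214 part 2, M192b — row space, row kernel: covariance and locality
(owner helper192)
-/

set_option autoImplicit false

open MeasureTheory Filter ProbabilityTheory Topology
open Crest.ProbabilityR.FirstPassage

namespace Crest.Agent.R151.M192

open Crest.Agent.R151.K
open R78 (V Wk IsHwy hc hp stepc hull routes IsOpen shp hullY IsStrip Frame)
open Q (pos Hwy Inv P0 UU UU2 phi)
open B710 (FlatData)

/-! ### Translations -/

lemma act_tr_apply (m x y : ℤ × ℤ) (t : Environment) :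
    act (tr m) t s(x, y) = t s(x + m, y + m) := by
  simp only [act, Sym2.map_mk, tr_apply]

lemma act_tr_neg (m : ℤ × ℤ) (t : Environment) : act (tr (-m)) (act (tr m) t) = t := by
  funext e
  induction e with
  | h x y => rw [act_tr_apply, act_tr_apply, neg_add_cancel_right, neg_add_cancel_right]

lemma hc_tr (m : ℤ × ℤ) (t : Environment) (L : ℤ → V) (k : ℤ) :
    hc (act (tr m) t) (fun k => L k - m) k = hc t L k := by
  have h : ∀ j, stepc (act (tr m) t) (fun k => L k - m) j = stepc t L j := by
    intro j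
    unfold stepc
    rw [act_tr_apply, sub_add_cancel, sub_add_cancel]
  rcases k with n | n
  · simp only [hc, h]
  · simp only [hc, h]

lemma routes_tr_subset (m : ℤ × ℤ) (t : Environment) (L U : ℤ → V) (A : Set V) (i j : ℤ) :
    routes t L U A i j ⊆
      routes (act (tr m) t) (fun k => L k - m) (fun k => U k - m) {v | v + m ∈ A} i j := by
  rintro _ ⟨z, w, hz, hw, g, hg, rfl⟩
  have e : ∀ v : V, (tr (-m)).toHom v = v - m := fun v => (sub_eq_add_neg v m).symm
  have hsup : ∀ l : List V, ∀ v, v ∈ l.map (tr (-m)).toHom → v + m ∈ l := by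
    intro l v hv
    obtain ⟨u, hu, rfl⟩ := List.mem_map.1 hv
    rw [e, sub_add_cancel]; exact hu
  refine ⟨z, w, hz, hw, (g.map (tr (-m)).toHom).copy (e _) (e _), ⟨?_, ?_, ?_⟩, ?_⟩
  · intro v hv
    rw [SimpleGraph.Walk.support_copy, SimpleGraph.Walk.support_map] at hv
    exact hg.sub _ (hsup _ v hv)
  · intro k hk
    rw [SimpleGraph.Walk.support_copy, SimpleGraph.Walk.support_map, ← List.map_tail] at hk
    have := hsup _ _ hk
    rw [sub_add_cancel] at this
    exact hg.fst k this
  · intro k hk
    rw [SimpleGraph.Walk.support_copy, SimpleGraph.Walk.support_map, ← List.map_dropLast] at hk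
    have := hsup _ _ hk
    rw [sub_add_cancel] at this
    exact hg.snd k this
  · have h1 : walkCost (act (tr m) t) ((g.map (tr (-m)).toHom).copy (e (L z)) (e (U w))) =
        walkCost t g := by
      have h2 : walkCost (act (tr m) t) ((g.map (tr (-m)).toHom).copy (e (L z)) (e (U w))) =
          walkCost (act (tr m) t) (g.map (tr (-m)).toHom) := by
        simp only [walkCost, SimpleGraph.Walk.edges_copy]
      rw [h2, walkCost_map]
      congr 1
      funext e
      induction e with
      | h x y =>
        have : Sym2.map (tr (-m)).toHom s(x, y) = s(x - m, y - m) := by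
          rw [Sym2.map_mk]
          simp only [e]
        rw [this, act_tr_apply, sub_add_cancel, sub_add_cancel]
    rw [h1, hc_tr, hc_tr]

lemma routes_tr (m : ℤ × ℤ) (t : Environment) (L U : ℤ → V) (A : Set V) (i j : ℤ) :
    routes (act (tr m) t) (fun k => L k - m) (fun k => U k - m) {v | v + m ∈ A} i j =
      routes t L U A i j := by
  apply Set.Subset.antisymm _ (routes_tr_subset m t L U A i j)
  refine (routes_tr_subset (-m) _ _ _ _ i j).trans (Eq.subset ?_)
  rw [act_tr_neg]
  congr 1
  · funext k; simp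
  · funext k; simp
  · ext v
    simp

lemma hull_tr (m : ℤ × ℤ) (t : Environment) (L U : ℤ → V) (A : Set V) (i j : ℤ) :
    hull (act (tr m) t) (fun k => L k - m) (fun k => U k - m) {v | v + m ∈ A} i j =
      hull t L U A i j := by
  unfold hull; rw [routes_tr]

/-! ### Locality -/

lemma hc_congr {t t' : Environment} {L : ℤ → V} (h : ∀ k, t s(L k, L (k + 1)) = t' s(L k, L (k + 1)))
    (k : ℤ) : hc t L k = hc t' L k := by
  rcases k with n | n
  · simp only [hc, stepc, h]
  · simp only [hc, stepc]
    congr 1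
    refine Finset.sum_congr rfl fun j _ => h _

lemma walkCost_congr {t t' : Environment} {A : Set V} (h : ∀ x ∈ A, ∀ y ∈ A, t s(x, y) = t' s(x, y))
    {x y : V} (g : Wk x y) (hg : ∀ v ∈ g.support, v ∈ A) : walkCost t g = walkCost t' g := by
  unfold walkCost
  congr 1
  refine List.map_congr_left fun e he => ?_
  induction e with
  | h a b =>
    exact h a (hg a (SimpleGraph.Walk.fst_mem_support_of_mem_edges _ he)) b
      (hg b (SimpleGraph.Walk.snd_mem_support_of_mem_edges _ he))

lemma routes_congr {t t' : Environment} {A : Set V} {L U : ℤ → V}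
    (h : ∀ x ∈ A, ∀ y ∈ A, t s(x, y) = t' s(x, y)) (hL : ∀ k, hc t L k = hc t' L k)
    (hU : ∀ k, hc t U k = hc t' U k) (i j : ℤ) : routes t L U A i j = routes t' L U A i j := by
  ext c
  constructor
  · rintro ⟨z, w, hz, hw, g, hg, rfl⟩
    exact ⟨z, w, hz, hw, g, hg, by rw [hL, hU, walkCost_congr h g hg.sub]⟩
  · rintro ⟨z, w, hz, hw, g, hg, rfl⟩
    exact ⟨z, w, hz, hw, g, hg, by rw [hL, hU, walkCost_congr h g hg.sub]⟩

/-! ### Frames of flat data and strips -/

variable {μ : ℝ × ℝ → ℝ}

/-- the frame of flat data -/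
noncomputable def frame (F : FlatData μ) : Frame where
  a₁ := F.b.2 / F.det
  a₂ := -(F.b.1 / F.det)
  b₁ := -(F.a.2 / F.det)
  b₂ := F.a.1 / F.det
  det := by
    have h := F.det_ne'
    have : F.b.2 / F.det * (F.a.1 / F.det) - -(F.b.1 / F.det) * -(F.a.2 / F.det) = 1 / F.det := by
      field_simp
      unfold FlatData.det
      ring
    rw [this]
    exact one_div_ne_zero h

lemma frame_al (F : FlatData μ) (v : V) : (frame F).al v = F.al (toR v) := by
  rw [F.al_apply]
  simp only [Frame.al, frame, Pl.lin, toR]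
  ring

lemma frame_be (F : FlatData μ) (v : V) : (frame F).be v = F.be (toR v) := by
  rw [F.be_apply]
  simp only [Frame.be, frame, Pl.lin, toR]
  ring

lemma al_pos (F : FlatData μ) (θ : ℝ × ℝ) (z : V) : F.al (pos θ z) = F.al (toR z) + F.al θ := by
  simp only [pos, map_add]

lemma be_pos (F : FlatData μ) (θ : ℝ × ℝ) (z : V) : F.be (pos θ z) = F.be (toR z) + F.be θ := by
  simp only [pos, map_add]

lemma al_pos_sub_b (F : FlatData μ) (θ : ℝ × ℝ) (y : ℝ) (z : V) :
    F.al (pos (θ - y • F.b) z) = F.al (pos θ z) := by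
  rw [al_pos, al_pos, map_sub, map_smul, F.al_b, smul_zero, sub_zero]

lemma be_pos_sub_b (F : FlatData μ) (θ : ℝ × ℝ) (y : ℝ) (z : V) :
    F.be (pos (θ - y • F.b) z) = F.be (pos θ z) - y := by
  rw [be_pos, be_pos, map_sub, map_smul, F.be_b, smul_eq_mul, mul_one]; ring

variable {F : FlatData μ} (h : Hwy F)

/-- the highway with offset `θ` is in a strip -/
lemma isStrip (u : ℝ) (θ : ℝ × ℝ) (t : Environment) :
    IsStrip (frame F) (-(h.wH / 2) - F.be θ) (h.wH / 2 - F.be θ) (h.H u θ t) where
  hwy := h.isHwy u θ t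
  bot := by
    have := h.bot u θ t
    have e : (fun k => (frame F).al (h.H u θ t k)) =
        fun k => F.al (pos θ (h.H u θ t k)) + (-F.al θ) := by
      funext k; rw [frame_al, al_pos]; ring
    rw [e]
    exact tendsto_atBot_add_const_right _ _ this
  top := by
    have := h.top u θ t
    have e : (fun k => (frame F).al (h.H u θ t k)) =
        fun k => F.al (pos θ (h.H u θ t k)) + (-F.al θ) := by
      funext k; rw [frame_al, al_pos]; ring
    rw [e]
    exact tendsto_atTop_add_const_right _ _ this
  lo := fun k => by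
    have := (abs_le.1 (h.strip u θ t k)).1
    rw [be_pos] at this
    rw [frame_be]; linarith
  hi := fun k => by
    have := (abs_le.1 (h.strip u θ t k)).2
    rw [be_pos] at this
    rw [frame_be]; linarith

/-! ### The row space -/

/-- row space: `((offset, environment), (phase of the lower, phase of the upper highway))` -/
abbrev RowS : Type := ((ℝ × ℝ) × Environment) × (ℝ × ℝ)

/-- law of the row space -/
noncomputable def PR (G : Measure ℝ) : Measure RowS := (P0 G).prod (UU.prod UU)

instance (G : Measure ℝ) [IsProbabilityMeasure G] : IsProbabilityMeasure (PR G) := by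
  unfold PR; infer_instance

/-- lower highway -/
def rowL (q : RowS) : ℤ → V := h.H q.2.1 q.1.1 q.1.2

/-- upper highway, at height `y` -/
noncomputable def rowU (y : ℝ) (q : RowS) : ℤ → V := h.H q.2.2 (q.1.1 - y • F.b) q.1.2

/-- index of the first vertex of the lower highway with `al ≥ s` -/
noncomputable def ixL (s : ℝ) (q : RowS) : ℤ := h.ix s q.2.1 q.1.1 q.1.2

/-- index of the first vertex of the upper highway with `al ≥ s` -/
noncomputable def ixU (y s : ℝ) (q : RowS) : ℤ := h.ix s q.2.2 (q.1.1 - y • F.b) q.1.2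

/-- `al`-interval of the plane with offset `θ` -/
def alI (F : FlatData μ) (s s' : ℝ) (θ : ℝ × ℝ) : Set V :=
  {z | s ≤ F.al (pos θ z) ∧ F.al (pos θ z) ≤ s'}

/-- the row kernel: `R#` from label `s` to label `s'`, crossings in the region `A θ`, gauge points
`x_{-L}`, `x_L`, gauge region = everything -/
noncomputable def rk (y L : ℝ) (A : ℝ × ℝ → Set V) (s s' : ℝ) (q : RowS) : ℝ :=
  shp q.1.2 (rowL h q) (rowU h y q) Set.univ (ixL h (-L) q) (ixU h y L q) (A q.1.1)
    (ixL h s q) (ixU h y s' q)

/-- the gauge constant `G` of the row: excess of the optimal route `x_{-L} → x_L` -/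
noncomputable def GY (y L : ℝ) (q : RowS) : ℝ :=
  hullY q.1.2 (phi F) (rowL h q) (rowU h y q) Set.univ (ixL h (-L) q) (ixU h y L q)

/-- the region read by a row -/
def rowReg (F : FlatData μ) (w y : ℝ) (θ : ℝ × ℝ) : Set V :=
  {z | -(w / 2) ≤ F.be (pos θ z) ∧ F.be (pos θ z) ≤ y + w / 2}

/-- covariant regions -/
def CovReg (A : ℝ × ℝ → Set V) : Prop := ∀ (m : ℤ × ℤ) (θ : ℝ × ℝ), A (θ + toR m) = {v | v + m ∈ A θ}

/-- measurable regions -/
def MeasReg (A : ℝ × ℝ → Set V) : Prop := ∀ v, MeasurableSet {θ | v ∈ A θ}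

lemma pos_add_toR (θ : ℝ × ℝ) (m : ℤ × ℤ) (z : V) : pos (θ + toR m) z = pos θ (z + m) := by
  unfold pos toR
  ext <;> simp <;> ring

lemma measurable_pos (z : V) : Measurable fun θ : ℝ × ℝ => pos θ z := by
  unfold pos
  exact measurable_const.add measurable_id

lemma covReg_univ : CovReg fun _ => Set.univ := fun _ _ => by ext; simp

lemma measReg_univ : MeasReg fun _ => Set.univ := fun v => by simp

lemma covReg_alI (s s' : ℝ) : CovReg (alI F s s') := by
  intro m θ
  ext v
  simp only [alI, Set.mem_ofPred_eq, pos_add_toR]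

lemma measReg_alI (s s' : ℝ) : MeasReg (alI F s s') := by
  intro v
  have h1 : Measurable fun θ : ℝ × ℝ => F.al (pos θ v) :=
    F.al.continuous.measurable.comp (measurable_pos v)
  exact (measurableSet_le measurable_const h1).inter (measurableSet_le h1 measurable_const)

lemma covReg_laneB (w : ℝ) : CovReg (Q.laneB F w) := by
  intro m θ
  ext v
  simp only [Q.laneB, Set.mem_ofPred_eq, pos_add_toR]

lemma measReg_laneB (w : ℝ) : MeasReg (Q.laneB F w) := by
  intro v
  have h1 : Measurable fun θ : ℝ × ℝ => |F.al (pos θ v)| :=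
    (F.al.continuous.measurable.comp (measurable_pos v)).abs
  exact measurableSet_le h1 measurable_const

lemma CovReg.inter {A B : ℝ × ℝ → Set V} (hA : CovReg A) (hB : CovReg B) :
    CovReg fun θ => A θ ∩ B θ := by
  intro m θ
  simp only [hA m θ, hB m θ]
  rfl

lemma MeasReg.inter {A B : ℝ × ℝ → Set V} (hA : MeasReg A) (hB : MeasReg B) :
    MeasReg fun θ => A θ ∩ B θ := fun v => (hA v).inter (hB v)

/-! ### Covariance of the row objects -/

/-- lattice translation of the row space -/
def shR (m : ℤ × ℤ) (q : RowS) : RowS := ((q.1.1 + toR m, act (tr m) q.1.2), q.2)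

/-- invariance of a function on the row space -/
def InvR {α : Type*} (f : RowS → α) : Prop := ∀ m q, f (shR m q) = f q

lemma rowL_shR (m : ℤ × ℤ) (q : RowS) : rowL h (shR m q) = fun k => rowL h q k - m := by
  funext k
  exact h.cov _ _ _ m k

lemma rowU_shR (y : ℝ) (m : ℤ × ℤ) (q : RowS) :
    rowU h y (shR m q) = fun k => rowU h y q k - m := by
  funext k
  unfold rowU shR
  simp only
  rw [add_sub_right_comm]
  exact h.cov _ _ _ m k

lemma ix_cov (s u : ℝ) (θ : ℝ × ℝ) (t : Environment) (m : ℤ × ℤ) :
    h.ix s u (θ + toR m) (act (tr m) t) = h.ix s u θ t := by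
  unfold Hwy.ix
  congr 1
  funext k
  rw [h.cov, pos_add_toR, sub_add_cancel]

lemma ixL_inv (s : ℝ) : InvR (ixL h s) := fun m q => ix_cov h s _ _ _ m

lemma ixU_inv (y s : ℝ) : InvR (ixU h y s) := fun m q => by
  unfold ixU shR
  simp only
  rw [add_sub_right_comm]
  exact ix_cov h s _ _ _ m

lemma hullR_inv {A : ℝ × ℝ → Set V} (hA : CovReg A) (y : ℝ) {i j : RowS → ℤ} (hi : InvR i)
    (hj : InvR j) :
    InvR fun q => hull q.1.2 (rowL h q) (rowU h y q) (A q.1.1) (i q) (j q) := by
  intro m q
  simp only
  rw [rowL_shR, rowU_shR, hi, hj]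
  have : A (shR m q).1.1 = {v | v + m ∈ A q.1.1} := hA m _
  rw [this]
  exact hull_tr m q.1.2 _ _ _ _ _

theorem rk_inv {A : ℝ × ℝ → Set V} (hA : CovReg A) (y L s s' : ℝ) :
    InvR (rk h y L A s s') := by
  intro m q
  unfold rk shp
  have h1 := hullR_inv h hA y (ixL_inv h s) (ixU_inv h y s') m q
  have h2 := hullR_inv h covReg_univ y (ixL_inv h (-L)) (ixU_inv h y L) m q
  simp only at h1 h2
  rw [h1, h2]

/-- the excess potential difference between two indices is invariant -/
lemma hp_tr (m : ℤ × ℤ) (t : Environment) (L : ℤ → V) (k : ℤ) :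
    hp (act (tr m) t) (phi F) (fun k => L k - m) k = hp t (phi F) L k + phi F m := by
  unfold hp
  rw [hc_tr]
  unfold phi
  have : toR (L k - m) = toR (L k) - toR m := by unfold toR; ext <;> simp
  rw [this, map_sub]; ring

theorem GY_inv (y L : ℝ) : InvR (GY h y L) := by
  intro m q
  unfold GY hullY
  have h2 := hullR_inv h covReg_univ y (ixL_inv h (-L)) (ixU_inv h y L) m q
  simp only at h2
  rw [h2, rowL_shR, rowU_shR, ixL_inv, ixU_inv]
  have e : (shR m q).1.2 = act (tr m) q.1.2 := rfl
  rw [e, hp_tr, hp_tr]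
  ring

/-! ### Measurability of the row objects -/

lemma measurable_firstGe {Ω : Type*} [MeasurableSpace Ω] {f : Ω → ℤ → ℝ}
    (hf : ∀ k, Measurable fun ω => f ω k) (s : ℝ) : Measurable fun ω => Q.firstGe (f ω) s := by
  -- `firstGe f s = sInf {k | s ≤ f k}`
  refine measurable_to_countable' fun n => ?_
  have key : (fun ω => Q.firstGe (f ω) s) ⁻¹' {n} =
      {ω | (s ≤ f ω n ∧ ∀ k, k < n → f ω k < s) ∨
        (n = 0 ∧ ¬ ∃ m, s ≤ f ω m ∧ ∀ k, k < m → f ω k < s)} := by
    ext ω
    simp only [Set.mem_preimage, Set.mem_singleton_iff, Set.mem_ofPred_eq]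
    unfold Q.firstGe
    by_cases hex : ∃ m, s ≤ f ω m ∧ ∀ k, k < m → f ω k < s
    · obtain ⟨m, hm, hm'⟩ := hex
      have hlb : m ∈ lowerBounds {k | s ≤ f ω k} := by
        intro k hk
        by_contra hlt
        push Not at hlt
        exact absurd (hm' k hlt) (not_lt.2 hk)
      have hs : sInf {k | s ≤ f ω k} = m :=
        le_antisymm (csInf_le ⟨m, hlb⟩ hm) (le_csInf ⟨m, hm⟩ hlb)
      rw [hs]
      constructor
      · rintro rfl; exact Or.inl ⟨hm, hm'⟩
      · rintro (⟨h1, h2⟩ | ⟨-, h2⟩)
        · rcases lt_trichotomy m n with h | h | h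
          · exact absurd (h2 m h) (not_lt.2 hm)
          · exact h
          · exact absurd (hm' n h) (not_lt.2 h1)
        · exact absurd ⟨m, hm, hm'⟩ h2
    · have hs : sInf {k | s ≤ f ω k} = 0 := by
        by_cases hne : {k | s ≤ f ω k}.Nonempty
        · by_cases hb : BddBelow {k | s ≤ f ω k}
          · exfalso
            have hmem := Int.csInf_mem hne hb
            exact hex ⟨_, hmem, fun k hk => by
              by_contra hc
              push Not at hc
              exact absurd (csInf_le hb (show k ∈ {k | s ≤ f ω k} from hc)) (not_le.2 hk)⟩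
          · exact Int.csInf_of_not_bddBelow hb
        · rw [Set.not_nonempty_iff_eq_empty] at hne
          rw [hne]; exact Int.csInf_empty
      rw [hs]
      constructor
      · rintro rfl; exact Or.inr ⟨rfl, hex⟩
      · rintro (⟨h1, h2⟩ | ⟨h1, -⟩)
        · exact absurd ⟨n, h1, h2⟩ hex
        · exact h1.symm
  rw [key]
  have m1 : ∀ n, MeasurableSet {ω | s ≤ f ω n ∧ ∀ k, k < n → f ω k < s} := by
    intro n
    refine (measurableSet_le measurable_const (hf n)).inter ?_
    have : {ω | ∀ k, k < n → f ω k < s} = ⋂ k, {ω | k < n → f ω k < s} := by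
      ext; simp
    have h2 : MeasurableSet {ω | ∀ k, k < n → f ω k < s} := by
      rw [this]
      refine MeasurableSet.iInter fun k => ?_
      by_cases hk : k < n
      · simpa [hk] using measurableSet_lt (hf k) measurable_const
      · simp [hk]
    exact h2
  have m2 : MeasurableSet {ω | ¬ ∃ m, s ≤ f ω m ∧ ∀ k, k < m → f ω k < s} := by
    have : {ω | ¬ ∃ m, s ≤ f ω m ∧ ∀ k, k < m → f ω k < s} =
        (⋃ m, {ω | s ≤ f ω m ∧ ∀ k, k < m → f ω k < s})ᶜ := by
      ext; simp
    rw [this]
    exact (MeasurableSet.iUnion fun m => m1 m).compl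
  exact (m1 n).union ((MeasurableSet.const _).inter m2)

/-- measurable highway data along measurable random parameters -/
lemma measurable_H {Ω : Type*} [MeasurableSpace Ω] {u : Ω → ℝ} {θ : Ω → ℝ × ℝ}
    {T : Ω → Environment} (hu : Measurable u) (hθ : Measurable θ) (hT : Measurable T) (k : ℤ) :
    Measurable fun ω => h.H (u ω) (θ ω) (T ω) k :=
  (h.meas k).comp (hu.prodMk (hθ.prodMk hT))

lemma measurable_ix {Ω : Type*} [MeasurableSpace Ω] {u : Ω → ℝ} {θ : Ω → ℝ × ℝ}
    {T : Ω → Environment} (hu : Measurable u) (hθ : Measurable θ) (hT : Measurable T) (s : ℝ) :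
    Measurable fun ω => h.ix s (u ω) (θ ω) (T ω) := by
  have h1 : Measurable fun q : (ℤ × ℤ) × (ℝ × ℝ) => F.al (pos q.2 q.1) :=
    measurable_from_prod_countable_right fun z =>
      F.al.continuous.measurable.comp (measurable_pos z)
  have h2 : ∀ k, Measurable fun ω => F.al (pos (θ ω) (h.H (u ω) (θ ω) (T ω) k)) := by
    intro k
    have h3 : Measurable fun ω => (h.H (u ω) (θ ω) (T ω) k, θ ω) :=
      (measurable_H h hu hθ hT k).prodMk hθ
    have h5 := h1.comp h3
    simp only [Function.comp_def] at h5
    exact h5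
  have h4 := measurable_firstGe (f := fun ω k => F.al (pos (θ ω) (h.H (u ω) (θ ω) (T ω) k))) h2 s
  exact h4

lemma measurable_rowL (k : ℤ) : Measurable fun q : RowS => rowL h q k :=
  measurable_H h (by fun_prop) (by fun_prop) (by fun_prop) k

lemma measurable_rowU (y : ℝ) (k : ℤ) : Measurable fun q : RowS => rowU h y q k :=
  measurable_H h (by fun_prop) (by fun_prop) (by fun_prop) k

lemma measurable_ixL (s : ℝ) : Measurable (ixL h s) :=
  measurable_ix h (by fun_prop) (by fun_prop) (by fun_prop) s

lemma measurable_ixU (y s : ℝ) : Measurable (ixU h y s) :=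
  measurable_ix h (by fun_prop) (by fun_prop) (by fun_prop) s

lemma measurable_hullR {A : ℝ × ℝ → Set V} (hA : MeasReg A) (y : ℝ) {i j : RowS → ℤ}
    (hi : Measurable i) (hj : Measurable j) :
    Measurable fun q : RowS => hull q.1.2 (rowL h q) (rowU h y q) (A q.1.1) (i q) (j q) :=
  measurable_hull (by fun_prop) (measurable_rowL h) (measurable_rowU h y)
    (fun v => (measurable_fst.comp measurable_fst) (hA v)) hi hj

theorem measurable_rk {A : ℝ × ℝ → Set V} (hA : MeasReg A) (y L s s' : ℝ) :
    Measurable (rk h y L A s s') :=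
  (measurable_hullR h hA y (measurable_ixL h s) (measurable_ixU h y s')).sub
    (measurable_hullR h measReg_univ y (measurable_ixL h (-L)) (measurable_ixU h y L))

lemma measurable_phi {Ω : Type*} [MeasurableSpace Ω] {x : Ω → V} (hx : Measurable x) :
    Measurable fun ω => phi F (x ω) :=
  (measurable_of_countable (phi F)).comp hx

theorem measurable_GY (y L : ℝ) : Measurable (GY h y L) := by
  unfold GY hullY hp
  refine Measurable.add (Measurable.sub
    (measurable_hullR h measReg_univ y (measurable_ixL h (-L)) (measurable_ixU h y L)) ?_) ?_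
  · exact (measurable_hc' (by fun_prop) (measurable_rowL h) (measurable_ixL h _)).sub
      (measurable_phi (measurable_at (measurable_rowL h) (measurable_ixL h _)))
  · exact (measurable_hc' (by fun_prop) (measurable_rowU h y) (measurable_ixU h y _)).sub
      (measurable_phi (measurable_at (measurable_rowU h y) (measurable_ixU h y _)))

end Crest.Agent.R151.M192
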