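import Mathlib
import Crest.Agent.R151.R78P

/-!
# R151/R78G — deterministic row layer, part G: lanes, fences and the window inequality (8.1)
(owner helper78)
-/

set_option autoImplicit false

open Crest.ProbabilityR.FirstPassage Filter

namespace Crest.Agent.R151.R78

open Crest.Agent.R151.K Crest.Agent.R151.Pl

variable {t : Environment}

/-! ### Straight escape walks -/

lemma exists_sign (x : ℝ) : ∃ τ : ℤ, (τ = 1 ∨ τ = -1) ∧ (τ : ℝ) * x = |x| := by
  rcases le_total 0 x with h | h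
  · exact ⟨1, Or.inl rfl, by rw [abs_of_nonneg h]; simp⟩
  · exact ⟨-1, Or.inr rfl, by rw [abs_of_nonpos h]; simp⟩

lemma adj_h {σ : ℤ} (hσ : σ = 1 ∨ σ = -1) (v : V) : squareLattice.Adj v (v.1 + σ, v.2) := by
  rcases hσ with rfl | rfl
  · exact adj_right v.1 v.2
  · have := (adj_right (v.1 + -1) v.2).symm
    simpa using this

lemma adj_v {σ : ℤ} (hσ : σ = 1 ∨ σ = -1) (v : V) : squareLattice.Adj v (v.1, v.2 + σ) := by
  rcases hσ with rfl | rfl
  · exact adj_up v.1 v.2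
  · have := (adj_up v.1 (v.2 + -1)).symm
    simpa using this

/-- greedy walk along the line `lin p q = const`, `n` steps -/
lemma exists_greedy {p q : ℝ} {σ₁ σ₂ : ℤ} (h₁ : σ₁ = 1 ∨ σ₁ = -1) (h₂ : σ₂ = 1 ∨ σ₂ = -1)
    (hs : ((σ₁ : ℝ) * p ≤ 0 ∧ 0 ≤ (σ₂ : ℝ) * q) ∨ (0 ≤ (σ₁ : ℝ) * p ∧ (σ₂ : ℝ) * q ≤ 0))
    (v : V) (n : ℕ) :
    ∃ (n₁ n₂ : ℕ) (y : V) (u : Wk v y), n₁ + n₂ = n ∧ y = (v.1 + σ₁ * n₁, v.2 + σ₂ * n₂) ∧
      ∀ x ∈ u.support, |lin p q x - lin p q v| ≤ |p| + |q| := by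
  have b₁ : |(σ₁ : ℝ) * p| = |p| := by rcases h₁ with rfl | rfl <;> simp
  have b₂ : |(σ₂ : ℝ) * q| = |q| := by rcases h₂ with rfl | rfl <;> simp
  have hp := abs_nonneg p
  have hq := abs_nonneg q
  induction n with
  | zero =>
    refine ⟨0, 0, v, SimpleGraph.Walk.nil, rfl, by simp, ?_⟩
    intro x hx
    simp only [SimpleGraph.Walk.support_nil, List.mem_singleton] at hx
    rw [hx]; simp only [sub_self, abs_zero]; positivity
  | succ n ih =>
    obtain ⟨n₁, n₂, y, u, hn, hy, hu⟩ := ih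
    have hyb := hu y u.end_mem_support
    rw [abs_le] at hyb
    have hx1 : lin p q (y.1 + σ₁, y.2) = lin p q y + (σ₁ : ℝ) * p := by
      simp only [lin]; push_cast; ring
    have hx2 : lin p q (y.1, y.2 + σ₂) = lin p q y + (σ₂ : ℝ) * q := by
      simp only [lin]; push_cast; ring
    have a1 := abs_le.1 b₁.le
    have a2 := abs_le.1 b₂.le
    have hc : |lin p q (y.1 + σ₁, y.2) - lin p q v| ≤ |p| + |q| ∨
        |lin p q (y.1, y.2 + σ₂) - lin p q v| ≤ |p| + |q| := by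
      rw [hx1, hx2]
      rcases hs with ⟨k1, k2⟩ | ⟨k1, k2⟩ <;> rcases le_total 0 (lin p q y - lin p q v) with h | h
      · left; rw [abs_le]; constructor <;> linarith
      · right; rw [abs_le]; constructor <;> linarith
      · right; rw [abs_le]; constructor <;> linarith
      · left; rw [abs_le]; constructor <;> linarith
    rcases hc with hc | hc
    · refine ⟨n₁ + 1, n₂, (y.1 + σ₁, y.2),
        u.append (SimpleGraph.Walk.cons (adj_h h₁ y) SimpleGraph.Walk.nil), by omega, ?_, ?_⟩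
      · rw [hy]; ext <;> (simp; try ring)
      · intro x hx
        rw [mem_support_append] at hx
        rcases hx with hx | hx
        · exact hu x hx
        · simp only [SimpleGraph.Walk.support_cons, SimpleGraph.Walk.support_nil, List.mem_cons,
            List.not_mem_nil, or_false] at hx
          rcases hx with rfl | rfl
          · exact hu _ u.end_mem_support
          · exact hc
    · refine ⟨n₁, n₂ + 1, (y.1, y.2 + σ₂),
        u.append (SimpleGraph.Walk.cons (adj_v h₂ y) SimpleGraph.Walk.nil), by omega, ?_, ?_⟩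
      · rw [hy]; ext <;> (simp; try ring)
      · intro x hx
        rw [mem_support_append] at hx
        rcases hx with hx | hx
        · exact hu x hx
        · simp only [SimpleGraph.Walk.support_cons, SimpleGraph.Walk.support_nil, List.mem_cons,
            List.not_mem_nil, or_false] at hx
          rcases hx with rfl | rfl
          · exact hu _ u.end_mem_support
          · exact hc

/-- **straight escape walks** in the `be` direction, staying in a lane of bounded width -/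
theorem Frame.exists_escape (F : Frame) : ∃ C : ℝ, 0 ≤ C ∧ ∀ (v : V) (K : ℝ),
    ∃ (y : V) (u : Wk v y), K < F.be y ∧ ∀ x ∈ u.support, |F.al x - F.al v| ≤ C := by
  obtain ⟨τp, hτp, ep⟩ := exists_sign F.a₁
  obtain ⟨τq, hτq, eq⟩ := exists_sign F.a₂
  obtain ⟨s, hs, es⟩ := exists_sign (F.a₁ * F.b₂ - F.a₂ * F.b₁)
  have hσ₁ : -τq * s = 1 ∨ -τq * s = -1 := by
    rcases hτq with rfl | rfl <;> rcases hs with rfl | rfl <;> simp
  have hσ₂ : τp * s = 1 ∨ τp * s = -1 := by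
    rcases hτp with rfl | rfl <;> rcases hs with rfl | rfl <;> simp
  have hp := abs_nonneg F.a₁
  have hq := abs_nonneg F.a₂
  have hsign : ((((-τq * s : ℤ) : ℝ)) * F.a₁ ≤ 0 ∧ 0 ≤ (((τp * s : ℤ) : ℝ)) * F.a₂) ∨
      (0 ≤ (((-τq * s : ℤ) : ℝ)) * F.a₁ ∧ (((τp * s : ℤ) : ℝ)) * F.a₂ ≤ 0) := by
    have e1 : F.a₁ = τp * |F.a₁| := by
      rw [← ep, ← mul_assoc]
      rcases hτp with rfl | rfl <;> simp
    have e2 : F.a₂ = τq * |F.a₂| := by
      rw [← eq, ← mul_assoc]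
      rcases hτq with rfl | rfl <;> simp
    rw [e1, e2]
    rcases hτp with rfl | rfl <;> rcases hτq with rfl | rfl <;> rcases hs with rfl | rfl <;> simp
  refine ⟨|F.a₁| + |F.a₂|, by positivity, fun v K => ?_⟩
  have hdet : 0 < |F.a₁ * F.b₂ - F.a₂ * F.b₁| := abs_pos.2 F.det
  have hpq : 0 < |F.a₁| + |F.a₂| := by
    rcases eq_or_ne F.a₁ 0 with h | h
    · rcases eq_or_ne F.a₂ 0 with h' | h'
      · exact absurd (by rw [h, h']; ring) F.det
      · have := abs_pos.2 h'; linarith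
    · have := abs_pos.2 h; linarith
  -- number of steps
  set M := |F.a₁| + |F.a₂| with hM
  obtain ⟨n, hn⟩ := exists_nat_gt (((K - F.be v) * M + (|F.b₁| + |F.b₂|) * M) /
    |F.a₁ * F.b₂ - F.a₂ * F.b₁|)
  obtain ⟨n₁, n₂, y, u, hnn, hy, hu⟩ := exists_greedy hσ₁ hσ₂ hsign v n
  refine ⟨y, u, ?_, fun x hx => hu x hx⟩
  have hly := hu y u.end_mem_support
  rw [div_lt_iff₀ hdet] at hn
  have e1 : F.al y - F.al v = ((-τq * s : ℤ) : ℝ) * n₁ * F.a₁ + ((τp * s : ℤ) : ℝ) * n₂ * F.a₂ := by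
    rw [hy]; simp only [Frame.al, lin]; push_cast; ring
  have e2 : F.be y - F.be v = ((-τq * s : ℤ) : ℝ) * n₁ * F.b₁ + ((τp * s : ℤ) : ℝ) * n₂ * F.b₂ := by
    rw [hy]; simp only [Frame.be, lin]; push_cast; ring
  have hτp2 : (τp : ℝ) * τp = 1 := by rcases hτp with rfl | rfl <;> simp
  have hτq2 : (τq : ℝ) * τq = 1 := by rcases hτq with rfl | rfl <;> simp
  have hs2 : (s : ℝ) * s = 1 := by rcases hs with rfl | rfl <;> simp
  have hnr : (n : ℝ) = n₁ + n₂ := by rw [← hnn]; push_cast; ring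
  have key : (F.be y - F.be v) * M = n * |F.a₁ * F.b₂ - F.a₂ * F.b₁| +
      ((τq : ℝ) * F.b₂ + τp * F.b₁) * (F.al y - F.al v) := by
    rw [e1, e2, hM, ← ep, ← eq, ← es, hnr]
    push_cast
    linear_combination (s * (F.a₁ * F.b₂ - F.a₂ * F.b₁) * n₁) * hτq2 +
      (s * (F.a₁ * F.b₂ - F.a₂ * F.b₁) * n₂) * hτp2
  have hb1 : |(τq : ℝ) * F.b₂ + τp * F.b₁| ≤ |F.b₁| + |F.b₂| := by
    refine (abs_add_le _ _).trans ?_
    have h1 : |(τq : ℝ) * F.b₂| = |F.b₂| := by rcases hτq with rfl | rfl <;> simp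
    have h2 : |(τp : ℝ) * F.b₁| = |F.b₁| := by rcases hτp with rfl | rfl <;> simp
    rw [h1, h2]; linarith
  have hb2 : |((τq : ℝ) * F.b₂ + τp * F.b₁) * (F.al y - F.al v)| ≤ (|F.b₁| + |F.b₂|) * M := by
    rw [abs_mul]
    exact mul_le_mul hb1 hly (abs_nonneg _) (by positivity)
  rw [abs_le] at hb2
  have : (K - F.be v) * M < (F.be y - F.be v) * M := by rw [key]; linarith [hb2.1]
  have := lt_of_mul_lt_mul_right this hpq.le
  linarith

/-- the boxes of a frame are finite -/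
theorem Frame.finite_box (F : Frame) (s t lo hi : ℝ) :
    {v : V | s ≤ F.al v ∧ F.al v ≤ t ∧ lo ≤ F.be v ∧ F.be v ≤ hi}.Finite := by
  have hdet : F.a₁ * F.b₂ - F.a₂ * F.b₁ ≠ 0 := F.det
  have hdet' : 0 < |F.a₁ * F.b₂ - F.a₂ * F.b₁| := abs_pos.2 hdet
  set D := F.a₁ * F.b₂ - F.a₂ * F.b₁ with hD
  set A := |s| + |t| with hA
  set B := |lo| + |hi| with hB
  set R := ((|F.b₂| + |F.b₁|) * A + (|F.a₂| + |F.a₁|) * B) / |D| with hR
  have hbox : {v : V | s ≤ F.al v ∧ F.al v ≤ t ∧ lo ≤ F.be v ∧ F.be v ≤ hi} ⊆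
      (Set.Icc (-⌈R⌉) ⌈R⌉) ×ˢ (Set.Icc (-⌈R⌉) ⌈R⌉) := by
    rintro v ⟨h1, h2, h3, h4⟩
    have hal : |F.al v| ≤ A := by
      rw [abs_le]
      have a1 := neg_abs_le s
      have a2 := le_abs_self t
      have a3 := abs_nonneg s
      have a4 := abs_nonneg t
      constructor <;> linarith
    have hbe : |F.be v| ≤ B := by
      rw [abs_le]
      have a1 := neg_abs_le lo
      have a2 := le_abs_self hi
      have a3 := abs_nonneg lo
      have a4 := abs_nonneg hi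
      constructor <;> linarith
    have hAnn : 0 ≤ A := by positivity
    have hBnn : 0 ≤ B := by positivity
    have e1 : D * (v.1 : ℝ) = F.b₂ * F.al v - F.a₂ * F.be v := by
      simp only [hD, Frame.al, Frame.be, lin]; ring
    have e2 : D * (v.2 : ℝ) = F.a₁ * F.be v - F.b₁ * F.al v := by
      simp only [hD, Frame.al, Frame.be, lin]; ring
    have k1 : |D * (v.1 : ℝ)| ≤ (|F.b₂| + |F.b₁|) * A + (|F.a₂| + |F.a₁|) * B := by
      rw [e1]
      refine (abs_sub _ _).trans ?_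
      rw [abs_mul, abs_mul]
      have m1 := mul_le_mul_of_nonneg_left hal (abs_nonneg F.b₂)
      have m2 := mul_le_mul_of_nonneg_left hbe (abs_nonneg F.a₂)
      have m3 := mul_nonneg (abs_nonneg F.b₁) hAnn
      have m4 := mul_nonneg (abs_nonneg F.a₁) hBnn
      linarith
    have k2 : |D * (v.2 : ℝ)| ≤ (|F.b₂| + |F.b₁|) * A + (|F.a₂| + |F.a₁|) * B := by
      rw [e2]
      refine (abs_sub _ _).trans ?_
      rw [abs_mul, abs_mul]
      have m1 := mul_le_mul_of_nonneg_left hal (abs_nonneg F.b₁)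
      have m2 := mul_le_mul_of_nonneg_left hbe (abs_nonneg F.a₁)
      have m3 := mul_nonneg (abs_nonneg F.b₂) hAnn
      have m4 := mul_nonneg (abs_nonneg F.a₂) hBnn
      linarith
    rw [abs_mul] at k1 k2
    have r1 : |(v.1 : ℝ)| ≤ R := by rw [hR, le_div_iff₀ hdet']; linarith
    have r2 : |(v.2 : ℝ)| ≤ R := by rw [hR, le_div_iff₀ hdet']; linarith
    have hc : R ≤ ((⌈R⌉ : ℤ) : ℝ) := Int.le_ceil R
    rw [abs_le] at r1 r2
    simp only [Set.mem_prod, Set.mem_Icc]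
    have c1 : ((-⌈R⌉ : ℤ) : ℝ) ≤ (v.1 : ℝ) := by push_cast; linarith [r1.1]
    have c2 : (v.1 : ℝ) ≤ ((⌈R⌉ : ℤ) : ℝ) := by linarith [r1.2]
    have c3 : ((-⌈R⌉ : ℤ) : ℝ) ≤ (v.2 : ℝ) := by push_cast; linarith [r2.1]
    have c4 : (v.2 : ℝ) ≤ ((⌈R⌉ : ℤ) : ℝ) := by linarith [r2.2]
    exact ⟨⟨Int.cast_le.1 c1, Int.cast_le.1 c2⟩, Int.cast_le.1 c3, Int.cast_le.1 c4⟩
  exact ((Set.finite_Icc _ _).prod (Set.finite_Icc _ _)).subset hbox

end Crest.Agent.R151.R78
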