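import Mathlib
import Crest.Agent.R151.R78G

/-!
# R151/R78H — deterministic row layer, part H: fences, lanes and the window inequality (8.1)
(owner helper78)
-/

set_option autoImplicit false

open Crest.ProbabilityR.FirstPassage Filter

namespace Crest.Agent.R151.R78

open Crest.Agent.R151.K Crest.Agent.R151.Pl

variable {t : Environment} {H H' : ℤ → V}

/-! ### Planarity: nothing escapes behind a fence -/

/-- two crossings `a → b` and `z → w` with exchanged end points -/
def Opp (a b z w : ℤ) : Prop := (a < z ∧ w < b) ∨ (z < a ∧ b < w)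

lemma Crosses.meet (hC : Crosses H H') {z w a b : ℤ} {f : Wk (H z) (H' w)} {c : Wk (H a) (H' b)}
    (hf : IsOpen H H' Set.univ f) (hc : IsOpen H H' Set.univ c) (ho : Opp a b z w) :
    ∃ v, v ∈ f.support ∧ v ∈ c.support := by
  rcases ho with ⟨h1, h2⟩ | ⟨h1, h2⟩
  · obtain ⟨v, hv, hv'⟩ := hC h1 h2 c f hc hf
    exact ⟨v, hv', hv⟩
  · exact hC h1 h2 f c hf hc

/-- `f`, `e` disjoint open crossings, `d` a walk from `v` to a vertex of `e` avoiding the two
highways and `f`, `u` a walk from `v` to above `H'` avoiding `f` and meeting the highways only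
on the wrong side of `f`: impossible. -/
theorem no_escape (hC : Crosses H H') (hdisj : ∀ k l, H k ≠ H' l)
    {z w z' w' : ℤ} {f : Wk (H z) (H' w)} (hf : IsOpen H H' Set.univ f)
    {e : Wk (H z') (H' w')} (he : IsOpen H H' Set.univ e)
    (hfe : ∀ x ∈ f.support, x ∉ e.support) {v p : V} (hp : p ∈ e.support) (d : Wk v p)
    (hdH : ∀ k, H k ∉ d.support) (hdH' : ∀ k, H' k ∉ d.support)
    (hdf : ∀ x ∈ d.support, x ∉ f.support) {y : V} (u : Wk v y)
    (huf : ∀ x ∈ u.support, x ∉ f.support) (hsep : Sep (Set.range H) (Set.range H') {y})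
    (hk : ∀ k, H k ∈ u.support → Opp k w' z w) (hk' : ∀ k, H' k ∈ u.support → Opp z' k z w) :
    False := by
  obtain ⟨e₁, e₂, rfl⟩ := exists_split e hp
  have he₁H' : ∀ k, H' k ∉ e₁.support := by
    intro k hk
    rw [mem_support_iff_dropLast] at hk
    rcases hk with hk | hk
    · exact he.snd k (by rw [mem_dropLast_append]; exact Or.inl hk)
    · exact hdH' k (by rw [hk]; exact d.end_mem_support)
  have he₂H : ∀ k, H k ∉ e₂.support := by
    intro k hk
    rw [mem_support_iff_tail] at hk
    rcases hk with hk | hk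
    · exact hdH k (by rw [hk]; exact d.end_mem_support)
    · exact he.fst k (by rw [mem_tail_append]; exact Or.inr hk)
  -- `u` meets `H'`
  have hu : ∃ x ∈ u.support, x ∈ Set.range H ∪ Set.range H' := by
    obtain ⟨x, hx, hxS⟩ := hsep _ ⟨z', rfl⟩ y rfl ((e₁.append d.reverse).append u)
    obtain ⟨k, rfl⟩ := hxS
    rw [mem_support_append, mem_support_append] at hx
    rcases hx with (hx | hx) | hx
    · exact absurd hx (he₁H' k)
    · exact absurd (by simpa using hx) (hdH' k)
    · exact ⟨_, hx, Or.inr ⟨k, rfl⟩⟩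
  obtain ⟨x, u₁, u₂, rfl, hx, hu₁⟩ := exists_first u _ hu
  have hxu : x ∈ (u₁.append u₂).support := by
    rw [mem_support_append]; exact Or.inl u₁.end_mem_support
  have hu₁H : ∀ k, H k ∉ u₁.support.dropLast := fun k hk => hu₁ _ hk (Or.inl ⟨k, rfl⟩)
  have hu₁H' : ∀ k, H' k ∉ u₁.support.dropLast := fun k hk => hu₁ _ hk (Or.inr ⟨k, rfl⟩)
  have hu₁f : ∀ x ∈ u₁.support, x ∉ f.support := fun x hx =>
    huf x (by rw [mem_support_append]; exact Or.inl hx)
  have hef : ∀ x, x ∈ e₁.support ∨ x ∈ e₂.support → x ∉ f.support := by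
    intro x hx hxf
    exact hfe x hxf (by rw [mem_support_append]; exact hx)
  rcases hx with ⟨k, rfl⟩ | ⟨k, rfl⟩
  · -- first hit on `H`
    have hopen : IsOpen H H' Set.univ ((u₁.reverse.append d).append e₂) := by
      refine ⟨fun _ _ => trivial, fun m hm => ?_, fun m hm => ?_⟩
      · rw [mem_tail_append, mem_tail_append] at hm
        rcases hm with (hm | hm) | hm
        · rw [SimpleGraph.Walk.support_reverse, List.tail_reverse, List.mem_reverse] at hm
          exact hu₁H m hm
        · exact hdH m (List.mem_of_mem_tail hm)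
        · exact he₂H m (List.mem_of_mem_tail hm)
      · rw [mem_dropLast_append, mem_dropLast_append] at hm
        rcases hm with (hm | hm) | hm
        · have hm' : H' m ∈ u₁.support := by
            have := List.mem_of_mem_dropLast hm
            simpa using this
          rw [mem_support_iff_dropLast] at hm'
          rcases hm' with hm' | hm'
          · exact hu₁H' m hm'
          · exact hdisj k m hm'.symm
        · exact hdH' m (List.mem_of_mem_dropLast hm)
        · exact he.snd m (by rw [mem_dropLast_append]; exact Or.inr hm)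
    obtain ⟨x, hxf, hx⟩ := hC.meet hf hopen (hk k hxu)
    rw [mem_support_append, mem_support_append] at hx
    rcases hx with (hx | hx) | hx
    · exact hu₁f x (by simpa using hx) hxf
    · exact hdf x hx hxf
    · exact hef x (Or.inr hx) hxf
  · -- first hit on `H'`
    have hopen : IsOpen H H' Set.univ ((e₁.append d.reverse).append u₁) := by
      refine ⟨fun _ _ => trivial, fun m hm => ?_, fun m hm => ?_⟩
      · rw [mem_tail_append, mem_tail_append] at hm
        rcases hm with (hm | hm) | hm
        · exact he.fst m (by rw [mem_tail_append]; exact Or.inl hm)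
        · exact hdH m (by simpa using List.mem_of_mem_tail hm)
        · have hm' : H m ∈ u₁.support := List.mem_of_mem_tail hm
          rw [mem_support_iff_dropLast] at hm'
          rcases hm' with hm' | hm'
          · exact hu₁H m hm'
          · exact hdisj m k hm'
      · rw [mem_dropLast_append, mem_dropLast_append] at hm
        rcases hm with (hm | hm) | hm
        · exact he₁H' m (List.mem_of_mem_dropLast hm)
        · exact hdH' m (by simpa using List.mem_of_mem_dropLast hm)
        · exact hu₁H' m hm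
    obtain ⟨x, hxf, hx⟩ := hC.meet hf hopen (hk' k hxu)
    rw [mem_support_append, mem_support_append] at hx
    rcases hx with (hx | hx) | hx
    · exact hef x (Or.inl hx) hxf
    · exact hdf x (by simpa using hx) hxf
    · exact hu₁f x hx hxf

/-- limited backtracking of a highway -/
def Back (F : Frame) (κ : ℝ) (H : ℤ → V) : Prop := ∀ k l, k ≤ l → F.al (H k) ≤ F.al (H l) + κ

section stay

variable {F : Frame} {lo hi lo' hi' κ : ℝ}

/-- nothing escapes to the right of a fence -/
theorem stay_right (h : IsStrip F lo hi H) (h' : IsStrip F lo' hi' H') (hlt : hi < lo')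
    (hb : Back F κ H) (hb' : Back F κ H') {C : ℝ}
    (hC : ∀ (v : V) (K : ℝ), ∃ (y : V) (u : Wk v y), K < F.be y ∧
      ∀ x ∈ u.support, |F.al x - F.al v| ≤ C)
    {z w z' w' : ℤ} {f : Wk (H z) (H' w)} (hf : IsOpen H H' Set.univ f)
    {e : Wk (H z') (H' w')} (he : IsOpen H H' Set.univ e)
    (hfe : ∀ x ∈ f.support, x ∉ e.support) (hz : z' < z) (hw : w' < w)
    {T : ℝ} (hT : ∀ x ∈ f.support, F.al x ≤ T) {v p : V} (hp : p ∈ e.support) (d : Wk v p)
    (hdH : ∀ k, H k ∉ d.support) (hdH' : ∀ k, H' k ∉ d.support)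
    (hdf : ∀ x ∈ d.support, x ∉ f.support) : F.al v ≤ T + κ + C := by
  by_contra hv
  push Not at hv
  obtain ⟨y, u, hy, hu⟩ := hC v hi'
  have hu' : ∀ x ∈ u.support, T + κ < F.al x := by
    intro x hx
    have := (abs_le.1 (hu x hx)).1
    linarith
  have hκ : 0 ≤ κ := by have := hb 0 0 le_rfl; linarith
  refine no_escape (h.crosses h' hlt) (fun k l => h.disj h' hlt k l) hf he hfe hp d hdH hdH' hdf u
    (fun x hx hxf => ?_) ?_ (fun k hk => ?_) (fun k hk => ?_)
  · have := hu' x hx
    have := hT x hxf
    linarith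
  · exact h'.sep.mono (by rintro _ ⟨k, rfl⟩; exact lt_of_le_of_lt (h.hi k) hlt) subset_rfl
      (by rintro _ rfl; exact hy)
  · right
    refine ⟨?_, hw⟩
    by_contra hc
    push Not at hc
    have h1 := hb k z hc
    have h2 := hT _ f.start_mem_support
    have h3 := hu' _ hk
    linarith
  · left
    refine ⟨hz, ?_⟩
    by_contra hc
    push Not at hc
    have h1 := hb' k w hc
    have h2 := hT _ f.end_mem_support
    have h3 := hu' _ hk
    linarith

/-- nothing escapes to the left of a fence -/
theorem stay_left (h : IsStrip F lo hi H) (h' : IsStrip F lo' hi' H') (hlt : hi < lo')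
    (hb : Back F κ H) (hb' : Back F κ H') {C : ℝ}
    (hC : ∀ (v : V) (K : ℝ), ∃ (y : V) (u : Wk v y), K < F.be y ∧
      ∀ x ∈ u.support, |F.al x - F.al v| ≤ C)
    {z w z' w' : ℤ} {f : Wk (H z) (H' w)} (hf : IsOpen H H' Set.univ f)
    {e : Wk (H z') (H' w')} (he : IsOpen H H' Set.univ e)
    (hfe : ∀ x ∈ f.support, x ∉ e.support) (hz : z < z') (hw : w < w')
    {T : ℝ} (hT : ∀ x ∈ f.support, T ≤ F.al x) {v p : V} (hp : p ∈ e.support) (d : Wk v p)
    (hdH : ∀ k, H k ∉ d.support) (hdH' : ∀ k, H' k ∉ d.support)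
    (hdf : ∀ x ∈ d.support, x ∉ f.support) : T - κ - C ≤ F.al v := by
  by_contra hv
  push Not at hv
  obtain ⟨y, u, hy, hu⟩ := hC v hi'
  have hu' : ∀ x ∈ u.support, F.al x < T - κ := by
    intro x hx
    have := (abs_le.1 (hu x hx)).2
    linarith
  have hκ : 0 ≤ κ := by have := hb 0 0 le_rfl; linarith
  refine no_escape (h.crosses h' hlt) (fun k l => h.disj h' hlt k l) hf he hfe hp d hdH hdH' hdf u
    (fun x hx hxf => ?_) ?_ (fun k hk => ?_) (fun k hk => ?_)
  · have := hu' x hx
    have := hT x hxf
    linarith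
  · exact h'.sep.mono (by rintro _ ⟨k, rfl⟩; exact lt_of_le_of_lt (h.hi k) hlt) subset_rfl
      (by rintro _ rfl; exact hy)
  · left
    refine ⟨?_, hw⟩
    by_contra hc
    push Not at hc
    have h1 := hb z k hc
    have h2 := hT _ f.start_mem_support
    have h3 := hu' _ hk
    linarith
  · right
    refine ⟨hz, ?_⟩
    by_contra hc
    push Not at hc
    have h1 := hb' w k hc
    have h2 := hT _ f.end_mem_support
    have h3 := hu' _ hk
    linarith

end stay

end Crest.Agent.R151.R78
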