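import Mathlib
import Crest.Agent.R151.R78H

/-!
# R151/R78I — deterministic row layer, part I: the window inequality (8.1) for real fences
(owner helper78)
-/

set_option autoImplicit false

open Crest.ProbabilityR.FirstPassage Filter

namespace Crest.Agent.R151.R78

open Crest.Agent.R151.K Crest.Agent.R151.Pl

variable {t : Environment} {H H' : ℤ → V}

/-- value of a crossing -/
noncomputable def val (t : Environment) (H H' : ℤ → V) {z w : ℤ} (g : Wk (H z) (H' w)) : ℝ :=
  hc t H z + walkCost t g - hc t H' w

/-- fences `0, …, m` from left to right: open crossings `f l : H (z l) → H' (w l)` in the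
`al`-intervals `[s l, r l]` -/
structure IsFences (F : Frame) (κ : ℝ) (H H' : ℤ → V) (m : ℕ) (s r : ℕ → ℝ) (z w : ℕ → ℤ)
    (f : (l : ℕ) → Wk (H (z l)) (H' (w l))) : Prop where
  isOpen : ∀ l ≤ m, IsOpen H H' {v | s l ≤ F.al v ∧ F.al v ≤ r l} (f l)
  lt : ∀ l < m, r l + κ < s (l + 1)

namespace IsFences

variable {F : Frame} {κ : ℝ} {m : ℕ} {s r : ℕ → ℝ} {z w : ℕ → ℤ}
  {f : (l : ℕ) → Wk (H (z l)) (H' (w l))}

lemma z_lt (hf : IsFences F κ H H' m s r z w f) (hb : Back F κ H) {l : ℕ} (hl : l < m) :
    z l < z (l + 1) := by
  by_contra hc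
  push Not at hc
  have h1 := hb _ _ hc
  have h2 := ((hf.isOpen l hl.le).sub _ (f l).start_mem_support).2
  have h3 := ((hf.isOpen (l + 1) hl).sub _ (f (l + 1)).start_mem_support).1
  have := hf.lt l hl
  linarith

lemma w_lt (hf : IsFences F κ H H' m s r z w f) (hb : Back F κ H') {l : ℕ} (hl : l < m) :
    w l < w (l + 1) := by
  by_contra hc
  push Not at hc
  have h1 := hb _ _ hc
  have h2 := ((hf.isOpen l hl.le).sub _ (f l).end_mem_support).2
  have h3 := ((hf.isOpen (l + 1) hl).sub _ (f (l + 1)).end_mem_support).1
  have := hf.lt l hl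
  linarith

lemma w_le (hf : IsFences F κ H H' m s r z w f) (hb : Back F κ H') : ∀ {l : ℕ}, l ≤ m →
    w 0 ≤ w l := by
  intro l
  induction l with
  | zero => intro _; exact le_rfl
  | succ l ih => intro hl; exact (ih (by omega)).trans (hf.w_lt hb (by omega)).le

lemma disj (hf : IsFences F κ H H' m s r z w f) (hκ : 0 ≤ κ) {l : ℕ} (hl : l < m) :
    ∀ x ∈ (f l).support, x ∉ (f (l + 1)).support := by
  intro x hx hx'
  have h2 := ((hf.isOpen l hl.le).sub _ hx).2
  have h3 := ((hf.isOpen (l + 1) hl).sub _ hx').1
  have := hf.lt l hl
  linarith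

end IsFences

section window

variable {F : Frame} {lo hi lo' hi' κ C : ℝ} {m : ℕ} {s r : ℕ → ℝ} {z w : ℕ → ℤ}
  {f : (l : ℕ) → Wk (H (z l)) (H' (w l))} {A B : Set V} {Ln : ℕ → Set V} {a b : ℤ}
  {i j : ℕ → ℤ}

/-- induction step data of the window inequality: a walk `k` from a point `p` of fence `n` to
`H' y`, `y < w 0`. -/
theorem window_aux (h : IsStrip F lo hi H) (h' : IsStrip F lo' hi' H') (hlt : hi < lo')
    (hbk : Back F κ H) (hbk' : Back F κ H')
    (hC : ∀ (v : V) (K : ℝ), ∃ (y : V) (u : Wk v y), K < F.be y ∧
      ∀ x ∈ u.support, |F.al x - F.al v| ≤ C) (hC0 : 0 ≤ C)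
    (hf : IsFences F κ H H' m s r z w f)
    (hfB : ∀ l ≤ m, ∀ x ∈ (f l).support, x ∈ B) (hAB : A ⊆ B)
    (hLn : ∀ l < m, ∀ x ∈ B, s l - κ - C ≤ F.al x → F.al x ≤ r (l + 1) + κ + C → x ∈ Ln l)
    (hbd : BddBelow (routes t H H' B a b))
    (hbdl : ∀ l < m, BddBelow (routes t H H' (Ln l) (i (l + 1)) (j l)))
    (haz : ∀ l ≤ m, a ≤ z l) (hwb : ∀ l ≤ m, w l ≤ b)
    (hi : ∀ l ≤ m, i l ≤ z l) (hj : ∀ l ≤ m, w l ≤ j l) {y : ℤ} (hy : y < w 0) (hyb : y ≤ b)
    (n : ℕ) (hn : n ≤ m) : ∀ (p : V) (f₁ : Wk (H (z n)) p) (f₂ : Wk p (H' (w n)))
      (_ : f n = f₁.append f₂) (k : Wk p (H' y)) (_ : ∀ x ∈ k.support, x ∈ A)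
      (_ : ∀ q, H q ∉ k.support) (_ : ∀ q, H' q ∉ k.support.dropLast),
      hull t H H' B a b + ∑ l ∈ Finset.range n, (hull t H H' (Ln l) (i (l + 1)) (j l) -
        val t H H' (f l) - (val t H H' (f (l + 1)) - hull t H H' B a b)) ≤
      hc t H (z n) + walkCost t f₁ + walkCost t k - hc t H' y := by
  have hκ : 0 ≤ κ := by have := hbk 0 0 le_rfl; linarith
  induction n with
  | zero =>
    intro p f₁ f₂ e k hkA hkH hkH'
    have hopen : IsOpen H H' B (f₁.append k) := by
      have hf0 := hf.isOpen 0 hn
      rw [e] at hf0
      refine ⟨fun x hx => ?_, fun q hq => ?_, fun q hq => ?_⟩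
      · rw [mem_support_append] at hx
        rcases hx with hx | hx
        · exact hfB 0 hn x (by rw [e, mem_support_append]; exact Or.inl hx)
        · exact hAB (hkA x hx)
      · rw [mem_tail_append] at hq
        rcases hq with hq | hq
        · exact hf0.fst q (by rw [mem_tail_append]; exact Or.inl hq)
        · exact hkH q (List.mem_of_mem_tail hq)
      · rw [mem_dropLast_append] at hq
        rcases hq with hq | hq
        · exact hf0.snd q (by rw [mem_dropLast_append]; exact Or.inl hq)
        · exact hkH' q hq
    have := hull_le hbd (haz 0 hn) hyb _ hopen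
    rw [walkCost_append] at this
    simp only [Finset.range_zero, Finset.sum_empty]
    linarith
  | succ n ih =>
    intro p f₁ f₂ e k hkA hkH hkH'
    have hnm : n < m := hn
    have hfo := hf.isOpen (n + 1) hn
    have hfo' := hf.isOpen n hnm.le
    -- `k` meets fence `n`
    have hopen : IsOpen H H' Set.univ (f₁.append k) := by
      have hf0 := hfo
      rw [e] at hf0
      refine ⟨fun x hx => trivial, fun q hq => ?_, fun q hq => ?_⟩
      · rw [mem_tail_append] at hq
        rcases hq with hq | hq
        · exact hf0.fst q (by rw [mem_tail_append]; exact Or.inl hq)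
        · exact hkH q (List.mem_of_mem_tail hq)
      · rw [mem_dropLast_append] at hq
        rcases hq with hq | hq
        · exact hf0.snd q (by rw [mem_dropLast_append]; exact Or.inl hq)
        · exact hkH' q hq
    have hyw : y < w n := lt_of_lt_of_le hy (hf.w_le hbk' hnm.le)
    obtain ⟨x, hx, hx'⟩ := (h.crosses h' hlt) (hf.z_lt hbk hnm) hyw (f n) (f₁.append k)
      hfo'.univ hopen
    have hxk : x ∈ k.support := by
      rw [mem_support_append] at hx'
      rcases hx' with hx' | hx'
      · exact absurd (by rw [e, mem_support_append]; exact Or.inl hx') (hf.disj hκ hnm x hx)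
      · exact hx'
    -- first hit `p'` of fence `n`
    obtain ⟨p', k₁, k₂, rfl, hp', hk₁⟩ := exists_first k {x | x ∈ (f n).support} ⟨x, hxk, hx⟩
    -- last visit `q` of fence `n+1` in `k₁`
    obtain ⟨q, c, d, rfl, hq, hd⟩ := exists_last k₁ {x | x ∈ (f (n + 1)).support}
      ⟨p, k₁.start_mem_support, by
        change p ∈ (f (n + 1)).support
        rw [e, mem_support_append]; exact Or.inl f₁.end_mem_support⟩
    obtain ⟨g₁, g₂, eg⟩ := exists_split (f (n + 1)) hq
    obtain ⟨h₁, h₂, eh⟩ := exists_split (f n) hp'
    have hd1 : ∀ x ∈ d.support, x ∈ ((c.append d).append k₂).support := fun x hx => by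
      rw [mem_support_append, mem_support_append]; exact Or.inl (Or.inr hx)
    -- the region of `d`
    have hdreg : ∀ x ∈ d.support, s n - κ - C ≤ F.al x ∧ F.al x ≤ r (n + 1) + κ + C := by
      intro x hx
      obtain ⟨d₁, d₂, rfl⟩ := exists_split d hx
      have hd₁H : ∀ k, H k ∉ d₁.support := fun k hk =>
        hkH k (hd1 _ (by rw [mem_support_append]; exact Or.inl hk))
      have hd₂H : ∀ k, H k ∉ d₂.support := fun k hk =>
        hkH k (hd1 _ (by rw [mem_support_append]; exact Or.inr hk))
      have hdH' : ∀ k, H' k ∈ (d₁.append d₂).support → H' k = p' ∧ k = y := by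
        intro l hl
        have hl2 := hl
        rw [mem_support_iff_dropLast] at hl2
        rcases hl2 with hl2 | hl2
        · exact absurd (by rw [mem_dropLast_append, mem_dropLast_append]
                           exact Or.inl (Or.inr hl2)) (hkH' l)
        · exfalso
          -- `p' = H' l` on fence `n`, hence `l = w n`; and the walk `k` has it only at its end
          have hlw : l = w n := hfo'.eq_snd h'.hwy.inj (by rw [hl2]; exact hp')
          have hmem : H' l ∈ ((c.append (d₁.append d₂)).append k₂).support := hd1 _ hl
          rw [mem_support_iff_dropLast] at hmem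
          rcases hmem with hmem | hmem
          · exact hkH' l hmem
          · have := h'.hwy.inj hmem
            omega
      have hd₁H' : ∀ k, H' k ∉ d₁.support := fun k hk => by
        obtain ⟨e1, e2⟩ := hdH' k (by rw [mem_support_append]; exact Or.inl hk)
        have : p' ∈ (f n).support := hp'
        rw [← e1] at this
        have := hfo'.eq_snd h'.hwy.inj this
        omega
      have hd₂H' : ∀ k, H' k ∉ d₂.support := fun k hk => by
        obtain ⟨e1, e2⟩ := hdH' k (by rw [mem_support_append]; exact Or.inr hk)
        have : p' ∈ (f n).support := hp'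
        rw [← e1] at this
        have := hfo'.eq_snd h'.hwy.inj this
        omega
      constructor
      · -- left side: walk back from `x` to `q`, avoiding fence `n`
        by_cases hxp : x ∈ (f n).support
        · have := (hfo'.sub x hxp).1
          linarith
        · refine stay_left h h' hlt hbk hbk' hC hfo'.univ hfo.univ (hf.disj hκ hnm)
            (hf.z_lt hbk hnm) (hf.w_lt hbk' hnm) (fun x hx => (hfo'.sub x hx).1) hq d₁.reverse
            (fun k hk => hd₁H k (by simpa using hk)) (fun k hk => hd₁H' k (by simpa using hk)) ?_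
          intro x' hx' hx'f
          have hx'' : x' ∈ d₁.support := by simpa using hx'
          rw [mem_support_iff_dropLast] at hx''
          rcases hx'' with hx'' | rfl
          · exact hk₁ x' (by
              rw [mem_dropLast_append, mem_dropLast_append]; exact Or.inr (Or.inl hx'')) hx'f
          · exact hxp hx'f
      · -- right side: walk from `x` to `p'`, avoiding fence `n+1`
        by_cases hxp : x ∈ (f (n + 1)).support
        · have := (hfo.sub x hxp).2
          linarith
        · refine stay_right h h' hlt hbk hbk' hC hfo.univ hfo'.univ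
            (fun x hx hx' => hf.disj hκ hnm x hx' hx)
            (hf.z_lt hbk hnm) (hf.w_lt hbk' hnm) (fun x hx => (hfo.sub x hx).2) hp' d₂
            hd₂H hd₂H' ?_
          intro x' hx' hx'f
          rw [mem_support_iff_tail] at hx'
          rcases hx' with rfl | hx'
          · exact hxp hx'f
          · exact hd x' (by rw [mem_tail_append]; exact Or.inr hx') hx'f
    have hmm : ∀ {x y : V} {u : Wk x y} {v : V}, v ∈ u.support.tail → v ∈ u.support :=
      fun h => List.mem_of_mem_tail h
    rw [eg] at hfo
    rw [eh] at hfo'
    -- route A : along fence `n+1` to `p`, then `c`, then fence `n+1` from `q`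
    have hfe : IsOpen H H' {v | s (n + 1) ≤ F.al v ∧ F.al v ≤ r (n + 1)} (f₁.append f₂) := by
      rw [← e, eg]; exact hfo
    have hA : IsOpen H H' B ((f₁.append c).append g₂) := by
      refine ⟨fun x hx => ?_, fun q' hq' => ?_, fun q' hq' => ?_⟩
      · rw [mem_support_append, mem_support_append] at hx
        rcases hx with (hx | hx) | hx
        · exact hfB (n + 1) hn x (by rw [e, mem_support_append]; exact Or.inl hx)
        · exact hAB (hkA x (by
            rw [mem_support_append, mem_support_append]; exact Or.inl (Or.inl hx)))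
        · exact hfB (n + 1) hn x (by rw [eg, mem_support_append]; exact Or.inr hx)
      · rw [mem_tail_append, mem_tail_append] at hq'
        rcases hq' with (hq' | hq') | hq'
        · exact hfe.fst q' (by rw [mem_tail_append]; exact Or.inl hq')
        · exact hkH q' (by
            rw [mem_support_append, mem_support_append]; exact Or.inl (Or.inl (hmm hq')))
        · exact hfo.fst q' (by rw [mem_tail_append]; exact Or.inr hq')
      · rw [mem_dropLast_append, mem_dropLast_append] at hq'
        rcases hq' with (hq' | hq') | hq'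
        · exact hfe.snd q' (by rw [mem_dropLast_append]; exact Or.inl hq')
        · exact hkH' q' (by
            rw [mem_dropLast_append, mem_dropLast_append]; exact Or.inl (Or.inl hq'))
        · exact hfo.snd q' (by rw [mem_dropLast_append]; exact Or.inr hq')
    -- route B : along fence `n+1` to `q`, then `d`, then fence `n` from `p'`
    have hB : IsOpen H H' (Ln n) ((g₁.append d).append h₂) := by
      refine ⟨fun x hx => ?_, fun q' hq' => ?_, fun q' hq' => ?_⟩
      · have hlt' := hf.lt n hnm
        rw [mem_support_append, mem_support_append] at hx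
        rcases hx with (hx | hx) | hx
        · have h1 := hfo.sub x (by rw [mem_support_append]; exact Or.inl hx)
          have h2 := hfo'.sub _ (h₁.append h₂).start_mem_support
          refine hLn n hnm x (hfB (n + 1) hn x (by
            rw [eg, mem_support_append]; exact Or.inl hx)) ?_ ?_
          · have := h1.1; have := h2.1; have := h2.2; linarith
          · have := h1.2; linarith
        · refine hLn n hnm x (hAB (hkA x (hd1 x hx))) (hdreg x hx).1 (hdreg x hx).2
        · have h1 := hfo'.sub x (by rw [mem_support_append]; exact Or.inr hx)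
          have h2 := hfo.sub _ (g₁.append g₂).start_mem_support
          refine hLn n hnm x (hfB n hnm.le x (by
            rw [eh, mem_support_append]; exact Or.inr hx)) ?_ ?_
          · have := h1.1; linarith
          · have := h1.2; have := h2.1; have := h2.2; linarith
      · rw [mem_tail_append, mem_tail_append] at hq'
        rcases hq' with (hq' | hq') | hq'
        · exact hfo.fst q' (by rw [mem_tail_append]; exact Or.inl hq')
        · exact hkH q' (hd1 _ (hmm hq'))
        · exact hfo'.fst q' (by rw [mem_tail_append]; exact Or.inr hq')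
      · rw [mem_dropLast_append, mem_dropLast_append] at hq'
        rcases hq' with (hq' | hq') | hq'
        · exact hfo.snd q' (by rw [mem_dropLast_append]; exact Or.inl hq')
        · exact hkH' q' (by
            rw [mem_dropLast_append, mem_dropLast_append]; exact Or.inl (Or.inr hq'))
        · exact hfo'.snd q' (by rw [mem_dropLast_append]; exact Or.inr hq')
    have kA := hull_le hbd (haz (n + 1) hn) (hwb (n + 1) hn) _ hA
    have kB := hull_le (hbdl n hnm) (hi (n + 1) hn) (hj n hnm.le) _ hB
    have kS := ih hnm.le p' h₁ h₂ eh k₂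
      (fun x hx => hkA x (by rw [mem_support_append]; exact Or.inr hx))
      (fun q' hq' => hkH q' (by rw [mem_support_append]; exact Or.inr hq'))
      (fun q' hq' => hkH' q' (by rw [mem_dropLast_append]; exact Or.inr hq'))
    rw [Finset.sum_range_succ]
    have v1 : val t H H' (f (n + 1)) =
        hc t H (z (n + 1)) + (walkCost t g₁ + walkCost t g₂) - hc t H' (w (n + 1)) := by
      unfold val; rw [eg, walkCost_append]
    have v2 : val t H H' (f n) =
        hc t H (z n) + (walkCost t h₁ + walkCost t h₂) - hc t H' (w n) := by
      unfold val; rw [eh, walkCost_append]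
    rw [walkCost_append, walkCost_append] at kA kB
    rw [walkCost_append, walkCost_append]
    linarith

end window

end Crest.Agent.R151.R78
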