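import Mathlib
import Crest.Agent.R151.R78I

/-!
# R151/R78J — deterministic row layer, part J: window inequality in terms of hull costs and labels
(owner helper78)
-/

set_option autoImplicit false

open Crest.ProbabilityR.FirstPassage Filter

namespace Crest.Agent.R151.R78

open Crest.Agent.R151.K Crest.Agent.R151.Pl

variable {t : Environment} {H H' : ℤ → V}

section window

variable {F : Frame} {lo hi lo' hi' κ C : ℝ} {m : ℕ} {s r : ℕ → ℝ} {z w : ℕ → ℤ}
  {f : (l : ℕ) → Wk (H (z l)) (H' (w l))} {A B : Set V} {Ln : ℕ → Set V} {a b : ℤ}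
  {i j : ℕ → ℤ}

/-- **(8.1), value form**: an open crossing `g` from the right of fence `m` to the left of
fence `0`. -/
theorem window_val (h : IsStrip F lo hi H) (h' : IsStrip F lo' hi' H') (hlt : hi < lo')
    (hbk : Back F κ H) (hbk' : Back F κ H')
    (hC : ∀ (v : V) (K : ℝ), ∃ (y : V) (u : Wk v y), K < F.be y ∧
      ∀ x ∈ u.support, |F.al x - F.al v| ≤ C) (hC0 : 0 ≤ C)
    (hf : IsFences F κ H H' m s r z w f)
    (hfB : ∀ l ≤ m, ∀ x ∈ (f l).support, x ∈ B) (hAB : A ⊆ B)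
    (hLn : ∀ l < m, ∀ x ∈ B, s l - κ - C ≤ F.al x → F.al x ≤ r (l + 1) + κ + C → x ∈ Ln l)
    (hbd : BddBelow (routes t H H' B a b))
    (hbdl : ∀ l < m, BddBelow (routes t H H' (Ln l) (i (l + 1)) (j l)))
    (haz : ∀ l ≤ m, a ≤ z l) (hwb : ∀ l ≤ m, w l ≤ b)
    (hi : ∀ l ≤ m, i l ≤ z l) (hj : ∀ l ≤ m, w l ≤ j l) {x₀ y : ℤ} (hx₀ : z m < x₀)
    (hax : a ≤ x₀) (hy : y < w 0) (hyb : y ≤ b)
    (g : Wk (H x₀) (H' y)) (hg : IsOpen H H' A g) :
    ∑ l ∈ Finset.range m, (hull t H H' (Ln l) (i (l + 1)) (j l) - hull t H H' B a b) -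
      ∑ l ∈ Finset.range (m + 1), (val t H H' (f l) - hull t H H' B a b) -
      ∑ l ∈ Finset.range m, (val t H H' (f (l + 1)) - hull t H H' B a b) ≤
    hc t H x₀ + walkCost t g - hc t H' y - hull t H H' B a b := by
  have hfm := hf.isOpen m le_rfl
  have hyw : y < w m := lt_of_lt_of_le hy (hf.w_le hbk' le_rfl)
  obtain ⟨x, hx, hx'⟩ := (h.crosses h' hlt) hx₀ hyw (f m) g hfm.univ hg.univ
  obtain ⟨p, gs, k, rfl, hp, -⟩ := exists_first g {x | x ∈ (f m).support} ⟨x, hx', hx⟩
  obtain ⟨f₁, f₂, e⟩ := exists_split (f m) hp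
  have hkH : ∀ q, H q ∉ k.support := by
    intro q hq
    rw [mem_support_iff_tail] at hq
    rcases hq with hq | hq
    · have h1 : q = x₀ := hg.eq_fst h.hwy.inj (by
        rw [mem_support_append]; exact Or.inl (by rw [hq]; exact gs.end_mem_support))
      have h2 : q = z m := hfm.eq_fst h.hwy.inj (by rw [hq]; exact hp)
      omega
    · exact hg.fst q (by rw [mem_tail_append]; exact Or.inr hq)
  have key := window_aux (t := t) h h' hlt hbk hbk' hC hC0 hf hfB hAB hLn hbd hbdl haz hwb hi hj hy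
    hyb m le_rfl p f₁ f₂ e k (fun x hx => hg.sub x (by rw [mem_support_append]; exact Or.inr hx))
    hkH (fun q hq => hg.snd q (by rw [mem_dropLast_append]; exact Or.inr hq))
  have hopen : IsOpen H H' B (gs.append f₂) := by
    rw [e] at hfm
    refine ⟨fun x hx => ?_, fun q hq => ?_, fun q hq => ?_⟩
    · rw [mem_support_append] at hx
      rcases hx with hx | hx
      · exact hAB (hg.sub x (by rw [mem_support_append]; exact Or.inl hx))
      · exact hfB m le_rfl x (by rw [e, mem_support_append]; exact Or.inr hx)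
    · rw [mem_tail_append] at hq
      rcases hq with hq | hq
      · exact hg.fst q (by rw [mem_tail_append]; exact Or.inl hq)
      · exact hfm.fst q (by rw [mem_tail_append]; exact Or.inr hq)
    · rw [mem_dropLast_append] at hq
      rcases hq with hq | hq
      · exact hg.snd q (by rw [mem_dropLast_append]; exact Or.inl hq)
      · exact hfm.snd q (by rw [mem_dropLast_append]; exact Or.inr hq)
  have kA := hull_le hbd hax (hwb m le_rfl) _ hopen
  rw [walkCost_append] at kA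
  have v1 : val t H H' (f m) =
      hc t H (z m) + (walkCost t f₁ + walkCost t f₂) - hc t H' (w m) := by
    unfold val; rw [e, walkCost_append]
  rw [walkCost_append]
  have e1 : ∑ l ∈ Finset.range m, (hull t H H' (Ln l) (i (l + 1)) (j l) -
      val t H H' (f l) - (val t H H' (f (l + 1)) - hull t H H' B a b)) =
      ∑ l ∈ Finset.range m, (hull t H H' (Ln l) (i (l + 1)) (j l) - hull t H H' B a b) -
      ∑ l ∈ Finset.range m, (val t H H' (f l) - hull t H H' B a b) -
      ∑ l ∈ Finset.range m, (val t H H' (f (l + 1)) - hull t H H' B a b) := by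
    simp only [Finset.sum_sub_distrib]; ring
  rw [e1] at key
  rw [Finset.sum_range_succ (fun l => val t H H' (f l) - hull t H H' B a b)]
  linarith

end window

/-! ### Lanes -/

/-- the lane `s ≤ al ≤ r` -/
def Frame.lane (F : Frame) (s r : ℝ) : Set V := {v | s ≤ F.al v ∧ F.al v ≤ r}

lemma Frame.lane_mono (F : Frame) {s r s' r' : ℝ} (h : s' ≤ s) (h' : r ≤ r') :
    F.lane s r ⊆ F.lane s' r' := fun _ hv => ⟨h.trans hv.1, hv.2.trans h'⟩

section lane

variable {F : Frame} {lo hi lo' hi' κ : ℝ} {A : Set V} {s r : ℝ} {i j : ℤ}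

lemma IsStrip.finite_lane_row (F : Frame) (s r lo hi' : ℝ) (hA : A ⊆ F.lane s r) :
    (A ∩ F.row lo hi').Finite :=
  (F.finite_box s r lo hi').subset fun _ hv => ⟨(hA hv.1).1, (hA hv.1).2, hv.2.1, hv.2.2⟩

lemma IsStrip.bddBelow (h : IsStrip F lo hi H) (h' : IsStrip F lo' hi' H') (hlt : hi < lo')
    (ht : Nn t) (hA : A ⊆ F.lane s r) (i j : ℤ) : BddBelow (routes t H H' A i j) := by
  rw [← h.routes_inter h' hlt]
  exact bddBelow_of_finite ht h.hwy h'.hwy (IsStrip.finite_lane_row F s r lo hi' hA) i j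

/-- attainment in a lane -/
lemma IsStrip.exists_hull (h : IsStrip F lo hi H) (h' : IsStrip F lo' hi' H') (hlt : hi < lo')
    (ht : Nn t) (hA : A ⊆ F.lane s r) (hne : (routes t H H' A i j).Nonempty) :
    ∃ z w : ℤ, i ≤ z ∧ w ≤ j ∧ ∃ g : Wk (H z) (H' w), g.IsPath ∧ IsOpen H H' A g ∧
      hull t H H' A i j = val t H H' g := by
  rw [← h.routes_inter h' hlt] at hne
  obtain ⟨z, w, hz, hw, g, hp, hg, e⟩ := exists_hull_eq ht h.hwy h'.hwy
    (IsStrip.finite_lane_row F s r lo hi' hA) hne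
  rw [h.hull_inter h' hlt] at e
  exact ⟨z, w, hz, hw, g, hp, hg.mono Set.inter_subset_left, e⟩

end lane

/-! ### Labels -/

/-- `i` is the index of the first vertex with `al ≥ s` -/
structure IsPos (F : Frame) (H : ℤ → V) (s : ℝ) (i : ℤ) : Prop where
  ge : s ≤ F.al (H i)
  lt : ∀ k < i, F.al (H k) < s

/-- maximal increment of `al` along an edge -/
noncomputable def Frame.stp (F : Frame) : ℝ := |F.a₁| + |F.a₂|

lemma Frame.adj_le (F : Frame) {x y : V} (h : squareLattice.Adj x y) :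
    |F.al y - F.al x| ≤ F.stp := by
  rw [squareLattice, SimpleGraph.fromRel_adj] at h
  have e : F.al y - F.al x = F.a₁ * ((y.1 : ℝ) - x.1) + F.a₂ * ((y.2 : ℝ) - x.2) := by
    simp only [Frame.al, lin]; ring
  rw [e]
  have h0 := abs_nonneg F.a₁
  have h1 := abs_nonneg F.a₂
  unfold Frame.stp
  rcases h.2 with (⟨h2, h3⟩ | ⟨h2, h3⟩) | (⟨h2, h3⟩ | ⟨h2, h3⟩)
  · rw [h2, h3]; push_cast
    have : F.a₁ * ((y.1 : ℝ) - y.1) + F.a₂ * ((x.2 : ℝ) + 1 - x.2) = F.a₂ := by ring
    rw [this]; linarith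
  · rw [h2, h3]; push_cast
    have : F.a₁ * ((x.1 : ℝ) + 1 - x.1) + F.a₂ * ((y.2 : ℝ) - y.2) = F.a₁ := by ring
    rw [this]; linarith
  · rw [h2, h3]; push_cast
    have : F.a₁ * ((x.1 : ℝ) - x.1) + F.a₂ * ((y.2 : ℝ) - (y.2 + 1)) = -F.a₂ := by ring
    rw [this, abs_neg]; linarith
  · rw [h2, h3]; push_cast
    have : F.a₁ * ((y.1 : ℝ) - (y.1 + 1)) + F.a₂ * ((x.2 : ℝ) - x.2) = -F.a₁ := by ring
    rw [this, abs_neg]; linarith

section pos

variable {F : Frame} {lo hi κ : ℝ} {s s' : ℝ} {i i' k : ℤ}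

/-- positions exist -/
lemma IsStrip.exists_pos (h : IsStrip F lo hi H) (s : ℝ) : ∃ i, IsPos F H s i := by
  obtain ⟨m, hm⟩ := (eventually_atBot.1 (h.bot.eventually_lt_atBot s))
  obtain ⟨n, hn⟩ := (h.top.eventually_ge_atTop s).exists
  have hbdd : ∀ z : ℤ, s ≤ F.al (H z) → m ≤ z := by
    intro z hz
    by_contra hc
    push Not at hc
    exact absurd (hm z hc.le) (not_lt.2 hz)
  obtain ⟨i, hi, hmin⟩ := Int.exists_least_of_bdd (P := fun z => s ≤ F.al (H z)) ⟨m, hbdd⟩ ⟨n, hn⟩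
  exact ⟨i, hi, fun k hk => by
    by_contra hc
    push Not at hc
    exact absurd (hmin k hc) (not_le.2 hk)⟩

lemma IsPos.unique (h : IsPos F H s i) (h' : IsPos F H s i') : i = i' := by
  rcases lt_trichotomy i i' with hlt | rfl | hlt
  · exact absurd (h'.lt i hlt) (not_lt.2 h.ge)
  · rfl
  · exact absurd (h.lt i' hlt) (not_lt.2 h'.ge)

lemma IsPos.mono (h : IsPos F H s i) (h' : IsPos F H s' i') (hs : s ≤ s') : i ≤ i' := by
  by_contra hc
  push Not at hc
  have := h.lt i' hc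
  have := h'.ge
  linarith

/-- `al (H k) ≥ s` forces `k ≥ x_s` -/
lemma IsPos.le_of_ge (h : IsPos F H s i) (hk : s ≤ F.al (H k)) : i ≤ k := by
  by_contra hc
  push Not at hc
  exact absurd (h.lt k hc) (not_lt.2 hk)

/-- with limited backtracking, `al (H k) < s - κ` forces `k < x_s` -/
lemma IsPos.lt_of_lt (h : IsPos F H s i) (hb : Back F κ H) (hk : F.al (H k) < s - κ) : k < i := by
  by_contra hc
  push Not at hc
  have := hb i k hc
  have := h.ge
  linarith

lemma IsPos.al_le (h : IsPos F H s i) (hH : IsHwy H) : F.al (H i) < s + F.stp := by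
  have h1 := h.lt (i - 1) (by omega)
  have h2 := hH.adj (i - 1)
  have h3 := F.adj_le h2
  rw [sub_add_cancel] at h3
  have := (abs_le.1 h3).2
  linarith

lemma IsPos.al_le_of_le (h : IsPos F H s i) (hH : IsHwy H) (hk : k ≤ i) :
    F.al (H k) < s + F.stp := by
  rcases eq_or_lt_of_le hk with rfl | hk
  · exact h.al_le hH
  · have := h.lt k hk
    have : 0 ≤ F.stp := by unfold Frame.stp; positivity
    linarith

end pos

end Crest.Agent.R151.R78
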