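import Mathlib
import Crest.Agent.R151.R78J

/-!
# R151/R78K — deterministic row layer, part K: window inequality (8.1) in terms of labels
(owner helper78)
-/

set_option autoImplicit false

open Crest.ProbabilityR.FirstPassage Filter

namespace Crest.Agent.R151.R78

open Crest.Agent.R151.K Crest.Agent.R151.Pl

variable {t : Environment} {H H' : ℤ → V}

/-- the constant of the straight escape walks -/
noncomputable def Frame.esc (F : Frame) : ℝ := (F.exists_escape).choose

lemma Frame.esc_nonneg (F : Frame) : 0 ≤ F.esc := (F.exists_escape).choose_spec.1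

lemma Frame.esc_spec (F : Frame) (v : V) (K : ℝ) : ∃ (y : V) (u : Wk v y), K < F.be y ∧
    ∀ x ∈ u.support, |F.al x - F.al v| ≤ F.esc := (F.exists_escape).choose_spec.2 v K

/-- **Window inequality (8.1)**. Fences `l = 0, …, m` from left to right in the lanes
`[s l, r l]`, at distance `> κ` from each other; `x l`, `x' l` the positions of the left side of
the fence on `H` and of its right side on `H'`. Every route from `i₀` (right of fence `m`) to `j₀`
(left of fence `0`) costs at least the sum of the `m` lane-restricted falls minus twice the fence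
costs. `B` is the gauge region. -/
theorem window_pos {F : Frame} {lo hi lo' hi' κ : ℝ} {m : ℕ} {s r : ℕ → ℝ} {x x' : ℕ → ℤ}
    {A B : Set V} {a b i₀ j₀ : ℤ} {S R σ σ' S₀ R₀ : ℝ} (ht : Nn t)
    (h : IsStrip F lo hi H) (h' : IsStrip F lo' hi' H') (hlt : hi < lo')
    (hbk : Back F κ H) (hbk' : Back F κ H')
    (hsr : ∀ l < m, r l + κ < s (l + 1))
    (hx : ∀ l ≤ m, IsPos F H (s l) (x l)) (hx' : ∀ l ≤ m, IsPos F H' (r l) (x' l))
    (hne : ∀ l ≤ m, (routes t H H' (F.lane (s l) (r l)) (x l) (x' l)).Nonempty)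
    (hB : B ⊆ F.lane S₀ R₀) (hlB : ∀ l ≤ m, F.lane (s l) (r l) ⊆ B) (hAB : A ⊆ B)
    (ha : IsPos F H S a) (hSs : ∀ l ≤ m, S ≤ s l) (hSσ : S ≤ σ)
    (hb : IsPos F H' R b) (hRr : ∀ l ≤ m, r l ≤ R) (hRσ' : σ' ≤ R)
    (hi₀ : IsPos F H σ i₀) (hσ : r m + κ < σ) (hj₀ : IsPos F H' σ' j₀) (hσ' : σ' + F.stp ≤ s 0)
    (hnA : (routes t H H' A i₀ j₀).Nonempty) :
    ∑ l ∈ Finset.range m, shp t H H' B a b
        (F.lane (s l - κ - F.esc) (r (l + 1) + κ + F.esc)) (x (l + 1)) (x' l) -
      2 * ∑ l ∈ Finset.range (m + 1), shp t H H' B a b (F.lane (s l) (r l)) (x l) (x' l) ≤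
    shp t H H' B a b A i₀ j₀ := by
  classical
  have hκ : 0 ≤ κ := by have := hbk 0 0 le_rfl; linarith
  -- optimal fences
  have hex : ∀ l, ∃ z w : ℤ, ∃ g : Wk (H z) (H' w), l ≤ m → (x l ≤ z ∧ w ≤ x' l ∧
      IsOpen H H' (F.lane (s l) (r l)) g ∧
      hull t H H' (F.lane (s l) (r l)) (x l) (x' l) = val t H H' g) := by
    intro l
    by_cases hl : l ≤ m
    · obtain ⟨z, w, hz, hw, g, -, hg, e⟩ := h.exists_hull h' hlt ht (subset_rfl) (hne l hl)
      exact ⟨z, w, g, fun _ => ⟨hz, hw, hg, e⟩⟩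
    · obtain ⟨g⟩ : Nonempty (Wk (H 0) (H' 0)) := inferInstance
      exact ⟨0, 0, g, fun h => absurd h hl⟩
  choose z w f hf using hex
  have hfen : IsFences F κ H H' m s r z w f := ⟨fun l hl => (hf l hl).2.2.1, hsr⟩
  have hzm : z m < i₀ := by
    refine hi₀.lt_of_lt hbk ?_
    have := ((hf m le_rfl).2.2.1.sub _ (f m).start_mem_support).2
    linarith
  have hw0 : j₀ < w 0 := by
    by_contra hc
    push Not at hc
    have h1 := hj₀.al_le_of_le h'.hwy hc
    have h2 := ((hf 0 (Nat.zero_le _)).2.2.1.sub _ (f 0).end_mem_support).1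
    linarith
  have hbd : BddBelow (routes t H H' B a b) := h.bddBelow h' hlt ht hB a b
  have hax : ∀ l ≤ m, a ≤ x l := fun l hl => ha.mono (hx l hl) (hSs l hl)
  have hxb : ∀ l ≤ m, x' l ≤ b := fun l hl => (hx' l hl).mono hb (hRr l hl)
  have key : ∀ c ∈ routes t H H' A i₀ j₀,
      ∑ l ∈ Finset.range m, shp t H H' B a b
        (F.lane (s l - κ - F.esc) (r (l + 1) + κ + F.esc)) (x (l + 1)) (x' l) -
      2 * ∑ l ∈ Finset.range (m + 1), shp t H H' B a b (F.lane (s l) (r l)) (x l) (x' l) +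
        hull t H H' B a b ≤ c := by
    rintro _ ⟨x₀, y, hx₀, hy, g, hg, rfl⟩
    have hw := window_val (t := t) (A := A) (B := B) (a := a) (b := b) (i := x) (j := x')
      (Ln := fun l => F.lane (s l - κ - F.esc) (r (l + 1) + κ + F.esc))
      h h' hlt hbk hbk' (fun v K => F.esc_spec v K) F.esc_nonneg hfen
      (fun l hl v hv => hlB l hl ((hf l hl).2.2.1.sub v hv)) hAB
      (fun l _ v _ h1 h2 => ⟨h1, h2⟩) hbd
      (fun l _ => h.bddBelow h' hlt ht (subset_rfl) _ _)
      (fun l hl => (hax l hl).trans (hf l hl).1) (fun l hl => (hf l hl).2.1.trans (hxb l hl))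
      (fun l hl => (hf l hl).1) (fun l hl => (hf l hl).2.1)
      (lt_of_lt_of_le hzm hx₀) ((ha.mono hi₀ hSσ).trans hx₀) (lt_of_le_of_lt hy hw0)
      (hy.trans (hj₀.mono hb hRσ')) g hg
    have e1 : ∑ l ∈ Finset.range (m + 1), (val t H H' (f l) - hull t H H' B a b) =
        ∑ l ∈ Finset.range (m + 1), shp t H H' B a b (F.lane (s l) (r l)) (x l) (x' l) :=
      Finset.sum_congr rfl fun l hl => by
        rw [Finset.mem_range] at hl
        unfold shp; rw [(hf l (by omega)).2.2.2]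
    have e2 : ∑ l ∈ Finset.range m, (val t H H' (f (l + 1)) - hull t H H' B a b) =
        ∑ l ∈ Finset.range m, shp t H H' B a b (F.lane (s (l + 1)) (r (l + 1)))
          (x (l + 1)) (x' (l + 1)) :=
      Finset.sum_congr rfl fun l hl => by
        rw [Finset.mem_range] at hl
        unfold shp; rw [(hf (l + 1) (by omega)).2.2.2]
    rw [e1, e2] at hw
    have e3 : ∑ l ∈ Finset.range (m + 1), shp t H H' B a b (F.lane (s l) (r l)) (x l) (x' l) =
        ∑ l ∈ Finset.range m, shp t H H' B a b (F.lane (s (l + 1)) (r (l + 1)))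
          (x (l + 1)) (x' (l + 1)) + shp t H H' B a b (F.lane (s 0) (r 0)) (x 0) (x' 0) :=
      Finset.sum_range_succ' _ _
    have h0 : 0 ≤ shp t H H' B a b (F.lane (s 0) (r 0)) (x 0) (x' 0) :=
      shp_nonneg hbd (hne 0 (Nat.zero_le _)) (hlB 0 (Nat.zero_le _)) (hax 0 (Nat.zero_le _))
        (hxb 0 (Nat.zero_le _))
    have e4 : ∑ l ∈ Finset.range m, (hull t H H'
        (F.lane (s l - κ - F.esc) (r (l + 1) + κ + F.esc)) (x (l + 1)) (x' l) -
        hull t H H' B a b) = ∑ l ∈ Finset.range m, shp t H H' B a b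
        (F.lane (s l - κ - F.esc) (r (l + 1) + κ + F.esc)) (x (l + 1)) (x' l) := rfl
    rw [e4] at hw
    linarith
  have := le_csInf hnA key
  unfold shp at this ⊢
  unfold hull at this ⊢
  linarith

end Crest.Agent.R151.R78
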