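import Crest.Agent.R151.R78L
import Crest.Agent.R151.M56a
import Crest.Agent.R151.A565k

/-!
# R151 / S0214 part 2, [E8] height selection, part a: route surgery (helper792)

`hull_le_walk`: the hull kernel is at most the value of ANY walk between two points of the two
highways whose visits to the highways are on the right sides, up to the defects of the highways.
`hkY_le_walk`: the same in excess form for the systems of highways `Hwy F`.
-/

set_option autoImplicit false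

open MeasureTheory Filter ProbabilityTheory Topology
open Crest.ProbabilityR.FirstPassage

namespace Crest.Agent.R151.E792

open K R78 B710 Q

section det

variable {t : Environment} {φ : V → ℝ} {H H' : ℤ → V} {A : Set V}

/-- **route surgery** -/
theorem hull_le_walk (ht : Nn t) (hH : IsHwy H) (hH' : IsHwy H') {i j i₀ j₀ a b a' b' : ℤ}
    (g : Wk (H i₀) (H' j₀)) (hg : ∀ v ∈ g.support, v ∈ A)
    (hz : ∀ k, H k ∈ g.support → i ≤ k ∧ a ≤ k ∧ k ≤ b)
    (hw : ∀ k, H' k ∈ g.support → k ≤ j ∧ a' ≤ k ∧ k ≤ b') :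
    hull t H H' A i j ≤ hc t H i₀ + walkCost t g - hc t H' j₀ + defect t H a b +
      defect t H' a' b' := by
  obtain ⟨u, v, w₁, o, w₂, e, hu, hv, -, ho1, ho2⟩ := exists_last_first g (Set.range H)
    (Set.range H') ⟨i₀, rfl⟩ ⟨H' j₀, g.end_mem_support, ⟨j₀, rfl⟩⟩
  obtain ⟨z, rfl⟩ := hu
  obtain ⟨w, rfl⟩ := hv
  have hsup : ∀ x ∈ o.support, x ∈ g.support := by
    intro x hx
    rw [e, mem_support_append, mem_support_append]
    exact Or.inl (Or.inr hx)
  have hopen : IsOpen H H' A o :=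
    ⟨fun x hx => hg x (hsup x hx), fun k hk => ho2 _ hk ⟨k, rfl⟩, fun k hk => ho1 _ hk ⟨k, rfl⟩⟩
  obtain ⟨z1, z2, z3⟩ := hz z (hsup _ o.start_mem_support)
  obtain ⟨y1, y2, y3⟩ := hw w (hsup _ o.end_mem_support)
  obtain ⟨-, i2, i3⟩ := hz i₀ g.start_mem_support
  obtain ⟨-, j2, j3⟩ := hw j₀ g.end_mem_support
  have h1 := hull_le (R78.bddBelow_routes ht _ _ _ _ _) z1 y1 o hopen
  have h2 : walkCost t g = walkCost t w₁ + walkCost t o + walkCost t w₂ := by
    rw [e, walkCost_append, walkCost_append]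
  have h3 : hc t H z - hc t H i₀ ≤ walkCost t w₁ + defect t H a b := by
    rcases le_total i₀ z with h | h
    · have e1 := hH.defect_mono ht i2 z3 (i := i₀) (j := z)
      have e2 := K.pt_le ht w₁
      unfold defect at e1 ⊢
      linarith
    · have e1 := hc_mono ht H h
      have e2 := walkCost_nonneg ht w₁
      have e3 := hH.defect_nonneg ht (z2.trans z3)
      linarith
  have h4 : hc t H' j₀ - hc t H' w ≤ walkCost t w₂ + defect t H' a' b' := by
    rcases le_total w j₀ with h | h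
    · have e1 := hH'.defect_mono ht y2 j3 (i := w) (j := j₀)
      have e2 := K.pt_le ht w₂
      unfold defect at e1 ⊢
      linarith
    · have e1 := hc_mono ht H' h
      have e2 := walkCost_nonneg ht w₂
      have e3 := hH'.defect_nonneg ht (y2.trans y3)
      linarith
  linarith

/-- excess form -/
theorem hullY_le_walk (ht : Nn t) (hH : IsHwy H) (hH' : IsHwy H') {i j i₀ j₀ a b a' b' : ℤ}
    (g : Wk (H i₀) (H' j₀)) (hg : ∀ v ∈ g.support, v ∈ A)
    (hz : ∀ k, H k ∈ g.support → i ≤ k ∧ a ≤ k ∧ k ≤ b)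
    (hw : ∀ k, H' k ∈ g.support → k ≤ j ∧ a' ≤ k ∧ k ≤ b') :
    hullY t φ H H' A i j ≤ (hp t φ H i₀ - hp t φ H i) + exc t φ g +
      (hp t φ H' j - hp t φ H' j₀) + defect t H a b + defect t H' a' b' := by
  have h := hull_le_walk ht hH hH' g hg hz hw
  unfold hullY exc hp
  linarith

/-- a defect is at most the excess minus the excess of the geodesic -/
lemma defect_eq (t : Environment) (φ : V → ℝ) (H : ℤ → V) (a b : ℤ) :
    defect t H a b = (hp t φ H b - hp t φ H a) - ptY t φ (H a) (H b) := by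
  unfold defect hp ptY; ring

end det

variable {μ : ℝ × ℝ → ℝ} {F : FlatData μ} (h : Hwy F)

/-- visits of a walk in `-A₁ ≤ al < A₂ - κ` to a highway -/
lemma visit {u : ℝ} {θ : ℝ × ℝ} {t : Environment} {k : ℤ} {A₁ A₂ : ℝ}
    (h1 : -A₁ ≤ F.al (pos θ (h.H u θ t k))) (h2 : F.al (pos θ (h.H u θ t k)) < A₂ - h.κ) :
    h.ix (-A₁) u θ t ≤ k ∧ k ≤ h.ix A₂ u θ t :=
  ⟨M56.ix_le_of_ge h1, (M56.lt_ix_of_lt h2).le⟩

/-- route surgery for the row kernel, excess form -/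
theorem hkY_le_walk {t : Environment} (ht : Nn t) {d θ φ : ℝ × ℝ} {I : Set ℝ}
    {s s' σ σ' A₁ A₂ : ℝ} (g : Wk (h.x σ φ.1 θ t) (h.x σ' φ.2 (θ - d) t))
    (hg : ∀ v ∈ g.support, F.al (pos θ v) ∈ I)
    (hb1 : ∀ v ∈ g.support, -A₁ ≤ F.al (pos θ v) ∧ F.al (pos θ v) < A₂ - h.κ)
    (hb2 : ∀ v ∈ g.support, -A₁ ≤ F.al (pos (θ - d) v) ∧ F.al (pos (θ - d) v) < A₂ - h.κ)
    (hlow : ∀ v ∈ g.support, |F.be (pos θ v)| ≤ h.wH / 2 → s ≤ F.al (pos θ v))
    (hup : ∀ v ∈ g.support, |F.be (pos (θ - d) v)| ≤ h.wH / 2 →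
      F.al (pos (θ - d) v) < s' - h.κ) :
    h.hkY d I s s' θ t φ ≤ h.Y s σ φ.1 θ t + exc t (phi F) g + h.Y σ' s' φ.2 (θ - d) t +
      defect t (h.H φ.1 θ t) (h.ix (-A₁) φ.1 θ t) (h.ix A₂ φ.1 θ t) +
      defect t (h.H φ.2 (θ - d) t) (h.ix (-A₁) φ.2 (θ - d) t) (h.ix A₂ φ.2 (θ - d) t) := by
  unfold Hwy.hkY Hwy.Y
  refine hullY_le_walk (t := t) (φ := phi F) (H := h.Lo θ t φ) (H' := h.Up d θ t φ)
    (i := h.iL s θ t φ) (j := h.iU d s' θ t φ) (i₀ := h.ix σ φ.1 θ t)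
    (j₀ := h.ix σ' φ.2 (θ - d) t) ht (h.isHwy _ _ _) (h.isHwy _ _ _) g hg ?_ ?_
  · intro k hk
    obtain ⟨e1, e2⟩ := hb1 _ hk
    obtain ⟨f1, f2⟩ := visit h (θ := θ) (t := t) (u := φ.1) (k := k) e1 e2
    exact ⟨M56.ix_le_of_ge (hlow _ hk (h.strip _ _ _ _)), f1, f2⟩
  · intro k hk
    obtain ⟨e1, e2⟩ := hb2 _ hk
    obtain ⟨f1, f2⟩ := visit h (θ := θ - d) (t := t) (u := φ.2) (k := k) e1 e2
    exact ⟨(M56.lt_ix_of_lt (hup _ hk (h.strip _ _ _ _))).le, f1, f2⟩

/-- bound for the defects -/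
lemma defect_le {t : Environment} {u D : ℝ} {θ : ℝ × ℝ} {s s' : ℝ}
    (hD : |passageTime t (h.x s u θ t) (h.x s' u θ t) -
      μ (toR (h.x s' u θ t - h.x s u θ t))| ≤ D) :
    defect t (h.H u θ t) (h.ix s u θ t) (h.ix s' u θ t) ≤ h.Y s s' u θ t + D := by
  rw [defect_eq t (phi F)]
  have h1 : -D ≤ ptY t (phi F) (h.x s u θ t) (h.x s' u θ t) := by
    have h2 := (abs_le.1 hD).1
    have h3 := F.ψ_nonneg (toR (h.x s' u θ t - h.x s u θ t))
    unfold FlatData.ψ at h3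
    unfold ptY
    rw [R6.phi_sub]
    linarith
  unfold Hwy.Y
  unfold Hwy.x at h1
  linarith

/-- the excess of a piece of highway is at least minus the deviation -/
lemma Y_ge {t : Environment} (ht : Nn t) {u D : ℝ} {θ : ℝ × ℝ} {s s' : ℝ} (hs : s ≤ s')
    (hD : |passageTime t (h.x s u θ t) (h.x s' u θ t) -
      μ (toR (h.x s' u θ t - h.x s u θ t))| ≤ D) : -D ≤ h.Y s s' u θ t := by
  have h1 := (h.isHwy u θ t).defect_nonneg ht (M56.ix_mono (h := h) (u := u) (θ := θ) (t := t) hs)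
  have := defect_le h hD
  linarith

end Crest.Agent.R151.E792
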