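import Crest.Agent.R151.K5

/-!
# R151/K6 — the upper shape bound in regions (owner helper507)

`local_eq` : if the region contains a ball of radius `ρ` around `x` and the deviation `dev` is small,
then the restricted passage time from `x` to `y` is the full one.
`region_upper` : `E T_R(x,y) ≤ μ(y-x) + ε n`, if `R` contains balls around the inner part of the
segment from `x` to `y`.
`slab_upper` : the case of the slab `[a, b] × ℤ`.
-/

set_option autoImplicit false

open MeasureTheory Filter ProbabilityTheory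
open Crest.ProbabilityR.FirstPassage

namespace Crest.Agent.R151.K

variable {t : Environment} {R : Set (ℤ × ℤ)} {μ : ℝ × ℝ → ℝ}

/-- a walk leaving a ball passes through the sphere -/
lemma exists_sphere {a b : ℤ × ℤ} (w : squareLattice.Walk a b) (x : ℤ × ℤ) (ρ : ℕ)
    (ha : n1 (a - x) ≤ ρ) {z : ℤ × ℤ} (hz : z ∈ w.support) (hzρ : ρ < n1 (z - x)) :
    ∃ u ∈ w.support, n1 (u - x) = ρ + 1 := by
  induction w with
  | nil =>
    simp only [SimpleGraph.Walk.support_nil, List.mem_cons, List.not_mem_nil, or_false] at hz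
    subst hz
    omega
  | @cons u v w' h p ih =>
    rw [SimpleGraph.Walk.support_cons, List.mem_cons] at hz
    rcases hz with rfl | hz
    · omega
    · rcases Nat.lt_or_ge ρ (n1 (v - x)) with hv | hv
      · refine ⟨v, ?_, ?_⟩
        · rw [SimpleGraph.Walk.support_cons]
          exact List.mem_cons_of_mem _ p.start_mem_support
        · have h1 := n1_add_le (v - u) (u - x)
          rw [sub_add_sub_cancel, n1_adj h] at h1
          omega
      · obtain ⟨y, hy1, hy2⟩ := ih hv hz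
        refine ⟨y, ?_, hy2⟩
        rw [SimpleGraph.Walk.support_cons]
        exact List.mem_cons_of_mem _ hy1

lemma pt_le_cost_of_mem (ht : Nn t) {x y z : ℤ × ℤ} (w : squareLattice.Walk x y)
    (hz : z ∈ w.support) : passageTime t x z ≤ walkCost t w := by
  have h1 := pt_le ht (w.takeUntil z hz)
  have h2 : walkCost t w = walkCost t (w.takeUntil z hz) + walkCost t (w.dropUntil z hz) := by
    rw [← walkCost_append, SimpleGraph.Walk.take_spec]
  have h3 := walkCost_nonneg ht (w.dropUntil z hz)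
  linarith

/-- **Local equality.** -/
lemma local_eq (ht : Nn t) {c m1 : ℝ} (hc : 0 < c) (hlow : ∀ v, c * l1 v ≤ μ v)
    (hup : ∀ v, μ v ≤ m1 * l1 v) {N ρ : ℕ} {x y : ℤ × ℤ} (hy : y ∈ box N)
    (hball : ∀ z, n1 (z - x) ≤ ρ + 1 → z ∈ box N) (hR : ∀ z, n1 (z - x) ≤ ρ → z ∈ R)
    (h : m1 * n1 (y - x) + 2 * dev μ N t ≤ c * ρ) :
    Conn R x y ∧ pR t R x y = passageTime t x y := by
  have hx : x ∈ box N := hball x (by simp [n1])
  have key : ∀ w : squareLattice.Walk x y, walkCost t w < passageTime t x y + c →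
      ∀ z ∈ w.support, z ∈ R := by
    intro w hw z hz
    apply hR
    by_contra hzρ
    rw [not_le] at hzρ
    obtain ⟨u, hu, hu2⟩ := exists_sphere w x ρ (by simp [n1]) hz hzρ
    have h1 := pt_le_cost_of_mem ht w hu
    have huN : u ∈ box N := hball u (by omega)
    have h2 := le_dev μ t hx huN
    have h3 := le_dev μ t hx hy
    rw [abs_le] at h2 h3
    have h4 := hlow (toR (u - x))
    have h5 := hup (toR (y - x))
    rw [l1_toR] at h4 h5
    rw [hu2] at h4
    push_cast at h4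
    linarith
  obtain ⟨w0, hw0⟩ := exists_walk_lt t x y (show passageTime t x y < passageTime t x y + c by
    linarith)
  have hconn : Conn R x y := ⟨w0, key w0 hw0⟩
  refine ⟨hconn, le_antisymm ?_ (pt_le_pR ht hconn)⟩
  refine le_of_forall_pos_lt_add fun δ hδ => ?_
  obtain ⟨w, hw⟩ := exists_walk_lt t x y (show passageTime t x y <
    passageTime t x y + min c δ by have := lt_min hc hδ; linarith)
  have h1 := pR_le ht w (key w (hw.trans_le (by gcongr; exact min_le_left _ _)))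
  have h2 : min c δ ≤ δ := min_le_right _ _
  linarith

/-! ### The chain -/

/-- The `i`-th of `K` points on the segment from `x` to `y`. -/
def ch (x y : ℤ × ℤ) (K i : ℕ) : ℤ × ℤ :=
  (x.1 + (y.1 - x.1) * i / K, x.2 + (y.2 - x.2) * i / K)

lemma ch_zero (x y : ℤ × ℤ) (K : ℕ) : ch x y K 0 = x := by
  simp [ch]

lemma ch_self (x y : ℤ × ℤ) {K : ℕ} (hK : 0 < K) : ch x y K K = y := by
  have hK' : (K : ℤ) ≠ 0 := by positivity
  simp only [ch, Int.mul_ediv_cancel _ hK']
  ext <;> simp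

lemma div_step (a : ℤ) {K : ℕ} (hK : 0 < K) (i : ℕ) :
    |(((a * ((i + 1 : ℕ) : ℤ) / K - a * (i : ℤ) / K : ℤ)) : ℝ) - (1 / K : ℝ) * a| ≤ 1 := by
  have hK' : (0 : ℤ) < K := by exact_mod_cast hK
  have hKR : (0 : ℝ) < K := by exact_mod_cast hK
  obtain ⟨p, hp⟩ : ∃ p, p = a * (i : ℤ) / K := ⟨_, rfl⟩
  obtain ⟨q, hq⟩ : ∃ q, q = a * ((i + 1 : ℕ) : ℤ) / K := ⟨_, rfl⟩
  have h1 : p * K ≤ a * i := by rw [hp]; exact Int.ediv_mul_le _ hK'.ne'
  have h2 : a * i < (p + 1) * K := by rw [hp]; exact Int.lt_ediv_add_one_mul_self _ hK'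
  have h3 : q * K ≤ a * ((i + 1 : ℕ) : ℤ) := by rw [hq]; exact Int.ediv_mul_le _ hK'.ne'
  have h4 : a * ((i + 1 : ℕ) : ℤ) < (q + 1) * K := by
    rw [hq]; exact Int.lt_ediv_add_one_mul_self _ hK'
  rw [← hp, ← hq]
  push_cast at h3 h4 ⊢
  have h1' : (p : ℝ) * K ≤ a * i := by exact_mod_cast h1
  have h2' : (a : ℝ) * i < (p + 1) * K := by exact_mod_cast h2
  have h3' : (q : ℝ) * K ≤ a * (i + 1) := by exact_mod_cast h3
  have h4' : (a : ℝ) * (i + 1) < (q + 1) * K := by exact_mod_cast h4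
  have e : (q : ℝ) - p - 1 / K * a = ((q - p) * K - a) / K := by field_simp
  rw [e, abs_le, le_div_iff₀ hKR, div_le_iff₀ hKR]
  constructor <;> nlinarith

lemma ch_step (x y : ℤ × ℤ) {K : ℕ} (hK : 0 < K) (i : ℕ) :
    l1 (toR (ch x y K (i + 1) - ch x y K i) - (1 / K : ℝ) • toR (y - x)) ≤ 2 := by
  have h1 := div_step (y.1 - x.1) hK i
  have h2 := div_step (y.2 - x.2) hK i
  simp only [l1, toR, ch, Prod.fst_sub, Prod.snd_sub, Prod.smul_fst, Prod.smul_snd, smul_eq_mul,
    add_sub_add_left_eq_sub]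
  push_cast at h1 h2 ⊢
  linarith

lemma ch_step_n1 (x y : ℤ × ℤ) {K : ℕ} (hK : 0 < K) (i : ℕ) :
    (n1 (ch x y K (i + 1) - ch x y K i) : ℝ) ≤ (n1 (y - x) : ℝ) / K + 2 := by
  have h1 := ch_step x y hK i
  have h2 := l1_add_le (toR (ch x y K (i + 1) - ch x y K i) - (1 / K : ℝ) • toR (y - x))
    ((1 / K : ℝ) • toR (y - x))
  rw [sub_add_cancel, l1_toR] at h2
  have hKR : (0 : ℝ) < K := by exact_mod_cast hK
  have h3 : l1 ((1 / K : ℝ) • toR (y - x)) = (n1 (y - x) : ℝ) / K := by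
    rw [← l1_toR]
    simp only [l1, Prod.smul_fst, Prod.smul_snd, smul_eq_mul, abs_mul,
      abs_of_pos (one_div_pos.2 hKR)]
    ring
  linarith

lemma ch_dist (x y : ℤ × ℤ) {K : ℕ} (hK : 0 < K) (i j : ℕ) :
    (n1 (ch x y K (i + j) - ch x y K i) : ℝ) ≤ j * ((n1 (y - x) : ℝ) / K + 2) := by
  induction j with
  | zero => simp [n1]
  | succ j ih =>
    have h1 := ch_step_n1 x y hK (i + j)
    have h2 := n1_add_le (ch x y K (i + (j + 1)) - ch x y K (i + j))
      (ch x y K (i + j) - ch x y K i)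
    rw [sub_add_sub_cancel] at h2
    have h2' : (n1 (ch x y K (i + (j + 1)) - ch x y K i) : ℝ) ≤
      n1 (ch x y K (i + (j + 1)) - ch x y K (i + j)) + n1 (ch x y K (i + j) - ch x y K i) := by
      exact_mod_cast h2
    rw [← add_assoc] at h2' ⊢
    push_cast
    linarith

lemma div_between (a : ℤ) {K i : ℕ} (hK : 0 < K) (hi : i ≤ K) :
    (0 ≤ a * i / K ∧ a * i / K ≤ a) ∨ (a ≤ a * i / K ∧ a * i / K ≤ 0) := by
  have hK' : (0 : ℤ) < K := by exact_mod_cast hK
  have hi' : (i : ℤ) ≤ K := by exact_mod_cast hi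
  have hi0 : (0 : ℤ) ≤ i := by positivity
  rcases le_total 0 a with ha | ha
  · left
    constructor
    · exact Int.ediv_nonneg (by positivity) hK'.le
    · have : a * i / K ≤ (a * K) / K := Int.ediv_le_ediv hK' (by nlinarith)
      rwa [Int.mul_ediv_cancel _ hK'.ne'] at this
  · right
    constructor
    · rw [Int.le_ediv_iff_mul_le hK']
      nlinarith
    · have : a * i / K ≤ 0 / K := Int.ediv_le_ediv hK' (by nlinarith)
      rwa [Int.zero_ediv] at this

lemma ch_mem_box {x y : ℤ × ℤ} {K i N : ℕ} (hK : 0 < K) (hi : i ≤ K) (hx : x ∈ box N)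
    (hy : y ∈ box N) : ch x y K i ∈ box N := by
  rw [mem_box] at hx hy ⊢
  have h1 := div_between (y.1 - x.1) hK hi
  have h2 := div_between (y.2 - x.2) hK hi
  simp only [ch]
  omega

lemma n1_le_of_box {x y : ℤ × ℤ} {N : ℕ} (hx : x ∈ box N) (hy : y ∈ box N) :
    n1 (y - x) ≤ 4 * N := by
  rw [mem_box] at hx hy
  simp only [n1, Prod.fst_sub, Prod.snd_sub]
  omega

lemma mem_box_of_near {x z : ℤ × ℤ} {N M k : ℕ} (hx : x ∈ box N) (hz : n1 (z - x) ≤ k)
    (hM : N + k ≤ M) : z ∈ box M := by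
  rw [mem_box] at hx ⊢
  simp only [n1, Prod.fst_sub, Prod.snd_sub] at hz
  omega

/-- **Pointwise upper bound in a region**, on the event that the deviation is small. -/
lemma region_pointwise (ht : Nn t) {c m1 : ℝ} (hc : 0 < c) (hm : 0 ≤ m1)
    (hlow : ∀ v, c * l1 v ≤ μ v) (hup : ∀ v, μ v ≤ m1 * l1 v)
    (hlip : ∀ v w, |μ v - μ w| ≤ m1 * l1 (v - w)) (hhom : ∀ s : ℝ, 0 ≤ s → ∀ v, μ (s • v) = s * μ v)
    {K J n C : ℕ} (hJ : 0 < J) (hKJ : 2 * J < K) {x y : ℤ × ℤ} (hx : x ∈ box (C * n))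
    (hy : y ∈ box (C * n))
    (hL1 : LIn R x (ch x y K J)) (hL2 : LIn R (ch x y K (K - J)) y)
    (hB : ∀ i, J ≤ i → i ≤ K - J → ∀ z, n1 (z - ch x y K i) ≤ J * (n / K) → z ∈ R)
    (hD : m1 * (4 * C * n / K + 2) + 2 * dev μ ((C + 2) * n) t ≤ c * (J * (n / K) : ℕ))
    (hn : 0 < n) :
    pR t R x y ≤ pR t R x (ch x y K J) + pR t R (ch x y K (K - J)) y +
      (μ (toR (y - x)) + 2 * K * m1 + K * dev μ ((C + 2) * n) t) := by
  set D := dev μ ((C + 2) * n) t with hDdef
  have hD0 : 0 ≤ D := dev_nonneg _ _ _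
  have hK : 0 < K := by omega
  have hKR : (0 : ℝ) < K := by exact_mod_cast hK
  have hmu0 : ∀ v, 0 ≤ μ v := fun v => (mul_nonneg hc.le (l1_nonneg v)).trans (hlow v)
  have hρ : J * (n / K) ≤ n := by
    calc J * (n / K) ≤ K * (n / K) := Nat.mul_le_mul_right _ (by omega)
      _ ≤ n := Nat.mul_div_le n K
  have hmem : ∀ i ≤ K, ch x y K i ∈ box ((C + 2) * n) := fun i hi =>
    mem_box_of_near (k := 0) (ch_mem_box hK hi hx hy) (by simp [n1]) (by
      rw [add_mul]; omega)
  -- the inner pieces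
  have hinner : ∀ i, J ≤ i → i < K - J → Conn R (ch x y K i) (ch x y K (i + 1)) ∧
      pR t R (ch x y K i) (ch x y K (i + 1)) ≤ (1 / K : ℝ) * μ (toR (y - x)) + 2 * m1 + D := by
    intro i hi1 hi2
    have hstep := ch_step_n1 x y hK i
    have hn1 : (n1 (y - x) : ℝ) ≤ 4 * (C * n : ℕ) := by
      exact_mod_cast n1_le_of_box hx hy
    have hloc := local_eq (R := R) (μ := μ) ht hc hlow hup (N := (C + 2) * n)
      (ρ := J * (n / K)) (x := ch x y K i) (y := ch x y K (i + 1)) (hmem _ (by omega))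
      (fun z hz => mem_box_of_near (ch_mem_box hK (show i ≤ K by omega) hx hy) hz (by
        rw [add_mul]; omega))
      (fun z hz => hB i hi1 hi2.le z hz) (by
        refine le_trans ?_ hD
        have : (n1 (ch x y K (i + 1) - ch x y K i) : ℝ) ≤ 4 * C * n / K + 2 := by
          refine hstep.trans ?_
          have : (n1 (y - x) : ℝ) / K ≤ 4 * C * n / K := by
            gcongr
            push_cast at hn1
            linarith
          linarith
        have := mul_le_mul_of_nonneg_left this hm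
        linarith)
    refine ⟨hloc.1, ?_⟩
    rw [hloc.2]
    have h1 := le_dev μ t (hmem i (by omega)) (hmem (i + 1) (by omega))
    rw [← hDdef, abs_le] at h1
    have h2 := hlip (toR (ch x y K (i + 1) - ch x y K i)) ((1 / K : ℝ) • toR (y - x))
    have h3 := ch_step x y hK i
    have h4 := mul_le_mul_of_nonneg_left h3 hm
    rw [hhom _ (by positivity), abs_le] at h2
    linarith
  -- the chain of the inner pieces
  obtain ⟨hc1, hc2⟩ := pR_chain (R := R) ht (fun i => ch x y K (J + i)) (K - J - J) (by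
      exact hB J le_rfl (by omega) _ (by simp [n1])) (by
      intro i hi
      exact (hinner (J + i) (by omega) (by omega)).1)
  have hsum : ∑ i ∈ Finset.range (K - J - J), pR t R (ch x y K (J + i)) (ch x y K (J + (i + 1)))
      ≤ μ (toR (y - x)) + 2 * K * m1 + K * D := by
    have h1 : ∑ i ∈ Finset.range (K - J - J), pR t R (ch x y K (J + i)) (ch x y K (J + (i + 1)))
        ≤ ∑ _i ∈ Finset.range (K - J - J), ((1 / K : ℝ) * μ (toR (y - x)) + 2 * m1 + D) := by
      refine Finset.sum_le_sum fun i hi => ?_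
      rw [Finset.mem_range] at hi
      exact (hinner (J + i) (by omega) (by omega)).2
    refine h1.trans ?_
    rw [Finset.sum_const, Finset.card_range, nsmul_eq_mul]
    have h2 : ((K - J - J : ℕ) : ℝ) ≤ K := by
      have : K - J - J ≤ K := by omega
      exact_mod_cast this
    have h3 : 0 ≤ (1 / K : ℝ) * μ (toR (y - x)) + 2 * m1 + D := by
      have := hmu0 (toR (y - x))
      positivity
    refine (mul_le_mul_of_nonneg_right h2 h3).trans (le_of_eq ?_)
    field_simp
  simp only [add_zero] at hc1 hc2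
  have hend : J + (K - J - J) = K - J := by omega
  rw [hend] at hc1 hc2
  obtain ⟨c1, -⟩ := exists_path_edgesR hL1
  obtain ⟨c2, -⟩ := exists_path_edgesR hL2
  have t1 := pR_triangle ht c1 (hc1.trans c2)
  have t2 := pR_triangle ht hc1 c2
  linarith

variable {G : Measure ℝ} [IsProbabilityMeasure G] {lam : ℝ}

/-- **Upper shape bound in regions.** -/
theorem region_upper (h0 : G (Set.Iio 0) = 0) (hz : G {0} = 0) (hlam : 0 < lam)
    (hexp : Integrable (fun x => Real.exp (lam * x)) G) (hμ : IsTC G μ) {ε : ℝ} (hε : 0 < ε)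
    (C : ℕ) :
    ∃ K J n0 : ℕ, 0 < J ∧ 2 * J < K ∧ ∀ n ≥ n0, 0 < n ∧ ∀ x y : ℤ × ℤ,
      x ∈ box (C * n) → y ∈ box (C * n) → ∀ R : Set (ℤ × ℤ), LIn R x y →
      LIn R x (ch x y K J) → LIn R (ch x y K (K - J)) y →
      (∀ i, J ≤ i → i ≤ K - J → ∀ z, n1 (z - ch x y K i) ≤ J * (n / K) → z ∈ R) →
      Integrable (fun t => pR t R x y) (iidLaw G) ∧
      ∫ t, pR t R x y ∂(iidLaw G) ≤ μ (toR (y - x)) + ε * n := by
  have h2 := integrable_sq h0 hlam hexp
  obtain ⟨c, hc, hlow⟩ := exists_mu_ge h0 hz h2 hμ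
  obtain ⟨m1, hm1⟩ : ∃ m1, m1 = ∫ z, z ∂G := ⟨_, rfl⟩
  have hm : (0 : ℝ) ≤ m1 := by rw [hm1]; exact integral_nonneg_of_ae (ae_nonneg h0)
  obtain ⟨m2, hm2⟩ : ∃ m2, m2 = ∫ z, z ^ 2 ∂G := ⟨_, rfl⟩
  have hm20 : (0 : ℝ) ≤ m2 := by rw [hm2]; exact integral_nonneg fun z => sq_nonneg z
  have hup : ∀ v, μ v ≤ m1 * l1 v := fun v => by rw [hm1]; exact mu_le h0 h2 hμ v
  have hlip : ∀ v w, |μ v - μ w| ≤ m1 * l1 (v - w) := fun v w => by
    rw [hm1]; exact abs_mu_sub_le h0 h2 hμ v w
  have hhom : ∀ s : ℝ, 0 ≤ s → ∀ v, μ (s • v) = s * μ v := fun s hs v => mu_smul h0 h2 hμ hs v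
  -- the number of pieces to skip
  obtain ⟨J, hJ1, hJ2⟩ : ∃ J : ℕ, 0 < J ∧ 4 * C * m1 + 1 ≤ c * J := by
    obtain ⟨J, hJ⟩ := exists_nat_gt ((4 * C * m1 + 1) / c)
    rw [div_lt_iff₀ hc] at hJ
    refine ⟨J + 1, Nat.succ_pos _, ?_⟩
    push_cast
    nlinarith
  obtain ⟨K, hKJ, hK2⟩ : ∃ K : ℕ, 2 * J < K ∧ 8 * C * J * m1 / K ≤ ε / 8 := by
    obtain ⟨K, hK⟩ := exists_nat_gt (8 * C * J * m1 / (ε / 8))
    refine ⟨K + 2 * J + 1, by omega, ?_⟩
    rw [div_lt_iff₀ (by positivity)] at hK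
    rw [div_le_iff₀ (by positivity)]
    push_cast
    have : (0 : ℝ) ≤ ε / 8 * (2 * J + 1) := by positivity
    nlinarith
  have hKpos : 0 < K := by omega
  have hKR : (0 : ℝ) < K := by exact_mod_cast hKpos
  obtain ⟨S, hS1, hS2⟩ : ∃ S : ℝ, 0 < S ∧ 16 * C ^ 2 * m2 / S ≤ ε / 8 := by
    refine ⟨16 * C ^ 2 * m2 / (ε / 8) + 1, by positivity, ?_⟩
    rw [div_le_iff₀ (by positivity)]
    have : ε / 8 * (16 * C ^ 2 * m2 / (ε / 8) + 1) = 16 * C ^ 2 * m2 + ε / 8 := by
      field_simp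
    rw [this]
    linarith
  obtain ⟨n1', hn1'⟩ := uniform_shape (G := G) h0 hlam hexp hμ
    (ε := ε / 8 / ((K + 4 * K * S) * (C + 2))) (by positivity)
  obtain ⟨n2', hn2'⟩ : ∃ n2' : ℕ, 2 * K * (2 * m1 + c * J) ≤ n2' :=
    exists_nat_ge _
  obtain ⟨n3', hn3'⟩ : ∃ n3' : ℕ, (2 * K * m1 + 4 * J * m1) / (ε / 8) ≤ n3' := exists_nat_ge _
  refine ⟨K, J, n1' + n2' + n3' + 1, hJ1, hKJ, fun n hn => ⟨by omega, ?_⟩⟩
  intro x y hx hy R hL hL1 hL2 hB
  have hnpos : 0 < n := by omega
  have hnR : (0 : ℝ) < n := by exact_mod_cast hnpos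
  have hn2 : 2 * K * (2 * m1 + c * J) ≤ (n : ℝ) := by
    have : (n2' : ℝ) ≤ n := by exact_mod_cast (by omega : n2' ≤ n)
    linarith
  have hn3 : 2 * K * m1 + 4 * J * m1 ≤ ε / 8 * n := by
    have h1 : (n3' : ℝ) ≤ n := by exact_mod_cast (by omega : n3' ≤ n)
    rw [div_le_iff₀ (by positivity)] at hn3'
    nlinarith
  obtain ⟨hDi, hDE⟩ := hn1' ((C + 2) * n) (by
    have : n ≤ (C + 2) * n := by nlinarith
    omega)
  have hint := integrable_pR (G := G) h0 h2 hL
  refine ⟨hint, ?_⟩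
  -- pointwise bound
  have hpt : ∀ t : Environment, Nn t → pR t R x y ≤
      (pR t R x (ch x y K J) + pR t R (ch x y K (K - J)) y
        + (μ (toR (y - x)) + 2 * K * m1)) +
      ((K + 4 * K * S) * dev μ ((C + 2) * n) t + pR t R x y ^ 2 / (S * n)) := by
    intro t ht
    have hmu0 : 0 ≤ μ (toR (y - x)) := mu_nonneg h0 h2 hμ _
    have hD0 := dev_nonneg μ ((C + 2) * n) t
    have p1 := pR_nonneg ht R x (ch x y K J)
    have p2 := pR_nonneg ht R (ch x y K (K - J)) y
    have p3 := pR_nonneg ht R x y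
    have p4 : 0 ≤ pR t R x y ^ 2 / (S * n) := by positivity
    have p5 : 0 ≤ 4 * K * S * dev μ ((C + 2) * n) t := by positivity
    have p6 : 0 ≤ K * dev μ ((C + 2) * n) t := by positivity
    have p7 : (0 : ℝ) ≤ 2 * K * m1 := by positivity
    rcases le_or_gt (dev μ ((C + 2) * n) t) (n / (4 * K)) with hgood | hbad
    · have hD : m1 * (4 * C * n / K + 2) + 2 * dev μ ((C + 2) * n) t
          ≤ c * (J * (n / K) : ℕ) := by
        have e1 : ((n : ℝ) / K) - 1 ≤ ((n / K : ℕ) : ℝ) := by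
          rw [sub_le_iff_le_add, div_le_iff₀ hKR]
          have : n < (n / K + 1) * K := by
            have := Nat.lt_div_mul_add (a := n) hKpos
            linarith [add_mul (n / K) 1 K]
          have : (n : ℝ) < ((n / K : ℕ) + 1) * K := by exact_mod_cast this
          linarith
        have e2 : c * J * ((n : ℝ) / K - 1) ≤ c * (J * (n / K) : ℕ) := by
          push_cast
          rw [mul_assoc]
          gcongr
        refine le_trans ?_ e2
        have e3 : 2 * dev μ ((C + 2) * n) t ≤ n / K / 2 := by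
          have : (n : ℝ) / K / 2 = 2 * (n / (4 * K)) := by field_simp; norm_num
          rw [this]; linarith
        have e4 : 2 * m1 + c * J ≤ n / K / 2 := by
          rw [div_div, le_div_iff₀ (by positivity)]
          linarith
        have e5 : (4 * C * m1 + 1) * ((n : ℝ) / K) ≤ c * J * (n / K) := by gcongr
        have e6 : m1 * (4 * C * n / K + 2) = 4 * C * m1 * (n / K) + 2 * m1 := by ring
        rw [e6]
        linarith
      have := region_pointwise (R := R) ht hc hm hlow hup hlip hhom hJ1 hKJ hx hy hL1 hL2 hB hD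
        hnpos
      linarith
    · have b1 : pR t R x y ≤ pR t R x y ^ 2 / (S * n) + S * n := by
        rcases le_total (pR t R x y) (S * n) with hle | hle
        · linarith
        · have : pR t R x y ≤ pR t R x y ^ 2 / (S * n) := by
            rw [le_div_iff₀ (by positivity), sq]
            gcongr
          have : 0 ≤ S * n := by positivity
          linarith
      have b2 : S * n ≤ 4 * K * S * dev μ ((C + 2) * n) t := by
        rw [div_lt_iff₀ (by positivity)] at hbad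
        nlinarith
      linarith
  -- integrate
  have i1 := integrable_pR (G := G) h0 h2 hL1
  have i2 := integrable_pR (G := G) h0 h2 hL2
  obtain ⟨i3, e3⟩ := pR_sq (G := G) h0 h2 hL
  have e1 := integral_pR_le (G := G) h0 h2 hL1
  have e2 := integral_pR_le (G := G) h0 h2 hL2
  have I1 : Integrable (fun t => pR t R x (ch x y K J) + pR t R (ch x y K (K - J)) y
        + (μ (toR (y - x)) + 2 * K * m1)) (iidLaw G) := (i1.add i2).add (integrable_const _)
  have I2 : Integrable (fun t => (K + 4 * K * S) * dev μ ((C + 2) * n) t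
        + pR t R x y ^ 2 / (S * n)) (iidLaw G) := (hDi.const_mul _).add (i3.div_const _)
  refine (integral_mono_ae hint (I1.add I2) (by
    filter_upwards [ae_Nn (G := G) h0] with t ht using hpt t ht)).trans ?_
  have E1 := integral_add3 (μ (toR (y - x)) + 2 * K * m1) i1 i2
  have E2 : ∫ t, ((K + 4 * K * S) * dev μ ((C + 2) * n) t + pR t R x y ^ 2 / (S * n)) ∂(iidLaw G)
      = (K + 4 * K * S) * ∫ t, dev μ ((C + 2) * n) t ∂(iidLaw G)
        + (∫ t, pR t R x y ^ 2 ∂(iidLaw G)) / (S * n) := by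
    rw [integral_add (hDi.const_mul _) (i3.div_const _), integral_const_mul, integral_div]
  rw [integral_add' I1 I2, E1, E2]
  -- the ends
  have hnn : (n1 (y - x) : ℝ) ≤ 4 * C * n := by
    have : (n1 (y - x) : ℝ) ≤ ((4 * (C * n) : ℕ) : ℝ) := by exact_mod_cast n1_le_of_box hx hy
    push_cast at this
    linarith
  have f1 : (n1 (ch x y K J - x) : ℝ) ≤ J * (4 * C * n / K + 2) := by
    have h := ch_dist x y hKpos 0 J
    rw [zero_add, ch_zero] at h
    refine h.trans ?_
    gcongr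
  have f2 : (n1 (y - ch x y K (K - J)) : ℝ) ≤ J * (4 * C * n / K + 2) := by
    have h := ch_dist x y hKpos (K - J) J
    rw [show K - J + J = K by omega, ch_self x y hKpos] at h
    refine h.trans ?_
    gcongr
  rw [← hm1] at e1 e2
  rw [← hm2] at e3
  have g1 : ∫ t, pR t R x (ch x y K J) ∂(iidLaw G) ≤ J * (4 * C * n / K + 2) * m1 :=
    e1.trans (mul_le_mul_of_nonneg_right f1 hm)
  have g2 : ∫ t, pR t R (ch x y K (K - J)) y ∂(iidLaw G) ≤ J * (4 * C * n / K + 2) * m1 :=
    e2.trans (mul_le_mul_of_nonneg_right f2 hm)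
  have g3 : (∫ t, pR t R x y ^ 2 ∂(iidLaw G)) / (S * n) ≤ ε / 8 * n := by
    have k1 : (n1 (y - x) : ℝ) ^ 2 * m2 ≤ (4 * C * n) ^ 2 * m2 := by gcongr
    have k2 : (∫ t, pR t R x y ^ 2 ∂(iidLaw G)) / (S * n) ≤ (4 * C * n) ^ 2 * m2 / (S * n) := by
      gcongr
      exact e3.trans k1
    refine k2.trans ?_
    have k3 : (4 * C * n : ℝ) ^ 2 * m2 / (S * n) = 16 * C ^ 2 * m2 / S * n := by
      field_simp
      ring
    rw [k3]
    gcongr
  have g4 : (K + 4 * K * S) * ∫ t, dev μ ((C + 2) * n) t ∂(iidLaw G) ≤ ε / 8 * n := by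
    have k1 : (K + 4 * K * S) * ∫ t, dev μ ((C + 2) * n) t ∂(iidLaw G) ≤ (K + 4 * K * S) *
      (ε / 8 / ((K + 4 * K * S) * (C + 2)) * ((C + 2) * n : ℕ)) := by gcongr
    refine k1.trans (le_of_eq ?_)
    push_cast
    field_simp
  have g5 : J * (4 * C * n / K + 2) * m1 + J * (4 * C * n / K + 2) * m1
      = 8 * C * J * m1 / K * n + 4 * J * m1 := by
    field_simp
    ring
  have g6 : 8 * C * J * m1 / K * n ≤ ε / 8 * n := by gcongr
  have g7 : 0 ≤ ε * n := by positivity
  linarith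

/-- The vertical slab. -/
def slab (a b : ℤ) : Set (ℤ × ℤ) := {z | a ≤ z.1 ∧ z.1 ≤ b}

lemma LIn_slab {a b : ℤ} {x y : ℤ × ℤ} (hx : x ∈ slab a b) (hy : y ∈ slab a b) :
    LIn (slab a b) x y := by
  simp only [slab, Set.mem_ofPred_eq, LIn] at *
  constructor
  · intro i hi; omega
  · intro i _; omega

/-- **Slab upper shape bound**: `E T_{[0,g]×ℤ}((0,0),(g,h)) ≤ μ(g,h) + ε g`, uniformly in
`|h| ≤ C g`. -/
theorem slab_upper (h0 : G (Set.Iio 0) = 0) (hz : G {0} = 0) (hlam : 0 < lam)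
    (hexp : Integrable (fun x => Real.exp (lam * x)) G) (hμ : IsTC G μ) {ε : ℝ} (hε : 0 < ε)
    (C : ℕ) :
    ∃ g0 : ℕ, ∀ g ≥ g0, ∀ h : ℤ, |h| ≤ C * g →
      Integrable (fun t => pR t (slab 0 g) (0, 0) (g, h)) (iidLaw G) ∧
      ∫ t, pR t (slab 0 g) (0, 0) (g, h) ∂(iidLaw G) ≤ μ (g, h) + ε * g := by
  obtain ⟨K, J, n0, hJ, hKJ, H⟩ := region_upper (μ := μ) h0 hz hlam hexp hμ hε (C + 1)
  refine ⟨n0, fun g hg h hh => ?_⟩
  obtain ⟨hgpos, H⟩ := H g hg
  have hK : 0 < K := by omega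
  have hK' : (0 : ℤ) < K := by exact_mod_cast hK
  have hg' : (0 : ℤ) < g := by exact_mod_cast hgpos
  have hslab : ∀ i ≤ K, ch (0, 0) ((g : ℤ), h) K i ∈ slab 0 g := by
    intro i hi
    have := div_between (g : ℤ) hK hi
    simp only [slab, ch, Set.mem_ofPred_eq, sub_zero, zero_add]
    omega
  have h1 := H (0, 0) ((g : ℤ), h) (zero_mem_box _) (by
    rw [mem_box]
    push_cast
    rw [abs_le] at hh
    have : (0 : ℤ) ≤ C * g := by positivity
    constructor
    · constructor <;> nlinarith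
    · constructor <;> nlinarith) (slab 0 g)
    (LIn_slab (by simp [slab]) (by simp [slab]))
    (LIn_slab (by simp [slab]) (hslab J (by omega)))
    (LIn_slab (hslab (K - J) (by omega)) (by simp [slab])) (by
      intro i hi1 hi2 z hz'
      have e1 : (z.1 - (g : ℤ) * i / K).natAbs ≤ J * (g / K) := by
        simp only [n1, ch, Prod.fst_sub, Prod.snd_sub, sub_zero, zero_add] at hz'
        omega
      have q1 : ((J * (g / K) : ℕ) : ℤ) ≤ (g : ℤ) * i / K := by
        rw [Int.le_ediv_iff_mul_le hK']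
        have a1 : (J * (g / K)) * K ≤ g * i := by
          calc (J * (g / K)) * K = J * (K * (g / K)) := by ring
            _ ≤ J * g := Nat.mul_le_mul_left _ (Nat.mul_div_le g K)
            _ ≤ i * g := Nat.mul_le_mul_right _ hi1
            _ = g * i := mul_comm _ _
        exact_mod_cast a1
      have q2 : (g : ℤ) * i / K ≤ g - ((J * (g / K) : ℕ) : ℤ) := by
        have a2 : (g : ℤ) * i / K * K ≤ g * i := Int.ediv_mul_le _ hK'.ne'
        have a3 : (J * (g / K)) * K ≤ g * J := by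
          calc (J * (g / K)) * K = J * (K * (g / K)) := by ring
            _ ≤ J * g := Nat.mul_le_mul_left _ (Nat.mul_div_le g K)
            _ = g * J := mul_comm _ _
        have a3' : (((J * (g / K) : ℕ)) : ℤ) * K ≤ g * J := by exact_mod_cast a3
        have a4 : (g : ℤ) * i + g * J ≤ g * K := by
          have : (i : ℤ) + J ≤ K := by omega
          nlinarith
        have a5 : ((g : ℤ) * i / K + ((J * (g / K) : ℕ) : ℤ)) * K ≤ g * K := by
          rw [add_mul]; linarith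
        have := le_of_mul_le_mul_right a5 hK'
        linarith
      simp only [slab, Set.mem_ofPred_eq]
      constructor <;> omega)
  have e : toR (((g : ℤ), h) - ((0 : ℤ), (0 : ℤ))) = ((g : ℝ), (h : ℝ)) := by
    simp [toR]
  rw [e] at h1
  exact h1

end Crest.Agent.R151.K
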