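import Crest.Agent.R151.E792a
import Crest.Agent.R151.C710j
import Crest.Agent.R151.K6

/-!
# R151 / S0214 part 2, [E8] height selection, part b: chains of short geodesics (helper792)

`tube x y K ρ` = union of the balls of radius `ρ` around the `K + 1` points `ch x y K i` of the
segment from `x` to `y`. Passage times restricted to the tube: `tube_good` (if the deviation from
the shape is small) and `tube_crude` (always).
-/

set_option autoImplicit false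

open MeasureTheory Filter ProbabilityTheory Topology
open Crest.ProbabilityR.FirstPassage

namespace Crest.Agent.R151.E792

open K R78 B710 Q

/-- union of balls around the points of the segment -/
def tube (x y : ℤ × ℤ) (K ρ : ℕ) : Set (ℤ × ℤ) := {v | ∃ i ≤ K, n1 (v - ch x y K i) ≤ ρ}

lemma mem_tube {x y v : ℤ × ℤ} {K ρ i : ℕ} (hi : i ≤ K) (hv : n1 (v - ch x y K i) ≤ ρ) :
    v ∈ tube x y K ρ := ⟨i, hi, hv⟩

lemma ch_mem_tube {x y : ℤ × ℤ} {K ρ i : ℕ} (hi : i ≤ K) : ch x y K i ∈ tube x y K ρ :=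
  mem_tube hi (by simp [n1])

/-- the L-shaped path from `x` to `y` -/
def Lset (x y : ℤ × ℤ) : Set (ℤ × ℤ) :=
  {z | (z.2 = x.2 ∧ ((x.1 ≤ z.1 ∧ z.1 ≤ y.1) ∨ (y.1 ≤ z.1 ∧ z.1 ≤ x.1))) ∨
    (z.1 = y.1 ∧ ((x.2 ≤ z.2 ∧ z.2 ≤ y.2) ∨ (y.2 ≤ z.2 ∧ z.2 ≤ x.2)))}

lemma LIn_Lset (x y : ℤ × ℤ) : LIn (Lset x y) x y :=
  ⟨fun _ hi => Or.inl ⟨rfl, hi⟩, fun _ hi => Or.inr ⟨rfl, hi⟩⟩

lemma Lset_n1 {x y z : ℤ × ℤ} (hz : z ∈ Lset x y) : n1 (z - x) ≤ n1 (y - x) := by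
  obtain ⟨x1, x2⟩ := x
  obtain ⟨y1, y2⟩ := y
  obtain ⟨z1, z2⟩ := z
  simp only [Lset, Set.mem_ofPred_eq, n1, Prod.fst_sub, Prod.snd_sub] at hz ⊢
  rcases hz with ⟨rfl, h⟩ | ⟨rfl, h⟩ <;> omega

variable {t : Environment} {μ : ℝ × ℝ → ℝ}

/-- **good case**: a chain of local geodesics -/
lemma tube_good (ht : Nn t) {c m1 : ℝ} (hc : 0 < c) (hm : 0 ≤ m1)
    (hlow : ∀ v, c * l1 v ≤ μ v) (hup : ∀ v, μ v ≤ m1 * l1 v)
    (hlip : ∀ v w, |μ v - μ w| ≤ m1 * l1 (v - w)) (hhom : ∀ s : ℝ, 0 ≤ s → ∀ v, μ (s • v) = s * μ v)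
    {K ρ N : ℕ} (hK : 0 < K) {x y : ℤ × ℤ}
    (hball : ∀ i ≤ K, ∀ z, n1 (z - ch x y K i) ≤ ρ + 1 → z ∈ box N)
    (hD : m1 * ((n1 (y - x) : ℝ) / K + 2) + 2 * dev μ N t ≤ c * ρ) :
    Conn (tube x y K ρ) x y ∧
    pR t (tube x y K ρ) x y ≤ μ (toR (y - x)) + 2 * K * m1 + K * dev μ N t := by
  set D := dev μ N t with hDdef
  have hKR : (0 : ℝ) < K := by exact_mod_cast hK
  have hmem : ∀ i ≤ K, ch x y K i ∈ box N := fun i hi => hball i hi _ (by simp [n1])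
  have hinner : ∀ i < K, Conn (tube x y K ρ) (ch x y K i) (ch x y K (i + 1)) ∧
      pR t (tube x y K ρ) (ch x y K i) (ch x y K (i + 1)) ≤
        (1 / K : ℝ) * μ (toR (y - x)) + 2 * m1 + D := by
    intro i hi
    have hstep := ch_step_n1 x y hK i
    have hloc := local_eq (R := tube x y K ρ) (μ := μ) ht hc hlow hup (N := N)
      (ρ := ρ) (x := ch x y K i) (y := ch x y K (i + 1)) (hmem _ (by omega))
      (fun z hz => hball i hi.le z hz)
      (fun z hz => mem_tube hi.le hz) (by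
        refine le_trans ?_ hD
        have := mul_le_mul_of_nonneg_left hstep hm
        linarith)
    refine ⟨hloc.1, ?_⟩
    rw [hloc.2]
    have h1 := le_dev μ t (hmem i hi.le) (hmem (i + 1) (by omega))
    rw [← hDdef, abs_le] at h1
    have h2 := hlip (toR (ch x y K (i + 1) - ch x y K i)) ((1 / K : ℝ) • toR (y - x))
    have h3 := ch_step x y hK i
    have h4 := mul_le_mul_of_nonneg_left h3 hm
    rw [hhom _ (by positivity), abs_le] at h2
    linarith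
  obtain ⟨hc1, hc2⟩ := pR_chain (R := tube x y K ρ) ht (fun i => ch x y K i) K
    (ch_mem_tube (Nat.zero_le _)) (fun i hi => (hinner i hi).1)
  simp only [ch_zero, ch_self x y hK] at hc1 hc2
  refine ⟨hc1, hc2.trans ?_⟩
  refine (Finset.sum_le_sum fun i hi => (hinner i (Finset.mem_range.1 hi)).2).trans ?_
  rw [Finset.sum_const, Finset.card_range, nsmul_eq_mul]
  refine le_of_eq ?_
  field_simp

/-- **crude case** -/
lemma tube_crude (ht : Nn t) {K ρ L N : ℕ} (hK : 0 < K) {x y : ℤ × ℤ}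
    (hmem : ∀ i ≤ K, ch x y K i ∈ box N)
    (hρ : (n1 (y - x) : ℝ) / K + 2 ≤ ρ) (hL : (n1 (y - x) : ℝ) / K + 2 ≤ L) {B : ℝ}
    (hB : ∀ p ∈ box N, ∀ p' ∈ box N, n1 (p' - p) ≤ L → pR t (Lset p p') p p' ≤ B) :
    Conn (tube x y K ρ) x y ∧ pR t (tube x y K ρ) x y ≤ K * B := by
  have hinner : ∀ i < K, Conn (tube x y K ρ) (ch x y K i) (ch x y K (i + 1)) ∧
      pR t (tube x y K ρ) (ch x y K i) (ch x y K (i + 1)) ≤ B := by
    intro i hi
    have hstep := ch_step_n1 x y hK i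
    have h1 : n1 (ch x y K (i + 1) - ch x y K i) ≤ ρ := by
      exact_mod_cast hstep.trans hρ
    have h2 : n1 (ch x y K (i + 1) - ch x y K i) ≤ L := by
      exact_mod_cast hstep.trans hL
    have hsub : Lset (ch x y K i) (ch x y K (i + 1)) ⊆ tube x y K ρ := fun z hz =>
      mem_tube hi.le ((Lset_n1 hz).trans h1)
    have hcon := (exists_path_edgesR (LIn_Lset (ch x y K i) (ch x y K (i + 1)))).1
    exact ⟨hcon.mono hsub, (pR_anti ht hsub hcon).trans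
      (hB _ (hmem i hi.le) _ (hmem (i + 1) (by omega)) h2)⟩
  obtain ⟨hc1, hc2⟩ := pR_chain (R := tube x y K ρ) ht (fun i => ch x y K i) K
    (ch_mem_tube (Nat.zero_le _)) (fun i hi => (hinner i hi).1)
  simp only [ch_zero, ch_self x y hK] at hc1 hc2
  refine ⟨hc1, hc2.trans ?_⟩
  refine (Finset.sum_le_sum fun i hi => (hinner i (Finset.mem_range.1 hi)).2).trans ?_
  rw [Finset.sum_const, Finset.card_range, nsmul_eq_mul]

/-- coordinates of the points of the segment -/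
lemma ch_near (x y : ℤ × ℤ) {K : ℕ} (hK : 0 < K) (i : ℕ) :
    l1 (toR (ch x y K i) - (toR x + ((i : ℝ) / K) • (toR y - toR x))) ≤ 2 := by
  have hKR : (0 : ℝ) < K := by exact_mod_cast hK
  have key : ∀ a : ℤ, |((a * i / K : ℤ) : ℝ) - (i : ℝ) / K * a| ≤ 1 := by
    intro a
    have h1 := Int.mul_ediv_add_emod (a * i) K
    have h2 := Int.emod_nonneg (a * i) (show (K : ℤ) ≠ 0 by exact_mod_cast hK.ne')
    have h3 := Int.emod_lt_of_pos (a * i) (show (0 : ℤ) < K by exact_mod_cast hK)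
    have g1 : (K : ℝ) * ((a * i / K : ℤ) : ℝ) + ((a * i % K : ℤ) : ℝ) = a * i := by exact_mod_cast h1
    have g2 : (0 : ℝ) ≤ ((a * i % K : ℤ) : ℝ) := by exact_mod_cast h2
    have g3 : ((a * i % K : ℤ) : ℝ) < K := by exact_mod_cast h3
    have g4 : ((a * i / K : ℤ) : ℝ) - (i : ℝ) / K * a = -(((a * i % K : ℤ) : ℝ) / K) := by
      field_simp
      linarith
    rw [g4, abs_neg, abs_of_nonneg (by positivity), div_le_one hKR]
    exact g3.le
  unfold l1 ch toR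
  simp only [Prod.fst_sub, Prod.snd_sub, Prod.fst_add, Prod.snd_add, Prod.smul_fst, Prod.smul_snd,
    smul_eq_mul]
  have k1 := key (y.1 - x.1)
  have k2 := key (y.2 - x.2)
  push_cast at k1 k2 ⊢
  have e1 : (x.1 : ℝ) + (((y.1 - x.1) * i / K : ℤ) : ℝ) - ((x.1 : ℝ) + (i : ℝ) / K * (y.1 - x.1)) =
      (((y.1 - x.1) * i / K : ℤ) : ℝ) - (i : ℝ) / K * (y.1 - x.1) := by ring
  have e2 : (x.2 : ℝ) + (((y.2 - x.2) * i / K : ℤ) : ℝ) - ((x.2 : ℝ) + (i : ℝ) / K * (y.2 - x.2)) =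
      (((y.2 - x.2) * i / K : ℤ) : ℝ) - (i : ℝ) / K * (y.2 - x.2) := by ring
  rw [e1, e2]
  linarith

/-- linear functionals on the tube -/
lemma tube_coord (f : ℝ × ℝ →L[ℝ] ℝ) {x y v : ℤ × ℤ} {K ρ i : ℕ} (hK : 0 < K)
    (hv : n1 (v - ch x y K i) ≤ ρ) (θ : ℝ × ℝ) :
    |f (pos θ v) - (f (pos θ x) + (i : ℝ) / K * (f (pos θ y) - f (pos θ x)))| ≤
      C710.fn f * (ρ + 2) := by
  have h1 : f (pos θ v) - (f (pos θ x) + (i : ℝ) / K * (f (pos θ y) - f (pos θ x))) =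
      f (toR (v - ch x y K i)) + f (toR (ch x y K i) -
        (toR x + ((i : ℝ) / K) • (toR y - toR x))) := by
    unfold pos
    rw [toR_sub]
    simp only [map_add, map_sub, map_smul, smul_eq_mul]
    ring
  rw [h1]
  have h2 := C710.abs_f_le f (toR (v - ch x y K i))
  have h3 := C710.abs_f_le f (toR (ch x y K i) - (toR x + ((i : ℝ) / K) • (toR y - toR x)))
  have h4 := ch_near x y hK i
  have h5 : l1 (toR (v - ch x y K i)) ≤ ρ := by
    rw [l1_toR]; exact_mod_cast hv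
  have h6 := C710.fn_nonneg f
  calc |f (toR (v - ch x y K i)) + f (toR (ch x y K i) -
        (toR x + ((i : ℝ) / K) • (toR y - toR x)))| ≤ _ := abs_add_le _ _
    _ ≤ C710.fn f * ρ + C710.fn f * 2 := add_le_add
        (h2.trans (mul_le_mul_of_nonneg_left h5 h6)) (h3.trans (mul_le_mul_of_nonneg_left h4 h6))
    _ = C710.fn f * (ρ + 2) := by ring

end Crest.Agent.R151.E792
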