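import Crest.Agent.R151.E792b

/-!
# R151 / S0214 part 2, [E8] height selection, part c: the fall `W/16 → -W/8` over a large height,
deterministic part (helper792)
-/

set_option autoImplicit false

open MeasureTheory Filter ProbabilityTheory Topology
open Crest.ProbabilityR.FirstPassage

namespace Crest.Agent.R151.E792

open K R78 B710 Q

/-- real arithmetic for the tube -/
lemma tube_arith {W τ a₀ a₁ b₀ b₁ a b Y : ℝ} (hW : 0 < W) (hτ0 : 0 ≤ τ) (hτ1 : τ ≤ 1)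
    (ha0 : 33 / 400 * W ≤ a₀) (ha0' : a₀ ≤ 33 / 400 * W + W / 1000)
    (ha1 : -(3 / 20 * W) ≤ a₁) (ha1' : a₁ ≤ -(3 / 20 * W) + W / 1000)
    (hb0 : |b₀| ≤ W / 400) (hb1 : |b₁ - Y| ≤ W / 400) (hY : 3 * W ≤ Y)
    (ha : |a - (a₀ + τ * (a₁ - a₀))| ≤ W / 400) (hb : |b - (b₀ + τ * (b₁ - b₀))| ≤ W / 400) :
    (-(4 / 25 * W) ≤ a ∧ a ≤ 4 / 25 * W) ∧ (b ≤ W / 400 → W / 16 ≤ a) ∧
      (-(W / 400) ≤ b - Y → a < -(W / 8) - W / 200) := by
  rw [abs_le] at hb0 hb1 ha hb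
  have h1 : 0 ≤ τ * (a₀ - a₁) := mul_nonneg hτ0 (by linarith)
  have h2 : 0 ≤ (1 - τ) * (a₀ - a₁) := mul_nonneg (by linarith) (by linarith)
  refine ⟨⟨by nlinarith, by nlinarith⟩, fun h => ?_, fun h => ?_⟩
  · have h3 : τ * (b₁ - b₀) ≤ 3 * W / 400 := by linarith
    have h4 : τ * (2 * W) ≤ τ * (b₁ - b₀) := mul_le_mul_of_nonneg_left (by linarith) hτ0
    have h5 : τ * (a₀ - a₁) ≤ τ * W := mul_le_mul_of_nonneg_left (by linarith) hτ0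
    nlinarith
  · have h3 : (1 - τ) * (b₁ - b₀) ≤ 3 * W / 400 := by linarith
    have h4 : (1 - τ) * (2 * W) ≤ (1 - τ) * (b₁ - b₀) :=
      mul_le_mul_of_nonneg_left (by linarith) (by linarith)
    have h5 : (1 - τ) * (a₀ - a₁) ≤ (1 - τ) * W :=
      mul_le_mul_of_nonneg_left (by linarith) (by linarith)
    nlinarith

variable {μ : ℝ × ℝ → ℝ} {F : FlatData μ} (h : Hwy F)

/-- end points of the fall -/
noncomputable abbrev fx (W : ℝ) (θ : ℝ × ℝ) (t : Environment) (φ : ℝ × ℝ) : ℤ × ℤ :=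
  h.x (33 / 400 * W) φ.1 θ t

/-- end points of the fall -/
noncomputable abbrev fy (W Y : ℝ) (θ : ℝ × ℝ) (t : Environment) (φ : ℝ × ℝ) : ℤ × ℤ :=
  h.x (-(3 / 20 * W)) φ.2 (θ - Y • F.b) t

/-- the tube of the fall is in the right place -/
lemma tube_place {W Y : ℝ} (hW : 0 < W) (hwH : h.wH ≤ W / 200) (hY : 3 * W ≤ Y)
    (hc : cF F ≤ W / 1000) {K ρ : ℕ} (hK : 0 < K) (h1 : C710.fn F.al * (ρ + 2) ≤ W / 400)
    (h2 : C710.fn F.be * (ρ + 2) ≤ W / 400) (θ : ℝ × ℝ) (t : Environment) (φ : ℝ × ℝ)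
    {v : ℤ × ℤ} (hv : v ∈ tube (fx h W θ t φ) (fy h W Y θ t φ) K ρ) :
    (-(4 / 25 * W) ≤ F.al (pos θ v) ∧ F.al (pos θ v) ≤ 4 / 25 * W) ∧
      (F.be (pos θ v) ≤ W / 400 → W / 16 ≤ F.al (pos θ v)) ∧
      (-(W / 400) ≤ F.be (pos θ v) - Y → F.al (pos θ v) < -(W / 8) - W / 200) := by
  obtain ⟨i, hi, hv⟩ := hv
  have hKR : (0 : ℝ) < K := by exact_mod_cast hK
  have e1 := tube_coord F.al hK hv θ
  have e2 := tube_coord F.be hK hv θ
  refine tube_arith (τ := (i : ℝ) / K) hW (by positivity) ?_ ?_ ?_ ?_ ?_ ?_ ?_ hY (e1.trans h1)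
    (e2.trans h2)
  · rw [div_le_one hKR]; exact_mod_cast hi
  · exact M56.al_x_ge h _ _ _ _
  · have := h.al_x_le (33 / 400 * W) φ.1 θ t
    unfold fx Hwy.x
    linarith
  · have := M56.al_x_ge h (-(3 / 20 * W)) φ.2 (θ - Y • F.b) t
    rw [M192.al_pos_sub_b] at this
    exact this
  · have := h.al_x_le (-(3 / 20 * W)) φ.2 (θ - Y • F.b) t
    rw [M192.al_pos_sub_b] at this
    unfold fy Hwy.x
    linarith
  · have := M56.be_x h (33 / 400 * W) φ.1 θ t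
    unfold fx
    linarith
  · have := M56.be_x h (-(3 / 20 * W)) φ.2 (θ - Y • F.b) t
    rw [M192.be_pos_sub_b] at this
    unfold fy
    linarith

/-- displacement of the fall -/
lemma fall_disp {W Y : ℝ} (hW : 0 < W) (hwH : h.wH ≤ W / 200)
    (hc : cF F ≤ W / 1000) (θ : ℝ × ℝ) (t : Environment) (φ : ℝ × ℝ) :
    (-(W / 4) ≤ F.al (toR (fy h W Y θ t φ - fx h W θ t φ)) ∧
      F.al (toR (fy h W Y θ t φ - fx h W θ t φ)) ≤ 0) ∧
    (Y - W ≤ F.be (toR (fy h W Y θ t φ - fx h W θ t φ)) ∧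
      F.be (toR (fy h W Y θ t φ - fx h W θ t φ)) ≤ Y + W) := by
  rw [← pos_sub_pos θ, map_sub, map_sub]
  have a1 : 33 / 400 * W ≤ F.al (pos θ (fx h W θ t φ)) := M56.al_x_ge h _ _ _ _
  have a2 : F.al (pos θ (fx h W θ t φ)) ≤ 33 / 400 * W + cF F := h.al_x_le (33 / 400 * W) φ.1 θ t
  have a3 := M56.al_x_ge h (-(3 / 20 * W)) φ.2 (θ - Y • F.b) t
  rw [M192.al_pos_sub_b] at a3
  have a4 := h.al_x_le (-(3 / 20 * W)) φ.2 (θ - Y • F.b) t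
  rw [M192.al_pos_sub_b] at a4
  have b1 := M56.be_x h (33 / 400 * W) φ.1 θ t
  have b2 := M56.be_x h (-(3 / 20 * W)) φ.2 (θ - Y • F.b) t
  rw [M192.be_pos_sub_b] at b2
  rw [abs_le] at b1 b2
  change _ ≤ F.al (pos θ (fy h W Y θ t φ)) at a3
  change F.al (pos θ (fy h W Y θ t φ)) ≤ _ at a4
  change _ ≤ F.be (pos θ (fx h W θ t φ)) ∧ F.be (pos θ (fx h W θ t φ)) ≤ _ at b1
  change _ ≤ F.be (pos θ (fy h W Y θ t φ)) - Y ∧ F.be (pos θ (fy h W Y θ t φ)) - Y ≤ _ at b2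
  refine ⟨⟨by linarith, by linarith⟩, ⟨by linarith [b1.2, b2.1], by linarith [b1.1, b2.2]⟩⟩

/-- `ψ` of a fall of at most `W / 4` over a height of at least `J W` -/
lemma psi_fall_le (hN : NormLike μ) {v : ℝ × ℝ} {W J : ℝ} (hW : 0 ≤ W)
    (h1 : -(W / 4) ≤ F.al v) (h2 : J * W ≤ F.be v) :
    F.ψ v ≤ W * F.ψ (J • F.b - (1 / 4 : ℝ) • F.a) := by
  have e : v = W • (J • F.b - (1 / 4 : ℝ) • F.a) +
      ((F.al v + W / 4) • F.a + (F.be v - J * W) • F.b) := by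
    conv_lhs => rw [← F.decomp v]
    module
  have h3 : F.ψ ((F.al v + W / 4) • F.a + (F.be v - J * W) • F.b) = 0 := by
    refine F.ψ_cone hN ?_ ?_
    · simp; linarith
    · simp; linarith
  calc F.ψ v = F.ψ (W • (J • F.b - (1 / 4 : ℝ) • F.a) +
      ((F.al v + W / 4) • F.a + (F.be v - J * W) • F.b)) := by rw [← e]
    _ ≤ F.ψ (W • (J • F.b - (1 / 4 : ℝ) • F.a)) +
      F.ψ ((F.al v + W / 4) • F.a + (F.be v - J * W) • F.b) := F.ψ_add hN _ _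
    _ = W * F.ψ (J • F.b - (1 / 4 : ℝ) • F.a) := by rw [h3, add_zero, F.ψ_smul hN hW]

/-- **the fall, deterministic bound** -/
theorem fall_det {W Y D : ℝ} (hW : 0 < W) (hwH : h.wH ≤ W / 200) (hκ : h.κ ≤ W / 200)
    (hY : 3 * W ≤ Y) (hc : cF F ≤ W / 1000) {K ρ : ℕ} (hK : 0 < K)
    (h1 : C710.fn F.al * (ρ + 2) ≤ W / 400) (h2 : C710.fn F.be * (ρ + 2) ≤ W / 400)
    {ι : ℝ} (hι : 4 / 25 * W ≤ ι) {t : Environment} (ht : Nn t) {θ φ : ℝ × ℝ}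
    (hcon : Conn (tube (fx h W θ t φ) (fy h W Y θ t φ) K ρ) (fx h W θ t φ) (fy h W Y θ t φ))
    (hD1 : |passageTime t (h.x (-(W / 4)) φ.1 θ t) (h.x (W / 4) φ.1 θ t) -
      μ (toR (h.x (W / 4) φ.1 θ t - h.x (-(W / 4)) φ.1 θ t))| ≤ D)
    (hD2 : |passageTime t (h.x (-(W / 4)) φ.2 (θ - Y • F.b) t) (h.x (W / 4) φ.2 (θ - Y • F.b) t) -
      μ (toR (h.x (W / 4) φ.2 (θ - Y • F.b) t - h.x (-(W / 4)) φ.2 (θ - Y • F.b) t))| ≤ D) :
    h.hkY (Y • F.b) (Set.Icc (-ι) ι) (W / 16) (-(W / 8)) θ t φ ≤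
      (h.Y (W / 16) (33 / 400 * W) φ.1 θ t + h.Y (-(3 / 20 * W)) (-(W / 8)) φ.2 (θ - Y • F.b) t +
        h.Y (-(W / 4)) (W / 4) φ.1 θ t + h.Y (-(W / 4)) (W / 4) φ.2 (θ - Y • F.b) t) +
      (2 * D + 1 + (pR t (tube (fx h W θ t φ) (fy h W Y θ t φ) K ρ) (fx h W θ t φ)
        (fy h W Y θ t φ) - F.ρ (toR (fy h W Y θ t φ - fx h W θ t φ)))) := by
  obtain ⟨g, hg, hgc⟩ := exists_walk_lt_pR (t := t) hcon (lt_add_one _)
  have hpl := fun v hv => tube_place h hW hwH hY hc hK h1 h2 θ t φ (hg v hv)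
  have hκ0 := h.κ_nonneg
  have key := hkY_le_walk h ht (d := Y • F.b) (θ := θ) (φ := φ) (I := Set.Icc (-ι) ι)
    (s := W / 16) (s' := -(W / 8)) (σ := 33 / 400 * W) (σ' := -(3 / 20 * W)) (A₁ := W / 4)
    (A₂ := W / 4) g ?_ ?_ ?_ ?_ ?_
  · have e1 := defect_le h hD1
    have e2 := defect_le h hD2
    have e3 : exc t (phi F) g = walkCost t g - F.ρ (toR (fy h W Y θ t φ - fx h W θ t φ)) := by
      unfold exc
      rw [R6.phi_sub]
    rw [e3] at key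
    linarith
  · intro v hv
    obtain ⟨⟨a1, a2⟩, -⟩ := hpl v hv
    exact ⟨by linarith, by linarith⟩
  · intro v hv
    obtain ⟨⟨a1, a2⟩, -⟩ := hpl v hv
    exact ⟨by linarith, by linarith⟩
  · intro v hv
    obtain ⟨⟨a1, a2⟩, -⟩ := hpl v hv
    rw [M192.al_pos_sub_b]
    exact ⟨by linarith, by linarith⟩
  · intro v hv hb
    obtain ⟨-, a, -⟩ := hpl v hv
    exact a (by linarith [(abs_le.1 hb).2])
  · intro v hv hb
    obtain ⟨-, -, a⟩ := hpl v hv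
    rw [M192.be_pos_sub_b] at hb
    rw [M192.al_pos_sub_b]
    have := a (by linarith [(abs_le.1 hb).1])
    linarith

end Crest.Agent.R151.E792
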