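import Crest.Agent.R151.E792c

/-!
# R151 / S0214 part 2, [E8] height selection, part d: crude bound for all the L-shaped paths of a
box (helper792)
-/

set_option autoImplicit false

open MeasureTheory Filter ProbabilityTheory Topology
open Crest.ProbabilityR.FirstPassage

namespace Crest.Agent.R151.E792

open K R78 B710 Q

/-- edge set of the L-shaped path -/
noncomputable def FL (x y : ℤ × ℤ) : Finset (Sym2 (ℤ × ℤ)) :=
  (exists_path_edgesR (LIn_Lset x y)).2.choose

lemma FL_card (x y : ℤ × ℤ) : (FL x y).card ≤ n1 (y - x) :=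
  (exists_path_edgesR (LIn_Lset x y)).2.choose_spec.1

lemma pR_Lset_le {t : Environment} (ht : Nn t) (x y : ℤ × ℤ) :
    pR t (Lset x y) x y ≤ ∑ e ∈ FL x y, t e :=
  (exists_path_edgesR (LIn_Lset x y)).2.choose_spec.2 t ht

variable {G : Measure ℝ} [IsProbabilityMeasure G] {lam : ℝ}

/-- crude bound for all the L-shaped paths of a box -/
theorem exists_crude (h0 : G (Set.Iio 0) = 0) (hlam : 0 < lam)
    (hexp : Integrable (fun x => Real.exp (lam * x)) G) : ∃ CA : ℝ, 0 ≤ CA ∧ ∀ N : ℕ,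
      ∃ Z : Environment → ℝ, Integrable Z (iidLaw G) ∧ (∀ t, 0 ≤ Z t) ∧
        ∫ t, Z t ∂(iidLaw G) ≤ 1 / lam ∧ ∀ t, Nn t → ∀ p ∈ box N, ∀ p' ∈ box N,
          pR t (Lset p p') p p' ≤ CA * N + Z t := by
  set M := ∫ x, Real.exp (lam * x) ∂G with hM
  have hM1 : 1 ≤ M := one_le_M h0 hlam hexp
  have hlog : 0 ≤ Real.log M := Real.log_nonneg hM1
  refine ⟨(8 + 4 * Real.log M) / lam, by positivity, fun N => ?_⟩
  set A : ℝ := (8 + 4 * Real.log M) / lam * N with hA
  have hlA : lam * A = 8 * N + 4 * N * Real.log M := by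
    rw [hA]; field_simp
  set f : (ℤ × ℤ) × (ℤ × ℤ) → Environment → ℝ := fun p t =>
    Real.exp (lam * ∑ e ∈ FL p.1 p.2, t e) * (1 / lam * Real.exp (-(lam * A))) with hf
  have hfi : ∀ p, Integrable (f p) (iidLaw G) := fun p =>
    (exp_sum hexp (FL p.1 p.2)).1.mul_const _
  have hf0 : ∀ p t, 0 ≤ f p t := fun p t => by
    simp only [hf]; positivity
  refine ⟨fun t => ∑ p ∈ box N ×ˢ box N, f p t, integrable_finsetSum _ fun p _ => hfi p,
    fun t => Finset.sum_nonneg fun p _ => hf0 p t, ?_, ?_⟩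
  · rw [integral_finsetSum _ fun p _ => hfi p]
    have h1 : ∀ p ∈ box N ×ˢ box N, ∫ t, f p t ∂(iidLaw G) ≤
        1 / lam * Real.exp (-(8 * N : ℝ)) := by
      intro p hp
      rw [Finset.mem_product] at hp
      simp only [hf]
      rw [integral_mul_const, (exp_sum hexp (FL p.1 p.2)).2, ← hM]
      have h2 : M ^ (FL p.1 p.2).card ≤ M ^ (4 * N) :=
        pow_le_pow_right₀ hM1 ((FL_card _ _).trans (n1_le_of_box hp.1 hp.2))
      have h3 : M ^ (4 * N) = Real.exp (4 * N * Real.log M) := by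
        rw [show (4 * N * Real.log M : ℝ) = ((4 * N : ℕ) : ℝ) * Real.log M by push_cast; ring,
          Real.exp_nat_mul, Real.exp_log (by linarith)]
      calc M ^ (FL p.1 p.2).card * (1 / lam * Real.exp (-(lam * A)))
          ≤ M ^ (4 * N) * (1 / lam * Real.exp (-(lam * A))) := by gcongr
        _ = 1 / lam * Real.exp (-(8 * N : ℝ)) := by
          rw [h3, hlA, mul_left_comm, ← Real.exp_add]
          congr 2
          ring
    refine (Finset.sum_le_card_nsmul _ _ _ h1).trans ?_
    rw [Finset.card_product, card_box, nsmul_eq_mul]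
    have h4 : ((2 * N + 1 : ℕ) : ℝ) ≤ Real.exp (2 * N) := by
      have := Real.add_one_le_exp (2 * N : ℝ)
      push_cast
      exact this
    have h5 : ((((2 * N + 1) ^ 2 * (2 * N + 1) ^ 2 : ℕ)) : ℝ) ≤ Real.exp (8 * N) := by
      push_cast
      push_cast at h4
      calc ((2 * N + 1 : ℝ)) ^ 2 * (2 * N + 1) ^ 2 = (2 * N + 1 : ℝ) ^ 4 := by ring
        _ ≤ (Real.exp (2 * N)) ^ 4 := by gcongr
        _ = Real.exp (8 * N) := by rw [← Real.exp_nat_mul]; congr 1; push_cast; ring
    calc _ ≤ Real.exp (8 * N) * (1 / lam * Real.exp (-(8 * N : ℝ))) := by gcongr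
      _ = 1 / lam := by rw [mul_left_comm, ← Real.exp_add]; simp
  · intro t ht p hp p' hp'
    have h1 := pR_Lset_le ht p p'
    set S := ∑ e ∈ FL p p', t e with hS
    have h2 : S ≤ A + f (p, p') t := by
      simp only [hf]
      rw [← hS, mul_left_comm, ← Real.exp_add]
      have h3 := Real.add_one_le_exp (lam * S + -(lam * A))
      have h4 : S - A ≤ 1 / lam * Real.exp (lam * S + -(lam * A)) := by
        rw [one_div, inv_mul_eq_div, le_div_iff₀ hlam]
        linarith
      linarith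
    have h3 : f (p, p') t ≤ ∑ p ∈ box N ×ˢ box N, f p t :=
      Finset.single_le_sum (f := fun p => f p t) (fun p _ => hf0 p t)
        (Finset.mem_product.2 ⟨hp, hp'⟩)
    linarith

end Crest.Agent.R151.E792
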