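import Crest.Agent.R151.E792d

/-!
# R151 / S0214 part 2, [E8] height selection, part e: pointwise bound of the fall (helper792)
-/

set_option autoImplicit false

open MeasureTheory Filter ProbabilityTheory Topology
open Crest.ProbabilityR.FirstPassage

namespace Crest.Agent.R151.E792

open K R78 B710 Q

variable {μ : ℝ × ℝ → ℝ} {F : FlatData μ} (h : Hwy F)

lemma rho_eq (F : FlatData μ) (v : ℝ × ℝ) : F.ρ v = F.al v + F.be v := F.ρ_eq v

lemma l1_le_coord (F : FlatData μ) (v : ℝ × ℝ) :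
    l1 v ≤ |F.al v| * l1 F.a + |F.be v| * l1 F.b := by
  conv_lhs => rw [← F.decomp v]
  refine (l1_add_le _ _).trans ?_
  rw [C710.l1_smul, C710.l1_smul]

/-- the numerical hypotheses of the pointwise bound -/
structure Par (F : FlatData μ) (c m1 W J : ℝ) (K ρ N N0 : ℕ) : Prop where
  W_pos : 0 < W
  J_ge : 4 ≤ J
  cF_le : cF F ≤ W / 1000
  K_pos : 0 < K
  al : C710.fn F.al * (ρ + 2) ≤ W / 400
  be : C710.fn F.be * (ρ + 2) ≤ W / 400
  step : (l1 F.a + (J + 1) * l1 F.b) * W / K + 2 ≤ ρ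
  step' : m1 * ((l1 F.a + (J + 1) * l1 F.b) * W / K + 2) ≤ c * ρ / 2
  N0_ge : (‖F.a‖ + (J + 1) * ‖F.b‖) * W + 1 ≤ N0
  N_eq : N = N0 + (ρ + 1)

/-- the highway points are in the box -/
lemma x_mem_box {W J : ℝ} {N : ℕ} (hW : 0 ≤ W) (hwH : h.wH ≤ W / 200)
    (hc : cF F ≤ W / 1000) (hN : (‖F.a‖ + (J + 1) * ‖F.b‖) * W + 1 ≤ N)
    {θ : ℝ × ℝ} (hθ : θ ∈ Set.Ico (0 : ℝ) 1 ×ˢ Set.Ico (0 : ℝ) 1) {t : Environment} {u s y : ℝ}
    (hs : |s| ≤ W / 4) (hy0 : 0 ≤ y) (hy : y ≤ J * W) : h.x s u (θ - y • F.b) t ∈ box N := by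
  have h1 := M56.al_x_ge h s u (θ - y • F.b) t
  have h2 := h.al_x_le s u (θ - y • F.b) t
  have h3 := M56.be_x h s u (θ - y • F.b) t
  have h4 : F.al (pos (θ - y • F.b) (h.x s u (θ - y • F.b) t)) ≤ s + cF F := h2
  rw [M192.al_pos_sub_b] at h1 h4
  rw [M192.be_pos_sub_b] at h3
  rw [abs_le] at hs h3
  refine mem_box_of_pos (v := 0) hθ (R := (‖F.a‖ + (J + 1) * ‖F.b‖) * W) ?_ (by simpa using hN)
  rw [sub_zero]
  refine (M56.norm_le_coord F _).trans ?_
  have h5 : |F.al (pos θ (h.x s u (θ - y • F.b) t))| ≤ W := by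
    rw [abs_le]; constructor <;> linarith
  have h6 : |F.be (pos θ (h.x s u (θ - y • F.b) t))| ≤ (J + 1) * W := by
    rw [abs_le]; constructor
    · nlinarith [h3.1]
    · nlinarith [h3.2]
  have h7 := norm_nonneg F.a
  have h8 := norm_nonneg F.b
  calc _ ≤ W * ‖F.a‖ + (J + 1) * W * ‖F.b‖ := add_le_add
        (mul_le_mul_of_nonneg_right h5 h7) (mul_le_mul_of_nonneg_right h6 h8)
    _ = (‖F.a‖ + (J + 1) * ‖F.b‖) * W := by ring

open Classical in
/-- **pointwise bound of the fall** -/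
theorem fall_pt {c m1 CA W J : ℝ} {K ρ N N0 : ℕ} (hP : Par F c m1 W J K ρ N N0)
    (hN : NormLike μ) (hc : 0 < c) (hm : 0 ≤ m1) (hCA : 0 ≤ CA)
    (hlow : ∀ v, c * l1 v ≤ μ v) (hup : ∀ v, μ v ≤ m1 * l1 v)
    (hwH : h.wH ≤ W / 200) (hκ : h.κ ≤ W / 200) {ι : ℝ} (hι : 4 / 25 * W ≤ ι)
    {t : Environment} (ht : Nn t) {θ φ : ℝ × ℝ}
    (hθ : θ ∈ Set.Ico (0 : ℝ) 1 ×ˢ Set.Ico (0 : ℝ) 1) {z : ℝ} (hz : 0 ≤ z)
    (hZ : ∀ p ∈ box N, ∀ p' ∈ box N, pR t (Lset p p') p p' ≤ CA * N + z) :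
    h.hkY ((J * W) • F.b) (Set.Icc (-ι) ι) (W / 16) (-(W / 8)) θ t φ ≤
      (h.Y (W / 16) (33 / 400 * W) φ.1 θ t +
        h.Y (-(3 / 20 * W)) (-(W / 8)) φ.2 (θ - (J * W) • F.b) t +
        h.Y (-(W / 4)) (W / 4) φ.1 θ t + h.Y (-(W / 4)) (W / 4) φ.2 (θ - (J * W) • F.b) t) +
      (W * F.ψ ((J - 1) • F.b - (1 / 4 : ℝ) • F.a) + 2 * K * m1 + 1 + (K + 2) * dev μ N t +
        K * z + (if c * ρ / 4 < dev μ N t then K * (CA * N) else 0)) := by
  have hW := hP.W_pos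
  have hJ := hP.J_ge
  have hKR : (0 : ℝ) < K := by exact_mod_cast hP.K_pos
  have hY : 3 * W ≤ J * W := by nlinarith
  set D := dev μ N t with hDdef
  have hD0 : 0 ≤ D := dev_nonneg _ _ _
  have hNN0 : N0 ≤ N := by rw [hP.N_eq]; omega
  have hN' : (‖F.a‖ + (J + 1) * ‖F.b‖) * W + 1 ≤ N :=
    hP.N0_ge.trans (by exact_mod_cast hNN0)
  have h00 : θ = θ - (0 : ℝ) • F.b := by simp
  -- points in the box
  have bx : ∀ {s u : ℝ}, |s| ≤ W / 4 → h.x s u θ t ∈ box N0 := by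
    intro s u hs
    have := x_mem_box h hW.le hwH hP.cF_le hP.N0_ge hθ (t := t) (u := u) (y := 0) hs le_rfl
      (by positivity)
    rwa [zero_smul, sub_zero] at this
  have by' : ∀ {s u : ℝ}, |s| ≤ W / 4 → h.x s u (θ - (J * W) • F.b) t ∈ box N0 := by
    intro s u hs
    exact x_mem_box h hW.le hwH hP.cF_le hP.N0_ge hθ hs (by positivity) le_rfl
  have hbox : ∀ {p : ℤ × ℤ}, p ∈ box N0 → p ∈ box N := by
    intro p hp
    exact mem_box_of_near (x := p) (k := 0) hp (by simp [n1]) (by omega)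
  have a4 : |-(W / 4)| ≤ W / 4 := by rw [abs_neg, abs_of_pos (by positivity)]
  have a4' : |W / 4| ≤ W / 4 := by rw [abs_of_pos (by positivity)]
  have a5 : |33 / 400 * W| ≤ W / 4 := by rw [abs_of_pos (by positivity)]; linarith
  have a6 : |-(3 / 20 * W)| ≤ W / 4 := by rw [abs_neg, abs_of_pos (by positivity)]; linarith
  set x := fx h W θ t φ with hx
  set y := fy h W (J * W) θ t φ with hy
  have hxb : x ∈ box N0 := bx a5
  have hyb : y ∈ box N0 := by' a6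
  obtain ⟨⟨d1, d2⟩, ⟨d3, d4⟩⟩ := fall_disp h (Y := J * W) hW hwH hP.cF_le θ t φ
  rw [← hx, ← hy] at d1 d2 d3 d4
  -- length of the displacement
  have hn1 : (n1 (y - x) : ℝ) ≤ (l1 F.a + (J + 1) * l1 F.b) * W := by
    rw [← l1_toR]
    refine (l1_le_coord F _).trans ?_
    have e1 : |F.al (toR (y - x))| ≤ W := by rw [abs_le]; constructor <;> linarith
    have e2 : |F.be (toR (y - x))| ≤ (J + 1) * W := by
      rw [abs_le]; constructor <;> nlinarith
    have e3 := l1_nonneg F.a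
    have e4 := l1_nonneg F.b
    calc _ ≤ W * l1 F.a + (J + 1) * W * l1 F.b := add_le_add
          (mul_le_mul_of_nonneg_right e1 e3) (mul_le_mul_of_nonneg_right e2 e4)
      _ = (l1 F.a + (J + 1) * l1 F.b) * W := by ring
  have hn2 : (n1 (y - x) : ℝ) / K + 2 ≤ (l1 F.a + (J + 1) * l1 F.b) * W / K + 2 := by
    gcongr
  have hball : ∀ i ≤ K, ∀ z, n1 (z - ch x y K i) ≤ ρ + 1 → z ∈ box N := by
    intro i hi z hz
    exact mem_box_of_near (ch_mem_box hP.K_pos hi hxb hyb) hz (by rw [hP.N_eq])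
  have hmem : ∀ i ≤ K, ch x y K i ∈ box N := fun i hi => hball i hi _ (by simp [n1])
  -- the two deviations
  have hD1 := le_dev μ t (hbox (bx (s := -(W / 4)) (u := φ.1) a4))
    (hbox (bx (s := W / 4) (u := φ.1) a4'))
  have hD2 := le_dev μ t (hbox (by' (s := -(W / 4)) (u := φ.2) a4))
    (hbox (by' (s := W / 4) (u := φ.2) a4'))
  -- the crude bound
  obtain ⟨hcon, hcr⟩ := tube_crude (K := K) (ρ := ρ) (L := ρ) (N := N) ht hP.K_pos (x := x)
    (y := y) hmem (hn2.trans hP.step) (hn2.trans hP.step) (B := CA * N + z)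
    (fun p hp p' hp' _ => hZ p hp p' hp')
  have key := fall_det h (Y := J * W) (D := D) hW hwH hκ hY hP.cF_le hP.K_pos hP.al hP.be hι ht
    hcon hD1 hD2
  rw [← hx, ← hy] at key
  refine key.trans (add_le_add le_rfl ?_)
  have hψ : F.ψ (toR (y - x)) ≤ W * F.ψ ((J - 1) • F.b - (1 / 4 : ℝ) • F.a) :=
    psi_fall_le hN hW.le d1 (by nlinarith)
  have hψ0 := F.ψ_nonneg (toR (y - x))
  split_ifs with hbad
  · -- crude case
    have e1 : 0 ≤ F.ρ (toR (y - x)) := by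
      rw [rho_eq]; nlinarith
    have e2 : 0 ≤ (K : ℝ) * D := by positivity
    have e3 : 0 ≤ 2 * (K : ℝ) * m1 := by positivity
    have e4 : ((K : ℝ) + 2) * D = K * D + 2 * D := by ring
    have e5 : (K : ℝ) * (CA * N + z) = K * (CA * N) + K * z := by ring
    rw [e4]
    rw [e5] at hcr
    linarith
  · -- good case
    push Not at hbad
    obtain ⟨-, hg⟩ := tube_good (K := K) (ρ := ρ) (N := N) (μ := μ) ht hc hm hlow hup
      (fun v w => (hN.abs_sub_le v w).trans (hup _)) (fun s hs v => hN.smul s v hs) hP.K_pos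
      (x := x) (y := y) hball (by
        have e1 := mul_le_mul_of_nonneg_left hn2 hm
        have e2 := hP.step'
        rw [← hDdef]
        linarith)
    have e1 : μ (toR (y - x)) - F.ρ (toR (y - x)) = F.ψ (toR (y - x)) := rfl
    have e2 : 0 ≤ (K : ℝ) * z := by positivity
    have e4 : ((K : ℝ) + 2) * D = K * D + 2 * D := by ring
    rw [e4]
    rw [← hDdef] at hg
    linarith

end Crest.Agent.R151.E792
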