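import Crest.Agent.R151.E792e
import Crest.Agent.R151.M192c

/-!
# R151 / S0214 part 2, [E8] height selection, part f: means on the space of one row (helper792)
-/

set_option autoImplicit false

open MeasureTheory Filter ProbabilityTheory Topology
open Crest.ProbabilityR.FirstPassage

namespace Crest.Agent.R151.E792

open K R78 B710 Q

variable {μ : ℝ × ℝ → ℝ} {F : FlatData μ} {G : Measure ℝ} [IsProbabilityMeasure G]

lemma Y_inv (h : Hwy F) (s s' u : ℝ) : Inv fun θ t => h.Y s s' u θ t := by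
  intro m θ t
  have hH : h.H u (θ + toR m) (act (tr m) t) = fun k => h.H u θ t k - m := by
    funext k; exact h.cov u θ t m k
  unfold Hwy.Y
  beta_reduce
  rw [M192.ix_cov, M192.ix_cov, hH, M192.hp_tr, M192.hp_tr]
  ring

lemma meas_Y {Ω : Type*} [MeasurableSpace Ω] {u : Ω → ℝ} {θ : Ω → ℝ × ℝ} {T : Ω → Environment}
    (h : Hwy F) (hu : Measurable u) (hθ : Measurable θ) (hT : Measurable T) (s s' : ℝ) :
    Measurable fun ω => h.Y s s' (u ω) (θ ω) (T ω) := by
  have h1 : ∀ s, Measurable fun ω => hp (T ω) (phi F) (h.H (u ω) (θ ω) (T ω))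
      (h.ix s (u ω) (θ ω) (T ω)) := by
    intro s
    unfold hp
    refine (Q.measurable_at (fun k => Q.measurable_hc hT (fun k => h.meas_H hu hθ hT k) k)
      (h.meas_ix s hu hθ hT)).sub ?_
    have : Measurable (phi F) := measurable_of_countable _
    exact this.comp (Q.measurable_at (fun k => h.meas_H hu hθ hT k) (h.meas_ix s hu hθ hT))
  exact (h1 s').sub (h1 s)

lemma mp_lo : MeasurePreserving (fun q : ((ℝ × ℝ) × Environment) × (ℝ × ℝ) => (q.2.1, q.1))
    ((P0 G).prod (UU.prod UU)) (UU.prod (P0 G)) := by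
  have h1 : MeasurePreserving (Prod.map (id : (ℝ × ℝ) × Environment → _) (Prod.fst : ℝ × ℝ → ℝ))
      ((P0 G).prod (UU.prod UU)) ((P0 G).prod UU) :=
    (MeasurePreserving.id _).prod measurePreserving_fst
  exact (Measure.measurePreserving_swap (μ := P0 G) (ν := UU)).comp h1

lemma mp_up : MeasurePreserving (fun q : ((ℝ × ℝ) × Environment) × (ℝ × ℝ) => (q.2.2, q.1))
    ((P0 G).prod (UU.prod UU)) (UU.prod (P0 G)) := by
  have h1 : MeasurePreserving (Prod.map (id : (ℝ × ℝ) × Environment → _) (Prod.snd : ℝ × ℝ → ℝ))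
      ((P0 G).prod (UU.prod UU)) ((P0 G).prod UU) :=
    (MeasurePreserving.id _).prod measurePreserving_snd
  exact (Measure.measurePreserving_swap (μ := P0 G) (ν := UU)).comp h1

/-- mean of the excess of a piece of the lower highway -/
lemma Y_lo {h : Hwy F} {ε : ℝ} (hm : HwyMean G h ε) (s s' : ℝ) :
    Integrable (fun q : ((ℝ × ℝ) × Environment) × (ℝ × ℝ) => h.Y s s' q.2.1 q.1.1 q.1.2)
      ((P0 G).prod (UU.prod UU)) ∧
    ∫ q, h.Y s s' q.2.1 q.1.1 q.1.2 ∂((P0 G).prod (UU.prod UU)) = (s' - s) * ε := by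
  refine ⟨(mp_lo (G := G)).integrable_comp_of_integrable (hm.int s s'), ?_⟩
  rw [← hm.mean s s']
  exact mp_integral (mp_lo (G := G)) (hm.int s s').aestronglyMeasurable

/-- mean of the excess of a piece of the upper highway -/
lemma Y_up {h : Hwy F} {ε : ℝ} (hm : HwyMean G h ε) (d : ℝ × ℝ) (s s' : ℝ) :
    Integrable (fun q : ((ℝ × ℝ) × Environment) × (ℝ × ℝ) => h.Y s s' q.2.2 (q.1.1 - d) q.1.2)
      ((P0 G).prod (UU.prod UU)) ∧
    ∫ q, h.Y s s' q.2.2 (q.1.1 - d) q.1.2 ∂((P0 G).prod (UU.prod UU)) = (s' - s) * ε := by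
  have hi : Integrable (fun q : ((ℝ × ℝ) × Environment) × (ℝ × ℝ) => h.Y s s' q.2.2 q.1.1 q.1.2)
      ((P0 G).prod (UU.prod UU)) := (mp_up (G := G)).integrable_comp_of_integrable (hm.int s s')
  have he : ∫ q, h.Y s s' q.2.2 q.1.1 q.1.2 ∂((P0 G).prod (UU.prod UU)) = (s' - s) * ε := by
    rw [← hm.mean s s']
    exact mp_integral (mp_up (G := G)) (hm.int s s').aestronglyMeasurable
  have e : (fun q : ((ℝ × ℝ) × Environment) × (ℝ × ℝ) => h.Y s s' q.2.2 (q.1.1 - d) q.1.2) =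
      fun q => h.Y s s' q.2.2 (q.1.1 + -d) q.1.2 := by
    funext q; rw [sub_eq_add_neg]
  constructor
  · rw [e]
    exact integrable_shift_prod (F := fun θ t (ψ : ℝ × ℝ) => h.Y s s' ψ.2 θ t)
      (fun ψ => Y_inv h s s' ψ.2) (-d) hi
  · rw [e, integral_shift_prod (F := fun θ t (ψ : ℝ × ℝ) => h.Y s s' ψ.2 θ t)
      (fun ψ => Y_inv h s s' ψ.2) ?_ (-d), he]
    exact meas_Y h (by fun_prop) (by fun_prop) (by fun_prop) s s'

/-- a function of the environment -/
lemma int_env {f : Environment → ℝ} (hf : Integrable f (iidLaw G)) :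
    Integrable (fun q : ((ℝ × ℝ) × Environment) × (ℝ × ℝ) => f q.1.2)
      ((P0 G).prod (UU.prod UU)) ∧
    ∫ q, f q.1.2 ∂((P0 G).prod (UU.prod UU)) = ∫ t, f t ∂(iidLaw G) := by
  have h1 : MeasurePreserving (Prod.fst : ((ℝ × ℝ) × Environment) × (ℝ × ℝ) → _)
      ((P0 G).prod (UU.prod UU)) (P0 G) := measurePreserving_fst
  have h2 : MeasurePreserving (Prod.snd : (ℝ × ℝ) × Environment → _) (P0 G) (iidLaw G) := by
    unfold P0; exact measurePreserving_snd
  have h3 := h2.comp h1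
  exact ⟨h3.integrable_comp_of_integrable hf, mp_integral h3 hf.aestronglyMeasurable⟩

set_option maxHeartbeats 1000000 in
/-- choice of the numerical parameters -/
lemma exists_par (F : FlatData μ) {c m1 J : ℝ} (hc : 0 < c) (hm : 0 ≤ m1) (hJ : 4 ≤ J) :
    ∃ (K : ℕ) (C2 c2 W0 : ℝ), 0 < K ∧ 0 < C2 ∧ 0 < c2 ∧ 0 < W0 ∧ ∀ W ≥ W0, ∃ ρ N N0 : ℕ,
      Par F c m1 W J K ρ N N0 ∧ (N : ℝ) ≤ C2 * W ∧ c2 * N ≤ c * ρ / 4 ∧ W ≤ N := by
  set nA := C710.fn F.al with hnA
  set nB := C710.fn F.be with hnB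
  have hA0 : 0 ≤ nA := C710.fn_nonneg _
  have hB0 : 0 ≤ nB := C710.fn_nonneg _
  set Cρ : ℝ := 800 * (nA + nB + 1) with hCρ
  have hCρ1 : 800 ≤ Cρ := by rw [hCρ]; nlinarith
  have hCρ0 : 0 < Cρ := by linarith
  set C1 : ℝ := l1 F.a + (J + 1) * l1 F.b with hC1
  have hC10 : 0 ≤ C1 := by
    have := l1_nonneg F.a
    have := l1_nonneg F.b
    positivity
  set b0 : ℝ := min (c / (8 * Cρ * (m1 + 1))) (1 / (4 * Cρ)) with hb0
  have hb0p : 0 < b0 := lt_min (by positivity) (by positivity)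
  have hb1 : b0 ≤ c / (8 * Cρ * (m1 + 1)) := min_le_left _ _
  have hb2 : b0 ≤ 1 / (4 * Cρ) := min_le_right _ _
  obtain ⟨K, hK⟩ := exists_nat_ge (C1 / b0 + 1)
  have hK1 : (1 : ℝ) ≤ K := le_trans (by have : 0 ≤ C1 / b0 := by positivity
                                         linarith) hK
  have hKp : 0 < K := by
    have : (0 : ℝ) < K := by linarith
    exact_mod_cast this
  set R : ℝ := ‖F.a‖ + (J + 1) * ‖F.b‖ with hR
  have hR0 : 0 ≤ R := by positivity
  refine ⟨K, R + 6, c / (8 * Cρ * (R + 6)), 2 / b0 + 2 * Cρ + 1600 * nA + 1600 * nB +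
    1000 * cF F + 1, hKp, by positivity, by positivity, ?_, fun W hW => ?_⟩
  · have := cF_nonneg F
    positivity
  have hcF0 := cF_nonneg F
  have hb0' : 0 < 2 / b0 := by positivity
  have hW1 : 1 ≤ W := by linarith
  have hW0 : 0 < W := by linarith
  have hW2 : 2 / b0 ≤ W := by linarith
  have hW3 : 2 * Cρ ≤ W := by linarith
  have hW4 : 1600 * nA ≤ W := by linarith
  have hW5 : 1600 * nB ≤ W := by linarith
  have hW6 : 1000 * cF F ≤ W := by linarith
  have hρ1 := Nat.floor_le (show 0 ≤ W / Cρ by positivity)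
  have hρ2 := Nat.lt_floor_add_one (W / Cρ)
  set ρ := ⌊W / Cρ⌋₊ with hρ
  have hρ3 : W / (2 * Cρ) ≤ ρ := by
    have e1 : 1 ≤ W / (2 * Cρ) := by rw [le_div_iff₀ (by positivity)]; linarith
    have e2 : W / Cρ = W / (2 * Cρ) + W / (2 * Cρ) := by field_simp; ring
    linarith
  have hρ4 : (ρ : ℝ) ≤ W / 800 := by
    refine hρ1.trans ?_
    rw [div_le_div_iff_of_pos_left hW0 hCρ0 (by norm_num)]
    exact hCρ1
  have hρn : ∀ x : ℝ, 0 ≤ x → x ≤ nA + nB → 1600 * x ≤ W → x * (ρ + 2) ≤ W / 400 := by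
    intro x hx0 hx1 hx2
    have e1 : x * ρ ≤ W / 800 := by
      have e2 : x * ρ ≤ x * (W / Cρ) := mul_le_mul_of_nonneg_left hρ1 hx0
      have e3 : x * (W / Cρ) ≤ W / 800 := by
        rw [mul_div_assoc', div_le_div_iff₀ hCρ0 (by norm_num), hCρ]
        nlinarith
      linarith
    have : x * 2 ≤ W / 800 := by linarith
    nlinarith
  have hstep : C1 * W / K + 2 ≤ 2 * b0 * W := by
    have e1 : C1 / K ≤ b0 := by
      rw [div_le_iff₀ (by linarith)]
      have : C1 = b0 * (C1 / b0) := by field_simp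
      nlinarith
    have e2 : C1 * W / K = C1 / K * W := by ring
    have e3 : C1 / K * W ≤ b0 * W := mul_le_mul_of_nonneg_right e1 hW0.le
    have e4 : 2 ≤ b0 * W := by
      have := mul_le_mul_of_nonneg_left hW2 hb0p.le
      have e5 : b0 * (2 / b0) = 2 := by field_simp
      linarith
    rw [e2]; linarith
  have hst1 : C1 * W / K + 2 ≤ ρ := by
    have e1 : 2 * b0 * W ≤ W / (2 * Cρ) := by
      have e2 : 2 * b0 * W ≤ 2 * (1 / (4 * Cρ)) * W := by gcongr
      have e3 : 2 * (1 / (4 * Cρ)) * W = W / (2 * Cρ) := by field_simp; ring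
      linarith
    linarith
  have hst2 : m1 * (C1 * W / K + 2) ≤ c * ρ / 2 := by
    have e1 : m1 * (C1 * W / K + 2) ≤ m1 * (2 * b0 * W) := mul_le_mul_of_nonneg_left hstep hm
    have e2 : m1 * (2 * b0 * W) ≤ m1 * (2 * (c / (8 * Cρ * (m1 + 1))) * W) := by gcongr
    have e3 : m1 * (2 * (c / (8 * Cρ * (m1 + 1))) * W) ≤ c * (W / (2 * Cρ)) / 2 := by
      have e4 : c * (W / (2 * Cρ)) / 2 - m1 * (2 * (c / (8 * Cρ * (m1 + 1))) * W) =
          c * W / (4 * Cρ * (m1 + 1)) := by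
        field_simp; ring
      have e5 : 0 ≤ c * W / (4 * Cρ * (m1 + 1)) := by positivity
      linarith
    have e4 : c * (W / (2 * Cρ)) / 2 ≤ c * ρ / 2 := by gcongr
    linarith
  have hN1 := Nat.le_ceil (R * W + W + 1)
  have hN2 := Nat.ceil_lt_add_one (show 0 ≤ R * W + W + 1 by positivity)
  set N0 := ⌈R * W + W + 1⌉₊ with hN0
  have hNN : ((N0 + (ρ + 1) : ℕ) : ℝ) ≤ (R + 6) * W := by
    have e : (R + 6) * W = R * W + 6 * W := by ring
    rw [e]
    push_cast
    linarith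
  refine ⟨ρ, N0 + (ρ + 1), N0, ⟨hW0, hJ, ?_, hKp, ?_, ?_, hst1, hst2, ?_, rfl⟩, hNN, ?_, ?_⟩
  · linarith
  · exact hρn nA hA0 (by linarith) hW4
  · exact hρn nB hB0 (by linarith) hW5
  · linarith
  · have e1 : c / (8 * Cρ * (R + 6)) * ((N0 + (ρ + 1) : ℕ) : ℝ) ≤
        c / (8 * Cρ * (R + 6)) * ((R + 6) * W) := mul_le_mul_of_nonneg_left hNN (by positivity)
    have e2 : c / (8 * Cρ * (R + 6)) * ((R + 6) * W) = c * (W / (2 * Cρ)) / 4 := by
      field_simp; ring
    have e3 : c * (W / (2 * Cρ)) / 4 ≤ c * ρ / 4 := by gcongr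
    linarith
  · push_cast
    have : 0 ≤ R * W := by positivity
    linarith

end Crest.Agent.R151.E792
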