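import Crest.Agent.R151.E792f
import Crest.Agent.R151.K8

/-!
# R151 / S0214 part 2, [E8] height selection, part g: mean of the fall `W/16 → -W/8` over the height
`J W` (helper792)
-/

set_option autoImplicit false

open MeasureTheory Filter ProbabilityTheory Topology
open Crest.ProbabilityR.FirstPassage

namespace Crest.Agent.R151.E792

open K R78 B710 Q

variable {μ : ℝ × ℝ → ℝ} {G : Measure ℝ} [IsProbabilityMeasure G] {lam : ℝ}

open Classical in
/-- integral of the dominating function -/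
lemma integral_U {Z : Environment → ℝ} {N : ℕ} (hd : Integrable (dev μ N) (iidLaw G))
    (hZ : Integrable Z (iidLaw G)) (a b c B r : ℝ) (hB : 0 ≤ B) {p : ℝ}
    (hp : (iidLaw G).real {t | r < dev μ N t} ≤ p) :
    Integrable (fun t => a + b * dev μ N t + c * Z t + (if r < dev μ N t then B else 0))
      (iidLaw G) ∧
    ∫ t, (a + b * dev μ N t + c * Z t + (if r < dev μ N t then B else 0)) ∂(iidLaw G) ≤
      a + b * ∫ t, dev μ N t ∂(iidLaw G) + c * ∫ t, Z t ∂(iidLaw G) + B * p := by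
  have hS : MeasurableSet {t | r < dev μ N t} := measurableSet_lt measurable_const
    (measurable_dev μ N)
  have e : (fun t => if r < dev μ N t then B else 0) =
      Set.indicator {t | r < dev μ N t} (fun _ => B) := by
    funext t
    simp only [Set.indicator, Set.mem_ofPred_eq]
  have h1 : Integrable (fun t => a + b * dev μ N t) (iidLaw G) :=
    (integrable_const a).add (hd.const_mul b)
  have h2 : Integrable (fun t => a + b * dev μ N t + c * Z t) (iidLaw G) :=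
    h1.add (hZ.const_mul c)
  have h3 : Integrable (fun t => if r < dev μ N t then B else 0) (iidLaw G) := by
    rw [e]; exact (integrable_const B).indicator hS
  refine ⟨h2.add h3, ?_⟩
  rw [integral_add h2 h3, integral_add h1 (hZ.const_mul c), integral_add (integrable_const a)
    (hd.const_mul b), integral_const_mul, integral_const_mul, e, integral_indicator_const _ hS]
  simp only [integral_const, probReal_univ, smul_eq_mul, one_mul]
  have := mul_le_mul_of_nonneg_left hp hB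
  linarith

/-- **mean of the fall** -/
theorem fall_mean (h0 : G (Set.Iio 0) = 0) (hz : G {0} = 0) (hlam : 0 < lam)
    (hexp : Integrable (fun x => Real.exp (lam * x)) G) (hμ : IsTC G μ) (F : FlatData μ) {e : ℝ}
    (he : 0 < e) : ∃ J : ℝ, 4 ≤ J ∧ ∃ W0 : ℝ, ∀ W ≥ W0, ∀ (h : Hwy F) (ε : ℝ),
      h.wH ≤ W / 200 → h.κ ≤ W / 200 → HwyMean G h ε → ∀ ι : ℝ, 4 / 25 * W ≤ ι →
      Integrable (fun q : ((ℝ × ℝ) × Environment) × (ℝ × ℝ) => h.hkY ((J * W) • F.b)
        (Set.Icc (-ι) ι) (W / 16) (-(W / 8)) q.1.1 q.1.2 q.2) ((P0 G).prod (UU.prod UU)) →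
      ∫ q, h.hkY ((J * W) • F.b) (Set.Icc (-ι) ι) (W / 16) (-(W / 8)) q.1.1 q.1.2 q.2
        ∂((P0 G).prod (UU.prod UU)) ≤ e * W + 2 * W * ε := by
  classical
  have hN : NormLike μ := normLike_of_isTC h0 hz hlam hexp hμ
  obtain ⟨c, hc, hlow⟩ := hN.lower
  obtain ⟨m1, hm1, hup⟩ := hN.upper
  -- choice of `J`
  obtain ⟨J1, hJ1⟩ := eventually_atTop.1 ((F.lim_height hN (1 / 4) (by norm_num)).eventually
    (gt_mem_nhds (show (0 : ℝ) < e / 4 by positivity)))
  set J : ℝ := max J1 3 + 1 with hJdef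
  have hJ4 : 4 ≤ J := by have := le_max_right J1 3; linarith
  have hψJ : F.ψ ((J - 1) • F.b - (1 / 4 : ℝ) • F.a) < e / 4 := by
    have : J - 1 = max J1 3 := by rw [hJdef]; ring
    rw [this]; exact hJ1 _ (le_max_left _ _)
  obtain ⟨K, C2, c2, W1, hK, hC2, hc2, hW1, hpar⟩ := exists_par F hc hm1.le hJ4
  obtain ⟨CA, hCA, hcrude⟩ := exists_crude h0 hlam hexp
  have hK0 : (0 : ℝ) < K := by exact_mod_cast hK
  set η : ℝ := min c2 (e / (8 * (C2 * (K + 2 + K * CA) + 1))) with hη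
  have hη0 : 0 < η := lt_min hc2 (by positivity)
  have hη1 : η ≤ c2 := min_le_left _ _
  have hη2 : η * (8 * (C2 * (K + 2 + K * CA) + 1)) ≤ e := by
    have h1 : η ≤ e / (8 * (C2 * (K + 2 + K * CA) + 1)) := min_le_right _ _
    rwa [le_div_iff₀ (by positivity)] at h1
  obtain ⟨n1', hn1'⟩ := uniform_shape h0 hlam hexp hμ hη0
  obtain ⟨n2', hn2'⟩ := uniform_shape_prob h0 hlam hexp hμ hη0
  set E0 : ℝ := 2 * K * m1 + 1 + K * (1 / lam) with hE0
  have hE00 : 0 ≤ E0 := by positivity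
  refine ⟨J, hJ4, W1 + n1' + n2' + 4 * E0 / e, fun W hW h ε hwH hκ hmean ι hι hint => ?_⟩
  have hEe : 0 ≤ 4 * E0 / e := by positivity
  have hn1p : (0 : ℝ) ≤ n1' := by positivity
  have hn2p : (0 : ℝ) ≤ n2' := by positivity
  have hWW : W1 ≤ W := by linarith
  have hW0 : 0 < W := by linarith
  obtain ⟨ρ, N, N0, hP, hNC, hNc, hNW⟩ := hpar W hWW
  have hN1 : n1' ≤ N := by
    have : (n1' : ℝ) ≤ N := by linarith
    exact_mod_cast this
  have hN2 : n2' ≤ N := by
    have : (n2' : ℝ) ≤ N := by linarith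
    exact_mod_cast this
  obtain ⟨hdi, hdm⟩ := hn1' N hN1
  obtain ⟨Z, hZi, hZ0, hZm, hZ⟩ := hcrude N
  have hbad : (iidLaw G).real {t | c * ρ / 4 < dev μ N t} ≤ η := by
    refine le_trans (measureReal_mono ?_) (hn2' N hN2)
    intro t ht
    simp only [Set.mem_ofPred_eq] at ht ⊢
    have : η * N ≤ c2 * N := mul_le_mul_of_nonneg_right hη1 (by positivity)
    linarith
  set ψ0 := F.ψ ((J - 1) • F.b - (1 / 4 : ℝ) • F.a) with hψ0
  obtain ⟨hUi, hUm⟩ := integral_U (G := G) hdi hZi (W * ψ0 + 2 * K * m1 + 1) (K + 2) K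
    (K * (CA * N)) (c * ρ / 4) (by positivity) hbad
  obtain ⟨y1i, y1m⟩ := Y_lo hmean (W / 16) (33 / 400 * W)
  obtain ⟨y2i, y2m⟩ := Y_up hmean ((J * W) • F.b) (-(3 / 20 * W)) (-(W / 8))
  obtain ⟨y3i, y3m⟩ := Y_lo hmean (-(W / 4)) (W / 4)
  obtain ⟨y4i, y4m⟩ := Y_up hmean ((J * W) • F.b) (-(W / 4)) (W / 4)
  obtain ⟨ui, um⟩ := int_env (G := G) hUi
  have hYi := ((y1i.add y2i).add y3i).add y4i
  have hmono := integral_mono_ae hint (hYi.add ui) (by
    filter_upwards [ae_P0_Nn (G := G) h0 (ν := UU.prod UU)] with q hq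
    have := fall_pt h hP hN hc hm1.le hCA hlow hup hwH hκ hι hq.1 (φ := q.2) hq.2 (hZ0 q.1.2)
      (fun p hp p' hp' => hZ q.1.2 hq.1 p hp p' hp')
    simp only [Pi.add_apply]
    exact this)
  refine hmono.trans ?_
  have e1 : ∫ q, ((((fun q : ((ℝ × ℝ) × Environment) × (ℝ × ℝ) =>
        h.Y (W / 16) (33 / 400 * W) q.2.1 q.1.1 q.1.2) +
      fun q : ((ℝ × ℝ) × Environment) × (ℝ × ℝ) => h.Y (-(3 / 20 * W)) (-(W / 8)) q.2.2 (q.1.1 - (J * W) • F.b) q.1.2) +
      fun q : ((ℝ × ℝ) × Environment) × (ℝ × ℝ) => h.Y (-(W / 4)) (W / 4) q.2.1 q.1.1 q.1.2) +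
      fun q : ((ℝ × ℝ) × Environment) × (ℝ × ℝ) => h.Y (-(W / 4)) (W / 4) q.2.2 (q.1.1 - (J * W) • F.b) q.1.2) q
        ∂((P0 G).prod (UU.prod UU)) = (33 / 400 * W - W / 16) * ε + (-(W / 8) - -(3 / 20 * W)) * ε +
          (W / 4 - -(W / 4)) * ε + (W / 4 - -(W / 4)) * ε := by
    rw [integral_add' ((y1i.add y2i).add y3i) y4i, integral_add' (y1i.add y2i) y3i,
      integral_add' y1i y2i, y1m, y2m, y3m, y4m]
  rw [integral_add' hYi ui, e1, um]
  have hε := hmean.nonneg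
  have hdm' : ((K : ℝ) + 2) * ∫ t, dev μ N t ∂(iidLaw G) ≤ (K + 2) * (η * (C2 * W)) := by
    have : η * N ≤ η * (C2 * W) := mul_le_mul_of_nonneg_left hNC hη0.le
    have h3 := hdm.trans this
    gcongr
  have hZm' : (K : ℝ) * ∫ t, Z t ∂(iidLaw G) ≤ K * (1 / lam) := by gcongr
  have hb' : (K : ℝ) * (CA * N) * η ≤ K * (CA * (C2 * W)) * η := by gcongr
  have hE : 4 * E0 ≤ e * W := by
    have h1 : 4 * E0 / e ≤ W := by linarith
    rw [div_le_iff₀ he] at h1
    linarith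
  have hηW : η * (8 * (C2 * (K + 2 + K * CA) + 1)) * W ≤ e * W :=
    mul_le_mul_of_nonneg_right hη2 hW0.le
  have hψW : W * ψ0 ≤ e / 4 * W := by
    have := mul_le_mul_of_nonneg_left hψJ.le hW0.le
    linarith
  have hηW' : (K + 2) * (η * (C2 * W)) + K * (CA * (C2 * W)) * η ≤ e * W / 8 := by
    have h1 : η * (8 * (C2 * (K + 2 + K * CA) + 1)) * W =
      8 * ((K + 2) * (η * (C2 * W)) + K * (CA * (C2 * W)) * η) + 8 * (η * W) := by ring
    have h2 : 0 ≤ η * W := by positivity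
    linarith
  have hYε : (33 / 400 * W - W / 16) * ε + (-(W / 8) - -(3 / 20 * W)) * ε +
      (W / 4 - -(W / 4)) * ε + (W / 4 - -(W / 4)) * ε ≤ 2 * W * ε := by
    have : 0 ≤ W * ε := by positivity
    linarith
  linarith

end Crest.Agent.R151.E792
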