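import Crest.Agent.R151.E792g
import Crest.Agent.R151.M56d

/-!
# R151 / S0214 part 2, [E8] height selection, part h: concatenation of two rows along a private
middle highway (helper792)
-/

set_option autoImplicit false

open MeasureTheory Filter ProbabilityTheory Topology
open Crest.ProbabilityR.FirstPassage

namespace Crest.Agent.R151.E792

open K R78 B710 Q

variable {μ : ℝ × ℝ → ℝ} {F : FlatData μ} (h : Hwy F)

/-- three highways -/
def tri (H₀ H₁ H₂ : ℤ → V) : ℕ → ℤ → V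
  | 0 => H₀
  | 1 => H₁
  | _ => H₂

/-- three indices -/
def tri' {α : Type*} (a b c : α) : ℕ → α
  | 0 => a
  | 1 => b
  | _ => c

/-- three highways of a tower -/
lemma isTower_tri {y₁ y₂ : ℝ} (hy₁ : h.wH < y₁) (hy₂ : h.wH < y₂) (u₁ u₂ u₃ : ℝ) (θ : ℝ × ℝ)
    (t : Environment) : IsTower (1 + 1) (tri (h.H u₁ θ t) (h.H u₂ (θ - y₁ • F.b) t)
      (h.H u₃ (θ - y₁ • F.b - y₂ • F.b) t)) := by
  have e1 : F.be (θ - y₁ • F.b) = F.be θ - y₁ := by simp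
  have e2 : F.be (θ - y₁ • F.b - y₂ • F.b) = F.be θ - y₁ - y₂ := by simp
  refine isTower_of_strips (F := M192.frame F)
    (lo := tri' (-(h.wH / 2) - F.be θ) (-(h.wH / 2) - F.be (θ - y₁ • F.b))
      (-(h.wH / 2) - F.be (θ - y₁ • F.b - y₂ • F.b)))
    (hi := tri' (h.wH / 2 - F.be θ) (h.wH / 2 - F.be (θ - y₁ • F.b))
      (h.wH / 2 - F.be (θ - y₁ • F.b - y₂ • F.b))) ?_ ?_
  · intro k hk
    rcases k with _ | _ | k
    · exact M192.isStrip h u₁ θ t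
    · exact M192.isStrip h u₂ _ t
    · exact M192.isStrip h u₃ _ t
  · intro a b hab hb
    have hb' : b = 1 ∨ b = 2 := by omega
    rcases hb' with rfl | rfl
    · have : a = 0 := by omega
      subst this
      simp only [tri']
      rw [e1]; linarith
    · have : a = 0 ∨ a = 1 := by omega
      rcases this with rfl | rfl
      · simp only [tri']
        rw [e2]; have := M56.wH_nonneg h; linarith
      · simp only [tri']
        rw [e1, e2]; linarith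

lemma rg_shift (I : Set ℝ) (θ : ℝ × ℝ) (y : ℝ) : rg F I (θ - y • F.b) = rg F I θ := by
  ext z
  unfold rg
  rw [Set.mem_ofPred_eq, Set.mem_ofPred_eq, M192.al_pos_sub_b]

section concat

variable {I I' : Set ℝ} (hII : I ⊆ I')
  (hI : ∀ a ∈ I, ∀ b ∈ I, ∀ c, a - h.κ ≤ c → c ≤ b + h.κ → c ∈ I')
  {y₁ y₂ : ℝ} (hy₁ : h.wH < y₁) (hy₂ : h.wH < y₂) {s s' s'' : ℝ} {θ : ℝ × ℝ} {t : Environment}
  {u₁ u₂ u₃ : ℝ}
  (hne₁ : (routes t (h.Lo θ t (u₁, u₂)) (h.Up (y₁ • F.b) θ t (u₁, u₂)) (rg F I θ)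
    (h.iL s θ t (u₁, u₂)) (h.iU (y₁ • F.b) s' θ t (u₁, u₂))).Nonempty)
  (hne₂ : (routes t (h.Lo (θ - y₁ • F.b) t (u₂, u₃)) (h.Up (y₂ • F.b) (θ - y₁ • F.b) t (u₂, u₃))
    (rg F I (θ - y₁ • F.b)) (h.iL s' (θ - y₁ • F.b) t (u₂, u₃))
    (h.iU (y₂ • F.b) s'' (θ - y₁ • F.b) t (u₂, u₃))).Nonempty)
include hII hI hy₁ hy₂ hne₁ hne₂

/-- **concatenation of two rows** (hull kernels in excess form) -/
theorem hkY_concat (ht : Nn t) :
    h.hkY ((y₁ + y₂) • F.b) I' s s'' θ t (u₁, u₃) ≤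
      h.hkY (y₁ • F.b) I s s' θ t (u₁, u₂) +
        h.hkY (y₂ • F.b) I s' s'' (θ - y₁ • F.b) t (u₂, u₃) := by
  have hT := isTower_tri h hy₁ hy₂ u₁ u₂ u₃ θ t
  have key := hT.hull_le_sum (t := t) (A := rg F I θ) (A' := rg F I' θ)
    (fun v hv => hII hv) 1
    (tri' (h.ix s u₁ θ t) (h.ix s' u₂ (θ - y₁ • F.b) t) (h.ix s'' u₃ (θ - y₁ • F.b - y₂ • F.b) t))
    ?_ ?_ (R78.bddBelow_routes ht _ _ _ _ _)
  · rw [Finset.sum_range_succ, Finset.sum_range_one] at key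
    have e : θ - (y₁ + y₂) • F.b = θ - y₁ • F.b - y₂ • F.b := by
      rw [add_smul, sub_sub]
    unfold Hwy.hkY hullY Hwy.Lo Hwy.Up Hwy.iL Hwy.iU
    simp only [e]
    rw [rg_shift I θ y₁]
    change hull t (h.H u₁ θ t) (h.H u₃ (θ - y₁ • F.b - y₂ • F.b) t) (rg F I' θ) (h.ix s u₁ θ t)
      (h.ix s'' u₃ (θ - y₁ • F.b - y₂ • F.b) t) ≤
      hull t (h.H u₁ θ t) (h.H u₂ (θ - y₁ • F.b) t) (rg F I θ) (h.ix s u₁ θ t)
        (h.ix s' u₂ (θ - y₁ • F.b) t) +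
      hull t (h.H u₂ (θ - y₁ • F.b) t) (h.H u₃ (θ - y₁ • F.b - y₂ • F.b) t) (rg F I θ)
        (h.ix s' u₂ (θ - y₁ • F.b) t) (h.ix s'' u₃ (θ - y₁ • F.b - y₂ • F.b) t) at key
    linarith
  · intro k hk1 hk2 w m z hwm hmz hw hz
    have : k = 1 := by omega
    subst this
    change F.al (pos θ (h.H u₂ (θ - y₁ • F.b) t w)) ∈ I at hw
    change F.al (pos θ (h.H u₂ (θ - y₁ • F.b) t z)) ∈ I at hz
    change F.al (pos θ (h.H u₂ (θ - y₁ • F.b) t m)) ∈ I'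
    have b1 := h.back u₂ (θ - y₁ • F.b) t w m hwm
    have b2 := h.back u₂ (θ - y₁ • F.b) t m z hmz
    rw [M192.al_pos_sub_b, M192.al_pos_sub_b] at b1 b2
    exact hI _ hw _ hz _ (by linarith) (by linarith)
  · intro k hk
    have : k = 0 ∨ k = 1 := by omega
    rcases this with rfl | rfl
    · exact hne₁
    · rw [rg_shift I θ y₁] at hne₂
      exact hne₂

end concat

end Crest.Agent.R151.E792
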