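import Crest.Agent.R151.NF0
import Crest.Agent.R151.NF1

/-!
# R151 / S0214 part 2, NF2 — assembly of the contradiction from its inputs (helper710)
-/

set_option autoImplicit false

open MeasureTheory Filter ProbabilityTheory Topology Set
open Crest.ProbabilityR.FirstPassage
open Crest.Agent.R151.K Crest.Agent.R151.Q

namespace Crest.Agent.R151.NF

open B710 (FlatData)
open C710 (GoodScale)

/-! ### Filters -/

lemma ev_small {P : ℝ → Prop} (h : ∃ δ0 : ℝ, 0 < δ0 ∧ ∀ δ, 0 < δ → δ ≤ δ0 → P δ) :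
    ∀ᶠ δ : ℝ in 𝓝[>] 0, P δ := by
  obtain ⟨δ0, hδ0, h⟩ := h
  filter_upwards [Ioc_mem_nhdsGT hδ0] with δ hδ
  exact h δ hδ.1 hδ.2

lemma ev_large {P : ℝ → Prop} (h : ∃ v0 : ℝ, ∀ v ≥ v0, P v) : ∀ᶠ v : ℝ in atTop, P v := by
  obtain ⟨v0, h⟩ := h
  filter_upwards [eventually_ge_atTop v0] with v hv
  exact h v hv

/-- `P` holds for arbitrarily large `W`, the other parameters being chosen in the standard order -/
def EvF (P : Num → Prop) : Prop :=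
  ∀ᶠ n : ℕ in atTop, ∀ᶠ δ : ℝ in 𝓝[>] 0, ∀ᶠ v : ℝ in atTop, ∀ᶠ e : ℝ in 𝓝[>] 0,
  ∀ᶠ v' : ℝ in atTop, ∀ᶠ δ' : ℝ in 𝓝[>] 0, ∀ᶠ δ0 : ℝ in 𝓝[>] 0, ∀ᶠ J : ℝ in atTop,
  ∃ᶠ W : ℝ in atTop, P ⟨n, δ, v, e, v', δ', δ0, J, W⟩

lemma EvF.exists {P Q : Num → Prop} (h1 : Ev P) (h2 : EvF Q) : ∃ p, P p ∧ Q p := by
  unfold Ev at h1
  unfold EvF at h2
  obtain ⟨n, h1, h2⟩ := (h1.and h2).exists
  obtain ⟨δ, h1, h2⟩ := (h1.and h2).exists
  obtain ⟨v, h1, h2⟩ := (h1.and h2).exists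
  obtain ⟨e, h1, h2⟩ := (h1.and h2).exists
  obtain ⟨v', h1, h2⟩ := (h1.and h2).exists
  obtain ⟨δ', h1, h2⟩ := (h1.and h2).exists
  obtain ⟨δ0, h1, h2⟩ := (h1.and h2).exists
  obtain ⟨J, h1, h2⟩ := (h1.and h2).exists
  obtain ⟨W, h1, h2⟩ := (h2.and_eventually h1).exists
  exact ⟨_, h2, h1⟩

/-- the endgame in filter form -/
lemma ev_endgame (hE : E191.Endgame.{0}) {C0 θ : ℝ} (hC : 1 ≤ C0) (hθ : θ < 1) :
    Ev fun p => IsEmpty (E191.Model.{0} C0 θ p.n p.δ p.v p.e) := by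
  obtain ⟨n0, hE⟩ := hE C0 θ hC hθ
  unfold Ev
  filter_upwards [eventually_ge_atTop n0] with n hn
  obtain ⟨δ0, hδ0, hE⟩ := hE n hn
  refine ev_small ⟨δ0, hδ0, fun δ h1 h2 => ?_⟩
  obtain ⟨v0, hE⟩ := hE δ h1 h2
  refine ev_large ⟨v0, fun v hv => ?_⟩
  obtain ⟨e0, he0, hE⟩ := hE v hv
  refine ev_small ⟨e0, he0, fun e h1 h2 => ?_⟩
  have := hE e h1 h2
  exact Eventually.of_forall fun _ => Eventually.of_forall fun _ => Eventually.of_forall fun _ =>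
    Eventually.of_forall fun _ => Eventually.of_forall fun _ => this

variable {μ : ℝ × ℝ → ℝ}

/-! ### Existence of configurations -/

/-- TARGET (helper792) : selection of the height -/
def Select (G : Measure ℝ) (F : FlatData μ) (w0 c0 K : ℝ) : Prop :=
  Ev fun p => ∀ (h : Hwy F) (ε : ℝ), GoodScale G F w0 p.W →
    (∀ w, w0 ≤ w → c0 / w ^ 2 ≤ rate G F w) → h.wH = p.δ0 * p.W → h.κ ≤ K * (p.δ0 * p.W) →
    HwyMean G h ε → ε ≤ rate G F.swap (p.δ0 * p.W) + 1 / (p.δ0 * p.W) ^ 3 →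
    ∃ y : ℝ, Qm G h p.W y (2 * p.v' * p.W) (p.n ^ 5 * (y * rate G F p.W)) ∧
      ¬ Qm G h p.W (y / 2) (2 * p.v' * p.W) (p.n ^ 5 * (y / 2 * rate G F p.W)) ∧
      p.J * p.W ≤ y ∧ y * rate G F p.W ≤ p.W / p.J

/-- configurations exist at arbitrarily large scales -/
theorem exists_cf {G : Measure ℝ} {F : FlatData μ} {w0 c0 K w1 : ℝ}
    (hlow : ∀ w, w0 ≤ w → c0 / w ^ 2 ≤ rate G F w)
    (hgood : ∀ X : ℝ, ∃ W, X ≤ W ∧ GoodScale G F w0 W)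
    (hhw : ∀ w ≥ w1, ∃ h : Hwy F, h.wH = w ∧ h.κ ≤ K * w ∧
      ∃ ε, HwyMean G h ε ∧ ε ≤ rate G F.swap w + 1 / w ^ 3)
    (hsel : Select G F w0 c0 K) : EvF fun p => Nonempty (Cf G F w0 c0 K p) := by
  have h := hsel.and Ev.pos
  unfold Ev at h
  unfold EvF
  filter_upwards [h] with n h
  filter_upwards [h] with δ h
  filter_upwards [h] with v h
  filter_upwards [h] with e h
  filter_upwards [h] with v' h
  filter_upwards [h] with δ' h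
  filter_upwards [h, self_mem_nhdsWithin] with δ0 h hδ0
  filter_upwards [h] with J h
  have hδ0 : 0 < δ0 := hδ0
  have hf : ∃ᶠ W : ℝ in atTop, GoodScale G F w0 W := by
    rw [frequently_atTop]
    exact fun X => hgood X
  refine (hf.and_eventually (h.and (eventually_ge_atTop (w1 / δ0)))).mono ?_
  rintro W ⟨hW, ⟨hs, hp⟩, hw1⟩
  have hw1' : w1 ≤ δ0 * W := by
    rw [div_le_iff₀ hδ0] at hw1
    linarith
  obtain ⟨h, hwH, hκ, ε, hm, hε⟩ := hhw (δ0 * W) hw1'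
  obtain ⟨y, h1, h2, h3, h4⟩ := hs h ε hW hlow hwH hκ hm hε
  exact ⟨⟨h, ε, y, hW, hlow, hwH, hκ, hm, hε, h1, h2, h3, h4⟩⟩

/-! ### The contradiction -/

/-- OUTPUTS of the blocks of part 2, for a typical set `typ` -/
structure Inputs (G : Measure ℝ) (F : FlatData μ) (w0 c0 K : ℝ)
    (typ : ∀ {p : Num}, Cf G F w0 c0 K p → Set (M192.Row (ℝ × ℝ))) : Prop where
  /-- helper792 -/
  select : Select G F w0 c0 K
  /-- helper338, 52, 191, 684, 192 -/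
  law : ∃ C0 : ℝ, 0 < C0 ∧ Ev fun p => ∀ c : Cf G F w0 c0 K p,
    (c.rowA (typ c)).Law (nuR G) c.mB C0 p.n p.δ p.v p.e
  /-- helper354 -/
  dich : ∃ C0 : ℝ, 0 < C0 ∧ Ev fun p => ∀ c : Cf G F w0 c0 K p,
    (c.rowA (typ c)).Cheap (nuR G) C0 p.δ ∨ (c.rowA (typ c)).Costly (nuR G) C0 p.δ p.v p.e
  /-- helper69, 56, 617 -/
  strat : ∃ C0 : ℝ, Ev fun p => ∀ c : Cf G F w0 c0 K p,
    Nonempty (E191.Strategy (c.rowA (typ c)) (nuR G) c.mB C0 p.n p.δ p.e)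
  /-- helper192 -/
  paths : ∃ C0 : ℝ, Ev fun p => ∀ c : Cf G F w0 c0 K p,
    Nonempty (E191.Paths (c.rows (typ c)) c.PSt C0 0.97 p.δ p.v p.e)
  /-- helper192 -/
  model : ∀ C0 : ℝ, Ev fun p => ∀ c : Cf G F w0 c0 K p,
    (c.rowA (typ c)).Law (nuR G) c.mB C0 p.n p.δ p.v p.e →
    ((c.rowA (typ c)).Cheap (nuR G) C0 p.δ ∨ (c.rowA (typ c)).Costly (nuR G) C0 p.δ p.v p.e) →
    Nonempty (E191.Strategy (c.rowA (typ c)) (nuR G) c.mB C0 p.n p.δ p.e) →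
    Nonempty (E191.Paths (c.rows (typ c)) c.PSt C0 0.97 p.δ p.v p.e) →
    Nonempty (E191.Model.{0} C0 0.97 p.n p.δ p.v p.e)

/-- **The contradiction from the inputs.** -/
theorem false_of_inputs (hE : E191.Endgame.{0}) {G : Measure ℝ} [IsProbabilityMeasure G]
    {F : FlatData μ} {w0 c0 K w1 : ℝ}
    (hlow : ∀ w, w0 ≤ w → c0 / w ^ 2 ≤ rate G F w)
    (hgood : ∀ X : ℝ, ∃ W, X ≤ W ∧ GoodScale G F w0 W)
    (hhw : ∀ w ≥ w1, ∃ h : Hwy F, h.wH = w ∧ h.κ ≤ K * w ∧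
      ∃ ε, HwyMean G h ε ∧ ε ≤ rate G F.swap w + 1 / w ^ 3)
    {typ : ∀ {p : Num}, Cf G F w0 c0 K p → Set (M192.Row (ℝ × ℝ))}
    (H : Inputs G F w0 c0 K typ) : False := by
  obtain ⟨C1, hp1, h1⟩ := H.law
  obtain ⟨C2, hp2, h2⟩ := H.dich
  obtain ⟨C3, h3⟩ := H.strat
  obtain ⟨C4, h4⟩ := H.paths
  have : IsProbabilityMeasure (nuR G) := by unfold nuR; infer_instance
  set C : ℝ := max 1 (max (max C1 C2) (max C3 C4)) with hC
  have hC1 : C1 ≤ C := (le_max_left _ _).trans ((le_max_left _ _).trans (le_max_right _ _))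
  have hC2 : C2 ≤ C := (le_max_right _ _).trans ((le_max_left _ _).trans (le_max_right _ _))
  have hC3 : C3 ≤ C := (le_max_left _ _).trans ((le_max_right _ _).trans (le_max_right _ _))
  have hC4 : C4 ≤ C := (le_max_right _ _).trans ((le_max_right _ _).trans (le_max_right _ _))
  have hmod : Ev fun p => Nonempty (Cf G F w0 c0 K p) →
      Nonempty (E191.Model.{0} C 0.97 p.n p.δ p.v p.e) := by
    refine (((((h1.and h2).and h3).and h4).and (H.model C)).and Ev.pos).mono ?_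
    rintro p ⟨⟨⟨⟨⟨h1, h2⟩, h3⟩, h4⟩, h5⟩, hn, hδ, hv, he, -⟩ ⟨c⟩
    refine h5 c (law_mono hp1 hC1 hn le_rfl (h1 c)) ?_ ?_ ?_
    · exact (h2 c).imp (cheap_mono hp2 hC2) (costly_mono hC2 le_rfl)
    · exact (h3 c).map fun S => strat_mono hC3 le_rfl S
    · exact (h4 c).map fun S => paths_mono hv.le hδ.le he hC4 le_rfl S
  obtain ⟨p, ⟨hM, hno⟩, hc⟩ := EvF.exists
    (hmod.and (ev_endgame hE (C0 := C) (θ := 0.97) (le_max_left _ _) (by norm_num)))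
    (exists_cf hlow hgood hhw H.select)
  exact hno.false (hM hc).some

/-- **NOFLAT from the inputs of the blocks** (`κ = r = 1`). -/
theorem noFlat_of_inputs (hE : E191.Endgame.{0})
    (hhw : ∀ {μ : ℝ × ℝ → ℝ}, IsTC (gammaMeasure 1 1) μ → ∀ F : FlatData μ,
      HighwaysExist (gammaMeasure 1 1) F)
    (hin : ∀ {μ : ℝ × ℝ → ℝ}, IsTC (gammaMeasure 1 1) μ → ∀ (F : FlatData μ) (w0 c0 K : ℝ),
      0 < c0 → 0 < K → ∃ typ : ∀ {p : Num}, Cf (gammaMeasure 1 1) F w0 c0 K p →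
        Set (M192.Row (ℝ × ℝ)), Inputs (gammaMeasure 1 1) F w0 c0 K typ)
    (μ : ℝ × ℝ → ℝ) (hμ : B710.IsTimeConstant 1 1 μ) (_hn : B710.NormLike μ)
    (F : FlatData μ) : False := by
  have hμ' : IsTC (gammaMeasure 1 1) μ := hμ
  have : IsProbabilityMeasure (gammaMeasure 1 1) := isProbabilityMeasure_gammaMeasure one_pos one_pos
  obtain ⟨F0, -, w0, c0, hc0, hlow, hgood⟩ := C710.exists_goodScale one_pos one_pos hμ' F
  obtain ⟨K, w1, hK, -, hw⟩ := hhw hμ' F0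
  obtain ⟨typ, H⟩ := hin hμ' F0 w0 c0 K hc0 hK
  exact false_of_inputs hE hlow hgood hw H

end Crest.Agent.R151.NF
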