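import Crest.Agent.R151.E792h
import Crest.Agent.R151.NF2

/-!
# R151 / S0214 part 2, [E8] height selection, part i: means of the concatenation, `sk` (helper792)
-/

set_option autoImplicit false

open MeasureTheory Filter ProbabilityTheory Topology
open Crest.ProbabilityR.FirstPassage

namespace Crest.Agent.R151.E792

open K R78 B710 Q

variable {μ : ℝ × ℝ → ℝ} {F : FlatData μ} (h : Hwy F)

/-- the gauged kernel in terms of excesses -/
lemma sk_eq (d : ℝ × ℝ) (I J : Set ℝ) (L s s' : ℝ) (θ : ℝ × ℝ) (t : Environment) (φ : ℝ × ℝ) :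
    h.sk d I J L s s' θ t φ = h.hkY d I s s' θ t φ - h.hkY d J (-L) L θ t φ +
      h.Y (-L) s φ.1 θ t + h.Y s' L φ.2 (θ - d) t := by
  unfold Hwy.sk Hwy.hkY Hwy.hk hullY Hwy.Y Hwy.Lo Hwy.Up Hwy.iL Hwy.iU
  ring

lemma sk_nonneg {t : Environment} (ht : Nn t) {d : ℝ × ℝ} {I J : Set ℝ} {L s s' : ℝ}
    {θ φ : ℝ × ℝ} (hIJ : I ⊆ J) (hs : -L ≤ s) (hs' : s' ≤ L)
    (hne : (routes t (h.Lo θ t φ) (h.Up d θ t φ) (rg F I θ) (h.iL s θ t φ)
      (h.iU d s' θ t φ)).Nonempty) : 0 ≤ h.sk d I J L s s' θ t φ := by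
  unfold Hwy.sk Hwy.hk
  have := hull_mono (t := t) (H := h.Lo θ t φ) (H' := h.Up d θ t φ) (A := rg F I θ)
    (B := rg F J θ) (R78.bddBelow_routes ht _ _ _ _ _) hne (fun v hv => hIJ hv)
    (i' := h.iL (-L) θ t φ) (j' := h.iU d L θ t φ) (M56.ix_mono (h := h) hs)
    (M56.ix_mono (h := h) hs')
  linarith

variable {G : Measure ℝ} [IsProbabilityMeasure G]

/-- **mean of a concatenation** -/
theorem mean_concat (h0 : G (Set.Iio 0) = 0) {I I' : Set ℝ} (hII : I ⊆ I')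
    (hI : ∀ a ∈ I, ∀ b ∈ I, ∀ c, a - h.κ ≤ c → c ≤ b + h.κ → c ∈ I')
    {y₁ y₂ : ℝ} (hy₁ : h.wH < y₁) (hy₂ : h.wH < y₂) {s s' s'' : ℝ}
    (hne₁ : ∀ θ t φ, (routes t (h.Lo θ t φ) (h.Up (y₁ • F.b) θ t φ) (rg F I θ)
      (h.iL s θ t φ) (h.iU (y₁ • F.b) s' θ t φ)).Nonempty)
    (hne₂ : ∀ θ t φ, (routes t (h.Lo θ t φ) (h.Up (y₂ • F.b) θ t φ) (rg F I θ)
      (h.iL s' θ t φ) (h.iU (y₂ • F.b) s'' θ t φ)).Nonempty)
    (hi : Integrable (fun q : ((ℝ × ℝ) × Environment) × (ℝ × ℝ) =>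
      h.hkY ((y₁ + y₂) • F.b) I' s s'' q.1.1 q.1.2 q.2) ((P0 G).prod (UU.prod UU)))
    (hi₁ : Integrable (fun q : ((ℝ × ℝ) × Environment) × (ℝ × ℝ) =>
      h.hkY (y₁ • F.b) I s s' q.1.1 q.1.2 q.2) ((P0 G).prod (UU.prod UU)))
    (hi₂ : Integrable (fun q : ((ℝ × ℝ) × Environment) × (ℝ × ℝ) =>
      h.hkY (y₂ • F.b) I s' s'' q.1.1 q.1.2 q.2) ((P0 G).prod (UU.prod UU))) (hIm : MeasurableSet I) :
    ∫ q, h.hkY ((y₁ + y₂) • F.b) I' s s'' q.1.1 q.1.2 q.2 ∂((P0 G).prod (UU.prod UU)) ≤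
      ∫ q, h.hkY (y₁ • F.b) I s s' q.1.1 q.1.2 q.2 ∂((P0 G).prod (UU.prod UU)) +
      ∫ q, h.hkY (y₂ • F.b) I s' s'' q.1.1 q.1.2 q.2 ∂((P0 G).prod (UU.prod UU)) := by
  have m12 : MeasurePreserving (Prod.map (id : (ℝ × ℝ) × Environment → _)
      (Prod.map (id : ℝ → ℝ) (Prod.fst : ℝ × ℝ → ℝ))) ((P0 G).prod (UU.prod (UU.prod UU)))
      ((P0 G).prod (UU.prod UU)) :=
    (MeasurePreserving.id _).prod ((MeasurePreserving.id _).prod measurePreserving_fst)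
  have m13 : MeasurePreserving (Prod.map (id : (ℝ × ℝ) × Environment → _)
      (Prod.map (id : ℝ → ℝ) (Prod.snd : ℝ × ℝ → ℝ))) ((P0 G).prod (UU.prod (UU.prod UU)))
      ((P0 G).prod (UU.prod UU)) :=
    (MeasurePreserving.id _).prod ((MeasurePreserving.id _).prod measurePreserving_snd)
  have m23 : MeasurePreserving (Prod.map (id : (ℝ × ℝ) × Environment → _)
      (Prod.snd : ℝ × (ℝ × ℝ) → ℝ × ℝ)) ((P0 G).prod (UU.prod (UU.prod UU)))
      ((P0 G).prod (UU.prod UU)) :=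
    (MeasurePreserving.id _).prod measurePreserving_snd
  -- the shifted second row
  have e : (fun q : ((ℝ × ℝ) × Environment) × (ℝ × ℝ) =>
      h.hkY (y₂ • F.b) I s' s'' (q.1.1 - y₁ • F.b) q.1.2 q.2) =
      fun q => h.hkY (y₂ • F.b) I s' s'' (q.1.1 + -(y₁ • F.b)) q.1.2 q.2 := by
    funext q; rw [sub_eq_add_neg]
  have hi₂' : Integrable (fun q : ((ℝ × ℝ) × Environment) × (ℝ × ℝ) =>
      h.hkY (y₂ • F.b) I s' s'' (q.1.1 - y₁ • F.b) q.1.2 q.2) ((P0 G).prod (UU.prod UU)) := by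
    rw [e]
    exact integrable_shift_prod (F := fun θ t (φ : ℝ × ℝ) => h.hkY (y₂ • F.b) I s' s'' θ t φ)
      (fun φ => h.hkY_inv _ _ _ _ φ) _ hi₂
  have he₂ : ∫ q, h.hkY (y₂ • F.b) I s' s'' (q.1.1 - y₁ • F.b) q.1.2 q.2
      ∂((P0 G).prod (UU.prod UU)) =
      ∫ q, h.hkY (y₂ • F.b) I s' s'' q.1.1 q.1.2 q.2 ∂((P0 G).prod (UU.prod UU)) := by
    rw [e]
    exact integral_shift_prod (F := fun θ t (φ : ℝ × ℝ) => h.hkY (y₂ • F.b) I s' s'' θ t φ)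
      (fun φ => h.hkY_inv _ _ _ _ φ)
      (h.meas_hkY (by fun_prop) (by fun_prop) (by fun_prop) _ hIm _ _) _
  have j13 := m13.integrable_comp_of_integrable hi
  have j12 := m12.integrable_comp_of_integrable hi₁
  have j23 := m23.integrable_comp_of_integrable hi₂'
  rw [← he₂, ← mp_integral m13 hi.aestronglyMeasurable, ← mp_integral m12 hi₁.aestronglyMeasurable,
    ← mp_integral m23 hi₂'.aestronglyMeasurable]
  refine (integral_mono_ae j13 (j12.add j23) ?_).trans (le_of_eq (integral_add j12 j23))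
  filter_upwards [ae_P0_Nn (G := G) h0 (ν := UU.prod (UU.prod UU))] with q hq
  exact hkY_concat h hII hI hy₁ hy₂ (hne₁ _ _ _) (hne₂ _ _ _) hq.1

end Crest.Agent.R151.E792
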