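import Crest.Agent.R151.E792i

/-!
# R151 / S0214 part 2, [E8] height selection, part j: upper bound (U) (helper792)
-/

set_option autoImplicit false

open MeasureTheory Filter ProbabilityTheory Topology
open Crest.ProbabilityR.FirstPassage

namespace Crest.Agent.R151.E792

open K R78 B710 Q

variable {μ : ℝ × ℝ → ℝ} {F : FlatData μ} {G : Measure ℝ} [IsProbabilityMeasure G]

/-- mean of a fence (helper56's `fence_mean`), displacements `y • b` -/
def FM (G : Measure ℝ) (h : Hwy F) (ε : ℝ) : Prop :=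
  ∀ (y y₂ s s₂ α β : ℝ) (I : Set ℝ), MeasurableSet I → h.wH + 2 * M56.mg F < y →
    h.wH + 2 * M56.mg F < y₂ - y → s ≤ α → β + h.κ < s₂ → Set.Icc α β ⊆ I →
    2 * M56.mg F ≤ β - α →
    ∫ q, h.hkY (y • F.b) I s s₂ q.1.1 q.1.2 q.2 ∂((P0 G).prod (UU.prod UU)) ≤
      y₂ * rate G F (β - α) + (s₂ - s + β - α + h.κ + 1) * ε

/-- mean of the gauged kernel -/
lemma integral_sk {h : Hwy F} {ε : ℝ} (hm : HwyMean G h ε) {d : ℝ × ℝ} {I J : Set ℝ}
    {L s s' : ℝ}
    (hi : Integrable (fun q : ((ℝ × ℝ) × Environment) × (ℝ × ℝ) => h.hkY d I s s' q.1.1 q.1.2 q.2)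
      ((P0 G).prod (UU.prod UU)))
    (hj : Integrable (fun q : ((ℝ × ℝ) × Environment) × (ℝ × ℝ) =>
      h.hkY d J (-L) L q.1.1 q.1.2 q.2) ((P0 G).prod (UU.prod UU))) :
    Integrable (fun q : ((ℝ × ℝ) × Environment) × (ℝ × ℝ) => h.sk d I J L s s' q.1.1 q.1.2 q.2)
      ((P0 G).prod (UU.prod UU)) ∧
    ∫ q, h.sk d I J L s s' q.1.1 q.1.2 q.2 ∂((P0 G).prod (UU.prod UU)) =
      ∫ q, h.hkY d I s s' q.1.1 q.1.2 q.2 ∂((P0 G).prod (UU.prod UU)) -
      ∫ q, h.hkY d J (-L) L q.1.1 q.1.2 q.2 ∂((P0 G).prod (UU.prod UU)) +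
      (s + L) * ε + (L - s') * ε := by
  obtain ⟨y1i, y1m⟩ := Y_lo hm (-L) s
  obtain ⟨y2i, y2m⟩ := Y_up hm d s' L
  have e : (fun q : ((ℝ × ℝ) × Environment) × (ℝ × ℝ) => h.sk d I J L s s' q.1.1 q.1.2 q.2) =
      (((fun q : ((ℝ × ℝ) × Environment) × (ℝ × ℝ) => h.hkY d I s s' q.1.1 q.1.2 q.2) -
        (fun q : ((ℝ × ℝ) × Environment) × (ℝ × ℝ) => h.hkY d J (-L) L q.1.1 q.1.2 q.2)) +
        (fun q : ((ℝ × ℝ) × Environment) × (ℝ × ℝ) => h.Y (-L) s q.2.1 q.1.1 q.1.2)) +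
        (fun q : ((ℝ × ℝ) × Environment) × (ℝ × ℝ) => h.Y s' L q.2.2 (q.1.1 - d) q.1.2) := by
    funext q
    exact sk_eq h d I J L s s' q.1.1 q.1.2 q.2
  rw [e]
  refine ⟨((hi.sub hj).add y1i).add y2i, ?_⟩
  rw [integral_add' ((hi.sub hj).add y1i) y2i, integral_add' (hi.sub hj) y1i,
    integral_sub' hi hj, y1m, y2m]
  ring

/-- Markov inequality -/
lemma half_le {Ω : Type*} [MeasurableSpace Ω] {P : Measure Ω} [IsProbabilityMeasure P]
    {X : Ω → ℝ} (hX : Integrable X P) (h0 : ∀ᵐ ω ∂P, 0 ≤ X ω) {c : ℝ} (hc : 0 < c)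
    (hE : ∫ ω, X ω ∂P ≤ c / 2) : 1 / 2 ≤ P.real {ω | X ω ≤ c} := by
  have h1 : c * P.real {ω | c ≤ X ω} ≤ ∫ ω, X ω ∂P :=
    mul_meas_ge_le_integral_of_nonneg h0 hX c
  have h2 : P.real {ω | c ≤ X ω} ≤ 1 / 2 := by
    have : c * P.real {ω | c ≤ X ω} ≤ c * (1 / 2) := by linarith
    exact le_of_mul_le_mul_left this hc
  have h3 : (1 : ℝ) ≤ P.real {ω | X ω ≤ c} + P.real {ω | c ≤ X ω} := by
    rw [← probReal_univ (μ := P)]
    refine le_trans (measureReal_mono ?_) (measureReal_union_le _ _)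
    intro ω _
    rcases le_total (X ω) c with h | h
    · exact Or.inl h
    · exact Or.inr h
  linarith

set_option maxHeartbeats 1600000 in
/-- **(U)** -/
theorem upper_main {lam : ℝ} (h0 : G (Set.Iio 0) = 0) (hz : G {0} = 0) (hlam : 0 < lam)
    (hexp : Integrable (fun x => Real.exp (lam * x)) G) (hμ : IsTC G μ) (F : FlatData μ)
    {CS e : ℝ} (hCS : 0 ≤ CS) (he : 0 < e) : ∃ J : ℝ, 4 ≤ J ∧ ∀ v' : ℝ, 1 ≤ v' →
      ∃ η : ℝ, 0 < η ∧ ∃ W0 : ℝ, ∀ W ≥ W0, ∀ (h : Hwy F) (ε R : ℝ),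
        h.wH ≤ W / 200 → h.κ ≤ W / 200 → HwyMean G h ε → FM G h ε → ε ≤ η → 0 ≤ R →
        rate G F (W / 32) ≤ CS * R → ∀ y : ℝ, J * W ≤ y →
        NF.Qm G h W y (2 * v' * W) (2 * CS * (y * R) + e * W) := by
  have h2 : Integrable (fun x : ℝ => x ^ 2) G := integrable_sq h0 hlam hexp
  obtain ⟨J₁, hJ₁, W1, hfall⟩ := fall_mean h0 hz hlam hexp hμ F (e := e / 8) (by positivity)
  refine ⟨J₁ + 1, by linarith, fun v' hv' => ⟨e / (8 * (4 * v' + 4)), by positivity,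
    |W1| + 100 * M56.mg F + 100 * C710.fn F.al + 100, ?_⟩⟩
  intro W hW h ε R hwH hκ hm hFM hε hR hrate y hy
  have hfn := C710.fn_nonneg F.al
  have hmg := M56.one_le_mg F
  have hab := abs_nonneg W1
  have hWW : W1 ≤ W := by have := le_abs_self W1; linarith
  have hW0 : 100 ≤ W := by linarith
  have hWp : 0 < W := by linarith
  have hmgW : 100 * M56.mg F ≤ W := by linarith
  have hfnW : 100 * C710.fn F.al ≤ W := by linarith
  have hκ0 := h.κ_nonneg
  have hwH0 := M56.wH_nonneg h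
  have hε0 := hm.nonneg
  set ι : ℝ := 7 / 32 * W with hι
  set ι' : ℝ := ι - h.κ with hι'
  set y₁ : ℝ := y - J₁ * W with hy₁
  have hy₁W : W ≤ y₁ := by
    have : (J₁ + 1) * W = J₁ * W + W := by ring
    rw [hy₁]; linarith
  have hJW : 4 * W ≤ J₁ * W := mul_le_mul_of_nonneg_right hJ₁ hWp.le
  have hsum : y₁ + J₁ * W = y := by rw [hy₁]; ring
  have hL : 2 * W ≤ 2 * v' * W := mul_le_mul_of_nonneg_right (by linarith) hWp.le
  set L : ℝ := 2 * v' * W with hLdef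
  have bb : ∀ x : ℝ, F.be (x • F.b) = x := by intro x; simp
  have ab : ∀ x : ℝ, F.al (x • F.b) = 0 := by intro x; simp
  -- the four rows
  have c1 : h.wH + 2 * M56.mg F < F.be (y₁ • F.b) := by rw [bb]; linarith
  have c2 : h.wH + 2 * M56.mg F < F.be ((J₁ * W) • F.b) := by rw [bb]; linarith
  have c3 : h.wH + 2 * M56.mg F < F.be (y • F.b) := by rw [bb]; linarith
  have i1 : Set.Icc (min (W / 64) (W / 64) - M56.mg F) (max (W / 64) (W / 64) + M56.mg F) ⊆
      Set.Icc (-ι') ι' := by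
    rw [min_self, max_self]
    exact Set.Icc_subset_Icc (by linarith) (by linarith)
  have i2 : Set.Icc (min (5 * W / 64) (-(5 * W / 32)) - M56.mg F)
      (max (5 * W / 64) (-(5 * W / 32)) + M56.mg F) ⊆ Set.Icc (-ι') ι' := by
    rw [min_eq_right (by linarith), max_eq_left (by linarith)]
    exact Set.Icc_subset_Icc (by linarith) (by linarith)
  have i3 : Set.Icc (min (W / 64) (-(5 * W / 32)) - M56.mg F)
      (max (W / 64) (-(5 * W / 32)) + M56.mg F) ⊆ Set.Icc (-ι) ι := by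
    rw [min_eq_right (by linarith), max_eq_left (by linarith)]
    exact Set.Icc_subset_Icc (by linarith) (by linarith)
  have m1 : MeasurableSet (Set.Icc (-ι') ι') := measurableSet_Icc
  have m3 : MeasurableSet (Set.Icc (-ι) ι) := measurableSet_Icc
  have l1 : -(L) + M56.mg F ≤ 0 := by linarith
  have hi₁ := M56.hkY_integrable (G := G) hm h0 h2 c1 m1 (s := 0) (s' := W / 16)
    (σ₁ := W / 64) (σ₂ := W / 64) (by linarith) (by rw [ab]; linarith) i1
  have hne₁ := M56.row_nonempty (h := h) c1 (I := Set.Icc (-ι') ι') (s := 0) (s' := W / 16)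
    (σ₁ := W / 64) (σ₂ := W / 64) (by linarith) (by rw [ab]; linarith) i1
  have hi₂ := M56.hkY_integrable (G := G) hm h0 h2 c2 m1 (s := W / 16) (s' := -(W / 8))
    (σ₁ := 5 * W / 64) (σ₂ := -(5 * W / 32)) (by linarith) (by rw [ab]; linarith) i2
  have hne₂ := M56.row_nonempty (h := h) c2 (I := Set.Icc (-ι') ι') (s := W / 16) (s' := -(W / 8))
    (σ₁ := 5 * W / 64) (σ₂ := -(5 * W / 32)) (by linarith) (by rw [ab]; linarith) i2
  have hi₃ := M56.hkY_integrable (G := G) hm h0 h2 c3 m3 (s := 0) (s' := -(W / 8))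
    (σ₁ := W / 64) (σ₂ := -(5 * W / 32)) (by linarith) (by rw [ab]; linarith) i3
  have hne₃ := M56.row_nonempty (h := h) c3 (I := Set.Icc (-ι) ι) (s := 0) (s' := -(W / 8))
    (σ₁ := W / 64) (σ₂ := -(5 * W / 32)) (by linarith) (by rw [ab]; linarith) i3
  have hi₄ := M56.hkY_integrable (G := G) hm h0 h2 c3 MeasurableSet.univ (s := -L) (s' := L)
    (σ₁ := 0) (σ₂ := 0) (by linarith) (by rw [ab]; linarith) (Set.subset_univ _)
  have hn₄ := M56.hkY_nonneg (G := G) hm h0 h2 c3 MeasurableSet.univ (s := -L) (s' := L)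
    (σ₁ := 0) (σ₂ := 0) (by linarith) (by rw [ab]; linarith) (Set.subset_univ _) hμ
  unfold M56.nu at hi₁ hi₂ hi₃ hi₄ hn₄
  -- the mean
  have hII : Set.Icc (-ι') ι' ⊆ Set.Icc (-ι) ι := Set.Icc_subset_Icc (by linarith) (by linarith)
  have hcat := mean_concat (G := G) h h0 (I := Set.Icc (-ι') ι') (I' := Set.Icc (-ι) ι) hII
    (by
      intro a ha b hb c hc1 hc2
      rw [Set.mem_Icc] at ha hb ⊢
      constructor <;> linarith [ha.1, hb.2])
    (y₁ := y₁) (y₂ := J₁ * W) (by linarith) (by linarith) (s := 0) (s' := W / 16)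
    (s'' := -(W / 8)) (fun θ t φ => hne₁ θ t φ) (fun θ t φ => hne₂ θ t φ)
    (by rw [hsum]; exact hi₃) hi₁ hi₂ m1
  rw [hsum] at hcat
  have hf₁ := hFM y₁ y 0 (W / 16) 0 (W / 32) (Set.Icc (-ι') ι') m1 (by linarith)
    (by rw [hy₁]; linarith) le_rfl (by linarith)
    (Set.Icc_subset_Icc (by linarith) (by linarith)) (by linarith)
  rw [sub_zero, sub_zero] at hf₁
  have hf₂ := hfall W hWW h ε hwH hκ hm ι' (by linarith) hi₂
  obtain ⟨hsi, hsm⟩ := integral_sk hm (L := L) hi₃ hi₄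
  have hy0 : 0 ≤ y := by linarith
  have hr1 : y * rate G F (W / 32) ≤ y * (CS * R) := mul_le_mul_of_nonneg_left hrate hy0
  have hεW : (8 * (4 * v' + 4)) * (W * ε) ≤ e * W := by
    have h1 : ε * (8 * (4 * v' + 4)) ≤ e := by
      rwa [le_div_iff₀ (by positivity)] at hε
    have h3 := mul_le_mul_of_nonneg_right h1 hWp.le
    calc (8 * (4 * v' + 4)) * (W * ε) = ε * (8 * (4 * v' + 4)) * W := by ring
      _ ≤ e * W := h3
  have hWε : 0 ≤ W * ε := by positivity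
  have hb1 : (W / 16 + W / 32 + h.κ + 1) * ε ≤ W * ε := by
    apply mul_le_mul_of_nonneg_right _ hε0
    linarith
  have hmean : ∫ q, h.sk (y • F.b) (Set.Icc (-ι) ι) Set.univ L 0 (-(W / 8)) q.1.1 q.1.2 q.2
      ∂((P0 G).prod (UU.prod UU)) ≤ (2 * CS * (y * R) + e * W) / 2 := by
    rw [hsm]
    have e1 : (0 + L) * ε + (L - -(W / 8)) * ε = 4 * v' * (W * ε) + W / 8 * ε := by
      rw [hLdef]; ring
    have e2 : (8 * (4 * v' + 4)) * (W * ε) = 8 * (4 * v' * (W * ε)) + 32 * (W * ε) := by ring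
    have e3 : y * (CS * R) = CS * (y * R) := by ring
    have e4 : 2 * W * ε = 2 * (W * ε) := by ring
    have e5 : W / 8 * ε = W * ε / 8 := by ring
    have e6 : (W / 16 - 0 + W / 32 + h.κ + 1) * ε ≤ W * ε := by
      rw [sub_zero]; exact hb1
    have e7 : 0 ≤ e * W := by positivity
    linarith
  have hpos : 0 < 2 * CS * (y * R) + e * W := by
    have : 0 ≤ 2 * CS * (y * R) := by positivity
    have : 0 < e * W := by positivity
    linarith
  unfold NF.Qm NF.nuR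
  refine half_le hsi ?_ hpos hmean
  filter_upwards [ae_P0_Nn (G := G) h0 (ν := UU.prod UU)] with q hq
  exact sk_nonneg h hq.1 (Set.subset_univ _) (by linarith) (by linarith) (hne₃ _ _ _)

end Crest.Agent.R151.E792
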