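import Crest.Agent.R151.E792j
import Crest.Agent.R151.G338b

/-!
# R151 / S0214 part 2, [E8] height selection, part k: lower bound (L) (helper792)
-/

set_option autoImplicit false

open MeasureTheory Filter ProbabilityTheory Topology
open Crest.ProbabilityR.FirstPassage

namespace Crest.Agent.R151.E792

open K R78 B710 Q

variable {μ : ℝ × ℝ → ℝ} {F : FlatData μ} {G : Measure ℝ} [IsProbabilityMeasure G]

/-- the highway points are in the box -/
lemma x_mem_box2 (h : Hwy F) {A B : ℝ} {N : ℕ}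
    {θ : ℝ × ℝ} (hθ : θ ∈ Set.Ico (0 : ℝ) 1 ×ˢ Set.Ico (0 : ℝ) 1) {t : Environment} {u s y : ℝ}
    (hs : |s| + cF F ≤ A) (hy : |y| + h.wH / 2 ≤ B) (hN : A * ‖F.a‖ + B * ‖F.b‖ + 1 ≤ N) :
    h.x s u (θ - y • F.b) t ∈ box N := by
  have h1 := M56.al_x_ge h s u (θ - y • F.b) t
  have h2 := h.al_x_le s u (θ - y • F.b) t
  have h3 := M56.be_x h s u (θ - y • F.b) t
  have h4 : F.al (pos (θ - y • F.b) (h.x s u (θ - y • F.b) t)) ≤ s + cF F := h2
  rw [M192.al_pos_sub_b] at h1 h4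
  rw [M192.be_pos_sub_b] at h3
  have hcF := cF_nonneg F
  refine mem_box_of_pos (v := 0) hθ (R := A * ‖F.a‖ + B * ‖F.b‖) ?_ (by simpa using hN)
  rw [sub_zero]
  refine (M56.norm_le_coord F _).trans ?_
  have h5 : |F.al (pos θ (h.x s u (θ - y • F.b) t))| ≤ A := by
    have := neg_abs_le s
    have := le_abs_self s
    rw [abs_le]; constructor <;> linarith
  have h6 : |F.be (pos θ (h.x s u (θ - y • F.b) t))| ≤ B := by
    have e1 := neg_abs_le y
    have e2 := le_abs_self y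
    rw [abs_le] at h3 ⊢; constructor <;> linarith [h3.1, h3.2]
  exact add_le_add (mul_le_mul_of_nonneg_right h5 (norm_nonneg _))
    (mul_le_mul_of_nonneg_right h6 (norm_nonneg _))

lemma ptY_ge {t : Environment} {x y : ℤ × ℤ} {D : ℝ}
    (hD : |passageTime t x y - μ (toR (y - x))| ≤ D) :
    F.ψ (toR (y - x)) - D ≤ ptY t (phi F) x y := by
  have h := (abs_le.1 hD).1
  unfold ptY FlatData.ψ
  rw [R6.phi_sub]; linarith

/-- **(L), deterministic part** -/
theorem sk_lower (h : Hwy F) {t : Environment} (ht : Nn t) {y L W ψ0 D T : ℝ} {I : Set ℝ}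
    {θ φ : ℝ × ℝ} (hL : 0 ≤ L) (hLW : -(W / 8) ≤ L)
    (hne : (routes t (h.Lo θ t φ) (h.Up (y • F.b) θ t φ) (rg F I θ) (h.iL 0 θ t φ)
      (h.iU (y • F.b) (-(W / 8)) θ t φ)).Nonempty)
    (hne' : (routes t (h.Lo θ t φ) (h.Up (y • F.b) θ t φ) (rg F Set.univ θ) (h.iL (-L) θ t φ)
      (h.iU (y • F.b) L θ t φ)).Nonempty)
    (hψ : ψ0 ≤ F.ψ (toR (h.x (-(W / 8)) φ.2 (θ - y • F.b) t - h.x 0 φ.1 θ t)))
    {N : ℕ} (hN : ∀ s u : ℝ, (s = -L ∨ s = 0) → h.x s u θ t ∈ box N)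
    (hN' : ∀ s u : ℝ, (s = L ∨ s = -(W / 8)) → h.x s u (θ - y • F.b) t ∈ box N)
    (hD : dev μ N t = D) (hT : h.hkY (y • F.b) Set.univ (-L) L θ t φ = T) :
    0 ≤ T + D ∧ ψ0 - 3 * D - T ≤ h.sk (y • F.b) I Set.univ L 0 (-(W / 8)) θ t φ := by
  have b1 := hN (-L) φ.1 (Or.inl rfl)
  have b2 := hN 0 φ.1 (Or.inr rfl)
  have b3 := hN' L φ.2 (Or.inl rfl)
  have b4 := hN' (-(W / 8)) φ.2 (Or.inr rfl)
  have d12 := le_dev μ t b1 b2
  have d13 := le_dev μ t b1 b3
  have d24 := le_dev μ t b2 b4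
  have d43 := le_dev μ t b4 b3
  rw [hD] at d12 d13 d24 d43
  constructor
  · have e1 := M56.hkY_ge (h := h) (d := y • F.b) (I := Set.univ) (s := -L) (s' := L) ht θ φ hne'
    have e2 := ptY_ge (F := F) d13
    have e3 := F.ψ_nonneg (toR (h.x L φ.2 (θ - y • F.b) t - h.x (-L) φ.1 θ t))
    rw [hT] at e1
    have e4 : h.gY (y • F.b) (-L) L θ t φ =
      ptY t (phi F) (h.x (-L) φ.1 θ t) (h.x L φ.2 (θ - y • F.b) t) := rfl
    linarith
  · have e1 := M56.hkY_ge (h := h) (d := y • F.b) (I := I) (s := 0) (s' := -(W / 8)) ht θ φ hne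
    have e2 := ptY_ge (F := F) d24
    have e4 : h.gY (y • F.b) 0 (-(W / 8)) θ t φ =
      ptY t (phi F) (h.x 0 φ.1 θ t) (h.x (-(W / 8)) φ.2 (θ - y • F.b) t) := rfl
    have e5 := Y_ge h ht (s := -L) (s' := 0) (by linarith) d12
    have e6 := Y_ge h ht (s := -(W / 8)) (s' := L) hLW d43
    rw [sk_eq, hT]
    linarith

set_option maxHeartbeats 1600000 in
/-- **(L)** -/
theorem lower_main {lam : ℝ} (h0 : G (Set.Iio 0) = 0) (hz : G {0} = 0) (hlam : 0 < lam)
    (hexp : Integrable (fun x => Real.exp (lam * x)) G) (hμ : IsTC G μ) (F : FlatData μ)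
    {J : ℝ} (hJ : 1 ≤ J) : ∃ c : ℝ, 0 < c ∧ ∀ v' : ℝ, 1 ≤ v' →
      ∃ η : ℝ, 0 < η ∧ ∃ W0 : ℝ, ∀ W ≥ W0, ∀ (h : Hwy F) (ε : ℝ),
        h.wH ≤ W / 200 → h.κ ≤ W / 200 → HwyMean G h ε → FM G h ε → ε ≤ η →
        rate G F (W / 2) ≤ η → ∀ y : ℝ, W ≤ y → y ≤ J * W →
        ¬ NF.Qm G h W y (2 * v' * W) (c * W) := by
  have h2 : Integrable (fun x : ℝ => x ^ 2) G := integrable_sq h0 hlam hexp
  have hNl : NormLike μ := normLike_of_isTC h0 hz hlam hexp hμ
  obtain ⟨c', hc', hψ⟩ := R6.psi_fall F hNl (K := 9 * (J + 1)) (by positivity)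
  set c : ℝ := c' / 45 with hc
  have hc0 : 0 < c := by positivity
  refine ⟨c, hc0, fun v' hv' => ?_⟩
  set C2 : ℝ := (2 * v' + 1) * ‖F.a‖ + (J + 1) * ‖F.b‖ + 2 with hC2
  have hC20 : 0 < C2 := by positivity
  set η₁ : ℝ := min (1 / 8) (c / (8 * C2)) with hη₁
  have hη₁0 : 0 < η₁ := lt_min (by norm_num) (by positivity)
  have hη₁a : η₁ ≤ 1 / 8 := min_le_left _ _
  have hη₁b : η₁ * C2 ≤ c / 8 := by
    have h1 : η₁ ≤ c / (8 * C2) := min_le_right _ _
    rw [le_div_iff₀ (by positivity)] at h1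
    linarith
  obtain ⟨n1', hn1'⟩ := uniform_shape h0 hlam hexp hμ hη₁0
  obtain ⟨n2', hn2'⟩ := uniform_shape_prob h0 hlam hexp hμ hη₁0
  refine ⟨c / (8 * (J + 4 * v' + 3)), by positivity, n1' + n2' + 1000 * cF F +
    100 * M56.mg F + 100 * C710.fn F.al + 100, ?_⟩
  intro W hW h ε hwH hκ hm hFM hε hrate y hy1 hy2 hQ
  have hfn := C710.fn_nonneg F.al
  have hmg := M56.one_le_mg F
  have hcF := cF_nonneg F
  have hn1p : (0 : ℝ) ≤ n1' := by positivity
  have hn2p : (0 : ℝ) ≤ n2' := by positivity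
  have hW0 : 100 ≤ W := by linarith
  have hWp : 0 < W := by linarith
  have hmgW : 100 * M56.mg F ≤ W := by linarith
  have hfnW : 100 * C710.fn F.al ≤ W := by linarith
  have hcFW : 1000 * cF F ≤ W := by linarith
  have hκ0 := h.κ_nonneg
  have hwH0 := M56.wH_nonneg h
  have hε0 := hm.nonneg
  set ι : ℝ := 7 / 32 * W with hι
  have hL : 2 * W ≤ 2 * v' * W := mul_le_mul_of_nonneg_right (by linarith) hWp.le
  set L : ℝ := 2 * v' * W with hLdef
  have bb : ∀ x : ℝ, F.be (x • F.b) = x := by intro x; simp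
  have ab : ∀ x : ℝ, F.al (x • F.b) = 0 := by intro x; simp
  -- the box
  set N : ℕ := ⌈(C2 - 1) * W⌉₊ with hN
  have hC21 : 1 ≤ C2 - 1 := by
    have e1 : 0 ≤ (2 * v' + 1) * ‖F.a‖ := by positivity
    have e2 : 0 ≤ (J + 1) * ‖F.b‖ := by positivity
    rw [hC2]; linarith
  have hN1 : (C2 - 1) * W ≤ N := Nat.le_ceil _
  have hN2 : (N : ℝ) ≤ C2 * W := by
    have := Nat.ceil_lt_add_one (show 0 ≤ (C2 - 1) * W by positivity)
    have e1 : (C2 - 1) * W + 1 ≤ C2 * W := by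
      have : C2 * W = (C2 - 1) * W + W := by ring
      linarith
    linarith
  have hWN : W ≤ N := by
    have : 1 * W ≤ (C2 - 1) * W := mul_le_mul_of_nonneg_right hC21 hWp.le
    linarith
  have hNn1 : n1' ≤ N := by
    have : (n1' : ℝ) ≤ N := by linarith
    exact_mod_cast this
  have hNn2 : n2' ≤ N := by
    have : (n2' : ℝ) ≤ N := by linarith
    exact_mod_cast this
  obtain ⟨hdi, hdm⟩ := hn1' N hNn1
  have hdp := hn2' N hNn2
  have hηN : η₁ * N ≤ c / 8 * W := by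
    have h1 : η₁ * N ≤ η₁ * (C2 * W) := mul_le_mul_of_nonneg_left hN2 hη₁0.le
    have h3 := mul_le_mul_of_nonneg_right hη₁b hWp.le
    have e : η₁ * (C2 * W) = η₁ * C2 * W := by ring
    linarith
  have hNbig : (2 * v' * W + W) * ‖F.a‖ + (J * W + W) * ‖F.b‖ + 1 ≤ N := by
    have e : (C2 - 1) * W = (2 * v' * W + W) * ‖F.a‖ + (J * W + W) * ‖F.b‖ + W := by
      rw [hC2]; ring
    linarith
  have hJW : W ≤ J * W := le_mul_of_one_le_left hWp.le hJ
  -- rows
  have c3 : h.wH + 2 * M56.mg F < F.be (y • F.b) := by rw [bb]; linarith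
  have i3 : Set.Icc (min (W / 64) (-(5 * W / 32)) - M56.mg F)
      (max (W / 64) (-(5 * W / 32)) + M56.mg F) ⊆ Set.Icc (-ι) ι := by
    rw [min_eq_right (by linarith), max_eq_left (by linarith)]
    exact Set.Icc_subset_Icc (by linarith) (by linarith)
  have hne₃ := M56.row_nonempty (h := h) c3 (I := Set.Icc (-ι) ι) (s := 0) (s' := -(W / 8))
    (σ₁ := W / 64) (σ₂ := -(5 * W / 32)) (by linarith) (by rw [ab]; linarith) i3
  have hne₄ := M56.row_nonempty (h := h) c3 (I := Set.univ) (s := -L) (s' := L)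
    (σ₁ := 0) (σ₂ := 0) (by linarith) (by rw [ab]; linarith) (Set.subset_univ _)
  have hi₄ := M56.hkY_integrable (G := G) hm h0 h2 c3 MeasurableSet.univ (s := -L) (s' := L)
    (σ₁ := 0) (σ₂ := 0) (by linarith) (by rw [ab]; linarith) (Set.subset_univ _)
  unfold M56.nu at hi₄
  -- mean of the gauge
  have hf₁ := hFM y (y + W) (-L) L 0 (W / 2) Set.univ MeasurableSet.univ (by linarith)
    (by linarith) (by linarith) (by linarith) (Set.subset_univ _) (by linarith)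
  rw [sub_zero] at hf₁
  obtain ⟨hd3, he3⟩ := int_env (G := G) hdi
  have hsumi := hi₄.add hd3
  have hη : c / (8 * (J + 4 * v' + 3)) * (8 * (J + 4 * v' + 3)) = c := by
    field_simp
  set η : ℝ := c / (8 * (J + 4 * v' + 3)) with hηdef
  have hη0 : 0 < η := by positivity
  have hmeanT : ∫ q, h.hkY (y • F.b) Set.univ (-L) L q.1.1 q.1.2 q.2
      ∂((P0 G).prod (UU.prod UU)) ≤ c / 8 * W := by
    have e1 : (y + W) * rate G F (W / 2) ≤ (J + 1) * W * η := by
      have e2 : (y + W) * rate G F (W / 2) ≤ (y + W) * η :=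
        mul_le_mul_of_nonneg_left hrate (by linarith)
      have e3 : (y + W) * η ≤ (J + 1) * W * η := mul_le_mul_of_nonneg_right (by linarith) hη0.le
      linarith
    have e2 : (L - -L + (W / 2) - 0 + h.κ + 1) * ε ≤ (4 * v' + 1) * W * η := by
      have e3 : L - -L + (W / 2) - 0 + h.κ + 1 ≤ (4 * v' + 1) * W := by
        rw [hLdef]; linarith
      have e4 : 0 ≤ L - -L + (W / 2) - 0 + h.κ + 1 := by linarith
      exact mul_le_mul e3 hε hε0 (by positivity)
    rw [sub_zero] at e2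
    have e5 : (J + 1) * W * η + (4 * v' + 1) * W * η ≤ c / 8 * W := by
      have e6 : c / 8 * W = η * (8 * (J + 4 * v' + 3)) / 8 * W := by rw [hη]
      have e7 : 0 ≤ η * W := by positivity
      rw [e6]
      linarith
    linarith
  -- Markov
  set T' : ((ℝ × ℝ) × Environment) × (ℝ × ℝ) → ℝ := fun q =>
    h.hkY (y • F.b) Set.univ (-L) L q.1.1 q.1.2 q.2 + dev μ N q.1.2 with hT'
  have hT'i : Integrable T' ((P0 G).prod (UU.prod UU)) := hsumi
  have hdet : ∀ᵐ q ∂((P0 G).prod (UU.prod UU)), 0 ≤ T' q ∧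
      5 * c * W - 2 * dev μ N q.1.2 - T' q ≤
        h.sk (y • F.b) (Set.Icc (-ι) ι) Set.univ L 0 (-(W / 8)) q.1.1 q.1.2 q.2 := by
    filter_upwards [ae_P0_Nn (G := G) h0 (ν := UU.prod UU)] with q hq
    have hdisp : 5 * c * W ≤ F.ψ (toR (h.x (-(W / 8)) q.2.2 (q.1.1 - y • F.b) q.1.2 -
        h.x 0 q.2.1 q.1.1 q.1.2)) := by
      have a1 := M56.al_x_ge h 0 q.2.1 q.1.1 q.1.2
      have a2 : F.al (pos q.1.1 (h.x 0 q.2.1 q.1.1 q.1.2)) ≤ 0 + cF F := h.al_x_le _ _ _ _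
      have a3 := M56.al_x_ge h (-(W / 8)) q.2.2 (q.1.1 - y • F.b) q.1.2
      have a4 : F.al (pos (q.1.1 - y • F.b) (h.x (-(W / 8)) q.2.2 (q.1.1 - y • F.b) q.1.2)) ≤
        -(W / 8) + cF F := h.al_x_le _ _ _ _
      have a5 := M56.be_x h 0 q.2.1 q.1.1 q.1.2
      have a6 := M56.be_x h (-(W / 8)) q.2.2 (q.1.1 - y • F.b) q.1.2
      rw [M192.al_pos_sub_b] at a3 a4
      rw [M192.be_pos_sub_b] at a6
      rw [abs_le] at a5 a6
      rw [← pos_sub_pos q.1.1]
      have d1 : F.al (pos q.1.1 (h.x (-(W / 8)) q.2.2 (q.1.1 - y • F.b) q.1.2) -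
          pos q.1.1 (h.x 0 q.2.1 q.1.1 q.1.2)) ≤ -(W / 9) := by
        rw [map_sub]; linarith
      have d2 : |F.be (pos q.1.1 (h.x (-(W / 8)) q.2.2 (q.1.1 - y • F.b) q.1.2) -
          pos q.1.1 (h.x 0 q.2.1 q.1.1 q.1.2))| ≤ (J + 1) * W := by
        rw [map_sub, abs_le]
        have e : (J + 1) * W = J * W + W := by ring
        rw [e]
        constructor <;> linarith [a5.1, a5.2, a6.1, a6.2]
      have d3 := hψ _ (by linarith) (d2.trans (by
        have e : (J + 1) * W = 9 * (J + 1) * (W / 9) := by ring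
        rw [e]
        exact mul_le_mul_of_nonneg_left (by linarith) (by positivity)))
      have d4 : 5 * c * W = c' * (W / 9) := by rw [hc]; ring
      rw [d4]
      exact le_trans (mul_le_mul_of_nonneg_left (by linarith) hc'.le) d3
    have hb1 : ∀ s u : ℝ, (s = -L ∨ s = 0) → h.x s u q.1.1 q.1.2 ∈ box N := by
      intro s u hs
      have := x_mem_box2 h (A := 2 * v' * W + W) (B := J * W + W) (N := N) hq.2 (t := q.1.2)
        (u := u) (s := s) (y := 0) (by
          rcases hs with rfl | rfl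
          · rw [abs_neg, abs_of_nonneg (by linarith)]; linarith
          · rw [abs_zero]; linarith) (by rw [abs_zero]; linarith) hNbig
      rwa [zero_smul, sub_zero] at this
    have hb2 : ∀ s u : ℝ, (s = L ∨ s = -(W / 8)) → h.x s u (q.1.1 - y • F.b) q.1.2 ∈ box N := by
      intro s u hs
      refine x_mem_box2 h (A := 2 * v' * W + W) (B := J * W + W) (N := N) hq.2 ?_ ?_ hNbig
      · rcases hs with rfl | rfl
        · rw [abs_of_nonneg (by linarith)]; linarith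
        · rw [abs_neg, abs_of_nonneg (by linarith)]; linarith
      · rw [abs_of_nonneg (by linarith)]; linarith
    obtain ⟨k1, k2⟩ := sk_lower h hq.1 (y := y) (L := L) (W := W) (I := Set.Icc (-ι) ι)
      (θ := q.1.1) (φ := q.2) (by linarith) (by linarith) (hne₃ _ _ _) (hne₄ _ _ _) hdisp hb1 hb2
      rfl rfl
    refine ⟨k1, ?_⟩
    simp only [hT']
    linarith
  have hmk : 2 * c * W * ((P0 G).prod (UU.prod UU)).real {q | 2 * c * W ≤ T' q} ≤
      ∫ q, T' q ∂((P0 G).prod (UU.prod UU)) :=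
    mul_meas_ge_le_integral_of_nonneg (hdet.mono fun q hq => hq.1) hT'i _
  have hET : ∫ q, T' q ∂((P0 G).prod (UU.prod UU)) ≤ c / 4 * W := by
    rw [hT', integral_add hi₄ hd3, he3]
    linarith
  have hp1 : ((P0 G).prod (UU.prod UU)).real {q | 2 * c * W ≤ T' q} ≤ 1 / 8 := by
    have h1 : 2 * c * W * ((P0 G).prod (UU.prod UU)).real {q | 2 * c * W ≤ T' q} ≤
      2 * c * W * (1 / 8) := by
      have : 2 * c * W * (1 / 8) = c / 4 * W := by ring
      linarith
    exact le_of_mul_le_mul_left h1 (by positivity)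
  have hp2 : ((P0 G).prod (UU.prod UU)).real {q | η₁ * N ≤ dev μ N q.1.2} ≤ 1 / 8 := by
    have hS : MeasurableSet {t | η₁ * N ≤ dev μ N t} := measurableSet_le measurable_const
      (measurable_dev μ N)
    have h1 : MeasurePreserving (Prod.fst : ((ℝ × ℝ) × Environment) × (ℝ × ℝ) → _)
      ((P0 G).prod (UU.prod UU)) (P0 G) := measurePreserving_fst
    have h2 : MeasurePreserving (Prod.snd : (ℝ × ℝ) × Environment → _) (P0 G) (iidLaw G) := by
      unfold P0; exact measurePreserving_snd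
    have h3 := (h2.comp h1).measureReal_preimage hS.nullMeasurableSet
    have h4 : ((P0 G).prod (UU.prod UU)).real {q | η₁ * N ≤ dev μ N q.1.2} =
      (iidLaw G).real {t | η₁ * N ≤ dev μ N t} := h3
    rw [h4]
    linarith
  -- conclusion
  have hfin : ((P0 G).prod (UU.prod UU)).real {q : ((ℝ × ℝ) × Environment) × (ℝ × ℝ) |
      h.sk (y • F.b) (Set.Icc (-ι) ι) Set.univ L 0 (-(W / 8)) q.1.1 q.1.2 q.2 ≤ c * W} ≤
      1 / 8 + 1 / 8 := by
    refine le_trans (Crest.Agent.R151.G338.real_mono_ae (t := {q | 2 * c * W ≤ T' q} ∪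
      {q | η₁ * N ≤ dev μ N q.1.2}) ?_) ((measureReal_union_le _ _).trans (add_le_add hp1 hp2))
    filter_upwards [hdet] with q hq hsk
    by_contra hcon
    rw [Set.mem_union, not_or] at hcon
    obtain ⟨k1, k2⟩ := hcon
    simp only [Set.mem_ofPred_eq, not_le] at k1 k2 hsk
    obtain ⟨-, k3⟩ := hq
    have k4 : 0 < c * W := by positivity
    linarith
  unfold NF.Qm NF.nuR at hQ
  linarith

end Crest.Agent.R151.E792
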