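import Crest.Agent.R151.E792k
import Crest.Agent.R151.M56f
import Crest.Agent.R151.NF2

/-!
# R151 / S0214 part 2, [E8] height selection, part l: the selection (helper792)
-/

set_option autoImplicit false

open MeasureTheory Filter ProbabilityTheory Topology
open Crest.ProbabilityR.FirstPassage

namespace Crest.Agent.R151.E792

open K R78 B710 Q

variable {μ : ℝ × ℝ → ℝ} {F : FlatData μ} {G : Measure ℝ} [IsProbabilityMeasure G]

/-- `FM` holds (helper56) -/
theorem FM_of {h : Hwy F} {ε : ℝ} (hM : HwyMean G h ε) (h0 : G (Set.Iio 0) = 0)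
    (h2 : Integrable (fun x : ℝ => x ^ 2) G) (hμ : IsTC G μ) : FM G h ε := by
  intro y y₂ s s₂ α β I hI h1 h3 hs hs2 hab hw
  have hal : F.al (y • F.b) = 0 := by
    have := (F.al).map_smul y F.b
    rw [this, F.al_b, smul_zero]
  have e1 := M56.fence_mean' (G := G) hM h0 h2 (d := y • F.b) (by rw [M192.be_smul_b]; exact h1)
    hI hs (by rw [hal, add_zero]; exact hs2) hab hw hμ (y2 := y₂)
    (by rw [M192.be_smul_b]; have := M56.one_le_mg F; linarith)
  rw [hal, add_zero] at e1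
  exact e1

/-- `Qm` is monotone in the level -/
lemma Qm_mono {h : Hwy F} {W y L c c' : ℝ} (hc : c ≤ c') (hQ : NF.Qm G h W y L c) :
    NF.Qm G h W y L c' := by
  unfold NF.Qm at *
  refine hQ.trans (measureReal_mono ?_ ?_)
  · intro q hq
    exact le_trans hq hc
  · have : IsProbabilityMeasure (NF.nuR G) := by unfold NF.nuR; infer_instance
    exact measure_ne_top _ _

/-- arithmetic of the selection -/
lemma arith {M CS J x W : ℝ} (hM : 0 < M) (h4 : 4 * CS ≤ M) (hJ : 0 < J) (hx : 0 ≤ x)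
    (h : M * x < 2 * CS * x + M / (4 * J) * W) : 2 * x ≤ W / J := by
  have e0 : 4 * CS * x ≤ M * x := mul_le_mul_of_nonneg_right h4 hx
  have e6 : M / (4 * J) * W = M / 4 * (W / J) := by field_simp
  rw [e6] at h
  have e8 : M / 4 * (2 * x) < M / 4 * (W / J) := by linarith
  exact (lt_of_mul_lt_mul_left e8 (by positivity)).le

/-- arithmetic of the existence -/
lemma arith2 {M CS R x W : ℝ} (h4 : 4 * CS ≤ M) (hW : 0 < W) (hR : 0 < R) (hM : 0 < M)
    (hx0 : 0 ≤ x) (hx : 2 / (M * R) ≤ x) : 2 * CS * (x * W * R) + 1 * W ≤ M * (x * W * R) := by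
  rw [div_le_iff₀ (by positivity)] at hx
  have e2 := mul_le_mul_of_nonneg_right hx hW.le
  have e3 : 0 ≤ x * W * R := by positivity
  have e4 := mul_le_mul_of_nonneg_right h4 e3
  linarith

set_option maxHeartbeats 1000000 in
/-- **[E8] height selection**, general law -/
theorem select_of {lam : ℝ} (h0 : G (Set.Iio 0) = 0) (hz : G {0} = 0) (hlam : 0 < lam)
    (hexp : Integrable (fun x => Real.exp (lam * x)) G) (hμ : IsTC G μ) (F : FlatData μ)
    (hr : Tendsto (fun w => rate G F w) atTop (𝓝 0))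
    (hr' : Tendsto (fun w => rate G F.swap w) atTop (𝓝 0)) {w0 c0 K : ℝ}
    (_hc0 : 0 < c0) (hK : 0 < K) : NF.Select G F w0 c0 K := by
  have h2 : Integrable (fun x : ℝ => x ^ 2) G := Crest.Agent.R151.K.integrable_sq h0 hlam hexp
  obtain ⟨CS, hCS⟩ : ∃ CS : ℝ, CS = 8 * 32 ^ 3 := ⟨_, rfl⟩
  have hCSp : 0 < CS := by rw [hCS]; positivity
  obtain ⟨J₁, hJ₁, hU1⟩ := upper_main h0 hz hlam hexp hμ F hCSp.le one_pos
  unfold NF.Select NF.Ev
  obtain ⟨n0, hn0⟩ := exists_nat_ge (4 * CS)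
  filter_upwards [eventually_ge_atTop (max n0 1)] with n hn
  have hn1 : 1 ≤ n := (le_max_right _ _).trans hn
  have hn2 : (1 : ℝ) ≤ n := by exact_mod_cast hn1
  have hnM : 4 * CS ≤ (n : ℝ) ^ 5 := by
    have e1 : (n0 : ℝ) ≤ n := by exact_mod_cast (le_max_left _ _).trans hn
    have e2 : (n : ℝ) ≤ (n : ℝ) ^ 5 := le_self_pow₀ hn2 (by norm_num)
    linarith
  obtain ⟨M, hM⟩ : ∃ M : ℝ, M = (n : ℝ) ^ 5 := ⟨_, rfl⟩
  rw [← hM] at hnM
  have hMp : 0 < M := by linarith
  refine Eventually.of_forall fun δ => Eventually.of_forall fun v => Eventually.of_forall fun e => ?_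
  filter_upwards [eventually_ge_atTop (1 : ℝ)] with v' hv'
  refine Eventually.of_forall fun δ' => ?_
  have hδ0' : (0 : ℝ) < min (1 / 200) (1 / (200 * K)) := by positivity
  filter_upwards [Ioc_mem_nhdsGT hδ0'] with δ0 hδ0
  obtain ⟨hδp, hδle⟩ := hδ0
  have hδ1 : δ0 ≤ 1 / 200 := hδle.trans (min_le_left _ _)
  have hδ2 : K * δ0 ≤ 1 / 200 := by
    have e1 : δ0 ≤ 1 / (200 * K) := hδle.trans (min_le_right _ _)
    have e2 := mul_le_mul_of_nonneg_left e1 hK.le
    have e3 : K * (1 / (200 * K)) = 1 / 200 := by field_simp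
    linarith
  filter_upwards [eventually_ge_atTop (1 : ℝ)] with J hJ
  have hJp : 0 < J := by linarith
  obtain ⟨J₂, hJ₂, hU2⟩ := upper_main h0 hz hlam hexp hμ F hCSp.le
    (e := M / (4 * J)) (by positivity)
  obtain ⟨Js, hJs⟩ : ∃ Js : ℝ, Js = max (max J₁ J₂) J := ⟨_, rfl⟩
  have hJs2 : J₂ ≤ Js := by rw [hJs]; exact (le_max_right _ _).trans (le_max_left _ _)
  have hJs3 : J ≤ Js := by rw [hJs]; exact le_max_right _ _
  have hJs4 : 4 ≤ Js := hJ₂.trans hJs2
  obtain ⟨c, hc, hL⟩ := lower_main h0 hz hlam hexp hμ F (J := 2 * Js) (by linarith)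
  obtain ⟨η₁, hη₁, W₁, hU1⟩ := hU1 v' hv'
  obtain ⟨η₂, hη₂, W₂, hU2⟩ := hU2 v' hv'
  obtain ⟨η₃, hη₃, W₃, hL⟩ := hL v' hv'
  obtain ⟨η, hη⟩ : ∃ η : ℝ, η = min (min η₁ η₂) η₃ := ⟨_, rfl⟩
  have hηp : 0 < η := by rw [hη]; positivity
  have hη1 : η ≤ η₁ := by rw [hη]; exact (min_le_left _ _).trans (min_le_left _ _)
  have hη2 : η ≤ η₂ := by rw [hη]; exact (min_le_left _ _).trans (min_le_right _ _)
  have hη3 : η ≤ η₃ := by rw [hη]; exact min_le_right _ _
  -- large W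
  have hδW : Tendsto (fun W : ℝ => δ0 * W) atTop atTop := tendsto_id.const_mul_atTop hδp
  have t1 : ∀ᶠ W : ℝ in atTop, rate G F.swap (δ0 * W) ≤ η / 2 :=
    ((hr'.comp hδW).eventually (Iio_mem_nhds (by linarith : (0 : ℝ) < η / 2))).mono
      fun W hW => le_of_lt hW
  have t2 : ∀ᶠ W : ℝ in atTop, 1 / (δ0 * W) ^ 3 ≤ η / 2 := by
    have : Tendsto (fun W : ℝ => 1 / (δ0 * W) ^ 3) atTop (𝓝 0) :=
      tendsto_const_nhds.div_atTop ((tendsto_pow_atTop (by norm_num)).comp hδW)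
    exact (this.eventually (Iio_mem_nhds (by linarith : (0 : ℝ) < η / 2))).mono
      fun W hW => le_of_lt hW
  have t3 : ∀ᶠ W : ℝ in atTop, rate G F (W / 2) ≤ η := by
    have : Tendsto (fun W : ℝ => W / 2) atTop atTop := tendsto_id.atTop_div_const (by norm_num)
    exact ((hr.comp this).eventually (Iio_mem_nhds hηp)).mono fun W hW => le_of_lt hW
  have t4 : ∀ᶠ W : ℝ in atTop, rate G F W ≤ c / (M * (2 * Js)) :=
    (hr.eventually (Iio_mem_nhds (by positivity : (0 : ℝ) < c / (M * (2 * Js))))).mono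
      fun W hW => le_of_lt hW
  filter_upwards [t1, t2, t3, t4, eventually_ge_atTop W₁, eventually_ge_atTop W₂,
    eventually_ge_atTop W₃, eventually_ge_atTop (1 : ℝ), eventually_ge_atTop (32 * w0)]
    with W t1 t2 t3 t4 hW1 hW2 hW3 hW4 hW5
  intro h ε hgood hlow hwH hκ hmean hε
  have hWp : 0 < W := by linarith
  have hwH' : h.wH ≤ W / 200 := by
    rw [hwH]
    have := mul_le_mul_of_nonneg_right hδ1 hWp.le
    linarith
  have hκ' : h.κ ≤ W / 200 := by
    have := mul_le_mul_of_nonneg_right hδ2 hWp.le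
    linarith
  have hFM := FM_of hmean h0 h2 hμ
  have hε' : ε ≤ η := by linarith
  set R := rate G F W with hR
  have hRp : 0 < R := hgood.pos
  have hRS : rate G F (W / 32) ≤ CS * R := by
    have e1 := hgood.small_b (W / 32) (by linarith) (by linarith)
    have e2 : W / (W / 32) = 32 := by field_simp
    rw [e2] at e1
    rw [hCS]
    exact e1
  rw [← hM]
  -- facts
  have fU1 : ∀ y, J₁ * W ≤ y → NF.Qm G h W y (2 * v' * W) (2 * CS * (y * R) + 1 * W) :=
    hU1 W hW1 h ε R hwH' hκ' hmean hFM (hε'.trans hη1) hRp.le hRS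
  have fU2 : ∀ y, J₂ * W ≤ y → NF.Qm G h W y (2 * v' * W)
      (2 * CS * (y * R) + M / (4 * J) * W) :=
    hU2 W hW2 h ε R hwH' hκ' hmean hFM (hε'.trans hη2) hRp.le hRS
  have fL : ∀ y, W ≤ y → y ≤ 2 * Js * W → ¬ NF.Qm G h W y (2 * v' * W) (c * W) :=
    hL W hW3 h ε hwH' hκ' hmean hFM (hε'.trans hη3) (t3.trans hη3)
  have fL' : ∀ y, W ≤ y → y ≤ 2 * Js * W → ¬ NF.Qm G h W y (2 * v' * W) (M * (y * R)) := by
    intro y hy1 hy2 hQ
    refine fL y hy1 hy2 (Qm_mono ?_ hQ)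
    have e1 : y * R ≤ 2 * Js * W * (c / (M * (2 * Js))) :=
      mul_le_mul hy2 t4 hRp.le (by positivity)
    have e2 := mul_le_mul_of_nonneg_left e1 hMp.le
    have e3 : M * (2 * Js * W * (c / (M * (2 * Js)))) = c * W := by field_simp
    linarith
  -- the sequence of heights
  let P : ℕ → Prop := fun k => NF.Qm G h W (2 ^ k * W) (2 * v' * W) (M * (2 ^ k * W * R))
  have hex : ∃ k, P k := by
    obtain ⟨k, hk⟩ := pow_unbounded_of_one_lt (max J₁ (2 / (M * R))) (one_lt_two (α := ℝ))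
    refine ⟨k, Qm_mono ?_ (fU1 (2 ^ k * W) ?_)⟩
    · exact arith2 hnM hWp hRp hMp (by positivity) ((le_max_right _ _).trans hk.le)
    · exact mul_le_mul_of_nonneg_right ((le_max_left _ _).trans hk.le) hWp.le
  classical
  obtain ⟨k, hk, hmin⟩ : ∃ k, P k ∧ ∀ j < k, ¬ P j :=
    ⟨Nat.find hex, Nat.find_spec hex, fun j hj => Nat.find_min hex hj⟩
  have hklarge : 2 * Js < 2 ^ k := by
    by_contra hcon
    rw [not_lt] at hcon
    refine fL' (2 ^ k * W) ?_ (mul_le_mul_of_nonneg_right hcon hWp.le) hk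
    have e1 : (1 : ℝ) ≤ 2 ^ k := one_le_pow₀ (by norm_num)
    have e2 := mul_le_mul_of_nonneg_right e1 hWp.le
    linarith
  have hk0 : k ≠ 0 := by
    rintro rfl
    rw [pow_zero] at hklarge
    linarith
  obtain ⟨j, rfl⟩ := Nat.exists_eq_succ_of_ne_zero hk0
  have hj := hmin j (Nat.lt_succ_self j)
  have hhalf : (2 : ℝ) ^ (j + 1) * W / 2 = 2 ^ j * W := by ring
  have hjl : Js < 2 ^ j := by
    have e1 : (2 : ℝ) ^ (j.succ) = 2 * 2 ^ j := by rw [pow_succ]; ring
    rw [e1] at hklarge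
    linarith
  refine ⟨2 ^ (j + 1) * W, hk, ?_, ?_, ?_⟩
  · rw [hhalf]
    exact hj
  · have e1 : J ≤ 2 ^ (j + 1) := by
      have : (2 : ℝ) ^ (j + 1) = 2 * 2 ^ j := by rw [pow_succ]; ring
      linarith
    exact mul_le_mul_of_nonneg_right e1 hWp.le
  · have e1 : J₂ * W ≤ 2 ^ j * W := mul_le_mul_of_nonneg_right (by linarith) hWp.le
    have e2 := fU2 _ e1
    have e3 : M * (2 ^ j * W * R) < 2 * CS * (2 ^ j * W * R) + M / (4 * J) * W := by
      by_contra hcon
      rw [not_lt] at hcon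
      exact hj (Qm_mono hcon e2)
    have e7 : (2 : ℝ) ^ (j + 1) * W * R = 2 * (2 ^ j * W * R) := by rw [pow_succ]; ring
    rw [e7]
    exact arith hMp hnM hJp (by positivity) e3

/-- `rate → 0` for the Gamma law -/
lemma rate_tendsto_zero {κ r : ℝ} (hκ : 0 < κ) (hr : 0 < r) {μ : ℝ × ℝ → ℝ}
    (hμ : IsTC (gammaMeasure κ r) μ) (F : FlatData μ) :
    Tendsto (fun w => rate (gammaMeasure κ r) F w) atTop (𝓝 0) := by
  have hγ := isProbabilityMeasure_gammaMeasure hκ hr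
  have h0 := Crest.Agent.R151.K.gamma_Iio κ r
  have h2 := Crest.Agent.R151.K.integrable_sq h0 (half_pos hr) (Crest.Agent.R151.K.gamma_exp hκ hr)
  obtain ⟨C, w1, hC, hw1, hle⟩ := C710.rate_le_gamma hκ hr hμ F
  have ht : Tendsto (fun w : ℝ => C * w ^ (-0.06 : ℝ)) atTop (𝓝 0) := by
    have := (tendsto_rpow_neg_atTop (y := 0.06) (by norm_num)).const_mul C
    rw [mul_zero] at this
    exact this
  refine tendsto_of_tendsto_of_tendsto_of_le_of_le' tendsto_const_nhds ht ?_ ?_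
  · filter_upwards [eventually_ge_atTop (2 * C710.fn F.al)] with w hw
    exact C710.rate_nonneg h0 h2 hμ F hw
  · filter_upwards [eventually_ge_atTop w1] with w hw
    exact hle w hw

/-- **[E8] height selection for the Gamma law**: the field `select` of `NF.Inputs5` -/
theorem select {κ r : ℝ} (hκ : 0 < κ) (hr : 0 < r) {μ : ℝ × ℝ → ℝ}
    (hμ : IsTC (gammaMeasure κ r) μ) (F : FlatData μ) {w0 c0 K : ℝ}
    (hc0 : 0 < c0) (hK : 0 < K) : NF.Select (gammaMeasure κ r) F w0 c0 K := by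
  have hγ := isProbabilityMeasure_gammaMeasure hκ hr
  exact select_of (Crest.Agent.R151.K.gamma_Iio κ r) (Crest.Agent.R151.K.gamma_zero κ r) (half_pos hr) (Crest.Agent.R151.K.gamma_exp hκ hr) hμ F
    (rate_tendsto_zero hκ hr hμ F) (rate_tendsto_zero hκ hr hμ F.swap) hc0 hK

end Crest.Agent.R151.E792
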