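import Mathlib

/-!
# R151, F592a (helper592): cyclic sums over a finite totally ordered family of labels

Deterministic.  Labels `i : ι`, active set `A`, strict total order `lt` on `A`.
* `Nxt A lt W i j` : `j` is the cyclic successor of `i` in `A ∩ W`;
* `exists_cyc` : for a finite window the relation `Nxt` is the graph of a bijection;
* `cyc_sum_le` : the cyclic sum inequality for `F i x y = f i x + T x y + g i y`;
* `IsSucc`, `slope_sum_le` : disjoint slope intervals.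
-/

set_option autoImplicit false

namespace Crest.Agent.R151.F592

open Finset
open scoped Classical

section det

variable {ι : Type*}

/-- `lt` is a strict total order on `A` -/
structure STO (A : Set ι) (lt : ι → ι → Prop) : Prop where
  irrefl : ∀ i ∈ A, ¬ lt i i
  trans : ∀ i ∈ A, ∀ j ∈ A, ∀ k ∈ A, lt i j → lt j k → lt i k
  tri : ∀ i ∈ A, ∀ j ∈ A, i ≠ j → lt i j ∨ lt j i

theorem STO.asymm {A : Set ι} {lt : ι → ι → Prop} (h : STO A lt) {i j : ι} (hi : i ∈ A)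
    (hj : j ∈ A) (hij : lt i j) : ¬ lt j i := fun hji =>
  h.irrefl i hi (h.trans i hi j hj i hi hij hji)

theorem STO.mono {A B : Set ι} {lt : ι → ι → Prop} (h : STO A lt) (hB : B ⊆ A) : STO B lt :=
  ⟨fun i hi => h.irrefl i (hB hi), fun i hi j hj k hk => h.trans i (hB hi) j (hB hj) k (hB hk),
    fun i hi j hj => h.tri i (hB hi) j (hB hj)⟩

theorem STO.swap {A : Set ι} {lt : ι → ι → Prop} (h : STO A lt) : STO A (fun i j => lt j i) :=
  ⟨h.irrefl, fun i hi j hj k hk h1 h2 => h.trans k hk j hj i hi h2 h1,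
    fun i hi j hj hne => (h.tri i hi j hj hne).symm⟩

/-- a finite nonempty set has a largest element -/
theorem STO.exists_max {A : Set ι} {lt : ι → ι → Prop} (h : STO A lt) (s : Finset ι)
    (hs : ∀ i ∈ s, i ∈ A) (hne : s.Nonempty) : ∃ m ∈ s, ∀ k ∈ s, k ≠ m → lt k m := by
  induction s using Finset.induction_on with
  | empty => exact absurd hne (by simp)
  | insert a s ha ih =>
    rcases s.eq_empty_or_nonempty with h0 | h1
    · subst h0
      exact ⟨a, by simp, by simp⟩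
    · obtain ⟨m, hm, hmax⟩ := ih (fun i hi => hs i (Finset.mem_insert_of_mem hi)) h1
      have haA := hs a (Finset.mem_insert_self a s)
      have hmA := hs m (Finset.mem_insert_of_mem hm)
      have hne : a ≠ m := fun e => ha (e ▸ hm)
      rcases h.tri a haA m hmA hne with h2 | h2
      · refine ⟨m, Finset.mem_insert_of_mem hm, fun k hk hkm => ?_⟩
        rcases Finset.mem_insert.1 hk with rfl | hk
        · exact h2
        · exact hmax k hk hkm
      · refine ⟨a, Finset.mem_insert_self a s, fun k hk hka => ?_⟩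
        rcases Finset.mem_insert.1 hk with rfl | hk
        · exact absurd rfl hka
        · by_cases hkm : k = m
          · exact hkm ▸ h2
          · exact h.trans k (hs k (Finset.mem_insert_of_mem hk)) m hmA a haA (hmax k hk hkm) h2

theorem STO.exists_min {A : Set ι} {lt : ι → ι → Prop} (h : STO A lt) (s : Finset ι)
    (hs : ∀ i ∈ s, i ∈ A) (hne : s.Nonempty) : ∃ m ∈ s, ∀ k ∈ s, k ≠ m → lt m k :=
  h.swap.exists_max s hs hne

/-- `j` is the cyclic successor of `i` in `A ∩ W` -/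
def Nxt (A : Set ι) (lt : ι → ι → Prop) (W : Set ι) (i j : ι) : Prop :=
  (i ∈ A ∧ i ∈ W) ∧ (j ∈ A ∧ j ∈ W) ∧
    ((lt i j ∧ ∀ k ∈ W, k ∈ A → ¬ (lt i k ∧ lt k j)) ∨
      (∀ k ∈ W, k ∈ A → ¬ lt i k ∧ ¬ lt k j))

/-- `j` is the successor of `i` in `A` -/
def IsSucc (A : Set ι) (lt : ι → ι → Prop) (i j : ι) : Prop :=
  i ∈ A ∧ j ∈ A ∧ lt i j ∧ ∀ k ∈ A, ¬ (lt i k ∧ lt k j)

variable {A : Set ι} {lt : ι → ι → Prop}

theorem Nxt.inj (h : STO A lt) {W : Set ι} {i i' j : ι} (h1 : Nxt A lt W i j)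
    (h2 : Nxt A lt W i' j) : i = i' := by
  obtain ⟨⟨hi, hiW⟩, ⟨hj, hjW⟩, h1⟩ := h1
  obtain ⟨⟨hi', hiW'⟩, -, h2⟩ := h2
  by_contra hne
  rcases h1 with ⟨h3, h4⟩ | h3
  · rcases h2 with ⟨h5, h6⟩ | h5
    · rcases h.tri i hi i' hi' hne with h7 | h7
      · exact h4 i' hiW' hi' ⟨h7, h5⟩
      · exact h6 i hiW hi ⟨h7, h3⟩
    · exact (h5 i hiW hi).2 h3
  · rcases h2 with ⟨h5, h6⟩ | h5
    · exact (h3 i' hiW' hi').2 h5
    · rcases h.tri i hi i' hi' hne with h7 | h7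
      · exact (h3 i' hiW' hi').1 h7
      · exact (h5 i hiW hi).1 h7

theorem Nxt.uniq (h : STO A lt) {W : Set ι} {i j j' : ι} (h1 : Nxt A lt W i j)
    (h2 : Nxt A lt W i j') : j = j' := by
  obtain ⟨⟨hi, hiW⟩, ⟨hj, hjW⟩, h1⟩ := h1
  obtain ⟨-, ⟨hj', hjW'⟩, h2⟩ := h2
  by_contra hne
  rcases h1 with ⟨h3, h4⟩ | h3
  · rcases h2 with ⟨h5, h6⟩ | h5
    · rcases h.tri j hj j' hj' hne with h7 | h7
      · exact h6 j hjW hj ⟨h3, h7⟩
      · exact h4 j' hjW' hj' ⟨h5, h7⟩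
    · exact (h5 j hjW hj).1 h3
  · rcases h2 with ⟨h5, h6⟩ | h5
    · exact (h3 j' hjW' hj').1 h5
    · rcases h.tri j hj j' hj' hne with h7 | h7
      · exact (h5 j hjW hj).2 h7
      · exact (h3 j' hjW' hj').2 h7

theorem exists_nxt (h : STO A lt) {W : Set ι} (hW : (A ∩ W).Finite) {i : ι} (hi : i ∈ A)
    (hiW : i ∈ W) : ∃ j, Nxt A lt W i j := by
  set s : Finset ι := hW.toFinset with hs
  have hsA : ∀ k ∈ s, k ∈ A := fun k hk => (hW.mem_toFinset.1 hk).1
  have hsW : ∀ k ∈ s, k ∈ W := fun k hk => (hW.mem_toFinset.1 hk).2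
  by_cases hup : (s.filter fun k => lt i k).Nonempty
  · obtain ⟨m, hm, hmin⟩ := h.exists_min (s.filter fun k => lt i k)
      (fun k hk => hsA k (Finset.mem_filter.1 hk).1) hup
    have hm' := Finset.mem_filter.1 hm
    refine ⟨m, ⟨hi, hiW⟩, ⟨hsA m hm'.1, hsW m hm'.1⟩, Or.inl ⟨hm'.2, fun k hkW hkA hk => ?_⟩⟩
    by_cases hkm : k = m
    · exact h.irrefl m (hsA m hm'.1) (hkm ▸ hk.2)
    · exact h.asymm hkA (hsA m hm'.1) hk.2
        (hmin k (Finset.mem_filter.2 ⟨hW.mem_toFinset.2 ⟨hkA, hkW⟩, hk.1⟩) hkm)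
  · obtain ⟨m, hm, hmin⟩ := h.exists_min s hsA ⟨i, hW.mem_toFinset.2 ⟨hi, hiW⟩⟩
    refine ⟨m, ⟨hi, hiW⟩, ⟨hsA m hm, hsW m hm⟩, Or.inr fun k hkW hkA => ⟨fun hik => ?_,
      fun hkm => ?_⟩⟩
    · exact hup ⟨k, Finset.mem_filter.2 ⟨hW.mem_toFinset.2 ⟨hkA, hkW⟩, hik⟩⟩
    · by_cases hkm' : k = m
      · exact h.irrefl m (hsA m hm) (hkm' ▸ hkm)
      · exact h.asymm hkA (hsA m hm) hkm (hmin k (hW.mem_toFinset.2 ⟨hkA, hkW⟩) hkm')

/-- the relation `Nxt` on a finite window is the graph of a bijection -/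
theorem exists_cyc (h : STO A lt) {W : Set ι} (hW : (A ∩ W).Finite) :
    ∃ σ : ι → ι, Set.BijOn σ (A ∩ W) (A ∩ W) ∧ ∀ i ∈ A ∩ W, ∀ j, Nxt A lt W i j ↔ j = σ i := by
  have hex : ∀ i, ∃ j, i ∈ A ∩ W → Nxt A lt W i j := by
    intro i
    by_cases hi : i ∈ A ∩ W
    · obtain ⟨j, hj⟩ := exists_nxt h hW hi.1 hi.2
      exact ⟨j, fun _ => hj⟩
    · exact ⟨i, fun h => absurd h hi⟩
  choose σ hσ using hex
  have hmaps : Set.MapsTo σ (A ∩ W) (A ∩ W) := fun i hi => (hσ i hi).2.1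
  have hinj : Set.InjOn σ (A ∩ W) := fun i hi i' hi' he =>
    Nxt.inj h (hσ i hi) (he ▸ hσ i' hi')
  refine ⟨σ, ⟨hmaps, hinj, ?_⟩, fun i hi j => ⟨fun hj => Nxt.uniq h hj (hσ i hi), fun hj =>
    hj ▸ hσ i hi⟩⟩
  exact (hW.injOn_iff_bijOn_of_mapsTo hmaps).1 hinj |>.surjOn

/-- the cyclic sum inequality -/
theorem cyc_sum_le {α β : Type*} [Preorder α] [Preorder β] (h : STO A lt) {s : Finset ι}
    (hs : ∀ i ∈ s, i ∈ A) {σ : ι → ι} (hbij : Set.BijOn σ (s : Set ι) s)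
    {t b : ι} (ht : t ∈ s) (hb : σ t = b) (hσ : ∀ i ∈ s, i ≠ t → lt i (σ i))
    (f : ι → α → ℝ) (g : ι → β → ℝ) (T : α → β → ℝ) (x : ι → α) (y : ι → β)
    (R : α) (L : β) (hR : ∀ i ∈ s, x i ≤ R) (hL : ∀ i ∈ s, L ≤ y i)
    (hf : ∀ i ∈ s, ∀ j ∈ s, lt i j → Monotone fun u => f i u - f j u)
    (hg : ∀ i ∈ s, ∀ j ∈ s, lt i j → Antitone fun v => g i v - g j v) :
    ∑ i ∈ s, ((f i (x (σ i)) + T (x (σ i)) (y (σ i)) + g i (y (σ i)))
        - (f i (x i) + T (x i) (y i) + g i (y i))) ≤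
      ((f t (x b) - f b (x b)) - (f t R - f b R)) +
        ((g t (y b) - g b (y b)) - (g t L - g b L)) := by
  have key : ∀ F : ι → ℝ, ∑ i ∈ s, F (σ i) = ∑ i ∈ s, F i := by
    intro F
    refine Finset.sum_nbij σ (fun i hi => hbij.mapsTo hi) hbij.injOn hbij.surjOn
      fun i _ => rfl
  have hbs : b ∈ s := hb ▸ hbij.mapsTo ht
  -- rewrite the sum
  have e1 : ∑ i ∈ s, ((f i (x (σ i)) + T (x (σ i)) (y (σ i)) + g i (y (σ i)))
        - (f i (x i) + T (x i) (y i) + g i (y i))) =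
      ∑ i ∈ s, ((f i (x (σ i)) - f (σ i) (x (σ i))) + (g i (y (σ i)) - g (σ i) (y (σ i)))) := by
    have h2 := key fun i => f i (x i) + T (x i) (y i) + g i (y i)
    simp only [Finset.sum_sub_distrib, Finset.sum_add_distrib] at h2 ⊢
    linarith
  rw [e1]
  have e2 : ∑ i ∈ s, ((f i R - f (σ i) R) + (g i L - g (σ i) L)) = 0 := by
    have h2 := key fun i => f i R
    have h3 := key fun i => g i L
    simp only [Finset.sum_sub_distrib, Finset.sum_add_distrib]
    linarith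
  have e3 : ∑ i ∈ s.erase t, ((f i (x (σ i)) - f (σ i) (x (σ i)))
      + (g i (y (σ i)) - g (σ i) (y (σ i)))) ≤
      ∑ i ∈ s.erase t, ((f i R - f (σ i) R) + (g i L - g (σ i) L)) := by
    refine Finset.sum_le_sum fun i hi => ?_
    obtain ⟨hit, his⟩ := Finset.mem_erase.1 hi
    have hσs : σ i ∈ s := hbij.mapsTo his
    exact add_le_add (hf i his (σ i) hσs (hσ i his hit) (hR _ hσs))
      (hg i his (σ i) hσs (hσ i his hit) (hL _ hσs))
  rw [← Finset.add_sum_erase s _ ht] at e2 ⊢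
  rw [hb] at e2 ⊢
  linarith

/-- slope intervals are disjoint: their total length is at most the length of the range -/
theorem slope_sum_le (h : STO A lt) (s : Finset ι) (hs : ∀ i ∈ s, i ∈ A) (sl : ι → ℝ)
    (hmono : ∀ i ∈ A, ∀ j ∈ A, lt i j → sl i ≤ sl j) (σ : ι → ι)
    (hσ : ∀ i ∈ s, IsSucc A lt i (σ i)) {lo hi : ℝ} (hlo : ∀ i ∈ A, lo ≤ sl i)
    (hhi : ∀ i ∈ A, sl i ≤ hi) (hlh : lo ≤ hi) :
    ∑ i ∈ s, (sl (σ i) - sl i) ≤ hi - lo := by
  -- stronger: for nonempty `s` with maximum `m`, the sum is at most `sl (σ m) - lo`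
  have key : ∀ n : ℕ, ∀ s : Finset ι, s.card = n → (∀ i ∈ s, i ∈ A) →
      (∀ i ∈ s, IsSucc A lt i (σ i)) → ∀ m ∈ s, (∀ k ∈ s, k ≠ m → lt k m) →
      ∑ i ∈ s, (sl (σ i) - sl i) ≤ sl (σ m) - lo := by
    intro n
    induction n with
    | zero =>
      intro s hn _ _ m hm _
      rw [Finset.card_eq_zero.1 hn] at hm
      exact absurd hm (by simp)
    | succ n ih =>
      intro s hn hsA hsσ m hm hmax
      rw [← Finset.add_sum_erase s _ hm]
      rcases (s.erase m).eq_empty_or_nonempty with h0 | h1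
      · rw [h0]
        simp only [Finset.sum_empty, add_zero]
        have := hlo m (hsA m hm)
        linarith
      · have hsub : ∀ i ∈ s.erase m, i ∈ s := fun i hi => (Finset.mem_erase.1 hi).2
        obtain ⟨p, hp, hpmax⟩ := h.exists_max (s.erase m) (fun i hi => hsA i (hsub i hi)) h1
        have hcard : (s.erase m).card = n := by
          rw [Finset.card_erase_of_mem hm, hn]
          rfl
        have h2 := ih (s.erase m) hcard (fun i hi => hsA i (hsub i hi))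
          (fun i hi => hsσ i (hsub i hi)) p hp hpmax
        have hpm : lt p m := hmax p (hsub p hp) (Finset.mem_erase.1 hp).1
        obtain ⟨-, hσA, -, hno⟩ := hsσ p (hsub p hp)
        have h3 : sl (σ p) ≤ sl m := by
          by_cases he : σ p = m
          · rw [he]
          · rcases h.tri (σ p) hσA m (hsA m hm) he with h4 | h4
            · exact hmono _ hσA _ (hsA m hm) h4
            · exact absurd ⟨hpm, h4⟩ (hno m (hsA m hm))
        linarith
  rcases s.eq_empty_or_nonempty with h0 | h1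
  · rw [h0]
    simp only [Finset.sum_empty]
    linarith
  · obtain ⟨m, hm, hmax⟩ := h.exists_max s hs h1
    have h2 := key s.card s rfl hs hσ m hm hmax
    have h3 := hhi (σ m) (hσ m hm).2.1
    linarith

end det

end Crest.Agent.R151.F592
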