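import Crest.Agent.R151.F592a

/-!
# R151, F592b (helper592): stationary label fields on `ℤ`, mass transport, GLOBAL SUCCESSORS

Abstract probability part of step (F) of S0213 (r151_doc S0213_856, section 9).
-/

set_option autoImplicit false

namespace Crest.Agent.R151.F592

open Finset MeasureTheory Filter Topology
open scoped Classical ENNReal

section prob

variable {Ω : Type*} [MeasurableSpace Ω] {μ : Measure Ω}

theorem lintegral_comp_mp {T : Ω → Ω} (hT : MeasurePreserving T μ μ) {f : Ω → ℝ≥0∞}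
    (hf : AEMeasurable f μ) : ∫⁻ ω, f (T ω) ∂μ = ∫⁻ ω, f ω ∂μ := by
  have h1 : AEMeasurable f (Measure.map T μ) := by rwa [hT.map_eq]
  rw [← lintegral_map' h1 hT.aemeasurable, hT.map_eq]

theorem measure_preimage_mp {T : Ω → Ω} (hT : MeasurePreserving T μ μ) {s : Set Ω}
    (hs : NullMeasurableSet s μ) : μ (T ⁻¹' s) = μ s := hT.measure_preimage hs

/-- mass transport on `ℤ` -/
theorem mass_transport {S : ℤ → Ω → Ω} (hS : ∀ z, MeasurePreserving (S z) μ μ)
    {m : Ω → ℤ → ℤ → ℝ≥0∞} (hm : ∀ x y, AEMeasurable (fun ω => m ω x y) μ)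
    (hc : ∀ z ω x y, m (S z ω) x y = m ω (x + z) (y + z)) :
    ∑' y, ∫⁻ ω, m ω 0 y ∂μ = ∑' y, ∫⁻ ω, m ω y 0 ∂μ := by
  have h1 : ∀ y, ∫⁻ ω, m ω y 0 ∂μ = ∫⁻ ω, m ω 0 (-y) ∂μ := by
    intro y
    rw [← lintegral_comp_mp (hS y) (hm 0 (-y))]
    refine lintegral_congr fun ω => ?_
    rw [hc]
    simp
  simp only [h1]
  exact ((Equiv.neg ℤ).tsum_eq fun y => ∫⁻ ω, m ω 0 y ∂μ).symm

/-- the same with the sums inside -/
theorem mass_transport' {S : ℤ → Ω → Ω} (hS : ∀ z, MeasurePreserving (S z) μ μ)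
    {m : Ω → ℤ → ℤ → ℝ≥0∞} (hm : ∀ x y, AEMeasurable (fun ω => m ω x y) μ)
    (hc : ∀ z ω x y, m (S z ω) x y = m ω (x + z) (y + z)) :
    ∫⁻ ω, ∑' y, m ω 0 y ∂μ = ∫⁻ ω, ∑' y, m ω y 0 ∂μ := by
  rw [lintegral_tsum (fun y => hm 0 y), lintegral_tsum (fun y => hm y 0)]
  exact mass_transport hS hm hc

/-- a stationary field of totally ordered labels on `ℤ` -/
structure LField (μ : Measure Ω) (S : ℤ → Ω → Ω) (A : Ω → Set ℤ) (lt : Ω → ℤ → ℤ → Prop) :
    Prop where
  mp : ∀ z, MeasurePreserving (S z) μ μ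
  measA : ∀ x, NullMeasurableSet {ω | x ∈ A ω} μ
  measlt : ∀ x y, NullMeasurableSet {ω | lt ω x y} μ
  covA : ∀ z ω x, x ∈ A (S z ω) ↔ x + z ∈ A ω
  covlt : ∀ z ω x y, lt (S z ω) x y ↔ lt ω (x + z) (y + z)
  sto : ∀ᵐ ω ∂μ, STO (A ω) (lt ω)

variable {S : ℤ → Ω → Ω} {A : Ω → Set ℤ} {lt : Ω → ℤ → ℤ → Prop}

theorem nullMeasurableSet_and {p q : Ω → Prop} (hp : NullMeasurableSet {ω | p ω} μ)
    (hq : NullMeasurableSet {ω | q ω} μ) : NullMeasurableSet {ω | p ω ∧ q ω} μ := hp.inter hq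

theorem nullMeasurableSet_or {p q : Ω → Prop} (hp : NullMeasurableSet {ω | p ω} μ)
    (hq : NullMeasurableSet {ω | q ω} μ) : NullMeasurableSet {ω | p ω ∨ q ω} μ := hp.union hq

theorem nullMeasurableSet_not {p : Ω → Prop} (hp : NullMeasurableSet {ω | p ω} μ) :
    NullMeasurableSet {ω | ¬ p ω} μ := hp.compl

theorem nullMeasurableSet_forall {ι : Type*} [Countable ι] {p : ι → Ω → Prop}
    (hp : ∀ i, NullMeasurableSet {ω | p i ω} μ) : NullMeasurableSet {ω | ∀ i, p i ω} μ := by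
  have : {ω | ∀ i, p i ω} = ⋂ i, {ω | p i ω} := by ext; simp
  rw [this]
  exact NullMeasurableSet.iInter hp

theorem nullMeasurableSet_exists {ι : Type*} [Countable ι] {p : ι → Ω → Prop}
    (hp : ∀ i, NullMeasurableSet {ω | p i ω} μ) : NullMeasurableSet {ω | ∃ i, p i ω} μ := by
  have : {ω | ∃ i, p i ω} = ⋃ i, {ω | p i ω} := by ext; simp
  rw [this]
  exact NullMeasurableSet.iUnion hp

theorem nullMeasurableSet_const (p : Prop) : NullMeasurableSet {_ω : Ω | p} μ :=
  (MeasurableSet.const p).nullMeasurableSet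

theorem nullMeasurableSet_imp {p q : Ω → Prop} (hp : NullMeasurableSet {ω | p ω} μ)
    (hq : NullMeasurableSet {ω | q ω} μ) : NullMeasurableSet {ω | p ω → q ω} μ := by
  have : {ω | p ω → q ω} = {ω | ¬ p ω ∨ q ω} := by ext; simp [imp_iff_not_or]
  rw [this]
  exact nullMeasurableSet_or (nullMeasurableSet_not hp) hq

namespace LField

theorem nullMeasurable_nxt (D : LField μ S A lt) (W : Set ℤ) (x j : ℤ) :
    NullMeasurableSet {ω | Nxt (A ω) (lt ω) W x j} μ := by
  have hk : ∀ k, NullMeasurableSet {ω | k ∈ A ω} μ := D.measA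
  refine nullMeasurableSet_and (nullMeasurableSet_and (hk x) (nullMeasurableSet_const _))
    (nullMeasurableSet_and (nullMeasurableSet_and (hk j) (nullMeasurableSet_const _))
      (nullMeasurableSet_or (nullMeasurableSet_and (D.measlt x j) ?_) ?_))
  · exact nullMeasurableSet_forall fun k => nullMeasurableSet_imp (nullMeasurableSet_const _)
      (nullMeasurableSet_imp (hk k) (nullMeasurableSet_not
        (nullMeasurableSet_and (D.measlt x k) (D.measlt k j))))
  · exact nullMeasurableSet_forall fun k => nullMeasurableSet_imp (nullMeasurableSet_const _)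
      (nullMeasurableSet_imp (hk k) (nullMeasurableSet_and (nullMeasurableSet_not (D.measlt x k))
        (nullMeasurableSet_not (D.measlt k j))))

theorem nullMeasurable_isSucc (D : LField μ S A lt) (x j : ℤ) :
    NullMeasurableSet {ω | IsSucc (A ω) (lt ω) x j} μ :=
  nullMeasurableSet_and (D.measA x) (nullMeasurableSet_and (D.measA j)
    (nullMeasurableSet_and (D.measlt x j) (nullMeasurableSet_forall fun k =>
      nullMeasurableSet_imp (D.measA k) (nullMeasurableSet_not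
        (nullMeasurableSet_and (D.measlt x k) (D.measlt k j))))))

theorem cov_nxt (D : LField μ S A lt) (z : ℤ) (ω : Ω) (a b x j : ℤ) :
    Nxt (A (S z ω)) (lt (S z ω)) (Set.Ico a b) x j ↔
      Nxt (A ω) (lt ω) (Set.Ico (a + z) (b + z)) (x + z) (j + z) := by
  have hW : ∀ k, k ∈ Set.Ico a b ↔ k + z ∈ Set.Ico (a + z) (b + z) := by
    intro k
    simp only [Set.mem_Ico]
    omega
  have hf : ∀ p : ℤ → Prop, (∀ k, p (k + z)) ↔ ∀ k, p k := fun p =>
    ⟨fun h k => by have := h (k - z); rwa [sub_add_cancel] at this, fun h k => h _⟩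
  unfold Nxt
  simp only [D.covA, D.covlt, hW]
  rw [hf fun k => k ∈ Set.Ico (a + z) (b + z) → k ∈ A ω → ¬ (lt ω (x + z) k ∧ lt ω k (j + z)),
    hf fun k => k ∈ Set.Ico (a + z) (b + z) → k ∈ A ω → ¬ lt ω (x + z) k ∧ ¬ lt ω k (j + z)]

theorem cov_isSucc (D : LField μ S A lt) (z : ℤ) (ω : Ω) (x j : ℤ) :
    IsSucc (A (S z ω)) (lt (S z ω)) x j ↔ IsSucc (A ω) (lt ω) (x + z) (j + z) := by
  have hf : ∀ p : ℤ → Prop, (∀ k, p (k + z)) ↔ ∀ k, p k := fun p =>
    ⟨fun h k => by have := h (k - z); rwa [sub_add_cancel] at this, fun h k => h _⟩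
  unfold IsSucc
  simp only [D.covA, D.covlt]
  rw [hf fun k => k ∈ A ω → ¬ (lt ω (x + z) k ∧ lt ω k (j + z))]

/-- if an event is null for `0`, it is null for all `x` -/
theorem ae_forall_of_ae_zero (hmp : ∀ z, MeasurePreserving (S z) μ μ) {p : Ω → ℤ → Prop}
    (hc : ∀ z ω x, p (S z ω) x ↔ p ω (x + z)) (h0 : ∀ᵐ ω ∂μ, p ω 0) : ∀ᵐ ω ∂μ, ∀ x, p ω x := by
  rw [ae_all_iff]
  intro x
  filter_upwards [(hmp x).quasiMeasurePreserving.ae h0] with ω hω
  have := (hc x ω 0).1 hω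
  rwa [zero_add] at this

/-- no global top: the largest label cannot exist -/
theorem ae_no_top [IsProbabilityMeasure μ] (D : LField μ S A lt) :
    ∀ᵐ ω ∂μ, ∀ x ∈ A ω, ∃ k ∈ A ω, lt ω x k := by
  set P : Ω → ℤ → Prop := fun ω x => x ∈ A ω ∧ ∀ k, k ∈ A ω → ¬ lt ω x k with hP
  have hPm : ∀ x, NullMeasurableSet {ω | P ω x} μ := fun x =>
    nullMeasurableSet_and (D.measA x) (nullMeasurableSet_forall fun k =>
      nullMeasurableSet_imp (D.measA k) (nullMeasurableSet_not (D.measlt x k)))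
  have hPc : ∀ z ω x, P (S z ω) x ↔ P ω (x + z) := by
    intro z ω x
    have hf : ∀ p : ℤ → Prop, (∀ k, p (k + z)) ↔ ∀ k, p k := fun p =>
      ⟨fun h k => by have := h (k - z); rwa [sub_add_cancel] at this, fun h k => h _⟩
    simp only [hP, D.covA, D.covlt]
    rw [hf fun k => k ∈ A ω → ¬ lt ω (x + z) k]
  have heq : ∀ x, μ {ω | P ω x} = μ {ω | P ω 0} := by
    intro x
    rw [← measure_preimage_mp (D.mp x) (hPm 0)]
    congr 1
    ext ω
    simp only [Set.mem_preimage, Set.mem_ofPred_eq, hPc, zero_add]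
  have hdisj : ∀ᵐ ω ∂μ, ∀ x y, P ω x → P ω y → x = y := by
    filter_upwards [D.sto] with ω hω x y hx hy
    by_contra hne
    rcases hω.tri x hx.1 y hy.1 hne with h | h
    · exact hx.2 y hy.1 h
    · exact hy.2 x hx.1 h
  have hsum : ∀ n : ℕ, (n : ℝ≥0∞) * μ {ω | P ω 0} ≤ 1 := by
    intro n
    have h1 : (n : ℝ≥0∞) * μ {ω | P ω 0} = ∑ x ∈ Finset.range n, μ {ω | P ω (x : ℤ)} := by
      simp [heq]
    rw [h1]
    have h2 : ∀ x : ℕ, μ {ω | P ω (x : ℤ)} =
        ∫⁻ ω, Set.indicator {ω | P ω (x : ℤ)} (fun _ => 1) ω ∂μ := fun x => by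
      rw [lintegral_indicator_const₀ (hPm x), one_mul]
    simp only [h2]
    have h3 : ∑ x ∈ Finset.range n, ∫⁻ ω, Set.indicator {ω | P ω (x : ℤ)}
        (fun _ => (1 : ℝ≥0∞)) ω ∂μ = ∫⁻ ω, ∑ x ∈ Finset.range n,
        Set.indicator {ω | P ω (x : ℤ)} (fun _ => (1 : ℝ≥0∞)) ω ∂μ :=
      (lintegral_finsetSum' (Finset.range n) (f := fun (x : ℕ) ω =>
        Set.indicator {ω | P ω (x : ℤ)} (fun _ => (1 : ℝ≥0∞)) ω)
        fun x _ => aemeasurable_const.indicator₀ (hPm x)).symm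
    rw [h3]
    calc _ ≤ ∫⁻ _ω, 1 ∂μ := by
          refine lintegral_mono_ae ?_
          filter_upwards [hdisj] with ω hω
          by_cases hex : ∃ x : ℕ, x ∈ Finset.range n ∧ P ω (x : ℤ)
          · obtain ⟨x, hx, hPx⟩ := hex
            rw [Finset.sum_eq_single_of_mem x hx]
            · exact Set.indicator_le_self' (by simp) ω
            · intro y _ hyx
              refine Set.indicator_of_notMem ?_ _
              intro hy
              exact hyx (by exact_mod_cast hω _ _ hy hPx)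
          · rw [Finset.sum_eq_zero]
            · exact zero_le
            · intro x hx
              exact Set.indicator_of_notMem (s := {ω | P ω (x : ℤ)})
                (fun h => hex ⟨x, hx, h⟩) _
      _ = 1 := by simp
  have hzero : μ {ω | P ω 0} = 0 := by
    by_contra hne
    have hlt : (μ {ω | P ω 0})⁻¹ < ⊤ := ENNReal.inv_lt_top.2 (pos_iff_ne_zero.2 hne)
    obtain ⟨n, hn⟩ := ENNReal.exists_nat_gt hlt.ne
    have h1 := hsum n
    have h2 : (μ {ω | P ω 0})⁻¹ * μ {ω | P ω 0} < n * μ {ω | P ω 0} :=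
      ENNReal.mul_lt_mul_left hne (measure_ne_top _ _) hn
    rw [ENNReal.inv_mul_cancel hne (measure_ne_top _ _)] at h2
    exact absurd h1 (not_le.2 h2)
  have h0 : ∀ᵐ ω ∂μ, ¬ P ω 0 := by
    rw [ae_iff]
    simpa using hzero
  have hall := ae_forall_of_ae_zero (p := fun ω x => ¬ P ω x) D.mp
    (fun z ω x => not_congr (hPc z ω x)) h0
  filter_upwards [hall] with ω hω x hx
  have := hω x
  simp only [hP, not_and, not_forall, not_not] at this
  obtain ⟨k, hk, hk'⟩ := this hx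
  exact ⟨k, hk, hk'⟩

end LField

end prob

end Crest.Agent.R151.F592
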