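import Crest.Agent.R151.F592b

/-!
# R151, F592c (helper592): GLOBAL SUCCESSORS from the cyclic sum and the finiteness of near ties

`LField.ae_exists_succ` : a stationary totally ordered label field with
* averaged cyclic sums `≤ C h` (gap to the cyclic successor in a window of length `h`),
* for every `K`, `β` a covariant set of good labels with `P(0 active, not good) ≤ β` such that a
  good label has only finitely many good `K`-near ties,
has a.s. a global successor for every label.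
-/

set_option autoImplicit false

namespace Crest.Agent.R151.F592

open Finset MeasureTheory Filter Topology
open scoped Classical ENNReal

variable {Ω : Type*} [MeasurableSpace Ω] {μ : Measure Ω}
variable {S : ℤ → Ω → Ω} {A : Ω → Set ℤ} {lt : Ω → ℤ → ℤ → Prop}

namespace LField

/-- the event that `x` has no good cyclic successor with small gap -/
def Bd (A : Ω → Set ℤ) (lt : Ω → ℤ → ℤ → Prop) (gap : Ω → ℤ → ℤ → ℝ) (Gd : Ω → Set ℤ) (K : ℝ)
    (W : Set ℤ) (x : ℤ) : Set Ω :=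
  {ω | x ∈ A ω ∧ ¬ ∃ j, Nxt (A ω) (lt ω) W x j ∧ gap ω x j ≤ K ∧ x ∈ Gd ω ∧ j ∈ Gd ω}

variable {gap : Ω → ℤ → ℤ → ℝ} {Gd : Ω → Set ℤ}

theorem nullMeasurable_Bd (D : LField μ S A lt)
    (hgm : ∀ x y K, NullMeasurableSet {ω | gap ω x y ≤ K} μ)
    (hGm : ∀ x, NullMeasurableSet {ω | x ∈ Gd ω} μ) (K : ℝ) (W : Set ℤ) (x : ℤ) :
    NullMeasurableSet (Bd A lt gap Gd K W x) μ :=
  nullMeasurableSet_and (D.measA x) (nullMeasurableSet_not (nullMeasurableSet_exists fun j =>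
    nullMeasurableSet_and (D.nullMeasurable_nxt W x j) (nullMeasurableSet_and (hgm x j K)
      (nullMeasurableSet_and (hGm x) (hGm j)))))

theorem mem_Bd_shift (D : LField μ S A lt)
    (hgc : ∀ z ω x y, gap (S z ω) x y = gap ω (x + z) (y + z))
    (hGc : ∀ z ω x, x ∈ Gd (S z ω) ↔ x + z ∈ Gd ω) (K : ℝ) (a b : ℤ) (z x : ℤ) (ω : Ω) :
    S z ω ∈ Bd A lt gap Gd K (Set.Ico a b) x ↔
      ω ∈ Bd A lt gap Gd K (Set.Ico (a + z) (b + z)) (x + z) := by
  have hf : ∀ p : ℤ → Prop, (∃ k, p (k + z)) ↔ ∃ k, p k := fun p =>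
    ⟨fun ⟨k, hk⟩ => ⟨_, hk⟩, fun ⟨k, hk⟩ => ⟨k - z, by rwa [sub_add_cancel]⟩⟩
  unfold Bd
  simp only [Set.mem_ofPred_eq, D.covA, D.cov_nxt, hgc, hGc]
  rw [hf fun k => Nxt (A ω) (lt ω) (Set.Ico (a + z) (b + z)) (x + z) k ∧ gap ω (x + z) k ≤ K ∧
    x + z ∈ Gd ω ∧ k ∈ Gd ω]

/-- Markov: the averaged probability of `Bd` -/
theorem sum_Bd_le (D : LField μ S A lt)
    (hgm : ∀ x y K, NullMeasurableSet {ω | gap ω x y ≤ K} μ)
    (hGm : ∀ x, NullMeasurableSet {ω | x ∈ Gd ω} μ)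
    (hGc : ∀ z ω x, x ∈ Gd (S z ω) ↔ x + z ∈ Gd ω)
    {C β : ℝ≥0∞} {K : ℝ} (hK : 0 < K) (h : ℕ)
    (hcyc : ∑ x ∈ Finset.range h, ∑ j ∈ Finset.range h,
      ∫⁻ ω, Set.indicator {ω | Nxt (A ω) (lt ω) (Set.Ico 0 (h : ℤ)) x j}
        (fun ω => ENNReal.ofReal (gap ω x j)) ω ∂μ ≤ C * h)
    (hβ : μ {ω | (0 : ℤ) ∈ A ω ∧ (0 : ℤ) ∉ Gd ω} ≤ β) :
    ∑ x ∈ Finset.range h, μ (Bd A lt gap Gd K (Set.Ico 0 (h : ℤ)) (x : ℤ)) ≤
      (β + C / ENNReal.ofReal K + β) * h := by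
  set W : Set ℤ := Set.Ico 0 (h : ℤ) with hW
  set N : ℤ → ℤ → Set Ω := fun x j => {ω | Nxt (A ω) (lt ω) W x j} with hN
  have hNm : ∀ x j, NullMeasurableSet (N x j) μ := fun x j => D.nullMeasurable_nxt W x j
  set Bg : ℤ → Set Ω := fun x => {ω | x ∈ A ω ∧ x ∉ Gd ω} with hBg
  have hBgm : ∀ x, NullMeasurableSet (Bg x) μ := fun x =>
    nullMeasurableSet_and (D.measA x) (nullMeasurableSet_not (hGm x))
  have hBgβ : ∀ x, μ (Bg x) ≤ β := by
    intro x
    have : S x ⁻¹' (Bg 0) = Bg x := by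
      ext ω
      simp only [hBg, Set.mem_preimage, Set.mem_ofPred_eq, D.covA, hGc, zero_add]
    rw [← this, measure_preimage_mp (D.mp x) (hBgm 0)]
    exact hβ
  -- the three contributions
  set Gp : ℤ → ℤ → Set Ω := fun x j => N x j ∩ {ω | gap ω x j ≤ K}ᶜ with hGp
  have hGpm : ∀ x j, NullMeasurableSet (Gp x j) μ := fun x j => (hNm x j).inter (hgm x j K).compl
  set Bj : ℤ → ℤ → Set Ω := fun x j => N x j ∩ Bg j with hBj
  have hBjm : ∀ x j, NullMeasurableSet (Bj x j) μ := fun x j => (hNm x j).inter (hBgm j)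
  have hfin : ∀ ω, (A ω ∩ W).Finite := fun ω => (Set.finite_Ico 0 (h : ℤ)).subset
    Set.inter_subset_right
  have hle : ∀ x ∈ Finset.range h, μ (Bd A lt gap Gd K W (x : ℤ)) ≤
      μ (Bg x) + (∑ j ∈ Finset.range h, μ (Gp x j) + ∑ j ∈ Finset.range h, μ (Bj x j)) := by
    intro x hx
    have hsub : Bd A lt gap Gd K W (x : ℤ) ≤ᵐ[μ]
        (Bg x ∪ ((⋃ j ∈ Finset.range h, Gp x j) ∪ ⋃ j ∈ Finset.range h, Bj x j) : Set Ω) := by
      filter_upwards [D.sto] with ω hω hB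
      obtain ⟨hxA, hno⟩ := hB
      have hxW : (x : ℤ) ∈ W := by
        rw [hW, Set.mem_Ico]
        exact ⟨by positivity, by exact_mod_cast Finset.mem_range.1 hx⟩
      obtain ⟨j, hj⟩ := exists_nxt hω (hfin ω) hxA hxW
      have hjW : j ∈ W := hj.2.1.2
      obtain ⟨j', rfl⟩ : ∃ j' : ℕ, (j' : ℤ) = j := ⟨j.toNat, Int.toNat_of_nonneg hjW.1⟩
      have hj' : j' ∈ Finset.range h := by
        rw [Finset.mem_range]
        exact_mod_cast hjW.2
      by_cases h1 : (x : ℤ) ∈ Gd ω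
      · by_cases h2 : gap ω x j' ≤ K
        · right; right
          refine Set.mem_biUnion hj' ⟨hj, hj.2.1.1, fun h3 => ?_⟩
          exact hno ⟨_, hj, h2, h1, h3⟩
        · right; left
          exact Set.mem_biUnion hj' ⟨hj, h2⟩
      · left
        exact ⟨hxA, h1⟩
    refine (measure_mono_ae hsub).trans ((measure_union_le _ _).trans
      (add_le_add le_rfl ((measure_union_le _ _).trans (add_le_add ?_ ?_))))
    · exact measure_biUnion_finset_le _ _
    · exact measure_biUnion_finset_le _ _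
  refine (Finset.sum_le_sum hle).trans ?_
  rw [Finset.sum_add_distrib, Finset.sum_add_distrib]
  have e1 : ∑ x ∈ Finset.range h, μ (Bg (x : ℤ)) ≤ β * h := by
    calc ∑ x ∈ Finset.range h, μ (Bg (x : ℤ)) ≤ ∑ _x ∈ Finset.range h, β :=
          Finset.sum_le_sum fun x _ => hBgβ x
      _ = β * h := by rw [Finset.sum_const, Finset.card_range, nsmul_eq_mul, mul_comm]
  have e2 : ∑ x ∈ Finset.range h, ∑ j ∈ Finset.range h, μ (Gp (x : ℤ) (j : ℤ)) ≤
      C / ENNReal.ofReal K * h := by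
    have h1 : ∀ x j : ℤ, μ (Gp x j) ≤ (∫⁻ ω, Set.indicator (N x j)
        (fun ω => ENNReal.ofReal (gap ω x j)) ω ∂μ) / ENNReal.ofReal K := by
      intro x j
      rw [ENNReal.le_div_iff_mul_le (Or.inl (by simpa using hK)) (Or.inl ENNReal.ofReal_ne_top)]
      calc μ (Gp x j) * ENNReal.ofReal K
          = ∫⁻ ω, Set.indicator (Gp x j) (fun _ => ENNReal.ofReal K) ω ∂μ := by
            rw [lintegral_indicator_const₀ (hGpm x j), mul_comm]
        _ ≤ _ := by
            refine lintegral_mono fun ω => ?_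
            by_cases hω : ω ∈ Gp x j
            · rw [Set.indicator_of_mem hω, Set.indicator_of_mem hω.1]
              exact ENNReal.ofReal_le_ofReal
                (not_le.1 (show ¬ gap ω x j ≤ K from hω.2)).le
            · rw [Set.indicator_of_notMem hω]
              exact zero_le
    calc _ ≤ ∑ x ∈ Finset.range h, ∑ j ∈ Finset.range h, (∫⁻ ω, Set.indicator (N x j)
        (fun ω => ENNReal.ofReal (gap ω x j)) ω ∂μ) / ENNReal.ofReal K :=
          Finset.sum_le_sum fun x _ => Finset.sum_le_sum fun j _ => h1 x j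
      _ = (∑ x ∈ Finset.range h, ∑ j ∈ Finset.range h, (∫⁻ ω, Set.indicator (N x j)
        (fun ω => ENNReal.ofReal (gap ω x j)) ω ∂μ)) / ENNReal.ofReal K := by
          simp only [ENNReal.div_eq_inv_mul, Finset.mul_sum]
      _ ≤ C * h / ENNReal.ofReal K := by gcongr
      _ = C / ENNReal.ofReal K * h := by
          rw [ENNReal.div_eq_inv_mul, ENNReal.div_eq_inv_mul, mul_assoc]
  have e3 : ∑ x ∈ Finset.range h, ∑ j ∈ Finset.range h, μ (Bj (x : ℤ) (j : ℤ)) ≤ β * h := by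
    rw [Finset.sum_comm]
    have h1 : ∀ j : ℤ, ∑ x ∈ Finset.range h, μ (Bj (x : ℤ) j) ≤ β := by
      intro j
      have h2 : ∀ x : ℕ, μ (Bj (x : ℤ) j) =
          ∫⁻ ω, Set.indicator (Bj (x : ℤ) j) (fun _ => (1 : ℝ≥0∞)) ω ∂μ := fun x => by
        rw [lintegral_indicator_const₀ (hBjm x j), one_mul]
      simp only [h2]
      have h3 : ∑ x ∈ Finset.range h, ∫⁻ ω, Set.indicator (Bj (x : ℤ) j)
          (fun _ => (1 : ℝ≥0∞)) ω ∂μ = ∫⁻ ω, ∑ x ∈ Finset.range h,
          Set.indicator (Bj (x : ℤ) j) (fun _ => (1 : ℝ≥0∞)) ω ∂μ :=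
        (lintegral_finsetSum' (Finset.range h) (f := fun (x : ℕ) ω =>
          Set.indicator (Bj (x : ℤ) j) (fun _ => (1 : ℝ≥0∞)) ω)
          fun x _ => aemeasurable_const.indicator₀ (hBjm x j)).symm
      rw [h3]
      calc _ ≤ ∫⁻ ω, Set.indicator (Bg j) (fun _ => (1 : ℝ≥0∞)) ω ∂μ := by
            refine lintegral_mono_ae ?_
            filter_upwards [D.sto] with ω hω
            by_cases hex : ∃ x : ℕ, x ∈ Finset.range h ∧ ω ∈ Bj (x : ℤ) j
            · obtain ⟨x, hx, hPx⟩ := hex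
              rw [Finset.sum_eq_single_of_mem x hx]
              · rw [Set.indicator_of_mem hPx, Set.indicator_of_mem hPx.2]
              · intro y _ hyx
                refine Set.indicator_of_notMem (s := Bj (y : ℤ) j) ?_ _
                intro hy
                exact hyx (by exact_mod_cast Nxt.inj hω hy.1 hPx.1)
            · rw [Finset.sum_eq_zero]
              · exact zero_le
              · intro x hx
                exact Set.indicator_of_notMem (s := Bj (x : ℤ) j)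
                  (fun h => hex ⟨x, hx, h⟩) _
        _ = μ (Bg j) := by rw [lintegral_indicator_const₀ (hBgm j), one_mul]
        _ ≤ β := hBgβ j
    calc _ ≤ ∑ _j ∈ Finset.range h, β := Finset.sum_le_sum fun j _ => h1 j
      _ = β * h := by rw [Finset.sum_const, Finset.card_range, nsmul_eq_mul, mul_comm]
  calc _ ≤ β * h + (C / ENNReal.ofReal K * h + β * h) := add_le_add e1 (add_le_add e2 e3)
    _ = (β + C / ENNReal.ofReal K + β) * h := by ring

/-- for every `n` there is a window around `[-n, n]` with small probability of `Bd` at `0` -/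
theorem exists_window (D : LField μ S A lt)
    (hgm : ∀ x y K, NullMeasurableSet {ω | gap ω x y ≤ K} μ)
    (hgc : ∀ z ω x y, gap (S z ω) x y = gap ω (x + z) (y + z))
    (hGm : ∀ x, NullMeasurableSet {ω | x ∈ Gd ω} μ)
    (hGc : ∀ z ω x, x ∈ Gd (S z ω) ↔ x + z ∈ Gd ω)
    {C β : ℝ≥0∞} {K : ℝ} (hK : 0 < K)
    (hcyc : ∀ h : ℕ, ∑ x ∈ Finset.range h, ∑ j ∈ Finset.range h,
      ∫⁻ ω, Set.indicator {ω | Nxt (A ω) (lt ω) (Set.Ico 0 (h : ℤ)) x j}
        (fun ω => ENNReal.ofReal (gap ω x j)) ω ∂μ ≤ C * h)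
    (hβ : μ {ω | (0 : ℤ) ∈ A ω ∧ (0 : ℤ) ∉ Gd ω} ≤ β) (n : ℕ) :
    ∃ a b : ℤ, a ≤ -n ∧ n < b ∧
      μ (Bd A lt gap Gd K (Set.Ico a b) 0) ≤ 2 * (β + C / ENNReal.ofReal K + β) := by
  set N := n + 1 with hN
  set ε := β + C / ENNReal.ofReal K + β with hε
  by_contra hcon
  push Not at hcon
  have h1 := D.sum_Bd_le hgm hGm hGc hK (4 * N) (hcyc (4 * N)) hβ
  have h2 : ∀ x ∈ Finset.Ico N (3 * N), 2 * ε <
      μ (Bd A lt gap Gd K (Set.Ico 0 ((4 * N : ℕ) : ℤ)) (x : ℤ)) := by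
    intro x hx
    rw [Finset.mem_Ico] at hx
    have h3 := hcon (-(x : ℤ)) (4 * N - x) (by omega) (by omega)
    have h4 : S x ⁻¹' (Bd A lt gap Gd K (Set.Ico (-(x : ℤ)) (4 * N - x)) 0) =
        Bd A lt gap Gd K (Set.Ico 0 ((4 * N : ℕ) : ℤ)) (x : ℤ) := by
      ext ω
      rw [Set.mem_preimage, D.mem_Bd_shift hgc hGc]
      have e1 : (-(x : ℤ)) + x = 0 := by ring
      have e2 : (4 * (N : ℤ) - x) + x = ((4 * N : ℕ) : ℤ) := by push_cast; ring
      rw [e1, e2, zero_add]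
    rw [← h4, measure_preimage_mp (D.mp x) (D.nullMeasurable_Bd hgm hGm _ _ _)]
    exact h3
  have hsub : Finset.Ico N (3 * N) ⊆ Finset.range (4 * N) := by
    intro x hx
    rw [Finset.mem_Ico] at hx
    rw [Finset.mem_range]
    omega
  have h5 : ∑ x ∈ Finset.Ico N (3 * N), 2 * ε < ∑ x ∈ Finset.Ico N (3 * N),
      μ (Bd A lt gap Gd K (Set.Ico 0 ((4 * N : ℕ) : ℤ)) (x : ℤ)) := by
    refine ENNReal.sum_lt_sum_of_nonempty ?_ h2
    rw [Finset.nonempty_Ico]
    omega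
  have h6 : ∑ x ∈ Finset.Ico N (3 * N), 2 * ε = ε * ((4 * N : ℕ) : ℝ≥0∞) := by
    rw [Finset.sum_const, Nat.card_Ico, nsmul_eq_mul]
    have : 3 * N - N = 2 * N := by omega
    rw [this]
    push_cast
    ring
  have h7 := (Finset.sum_le_sum_of_subset (f := fun x : ℕ =>
    μ (Bd A lt gap Gd K (Set.Ico 0 ((4 * N : ℕ) : ℤ)) (x : ℤ))) hsub).trans h1
  rw [h6] at h5
  exact absurd (h5.trans_le h7) (lt_irrefl _)

/-- **global successors** -/
theorem ae_exists_succ [IsProbabilityMeasure μ] (D : LField μ S A lt)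
    (hgm : ∀ x y K, NullMeasurableSet {ω | gap ω x y ≤ K} μ)
    (hgc : ∀ z ω x y, gap (S z ω) x y = gap ω (x + z) (y + z))
    {C : ℝ≥0∞} (hC : C ≠ ⊤)
    (hcyc : ∀ h : ℕ, ∑ x ∈ Finset.range h, ∑ j ∈ Finset.range h,
      ∫⁻ ω, Set.indicator {ω | Nxt (A ω) (lt ω) (Set.Ico 0 (h : ℤ)) x j}
        (fun ω => ENNReal.ofReal (gap ω x j)) ω ∂μ ≤ C * h)
    (hgood : ∀ K : ℝ, 0 < K → ∀ β : ℝ≥0∞, 0 < β → ∃ Gd : Ω → Set ℤ,
      (∀ x, NullMeasurableSet {ω | x ∈ Gd ω} μ) ∧ (∀ z ω x, x ∈ Gd (S z ω) ↔ x + z ∈ Gd ω) ∧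
      μ {ω | (0 : ℤ) ∈ A ω ∧ (0 : ℤ) ∉ Gd ω} ≤ β ∧
      ∀ᵐ ω ∂μ, (0 : ℤ) ∈ A ω → (0 : ℤ) ∈ Gd ω →
        {j : ℤ | j ∈ A ω ∧ j ∈ Gd ω ∧ gap ω 0 j ≤ K}.Finite) :
    ∀ᵐ ω ∂μ, ∀ x ∈ A ω, ∃ j, IsSucc (A ω) (lt ω) x j := by
  -- the exceptional set at `0`
  set Z : Set Ω := {ω | (0 : ℤ) ∈ A ω ∧ ¬ ∃ j, IsSucc (A ω) (lt ω) 0 j} with hZ
  have hZle : ∀ K : ℝ, 0 < K → ∀ β : ℝ≥0∞, 0 < β →
      μ Z ≤ 2 * (β + C / ENNReal.ofReal K + β) := by
    intro K hK β hβ
    obtain ⟨Gd, hGm, hGc, hGβ, hfin⟩ := hgood K hK β hβ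
    choose a b ha hb hab using fun n => D.exists_window hgm hgc hGm hGc hK hcyc hGβ n
    set E : ℕ → Set Ω := fun n => Bd A lt gap Gd K (Set.Ico (a n) (b n)) 0 with hE
    have hsub : Z ≤ᵐ[μ] (⋃ m : ℕ, ⋂ n ≥ m, E n : Set Ω) := by
      filter_upwards [D.sto, D.ae_no_top, hfin] with ω hω htop hfin hZω
      obtain ⟨h0A, hno⟩ := hZω
      change ω ∈ ⋃ m : ℕ, ⋂ n ≥ m, E n
      by_contra hcon
      simp only [Set.mem_iUnion, Set.mem_iInter, not_exists, not_forall] at hcon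
      -- infinitely many `n` with a good cyclic successor
      have hinf : ∀ m : ℕ, ∃ n ≥ m, ∃ j, Nxt (A ω) (lt ω) (Set.Ico (a n) (b n)) 0 j ∧
          gap ω 0 j ≤ K ∧ (0 : ℤ) ∈ Gd ω ∧ j ∈ Gd ω := by
        intro m
        obtain ⟨n, hn, hnE⟩ := hcon m
        refine ⟨n, hn, ?_⟩
        by_contra h
        exact hnE ⟨h0A, h⟩
      have h0G : (0 : ℤ) ∈ Gd ω := by
        obtain ⟨n, -, j, -, -, h, -⟩ := hinf 0
        exact h
      have hF := hfin h0A h0G
      -- pigeonhole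
      choose nn hnn jj hjj using hinf
      have hjF : ∀ m, jj m ∈ hF.toFinset := fun m => by
        rw [Set.Finite.mem_toFinset]
        exact ⟨(hjj m).1.2.1.1, (hjj m).2.2.2, (hjj m).2.1⟩
      obtain ⟨j, hj⟩ : ∃ j : ℤ, ∀ m : ℕ, ∃ m' ≥ m, jj m' = j := by
        have h1 : ∃ j ∈ hF.toFinset, {m : ℕ | jj m = j}.Infinite := by
          by_contra hno'
          push Not at hno'
          have h2 : (⋃ j ∈ hF.toFinset, {m : ℕ | jj m = j}).Finite :=
            Set.Finite.biUnion (Finset.finite_toSet _) fun j hj => Set.not_infinite.1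
              (fun hi => (Set.not_infinite.2 (hno' j hj)) hi)
          have h3 : (Set.univ : Set ℕ) ⊆ ⋃ j ∈ hF.toFinset, {m : ℕ | jj m = j} := fun m _ =>
            Set.mem_biUnion (hjF m) rfl
          exact Set.infinite_univ (h2.subset h3)
        obtain ⟨j, -, hj⟩ := h1
        refine ⟨j, fun m => ?_⟩
        obtain ⟨m', hm', hlt⟩ := hj.exists_gt m
        exact ⟨m', hlt.le, hm'⟩
      -- windows become large
      have hwin : ∀ k : ℤ, ∃ m : ℕ, ∀ m' ≥ m, k ∈ Set.Ico (a (nn m')) (b (nn m')) := by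
        intro k
        refine ⟨k.natAbs, fun m' hm' => ?_⟩
        have h1 := hnn m'
        have h2 := ha (nn m')
        have h3 := hb (nn m')
        rw [Set.mem_Ico]
        omega
      obtain ⟨m0, -, hm0⟩ := hj 0
      have hjA : j ∈ A ω := by
        rw [← hm0]
        exact (hjj m0).1.2.1.1
      have hlt0 : lt ω 0 j := by
        obtain ⟨k, hkA, hk⟩ := htop 0 h0A
        obtain ⟨m, hm⟩ := hwin k
        obtain ⟨m', hm', hj'⟩ := hj m
        have h1 := (hjj m').1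
        rw [hj'] at h1
        rcases h1.2.2 with h2 | h2
        · exact h2.1
        · exact absurd hk (h2 k (hm m' hm') hkA).1
      refine hno ⟨j, h0A, hjA, hlt0, fun k hkA hk => ?_⟩
      obtain ⟨m, hm⟩ := hwin k
      obtain ⟨m', hm', hj'⟩ := hj m
      have h1 := (hjj m').1
      rw [hj'] at h1
      rcases h1.2.2 with h2 | h2
      · exact h2.2 k (hm m' hm') hkA hk
      · exact (h2 k (hm m' hm') hkA).1 hk.1
    refine (measure_mono_ae hsub).trans ?_
    have hmono : Monotone fun m : ℕ => ⋂ n ≥ m, E n := by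
      intro m m' hmm'
      refine Set.iInter_mono fun n => ?_
      exact fun ω hω => by
        simp only [Set.mem_iInter] at hω ⊢
        exact fun hn => hω (hmm'.trans hn)
    rw [hmono.measure_iUnion]
    refine iSup_le fun m => ?_
    refine (measure_mono ?_).trans (hab m)
    intro ω hω
    simp only [Set.mem_iInter] at hω
    exact hω m le_rfl
  have hzero : μ Z = 0 := by
    by_contra hne
    have hpos : 0 < μ Z := pos_iff_ne_zero.2 hne
    have hfinZ : μ Z ≠ ⊤ := measure_ne_top _ _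
    -- choose `β = μ Z / 16` and `K` large
    set β := μ Z / 16 with hβ
    have hβpos : 0 < β := ENNReal.div_pos hne (by norm_num)
    have hCr : C = ENNReal.ofReal C.toReal := (ENNReal.ofReal_toReal hC).symm
    set z := (μ Z).toReal with hz
    have hzpos : 0 < z := ENNReal.toReal_pos hne hfinZ
    set K : ℝ := 16 * (C.toReal + 1) / z with hK
    have hC0 : 0 ≤ C.toReal := ENNReal.toReal_nonneg
    have hKpos : 0 < K := by positivity
    have h1 := hZle K hKpos β hβpos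
    have hβr : β = ENNReal.ofReal (z / 16) := by
      rw [hβ, hz, ENNReal.ofReal_div_of_pos (by norm_num), ENNReal.ofReal_toReal hfinZ]
      norm_num
    have h2 : C / ENNReal.ofReal K = ENNReal.ofReal (C.toReal / K) := by
      rw [ENNReal.ofReal_div_of_pos hKpos, ← hCr]
    have h3 : μ Z = ENNReal.ofReal z := (ENNReal.ofReal_toReal hfinZ).symm
    rw [h2, hβr, h3, ← ENNReal.ofReal_add (by positivity) (by positivity),
      ← ENNReal.ofReal_add (by positivity) (by positivity)] at h1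
    have h4 : (2 : ℝ≥0∞) = ENNReal.ofReal 2 := by norm_num
    rw [h4, ← ENNReal.ofReal_mul (by norm_num),
      ENNReal.ofReal_le_ofReal_iff (by positivity)] at h1
    have h5 : C.toReal / K ≤ z / 16 := by
      rw [hK, div_le_iff₀ hKpos, hK]
      have : z / 16 * (16 * (C.toReal + 1) / z) = C.toReal + 1 := by
        field_simp
      rw [this]
      linarith
    linarith
  have h0 : ∀ᵐ ω ∂μ, ((0 : ℤ) ∈ A ω → ∃ j, IsSucc (A ω) (lt ω) 0 j) := by
    rw [ae_iff]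
    convert hzero using 2
    ext ω
    simp [hZ]
  refine (ae_forall_of_ae_zero (p := fun ω x => x ∈ A ω → ∃ j, IsSucc (A ω) (lt ω) x j) D.mp
    (fun z ω x => ?_) h0)
  have hf : ∀ p : ℤ → Prop, (∃ k, p (k + z)) ↔ ∃ k, p k := fun p =>
    ⟨fun ⟨k, hk⟩ => ⟨_, hk⟩, fun ⟨k, hk⟩ => ⟨k - z, by rwa [sub_add_cancel]⟩⟩
  simp only [D.covA, D.cov_isSucc]
  rw [hf fun k => IsSucc (A ω) (lt ω) (x + z) k]

end LField

end Crest.Agent.R151.F592
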