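import Crest.Agent.R151.F592d

/-!
# R151, F592e (helper592): the successor function in the form needed by `Y96.Sys`

`PField` : measurable covariant active set and total preorder `le`; `PField.toLField` : the strict
order `lt x y := le x y ∧ (¬ le y x ∨ x < y)`.
`sucM` : the successor as a pointwise measurable and covariant function.
`PField.succ_pres / succ_inj / succ_slope / succ_le / succ_next` : the SUCC properties.
-/

set_option autoImplicit false

namespace Crest.Agent.R151.F592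

open Finset MeasureTheory Filter Topology
open scoped Classical ENNReal

section det

variable {ι : Type*}

/-- the successor as a function of the relation (junk value `x` if it is not unique) -/
noncomputable def sucM (A : Set ι) (lt : ι → ι → Prop) (x : ι) : ι :=
  if h : ∃ j, IsSucc A lt x j ∧ ∀ j', IsSucc A lt x j' → j' = j then h.choose else x

theorem sucM_eq_of {A : Set ι} {lt : ι → ι → Prop} {x j : ι} (h1 : IsSucc A lt x j)
    (h2 : ∀ j', IsSucc A lt x j' → j' = j) : sucM A lt x = j := by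
  have h : ∃ j, IsSucc A lt x j ∧ ∀ j', IsSucc A lt x j' → j' = j := ⟨j, h1, h2⟩
  unfold sucM
  rw [dif_pos h]
  exact h2 _ h.choose_spec.1

theorem sucM_eq {A : Set ι} {lt : ι → ι → Prop} (h : STO A lt) {x j : ι}
    (hj : IsSucc A lt x j) : sucM A lt x = j :=
  sucM_eq_of hj fun _ hj' => IsSucc.uniq h hj' hj

theorem sucM_eq_iff {A : Set ι} {lt : ι → ι → Prop} {x y : ι} :
    sucM A lt x = y ↔ (IsSucc A lt x y ∧ ∀ j', IsSucc A lt x j' → j' = y) ∨
      ((¬ ∃ j, IsSucc A lt x j ∧ ∀ j', IsSucc A lt x j' → j' = j) ∧ x = y) := by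
  constructor
  · intro h
    by_cases hex : ∃ j, IsSucc A lt x j ∧ ∀ j', IsSucc A lt x j' → j' = j
    · left
      obtain ⟨j, h1, h2⟩ := hex
      have h3 := sucM_eq_of h1 h2
      rw [← h, h3]
      exact ⟨h1, h2⟩
    · right
      refine ⟨hex, ?_⟩
      unfold sucM at h
      rwa [dif_neg hex] at h
  · rintro (⟨h1, h2⟩ | ⟨h1, rfl⟩)
    · exact sucM_eq_of h1 h2
    · unfold sucM
      rw [dif_neg h1]

end det

variable {Ω : Type*} [MeasurableSpace Ω] {μ : Measure Ω}

section closure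

theorem mset_and {p q : Ω → Prop} (hp : MeasurableSet {ω | p ω}) (hq : MeasurableSet {ω | q ω}) :
    MeasurableSet {ω | p ω ∧ q ω} := hp.inter hq

theorem mset_or {p q : Ω → Prop} (hp : MeasurableSet {ω | p ω}) (hq : MeasurableSet {ω | q ω}) :
    MeasurableSet {ω | p ω ∨ q ω} := hp.union hq

theorem mset_not {p : Ω → Prop} (hp : MeasurableSet {ω | p ω}) : MeasurableSet {ω | ¬ p ω} :=
  hp.compl

theorem mset_forall {ι : Type*} [Countable ι] {p : ι → Ω → Prop}
    (hp : ∀ i, MeasurableSet {ω | p i ω}) : MeasurableSet {ω | ∀ i, p i ω} := by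
  have : {ω | ∀ i, p i ω} = ⋂ i, {ω | p i ω} := by ext; simp
  rw [this]
  exact MeasurableSet.iInter hp

theorem mset_exists {ι : Type*} [Countable ι] {p : ι → Ω → Prop}
    (hp : ∀ i, MeasurableSet {ω | p i ω}) : MeasurableSet {ω | ∃ i, p i ω} := by
  have : {ω | ∃ i, p i ω} = ⋃ i, {ω | p i ω} := by ext; simp
  rw [this]
  exact MeasurableSet.iUnion hp

theorem mset_imp {p q : Ω → Prop} (hp : MeasurableSet {ω | p ω}) (hq : MeasurableSet {ω | q ω}) :
    MeasurableSet {ω | p ω → q ω} := by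
  have : {ω | p ω → q ω} = {ω | ¬ p ω ∨ q ω} := by ext; simp [imp_iff_not_or]
  rw [this]
  exact mset_or (mset_not hp) hq

end closure

/-- a measurable covariant set of labels with an almost surely total preorder -/
structure PField (μ : Measure Ω) (S : ℤ → Ω → Ω) (A : Ω → Set ℤ) (le : Ω → ℤ → ℤ → Prop) :
    Prop where
  mp : ∀ z, MeasurePreserving (S z) μ μ
  measA : ∀ x, MeasurableSet {ω | x ∈ A ω}
  measle : ∀ x y, MeasurableSet {ω | le ω x y}
  covA : ∀ z ω x, x ∈ A (S z ω) ↔ x + z ∈ A ω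
  covle : ∀ z ω x y, le (S z ω) x y ↔ le ω (x + z) (y + z)
  trans : ∀ᵐ ω ∂μ, ∀ x ∈ A ω, ∀ y ∈ A ω, ∀ z ∈ A ω, le ω x y → le ω y z → le ω x z
  tot : ∀ᵐ ω ∂μ, ∀ x ∈ A ω, ∀ y ∈ A ω, le ω x y ∨ le ω y x

/-- the strict order of a preorder with ties broken by the position -/
def ltOf (le : Ω → ℤ → ℤ → Prop) (ω : Ω) (x y : ℤ) : Prop := le ω x y ∧ (¬ le ω y x ∨ x < y)

variable {S : ℤ → Ω → Ω} {A : Ω → Set ℤ} {le : Ω → ℤ → ℤ → Prop}

namespace PField

theorem measurable_lt (D : PField μ S A le) (x y : ℤ) : MeasurableSet {ω | ltOf le ω x y} :=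
  mset_and (D.measle x y) (mset_or (mset_not (D.measle y x)) (MeasurableSet.const (x < y)))

theorem toLField (D : PField μ S A le) : LField μ S A (ltOf le) where
  mp := D.mp
  measA := fun x => (D.measA x).nullMeasurableSet
  measlt := fun x y => (D.measurable_lt x y).nullMeasurableSet
  covA := D.covA
  covlt := fun z ω x y => by
    unfold ltOf
    rw [D.covle, D.covle]
    have : x < y ↔ x + z < y + z := by omega
    rw [this]
  sto := by
    filter_upwards [D.trans, D.tot] with ω h1 h2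
    exact sto_of_preorder h1 h2

theorem measurable_isSucc (D : PField μ S A le) (x j : ℤ) :
    MeasurableSet {ω | IsSucc (A ω) (ltOf le ω) x j} :=
  mset_and (D.measA x) (mset_and (D.measA j) (mset_and (D.measurable_lt x j)
    (mset_forall fun k => mset_imp (D.measA k) (mset_not
      (mset_and (D.measurable_lt x k) (D.measurable_lt k j))))))

theorem measurable_sucM (D : PField μ S A le) (x : ℤ) :
    Measurable fun ω => sucM (A ω) (ltOf le ω) x := by
  refine measurable_to_countable' fun y => ?_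
  have : (fun ω => sucM (A ω) (ltOf le ω) x) ⁻¹' {y} = {ω |
      (IsSucc (A ω) (ltOf le ω) x y ∧ ∀ j', IsSucc (A ω) (ltOf le ω) x j' → j' = y) ∨
      ((¬ ∃ j, IsSucc (A ω) (ltOf le ω) x j ∧ ∀ j', IsSucc (A ω) (ltOf le ω) x j' → j' = j) ∧
        x = y)} := by
    ext ω
    exact sucM_eq_iff
  rw [this]
  refine mset_or (mset_and (D.measurable_isSucc x y) (mset_forall fun j' =>
    mset_imp (D.measurable_isSucc x j') (MeasurableSet.const _)))
    (mset_and (mset_not (mset_exists fun j => mset_and (D.measurable_isSucc x j)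
      (mset_forall fun j' => mset_imp (D.measurable_isSucc x j') (MeasurableSet.const _))))
      (MeasurableSet.const _))

theorem sucM_cov (D : PField μ S A le) (z : ℤ) (ω : Ω) (x : ℤ) :
    sucM (A (S z ω)) (ltOf le (S z ω)) x = sucM (A ω) (ltOf le ω) (x + z) - z := by
  have hcov := D.toLField.cov_isSucc z ω x
  rw [sucM_eq_iff]
  set y := sucM (A ω) (ltOf le ω) (x + z) with hy
  rcases (sucM_eq_iff (A := A ω) (lt := ltOf le ω) (x := x + z) (y := y)).1 hy.symm with
    ⟨h1, h2⟩ | ⟨h1, h2⟩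
  · left
    refine ⟨?_, fun j' hj' => ?_⟩
    · rw [hcov, sub_add_cancel]
      exact h1
    · have := h2 _ ((hcov j').1 hj')
      omega
  · right
    refine ⟨?_, by omega⟩
    rintro ⟨j, hj, hju⟩
    refine h1 ⟨j + z, (hcov j).1 hj, fun j' hj' => ?_⟩
    have := hju (j' - z) ((hcov _).2 (by rwa [sub_add_cancel]))
    omega

variable (D : PField μ S A le)
  (hex : ∀ᵐ ω ∂μ, ∀ x ∈ A ω, ∃ j, IsSucc (A ω) (ltOf le ω) x j)

include D hex

theorem ae_isSucc : ∀ᵐ ω ∂μ, ∀ x ∈ A ω,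
    IsSucc (A ω) (ltOf le ω) x (sucM (A ω) (ltOf le ω) x) := by
  filter_upwards [hex, D.toLField.sto] with ω h1 h2 x hx
  obtain ⟨j, hj⟩ := h1 x hx
  rw [sucM_eq h2 hj]
  exact hj

theorem succ_pres : ∀ᵐ ω ∂μ, ∀ x ∈ A ω, sucM (A ω) (ltOf le ω) x ∈ A ω := by
  filter_upwards [D.ae_isSucc hex] with ω h x hx using (h x hx).2.1

theorem succ_inj : ∀ᵐ ω ∂μ, ∀ x y, x ∈ A ω → y ∈ A ω →
    sucM (A ω) (ltOf le ω) x = sucM (A ω) (ltOf le ω) y → x = y := by
  filter_upwards [D.ae_isSucc hex, D.toLField.sto] with ω h h2 x y hx hy he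
  exact IsSucc.inj h2 (he ▸ h x hx) (h y hy)

theorem succ_le' : ∀ᵐ ω ∂μ, ∀ x ∈ A ω, le ω x (sucM (A ω) (ltOf le ω) x) := by
  filter_upwards [D.ae_isSucc hex] with ω h x hx using (h x hx).2.2.1.1

theorem succ_next' : ∀ᵐ ω ∂μ, ∀ x y, x ∈ A ω → y ∈ A ω → x ≠ y →
    le ω (sucM (A ω) (ltOf le ω) x) y ∨ le ω (sucM (A ω) (ltOf le ω) y) x := by
  filter_upwards [D.ae_isSucc hex, D.toLField.sto, D.tot] with ω h h2 h3 x y hx hy hne
  have key : ∀ x y, x ∈ A ω → y ∈ A ω → ltOf le ω x y →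
      le ω (sucM (A ω) (ltOf le ω) x) y := by
    intro x y hx hy hxy
    obtain ⟨-, hsA, -, hno⟩ := h x hx
    by_cases he : sucM (A ω) (ltOf le ω) x = y
    · rw [he]
      rcases h3 y hy y hy with h4 | h4 <;> exact h4
    · rcases h2.tri _ hsA y hy he with h4 | h4
      · exact h4.1
      · exact absurd ⟨hxy, h4⟩ (hno y hy)
  rcases h2.tri x hx y hy hne with h4 | h4
  · exact Or.inl (key x y hx hy h4)
  · exact Or.inr (key y x hy hx h4)

theorem succ_slope [IsProbabilityMeasure μ] {sl : Ω → ℤ → ℝ}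
    (hslm : ∀ x, AEMeasurable (fun ω => sl ω x) μ)
    (hslc : ∀ z ω x, sl (S z ω) x = sl ω (x + z)) {B : ℝ} (hB : 0 ≤ B)
    (hmono : ∀ᵐ ω ∂μ, ∀ x ∈ A ω, ∀ y ∈ A ω, le ω x y → ¬ le ω y x → sl ω x ≤ sl ω y)
    (heq : ∀ᵐ ω ∂μ, ∀ x ∈ A ω, ∀ y ∈ A ω, le ω x y → le ω y x → sl ω x = sl ω y)
    (hbd : ∀ᵐ ω ∂μ, ∀ x ∈ A ω, |sl ω x| ≤ B) :
    ∀ᵐ ω ∂μ, ∀ x ∈ A ω, sl ω (sucM (A ω) (ltOf le ω) x) = sl ω x := by
  have h1 := D.toLField.ae_slope_eq hslm hslc hB (by
    filter_upwards [hmono, heq] with ω h1 h2 x hx y hy hxy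
    by_cases h3 : le ω y x
    · exact (h2 x hx y hy hxy.1 h3).le
    · exact h1 x hx y hy hxy.1 h3) hbd
  filter_upwards [h1, D.ae_isSucc hex] with ω h1 h2 x hx
  exact h1 x _ (h2 x hx)

end PField

end Crest.Agent.R151.F592
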