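import Crest.Agent.R151.F592f
import Crest.Agent.R151.E39e
import Crest.Agent.R151.G785b

/-!
# R151, F592g (helper592): SUCC for percolation, part 2

`LabIn` : label sets and squeeze functions of the rows `±(k+1)`; `Sel0.hgood` : the input `hgood`
from LFE (39) and goodness (785); `Sel0.exists_succ`.
-/

set_option autoImplicit false

namespace Crest.Agent.R151.F592

open MeasureTheory Filter Topology
open Crest.ProbabilityR.FirstPassage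
open Crest.Agent.R151 Crest.Agent.R151.Y Crest.Agent.R151.SEL
open scoped Classical ENNReal

/-- the label sets and squeeze functions at the height `k` -/
structure LabIn (G : Measure ℝ) (γ : ℤ → Environment → ℤ → ℤ × ℤ) (X : Environment → Set ℤ)
    (m1 : ℝ) (k : ℕ) (L : Environment → Set ((ℤ → ℝ) × (ℤ → ℝ)))
    (Fp Fq Hp Hq : Environment → ℤ → ℝ) : Prop where
  dep : ∀ t t' : Environment, (∀ e, e ∉ E39.strip k → t e = t' e) → L t = L t'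
  cls : E39.ClassHyp G L
  mem : ∀ᵐ t ∂(iidLaw G), ∀ x ∈ X t, H.lab t ((k : ℤ) + 1) (-((k : ℤ) + 1)) (γ x t) ∈ L t
  sqzU : ∀ᵐ t ∂(iidLaw G), ∀ a ∈ L t, G785.Sqz (Fp t) (Fq t) a.1
  sqzD : ∀ᵐ t ∂(iidLaw G), ∀ a ∈ L t, G785.Sqz (Hp t) (Hq t) a.2
  lawU : G785.SqzLaw G m1 Fp Fq
  lawD : G785.SqzLaw G m1 Hp Hq
  cov : ∀ y : ℤ, ∀ᵐ t ∂(iidLaw G), (G785.IncCov Fp y t ∧ G785.IncCov Fq y t) ∧
    G785.IncCov Hp y t ∧ G785.IncCov Hq y t

variable {G : Measure ℝ} [IsProbabilityMeasure G] {γ : ℤ → Environment → ℤ → ℤ × ℤ}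
  {X : Environment → Set ℤ} {m0 : ℕ}

/-- near tie of the rows `-1, 0` at good abscissas gives `E39.NT` -/
theorem nt_of_gp {t : Environment} (ht : ∀ e, 0 < t e) {v v' : ℤ → ℤ × ℤ}
    (hv : IsBigeodesic t v) (hvU : UpDown v) {k D : ℕ} {C3 c b K : ℝ}
    {Fp Fq Hp Hq : Environment → ℤ → ℝ} {y : ℤ} (hy : pu 0 v' = y) (hC : 0 ≤ C3)
    (hg : t ∈ G785.GM k D C3 c b Fp Fq Hp Hq y)
    (hsU : G785.Sqz (Fp t) (Fq t) (H.lab t ((k : ℤ) + 1) (-((k : ℤ) + 1)) v).1)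
    (hsD : G785.Sqz (Hp t) (Hq t) (H.lab t ((k : ℤ) + 1) (-((k : ℤ) + 1)) v).2)
    (hgap : gp t (-1) 0 v v' ≤ K) :
    E39.NT k D K (H.lab t ((k : ℤ) + 1) (-((k : ℤ) + 1)) v) y t := by
  have ht0 : ∀ e, 0 ≤ t e := fun e => (ht e).le
  obtain ⟨⟨⟨h1, h2⟩, -⟩, -⟩ := hg
  have hk1 : |(k : ℤ) + 1| ≤ (k : ℤ) + 1 := by rw [abs_of_nonneg (by omega)]
  have hk2 : |-((k : ℤ) + 1)| ≤ (k : ℤ) + 1 := by rw [abs_neg]; exact hk1
  have h0 : |((y, 0) : ℤ × ℤ).1 - y| ≤ (k : ℤ) := by simp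
  have h0' : |((y, 0) : ℤ × ℤ).2| ≤ (k : ℤ) + 1 := by simp; omega
  refine E39.nt_of_gap ht hv hvU (K := K) (x := y) (xh := pd (-1) v') ?_ ?_ ?_
  · have e1 := Ps_self ht0 hv hvU (-1) 0
    unfold gp at hgap
    rw [e1, hy] at hgap
    unfold Ps at hgap
    have e2 : tailD (-1) v 0 = v (entD (-1) v) := by simp [tailD]
    have e3 : tailU 0 v 0 = v (entU 0 v) := by simp [tailU]
    rw [e2, e3]
    linarith
  · intro w hw
    have := G785.G1.loc ht0 h1 hk1 hsU h0 h0' hw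
    simp only [H.lab] at this
    linarith
  · intro z hz
    have := G785.G1.loc ht0 h2 hk2 hsD h0 h0' hz
    simp only [H.lab] at this
    rw [R151.K.pt_symm ht0 (y, 0) (y, _), R151.K.pt_symm ht0 (y, 0) (z, _)] at this
    linarith

namespace Sel0

theorem shift_zero' (t : Environment) : A.shift ((0 : ℤ), (0 : ℤ)) t = t := A.shift_zero t

/-- **the input `hgood`** -/
theorem hgood [NullSingletonClass G] (D : Sel0 (iidLaw G) γ X m0) (h0 : G (Set.Iio 0) = 0)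
    {μ : ℝ × ℝ → ℝ} {m1 : ℝ} (hm0 : 0 ≤ m1) (hm : ∀ x y : ℝ, m1 * |x| ≤ μ (x, y))
    (hS : ∀ᵐ t ∂(iidLaw G), ∀ ε > 0, ∀ᶠ n : ℕ in atTop, K.dev μ n t ≤ ε * n)
    (hin : ∀ k : ℕ, ∃ L Fp Fq Hp Hq, LabIn G γ X m1 k L Fp Fq Hp Hq) :
    ∀ K : ℝ, 0 < K → ∀ β : ℝ≥0∞, 0 < β → ∃ Gd : Environment → Set ℤ,
      (∀ x, NullMeasurableSet {t | x ∈ Gd t} (iidLaw G)) ∧
      (∀ z t x, x ∈ Gd (A.shift (z, 0) t) ↔ x + z ∈ Gd t) ∧
      (iidLaw G) {t | (0 : ℤ) ∈ X t ∧ (0 : ℤ) ∉ Gd t} ≤ β ∧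
      ∀ᵐ t ∂(iidLaw G), (0 : ℤ) ∈ X t → (0 : ℤ) ∈ Gd t →
        {j : ℤ | j ∈ X t ∧ j ∈ Gd t ∧ gp t (-1) 0 (γ 0 t) (γ j t) ≤ K}.Finite := by
  intro K hK β hβ
  obtain ⟨a, b, c, hab, hc, ha, hGM⟩ := G785.exists_GM (G := G) h0
  obtain ⟨k0, hk0⟩ := E39.lfe_cov_null_abc (G := G) h0 hab hc ha K
  -- a real `β'`
  obtain ⟨β', hβ', hβle⟩ : ∃ β' : ℝ, 0 < β' ∧ ENNReal.ofReal β' ≤ β := by
    rcases eq_or_ne β ⊤ with rfl | hne
    · exact ⟨1, one_pos, le_top⟩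
    · exact ⟨β.toReal, ENNReal.toReal_pos hβ.ne' hne, by rw [ENNReal.ofReal_toReal hne]⟩
  obtain ⟨k1, hk1⟩ := exists_pow_lt_of_lt_one (show (0 : ℝ) < β' / 2 by linarith)
    (show (1 / 2 : ℝ) < 1 by norm_num)
  set k := max k0 k1 with hk
  have hkβ : (1 / 2 : ℝ) ^ k ≤ β' / 2 :=
    (pow_le_pow_of_le_one (by norm_num) (by norm_num) (le_max_right _ _)).trans hk1.le
  obtain ⟨L, Fp, Fq, Hp, Hq, hI⟩ := hin k
  obtain ⟨C3, hC3, hC3'⟩ := hGM μ m1 hm0 hm hS k Fp Fq Hp Hq hI.lawU hI.lawD 0 (β' / 2)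
    (by linarith)
  obtain ⟨D0, hD0⟩ := hC3' C3 le_rfl
  set Dd := max D0 1 with hDd
  have hprob := hD0 Dd (le_max_left _ _)
  obtain ⟨C, -, hLFE⟩ := hk0 k (le_max_left _ _) L hI.dep hI.cls C3 Dd hC3 (le_max_right _ _)
  set GM0 : Set Environment := G785.GM k Dd C3 c b Fp Fq Hp Hq 0 with hGM0
  have hGM0m : MeasurableSet GM0 := G785.measurableSet_GM hI.lawU.measp hI.lawU.measq
    hI.lawD.measp hI.lawD.measq
  set Gd : Environment → Set ℤ := fun t => {y | A.shift (y, 0) t ∈ GM0} with hGd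
  have hGdm : ∀ x, MeasurableSet {t | x ∈ Gd t} := fun x =>
    (A.measurable_shift (x, 0)) hGM0m
  have hGdc : ∀ (z : ℤ) (t : Environment) (x : ℤ), x ∈ Gd (A.shift (z, 0) t) ↔ x + z ∈ Gd t := by
    intro z t x
    simp only [hGd, Set.mem_ofPred_eq]
    rw [A.shift_shift]
    simp
  refine ⟨Gd, fun x => (hGdm x).nullMeasurableSet, hGdc, ?_, ?_⟩
  · refine (measure_mono (t := GM0ᶜ) ?_).trans ?_
    · rintro t ⟨-, h1⟩ h2
      apply h1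
      simp only [hGd, Set.mem_ofPred_eq]
      rwa [shift_zero']
    · rw [← ENNReal.ofReal_toReal (measure_ne_top (iidLaw G) GM0ᶜ)]
      refine (ENNReal.ofReal_le_ofReal ?_).trans hβle
      have : (iidLaw G).real GM0ᶜ ≤ β' := by linarith
      exact this
  · -- the pair events
    set E : ℤ → ℤ → Set Environment := fun x y => {t | x ∈ X t ∧ y ∈ X t ∧ x ∈ Gd t ∧ y ∈ Gd t ∧
      gp t (-1) 0 (γ x t) (γ y t) ≤ K} with hE
    have hEm : ∀ x y, MeasurableSet (E x y) := fun x y =>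
      mset_and (D.measX x) (mset_and (D.measX y) (mset_and (hGdm x) (mset_and (hGdm y)
        (measurableSet_le (D.measurable_gap x y (-1) 0) measurable_const))))
    have hEc : ∀ x y, (iidLaw G) (E x y) = (iidLaw G) (E 0 (y - x)) := by
      intro x y
      have : A.shift (x, 0) ⁻¹' (E 0 (y - x)) = E x y := by
        ext t
        simp only [hE, Set.mem_preimage, Set.mem_ofPred_eq, D.covX, hGdc, D.gap_cov, zero_add,
          sub_add_cancel]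
      rw [← this, (D.mp x).measure_preimage (hEm 0 (y - x)).nullMeasurableSet]
    have hcov : ∀ᵐ t ∂(iidLaw G), ∀ y : ℤ, (y ∈ Gd t ↔ t ∈ G785.GM k Dd C3 c b Fp Fq Hp Hq y) := by
      rw [ae_all_iff]
      intro y
      filter_upwards [hI.cov y] with t ht
      exact G785.GM_shift ht.1.1 ht.1.2 ht.2.1 ht.2.2
    have hTwo : ∀ x y, ∀ᵐ t ∂(iidLaw G), t ∈ E x y → E39.Two k Dd K C3 c b L x y t := by
      intro x y
      filter_upwards [D.pos, D.big, D.ud, D.locU, hI.mem, hI.sqzU, hI.sqzD, hcov]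
        with t hpos hbig hud hlU hmem hsU hsD hcov ht
      obtain ⟨hx, hy, hxG, hyG, hgap⟩ := ht
      have hxG' := (hcov x).1 hxG
      have hyG' := (hcov y).1 hyG
      have hm' := hmem x hx
      refine ⟨_, hm', G785.GM.good hxG' hsU, G785.GM.good hyG' hsU, ?_, ?_⟩
      · exact nt_of_gp hpos (hbig x hx) (hud x hx) (hlU x hx) hC3 hxG' (hsU _ hm') (hsD _ hm')
          (by rw [gp_self]; exact hK.le)
      · exact nt_of_gp hpos (hbig x hx) (hud x hx) (hlU y hy) hC3 hyG' (hsU _ hm') (hsD _ hm')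
          hgap
    obtain ⟨-, hfin⟩ := hLFE E (fun x y => (hEm x y).nullMeasurableSet) hEc hTwo
    filter_upwards [hfin] with t ht hx hG
    refine ht.subset ?_
    rintro j ⟨h1, h2, h3⟩
    exact ⟨hx, h1, hG, h2, h3⟩

/-- **SUCCESSORS EXIST** -/
theorem exists_succ [NullSingletonClass G] (D : Sel0 (iidLaw G) γ X m0) (hG : M51.Law213 G)
    {μ : ℝ × ℝ → ℝ} {m1 : ℝ} (hm0 : 0 ≤ m1) (hm : ∀ x y : ℝ, m1 * |x| ≤ μ (x, y))
    (hS : ∀ᵐ t ∂(iidLaw G), ∀ ε > 0, ∀ᶠ n : ℕ in atTop, K.dev μ n t ≤ ε * n)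
    (hin : ∀ k : ℕ, ∃ L Fp Fq Hp Hq, LabIn G γ X m1 k L Fp Fq Hp Hq) :
    ∀ᵐ t ∂(iidLaw G), ∀ x ∈ X t, ∃ j, IsSucc (X t) (lt γ t) x j :=
  D.ae_exists_succ hG (D.hgood hG.h0 hm0 hm hS hin)

end Sel0

end Crest.Agent.R151.F592
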