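import Crest.Agent.R151.K9h
import Crest.Agent.R151.K9e

/-!
# R151/K9i — almost sure shape theorem in regions and half-planes, law of S0213 (owner helper507)

`Mom.as_interior` : two-point shape in every region containing a linear neighbourhood of the segment.
`as_ctlR` : almost sure local control in regions.
`as_half_ctl`, `Mom.as_half_shape` : half-planes `{z | k ≤ z.2}`, boundary included.
-/

set_option autoImplicit false
set_option linter.unusedSectionVars false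

open MeasureTheory Filter ProbabilityTheory
open Crest.ProbabilityR.FirstPassage

namespace Crest.Agent.R151.K

variable {G : Measure ℝ} [IsProbabilityMeasure G] {m : ℝ} {μ : ℝ × ℝ → ℝ}

/-- the `i`-th point of the chain is close to the corresponding point of the segment -/
lemma ch_close (x y : ℤ × ℤ) {K : ℕ} (hK : 0 < K) (i : ℕ) :
    l1 (toR (ch x y K i) - ((1 - (i / K : ℝ)) • toR x + (i / K : ℝ) • toR y)) ≤ 2 := by
  have hKR : (0 : ℝ) < K := by exact_mod_cast hK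
  have hK' : (0 : ℤ) < K := by exact_mod_cast hK
  have key : ∀ a b : ℤ, |((a + (b - a) * i / K : ℤ) : ℝ) - ((1 - (i / K : ℝ)) * a + (i / K : ℝ) * b)|
      ≤ 1 := by
    intro a b
    obtain ⟨q, hq⟩ : ∃ q, q = (b - a) * (i : ℤ) / K := ⟨_, rfl⟩
    have h1 : q * K ≤ (b - a) * i := by rw [hq]; exact Int.ediv_mul_le _ hK'.ne'
    have h2 : (b - a) * i < (q + 1) * K := by rw [hq]; exact Int.lt_ediv_add_one_mul_self _ hK'
    rw [← hq]
    have h1' : (q : ℝ) * K ≤ (b - a) * i := by exact_mod_cast h1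
    have h2' : ((b : ℝ) - a) * i < (q + 1) * K := by exact_mod_cast h2
    have e : ((a + q : ℤ) : ℝ) - ((1 - (i / K : ℝ)) * a + (i / K : ℝ) * b)
        = (q * K - (b - a) * i) / K := by push_cast; field_simp; ring
    rw [e, abs_le, le_div_iff₀ hKR, div_le_iff₀ hKR]
    constructor <;> nlinarith
  have h1 := key x.1 y.1
  have h2 := key x.2 y.2
  simp only [l1, toR, ch, Prod.fst_sub, Prod.snd_sub, Prod.smul_fst, Prod.smul_snd, smul_eq_mul,
    Prod.fst_add, Prod.snd_add]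
  push_cast at h1 h2 ⊢
  linarith

/-- **Interior shape theorem, deterministic form.** -/
theorem interior_det {t : Environment} (ht : Nn t) {c : ℝ} (hc : 0 < c) (hm : 0 ≤ m)
    (hlow : ∀ v, c * l1 v ≤ μ v) (hup : ∀ v, μ v ≤ m * l1 v)
    (hlip : ∀ v w, |μ v - μ w| ≤ m * l1 (v - w)) (hhom : ∀ s : ℝ, 0 ≤ s → ∀ v, μ (s • v) = s * μ v)
    (hU : ∀ ε : ℝ, 0 < ε → ∀ᶠ n : ℕ in atTop, dev μ n t ≤ ε * n)
    {ρ ε : ℝ} (hρ : 0 < ρ) (hε : 0 < ε) :
    ∀ᶠ n : ℕ in atTop, ∀ x ∈ box n, ∀ y ∈ box n, ∀ R : Set (ℤ × ℤ),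
      (∀ z : ℤ × ℤ, (∃ s : ℝ, 0 ≤ s ∧ s ≤ 1 ∧
        l1 (toR z - ((1 - s) • toR x + s • toR y)) ≤ ρ * n) → z ∈ R) →
      Conn R x y ∧ pR t R x y ≤ μ (toR (y - x)) + ε * n := by
  -- reduction to `ρ ≤ 1`
  wlog hρ1 : ρ ≤ 1 generalizing ρ
  · have h1 := this (ρ := 1) one_pos le_rfl
    filter_upwards [h1] with n hn x hx y hy R hR
    refine hn x hx y hy R fun z hz => hR z ?_
    obtain ⟨s, h1, h2, h3⟩ := hz
    refine ⟨s, h1, h2, h3.trans ?_⟩
    have : (0 : ℝ) ≤ n := Nat.cast_nonneg _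
    nlinarith
  obtain ⟨K, hK0, hK⟩ : ∃ K : ℕ, 0 < K ∧ 4 * m ≤ c * ρ / 4 * K := by
    obtain ⟨K, hK⟩ := exists_nat_gt (4 * m / (c * ρ / 4))
    rw [div_lt_iff₀ (by positivity)] at hK
    refine ⟨K + 1, Nat.succ_pos _, ?_⟩
    push_cast
    have : 0 < c * ρ / 4 := by positivity
    nlinarith
  have hKR : (0 : ℝ) < K := by exact_mod_cast hK0
  obtain ⟨δ, hδ0, hδ1, hδ2⟩ : ∃ δ : ℝ, 0 < δ ∧ δ ≤ c * ρ / 16 ∧ δ * K ≤ ε / 4 := by
    refine ⟨min (c * ρ / 16) (ε / 4 / K), by positivity, min_le_left _ _, ?_⟩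
    calc _ ≤ ε / 4 / K * K := by gcongr; exact min_le_right _ _
      _ = ε / 4 := by field_simp
  have hU' : ∀ᶠ n : ℕ in atTop, dev μ (2 * n) t ≤ δ * (2 * n : ℕ) :=
    (tendsto_id.const_mul_atTop' (by norm_num : 0 < 2)).eventually (hU δ hδ0)
  have hbig : ∀ a b : ℝ, 0 < b → ∀ᶠ n : ℕ in atTop, a ≤ b * n := by
    intro a b hb
    have := (tendsto_natCast_atTop_atTop (R := ℝ)).eventually_ge_atTop (a / b)
    filter_upwards [this] with n hn
    rw [div_le_iff₀ hb] at hn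
    linarith
  filter_upwards [hU', hbig (2 * m + 3 * c) (c * ρ / 4) (by positivity),
    hbig 3 ρ hρ, hbig (2 * m * K) (ε / 4) (by positivity)] with n hn1 hn2 hn3 hn4
  intro x hx y hy R hR
  obtain ⟨r, hr⟩ : ∃ r : ℕ, r = ⌊ρ * n⌋₊ - 2 := ⟨_, rfl⟩
  have hn0 : (0 : ℝ) ≤ n := Nat.cast_nonneg _
  have hρn : ρ * n ≤ n := by nlinarith
  have hfl1 : (⌊ρ * n⌋₊ : ℝ) ≤ ρ * n := Nat.floor_le (by positivity)
  have hfl2 : ρ * n < ⌊ρ * n⌋₊ + 1 := Nat.lt_floor_add_one _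
  have hfl3 : 3 ≤ ⌊ρ * n⌋₊ := Nat.le_floor (by exact_mod_cast hn3)
  have hr1 : (r : ℝ) = (⌊ρ * n⌋₊ : ℝ) - 2 := by
    rw [hr, Nat.cast_sub (by omega)]; norm_num
  have hr3 : r + 1 ≤ n := by
    have : (⌊ρ * n⌋₊ : ℝ) ≤ n := hfl1.trans hρn
    have : ⌊ρ * n⌋₊ ≤ n := by exact_mod_cast this
    omega
  have hD0 := dev_nonneg μ (2 * n) t
  push_cast at hn1
  have hballR : ∀ i ≤ K, ∀ z, n1 (z - ch x y K i) ≤ r → z ∈ R := by
    intro i hi z hz
    apply hR
    refine ⟨(i / K : ℝ), by positivity, ?_, ?_⟩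
    · rw [div_le_one hKR]; exact_mod_cast hi
    · have h1 := ch_close x y hK0 i
      have h2 := l1_add_le (toR z - toR (ch x y K i))
        (toR (ch x y K i) - ((1 - (i / K : ℝ)) • toR x + (i / K : ℝ) • toR y))
      rw [sub_add_sub_cancel] at h2
      have h3 : l1 (toR z - toR (ch x y K i)) ≤ r := by
        rw [← toR_sub, l1_toR]; exact_mod_cast hz
      linarith
  have hmem : ∀ i ≤ K, ch x y K i ∈ box n := fun i hi => ch_mem_box hK0 hi hx hy
  have hmem2 : ∀ i ≤ K, ch x y K i ∈ box (2 * n) := fun i hi =>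
    mem_box_of_near (k := 0) (hmem i hi) (z := ch x y K i) (by simp [n1]) (by omega)
  have hstep : ∀ i < K, Conn R (ch x y K i) (ch x y K (i + 1)) ∧
      pR t R (ch x y K i) (ch x y K (i + 1)) ≤
        (1 / K : ℝ) * μ (toR (y - x)) + 2 * m + dev μ (2 * n) t := by
    intro i hi
    have hs := ch_step_n1 x y hK0 i
    have hnn : (n1 (y - x) : ℝ) ≤ 4 * n := by
      exact_mod_cast n1_le_of_box hx hy
    have hloc := local_eq (R := R) (μ := μ) ht hc hlow hup (N := 2 * n)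
      (ρ := r) (x := ch x y K i) (y := ch x y K (i + 1)) (hmem2 (i + 1) hi)
      (fun z hz => mem_box_of_near (hmem i hi.le) hz (by omega))
      (fun z hz => hballR i hi.le z hz) (by
        have h1 : (n1 (ch x y K (i + 1) - ch x y K i) : ℝ) ≤ 4 * n / K + 2 := by
          refine hs.trans ?_
          gcongr
        have h2 := mul_le_mul_of_nonneg_left h1 hm
        have h3 : m * (4 * n / K + 2) ≤ c * ρ / 4 * n + 2 * m := by
          have : m * (4 * n / K) ≤ c * ρ / 4 * n := by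
            rw [mul_div_assoc', div_le_iff₀ hKR]
            calc m * (4 * n) = 4 * m * n := by ring
              _ ≤ c * ρ / 4 * K * n := by gcongr
              _ = _ := by ring
          linarith
        have h4 : dev μ (2 * n) t ≤ c * ρ / 16 * (2 * n) := by
          refine hn1.trans ?_
          gcongr
        have h5 : c * (ρ * n - 3) ≤ c * r := by
          gcongr
          rw [hr1]; linarith
        linarith)
    refine ⟨hloc.1, ?_⟩
    rw [hloc.2]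
    have h1 := le_dev μ t (n := 2 * n) (hmem2 i hi.le) (hmem2 (i + 1) hi)
    rw [abs_le] at h1
    have h2 := hlip (toR (ch x y K (i + 1) - ch x y K i)) ((1 / K : ℝ) • toR (y - x))
    have h3 := ch_step x y hK0 i
    have h4 := mul_le_mul_of_nonneg_left h3 hm
    rw [hhom _ (by positivity), abs_le] at h2
    linarith
  obtain ⟨hc1, hc2⟩ := pR_chain (R := R) ht (fun i => ch x y K i) K
    (hballR 0 (by omega) _ (by simp [n1])) (fun i hi => (hstep i hi).1)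
  simp only [ch_zero, ch_self x y hK0] at hc1 hc2
  refine ⟨hc1, hc2.trans ?_⟩
  calc ∑ i ∈ Finset.range K, pR t R (ch x y K i) (ch x y K (i + 1))
      ≤ ∑ _i ∈ Finset.range K, ((1 / K : ℝ) * μ (toR (y - x)) + 2 * m + dev μ (2 * n) t) :=
        Finset.sum_le_sum fun i hi => (hstep i (Finset.mem_range.1 hi)).2
    _ = μ (toR (y - x)) + 2 * m * K + K * dev μ (2 * n) t := by
        rw [Finset.sum_const, Finset.card_range, nsmul_eq_mul]
        field_simp
    _ ≤ μ (toR (y - x)) + ε / 4 * n + K * (δ * (2 * n)) := by gcongr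
    _ = μ (toR (y - x)) + ε / 4 * n + δ * K * (2 * n) := by ring
    _ ≤ μ (toR (y - x)) + ε / 4 * n + ε / 4 * (2 * n) := by gcongr
    _ ≤ _ := by
        have : 0 ≤ ε * n := by positivity
        linarith

/-! ### Local control in regions -/

lemma pR_row_cH {t : Environment} (ht : Nn t) {R : Set (ℤ × ℤ)} (a b : ℤ) (n : ℕ)
    (h : ∀ i : ℤ, a ≤ i → i ≤ a + n → M51.sbox (i, b) 3 ⊆ R) :
    Conn R (a, b) (a + n, b) ∧
      pR t R (a, b) (a + n, b) ≤ ∑ i ∈ Finset.Ico a (a + n), cH (i, b) t := by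
  induction n with
  | zero =>
    have h0 : (a, b) ∈ R := h a le_rfl (by simp) (mem_sbox_self _)
    simp [pR_self ht h0, Conn.refl h0]
  | succ n ih =>
    have h1 : Finset.Ico a (a + (n + 1 : ℕ)) = insert (a + n) (Finset.Ico a (a + n)) := by
      ext i; simp only [Finset.mem_Ico, Finset.mem_insert]; push_cast; omega
    obtain ⟨i1, i2⟩ := ih fun i hi1 hi2 => h i hi1 (by push_cast; omega)
    have hs := h (a + n) (by omega) (by push_cast; omega)
    have h4 : ((a + n, b) : ℤ × ℤ) + (1, 0) = (a + (n + 1 : ℕ), b) := by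
      simp [add_assoc]
    have hc := Conn.adj (adj_add_right (a + (n : ℤ), b)) (mem_sbox_self _) (mem_sbox_right _)
    have h3 := pR_anti ht hs hc
    have hc' := hc.mono hs
    rw [h4] at h3 hc'
    have h2 := pR_triangle ht i1 hc'
    refine ⟨i1.trans hc', ?_⟩
    rw [h1, Finset.sum_insert (by simp)]
    have h5 : cH (a + (n : ℤ), b) t = pR t (M51.sbox (a + n, b) 3) (a + n, b)
      (a + (n + 1 : ℕ), b) := by
      unfold cH; rw [h4]
    linarith

lemma pR_col_cV {t : Environment} (ht : Nn t) {R : Set (ℤ × ℤ)} (a b : ℤ) (n : ℕ)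
    (h : ∀ i : ℤ, b ≤ i → i ≤ b + n → M51.sbox (a, i) 3 ⊆ R) :
    Conn R (a, b) (a, b + n) ∧
      pR t R (a, b) (a, b + n) ≤ ∑ i ∈ Finset.Ico b (b + n), cV (a, i) t := by
  induction n with
  | zero =>
    have h0 : (a, b) ∈ R := h b le_rfl (by simp) (mem_sbox_self _)
    simp [pR_self ht h0, Conn.refl h0]
  | succ n ih =>
    have h1 : Finset.Ico b (b + (n + 1 : ℕ)) = insert (b + n) (Finset.Ico b (b + n)) := by
      ext i; simp only [Finset.mem_Ico, Finset.mem_insert]; push_cast; omega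
    obtain ⟨i1, i2⟩ := ih fun i hi1 hi2 => h i hi1 (by push_cast; omega)
    have hs := h (b + n) (by omega) (by push_cast; omega)
    have h4 : ((a, b + n) : ℤ × ℤ) + (0, 1) = (a, b + (n + 1 : ℕ)) := by
      simp [add_assoc]
    have hc := Conn.adj (adj_add_up (a, b + (n : ℤ))) (mem_sbox_self _) (mem_sbox_up _)
    have h3 := pR_anti ht hs hc
    have hc' := hc.mono hs
    rw [h4] at h3 hc'
    have h2 := pR_triangle ht i1 hc'
    refine ⟨i1.trans hc', ?_⟩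
    rw [h1, Finset.sum_insert (by simp)]
    have h5 : cV (a, b + (n : ℤ)) t = pR t (M51.sbox (a, b + n) 3) (a, b + n)
      (a, b + (n + 1 : ℕ)) := by
      unfold cV; rw [h4]
    linarith

/-- points whose box of radius 3 is contained in `R` -/
def Ri (R : Set (ℤ × ℤ)) : Set (ℤ × ℤ) := {z | M51.sbox z 3 ⊆ R}

/-- **Almost sure local control in regions** (L-shaped path at distance 3 from the boundary). -/
theorem as_ctlR (hG : M51.Law213 G) : ∃ A : ℝ, 0 ≤ A ∧ ∀ η : ℝ, 0 < η →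
    ∀ᵐ t ∂(iidLaw G), ∀ᶠ n : ℕ in atTop, ∀ x ∈ box n, ∀ y ∈ box n, ∀ R : Set (ℤ × ℤ),
      LIn (Ri R) x y → Conn R x y ∧ pR t R x y ≤ A * n1 (y - x) + η * n := by
  have hfH := field_cH hG
  have hfV := field_cV hG
  have hA1 := hfH.cA_nonneg hG.h0
  have hA2 := hfV.cA_nonneg hG.h0
  refine ⟨Field.cA G cH + Field.cA G cV, by positivity, fun η hη => ?_⟩
  filter_upwards [hfH.as_line hG.h0 (fun b i => (i, b)) (fun b i j h => Or.inl h)
    (half_pos hη), hfV.as_line hG.h0 (fun a i => (a, i)) (fun a i j h => Or.inr h)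
    (half_pos hη), ae_Nn (G := G) hG.h0] with t h1 h2 ht
  filter_upwards [h1, h2] with n hn1 hn2
  intro x hx y hy R hR
  obtain ⟨a, b⟩ := x
  obtain ⟨u, v⟩ := y
  rw [mem_box] at hx hy
  simp only at hx hy
  obtain ⟨hR1, hR2⟩ := hR
  simp only at hR1 hR2
  have hrow : Conn R (a, b) (u, b) ∧
      pR t R (a, b) (u, b) ≤ Field.cA G cH * (u - a).natAbs + η / 2 * n := by
    have key : ∀ a c : ℤ, a ≤ c → -(n : ℤ) ≤ a → c ≤ n →
        (∀ i : ℤ, a ≤ i → i ≤ c → (i, b) ∈ Ri R) →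
        Conn R (a, b) (c, b) ∧
        pR t R (a, b) (c, b) ≤ Field.cA G cH * (c - a).natAbs + η / 2 * n := by
      intro a c hac ha hc' hi
      obtain ⟨h0, h1⟩ := pR_row_cH (R := R) ht a b (c - a).toNat (by
        intro i hi1 hi2
        exact hi i hi1 (by omega))
      have h3 := hn1 b (by rw [abs_le]; omega) a (c - a).toNat ha (by omega)
      rw [Int.toNat_of_nonneg (by omega), add_sub_cancel] at h0 h1 h3
      have h4 : (((c - a).toNat : ℕ) : ℝ) = (((c - a).natAbs : ℕ) : ℝ) := by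
        congr 1; omega
      rw [h4] at h3
      exact ⟨h0, by linarith⟩
    rcases le_total a u with hac | hac
    · exact key a u hac hx.1.1 hy.1.2 fun i h1 h2 => hR1 i (Or.inl ⟨h1, h2⟩)
    · have := key u a hac hy.1.1 hx.1.2 fun i h1 h2 => hR1 i (Or.inr ⟨h1, h2⟩)
      rw [pR_symm ht, show (u - a).natAbs = (a - u).natAbs by omega]
      exact ⟨this.1.symm, this.2⟩
  have hcol : Conn R (u, b) (u, v) ∧
      pR t R (u, b) (u, v) ≤ Field.cA G cV * (v - b).natAbs + η / 2 * n := by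
    have key : ∀ b d : ℤ, b ≤ d → -(n : ℤ) ≤ b → d ≤ n →
        (∀ i : ℤ, b ≤ i → i ≤ d → (u, i) ∈ Ri R) →
        Conn R (u, b) (u, d) ∧
        pR t R (u, b) (u, d) ≤ Field.cA G cV * (d - b).natAbs + η / 2 * n := by
      intro b d hbd hb hd' hi
      obtain ⟨h0, h1⟩ := pR_col_cV (R := R) ht u b (d - b).toNat (by
        intro i hi1 hi2
        exact hi i hi1 (by omega))
      have h3 := hn2 u (by rw [abs_le]; omega) b (d - b).toNat hb (by omega)
      rw [Int.toNat_of_nonneg (by omega), add_sub_cancel] at h0 h1 h3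
      have h4 : (((d - b).toNat : ℕ) : ℝ) = (((d - b).natAbs : ℕ) : ℝ) := by
        congr 1; omega
      rw [h4] at h3
      exact ⟨h0, by linarith⟩
    rcases le_total b v with hbd | hbd
    · exact key b v hbd hx.2.1 hy.2.2 fun i h1 h2 => hR2 i (Or.inl ⟨h1, h2⟩)
    · have := key v b hbd hy.2.1 hx.2.2 fun i h1 h2 => hR2 i (Or.inr ⟨h1, h2⟩)
      rw [pR_symm ht, show (v - b).natAbs = (b - v).natAbs by omega]
      exact ⟨this.1.symm, this.2⟩
  refine ⟨hrow.1.trans hcol.1, ?_⟩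
  have htri := pR_triangle ht hrow.1 hcol.1
  have hn1' : (n1 ((u, v) - (a, b)) : ℝ) = ((u - a).natAbs : ℝ) + ((v - b).natAbs : ℝ) := by
    simp only [n1, Prod.mk_sub_mk]
    push_cast
    rfl
  rw [hn1']
  have q1 : (0 : ℝ) ≤ ((u - a).natAbs : ℝ) := Nat.cast_nonneg _
  have q2 : (0 : ℝ) ≤ ((v - b).natAbs : ℝ) := Nat.cast_nonneg _
  have r1 := hrow.2
  have r2 := hcol.2
  nlinarith [mul_nonneg hA1 q2, mul_nonneg hA2 q1]

theorem as_ctlR' (hG : M51.Law213 G) : ∃ A : ℝ, 0 ≤ A ∧ ∀ᵐ t ∂(iidLaw G), ∀ η : ℝ, 0 < η →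
    ∀ᶠ n : ℕ in atTop, ∀ x ∈ box n, ∀ y ∈ box n, ∀ R : Set (ℤ × ℤ),
      LIn (Ri R) x y → Conn R x y ∧ pR t R x y ≤ A * n1 (y - x) + η * n := by
  obtain ⟨A, hA, h⟩ := as_ctlR hG
  refine ⟨A, hA, ?_⟩
  have h' := ae_all_iff.2 fun i : ℕ => h (1 / ((i : ℝ) + 1)) (by positivity)
  filter_upwards [h'] with t ht η hη
  obtain ⟨i, hi⟩ := exists_nat_one_div_lt hη
  filter_upwards [ht i] with n hn x hx y hy R hR
  refine ⟨(hn x hx y hy R hR).1, (hn x hx y hy R hR).2.trans ?_⟩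
  gcongr

theorem as_ctl' (hG : M51.Law213 G) : ∃ A : ℝ, 0 ≤ A ∧ ∀ᵐ t ∂(iidLaw G), ∀ η : ℝ, 0 < η →
    ∀ᶠ n : ℕ in atTop, ∀ x ∈ box n, ∀ y ∈ box n,
      passageTime t x y ≤ A * n1 (y - x) + η * n := by
  obtain ⟨A, hA, h⟩ := as_ctl hG
  refine ⟨A, hA, ?_⟩
  have h' := ae_all_iff.2 fun i : ℕ => h (1 / ((i : ℝ) + 1)) (by positivity)
  filter_upwards [h'] with t ht η hη
  obtain ⟨i, hi⟩ := exists_nat_one_div_lt hη
  filter_upwards [ht i] with n hn x hx y hy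
  refine (hn x hx y hy).trans ?_
  gcongr

/-! ### Boundary cells -/

lemma sup_small {u : ℕ → ℝ} (hu : Tendsto (fun n => u n / n) atTop (nhds 0)) {η : ℝ}
    (hη : 0 < η) : ∀ᶠ n : ℕ in atTop, ∀ k ≤ n, |u k| ≤ η * n := by
  have h1 := (hu.abs.eventually_lt_const (show |(0 : ℝ)| < η by rwa [abs_zero]))
  rw [eventually_atTop] at h1
  obtain ⟨N, hN⟩ := h1
  have h2 := (tendsto_natCast_atTop_atTop (R := ℝ)).eventually_ge_atTop
    ((∑ k ∈ Finset.range (N + 1), |u k|) / η)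
  filter_upwards [h2] with n hn k hk
  rw [div_le_iff₀ hη] at hn
  rcases le_or_gt k N with hkN | hkN
  · have := Finset.single_le_sum (f := fun k => |u k|) (fun i _ => abs_nonneg _)
      (Finset.mem_range.2 (Nat.lt_succ_of_le hkN))
    linarith
  · have h3 := hN k hkN.le
    have hk0 : (0 : ℝ) < k := by
      have : 0 < k := by omega
      exact_mod_cast this
    rw [abs_div, abs_of_pos hk0, div_lt_iff₀ hk0] at h3
    have : (k : ℝ) ≤ n := by exact_mod_cast hk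
    nlinarith

lemma incr_small {Ω : Type*} [MeasurableSpace Ω] {P : Measure Ω} [IsProbabilityMeasure P]
    {τ : Ω → Ω} (hτ : Ergodic τ P) {f : Ω → ℝ} (hf : Measurable f) (hfi : Integrable f P) :
    ∀ᵐ ω ∂P, Tendsto (fun N : ℕ => f (τ^[N] ω) / N) atTop (nhds 0) := by
  filter_upwards [R88.birkhoff_real hτ hf hfi] with ω hω'
  have hω : Tendsto (fun N : ℕ => (∑ i ∈ Finset.range N, f (τ^[i] ω)) / N) atTop
      (nhds (∫ ω, f ω ∂P)) := by
    refine hω'.congr fun N => ?_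
    rw [birkhoffSum, inv_mul_eq_div]
  have h1 := hω.comp (tendsto_add_atTop_nat 1)
  have h2 : Tendsto (fun N : ℕ => ((N + 1 : ℕ) : ℝ) / N) atTop (nhds 1) := by
    have : Tendsto (fun N : ℕ => 1 + 1 / (N : ℝ)) atTop (nhds (1 + 0)) :=
      tendsto_const_nhds.add tendsto_one_div_atTop_nhds_zero_nat
    rw [add_zero] at this
    refine this.congr' ?_
    filter_upwards [eventually_gt_atTop 0] with N hN
    have : (0 : ℝ) < N := by exact_mod_cast hN
    push_cast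
    field_simp
  have h3 := (h1.mul h2).sub hω
  rw [mul_one, sub_self] at h3
  refine h3.congr' ?_
  filter_upwards [eventually_gt_atTop 0] with N hN
  have hN' : (0 : ℝ) < N := by exact_mod_cast hN
  have hN1 : (0 : ℝ) < ((N + 1 : ℕ) : ℝ) := by positivity
  simp only [Function.comp_apply, Finset.sum_range_succ]
  field_simp
  ring

/-- A stationary integrable sequence along a line is almost surely `o(n)` on `[-n, n]`. -/
lemma as_small {z : ℤ × ℤ} (hz : z ≠ 0) {U : ℤ → Environment → ℝ}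
    (hU : ∀ a t, U a t = U 0 (A.shift (a • z) t)) (hm : Measurable (U 0))
    (hi : Integrable (U 0) (iidLaw G)) :
    ∀ᵐ t ∂(iidLaw G), ∀ η : ℝ, 0 < η → ∀ᶠ n : ℕ in atTop, ∀ a : ℤ, |a| ≤ n → |U a t| ≤ η * n := by
  filter_upwards [incr_small (ergodic_shift (G := G) hz) hm hi,
    incr_small (ergodic_shift (G := G) (neg_ne_zero.2 hz)) hm hi] with t h1 h2 η hη
  have h3 : Tendsto (fun n : ℕ => U (n : ℤ) t / n) atTop (nhds 0) := by
    refine h1.congr fun n => ?_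
    rw [shift_iterate, hU n t, natCast_zsmul]
  have h4 : Tendsto (fun n : ℕ => U (-(n : ℤ)) t / n) atTop (nhds 0) := by
    refine h2.congr fun n => ?_
    rw [shift_iterate, hU (-n) t, neg_smul, natCast_zsmul, smul_neg]
  filter_upwards [sup_small h3 hη, sup_small h4 hη] with n hn1 hn2 a ha
  rw [abs_le] at ha
  rcases le_total 0 a with h | h
  · have := hn1 a.toNat (by omega)
    rwa [Int.toNat_of_nonneg h] at this
  · have := hn2 (-a).toNat (by omega)
    rwa [Int.toNat_of_nonneg (by omega), neg_neg] at this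

/-! ### Half-planes -/

lemma half_preimage (k a : ℤ) :
    (fun u : ℤ × ℤ => u + (a, 0)) ⁻¹' {z : ℤ × ℤ | k ≤ z.2} = {z : ℤ × ℤ | k ≤ z.2} := by
  ext u; simp

lemma pR_half_shift (k a : ℤ) (t : Environment) (x y : ℤ × ℤ) :
    pR (A.shift (a, 0) t) {z : ℤ × ℤ | k ≤ z.2} x y
      = pR t {z : ℤ × ℤ | k ≤ z.2} (x + (a, 0)) (y + (a, 0)) := by
  have := pR_tr t (a, 0) {z : ℤ × ℤ | k ≤ z.2} x y
  rw [half_preimage] at this
  exact this

lemma conn_half {k : ℤ} {x y : ℤ × ℤ} (hx : k ≤ x.2) (hy : k ≤ y.2) :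
    Conn {z : ℤ × ℤ | k ≤ z.2} x y :=
  (conn_prod (A := Set.univ) (B := Set.Ici k) Set.ordConnected_univ Set.ordConnected_Ici
    ⟨trivial, hx⟩ ⟨trivial, hy⟩).mono fun _ hz => hz.2

lemma regMom_half (hG : M51.Law213 G) (k : ℤ) :
    RegMom G {z : ℤ × ℤ | k ≤ z.2} (cM G) :=
  regMom_row hG (M51.thick_Ici k) Set.ordConnected_Ici

/-- the lifts of the boundary rows -/
lemma as_lift (hG : M51.Law213 G) (k : ℤ) :
    ∀ᵐ t ∂(iidLaw G), ∀ η : ℝ, 0 < η → ∀ᶠ n : ℕ in atTop, ∀ x ∈ box n, k ≤ x.2 → x.2 ≤ k + 3 →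
      pR t {z : ℤ × ℤ | k ≤ z.2} x (x.1, k + 3) ≤ η * n := by
  have h : ∀ b ∈ Finset.Icc k (k + 3), ∀ᵐ t ∂(iidLaw G), ∀ η : ℝ, 0 < η → ∀ᶠ n : ℕ in atTop,
      ∀ a : ℤ, |a| ≤ n → |pR t {z : ℤ × ℤ | k ≤ z.2} (a, b) (a, k + 3)| ≤ η * n := by
    intro b hb
    rw [Finset.mem_Icc] at hb
    refine as_small (z := (1, 0)) (by simp)
      (U := fun a t => pR t {z : ℤ × ℤ | k ≤ z.2} (a, b) (a, k + 3)) ?_ (measurable_pR _ _ _) ?_
    · intro a t
      have : (a • ((1 : ℤ), (0 : ℤ))) = (a, 0) := by ext <;> simp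
      rw [this, pR_half_shift]
      simp
    · exact (regMom_half hG k).int _ hb.1 _ (by simp)
  have h' := (ae_ball_iff (Finset.countable_toSet _)).2 h
  filter_upwards [h'] with t ht η hη
  have h2 : ∀ᶠ n : ℕ in atTop, ∀ b ∈ Finset.Icc k (k + 3), ∀ a : ℤ, |a| ≤ n →
      |pR t {z : ℤ × ℤ | k ≤ z.2} (a, b) (a, k + 3)| ≤ η * n := by
    rw [eventually_all_finset]
    intro b hb
    exact ht b hb η hη
  filter_upwards [h2] with n hn x hx hx1 hx2
  rw [mem_box] at hx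
  have := hn x.2 (Finset.mem_Icc.2 ⟨hx1, hx2⟩) x.1 (by rw [abs_le]; exact hx.1)
  exact (le_abs_self _).trans this

/-- **Almost sure local control in half-planes**, boundary included. -/
theorem as_half_ctl (hG : M51.Law213 G) : ∃ A : ℝ, 0 ≤ A ∧ ∀ᵐ t ∂(iidLaw G), ∀ k : ℤ,
    ∀ η : ℝ, 0 < η → ∀ᶠ n : ℕ in atTop, ∀ x ∈ box n, ∀ y ∈ box n, k ≤ x.2 → k ≤ y.2 →
      pR t {z : ℤ × ℤ | k ≤ z.2} x y ≤ A * n1 (y - x) + η * n := by
  obtain ⟨A, hA, h⟩ := as_ctlR' hG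
  refine ⟨A, hA, ?_⟩
  filter_upwards [h, ae_all_iff.2 fun k => as_lift hG k, ae_Nn (G := G) hG.h0] with t h1 h2 ht
  intro k η hη
  filter_upwards [h1 (η / 3) (by positivity), h2 k (η / 3) (by positivity),
    eventually_ge_atTop (k + 3).natAbs] with n hn1 hn2 hnk
  intro x hx y hy hkx hky
  obtain ⟨x', hx'⟩ : ∃ x' : ℤ × ℤ, x' = (x.1, max x.2 (k + 3)) := ⟨_, rfl⟩
  obtain ⟨y', hy'⟩ : ∃ y' : ℤ × ℤ, y' = (y.1, max y.2 (k + 3)) := ⟨_, rfl⟩
  have hlift : ∀ u ∈ box n, k ≤ u.2 → ∀ u' : ℤ × ℤ, u' = (u.1, max u.2 (k + 3)) →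
      pR t {z : ℤ × ℤ | k ≤ z.2} u u' ≤ η / 3 * n ∧ u' ∈ box n ∧ k + 3 ≤ u'.2 := by
    intro u hu hku u' hu'
    have hub := mem_box.1 hu
    refine ⟨?_, ?_, by rw [hu']; exact le_max_right _ _⟩
    · rcases le_total u.2 (k + 3) with h | h
      · have := hn2 u hu hku h
        rwa [hu', max_eq_right h]
      · have : u' = u := by rw [hu', max_eq_left h]
        rw [this, pR_self ht (by exact hku)]
        positivity
    · rw [mem_box, hu']
      simp only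
      have : (((k + 3).natAbs : ℕ) : ℤ) ≤ n := by exact_mod_cast hnk
      omega
  obtain ⟨a1, a2, a3⟩ := hlift x hx hkx x' hx'
  obtain ⟨b1, b2, b3⟩ := hlift y hy hky y' hy'
  have hRi : ∀ z : ℤ × ℤ, k + 3 ≤ z.2 → z ∈ Ri {z : ℤ × ℤ | k ≤ z.2} := by
    intro z hz u hu
    simp only [M51.sbox, Set.mem_ofPred_eq, abs_le] at hu
    simp only [Set.mem_ofPred_eq]
    omega
  have hmid := (hn1 x' a2 y' b2 {z : ℤ × ℤ | k ≤ z.2} ⟨fun i _ => hRi _ a3, fun i hi => hRi _ (by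
    simp only
    rcases hi with hi | hi <;> omega)⟩).2
  have hn1' : (n1 (y' - x') : ℝ) ≤ n1 (y - x) := by
    have : n1 (y' - x') ≤ n1 (y - x) := by
      simp only [n1, hx', hy', Prod.fst_sub, Prod.snd_sub]
      omega
    exact_mod_cast this
  have t1 := pR_triangle ht (conn_half hkx (show k ≤ x'.2 by omega))
    (conn_half (show k ≤ x'.2 by omega) (show k ≤ y'.2 by omega))
  have t2 := pR_triangle ht (conn_half hkx (show k ≤ y'.2 by omega))
    (conn_half (show k ≤ y'.2 by omega) hky)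
  rw [pR_symm ht _ y' y] at t2
  have : A * n1 (y' - x') ≤ A * n1 (y - x) := by gcongr
  linarith

namespace Mom

variable (hM : Mom G m) (hμ : IsTC1 G μ)
include hM hμ

/-- **Interior shape theorem in regions.** -/
theorem as_interior (hz : G {0} = 0) (hG : M51.Law213 G) :
    ∀ᵐ t ∂(iidLaw G), ∀ ρ ε : ℝ, 0 < ρ → 0 < ε →
    ∀ᶠ n : ℕ in atTop, ∀ x ∈ box n, ∀ y ∈ box n, ∀ R : Set (ℤ × ℤ),
      (∀ z : ℤ × ℤ, (∃ s : ℝ, 0 ≤ s ∧ s ≤ 1 ∧
        l1 (toR z - ((1 - s) • toR x + s • toR y)) ≤ ρ * n) → z ∈ R) →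
      Conn R x y ∧ pR t R x y ≤ μ (toR (y - x)) + ε * n := by
  obtain ⟨c, hc, hlow⟩ := hM.exists_mu_ge hμ hz
  filter_upwards [hM.as_ushape hμ hG, ae_Nn (G := G) hG.h0] with t h1 ht ρ ε hρ hε
  exact interior_det ht hc hM.nonneg hlow (fun v => hM.mu_le hμ v)
    (fun v w => hM.abs_mu_sub_le hμ v w) (fun s hs v => hM.mu_smul hμ hs v) h1 hρ hε

/-- **The almost sure two-point shape theorem in half-planes**, boundary included. -/
theorem as_half_shape (hz : G {0} = 0) (hG : M51.Law213 G) :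
    ∀ᵐ t ∂(iidLaw G), ∀ k : ℤ, ∀ ε : ℝ, 0 < ε → ∀ᶠ n : ℕ in atTop, ∀ x ∈ box n, ∀ y ∈ box n,
      k ≤ x.2 → k ≤ y.2 →
      |pR t {z : ℤ × ℤ | k ≤ z.2} x y - μ (toR (y - x))| ≤ ε * n := by
  have hm := hM.nonneg
  obtain ⟨A, hA, hctl⟩ := as_half_ctl hG
  filter_upwards [hctl, hM.as_interior hμ hz hG, hM.as_ushape hμ hG,
    ae_Nn (G := G) hG.h0] with t h1 h2 h3 ht
  intro k ε hε
  obtain ⟨ρ, hρ0, hρ1, hρ2⟩ : ∃ ρ : ℝ, 0 < ρ ∧ ρ ≤ 1 ∧ 2 * A * ρ ≤ ε / 8 := by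
    refine ⟨min 1 (ε / 8 / (2 * A + 1)), by positivity, min_le_left _ _, ?_⟩
    calc 2 * A * min 1 (ε / 8 / (2 * A + 1)) ≤ (2 * A + 1) * (ε / 8 / (2 * A + 1)) := by
          gcongr
          · linarith
          · exact min_le_right _ _
      _ = ε / 8 := by field_simp
  have hctl' : ∀ᶠ n : ℕ in atTop, ∀ x ∈ box (2 * n), ∀ y ∈ box (2 * n), k ≤ x.2 → k ≤ y.2 →
      pR t {z : ℤ × ℤ | k ≤ z.2} x y ≤ A * n1 (y - x) + ε / 32 * (2 * n : ℕ) :=
    (tendsto_id.const_mul_atTop' (by norm_num : 0 < 2)).eventually (h1 k (ε / 32) (by positivity))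
  have hint' : ∀ᶠ n : ℕ in atTop, ∀ x ∈ box (2 * n), ∀ y ∈ box (2 * n), ∀ R : Set (ℤ × ℤ),
      (∀ z : ℤ × ℤ, (∃ s : ℝ, 0 ≤ s ∧ s ≤ 1 ∧
        l1 (toR z - ((1 - s) • toR x + s • toR y)) ≤ ρ / 4 * (2 * n : ℕ)) → z ∈ R) →
      Conn R x y ∧ pR t R x y ≤ μ (toR (y - x)) + ε / 8 * (2 * n : ℕ) :=
    (tendsto_id.const_mul_atTop' (by norm_num : 0 < 2)).eventually
      (h2 (ρ / 4) (ε / 8) (by positivity) (by positivity))
  have hbig := (tendsto_natCast_atTop_atTop (R := ℝ)).eventually_ge_atTop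
    ((|(k : ℝ)| + 2) / (ρ / 2))
  filter_upwards [hctl', hint', h3 ε hε, hbig] with n hn1 hn2 hn3 hn4
  rw [div_le_iff₀ (by positivity)] at hn4
  intro x hx y hy hkx hky
  have hn0 : (0 : ℝ) ≤ n := Nat.cast_nonneg _
  have hxR : (k : ℝ) ≤ x.2 := by exact_mod_cast hkx
  have hyR : (k : ℝ) ≤ y.2 := by exact_mod_cast hky
  have hxb := mem_box.1 hx
  have hyb := mem_box.1 hy
  obtain ⟨h, hh⟩ : ∃ h : ℕ, h = ⌊ρ * n⌋₊ := ⟨_, rfl⟩
  have hh1 : (h : ℝ) ≤ ρ * n := by rw [hh]; exact Nat.floor_le (by positivity)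
  have hh2 : ρ * n < h + 1 := by rw [hh]; exact Nat.lt_floor_add_one _
  have hh3 : h ≤ n := by
    have : (h : ℝ) ≤ n := by nlinarith
    exact_mod_cast this
  obtain ⟨x', hx'⟩ : ∃ x' : ℤ × ℤ, x' = x + (0, (h : ℤ)) := ⟨_, rfl⟩
  obtain ⟨y', hy'⟩ : ∃ y' : ℤ × ℤ, y' = y + (0, (h : ℤ)) := ⟨_, rfl⟩
  have mx : x ∈ box (2 * n) := by rw [mem_box]; push_cast; omega
  have my : y ∈ box (2 * n) := by rw [mem_box]; push_cast; omega
  have mx' : x' ∈ box (2 * n) := by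
    rw [mem_box, hx']; simp only [Prod.fst_add, Prod.snd_add]; push_cast; omega
  have my' : y' ∈ box (2 * n) := by
    rw [mem_box, hy']; simp only [Prod.fst_add, Prod.snd_add]; push_cast; omega
  have kx' : k ≤ x'.2 := by rw [hx']; simp only [Prod.snd_add]; omega
  have ky' : k ≤ y'.2 := by rw [hy']; simp only [Prod.snd_add]; omega
  have a1 := hn1 x mx x' mx' hkx kx'
  have a2 := hn1 y my y' my' hky ky'
  have n1x : (n1 (x' - x) : ℝ) = h := by
    rw [hx', add_sub_cancel_left]; simp [n1]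
  have n1y : (n1 (y' - y) : ℝ) = h := by
    rw [hy', add_sub_cancel_left]; simp [n1]
  have a3 := (hn2 x' mx' y' my' {z : ℤ × ℤ | k ≤ z.2} (by
    rintro z ⟨s, hs0, hs1, hs2⟩
    simp only [Set.mem_ofPred_eq]
    have e1 : |(z.2 : ℝ) - ((1 - s) * x'.2 + s * y'.2)| ≤ ρ / 4 * (2 * n : ℕ) := by
      refine le_trans ?_ hs2
      simp only [l1, toR, Prod.snd_sub, Prod.snd_add, Prod.smul_snd, smul_eq_mul, Prod.fst_sub,
        Prod.fst_add, Prod.smul_fst]
      have := abs_nonneg ((z.1 : ℝ) - ((1 - s) * x'.1 + s * y'.1))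
      linarith
    have e2 : (x'.2 : ℝ) = x.2 + h := by rw [hx']; simp
    have e3 : (y'.2 : ℝ) = y.2 + h := by rw [hy']; simp
    have e4 : (k : ℝ) + h ≤ (1 - s) * x'.2 + s * y'.2 := by
      rw [e2, e3]
      have q1 : 0 ≤ (1 - s) * (x.2 - k) := mul_nonneg (by linarith) (by linarith)
      have q2 : 0 ≤ s * ((y.2 : ℝ) - k) := mul_nonneg hs0 (by linarith)
      nlinarith
    rw [abs_le] at e1
    push_cast at e1
    have e5 : (k : ℝ) ≤ z.2 := by
      have := neg_abs_le (k : ℝ)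
      have := le_abs_self (k : ℝ)
      linarith [e1.1]
    exact_mod_cast e5)).2
  have hyx : y' - x' = y - x := by rw [hx', hy']; abel
  rw [hyx] at a3
  have t1 := pR_triangle ht (conn_half hkx kx') (conn_half kx' ky')
  have t2 := pR_triangle ht (conn_half hkx ky') (conn_half ky' hky)
  rw [pR_symm ht _ y' y] at t2
  have low := pt_le_pR ht (conn_half hkx hky)
  have l2 := (le_dev μ t hx hy).trans hn3
  rw [abs_le] at l2 ⊢
  rw [n1x] at a1
  rw [n1y] at a2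
  push_cast at a1 a2 a3
  have hAh : 2 * A * h ≤ ε / 8 * n := by
    calc 2 * A * h ≤ 2 * A * (ρ * n) := by gcongr
      _ = 2 * A * ρ * n := by ring
      _ ≤ ε / 8 * n := by gcongr
  have hεn : 0 ≤ ε * n := by positivity
  constructor
  · linarith [l2.1]
  · linarith

end Mom

end Crest.Agent.R151.K
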