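import Mathlib
import Crest.Agent.R151.S113E
import Crest.Agent.R151.K2b
import Crest.Agent.R151.H617b
import Crest.Agent.R151.B710

/-!
# R151/SL856a — slopes of rays and their limit directions (owner helper856), deterministic

`v` is a ray of `reg R`, `R` a region containing the row `k`; `ζ` is a limit of `v (m n) / n` along a
filter of scales.  If the passage times of `reg R` from `(⌊α n⌋, k)` to `v (m n)` are at most
`μ + o(n)`, then a function `F` on the row with two-sided slope `p` whose increments dominate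
(are dominated by) those of the Busemann function of `v` satisfies `-∂₁μ(ζ) ≤ p`
(resp. `p ≤ -∂₁μ(ζ)`).
-/

set_option autoImplicit false

open Crest.ProbabilityR.FirstPassage
open Filter Set
open scoped Topology

namespace Crest.Agent.R151.SL

open Y H K SEL

/-- half planes are connected -/
theorem reach_up {k : ℤ} {x y : ℤ × ℤ} (hx : k ≤ x.2) (hy : k ≤ y.2) :
    (reg (Up k)).Reachable x y := by
  have h : LIn (Up k) x y := by
    constructor
    · intro i _
      exact hx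
    · intro i hi
      rw [mem_Up]
      rcases hi with h | h <;> linarith [h.1]
  exact (conn_iff_reachable (R := Up k) hx).1 (exists_path_edgesR h).1

theorem reach_dn {k : ℤ} {x y : ℤ × ℤ} (hx : x.2 ≤ k) (hy : y.2 ≤ k) :
    (reg (Dn k)).Reachable x y := by
  have h : LIn (Dn k) x y := by
    constructor
    · intro i _
      exact hx
    · intro i hi
      rw [mem_Dn]
      rcases hi with h | h <;> linarith [h.2]
  exact (conn_iff_reachable (R := Dn k) hx).1 (exists_path_edgesR h).1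

/-- the scaled position -/
noncomputable def sc (n : ℕ) (x : ℤ × ℤ) : ℝ × ℝ := (1 / (n : ℝ)) • toR x

theorem sc_sub (n : ℕ) (x y : ℤ × ℤ) : sc n (x - y) = sc n x - sc n y := by
  unfold sc
  rw [toR_sub, smul_sub]

theorem mu_sc {μ : ℝ × ℝ → ℝ} (hμ : B710.NormLike μ) (n : ℕ) (x : ℤ × ℤ) :
    μ (sc n x) = μ (toR x) / n := by
  unfold sc
  rw [hμ.smul _ _ (by positivity : (0 : ℝ) ≤ 1 / (n : ℝ))]
  ring

theorem tendsto_sc_const (x : ℤ × ℤ) : Tendsto (fun n : ℕ => sc n x) atTop (𝓝 0) := by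
  have : Tendsto (fun n : ℕ => (1 / (n : ℝ)) • toR x) atTop (𝓝 ((0 : ℝ) • toR x)) :=
    tendsto_one_div_atTop_nhds_zero_nat.smul_const _
  simpa [sc] using this

/-- lower half of the uniform shape theorem -/
def LShape (μ : ℝ × ℝ → ℝ) (t : Environment) : Prop :=
  ∀ ε : ℝ, 0 < ε → ∀ᶠ n : ℕ in atTop, ∀ x ∈ box n, ∀ y ∈ box n,
    μ (toR (y - x)) - ε * n ≤ passageTime t x y

theorem lShape_of_dev {μ : ℝ × ℝ → ℝ} {t : Environment}
    (h : ∀ ε : ℝ, 0 < ε → ∀ᶠ n : ℕ in atTop, K.dev μ n t ≤ ε * n) : LShape μ t := by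
  intro ε hε
  filter_upwards [h ε hε] with n hn x hx y hy
  have := (K.le_dev μ t hx hy).trans hn
  rw [abs_le] at this
  linarith [this.1]

/-- one sided estimate of the Busemann function at the scales of `l` -/
theorem bus_limit_le {μ : ℝ × ℝ → ℝ} (hμ : B710.NormLike μ) {t : Environment} (ht : ∀ e, 0 ≤ t e)
    (hlow : LShape μ t) {l : Filter ℕ} (hl : l ≤ atTop) [l.NeBot] {R : Set (ℤ × ℤ)} {k : ℤ}
    {v : ℕ → ℤ × ℤ} (hv : IsRay t (reg R) v) (hreach : ∀ a : ℤ, (reg R).Reachable (a, k) (v 0))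
    {m : ℕ → ℕ} (hm : ∀ᶠ n in l, v (m n) ∈ box n) {ζ : ℝ × ℝ}
    (hζ : Tendsto (fun n => sc n (v (m n))) l (𝓝 ζ)) {a : ℕ → ℤ} {α L : ℝ}
    (haα : Tendsto (fun n : ℕ => (a n : ℝ) / n) l (𝓝 α))
    (hup : ∀ ε : ℝ, 0 < ε → ∀ᶠ n in l, pt (reg R) t (a n, k) (v (m n)) ≤
      μ (toR (v (m n) - (a n, k))) + ε * n)
    (hL : ∀ L' < L, ∀ᶠ n : ℕ in l, L' ≤ bus t (reg R) v (a n, k) / n) :
    L ≤ μ (ζ - (α, 0)) - μ ζ := by
  refine le_of_forall_pos_le_add fun ε hε => ?_
  have c1 : Tendsto (fun n : ℕ => sc n (v (m n) - (a n, k))) l (𝓝 (ζ - (α, 0))) := by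
    have e1 : Tendsto (fun n : ℕ => sc n (a n, k)) l (𝓝 (α, 0)) := by
      have e2 : Tendsto (fun n : ℕ => (((a n : ℝ) / n, (k : ℝ) / n) : ℝ × ℝ)) l (𝓝 (α, 0)) := by
        refine haα.prodMk_nhds ?_
        exact (tendsto_const_div_atTop_nhds_zero_nat (k : ℝ)).mono_left hl
      refine e2.congr fun n => ?_
      unfold sc toR
      simp only [Prod.smul_mk, smul_eq_mul]
      refine Prod.ext ?_ ?_ <;> simp only <;> ring
    have e3 := hζ.sub e1
    refine e3.congr fun n => ?_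
    rw [sc_sub]
  have c2 : Tendsto (fun n : ℕ => sc n (v (m n) - v 0)) l (𝓝 ζ) := by
    have e3 := hζ.sub ((tendsto_sc_const (v 0)).mono_left hl)
    rw [sub_zero] at e3
    refine e3.congr fun n => ?_
    rw [sc_sub]
  have c3 := (hμ.continuous.tendsto _).comp c1
  have c4 := (hμ.continuous.tendsto _).comp c2
  have c5 := (c3.sub c4).add_const (ε / 2)
  have hbox0 : ∀ᶠ n in l, v 0 ∈ box n := by
    refine hl ?_
    filter_upwards [eventually_ge_atTop ((v 0).1.natAbs + (v 0).2.natAbs)] with n hn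
    rw [mem_box]
    omega
  have hpos : ∀ᶠ n : ℕ in l, 0 < n := hl (eventually_gt_atTop _)
  have main : L - ε / 2 ≤ μ (ζ - (α, 0)) - μ ζ + ε / 2 := by
    refine ge_of_tendsto c5 ?_
    filter_upwards [hl (hlow (ε / 4) (by positivity)), hup (ε / 4) (by positivity), hm, hbox0, hpos,
      hL (L - ε / 2) (by linarith)] with n h1 h2 h3 h4 h5 h6
    have hn : (0 : ℝ) < n := by exact_mod_cast h5
    have hb : bus t (reg R) v (a n, k) ≤
        pt (reg R) t (a n, k) (v (m n)) - pt (reg R) t (v 0) (v (m n)) :=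
      bus_le ht hv (hreach _) (m n)
    have i1 : passageTime t (v 0) (v (m n)) ≤ pt (reg R) t (v 0) (v (m n)) := by
      rw [passageTime_eq_pt]
      exact pt_anti (reg_le R) ht hv.reachable
    have i2 := h1 _ h4 _ h3
    simp only [Function.comp_apply]
    rw [mu_sc hμ, mu_sc hμ]
    have : bus t (reg R) v (a n, k) ≤
        μ (toR (v (m n) - (a n, k))) - μ (toR (v (m n) - v 0)) + ε / 2 * n := by
      linarith
    calc L - ε / 2 ≤ bus t (reg R) v (a n, k) / n := h6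
      _ ≤ (μ (toR (v (m n) - (a n, k))) - μ (toR (v (m n) - v 0)) + ε / 2 * n) / n := by gcongr
      _ = μ (toR (v (m n) - (a n, k))) / n - μ (toR (v (m n) - v 0)) / n + ε / 2 := by
          field_simp
  linarith

/-- integer approximations of `α n` -/
theorem tendsto_floor_div (α : ℝ) {l : Filter ℕ} (hl : l ≤ atTop) :
    Tendsto (fun n : ℕ => (⌊α * n⌋ : ℝ) / n) l (𝓝 α) := by
  have h1 : Tendsto (fun n : ℕ => α - 1 / (n : ℝ)) atTop (𝓝 (α - 0)) :=
    tendsto_const_nhds.sub tendsto_one_div_atTop_nhds_zero_nat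
  rw [sub_zero] at h1
  refine Tendsto.mono_left ?_ hl
  refine tendsto_of_tendsto_of_tendsto_of_le_of_le' h1 tendsto_const_nhds ?_ ?_
  · filter_upwards [eventually_gt_atTop 0] with n hn
    have hn' : (0 : ℝ) < n := by exact_mod_cast hn
    rw [le_div_iff₀ hn', sub_mul, one_div, inv_mul_cancel₀ hn'.ne']
    linarith [Int.lt_floor_add_one (α * n)]
  · filter_upwards [eventually_gt_atTop 0] with n hn
    have hn' : (0 : ℝ) < n := by exact_mod_cast hn
    rw [div_le_iff₀ hn']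
    exact Int.floor_le _

/-- values of a function with a two-sided slope along `⌊α n⌋` -/
theorem tendsto_floor_of_slope {F : ℤ → ℝ} {p : ℝ} (h : HasSlope F p) {α : ℝ} (hα : α ≠ 0)
    {l : Filter ℕ} (hl : l ≤ atTop) :
    Tendsto (fun n : ℕ => F ⌊α * n⌋ / n) l (𝓝 (p * α)) := by
  have hfl := tendsto_floor_div α hl
  have hb : Tendsto (fun n : ℕ => F ⌊α * n⌋ / (⌊α * n⌋ : ℤ)) l (𝓝 p) := by
    rcases lt_or_gt_of_ne hα with hneg | hpos
    · have : Tendsto (fun n : ℕ => ⌊α * n⌋) l atBot := by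
        refine (tendsto_floor_atBot.comp ?_)
        exact ((tendsto_natCast_atTop_atTop (R := ℝ)).const_mul_atTop_of_neg hneg).mono_left hl
      exact h.bot.comp this
    · have : Tendsto (fun n : ℕ => ⌊α * n⌋) l atTop := by
        refine (tendsto_floor_atTop.comp ?_)
        exact ((tendsto_natCast_atTop_atTop (R := ℝ)).const_mul_atTop hpos).mono_left hl
      exact h.top.comp this
  refine (hb.mul hfl).congr' ?_
  have hne : ∀ᶠ n : ℕ in l, ((⌊α * n⌋ : ℤ) : ℝ) ≠ 0 := by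
    have := hfl.eventually_ne hα
    filter_upwards [this] with n hn h0
    rw [h0, zero_div] at hn
    exact hn rfl
  filter_upwards [hne] with n hn
  field_simp

/-- passage times of `reg R` from the row `k` to the ray are at most `μ + o(n)` -/
def RowUp (μ : ℝ × ℝ → ℝ) (t : Environment) (R : Set (ℤ × ℤ)) (k : ℤ) (l : Filter ℕ)
    (z : ℕ → ℤ × ℤ) : Prop :=
  ∀ α : ℝ, ∀ ε : ℝ, 0 < ε → ∀ᶠ n : ℕ in l,
    pt (reg R) t (⌊α * n⌋, k) (z n) ≤ μ (toR (z n - (⌊α * n⌋, k))) + ε * n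

section

variable {μ : ℝ × ℝ → ℝ} (hμ : B710.NormLike μ) {t : Environment} (ht : ∀ e, 0 ≤ t e)
  (hlow : LShape μ t) {l : Filter ℕ} (hl : l ≤ atTop) [l.NeBot] {R : Set (ℤ × ℤ)} {k : ℤ}
  {v : ℕ → ℤ × ℤ} (hv : IsRay t (reg R) v) (hreach : ∀ a : ℤ, (reg R).Reachable (a, k) (v 0))
  {m : ℕ → ℕ} (hm : ∀ᶠ n in l, v (m n) ∈ box n) {ζ : ℝ × ℝ}
  (hζ : Tendsto (fun n => sc n (v (m n))) l (𝓝 ζ)) (hd : DifferentiableAt ℝ μ ζ)
  (hup : RowUp μ t R k l fun n => v (m n)) {F : ℤ → ℝ} {p : ℝ} (hF : HasSlope F p)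

include hd

/-- if `p α ≤ μ(ζ - α e₁) - μ ζ` for small `α > 0` then `p ≤ -∂₁μ(ζ)` -/
theorem le_neg_of_pos (h : ∀ α : ℝ, 0 < α → p * α ≤ μ (ζ - (α, 0)) - μ ζ) :
    p ≤ -(fderiv ℝ μ ζ (1, 0)) := by
  have hder : HasDerivAt (fun α : ℝ => μ (ζ - (α, 0))) (-(fderiv ℝ μ ζ (1, 0))) 0 := by
    have h1 : HasDerivAt (fun α : ℝ => ζ - ((α, 0) : ℝ × ℝ)) (-(1, 0)) 0 := by
      have h2 : HasDerivAt (fun α : ℝ => ((α, 0) : ℝ × ℝ)) (1, 0) 0 :=
        (hasDerivAt_id (0 : ℝ)).prodMk (hasDerivAt_const (0 : ℝ) (0 : ℝ))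
      exact h2.const_sub ζ
    have h3 : HasFDerivAt μ (fderiv ℝ μ ζ) (ζ - ((0, 0) : ℝ × ℝ)) := by
      rw [Prod.mk_zero_zero, sub_zero]
      exact hd.hasFDerivAt
    have h4 := h3.comp_hasDerivAt (0 : ℝ) h1
    rwa [map_neg] at h4
  have hs := (hasDerivAt_iff_tendsto_slope.1 hder).mono_left
    (nhdsWithin_mono (0 : ℝ) (s := Set.Ioi 0) (t := {0}ᶜ) fun x hx => ne_of_gt hx)
  refine ge_of_tendsto hs ?_
  filter_upwards [self_mem_nhdsWithin] with α hα
  have hα0 : 0 < α := hα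
  rw [slope_def_field, le_div_iff₀ (by linarith)]
  have := h α hα0
  simp only [Prod.mk_zero_zero, sub_zero]
  linarith

/-- if `-q α ≤ μ(ζ + α e₁) - μ ζ` for small `α > 0` then `-∂₁μ(ζ) ≤ q` -/
theorem neg_le_of_pos {q : ℝ} (h : ∀ α : ℝ, 0 < α → q * (-α) ≤ μ (ζ - (-α, 0)) - μ ζ) :
    -(fderiv ℝ μ ζ (1, 0)) ≤ q := by
  have hder : HasDerivAt (fun α : ℝ => μ (ζ - (-α, 0))) (fderiv ℝ μ ζ (1, 0)) 0 := by
    have h1 : HasDerivAt (fun α : ℝ => ζ - ((-α, 0) : ℝ × ℝ)) (-(-1, 0)) 0 := by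
      have h2 : HasDerivAt (fun α : ℝ => ((-α, 0) : ℝ × ℝ)) (-1, 0) 0 :=
        (hasDerivAt_id (0 : ℝ)).neg.prodMk (hasDerivAt_const (0 : ℝ) (0 : ℝ))
      exact h2.const_sub ζ
    have h3 : HasFDerivAt μ (fderiv ℝ μ ζ) (ζ - ((-0, 0) : ℝ × ℝ)) := by
      rw [neg_zero, Prod.mk_zero_zero, sub_zero]
      exact hd.hasFDerivAt
    have h4 := h3.comp_hasDerivAt (0 : ℝ) h1
    have e : -((-1, 0) : ℝ × ℝ) = (1, 0) := by simp
    rwa [e] at h4
  have hs := (hasDerivAt_iff_tendsto_slope.1 hder).mono_left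
    (nhdsWithin_mono (0 : ℝ) (s := Set.Ioi 0) (t := {0}ᶜ) fun x hx => ne_of_gt hx)
  have : -q ≤ fderiv ℝ μ ζ (1, 0) := by
    refine ge_of_tendsto hs ?_
    filter_upwards [self_mem_nhdsWithin] with α hα
    have hα0 : 0 < α := hα
    rw [slope_def_field, le_div_iff₀ (by linarith)]
    have := h α hα0
    simp only [neg_zero, Prod.mk_zero_zero, sub_zero]
    linarith
  linarith

include hμ ht hlow hl hv hreach hm hζ hup hF

/-- **(C1)** increments of the Busemann function at most those of `F` -/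
theorem neg_deriv_le_of_inc_le (hle : ∀ x, inc (fun a => bus t (reg R) v (a, k)) x ≤ inc F x) :
    -(fderiv ℝ μ ζ (1, 0)) ≤ p := by
  refine neg_le_of_pos hd fun α hα => ?_
  have h1 := tendsto_floor_of_slope hF (α := -α) (by linarith) hl
  refine bus_limit_le hμ ht hlow hl hv hreach hm hζ (a := fun n => ⌊-α * n⌋)
    (tendsto_floor_div _ hl) (hup (-α)) ?_
  intro L' hL'
  -- `bus (a) ≥ F a - F 0 + bus 0` for `a ≤ 0`
  have h2 : Tendsto (fun n : ℕ => F ⌊-α * n⌋ / n + (bus t (reg R) v (0, k) - F 0) / n) l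
      (𝓝 (p * (-α) + 0)) :=
    h1.add ((tendsto_const_div_atTop_nhds_zero_nat _).mono_left hl)
  rw [add_zero] at h2
  filter_upwards [h2.eventually_const_lt hL', hl (eventually_gt_atTop 0)] with n hn hn0
  have hn' : (0 : ℝ) < n := by exact_mod_cast hn0
  refine hn.le.trans ?_
  rw [← add_div]
  gcongr
  have hneg : ⌊-α * n⌋ ≤ 0 := by
    have h3 : (⌊-α * (n : ℝ)⌋ : ℝ) ≤ -α * n := Int.floor_le _
    have h4 : -α * (n : ℝ) ≤ 0 := by nlinarith
    exact_mod_cast h3.trans h4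
  have := sub_le_sub_of_inc_le hle hneg
  linarith

/-- **(C2)** increments of the Busemann function at least those of `F` -/
theorem le_neg_deriv_of_inc_ge (hle : ∀ x, inc F x ≤ inc (fun a => bus t (reg R) v (a, k)) x) :
    p ≤ -(fderiv ℝ μ ζ (1, 0)) := by
  refine le_neg_of_pos hd fun α hα => ?_
  have h1 := tendsto_floor_of_slope hF (α := α) hα.ne' hl
  refine bus_limit_le hμ ht hlow hl hv hreach hm hζ (a := fun n => ⌊α * n⌋)
    (tendsto_floor_div _ hl) (hup α) ?_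
  intro L' hL'
  have h2 : Tendsto (fun n : ℕ => F ⌊α * n⌋ / n + (bus t (reg R) v (0, k) - F 0) / n) l
      (𝓝 (p * α + 0)) :=
    h1.add ((tendsto_const_div_atTop_nhds_zero_nat _).mono_left hl)
  rw [add_zero] at h2
  filter_upwards [h2.eventually_const_lt hL', hl (eventually_gt_atTop 0)] with n hn hn0
  have hn' : (0 : ℝ) < n := by exact_mod_cast hn0
  refine hn.le.trans ?_
  rw [← add_div]
  gcongr
  have hpos : (0 : ℤ) ≤ ⌊α * n⌋ := Int.floor_nonneg.2 (by positivity)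
  have := sub_le_sub_of_inc_le hle hpos
  linarith

end

end Crest.Agent.R151.SL
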