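import Mathlib
import Crest.Agent.R151.SL856a
import Crest.Agent.R151.Y635D

/-!
# R151/SL856b — rays in a cone have non extreme slopes (owner helper856), deterministic

* `slopeAt μ C = ∂₁μ(C,1)`; `slopeAt_lt` : if `μ(1,0) C < μ(C,1)` it is `< μ(1,0)`;
  `abs_fderiv_le` : `|∂₁μ(ζ)| ≤ slopeAt μ C` in the double cone `|x| ≤ C |y|`.
* `exitIdx`, `exists_limit_dir` : limit directions of a ray in a cone.
* `BUp` : passage times of a half plane from its boundary row to interior points.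
* `neg_le_slope_of_inc_le`, `slope_le_of_inc_ge` : comparison of Busemann functions.
-/

set_option autoImplicit false

open Crest.ProbabilityR.FirstPassage
open Filter Set
open scoped Topology

namespace Crest.Agent.R151.SL

open Y H K SEL

section norm

variable {μ : ℝ × ℝ → ℝ} (hμ : B710.NormLike μ) (hrefl : ∀ x y, μ (-x, y) = μ (x, y))
  (hd : ∀ v : ℝ × ℝ, v ≠ 0 → DifferentiableAt ℝ μ v)

/-- the derivative of `x ↦ μ (x, 1)` -/
noncomputable def slopeAt (μ : ℝ × ℝ → ℝ) (C : ℝ) : ℝ := fderiv ℝ μ (C, 1) (1, 0)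

include hd in
theorem hasDerivAt_fst {ζ : ℝ × ℝ} (hζ : ζ ≠ 0) :
    HasDerivAt (fun x : ℝ => μ (x, ζ.2)) (fderiv ℝ μ ζ (1, 0)) ζ.1 := by
  have h1 : HasDerivAt (fun x : ℝ => ((x, ζ.2) : ℝ × ℝ)) (1, 0) ζ.1 :=
    (hasDerivAt_id ζ.1).prodMk (hasDerivAt_const ζ.1 ζ.2)
  have h2 : HasFDerivAt μ (fderiv ℝ μ ζ) ((ζ.1, ζ.2) : ℝ × ℝ) := (hd ζ hζ).hasFDerivAt
  exact h2.comp_hasDerivAt ζ.1 h1

include hd in
theorem hasDerivAt_slice (x : ℝ) : HasDerivAt (fun x : ℝ => μ (x, 1)) (slopeAt μ x) x :=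
  hasDerivAt_fst hd (ζ := (x, 1)) (by simp)

include hμ in
theorem convexOn_slice : ConvexOn ℝ univ fun x : ℝ => μ (x, 1) := by
  refine ⟨convex_univ, fun x _ y _ a b ha hb hab => ?_⟩
  have h1 : ((a • x + b • y, 1) : ℝ × ℝ) = a • (x, 1) + b • (y, 1) := by
    refine Prod.ext ?_ ?_
    · simp
    · simp [hab]
  simp only
  rw [h1]
  refine (hμ.add _ _).trans ?_
  rw [hμ.smul _ _ ha, hμ.smul _ _ hb]
  simp

include hμ hd in
theorem slopeAt_mono : Monotone (slopeAt μ) := by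
  have h := (convexOn_slice hμ).monotoneOn_deriv (fun x _ => (hasDerivAt_slice hd x).differentiableAt)
  intro x y hxy
  have := h (mem_univ x) (mem_univ y) hxy
  rwa [(hasDerivAt_slice hd x).deriv, (hasDerivAt_slice hd y).deriv] at this

include hrefl hd in
theorem slopeAt_neg (x : ℝ) : slopeAt μ (-x) = -slopeAt μ x := by
  have h1 : HasDerivAt (fun y : ℝ => μ (-y, 1)) (-(slopeAt μ (-x))) x := by
    have := (hasDerivAt_slice hd (-x)).comp x (hasDerivAt_neg x)
    rw [mul_neg_one] at this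
    exact this
  have h2 : (fun y : ℝ => μ (-y, 1)) = fun y => μ (y, 1) := by
    funext y
    exact hrefl y 1
  rw [h2] at h1
  have := h1.unique (hasDerivAt_slice hd x)
  linarith

include hμ hd in
/-- homogeneity of degree `0` -/
theorem fderiv_eq_slopeAt {ζ : ℝ × ℝ} (hζ : 0 < ζ.2) :
    fderiv ℝ μ ζ (1, 0) = slopeAt μ (ζ.1 / ζ.2) := by
  have hne : ζ ≠ 0 := by
    rintro rfl
    simp at hζ
  have h1 := hasDerivAt_fst hd hne
  have h2 : HasDerivAt (fun x : ℝ => ζ.2 * μ (x / ζ.2, 1))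
      (ζ.2 * (slopeAt μ (ζ.1 / ζ.2) * (1 / ζ.2))) ζ.1 := by
    have h3 : HasDerivAt (fun x : ℝ => x / ζ.2) (1 / ζ.2) ζ.1 := (hasDerivAt_id ζ.1).div_const ζ.2
    exact ((hasDerivAt_slice hd (ζ.1 / ζ.2)).comp ζ.1 h3).const_mul ζ.2
  have h4 : (fun x : ℝ => ζ.2 * μ (x / ζ.2, 1)) = fun x => μ (x, ζ.2) := by
    funext x
    rw [← hμ.smul _ _ hζ.le]
    congr 1
    refine Prod.ext ?_ ?_
    · simp only [Prod.smul_fst, smul_eq_mul]
      field_simp
    · simp
  rw [h4] at h2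
  rw [h1.unique h2]
  field_simp

include hμ hrefl hd in
theorem slopeAt_lt {C : ℝ} (hC : μ (1, 0) * C < μ (C, 1)) : slopeAt μ C < μ (1, 0) := by
  by_contra hcon
  push Not at hcon
  -- `μ (y, 1) - μ(1,0) y → 0`
  have hlim : Tendsto (fun y : ℝ => μ (y, 1) - μ (1, 0) * y) atTop (𝓝 0) := by
    have hne : ((1, 0) : ℝ × ℝ) ≠ 0 := by simp
    have h1 : HasDerivAt (fun s : ℝ => μ (1, s)) (fderiv ℝ μ (1, 0) (0, 1)) 0 := by
      have h2 : HasDerivAt (fun s : ℝ => ((1, s) : ℝ × ℝ)) (0, 1) 0 :=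
        (hasDerivAt_const (0 : ℝ) (1 : ℝ)).prodMk (hasDerivAt_id (0 : ℝ))
      exact (hd _ hne).hasFDerivAt.comp_hasDerivAt (0 : ℝ) h2
    have hev : (fun s : ℝ => μ (1, -s)) = fun s => μ (1, s) := by
      funext s
      have e1 := hμ.neg (1, -s)
      have e2 := hrefl 1 s
      simp only [Prod.neg_mk, neg_neg] at e1
      rw [← e1, e2]
    have h0 : fderiv ℝ μ (1, 0) (0, 1) = 0 := by
      have h3 : HasDerivAt (fun s : ℝ => μ (1, -s)) (-(fderiv ℝ μ (1, 0) (0, 1))) 0 := by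
        have h1' : HasDerivAt (fun s : ℝ => μ (1, s)) (fderiv ℝ μ (1, 0) (0, 1)) (-0) := by
          rwa [neg_zero]
        have := h1'.comp (0 : ℝ) (hasDerivAt_neg (0 : ℝ))
        rw [mul_neg_one] at this
        exact this
      rw [hev] at h3
      have := h3.unique h1
      linarith
    rw [h0] at h1
    have hs := (hasDerivAt_iff_tendsto_slope.1 h1).comp
      (tendsto_inv_atTop_nhdsGT_zero.mono_right (nhdsWithin_mono (0 : ℝ) (s := Set.Ioi 0)
        (t := {0}ᶜ) fun x hx => ne_of_gt hx))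
    refine hs.congr' ?_
    filter_upwards [eventually_gt_atTop 0] with y hy
    simp only [Function.comp_apply, slope_def_field, sub_zero, div_inv_eq_mul]
    have e1 : μ (y, 1) = y * μ (1, y⁻¹) := by
      rw [← hμ.smul _ _ hy.le]
      congr 1
      refine Prod.ext ?_ ?_
      · simp
      · simp only [Prod.smul_snd, smul_eq_mul]
        field_simp
    rw [e1]
    ring
  -- tangent line at `C`
  have htan : ∀ y, C ≤ y → μ (C, 1) - μ (1, 0) * C ≤ μ (y, 1) - μ (1, 0) * y := by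
    intro y hy
    rcases eq_or_lt_of_le hy with rfl | hy
    · exact le_rfl
    have h1 := (convexOn_slice hμ).le_slope_of_hasDerivAt (mem_univ C) (mem_univ y) hy
      (hasDerivAt_slice hd C)
    rw [slope_def_field, le_div_iff₀ (by linarith)] at h1
    have := mul_le_mul_of_nonneg_right hcon (by linarith : (0 : ℝ) ≤ y - C)
    linarith
  have := ge_of_tendsto hlim (eventually_ge_atTop C |>.mono fun y hy => htan y hy)
  linarith

include hμ hrefl hd in
theorem abs_fderiv_le {C : ℝ} {ζ : ℝ × ℝ} (hζ : ζ ≠ 0) (h : |ζ.1| ≤ C * |ζ.2|) :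
    |fderiv ℝ μ ζ (1, 0)| ≤ slopeAt μ C := by
  have hζ2 : ζ.2 ≠ 0 := by
    intro h0
    rw [h0, abs_zero, mul_zero] at h
    have : ζ.1 = 0 := abs_eq_zero.1 (le_antisymm h (abs_nonneg _))
    exact hζ (Prod.ext this h0)
  have key : ∀ ξ : ℝ × ℝ, 0 < ξ.2 → |ξ.1| ≤ C * ξ.2 → |fderiv ℝ μ ξ (1, 0)| ≤ slopeAt μ C := by
    intro ξ hξ h1
    rw [fderiv_eq_slopeAt hμ hd hξ, abs_le]
    have h2 : |ξ.1 / ξ.2| ≤ C := by
      rw [abs_div, abs_of_pos hξ, div_le_iff₀ hξ]
      exact h1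
    rw [abs_le] at h2
    constructor
    · rw [← slopeAt_neg hrefl hd]
      exact slopeAt_mono hμ hd h2.1
    · exact slopeAt_mono hμ hd h2.2
  rcases lt_or_gt_of_ne hζ2 with hneg | hpos
  · -- `μ (ζ) = μ (-ζ)`
    have h1 := key (-ζ) (by simpa using hneg) (by
      rw [abs_of_neg hneg] at h
      simpa using h)
    have h3 : HasFDerivAt μ (fderiv ℝ μ (-ζ)) (-ζ) := (hd _ (neg_ne_zero.2 hζ)).hasFDerivAt
    have h4 := h3.comp ζ ((hasFDerivAt_id ζ).neg)
    have h6 : (μ ∘ (Neg.neg : ℝ × ℝ → ℝ × ℝ)) = μ := by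
      funext x
      exact hμ.neg x
    rw [h6] at h4
    have h7 := h4.fderiv
    rw [h7]
    have h8 : (fderiv ℝ μ (-ζ)) (-(1, 0)) = -(fderiv ℝ μ (-ζ) (1, 0)) := map_neg _ _
    change |(fderiv ℝ μ (-ζ)) (-(1, 0))| ≤ _
    rw [h8, abs_neg]
    exact h1
  · exact key ζ hpos (by rwa [abs_of_pos hpos] at h)

end norm

/-! ### exit indices -/

/-- sup norm of a lattice point -/
def mx (x : ℤ × ℤ) : ℕ := max x.1.natAbs x.2.natAbs

theorem mem_box_iff_mx {n : ℕ} {x : ℤ × ℤ} : x ∈ box n ↔ mx x ≤ n := by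
  rw [mem_box, mx]
  omega

theorem mx_adj {x y : ℤ × ℤ} (h : squareLattice.Adj x y) : mx y ≤ mx x + 1 := by
  have h1 := adj_snd_le h
  have h2 := adj_fst_le h
  have h3 := adj_neg_snd_le h
  have h4 := adj_neg_fst_le h
  unfold mx
  omega

/-- first index at which the path has sup norm `≥ n` -/
noncomputable def exitIdx (v : ℕ → ℤ × ℤ) (n : ℕ) : ℕ := sInf {i | n ≤ mx (v i)}

theorem exists_mx_ge {v : ℕ → ℤ × ℤ} (hinj : Function.Injective v) (n : ℕ) : ∃ i, n ≤ mx (v i) := by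
  by_contra hcon
  push Not at hcon
  have : Set.range v ⊆ (box n : Set (ℤ × ℤ)) := by
    rintro _ ⟨i, rfl⟩
    rw [Finset.mem_coe, mem_box_iff_mx]
    exact (hcon i).le
  exact (Set.infinite_range_of_injective hinj) ((Finset.finite_toSet _).subset this)

theorem mx_exitIdx {v : ℕ → ℤ × ℤ} (hinj : Function.Injective v)
    (hadj : ∀ i, squareLattice.Adj (v i) (v (i + 1))) {n : ℕ} (hn : mx (v 0) ≤ n) :
    mx (v (exitIdx v n)) = n := by
  have h1 : n ≤ mx (v (exitIdx v n)) := Nat.sInf_mem (exists_mx_ge hinj n)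
  refine le_antisymm ?_ h1
  rcases Nat.eq_zero_or_pos (exitIdx v n) with h0 | h0
  · rw [h0]
    exact hn
  · have h2 : ¬ n ≤ mx (v (exitIdx v n - 1)) := by
      intro h
      have : exitIdx v n ≤ exitIdx v n - 1 := Nat.sInf_le h
      omega
    have h3 := mx_adj (hadj (exitIdx v n - 1))
    rw [show exitIdx v n - 1 + 1 = exitIdx v n by omega] at h3
    omega

theorem tendsto_exitIdx {v : ℕ → ℤ × ℤ} (hinj : Function.Injective v) :
    Tendsto (exitIdx v) atTop atTop := by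
  rw [tendsto_atTop]
  intro b
  -- the first `b` points have bounded norm
  filter_upwards [eventually_gt_atTop ((Finset.range b).sup fun i => mx (v i))] with n hn
  by_contra hcon
  push Not at hcon
  have h1 : n ≤ mx (v (exitIdx v n)) := Nat.sInf_mem (exists_mx_ge hinj n)
  have h2 : mx (v (exitIdx v n)) ≤ (Finset.range b).sup fun i => mx (v i) :=
    Finset.le_sup (f := fun i => mx (v i)) (Finset.mem_range.2 hcon)
  omega

theorem norm_sc {n : ℕ} (hn : 0 < n) {x : ℤ × ℤ} (hx : mx x = n) : ‖sc n x‖ = 1 := by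
  have hn' : (0 : ℝ) < n := by exact_mod_cast hn
  unfold sc
  rw [norm_smul, Real.norm_eq_abs, abs_of_pos (by positivity)]
  have : ‖toR x‖ = n := by
    rw [← hx]
    unfold toR mx
    rw [Prod.norm_mk, Real.norm_eq_abs, Real.norm_eq_abs, Nat.cast_max, Nat.cast_natAbs,
      Nat.cast_natAbs]
    push_cast
    rfl
  rw [this]
  field_simp

/-- limit directions along an ultrafilter of scales -/
theorem exists_limit_dir {v : ℕ → ℤ × ℤ} (hinj : Function.Injective v)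
    (hadj : ∀ i, squareLattice.Adj (v i) (v (i + 1))) :
    ∃ (U : Ultrafilter ℕ) (ζ : ℝ × ℝ), (U : Filter ℕ) ≤ atTop ∧ ‖ζ‖ = 1 ∧
      Tendsto (fun n => sc n (v (exitIdx v n))) U (𝓝 ζ) := by
  set U : Ultrafilter ℕ := Ultrafilter.of atTop with hU
  have hle : (U : Filter ℕ) ≤ atTop := Ultrafilter.of_le _
  have hsph : IsCompact (Metric.sphere (0 : ℝ × ℝ) 1) := isCompact_sphere 0 1
  have hmem : ∀ᶠ n in (U : Filter ℕ), sc n (v (exitIdx v n)) ∈ Metric.sphere (0 : ℝ × ℝ) 1 := by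
    refine hle ?_
    filter_upwards [eventually_ge_atTop (mx (v 0) + 1)] with n hn
    rw [mem_sphere_zero_iff_norm]
    exact norm_sc (by omega) (mx_exitIdx hinj hadj (by omega))
  obtain ⟨ζ, hζ, hlim⟩ := hsph.ultrafilter_le_nhds (U.map fun n => sc n (v (exitIdx v n)))
    (le_principal_iff.2 hmem)
  exact ⟨U, ζ, hle, by simpa using hζ, hlim⟩

/-- boundary to interior passage times of a half plane; `h` is the height function -/
def BUp (μ : ℝ × ℝ → ℝ) (t : Environment) (R : Set (ℤ × ℤ)) (k : ℤ) (h : ℤ × ℤ → ℤ) : Prop :=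
  ∀ α : ℝ, ∀ ε : ℝ, 0 < ε → ∀ δ : ℝ, 0 < δ → ∀ᶠ n : ℕ in atTop, ∀ y ∈ box n, δ * n ≤ h y →
    pt (reg R) t (⌊α * n⌋, k) y ≤ μ (toR (y - (⌊α * n⌋, k))) + ε * n

section ray

variable {μ : ℝ × ℝ → ℝ} (hμ : B710.NormLike μ) (hrefl : ∀ x y, μ (-x, y) = μ (x, y))
  (hd : ∀ v : ℝ × ℝ, v ≠ 0 → DifferentiableAt ℝ μ v) {t : Environment} (ht : ∀ e, 0 < t e)
  (hlow : LShape μ t) {R : Set (ℤ × ℤ)} {k : ℤ} {h : ℤ × ℤ → ℤ} (hh : ∀ x, |h x| = |x.2|)
  (hup : BUp μ t R k h) {v : ℕ → ℤ × ℤ} (hv : IsRay t (reg R) v)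
  (hreach : ∀ a : ℤ, (reg R).Reachable (a, k) (v 0)) {C : ℝ} (hC : 0 < C)
  (hcone : ∀ᶠ n in atTop, |((v n).1 : ℝ)| ≤ C * h (v n))

include ht hh hup hv hC hcone

theorem exists_dir : ∃ (U : Ultrafilter ℕ) (ζ : ℝ × ℝ), (U : Filter ℕ) ≤ atTop ∧ ζ ≠ 0 ∧
    |ζ.1| ≤ C * |ζ.2| ∧ Tendsto (fun n => sc n (v (exitIdx v n))) U (𝓝 ζ) ∧
    (∀ᶠ n in (U : Filter ℕ), v (exitIdx v n) ∈ box n) ∧
    RowUp μ t R k U fun n => v (exitIdx v n) := by
  have hadj : ∀ i, squareLattice.Adj (v i) (v (i + 1)) := fun i => (reg_le R) (hv.adj i)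
  have hinj := hv.injective ht
  obtain ⟨U, ζ, hU, hζ, hlim⟩ := exists_limit_dir hinj hadj
  have hbox : ∀ᶠ n in (U : Filter ℕ), v (exitIdx v n) ∈ box n ∧ mx (v (exitIdx v n)) = n := by
    refine hU ?_
    filter_upwards [eventually_ge_atTop (mx (v 0))] with n hn
    have := mx_exitIdx hinj hadj hn
    exact ⟨by rw [mem_box_iff_mx, this], this⟩
  have hcone' : ∀ᶠ n in (U : Filter ℕ),
      |((v (exitIdx v n)).1 : ℝ)| ≤ C * h (v (exitIdx v n)) :=
    hU ((tendsto_exitIdx hinj).eventually hcone)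
  refine ⟨U, ζ, hU, ?_, ?_, hlim, hbox.mono fun n hn => hn.1, ?_⟩
  · intro h0
    rw [h0] at hζ
    simp at hζ
  · have h1 : Tendsto (fun n => |(sc n (v (exitIdx v n))).1|) U (𝓝 |ζ.1|) :=
      ((continuous_fst.tendsto ζ).comp hlim).abs
    have h2 : Tendsto (fun n => C * |(sc n (v (exitIdx v n))).2|) U (𝓝 (C * |ζ.2|)) :=
      (((continuous_snd.tendsto ζ).comp hlim).abs).const_mul C
    refine le_of_tendsto_of_tendsto h1 h2 ?_
    filter_upwards [hcone', hU (eventually_gt_atTop 0)] with n hn hn0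
    have hn' : (0 : ℝ) < n := by exact_mod_cast hn0
    have e1 : (sc n (v (exitIdx v n))).1 = (v (exitIdx v n)).1 / n := by
      simp [sc, toR]; ring
    have e2 : (sc n (v (exitIdx v n))).2 = (v (exitIdx v n)).2 / n := by
      simp [sc, toR]; ring
    rw [e1, e2, abs_div, abs_div, abs_of_pos hn', ← mul_div_assoc]
    gcongr
    refine hn.trans (mul_le_mul_of_nonneg_left ?_ hC.le)
    refine (le_abs_self _).trans ?_
    have := hh (v (exitIdx v n))
    have h3 : |((h (v (exitIdx v n)) : ℤ) : ℝ)| = |((v (exitIdx v n)).2 : ℝ)| := by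
      exact_mod_cast congrArg (Int.cast (R := ℝ)) this
    rw [h3]
  · intro α ε hε
    have h1 := hU (hup α ε hε (1 / (C + 1)) (by positivity))
    filter_upwards [h1, hbox, hcone', hU (eventually_gt_atTop 0)] with n hn hb hc hn0
    refine hn _ hb.1 ?_
    have hn' : (0 : ℝ) < n := by exact_mod_cast hn0
    have hC1 : 0 < C + 1 := by linarith
    rw [one_div, inv_mul_le_iff₀ hC1]
    have hnonneg : (0 : ℝ) ≤ h (v (exitIdx v n)) := by
      by_contra hneg
      push Not at hneg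
      have h4 : C * (h (v (exitIdx v n)) : ℝ) < 0 := mul_neg_of_pos_of_neg hC hneg
      exact absurd ((abs_nonneg _).trans hc) (not_le.2 h4)
    have h2 : |((v (exitIdx v n)).2 : ℝ)| = h (v (exitIdx v n)) := by
      rw [← abs_of_nonneg hnonneg]
      exact_mod_cast (congrArg (Int.cast (R := ℝ)) (hh (v (exitIdx v n)))).symm
    have h3 : (n : ℝ) = max |((v (exitIdx v n)).1 : ℝ)| |((v (exitIdx v n)).2 : ℝ)| := by
      conv_lhs => rw [← hb.2]
      unfold mx
      rw [Nat.cast_max, Nat.cast_natAbs, Nat.cast_natAbs]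
      push_cast
      rfl
    rw [h3, max_le_iff]
    constructor
    · linarith
    · rw [h2]
      nlinarith

include hμ hrefl hd hlow hreach

/-- increments of the Busemann function at most those of `F` ⟹ slope of `F` at least `-∂₁μ(C,1)` -/
theorem neg_slopeAt_le {F : ℤ → ℝ} {p : ℝ} (hF : HasSlope F p)
    (hle : ∀ x, inc (fun a => bus t (reg R) v (a, k)) x ≤ inc F x) : -(slopeAt μ C) ≤ p := by
  obtain ⟨U, ζ, hU, hζ, hc, hlim, hbox, hrow⟩ :=
    exists_dir ht hh hup hv hC hcone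
  have h1 := neg_deriv_le_of_inc_le hμ (fun e => (ht e).le) hlow hU hv hreach hbox hlim (hd ζ hζ)
    hrow hF hle
  have h2 := abs_le.1 (abs_fderiv_le hμ hrefl hd hζ hc)
  linarith [h2.2]

/-- increments of the Busemann function at least those of `F` ⟹ slope of `F` at most `∂₁μ(C,1)` -/
theorem le_slopeAt {F : ℤ → ℝ} {p : ℝ} (hF : HasSlope F p)
    (hle : ∀ x, inc F x ≤ inc (fun a => bus t (reg R) v (a, k)) x) : p ≤ slopeAt μ C := by
  obtain ⟨U, ζ, hU, hζ, hc, hlim, hbox, hrow⟩ :=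
    exists_dir ht hh hup hv hC hcone
  have h1 := le_neg_deriv_of_inc_ge hμ (fun e => (ht e).le) hlow hU hv hreach hbox hlim (hd ζ hζ)
    hrow hF hle
  have h2 := abs_le.1 (abs_fderiv_le hμ hrefl hd hζ hc)
  linarith [h2.1]

/-- every two-sided slope is at most `∂₁μ(C,1)` in absolute value -/
theorem abs_slope_le {σ : ℝ} (hσ : HasSlope (fun a => bus t (reg R) v (a, k)) σ) :
    |σ| ≤ slopeAt μ C :=
  abs_le.2 ⟨neg_slopeAt_le hμ hrefl hd ht hlow hh hup hv hreach hC hcone hσ fun _ => le_rfl,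
    le_slopeAt hμ hrefl hd ht hlow hh hup hv hreach hC hcone hσ fun _ => le_rfl⟩

end ray

end Crest.Agent.R151.SL
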