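import Mathlib
import Crest.Agent.R151.SL856b
import Crest.Agent.R151.D411d
import Crest.Agent.R151.H617f

/-!
# R151/SL856c — slopes of bigeodesics (owner helper856), deterministic (fixed environment)

`EnvOK μ t` : positive weights, uniform shape theorem, boundary-to-interior upper bounds in all
half planes, columns bounded infinitely often.  For a bigeodesic `v` with `ProperUp C0 v`,
`μ(1,0) C0 < μ(C0,1)`, whose upper / lower Busemann functions are sandwiched in monotone families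
with slopes `∓p`: ONE number `s`, `|s| ≤ slopeAt μ C0 < μ(1,0)`, is the label of the upper and of the
lower function on every level, the functions have the two-sided slopes `-s` and `s`.
-/

set_option autoImplicit false

open Crest.ProbabilityR.FirstPassage
open Filter Set
open scoped Topology

namespace Crest.Agent.R151.SL

open Y H K SEL

/-- what is needed of the environment -/
structure EnvOK (μ : ℝ × ℝ → ℝ) (t : Environment) : Prop where
  pos : ∀ e, 0 < t e
  ush : D411.UShape μ t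
  bup : ∀ k, BUp μ t (Up k) k fun z => z.2
  bdn : ∀ k, BUp μ t (Dn k) k fun z => -z.2
  col : ∀ j k : ℤ, ∃ M : ℝ, (∃ᶠ a : ℤ in atTop, passageTime t (a, j) (a, k) ≤ M) ∧
    ∃ᶠ a : ℤ in atBot, passageTime t (a, j) (a, k) ≤ M

theorem EnvOK.nonneg {μ : ℝ × ℝ → ℝ} {t : Environment} (h : EnvOK μ t) : ∀ e, 0 ≤ t e :=
  fun e => (h.pos e).le

theorem EnvOK.low {μ : ℝ × ℝ → ℝ} {t : Environment} (h : EnvOK μ t) : LShape μ t :=
  lShape_of_dev h.ush

theorem updown_of_properUp {C : ℝ} {v : ℤ → ℤ × ℤ} (h : D411.ProperUp C v) : UpDown v :=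
  ⟨h.2.2.1, h.2.2.2⟩

theorem tailU_cone {C : ℝ} {v : ℤ → ℤ × ℤ} (h : D411.ProperUp C v) (k : ℤ) :
    ∀ᶠ n in atTop, |((tailU k v n).1 : ℝ)| ≤ C * ((tailU k v n).2 : ℤ) := by
  have h1 : Tendsto (fun n : ℕ => entU k v + (n : ℤ)) atTop atTop :=
    tendsto_atTop_add_const_left _ _ tendsto_natCast_atTop_atTop
  exact h1.eventually h.1

theorem tailD_cone {C : ℝ} {v : ℤ → ℤ × ℤ} (h : D411.ProperUp C v) (k : ℤ) :
    ∀ᶠ n in atTop, |((tailD k v n).1 : ℝ)| ≤ C * ((-(tailD k v n).2 : ℤ) : ℝ) := by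
  have h1 : Tendsto (fun n : ℕ => entD k v - (n : ℤ)) atTop atBot := by
    have h2 : Tendsto (fun n : ℕ => (n : ℤ) - entD k v) atTop atTop :=
      tendsto_atTop_add_const_right _ _ tendsto_natCast_atTop_atTop
    refine (tendsto_neg_atTop_atBot.comp h2).congr fun n => ?_
    simp
  filter_upwards [h1.eventually h.2.1] with n hn
  refine hn.trans_eq ?_
  unfold tailD
  push_cast
  ring

theorem tailU_mem {v : ℤ → ℤ × ℤ} (h : UpDown v) (k : ℤ) (n : ℕ) : k ≤ (tailU k v n).2 :=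
  h.entU_spec (by omega)

theorem tailD_mem {v : ℤ → ℤ × ℤ} (h : UpDown v) (k : ℤ) (n : ℕ) : (tailD k v n).2 ≤ k :=
  h.entD_spec (by omega)

section

variable {μ : ℝ × ℝ → ℝ} (hμ : D411.SmoothNorm μ) {C : ℝ} (hC : 0 < C) {t : Environment}
  (ht : EnvOK μ t) {v : ℤ → ℤ × ℤ} (hv : IsBigeodesic t v) (hup : D411.ProperUp C v)

include hμ hC ht hv hup

theorem fU_neg_le {k : ℤ} {F : ℤ → ℝ} {p : ℝ} (hF : HasSlope F p)
    (hle : ∀ x, inc (fun a => fU t k v (a, k)) x ≤ inc F x) : -(slopeAt μ C) ≤ p :=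
  neg_slopeAt_le hμ.norm hμ.refl hμ.diff ht.pos ht.low (h := fun z => z.2) (fun _ => rfl) (ht.bup k)
    (isRay_tailU hv ht.nonneg (updown_of_properUp hup) k)
    (fun _ => reach_up le_rfl (tailU_mem (updown_of_properUp hup) k 0)) hC (tailU_cone hup k) hF hle

theorem fU_le {k : ℤ} {F : ℤ → ℝ} {p : ℝ} (hF : HasSlope F p)
    (hle : ∀ x, inc F x ≤ inc (fun a => fU t k v (a, k)) x) : p ≤ slopeAt μ C :=
  le_slopeAt hμ.norm hμ.refl hμ.diff ht.pos ht.low (h := fun z => z.2) (fun _ => rfl) (ht.bup k)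
    (isRay_tailU hv ht.nonneg (updown_of_properUp hup) k)
    (fun _ => reach_up le_rfl (tailU_mem (updown_of_properUp hup) k 0)) hC (tailU_cone hup k) hF hle

theorem fD_neg_le {k : ℤ} {F : ℤ → ℝ} {p : ℝ} (hF : HasSlope F p)
    (hle : ∀ x, inc (fun a => fD t k v (a, k)) x ≤ inc F x) : -(slopeAt μ C) ≤ p :=
  neg_slopeAt_le hμ.norm hμ.refl hμ.diff ht.pos ht.low (h := fun z => -z.2) (fun x => abs_neg _)
    (ht.bdn k) (isRay_tailD hv ht.nonneg (updown_of_properUp hup) k)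
    (fun _ => reach_dn le_rfl (tailD_mem (updown_of_properUp hup) k 0)) hC (tailD_cone hup k) hF hle

theorem fD_le {k : ℤ} {F : ℤ → ℝ} {p : ℝ} (hF : HasSlope F p)
    (hle : ∀ x, inc F x ≤ inc (fun a => fD t k v (a, k)) x) : p ≤ slopeAt μ C :=
  le_slopeAt hμ.norm hμ.refl hμ.diff ht.pos ht.low (h := fun z => -z.2) (fun x => abs_neg _)
    (ht.bdn k) (isRay_tailD hv ht.nonneg (updown_of_properUp hup) k)
    (fun _ => reach_dn le_rfl (tailD_mem (updown_of_properUp hup) k 0)) hC (tailD_cone hup k) hF hle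

/-- the label of the upper function is in the compact interval -/
theorem abs_label_le_U {D : Set ℝ} {f : ℝ → ℤ → ℝ} {k : ℤ} {s : ℝ} (hs : |s| ≤ μ (1, 0))
    (hD : ∀ x y, -μ (1, 0) < x → x < y → y < μ (1, 0) → ∃ p ∈ D, x < p ∧ p < y)
    (hf : ∀ p ∈ D, HasSlope (f p) (-p)) (hS : Sand D f s fun x => fU t k v (x, k)) :
    |s| ≤ slopeAt μ C := by
  have hs' := abs_le.1 hs
  have hneg : -μ (1, 0) ≤ μ (1, 0) := by linarith
  -- `slopeAt μ C ≥ 0`
  have h0 : 0 ≤ slopeAt μ C := by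
    have := abs_fderiv_le hμ.norm hμ.refl hμ.diff (C := C) (ζ := (C, 1)) (by simp)
      (by rw [abs_of_pos hC]; simp)
    exact (abs_nonneg _).trans this
  rw [abs_le]
  constructor
  · by_contra hcon
    push Not at hcon
    -- `s < -slopeAt`
    obtain ⟨p, hp, hp1, hp2⟩ : ∃ p ∈ D, s < p ∧ p < -slopeAt μ C := by
      rcases eq_or_lt_of_le hs'.1 with h1 | h1
      · obtain ⟨p, hp, h2, h3⟩ := hD ((s + -slopeAt μ C) / 2) (-slopeAt μ C) (by linarith)
          (by linarith) (by linarith [hs'.2])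
        exact ⟨p, hp, by linarith, h3⟩
      · obtain ⟨p, hp, h2, h3⟩ := hD s (-slopeAt μ C) (by linarith) hcon (by linarith)
        exact ⟨p, hp, h2, h3⟩
    have := fU_le hμ hC ht hv hup (hf p hp) (hS.ge p hp hp1)
    linarith
  · by_contra hcon
    push Not at hcon
    obtain ⟨p, hp, hp1, hp2⟩ : ∃ p ∈ D, slopeAt μ C < p ∧ p < s := by
      rcases eq_or_lt_of_le hs'.2 with h1 | h1
      · obtain ⟨p, hp, h2, h3⟩ := hD (slopeAt μ C) ((s + slopeAt μ C) / 2) (by linarith)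
          (by linarith) (by linarith)
        exact ⟨p, hp, h2, by linarith⟩
      · obtain ⟨p, hp, h2, h3⟩ := hD (slopeAt μ C) s (by linarith) hcon (by linarith)
        exact ⟨p, hp, h2, h3⟩
    have := fU_neg_le hμ hC ht hv hup (hf p hp) (hS.le p hp hp2)
    linarith

/-- the label of the lower function is in the compact interval -/
theorem abs_label_le_D {D : Set ℝ} {g : ℝ → ℤ → ℝ} {k : ℤ} {s : ℝ} (hs : |s| ≤ μ (1, 0))
    (hD : ∀ x y, -μ (1, 0) < x → x < y → y < μ (1, 0) → ∃ p ∈ D, x < p ∧ p < y)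
    (hg : ∀ p ∈ D, HasSlope (g p) p) (hS : SandUp D g s fun x => fD t k v (x, k)) :
    |s| ≤ slopeAt μ C := by
  have hs' := abs_le.1 hs
  have h0 : 0 ≤ slopeAt μ C := by
    have := abs_fderiv_le hμ.norm hμ.refl hμ.diff (C := C) (ζ := (C, 1)) (by simp)
      (by rw [abs_of_pos hC]; simp)
    exact (abs_nonneg _).trans this
  rw [abs_le]
  constructor
  · by_contra hcon
    push Not at hcon
    obtain ⟨p, hp, hp1, hp2⟩ : ∃ p ∈ D, s < p ∧ p < -slopeAt μ C := by
      rcases eq_or_lt_of_le hs'.1 with h1 | h1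
      · obtain ⟨p, hp, h2, h3⟩ := hD ((s + -slopeAt μ C) / 2) (-slopeAt μ C) (by linarith)
          (by linarith) (by linarith [hs'.2])
        exact ⟨p, hp, by linarith, h3⟩
      · obtain ⟨p, hp, h2, h3⟩ := hD s (-slopeAt μ C) (by linarith) hcon (by linarith)
        exact ⟨p, hp, h2, h3⟩
    have := fD_neg_le hμ hC ht hv hup (hg p hp) (hS.le p hp hp1)
    linarith
  · by_contra hcon
    push Not at hcon
    obtain ⟨p, hp, hp1, hp2⟩ : ∃ p ∈ D, slopeAt μ C < p ∧ p < s := by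
      rcases eq_or_lt_of_le hs'.2 with h1 | h1
      · obtain ⟨p, hp, h2, h3⟩ := hD (slopeAt μ C) ((s + slopeAt μ C) / 2) (by linarith)
          (by linarith) (by linarith)
        exact ⟨p, hp, h2, by linarith⟩
      · obtain ⟨p, hp, h2, h3⟩ := hD (slopeAt μ C) s (by linarith) hcon (by linarith)
        exact ⟨p, hp, h2, h3⟩
    have := fD_le hμ hC ht hv hup (hg p hp) (hS.ge p hp hp2)
    linarith

end

/-- the pair functional of a bigeodesic on two rows `j < k` is bounded below -/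
theorem pair_bdd {t : Environment} (ht : ∀ e, 0 < t e) {v : ℤ → ℤ × ℤ} (hv : IsBigeodesic t v)
    (hup : UpDown v) {j k : ℤ} (hjk : j < k) (a : ℤ) :
    0 ≤ fD t j v (a, j) + passageTime t (a, j) (a, k) + fU t k v (a, k) := by
  have ht0 : ∀ e, 0 ≤ t e := fun e => (ht e).le
  have hb : IsBiRay t squareLattice v := (isBigeodesic_iff ht).1 hv
  have h := hb.pair_min ht0 (Hp := reg (Up k)) (Hm := reg (Dn j)) (reg_le _) (reg_le _)
    (i := entD j v) (j := entU k v) (p := (a, j)) (q := (a, k))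
    (hup.entD_lt_entU hjk).le
    (fun i hi => ⟨hv.2.1 i, hup.entU_spec hi, hup.entU_spec (by omega)⟩)
    (fun i hi => ⟨hv.2.1 i, hup.entD_spec hi.le, hup.entD_spec (by omega)⟩)
    (reach_dn le_rfl (hup.entD_spec le_rfl)) (reach_up le_rfl (hup.entU_spec le_rfl))
  have h0 := pt_nonneg (H := squareLattice) (x := v (entD j v)) (y := v (entU k v)) ht0
  rw [passageTime_eq_pt]
  unfold fU fD
  exact h0.trans h

/-- **(SL2)** the slopes of the two functions of a bigeodesic are opposite -/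
theorem slopes_opposite {μ : ℝ × ℝ → ℝ} {t : Environment} (ht : EnvOK μ t) {v : ℤ → ℤ × ℤ}
    (hv : IsBigeodesic t v) (hup : UpDown v) {j k : ℤ} (hjk : j < k) {σ σ' : ℝ}
    (hU : HasSlope (fun x => fU t k v (x, k)) σ) (hD : HasSlope (fun x => fD t j v (x, j)) σ') :
    σ' + σ = 0 := by
  obtain ⟨M, h1, h2⟩ := ht.col j k
  exact hD.add_eq_zero hU (V := fun a => passageTime t (a, j) (a, k)) (m := 0)
    (fun x => pair_bdd ht.pos hv hup hjk x) h1 h2

/-- **Slopes of bigeodesics**, main statement of the block. -/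
theorem slopes {μ : ℝ × ℝ → ℝ} (hμ : D411.SmoothNorm μ) {C : ℝ} (hC : 0 < C)
    (hC' : μ (1, 0) * C < μ (C, 1)) {t : Environment} (ht : EnvOK μ t) {D : Set ℝ}
    (hD : ∀ x y, -μ (1, 0) < x → x < y → y < μ (1, 0) → ∃ p ∈ D, x < p ∧ p < y)
    {f g : ℤ → ℝ → ℤ → ℝ} (hf : ∀ k, ∀ p ∈ D, HasSlope (f k p) (-p))
    (hg : ∀ k, ∀ p ∈ D, HasSlope (g k p) p) {v : ℤ → ℤ × ℤ} (hv : IsBigeodesic t v)
    (hup : D411.ProperUp C v)
    (hSU : ∀ k, ∃ s, |s| ≤ μ (1, 0) ∧ Sand D (f k) s fun x => fU t k v (x, k))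
    (hSD : ∀ k, ∃ s, |s| ≤ μ (1, 0) ∧ SandUp D (g k) s fun x => fD t k v (x, k)) :
    ∃ s, |s| ≤ slopeAt μ C ∧ slopeAt μ C < μ (1, 0) ∧ ∀ k,
      Sand D (f k) s (fun x => fU t k v (x, k)) ∧ SandUp D (g k) s (fun x => fD t k v (x, k)) ∧
      HasSlope (fun x => fU t k v (x, k)) (-s) ∧ HasSlope (fun x => fD t k v (x, k)) s := by
  have hlt : slopeAt μ C < μ (1, 0) := slopeAt_lt hμ.norm hμ.refl hμ.diff hC'
  have hud := updown_of_properUp hup
  have key : ∀ s, |s| ≤ slopeAt μ C → TwoSided D s := by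
    intro s hs
    have := abs_le.1 hs
    exact twoSided_of_dense hD (by linarith) (by linarith)
  have hU : ∀ k, ∃ s, |s| ≤ slopeAt μ C ∧ Sand D (f k) s (fun x => fU t k v (x, k)) ∧
      HasSlope (fun x => fU t k v (x, k)) (-s) := by
    intro k
    obtain ⟨s, hs, hS⟩ := hSU k
    have h1 := abs_label_le_U hμ hC ht hv hup hs hD (hf k) hS
    exact ⟨s, h1, hS, hS.hasSlope (θ := fun p => -p) (key s h1) continuousAt_neg (hf k)⟩
  have hDn : ∀ k, ∃ s, |s| ≤ slopeAt μ C ∧ SandUp D (g k) s (fun x => fD t k v (x, k)) ∧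
      HasSlope (fun x => fD t k v (x, k)) s := by
    intro k
    obtain ⟨s, hs, hS⟩ := hSD k
    have h1 := abs_label_le_D hμ hC ht hv hup hs hD (hg k) hS
    refine ⟨s, h1, hS, ?_⟩
    -- via the mirrored family
    have h2 : Sand D (fun p x => -(g k p) x) s (fun x => -(fD t k v (x, k))) := by
      constructor
      · intro p hp hps x
        rw [inc_neg, inc_neg]
        linarith [hS.ge p hp hps x]
      · intro q hq hsq x
        rw [inc_neg, inc_neg]
        linarith [hS.le q hq hsq x]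
    have h3 := h2.hasSlope (θ := fun p => -p) (key s h1) continuousAt_neg
      fun p hp => (hg k p hp).neg
    have h4 := h3.neg
    simpa using h4
  choose sU hU1 hU2 hU3 using hU
  choose sD hD1 hD2 hD3 using hDn
  have hopp : ∀ j k, j < k → sD j = sU k := by
    intro j k hjk
    have := slopes_opposite ht hv hud hjk (hU3 k) (hD3 j)
    linarith
  have hcU : ∀ k, sU k = sU 0 := by
    intro k
    have h1 := hopp (min k 0 - 1) k (by omega)
    have h2 := hopp (min k 0 - 1) 0 (by omega)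
    rw [← h1, h2]
  have hcD : ∀ k, sD k = sU 0 := by
    intro k
    rw [hopp k (k + 1) (by omega), hcU]
  refine ⟨sU 0, hU1 0, hlt, fun k => ⟨?_, ?_, ?_, ?_⟩⟩
  · rw [← hcU k]
    exact hU2 k
  · rw [← hcD k]
    exact hD2 k
  · rw [← hcU k]
    exact hU3 k
  · rw [← hcD k]
    exact hD3 k

/-- growth in the form used by 635: `|F x + s x| ≤ ε |x| + C` -/
theorem growth_of_hasSlope {F : ℤ → ℝ} {s : ℝ} (h : HasSlope F (-s)) {ε : ℝ} (hε : 0 < ε) :
    ∃ C : ℝ, ∀ x : ℤ, |F x + s * x| ≤ ε * |(x : ℝ)| + C := by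
  have h1 : ∀ᶠ x : ℤ in atTop, |F x + s * x| ≤ ε * |(x : ℝ)| := by
    have := (Metric.tendsto_nhds.1 h.top) ε hε
    filter_upwards [this, eventually_gt_atTop 0] with x hx hx0
    have hx0' : (0 : ℝ) < x := by exact_mod_cast hx0
    rw [Real.dist_eq] at hx
    have e : F x + s * x = (F x / x - -s) * x := by field_simp; ring
    rw [e, abs_mul]
    exact mul_le_mul_of_nonneg_right hx.le (abs_nonneg _)
  have h2 : ∀ᶠ x : ℤ in atBot, |F x + s * x| ≤ ε * |(x : ℝ)| := by
    have := (Metric.tendsto_nhds.1 h.bot) ε hε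
    filter_upwards [this, eventually_lt_atBot 0] with x hx hx0
    have hx0' : (x : ℝ) < 0 := by exact_mod_cast hx0
    rw [Real.dist_eq] at hx
    have e : F x + s * x = (F x / x - -s) * x := by
      have : (x : ℝ) ≠ 0 := hx0'.ne
      field_simp; ring
    rw [e, abs_mul]
    exact mul_le_mul_of_nonneg_right hx.le (abs_nonneg _)
  obtain ⟨a, ha⟩ := eventually_atTop.1 h1
  obtain ⟨b, hb⟩ := eventually_atBot.1 h2
  refine ⟨∑ x ∈ Finset.Icc b a, |F x + s * x|, fun x => ?_⟩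
  have hnn : 0 ≤ ∑ x ∈ Finset.Icc b a, |F x + s * x| := Finset.sum_nonneg fun _ _ => abs_nonneg _
  rcases le_or_gt a x with hx | hx
  · linarith [ha x hx]
  rcases le_or_gt x b with hx' | hx'
  · linarith [hb x hx']
  have h3 : |F x + s * x| ≤ ∑ x ∈ Finset.Icc b a, |F x + s * x| :=
    Finset.single_le_sum (f := fun x : ℤ => |F x + s * x|) (fun _ _ => abs_nonneg _)
      (Finset.mem_Icc.2 ⟨hx'.le, hx.le⟩)
  have : 0 ≤ ε * |(x : ℝ)| := by positivity
  linarith

end Crest.Agent.R151.SL
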