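import Mathlib
import Crest.Agent.R151.SL856c
import Crest.Agent.R151.K9i
import Crest.Agent.R151.RFL890B

/-!
# R151/SL856d — almost every environment satisfies `EnvOK` (owner helper856)

Input: `HalfUp μ t` a.e. (upper half of the two point shape theorem in the upper half plane, 507's
K9i).
-/

set_option autoImplicit false

open Crest.ProbabilityR.FirstPassage
open Filter Set MeasureTheory
open scoped Topology

namespace Crest.Agent.R151.SL

open Y H K SEL

/-- upper half of the two point shape theorem in the upper half plane -/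
def HalfUp (μ : ℝ × ℝ → ℝ) (t : Environment) : Prop :=
  ∀ ε : ℝ, 0 < ε → ∀ᶠ n : ℕ in atTop, ∀ x ∈ box n, ∀ y ∈ box n, 0 ≤ x.2 → 0 ≤ y.2 →
    pR t {z : ℤ × ℤ | 0 ≤ z.2} x y ≤ μ (toR (y - x)) + ε * n

theorem pt_up_shift (t : Environment) (k : ℤ) (x y : ℤ × ℤ) :
    pt (reg (Up k)) t x y = pt (reg (Up 0)) (A.shift (0, k) t) (x - (0, k)) (y - (0, k)) := by
  have h := pt_shift (0, k) t (H := reg (Up 0)) (H' := reg (Up k)) (fun a b => by
    have := adj_Up_add 0 (0, k) a b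
    simpa using this) (x - (0, k)) (y - (0, k))
  rw [h, sub_add_cancel, sub_add_cancel]

theorem bup_of_halfUp {μ : ℝ × ℝ → ℝ} {t : Environment} {k : ℤ}
    (h : HalfUp μ (A.shift (0, k) t)) : BUp μ t (Up k) k fun z => z.2 := by
  intro α ε hε δ hδ
  obtain ⟨N, hN⟩ := exists_nat_ge (|α| + 2)
  have hN0 : (0 : ℝ) < N := by linarith [abs_nonneg α]
  have hN1 : 0 < N := by exact_mod_cast hN0
  have hN2 : 2 ≤ N := by
    have : (2 : ℝ) ≤ N := by linarith [abs_nonneg α]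
    exact_mod_cast this
  have h1 := h (ε / N) (by positivity)
  have h2 : Tendsto (fun n : ℕ => N * n) atTop atTop := by
    exact tendsto_id.const_mul_atTop' hN1
  have h3 : ∀ᶠ n : ℕ in atTop, (k : ℝ) ≤ δ * n := by
    have : Tendsto (fun n : ℕ => δ * (n : ℝ)) atTop atTop :=
      tendsto_natCast_atTop_atTop.const_mul_atTop hδ
    exact this.eventually_ge_atTop _
  filter_upwards [h2.eventually h1, h3, eventually_ge_atTop (k.natAbs + 1)] with n hn hk hkn y hy hδy
  have hyk : k ≤ y.2 := by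
    have : (k : ℝ) ≤ y.2 := hk.trans hδy
    exact_mod_cast this
  rw [mem_box] at hy
  have hα : |(⌊α * n⌋ : ℤ)| ≤ (N * n : ℕ) := by
    have h4 : |(⌊α * (n : ℝ)⌋ : ℝ)| ≤ |α| * n + 1 := by
      have e1 := Int.floor_le (α * (n : ℝ))
      have e2 := Int.lt_floor_add_one (α * (n : ℝ))
      have e3 : |α * (n : ℝ)| = |α| * n := by rw [abs_mul, Nat.abs_cast]
      have e4 := abs_le.1 e3.le
      rw [abs_le]
      constructor <;> linarith
    have h5 : (1 : ℝ) ≤ n := by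
      have : 1 ≤ n := by omega
      exact_mod_cast this
    have h6 : |(⌊α * (n : ℝ)⌋ : ℝ)| ≤ (N : ℝ) * n := by
      refine h4.trans ?_
      nlinarith
    have h7 : ((|⌊α * (n : ℝ)⌋| : ℤ) : ℝ) ≤ ((N * n : ℕ) : ℝ) := by
      push_cast
      exact h6
    exact_mod_cast h7
  have hNn : n + n ≤ N * n := by nlinarith
  have hNn' : (n : ℤ) + n ≤ ((N * n : ℕ) : ℤ) := by exact_mod_cast hNn
  have m1 : ((⌊α * n⌋, k) : ℤ × ℤ) - (0, k) ∈ box (N * n) := by
    rw [mem_box]
    rw [abs_le] at hα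
    simp only [Prod.mk_sub_mk, sub_zero, sub_self]
    omega
  have m2 : y - (0, k) ∈ box (N * n) := by
    rw [mem_box]
    simp only [Prod.fst_sub, Prod.snd_sub, sub_zero]
    omega
  have h8 := hn _ m1 _ m2 (by simp) (by simp only [Prod.snd_sub]; omega)
  rw [pt_up_shift]
  have e : pR (A.shift (0, k) t) {z : ℤ × ℤ | 0 ≤ z.2} ((⌊α * n⌋, k) - (0, k)) (y - (0, k)) =
      pt (reg (Up 0)) (A.shift (0, k) t) ((⌊α * n⌋, k) - (0, k)) (y - (0, k)) :=
    pR_eq_pt (R := Up 0) (x := (⌊α * n⌋, k) - (0, k)) (by simp) _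
  rw [← e]
  refine h8.trans (le_of_eq ?_)
  rw [sub_sub_sub_cancel_right]
  congr 1
  push_cast
  field_simp

theorem mu_ry {μ : ℝ × ℝ → ℝ} (hμ : B710.NormLike μ) (hrefl : ∀ x y, μ (-x, y) = μ (x, y))
    (x y : ℝ) : μ (x, -y) = μ (x, y) := by
  have h1 := hμ.neg (x, -y)
  simp only [Prod.neg_mk, neg_neg] at h1
  rw [← h1, hrefl]

theorem bdn_of_halfUp {μ : ℝ × ℝ → ℝ} (hμ : B710.NormLike μ)
    (hrefl : ∀ x y, μ (-x, y) = μ (x, y)) {t : Environment} {k : ℤ}
    (h : BUp μ (N.refl t) (Up (-k)) (-k) fun z => z.2) : BUp μ t (Dn k) k fun z => -z.2 := by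
  intro α ε hε δ hδ
  filter_upwards [h α ε hε δ hδ] with n hn y hy hδy
  have hy' : ((y.1, -y.2) : ℤ × ℤ) ∈ box n := by
    rw [mem_box] at hy ⊢
    simp only
    omega
  have h1 := hn (y.1, -y.2) hy' hδy
  rw [RFL.pt_dn]
  refine h1.trans (le_of_eq ?_)
  congr 1
  have : toR ((y.1, -y.2) - (⌊α * (n : ℝ)⌋, -k)) =
      (((y.1 : ℝ) - ⌊α * (n : ℝ)⌋), -((y.2 : ℝ) - k)) := by
    unfold toR
    simp only [Prod.mk_sub_mk]
    push_cast
    refine Prod.ext rfl ?_
    simp only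
    ring
  rw [this, mu_ry hμ hrefl]
  unfold toR
  simp

section prob

variable {G : Measure ℝ} [IsProbabilityMeasure G]

/-- columns are bounded infinitely often, one direction -/
theorem ae_frequently_col (j k : ℤ) :
    ∀ᵐ t ∂(iidLaw G), ∃ M : ℕ, ∃ᶠ a : ℤ in atTop, passageTime t (a, j) (a, k) ≤ M := by
  set f : ℤ → Environment → ℝ := fun a t => passageTime t (a, j) (a, k) with hf
  have hfm : ∀ a, Measurable (f a) := fun a => K.measurable_pt _ _
  have hlaw : ∀ a (S : Set ℝ), MeasurableSet S →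
      iidLaw G (f a ⁻¹' S) = iidLaw G (f 0 ⁻¹' S) := by
    intro a S hS
    have h1 : f a ⁻¹' S = A.shift (a, 0) ⁻¹' (f 0 ⁻¹' S) := by
      ext t
      simp only [mem_preimage, hf]
      rw [passageTime_shift]
      simp
    rw [h1, (A.mp_shift G (a, 0)).measure_preimage ((hfm 0) hS).nullMeasurableSet]
  -- probability of the complement
  have hbound : ∀ M : ℕ, iidLaw G {t | ¬ ∃ᶠ a : ℤ in atTop, f a t ≤ M} ≤
      iidLaw G (f 0 ⁻¹' Ioi (M : ℝ)) := by
    intro M
    have h1 : {t | ¬ ∃ᶠ a : ℤ in atTop, f a t ≤ M} = ⋃ n : ℕ, {t | ∀ a : ℤ, (n : ℤ) ≤ a → M < f a t} := by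
      ext t
      simp only [mem_ofPred_eq, not_frequently, not_le, eventually_atTop, mem_iUnion]
      constructor
      · rintro ⟨b, hb⟩
        exact ⟨b.toNat, fun a ha => hb a (by omega)⟩
      · rintro ⟨n, hn⟩
        exact ⟨n, hn⟩
    have hmono : Monotone fun n : ℕ => {t | ∀ a : ℤ, (n : ℤ) ≤ a → (M : ℝ) < f a t} := by
      intro n n' hnn t ht a ha
      exact ht a (by omega)
    rw [h1, hmono.measure_iUnion]
    refine iSup_le fun n => ?_
    rw [← hlaw n (Ioi (M : ℝ)) measurableSet_Ioi]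
    exact measure_mono fun t ht => ht n le_rfl
  have hlim : Tendsto (fun M : ℕ => iidLaw G (f 0 ⁻¹' Ioi (M : ℝ))) atTop (𝓝 0) := by
    have h1 : (⋂ M : ℕ, f 0 ⁻¹' Ioi (M : ℝ)) = ∅ := by
      ext t
      simp only [mem_iInter, mem_preimage, mem_Ioi, mem_empty_iff_false, iff_false, not_forall,
        not_lt]
      exact exists_nat_ge _
    rw [← measure_empty (μ := iidLaw G), ← h1]
    refine tendsto_measure_iInter_atTop (fun M => ((hfm 0) measurableSet_Ioi).nullMeasurableSet) ?_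
      ⟨0, measure_ne_top _ _⟩
    intro M M' h t ht
    simp only [mem_preimage, mem_Ioi] at ht ⊢
    exact lt_of_le_of_lt (by exact_mod_cast h) ht
  rw [ae_iff]
  refine le_antisymm ?_ bot_le
  refine ge_of_tendsto' hlim fun M => ?_
  refine le_trans (measure_mono ?_) (hbound M)
  intro t ht
  simp only [mem_ofPred_eq, not_exists] at ht
  exact ht M

theorem ae_col (j k : ℤ) : ∀ᵐ t ∂(iidLaw G),
    ∃ M : ℝ, (∃ᶠ a : ℤ in atTop, passageTime t (a, j) (a, k) ≤ M) ∧
      ∃ᶠ a : ℤ in atBot, passageTime t (a, j) (a, k) ≤ M := by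
  have h1 := ae_frequently_col (G := G) j k
  -- the other direction by reflection
  have h2 : ∀ᵐ t ∂(iidLaw G), ∃ M : ℕ, ∃ᶠ a : ℤ in atTop,
      passageTime (act ng t) (a, j) (a, k) ≤ M := (RFL.ae_act ng).2 h1
  filter_upwards [h1, h2] with t ⟨M, hM⟩ ⟨M', hM'⟩
  refine ⟨max M M', hM.mono fun a ha => ha.trans (le_max_left _ _), ?_⟩
  have h3 : ∃ᶠ a : ℤ in atTop, passageTime t (-a, j) (-a, k) ≤ M' := by
    refine hM'.mono fun a ha => ?_
    rw [RFL.passageTime_act] at ha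
    simpa using ha
  have h4 : ∃ᶠ a : ℤ in atBot, passageTime t (a, j) (a, k) ≤ M' := by
    have := tendsto_neg_atTop_atBot (G := ℤ)
    exact this.frequently h3
  exact h4.mono fun a ha => ha.trans (le_max_right _ _)

/-- **almost every environment is `EnvOK`** -/
theorem ae_envOK [NullSingletonClass G] {m : ℝ} {μ : ℝ × ℝ → ℝ} (hG : M51.Law213 G)
    (hM : Mom G m) (hμ : IsTC1 G μ) (hN : D411.SmoothNorm μ)
    (hhalf : ∀ᵐ t ∂(iidLaw G), HalfUp μ t) : ∀ᵐ t ∂(iidLaw G), EnvOK μ t := by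
  have hat : ∀ x, G {x} = 0 := fun x => measure_singleton x
  have h1 := ae_noTies (G := G) hat
  have h2 := ae_Nn (G := G) hG.h0
  have h3 := hM.as_ushape hμ hG
  have hup : ∀ᵐ t ∂(iidLaw G), ∀ k, BUp μ t (Up k) k fun z => z.2 := by
    rw [ae_all_iff]
    intro k
    have := (A.mp_shift G (0, k)).quasiMeasurePreserving.ae hhalf
    filter_upwards [this] with t ht
    exact bup_of_halfUp ht
  have hdn := RFL.ae_refl_of hup
  have hcol : ∀ᵐ t ∂(iidLaw G), ∀ j k : ℤ, ∃ M : ℝ,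
      (∃ᶠ a : ℤ in atTop, passageTime t (a, j) (a, k) ≤ M) ∧
        ∃ᶠ a : ℤ in atBot, passageTime t (a, j) (a, k) ≤ M := by
    rw [ae_all_iff]
    intro j
    rw [ae_all_iff]
    exact ae_col j
  filter_upwards [h1, h2, h3, hup, hdn, hcol] with t t1 t2 t3 t4 t5 t6
  exact ⟨fun e => t1.pos t2 e, t3, t4,
    fun k => bdn_of_halfUp hN.norm hN.refl (t5 (-k)), t6⟩

theorem ae_halfUp [NullSingletonClass G] {m : ℝ} {μ : ℝ × ℝ → ℝ} (hG : M51.Law213 G)
    (hM : Mom G m) (hμ : IsTC1 G μ) : ∀ᵐ t ∂(iidLaw G), HalfUp μ t := by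
  filter_upwards [hM.as_half_shape hμ (measure_singleton 0) hG] with t ht ε hε
  filter_upwards [ht 0 ε hε] with n hn x hx y hy h0x h0y
  have := (abs_le.1 (hn x hx y hy h0x h0y)).2
  linarith

/-- **almost every environment is `EnvOK`**, for the law of S0213 and a smooth norm -/
theorem ae_envOK_213 [NullSingletonClass G] {m : ℝ} {μ : ℝ × ℝ → ℝ} (hG : M51.Law213 G)
    (hM : Mom G m) (hμ : IsTC1 G μ) (hN : D411.SmoothNorm μ) : ∀ᵐ t ∂(iidLaw G), EnvOK μ t :=
  ae_envOK hG hM hμ hN (ae_halfUp hG hM hμ)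

end prob

end Crest.Agent.R151.SL
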