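import Crest.Agent.R151.UC290b
import Crest.Agent.R151.D624g

/-!
# R151/UC290c — block UC (owner helper290): `Com` for short label intervals around a
deterministic label, deterministic conclusion

* `eventually_W_eq`: optimal last entrances converge when the increments of the boundary
  functions converge (all in a bounded interval).
* `eventually_com`: if all the last entrances of `φ` merge then the same holds for approximating
  functions from both sides.
* `SlopeU`, `coal_of_com`: rays of the same slope `s` coalesce as soon as `Com` holds around `s`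
  for all windows of all high lines.
-/

set_option autoImplicit false

open Filter Topology
open Crest.ProbabilityR.FirstPassage

namespace Crest.Agent.R151.UC

open Crest.Agent.R151.D624 Crest.Agent.R151.Y Crest.Agent.R151.H

section conv

theorem tendsto_sub_of_inc {ι : Type*} {l : Filter ι} {F : ι → ℤ → ℝ} {φ : ℤ → ℝ}
    (h : ∀ x, Tendsto (fun n => inc (F n) x) l (𝓝 (inc φ x))) (x y : ℤ) :
    Tendsto (fun n => F n y - F n x) l (𝓝 (φ y - φ x)) := by
  have key : ∀ x y : ℤ, x ≤ y → Tendsto (fun n => F n y - F n x) l (𝓝 (φ y - φ x)) := by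
    intro x y hxy
    induction y, hxy using Int.leInduction with
    | base => simp only [sub_self]; exact tendsto_const_nhds
    | succ y hy ih =>
      have := ih.add (h y)
      unfold inc at this
      refine (this.congr fun n => ?_).trans (by rw [show φ y - φ x + (φ (y + 1) - φ y) =
        φ (y + 1) - φ x by ring])
      ring
  rcases le_total x y with hxy | hxy
  · exact key x y hxy
  · have := (key y x hxy).neg
    simpa using this

variable {t : Environment} {k N : ℤ} {φ : ℤ → ℤ → ℝ} {F : ℕ → ℤ → ℤ → ℝ}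

theorem eventually_W_eq (hφ : Fam t φ) (hF : ∀ n, Fam t (F n)) (hkN : k < N)
    (hconv : ∀ x, Tendsto (fun n => inc (F n N) x) atTop (𝓝 (inc (φ N) x))) {x a b : ℤ}
    (hb : ∀ n, a ≤ W t (F n) k N x ∧ W t (F n) k N x ≤ b) :
    ∀ᶠ n in atTop, W t (F n) k N x = W t φ k N x := by
  have h1 : ∀ e ∈ Finset.Icc a b, ∀ᶠ n in atTop,
      W t (F n) k N x = e → e = W t φ k N x := by
    intro e _
    by_cases he : e = W t φ k N x
    · exact Eventually.of_forall fun n _ => he
    · have hopt := hφ.W_spec hkN x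
      -- strict inequality for `φ`
      have hlt : Phi t k N (φ N) (x, k) (W t φ k N x) < Phi t k N (φ N) (x, k) e := by
        rcases (hopt e).lt_or_eq with h | h
        · exact h
        · exfalso
          exact he (hφ.W_eq hkN fun w' => h ▸ hopt w')
      have hlim := tendsto_sub_of_inc hconv (W t φ k N x) e
      have hpos : 0 < (pt (gH k) t (x, k) (e, N - 1) + Vt t e N) -
          (pt (gH k) t (x, k) (W t φ k N x, N - 1) + Vt t (W t φ k N x) N) +
          (φ N e - φ N (W t φ k N x)) := by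
        unfold Phi at hlt
        linarith
      have hev := (hlim.const_add ((pt (gH k) t (x, k) (e, N - 1) + Vt t e N) -
          (pt (gH k) t (x, k) (W t φ k N x, N - 1) + Vt t (W t φ k N x) N))).eventually_const_lt
          hpos
      filter_upwards [hev] with n hn hWe
      exfalso
      have h2 := (hF n).W_spec hkN x
      rw [hWe] at h2
      have h3 := h2 (W t φ k N x)
      unfold Phi at h3
      linarith
  rw [← Filter.eventually_all_finset] at h1
  filter_upwards [h1] with n hn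
  exact hn _ (Finset.mem_Icc.2 (hb n)) rfl

/-- all the last entrances from a window merge -/
theorem exists_merge (hφ : Fam t φ) (hsim : ∀ x y, Sim t φ k x y) (w : ℕ) :
    ∃ N, k < N ∧ ∀ x : ℤ, -(w : ℤ) ≤ x → x ≤ w → W t φ k N x = W t φ k N 0 := by
  have key : ∀ s : Finset ℤ, ∃ N, k < N ∧ ∀ x ∈ s, W t φ k N x = W t φ k N 0 := by
    intro s
    induction s using Finset.induction_on with
    | empty => exact ⟨k + 1, by omega, by simp⟩
    | insert a s ha ih =>
      obtain ⟨N, hN, h⟩ := ih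
      obtain ⟨N', hN', h'⟩ := hsim a 0
      refine ⟨max N N', lt_of_lt_of_le hN (le_max_left _ _), fun x hx => ?_⟩
      rw [Finset.mem_insert] at hx
      rcases hx with rfl | hx
      · exact hφ.persist hN' (le_max_right _ _) h'
      · exact hφ.persist hN (le_max_left _ _) (h x hx)
  obtain ⟨N, hN, h⟩ := key (Finset.Icc (-(w : ℤ)) w)
  exact ⟨N, hN, fun x h1 h2 => h x (Finset.mem_Icc.2 ⟨h1, h2⟩)⟩

/-- `Com` for functions approximating `φ` from both sides -/
theorem eventually_com (hφ : Fam t φ) (hsim : ∀ x y, Sim t φ k x y) {F E : ℕ → ℤ → ℤ → ℝ}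
    {F₀ E₀ : ℤ → ℤ → ℝ} (hF : ∀ n, Fam t (F n)) (hE : ∀ n, Fam t (E n)) (hF₀ : Fam t F₀)
    (hE₀ : Fam t E₀) (h1 : ∀ n N x, inc (φ N) x ≤ inc (F n N) x)
    (h2 : ∀ n N x, inc (F n N) x ≤ inc (F₀ N) x) (h3 : ∀ n N x, inc (E n N) x ≤ inc (φ N) x)
    (h4 : ∀ n N x, inc (E₀ N) x ≤ inc (E n N) x)
    (hFl : ∀ N x, Tendsto (fun n => inc (F n N) x) atTop (𝓝 (inc (φ N) x)))
    (hEl : ∀ N x, Tendsto (fun n => inc (E n N) x) atTop (𝓝 (inc (φ N) x))) (w : ℕ) :
    ∀ᶠ n in atTop, Com t (F n) (E n) k w := by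
  obtain ⟨N, hN, hm⟩ := exists_merge hφ hsim w
  have hA : ∀ x : ℤ, ∀ᶠ n in atTop, W t (F n) k N x = W t φ k N x := by
    intro x
    refine eventually_W_eq hφ hF hN (hFl N) (a := W t F₀ k N x) (b := W t φ k N x) fun n => ?_
    constructor
    · exact opt_le (h2 n N) (hF₀.W_spec hN x) (fun w' hw' => hF₀.W_eq hN hw') ((hF n).W_spec hN x)
    · exact opt_le (h1 n N) ((hF n).W_spec hN x) (fun w' hw' => (hF n).W_eq hN hw')
        (hφ.W_spec hN x)
  have hB : ∀ x : ℤ, ∀ᶠ n in atTop, W t (E n) k N x = W t φ k N x := by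
    intro x
    refine eventually_W_eq hφ hE hN (hEl N) (a := W t φ k N x) (b := W t E₀ k N x) fun n => ?_
    constructor
    · exact opt_le (h3 n N) (hφ.W_spec hN x) (fun w' hw' => hφ.W_eq hN hw') ((hE n).W_spec hN x)
    · exact opt_le (h4 n N) ((hE n).W_spec hN x) (fun w' hw' => (hE n).W_eq hN hw')
        (hE₀.W_spec hN x)
  have hAB : ∀ᶠ n in atTop, ∀ x ∈ Finset.Icc (-(w : ℤ)) w,
      W t (F n) k N x = W t φ k N x ∧ W t (E n) k N x = W t φ k N x := by
    rw [Filter.eventually_all_finset]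
    exact fun x _ => (hA x).and (hB x)
  filter_upwards [hAB] with n hn
  refine ⟨N, hN, W t φ k N 0, fun x hx1 hx2 => ?_⟩
  obtain ⟨e1, e2⟩ := hn x (Finset.mem_Icc.2 ⟨hx1, hx2⟩)
  rw [hm x hx1 hx2] at e1 e2
  constructor
  · have := (hF n).W_spec hN x
    rwa [e1] at this
  · have := (hE n).W_spec hN x
    rwa [e2] at this

end conv

section slope

/-- the path `u` has slope `s` on all the lines `y = h`, `h ≥ h₀` -/
def SlopeU (D : Set ℝ) (f : ℝ → ℤ → ℤ → ℝ) (t : Environment) (h₀ : ℤ) (s : ℝ)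
    (u : ℕ → ℤ × ℤ) : Prop :=
  ∀ h, h₀ ≤ h → ∃ m, (∀ n, h ≤ (u (m + n)).2) ∧
    Sand D (fun p => f p h) s (fun x => bus t (gH h) (fun n => u (m + n)) (x, h))

theorem exists_height_bound (u : ℕ → ℤ × ℤ) (n : ℕ) : ∃ M : ℤ, ∀ a, a ≤ n → (u a).2 ≤ M := by
  induction n with
  | zero => exact ⟨(u 0).2, fun a ha => by rw [Nat.le_zero.1 ha]⟩
  | succ n ih =>
    obtain ⟨M, hM⟩ := ih
    refine ⟨max M (u (n + 1)).2, fun a ha => ?_⟩
    rcases Nat.le_succ_iff.1 ha with h | rfl
    · exact (hM a h).trans (le_max_left _ _)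
    · exact le_max_right _ _

/-- **coalescence of the rays of slope `s`** from `Com` around `s` on all high lines -/
theorem coal_of_com {t : Environment} {D : Set ℝ} {f : ℝ → ℤ → ℤ → ℝ} {s : ℝ} {h₀ i : ℤ}
    (hnt : NoTies t) (ht : ∀ e, 0 ≤ t e) (hf : ∀ p ∈ D, Fam t (f p))
    (hcom : ∀ k, h₀ ≤ k → ∀ w : ℕ, ∃ p ∈ D, ∃ q ∈ D, p < s ∧ s < q ∧ Com t (f p) (f q) k w)
    {u u' : ℕ → ℤ × ℤ} (hu : IsRay t (gH i) u) (hu' : IsRay t (gH i) u')
    (hup : Tendsto (fun n => (u n).2) atTop atTop)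
    (hup' : Tendsto (fun n => (u' n).2) atTop atTop) (hs : SlopeU D f t h₀ s u)
    (hs' : SlopeU D f t h₀ s u') : Coal u u' := by
  refine hu.coal_of_frequently hnt ht hu' fun n => ?_
  obtain ⟨M, hM⟩ := exists_height_bound u n
  -- a high line
  set k : ℤ := max (max h₀ i) (max (M + 1) ((u' 0).2 + 1)) with hk
  have hk1 : h₀ ≤ k := (le_max_left _ _).trans (le_max_left _ _)
  have hk2 : i ≤ k := (le_max_right _ _).trans (le_max_left _ _)
  have hk3 : M + 1 ≤ k := (le_max_left _ _).trans (le_max_right _ _)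
  have hk4 : (u' 0).2 + 1 ≤ k := (le_max_right _ _).trans (le_max_right _ _)
  have h0 := hM 0 (Nat.zero_le n)
  obtain ⟨a, x, -, ha1, ha2, ha3⟩ := exists_last_entrance (N := k) (i := 0)
    (fun n => (reg_adj.1 (hu.adj n)).1) hup (by omega)
  obtain ⟨a', x', -, ha1', ha2', ha3'⟩ := exists_last_entrance (N := k) (i := 0)
    (fun n => (reg_adj.1 (hu'.adj n)).1) hup' (by omega)
  have hna : n < a + 1 := by
    by_contra hcon
    rw [not_lt] at hcon
    have := hM (a + 1) hcon
    rw [ha2] at this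
    simp only at this
    omega
  obtain ⟨p, hp, q, hq, hps, hsq, hc⟩ := hcom k hk1 (max x.natAbs x'.natAbs)
  obtain ⟨v, -, hv⟩ := hc.pass ht (hf p hp) (hf q hq) hk2
  have lab : ∀ {u : ℕ → ℤ × ℤ}, SlopeU D f t h₀ s u → ∀ N, k ≤ N →
      ∃ m, (∀ n, N ≤ (u (m + n)).2) ∧ ∀ y,
        inc (f q N) y ≤ inc (fun x => bus t (gH N) (fun n => u (m + n)) (x, N)) y ∧
        inc (fun x => bus t (gH N) (fun n => u (m + n)) (x, N)) y ≤ inc (f p N) y := by
    intro u hs N hN
    obtain ⟨m, hm1, hm2⟩ := hs N (hk1.trans hN)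
    exact ⟨m, hm1, fun y => ⟨hm2.ge q hq hsq y, hm2.le p hp hps y⟩⟩
  obtain ⟨b, hb1, hb2⟩ := hv u hu hup (a + 1) x ha2 ha3 (by
    have := le_max_left x.natAbs x'.natAbs
    omega) (by
    have := le_max_left x.natAbs x'.natAbs
    omega) (lab hs)
  obtain ⟨b', -, hb2'⟩ := hv u' hu' hup' (a' + 1) x' ha2' ha3' (by
    have := le_max_right x.natAbs x'.natAbs
    omega) (by
    have := le_max_right x.natAbs x'.natAbs
    omega) (lab hs')
  exact ⟨b, b', by omega, by rw [hb2, hb2']⟩

end slope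

end Crest.Agent.R151.UC
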