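import Mathlib
import Crest.Prelude.Def_PlanarFPP
import Crest.Agent.R151.Y635F
import Crest.Agent.R151.S113F

/-!
# R151, Y635G (helper635): the geometric fields of the mass argument from growth and coalescence

For a fixed environment `t` and a family `v i` (`i` with `S i`) of bigeodesics going from `-∞` to
`+∞` in height, with slopes `sl i`: linear growth of the label functions on every level, a lower
bound for the passage times and coalescence of the lower ends (as soon as two labels of the slope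
differ on one level) give all the geometric hypotheses (o1), (o2), (o3), (o5), (o6), (o7) of
helper96's `Y96.Sys`.
-/

set_option autoImplicit false

open MeasureTheory Filter Topology
open scoped ENNReal
open Crest.ProbabilityR.FirstPassage

namespace Crest.Agent.R151.Y

open Crest.Agent.R151 Crest.Agent.R151.SEL

/-- the increments of the label function of `v` on the line of height `k` -/
noncomputable def incU (t : Environment) (k : ℤ) (v : ℤ → ℤ × ℤ) (e : ℤ) : ℝ :=
  fU t k v (e + 1, k) - fU t k v (e, k)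

/-- linear growth with slope `-s` on the line of height `k` -/
def GrowU (t : Environment) (k : ℤ) (v : ℤ → ℤ × ℤ) (s : ℝ) : Prop :=
  ∀ ε > 0, ∃ C : ℝ, ∀ x : ℤ, |fU t k v (x, k) + s * x| ≤ ε * |(x : ℝ)| + C

/-- the lower bound for passage times from level `k` to level `j` -/
def TimeLB (t : Environment) (m : ℝ) (k j : ℤ) : Prop :=
  ∀ ε > 0, ∃ C : ℝ, ∀ x z : ℤ, m * |(x : ℝ) - z| - ε * (|(x : ℝ)| + |(z : ℝ)|) - C ≤
    pt (reg (Up k)) t (x, k) (z, j)

theorem sub_eq_sum_inc (f : ℤ → ℝ) (n : ℕ) : f n - f 0 = ∑ i ∈ Finset.range n, (f (i + 1) - f i) := by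
  induction n with
  | zero => simp
  | succ n ih =>
    rw [Finset.sum_range_succ, ← ih]
    push_cast
    ring

/-- a larger slope is incompatible with larger increments -/
theorem GrowU.slope_le {t : Environment} {k : ℤ} {v w : ℤ → ℤ × ℤ} {s s' : ℝ}
    (hv : GrowU t k v s) (hw : GrowU t k w s')
    (h : ∀ e, incU t k v e ≤ incU t k w e) : s' ≤ s := by
  by_contra hcon
  push Not at hcon
  obtain ⟨C1, h1⟩ := hv ((s' - s) / 4) (by linarith)
  obtain ⟨C2, h2⟩ := hw ((s' - s) / 4) (by linarith)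
  -- `f_v n - f_v 0 ≤ f_w n - f_w 0`
  have h3 : ∀ n : ℕ, fU t k v (n, k) - fU t k v (0, k) ≤ fU t k w (n, k) - fU t k w (0, k) := by
    intro n
    have a1 := sub_eq_sum_inc (fun x => fU t k v (x, k)) n
    have a2 := sub_eq_sum_inc (fun x => fU t k w (x, k)) n
    rw [a1, a2]
    exact Finset.sum_le_sum fun i _ => h i
  obtain ⟨n, hn⟩ := exists_nat_gt
    ((C1 + C2 + |fU t k v (0, k)| + |fU t k w (0, k)|) / ((s' - s) / 2))
  rw [div_lt_iff₀ (by linarith)] at hn
  have e1 := h1 n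
  have e2 := h2 n
  have e3 := h3 n
  push_cast at e1 e2
  rw [abs_of_nonneg (by positivity : (0 : ℝ) ≤ (n : ℝ)), abs_le] at e1 e2
  have e4 := neg_abs_le (fU t k v (0, k))
  have e5 := le_abs_self (fU t k v (0, k))
  have e6 := neg_abs_le (fU t k w (0, k))
  have e7 := le_abs_self (fU t k w (0, k))
  nlinarith [e1.1, e1.2, e2.1, e2.2]

/-- (o2) for two bigeodesics -/
theorem incU_le_of_slope_lt {t : Environment} {k : ℤ} {v w : ℤ → ℤ × ℤ} {s s' : ℝ}
    (hnt : NoTies t) (ht : ∀ e, 0 ≤ t e) (hv : IsBigeodesic t v) (hvU : UpDown v)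
    (hw : IsBigeodesic t w) (hwU : UpDown w) (gv : GrowU t k v s) (gw : GrowU t k w s')
    (hs : s < s') (e : ℤ) : incU t k w e ≤ incU t k v e := by
  rcases fU_total hnt ht hv hvU hw hwU k with h | h
  · exact h e
  · exact absurd (gv.slope_le gw h) (not_le.2 hs)

/-- the fixed-environment bundle -/
structure GeoFam {ι : Type*} (t : Environment) (m : ℝ) (S : ι → Prop) (v : ι → ℤ → ℤ × ℤ)
    (sl : ι → ℝ) : Prop where
  noTies : NoTies t
  nonneg : ∀ e, 0 ≤ t e
  big : ∀ i, S i → IsBigeodesic t (v i)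
  upDown : ∀ i, S i → UpDown (v i)
  slope : ∀ i, S i → |sl i| < m
  time : ∀ k j : ℤ, k ≤ j → TimeLB t m k j
  growth : ∀ i, S i → ∀ k, GrowU t k (v i) (sl i)
  lowCoal : ∀ k i₀ j₀ e₀, S i₀ → S j₀ → sl i₀ = sl j₀ → incU t k (v i₀) e₀ ≠ incU t k (v j₀) e₀ →
    ∀ i j, S i → S j → sl i = sl i₀ → sl j = sl i₀ → LowCoal (v i) (v j)

namespace GeoFam

variable {ι : Type*} {t : Environment} {m : ℝ} {S : ι → Prop} {v : ι → ℤ → ℤ × ℤ} {sl : ι → ℝ}

/-- (o1) -/
theorem inc_le (h : GeoFam t m S v sl) (k : ℤ) (i : ι) (e : ℤ) (hi : S i) :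
    |incU t k (v i) e| ≤ pt (reg (Up k)) t (e, k) (e + 1, k) :=
  abs_inc_fU_le h.nonneg (h.big i hi) (h.upDown i hi) le_rfl le_rfl

/-- (o2) -/
theorem slope_lt (h : GeoFam t m S v sl) (k : ℤ) (i j : ι) (hi : S i) (hj : S j)
    (hs : sl i < sl j) (e : ℤ) : incU t k (v j) e ≤ incU t k (v i) e :=
  incU_le_of_slope_lt h.noTies h.nonneg (h.big i hi) (h.upDown i hi) (h.big j hj) (h.upDown j hj)
    (h.growth i hi k) (h.growth j hj k) hs e

/-- (o4) -/
theorem total (h : GeoFam t m S v sl) (k : ℤ) (i j : ι) (hi : S i) (hj : S j) :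
    (∀ e, incU t k (v j) e ≤ incU t k (v i) e) ∨ ∀ e, incU t k (v i) e ≤ incU t k (v j) e :=
  fU_total h.noTies h.nonneg (h.big i hi) (h.upDown i hi) (h.big j hj) (h.upDown j hj) k

/-- (o3) -/
theorem loc_lt (h : GeoFam t m S v sl) (k : ℤ) (i₀ j₀ : ι) (e₀ : ℤ) (hi₀ : S i₀) (hj₀ : S j₀)
    (hs : sl i₀ = sl j₀) (hne : incU t k (v i₀) e₀ ≠ incU t k (v j₀) e₀) (i j : ι) (hi : S i)
    (hj : S j) (hsi : sl i = sl i₀) (hsj : sl j = sl i₀)
    (hl : (tailU k (v i) 0).1 < (tailU k (v j) 0).1) (e : ℤ) :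
    incU t k (v j) e ≤ incU t k (v i) e :=
  inc_fU_mono_of_loc h.noTies h.nonneg (h.big i hi) (h.upDown i hi) (h.big j hj) (h.upDown j hj)
    (h.lowCoal k i₀ j₀ e₀ hi₀ hj₀ hs hne i j hi hj hsi hsj) hl e

/-- (o5) between two levels -/
theorem osc' (h : GeoFam t m S v sl) {k j : ℤ} (hkj : k ≤ j) (i i' : ι) (hi : S i) (hi' : S i')
    (hle : ∀ e, incU t j (v i') e ≤ incU t j (v i) e) :
    ∑' e, ENNReal.ofReal (incU t j (v i) e - incU t j (v i') e) ≤
      ∑' e, ENNReal.ofReal (incU t k (v i) e - incU t k (v i') e) :=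
  tsum_inc_fU_le_of_growth h.noTies h.nonneg (h.big i hi) (h.upDown i hi) (h.big i' hi')
    (h.upDown i' hi') hkj (h.slope i hi) (h.slope i' hi') (h.time k j hkj) (h.growth i hi k)
    (h.growth i hi j) (h.growth i' hi' k) (h.growth i' hi' j) hle

/-- (o5) -/
theorem osc (h : GeoFam t m S v sl) (i j : ι) (hi : S i) (hj : S j)
    (hle : ∀ e, incU t 0 (v j) e ≤ incU t 0 (v i) e) (n : ℕ) :
    ∑' e, ENNReal.ofReal (incU t 0 (v i) e - incU t 0 (v j) e) ≤
      ∑' e, ENNReal.ofReal (incU t (-n) (v i) e - incU t (-n) (v j) e) :=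
  h.osc' (by omega) i j hi hj hle

/-- (o7) between two levels -/
theorem order' (h : GeoFam t m S v sl) {k j : ℤ} (hkj : k ≤ j) (i i' : ι) (hi : S i) (hi' : S i')
    (hle : ∀ e, incU t j (v i') e ≤ incU t j (v i) e) (e : ℤ) :
    incU t k (v i') e ≤ incU t k (v i) e :=
  inc_fU_le_of_le h.noTies h.nonneg (h.big i hi) (h.upDown i hi) (h.big i' hi') (h.upDown i' hi')
    hkj hle e

/-- (o7) -/
theorem order (h : GeoFam t m S v sl) (i j : ι) (hi : S i) (hj : S j)
    (hle : ∀ e, incU t 0 (v j) e ≤ incU t 0 (v i) e) (n : ℕ) (e : ℤ) :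
    incU t (-n) (v j) e ≤ incU t (-n) (v i) e :=
  h.order' (by omega) i j hi hj hle e

/-- equal increments on the upper level give equal increments on the lower level -/
theorem eq_of_eq (h : GeoFam t m S v sl) {k j : ℤ} (hkj : k ≤ j) (i i' : ι) (hi : S i)
    (hi' : S i') (he : ∀ e, incU t j (v i') e = incU t j (v i) e) (e : ℤ) :
    incU t k (v i') e = incU t k (v i) e :=
  inc_fU_eq_of_eq h.nonneg (h.big i hi) (h.upDown i hi) (h.big i' hi') (h.upDown i' hi') hkj he e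

/-- (o6) -/
theorem coal (h : GeoFam t m S v sl) {k : ℤ} (i₀ j₀ : ι) (e₀ : ℤ) (hi₀ : S i₀) (hj₀ : S j₀)
    (hs : sl i₀ = sl j₀) (hne : incU t k (v i₀) e₀ ≠ incU t k (v j₀) e₀) (i j : ι) (hi : S i)
    (hj : S j) (hsi : sl i = sl i₀) (hsj : sl j = sl i₀) :
    ∀ᶠ n : ℕ in atTop, (tailU (-(n : ℤ)) (v i) 0).1 = (tailU (-(n : ℤ)) (v j) 0).1 := by
  filter_upwards [eventually_loc_eq (h.upDown i hi) (h.upDown j hj)
    (h.lowCoal k i₀ j₀ e₀ hi₀ hj₀ hs hne i j hi hj hsi hsj)] with n hn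
  rw [hn]

/-- restriction to a smaller class -/
theorem mono (h : GeoFam t m S v sl) {S' : ι → Prop} (hS : ∀ i, S' i → S i) :
    GeoFam t m S' v sl where
  noTies := h.noTies
  nonneg := h.nonneg
  big i hi := h.big i (hS i hi)
  upDown i hi := h.upDown i (hS i hi)
  slope i hi := h.slope i (hS i hi)
  time := h.time
  growth i hi := h.growth i (hS i hi)
  lowCoal k i₀ j₀ e₀ hi₀ hj₀ hs hne i j hi hj :=
    h.lowCoal k i₀ j₀ e₀ (hS i₀ hi₀) (hS j₀ hj₀) hs hne i j (hS i hi) (hS j hj)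

/-- re-indexing -/
theorem comp {κ : Type*} (h : GeoFam t m S v sl) (g : κ → ι) :
    GeoFam t m (fun a => S (g a)) (fun a => v (g a)) (fun a => sl (g a)) where
  noTies := h.noTies
  nonneg := h.nonneg
  big _ hi := h.big _ hi
  upDown _ hi := h.upDown _ hi
  slope _ hi := h.slope _ hi
  time := h.time
  growth _ hi := h.growth _ hi
  lowCoal k i₀ j₀ e₀ hi₀ hj₀ hs hne i j hi hj :=
    h.lowCoal k (g i₀) (g j₀) e₀ hi₀ hj₀ hs hne (g i) (g j) hi hj

end GeoFam

/-- two growth rates on the same level agree -/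
theorem GrowU.unique {t : Environment} {k : ℤ} {v : ℤ → ℤ × ℤ} {s s' : ℝ}
    (hv : GrowU t k v s) (hw : GrowU t k v s') : s = s' :=
  le_antisymm (hw.slope_le hv fun _ => le_rfl) (hv.slope_le hw fun _ => le_rfl)

/-- The bundle for the family of ALL bigeodesics of a class, with a slope function: `v := id`. -/
theorem GeoFam.of_class {t : Environment} {m : ℝ} {B : (ℤ → ℤ × ℤ) → Prop}
    {σ : (ℤ → ℤ × ℤ) → ℝ} (h : GeoFam t m B (fun v => v) σ) {ι : Type*} {S : ι → Prop}
    {v : ι → ℤ → ℤ × ℤ} (hS : ∀ i, S i → B (v i)) :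
    GeoFam t m S v (fun i => σ (v i)) :=
  (h.comp v).mono hS

end Crest.Agent.R151.Y
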