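import Mathlib
import Crest.Prelude.Def_PlanarFPP
import Crest.Agent.R151.Y635G
import Crest.Agent.R151.D411d

/-!
# R151, Y635H (helper635): the lower bound for the passage times between two levels from the shape
theorem

`uShape_lb`: `μ (y - x) - ε (‖x‖₁ + ‖y‖₁) - C ≤ T(x, y)` for all `x, y` (fixed environment);
`SmoothNorm.fst_le`: `μ (1,0) |a| ≤ μ (a, b)`; `timeLB`: `TimeLB t (μ (1,0)) k j` for all levels.
-/

set_option autoImplicit false

open MeasureTheory Filter Topology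
open scoped ENNReal
open Crest.ProbabilityR.FirstPassage

namespace Crest.Agent.R151.Y

open Crest.Agent.R151 Crest.Agent.R151.SEL Crest.Agent.R151.D411

/-- the uniform shape theorem in the form with an additive constant -/
theorem abs_sub_le_of_uShape {μ : ℝ × ℝ → ℝ} {t : Environment} (h : UShape μ t) :
    ∀ ε > 0, ∃ C : ℝ, 0 ≤ C ∧ ∀ x y : ℤ × ℤ, |passageTime t x y - μ (K.toR (y - x))| ≤
      ε * (|(x.1 : ℝ)| + |(x.2 : ℝ)| + |(y.1 : ℝ)| + |(y.2 : ℝ)|) + C := by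
  intro ε hε
  obtain ⟨N, hN⟩ := eventually_atTop.1 (h ε hε)
  refine ⟨ε * N, by positivity, fun x y => ?_⟩
  obtain ⟨n, hn⟩ : ∃ n : ℕ, n = N + x.1.natAbs + x.2.natAbs + y.1.natAbs + y.2.natAbs := ⟨_, rfl⟩
  have h1 := hN n (by omega)
  have hx : x ∈ K.box n := by
    rw [K.mem_box]
    omega
  have hy : y ∈ K.box n := by
    rw [K.mem_box]
    omega
  have h2 := K.le_dev μ t hx hy
  have e : ∀ a : ℤ, ((a.natAbs : ℕ) : ℝ) = |(a : ℝ)| := fun a => by
    rw [← Int.cast_abs, Int.abs_eq_natAbs]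
    simp
  have h3 : (n : ℝ) = N + |(x.1 : ℝ)| + |(x.2 : ℝ)| + |(y.1 : ℝ)| + |(y.2 : ℝ)| := by
    rw [hn]
    push_cast [e]
    ring
  rw [h3] at h1
  linarith

theorem smoothNorm_fst_le {μ : ℝ × ℝ → ℝ} (h : SmoothNorm μ) (a b : ℝ) :
    μ (1, 0) * |a| ≤ μ (a, b) := by
  have h1 : μ (a, -b) = μ (a, b) := by
    have := h.norm.neg (a, -b)
    rw [Prod.neg_mk, neg_neg] at this
    rw [← this, h.refl]
  have h2 := h.norm.add (a, b) (a, -b)
  rw [h1, Prod.mk_add_mk, add_neg_cancel] at h2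
  have h3 : μ (a + a, 0) = 2 * |a| * μ (1, 0) := by
    rcases le_total 0 a with ha | ha
    · have := h.norm.smul (a + a) (1, 0) (by linarith)
      rw [Prod.smul_mk, smul_eq_mul, smul_eq_mul, mul_one, mul_zero] at this
      rw [this, abs_of_nonneg ha]
      ring
    · have := h.norm.smul (-(a + a)) (-1, 0) (by linarith)
      rw [Prod.smul_mk, smul_eq_mul, smul_eq_mul, mul_zero, mul_neg_one, neg_neg] at this
      rw [this, abs_of_nonpos ha, h.refl]
      ring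
  rw [h3] at h2
  linarith

theorem smoothNorm_snd_le {μ : ℝ × ℝ → ℝ} (h : SmoothNorm μ) (a b : ℝ) :
    μ (1, 0) * |b| ≤ μ (a, b) := by
  rw [← h.swap a b]
  exact smoothNorm_fst_le h b a

theorem timeLB {μ : ℝ × ℝ → ℝ} (hμ : SmoothNorm μ) {t : Environment} (ht : ∀ e, 0 ≤ t e)
    (h : UShape μ t) {k j : ℤ} (hkj : k ≤ j) : TimeLB t (μ (1, 0)) k j := by
  intro ε hε
  obtain ⟨C, hC0, hC⟩ := abs_sub_le_of_uShape h ε hε
  refine ⟨C + ε * (|(k : ℝ)| + |(j : ℝ)|), fun x z => ?_⟩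
  have h1 := hC (x, k) (z, j)
  have h2 : passageTime t (x, k) (z, j) ≤ pt (reg (Up k)) t (x, k) (z, j) := by
    rw [passageTime_eq_pt]
    exact pt_anti (fun a b hab => hab.1) ht (reachable_Up le_rfl hkj)
  have h3 := smoothNorm_fst_le hμ (((z - x : ℤ)) : ℝ) (((j - k : ℤ)) : ℝ)
  have h4 : K.toR ((z, j) - (x, k)) = ((((z - x : ℤ)) : ℝ), (((j - k : ℤ)) : ℝ)) := by
    simp [K.toR]
  rw [h4] at h1
  have h5 := neg_abs_le (passageTime t (x, k) (z, j) - μ ((((z - x : ℤ)) : ℝ), (((j - k : ℤ)) : ℝ)))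
  have h6 : |(x : ℝ) - z| = |(((z - x : ℤ)) : ℝ)| := by
    rw [abs_sub_comm]
    push_cast
    rfl
  rw [h6]
  simp only at h1
  nlinarith

end Crest.Agent.R151.Y
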