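import Crest.Agent.R151.Y635I
import Crest.Agent.R151.Y635H
import Crest.Agent.R151.UC290c
import Crest.Agent.R151.H617f
import Crest.Agent.R151.SL856d

/-!
# R151, block [FACTS] (helper565), deterministic part

`sand_of_hasSlope`, `sandUp_of_hasSlope` : a function comparable with all members of a monotone
family and with slope `s` has the label `s`.
`UC1 m D f g C t` (conclusion of block UC for the upper rays) gives field `ucD` of `Y96.Facts`.
`facts_of` : all the fields.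
-/

set_option autoImplicit false

open MeasureTheory Filter Topology
open Crest.ProbabilityR.FirstPassage

namespace Crest.Agent.R151.FA

open Crest.Agent.R151 Crest.Agent.R151.SEL Crest.Agent.R151.Y Crest.Agent.R151.H
open Crest.Agent.R151.Y96

/-! ### labels from slopes -/

/-- functions with comparable increments: the slopes are ordered -/
lemma slope_le_of_inc_le {h k : ℤ → ℝ} {c d : ℝ} (H : HasSlope h c) (K : HasSlope k d)
    (hle : ∀ x, inc h x ≤ inc k x) : c ≤ d := by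
  have h1 : ∀ᶠ x : ℤ in atTop, h x / x ≤ (k x + (h 0 - k 0)) / x := by
    filter_upwards [eventually_gt_atTop 0] with x hx
    have hx' : (0 : ℝ) < x := by exact_mod_cast hx
    have := sub_le_sub_of_inc_le hle hx.le
    gcongr
    linarith
  exact le_of_tendsto_of_tendsto H.top (K.add_const (h 0 - k 0)).top h1

theorem sand_of_hasSlope {D : Set ℝ} {f : ℝ → ℤ → ℝ} {s : ℝ} {h : ℤ → ℝ}
    (hf : ∀ p ∈ D, HasSlope (f p) (-p)) (hc : ∀ p ∈ D, Cmp (f p) h) (hh : HasSlope h (-s)) :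
    Sand D f s h where
  le p hp hps x := by
    rcases hc p hp with h1 | h1
    · have := slope_le_of_inc_le (hf p hp) hh h1
      linarith
    · exact h1 x
  ge q hq hsq x := by
    rcases hc q hq with h1 | h1
    · exact h1 x
    · have := slope_le_of_inc_le hh (hf q hq) h1
      linarith

theorem sandUp_of_hasSlope {D : Set ℝ} {f : ℝ → ℤ → ℝ} {s : ℝ} {h : ℤ → ℝ}
    (hf : ∀ p ∈ D, HasSlope (f p) p) (hc : ∀ p ∈ D, Cmp (f p) h) (hh : HasSlope h s) :
    SandUp D f s h where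
  ge p hp hps x := by
    rcases hc p hp with h1 | h1
    · exact h1 x
    · have := slope_le_of_inc_le hh (hf p hp) h1
      linarith
  le q hq hsq x := by
    rcases hc q hq with h1 | h1
    · have := slope_le_of_inc_le (hf q hq) hh h1
      linarith
    · exact h1 x

/-! ### one environment -/

/-- the label families at one environment; `m = μ (1,0)` -/
structure Lab (C : ℝ) (D : Set ℝ) (f g : ℝ → ℤ → ℤ → ℝ) (t : Environment) : Prop where
  slU : ∀ k, ∀ p ∈ D, HasSlope (f p k) (-p)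
  slD : ∀ k, ∀ p ∈ D, HasSlope (g p k) p
  cmpU : ∀ k, ∀ p ∈ D, ∀ v ∈ Big C t, Cmp (f p k) (fun x => fU t k v (x, k))
  cmpD : ∀ k, ∀ p ∈ D, ∀ v ∈ Big C t, Cmp (g p k) (fun x => fD t k v (x, k))

/-- conclusion of block UC for upper rays (helper290): `g · j` = lower family on row `j` -/
def UC1 (m : ℝ) (D : Set ℝ) (f g : ℝ → ℤ → ℤ → ℝ) (t : Environment) : Prop :=
  ∀ j : ℤ, ∀ s : ℝ, |s| < m → ContAt D (fun p => g p j) s ∨
    ∀ u u' : ℕ → ℤ × ℤ, IsRay t (D624.gH (j + 1)) u → IsRay t (D624.gH (j + 1)) u' →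
      Tendsto (fun n => (u n).2) atTop atTop → Tendsto (fun n => (u' n).2) atTop atTop →
      UC.SlopeU D f t (j + 1) s u → UC.SlopeU D f t (j + 1) s u' → Coal u u'

section det

variable {m C : ℝ} {D : Set ℝ} {f g : ℝ → ℤ → ℤ → ℝ} {t : Environment}

theorem Lab.sand (h : Lab C D f g t) {v : ℤ → ℤ × ℤ} (hv : v ∈ Big C t) {s : ℝ}
    (hs : HasSl t v s) (k : ℤ) : Sand D (fun p => f p k) s (fun x => fU t k v (x, k)) :=
  sand_of_hasSlope (h.slU k) (fun p hp => h.cmpU k p hp v hv) (hs.up k)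

theorem Lab.sandUp (h : Lab C D f g t) {v : ℤ → ℤ × ℤ} (hv : v ∈ Big C t) {s : ℝ}
    (hs : HasSl t v s) (k : ℤ) : SandUp D (fun p => g p k) s (fun x => fD t k v (x, k)) :=
  sandUp_of_hasSlope (h.slD k) (fun p hp => h.cmpD k p hp v hv) (hs.dn k)

theorem Lab.incU_eq (h : Lab C D f g t) {v w : ℤ → ℤ × ℤ} (hv : v ∈ Big C t) (hw : w ∈ Big C t)
    {s : ℝ} (hvs : HasSl t v s) (hws : HasSl t w s) {k : ℤ} (hc : ContAt D (fun p => f p k) s)
    (e : ℤ) : Y96.incU t k v e = Y96.incU t k w e :=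
  (h.sand hv hvs k).sandU.inc_eq hc (h.sand hw hws k).sandU e

theorem Lab.incD_eq (h : Lab C D f g t) {v w : ℤ → ℤ × ℤ} (hv : v ∈ Big C t) (hw : w ∈ Big C t)
    {s : ℝ} (hvs : HasSl t v s) (hws : HasSl t w s) {k : ℤ} (hc : ContAt D (fun p => g p k) s)
    (e : ℤ) : Y96.incD t k v e = Y96.incD t k w e :=
  (h.sandUp hv hvs k).sandU.inc_eq hc (h.sandUp hw hws k).sandU e

/-- CHAIN -/
theorem Lab.chain (h : Lab C D f g t) {v w : ℤ → ℤ × ℤ} (hv : v ∈ Big C t) (hw : w ∈ Big C t)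
    {s : ℝ} (hvs : HasSl t v s) (hws : HasSl t w s) {k l : ℤ}
    (hc : ContAt D (fun p => f p k) s ∨ ContAt D (fun p => g p l) s) :
    (∀ e, Y96.incU t k v e = Y96.incU t k w e) ∨ (∀ e, incD t l v e = incD t l w e) :=
  hc.imp (fun hc e => h.incU_eq hv hw hvs hws hc e) fun hc e => h.incD_eq hv hw hvs hws hc e

/-- the upper tail of a bigeodesic has the slope of the bigeodesic on all higher lines -/
theorem Lab.slopeU (h : Lab C D f g t) {v : ℤ → ℤ × ℤ} (hv : v ∈ Big C t) {s : ℝ}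
    (hs : HasSl t v s) (k : ℤ) : UC.SlopeU D f t k s (tailU k v) := by
  intro j hj
  have hud := updown_of_big hv
  have hle : entU k v ≤ entU j v := by
    refine hud.entU_le fun i hi => ?_
    exact hj.trans (hud.entU_spec hi)
  refine ⟨(entU j v - entU k v).toNat, fun n => ?_, ?_⟩
  · unfold tailU
    refine hud.entU_spec ?_
    push_cast
    omega
  · have e : (fun n => tailU k v ((entU j v - entU k v).toNat + n)) = tailU j v := by
      funext n
      unfold tailU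
      congr 1
      push_cast
      omega
    rw [e]
    exact h.sand hv hs j

theorem tailU_top {v : ℤ → ℤ × ℤ} (hud : UpDown v) (k : ℤ) :
    Tendsto (fun n => (tailU k v n).2) atTop atTop := by
  have h1 : Tendsto (fun n : ℕ => entU k v + (n : ℤ)) atTop atTop :=
    tendsto_atTop_add_const_left _ _ tendsto_natCast_atTop_atTop
  exact hud.1.comp h1

theorem highCoal_of_coal_tailU {v w : ℤ → ℤ × ℤ} {l m : ℤ} (h : Coal (tailU l v) (tailU m w)) :
    HighCoal v w := by
  obtain ⟨i, j, h⟩ := h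
  refine ⟨entU l v + i, entU m w + j, fun n => ?_⟩
  have := h n
  unfold tailU at this
  rw [show entU l v + i + n = entU l v + ((i + n : ℕ) : ℤ) by push_cast; ring,
    show entU m w + j + n = entU m w + ((j + n : ℕ) : ℤ) by push_cast; ring, this]

/-- field `ucD` -/
theorem Lab.ucD (h : Lab C D f g t) (ht : ∀ e, 0 ≤ t e)
    (hsl : ∀ v ∈ Big C t, ∃ s, |s| < m ∧ HasSl t v s) (huc : UC1 m D f g t)
    {v₀ w₀ : ℤ → ℤ × ℤ} (hv₀ : v₀ ∈ Big C t) (hw₀ : w₀ ∈ Big C t) {s : ℝ}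
    (hvs₀ : HasSl t v₀ s) (hws₀ : HasSl t w₀ s)
    (hne : ∃ k e, Y96.incD t k v₀ e ≠ Y96.incD t k w₀ e) {v w : ℤ → ℤ × ℤ} (hv : v ∈ Big C t)
    (hw : w ∈ Big C t) (hvs : HasSl t v s) (hws : HasSl t w s) : HighCoal v w := by
  obtain ⟨k, e, hk⟩ := hne
  have hs : |s| < m := by
    obtain ⟨s', h1, h2⟩ := hsl v₀ hv₀
    rwa [(h2.up 0).unique (hvs₀.up 0) |> neg_injective] at h1
  rcases huc k s hs with hc | hc
  · exact absurd (h.incD_eq hv₀ hw₀ hvs₀ hws₀ hc e) hk
  · have hvU := updown_of_big hv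
    have hwU := updown_of_big hw
    exact highCoal_of_coal_tailU (hc (tailU (k + 1) v) (tailU (k + 1) w)
      (isRay_tailU hv.1 ht hvU _) (isRay_tailU hw.1 ht hwU _) (tailU_top hvU _) (tailU_top hwU _)
      (h.slopeU hv hvs _) (h.slopeU hw hws _))

end det

/-- the field `ucD` as a property of the environment -/
def UcD (C : ℝ) (t : Environment) : Prop :=
  ∀ v₀ ∈ Big C t, ∀ w₀ ∈ Big C t, ∀ s, HasSl t v₀ s → HasSl t w₀ s →
    (∃ k e, Y96.incD t k v₀ e ≠ Y96.incD t k w₀ e) →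
    ∀ v ∈ Big C t, ∀ w ∈ Big C t, HasSl t v s → HasSl t w s → HighCoal v w

/-- the field `ucU` as a property of the environment -/
def UcU (C : ℝ) (t : Environment) : Prop :=
  ∀ v₀ ∈ Big C t, ∀ w₀ ∈ Big C t, ∀ s, HasSl t v₀ s → HasSl t w₀ s →
    (∃ k e, Y96.incU t k v₀ e ≠ Y96.incU t k w₀ e) →
    ∀ v ∈ Big C t, ∀ w ∈ Big C t, HasSl t v s → HasSl t w s → LowCoal v w

/-- the two fields are exchanged by the reflection -/
theorem ucU_of_refl {C : ℝ} {t : Environment} (h : UcD C (N.refl t)) : UcU C t := by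
  intro v₀ hv₀ w₀ hw₀ s hvs₀ hws₀ hne v hv w hw hvs hws
  have hv₀U := updown_of_big hv₀
  have hw₀U := updown_of_big hw₀
  have h1 := h _ (big_rv hv₀) _ (big_rv hw₀) (-s) (hvs₀.rv hv₀U) (hws₀.rv hw₀U) (by
    obtain ⟨k, e, hk⟩ := hne
    refine ⟨-k, e, ?_⟩
    rw [incD_refl hv₀U, incD_refl hw₀U]
    exact hk) _ (big_rv hv) _ (big_rv hw) (hvs.rv (updown_of_big hv)) (hws.rv (updown_of_big hw))
  exact highCoal_rv.1 h1

/-- **assembly** for one environment -/
theorem facts_of {m C : ℝ} {D : Set ℝ} {f g : ℝ → ℤ → ℤ → ℝ} {t : Environment}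
    (nn : ∀ e, 0 ≤ t e) (nt : NoTies t)
    (grow : ∀ k j : ℤ, ∀ ε > 0, ∃ C' : ℝ, ∀ x z : ℤ,
      m * |(x : ℝ) - z| - ε * (|(x : ℝ)| + |(z : ℝ)|) - C' ≤ passageTime t (x, k) (z, j))
    (slope : ∀ v ∈ Big C t, ∃ s, |s| < m ∧ HasSl t v s) (hL : Lab C D f g t)
    (chain : ∀ k l : ℤ, l < k → ∀ s, |s| < m →
      ContAt D (fun p => f p k) s ∨ ContAt D (fun p => g p l) s)
    (ucU : UcU C t) (ucD : UcD C t) : Facts m C t where
  nn := nn
  nt := nt
  grow := grow
  slope := slope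
  chain v hv w hw s hvs hws k l hlk := by
    refine hL.chain hv hw hvs hws (chain k l hlk s ?_)
    obtain ⟨s', h1, h2⟩ := slope v hv
    rwa [(h2.up 0).unique (hvs.up 0) |> neg_injective] at h1
  ucU := ucU
  ucD := ucD

end Crest.Agent.R151.FA
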