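import Mathlib
import Crest.Agent.R151.SL906A

/-!
# R151, SL906B: total comparability for arbitrary target sequences in the half-plane
(469's two planar lemmas, deterministic)

`HalfLim t k b B`: `B : ℤ → ℝ` is the limit of `T_half((x,k), b n)` up to constants, where
`b n` are points of the half-plane `{k ≤ y}` with heights tending to infinity.

* `sep_cross`: a walk between two boundary points meets every walk from a boundary point between
  them to the top row
* `swap`: exchange at a common vertex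
* `quasiconcave`, `quasiconvex`: three-point inequalities for `B - f`
* `HalfLim.comparable`: `B` and a strip limit `f` are totally comparable
-/

set_option autoImplicit false

open Crest.ProbabilityR.FirstPassage
open scoped Classical
open Filter Topology

namespace Crest.Agent.R151.SL9

open Crest.Agent.R151 Crest.Agent.R151.Y Crest.Agent.R151.Pl

/-- a walk of the half-plane below row `hi` between two boundary points meets every walk from a
boundary point between them to row `hi` -/
theorem sep_cross {lo hi : ℤ} {a b c d : Pt} (α : squareLattice.Walk a d)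
    (β : squareLattice.Walk b c)
    (hα : ∀ x ∈ α.support, lo ≤ x.2 ∧ x.2 < hi) (hβ : ∀ x ∈ β.support, lo ≤ x.2)
    (ha : a.2 = lo) (hb : b.2 = lo) (hd : d.2 = lo) (hc : c.2 = hi)
    (hab : a.1 ≤ b.1) (hbd : b.1 ≤ d.1) : ∃ x, x ∈ α.support ∧ x ∈ β.support := by
  by_contra hno
  push Not at hno
  have ext : ∀ {p q : Pt}, p.1 = q.1 → p.2 = q.2 → p = q := fun h1 h2 => Prod.ext h1 h2
  have nab : a.1 ≠ b.1 := fun h => hno a α.start_mem_support
    (by rw [ext h (ha.trans hb.symm)]; exact β.start_mem_support)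
  have nbd : b.1 ≠ d.1 := fun h => hno d α.end_mem_support
    (by rw [← ext h (hb.trans hd.symm)]; exact β.start_mem_support)
  have hlt : lo < hi := by
    have := hα a α.start_mem_support; omega
  obtain ⟨x, h1, h2⟩ := ray_theorem α β .dn .dn .dn .up
    (fun x hx h => hno a α.start_mem_support (by
      have e : x = a := ext h.1 (le_antisymm h.2 (by rw [ha]; exact hβ x hx))
      rwa [← e]))
    (fun x hx h => hno d α.end_mem_support (by
      have e : x = d := ext h.1 (le_antisymm h.2 (by rw [hd]; exact hβ x hx))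
      rwa [← e]))
    (fun x hx h => hno x hx (by
      have e : x = b := ext h.1 (le_antisymm h.2 (by rw [hb]; exact (hα x hx).1))
      rw [e]; exact β.start_mem_support))
    (fun x hx h => by
      have h1 := (hα x hx).2
      have h2 := h.2
      omega)
    (fun x h h' => nab (h.1.symm.trans h'.1))
    (fun x h h' => by
      have h1 := h.2
      have h2 := h'.2
      omega)
    (fun x h h' => nbd (h'.1.symm.trans h.1))
    (fun x h h' => by
      have h1 := h.2
      have h2 := h'.2
      omega)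
    (by
      rw [ind_neg (P := prec .dn a .dn b) (by simp only [prec, rk, co]; omega),
        ind_pos (P := prec .dn d .up c) (Or.inl (by simp [rk])),
        ind_pos (P := prec .dn a .up c) (Or.inl (by simp [rk])),
        ind_pos (P := prec .dn d .dn b) (Or.inr ⟨rfl, by simp only [co]; omega⟩)]
      norm_num)
  exact hno x h1 h2

/-- exchange at a common vertex -/
theorem swap {t : Environment} {a b c d p : Pt} {H : SimpleGraph Pt}
    (ht : ∀ e, 0 ≤ t e) (α : H.Walk a d) (β : H.Walk b c) (hp : p ∈ α.support)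
    (hp' : p ∈ β.support) : pt H t a c + pt H t b d ≤ wcost t α + wcost t β := by
  have eα : wcost t (α.takeUntil p hp) + wcost t (α.dropUntil p hp) = wcost t α := by
    rw [← wcost_append, SimpleGraph.Walk.take_spec]
  have eβ : wcost t (β.takeUntil p hp') + wcost t (β.dropUntil p hp') = wcost t β := by
    rw [← wcost_append, SimpleGraph.Walk.take_spec]
  have m1 := pt_le_wcost ht ((α.takeUntil p hp).append (β.dropUntil p hp'))
  have m2 := pt_le_wcost ht ((β.takeUntil p hp').append (α.dropUntil p hp))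
  rw [wcost_append] at m1 m2
  linarith

theorem height_bound {H : SimpleGraph Pt} {a b : Pt} (w : H.Walk a b) :
    ∃ M : ℤ, ∀ z ∈ w.support, z.2 ≤ M := by
  have hfin : (w.support.toFinset.image Prod.snd).Nonempty :=
    ⟨a.2, Finset.mem_image.2 ⟨a, by simp, rfl⟩⟩
  exact ⟨(w.support.toFinset.image Prod.snd).max' hfin, fun z hz =>
    Finset.le_max' _ _ (Finset.mem_image.2 ⟨z, by simpa using hz, rfl⟩)⟩

theorem sep_strip (k N : ℤ) : Sep (reg (half k)) (reg (strip k N)) (strip k N)
    {z | k ≤ z.2 ∧ z.2 = N} := by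
  refine ⟨reg_mono (strip_subset_half _ _), fun z hz => ⟨hz.1, hz.2.le⟩, ?_⟩
  intro a b hab hb hbL
  have h1 : b.2 < N := lt_of_le_of_ne hb.2 fun h => hbL ⟨hb.1, h⟩
  have h2 := adj_snd_le hab.1.symm
  have ha : a ∈ strip k N := ⟨hab.2.1, by omega⟩
  exact ⟨⟨hab.1, ha, hb⟩, ha⟩

/-- a walk of the half-plane inside the strip -/
theorem exists_strip_walk {k N : ℤ} {a b : Pt} (w : (reg (half k)).Walk a b) (ha : k ≤ a.2)
    (hN : ∀ z ∈ w.support, z.2 ≤ N) (t : Environment) :
    ∃ w' : (reg (strip k N)).Walk a b, wcost t w' = wcost t w ∧ w'.support = w.support := by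
  have hs := reg_support w (show a ∈ half k from ha)
  have he : ∀ e ∈ w.edges, e ∈ (reg (strip k N)).edgeSet := by
    intro e he
    induction e using Sym2.ind with
    | _ x y =>
      rw [SimpleGraph.mem_edgeSet]
      have hx := w.fst_mem_support_of_mem_edges he
      have hy := w.snd_mem_support_of_mem_edges he
      exact ⟨(w.adj_of_mem_edges he).1, ⟨hs _ hx, hN _ hx⟩, ⟨hs _ hy, hN _ hy⟩⟩
  refine ⟨w.transfer _ he, ?_, w.support_transfer he⟩
  unfold wcost
  rw [SimpleGraph.Walk.edges_transfer]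

/-- crossing in the strip graph -/
theorem strip_walk_cross {k N : ℤ} {a b c d : Pt} (hkN : k ≤ N) (α : (reg (strip k N)).Walk a d)
    (β : (reg (strip k N)).Walk b c) (ha : a.2 = k) (hb : b.2 = k) (hd : d.2 = N) (hc : c.2 = N)
    (hab : a.1 ≤ b.1) (hcd : c.1 ≤ d.1) : ∃ x, x ∈ α.support ∧ x ∈ β.support := by
  have h := strip_cross (α.mapLe (reg_le _)) (β.mapLe (reg_le _))
    (lo := k) (hi := N) (fun x hx => by
      rw [SimpleGraph.Walk.support_mapLe_eq_support] at hx
      exact reg_support α (show a ∈ strip k N from ⟨ha.ge, by omega⟩) x hx) (fun x hx => by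
      rw [SimpleGraph.Walk.support_mapLe_eq_support] at hx
      exact reg_support β (show b ∈ strip k N from ⟨hb.ge, by omega⟩) x hx) ha hb hd hc hab hcd
  simpa only [SimpleGraph.Walk.support_mapLe_eq_support] using h

/-- **quasiconcavity**, finite version: `z` on the row `N`, `b` on or above the row `N` -/
theorem quasiconcave_fin {t : Environment} (ht : ∀ e, 0 ≤ t e) {k N : ℤ} (hkN : k ≤ N)
    {z b : Pt} (hz : z.2 = N) (hb : N ≤ b.2) {x₁ x x₂ : ℤ} (h1 : x₁ ≤ x) (h2 : x ≤ x₂) :
    pt (reg (half k)) t (x₂, k) b - pt (reg (half k)) t (x, k) b ≤ sdiff k N t (x₂, k) (x, k) z ∨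
      pt (reg (half k)) t (x₁, k) b - pt (reg (half k)) t (x, k) b ≤
        sdiff k N t (x₁, k) (x, k) z := by
  by_contra hcon
  push Not at hcon
  obtain ⟨c1, c2⟩ := hcon
  unfold sdiff at c1 c2
  set g : ℤ → ℝ := fun x => pt (reg (half k)) t (x, k) b with hg
  set F : ℤ → ℝ := fun x => pt (reg (strip k N)) t (x, k) z with hF
  have c1' : F x₂ - F x < g x₂ - g x := c1
  have c2' : F x₁ - F x < g x₁ - g x := c2
  have mem : ∀ u : ℤ, ((u, k) : Pt) ∈ strip k N := fun u => ⟨le_rfl, hkN⟩
  have mz : z ∈ strip k N := ⟨by rw [hz]; exact hkN, hz.le⟩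
  obtain ⟨δ, hδ, d1, d2⟩ : ∃ δ > 0, F x₂ - F x + 2 * δ ≤ g x₂ - g x ∧
      F x₁ - F x + 2 * δ ≤ g x₁ - g x := by
    refine ⟨min ((g x₂ - g x) - (F x₂ - F x)) ((g x₁ - g x) - (F x₁ - F x)) / 2, ?_, ?_, ?_⟩
    · exact half_pos (lt_min (by linarith) (by linarith))
    · have := min_le_left ((g x₂ - g x) - (F x₂ - F x)) ((g x₁ - g x) - (F x₁ - F x))
      linarith
    · have := min_le_right ((g x₂ - g x) - (F x₂ - F x)) ((g x₁ - g x) - (F x₁ - F x))
      linarith
  obtain ⟨w, hw⟩ := exists_wcost_lt (half_reach (k := k) (x := (x, k)) (y := b) le_rfl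
    (hkN.trans hb)) (show pt (reg (half k)) t (x, k) b < g x + δ by simp only [hg]; linarith)
  -- first hit of the row `N`
  obtain ⟨c, hc, w1, w2, rfl⟩ := (sep_strip k N).exists_first_exit w (mem x)
    (fun h => ⟨h.1, le_antisymm h.2 hb⟩)
  have hcost : wcost t w1 + wcost t w2 < g x + δ := by
    have : wcost t (w1.mapLe (sep_strip k N).le) = wcost t w1 := by
      unfold wcost; rw [SimpleGraph.Walk.edges_mapLe_eq_edges]
    rwa [wcost_append, this] at hw
  have hcs : c ∈ strip k N := ⟨hc.1, hc.2.le⟩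
  have hcb : pt (reg (half k)) t c b ≤ wcost t w2 := pt_le_wcost ht w2
  rcases le_total z.1 c.1 with hzc | hzc
  · -- the walk hits the row right of `z`
    obtain ⟨β, hβ⟩ := exists_wcost_lt (strip_reach (mem x₂) mz)
      (show pt (reg (strip k N)) t (x₂, k) z < F x₂ + δ by simp only [hF]; linarith)
    obtain ⟨p, hp, hp'⟩ := strip_walk_cross hkN w1 β rfl rfl hc.2 hz h2 hzc
    have hs := swap ht w1 β hp hp'
    have e1 := pt_half_le_strip ht (mem x₂) hcs
    have e2 := pt_triangle ht (half_reach (k := k) (x := (x₂, k)) (y := c) le_rfl hc.1)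
      (half_reach (k := k) (x := c) (y := b) hc.1 (hkN.trans hb))
    have e3 : pt (reg (strip k N)) t (x, k) z = F x := rfl
    have e4 : pt (reg (half k)) t (x₂, k) b = g x₂ := rfl
    linarith
  · obtain ⟨β, hβ⟩ := exists_wcost_lt (strip_reach (mem x₁) mz)
      (show pt (reg (strip k N)) t (x₁, k) z < F x₁ + δ by simp only [hF]; linarith)
    obtain ⟨p, hp', hp⟩ := strip_walk_cross hkN β w1 rfl rfl hz hc.2 h1 hzc
    have hs := swap ht w1 β hp hp'
    have e1 := pt_half_le_strip ht (mem x₁) hcs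
    have e2 := pt_triangle ht (half_reach (k := k) (x := (x₁, k)) (y := c) le_rfl hc.1)
      (half_reach (k := k) (x := c) (y := b) hc.1 (hkN.trans hb))
    have e3 : pt (reg (strip k N)) t (x, k) z = F x := rfl
    have e4 : pt (reg (half k)) t (x₁, k) b = g x₁ := rfl
    linarith

/-- **quasiconvexity**, finite version: `b` fixed, `N` large -/
theorem quasiconvex_fin {t : Environment} (ht : ∀ e, 0 ≤ t e) {k : ℤ} {b : Pt} (hb : k ≤ b.2)
    {x₁ x x₂ : ℤ} (h1 : x₁ ≤ x) (h2 : x ≤ x₂) {ε : ℝ} (hε : 0 < ε) :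
    ∃ M : ℤ, ∀ N, M ≤ N → ∀ z : Pt, z.2 = N →
      sdiff k N t (x₁, k) (x, k) z ≤
          pt (reg (half k)) t (x₁, k) b - pt (reg (half k)) t (x, k) b + ε ∨
        sdiff k N t (x₂, k) (x, k) z ≤
          pt (reg (half k)) t (x₂, k) b - pt (reg (half k)) t (x, k) b + ε := by
  obtain ⟨γ₁, hγ₁⟩ := exists_wcost_lt (half_reach (k := k) (x := (x₁, k)) (y := b) le_rfl hb)
    (show pt (reg (half k)) t (x₁, k) b < pt (reg (half k)) t (x₁, k) b + ε / 2 by linarith)
  obtain ⟨γ₂, hγ₂⟩ := exists_wcost_lt (half_reach (k := k) (x := (x₂, k)) (y := b) le_rfl hb)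
    (show pt (reg (half k)) t (x₂, k) b < pt (reg (half k)) t (x₂, k) b + ε / 2 by linarith)
  obtain ⟨M₁, hM₁⟩ := height_bound γ₁
  obtain ⟨M₂, hM₂⟩ := height_bound γ₂
  refine ⟨max (max M₁ M₂) k + 1, fun N hN z hz => ?_⟩
  have a1 := le_max_left M₁ M₂
  have a2 := le_max_right M₁ M₂
  have a3 := le_max_left (max M₁ M₂) k
  have a4 := le_max_right (max M₁ M₂) k
  have hkN : k ≤ N := by omega
  have mem : ∀ u : ℤ, ((u, k) : Pt) ∈ strip k N := fun u => ⟨le_rfl, hkN⟩
  have mz : z ∈ strip k N := ⟨by rw [hz]; exact hkN, hz.le⟩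
  obtain ⟨g₁, hg₁, hs₁⟩ := exists_strip_walk γ₁ le_rfl (N := N)
    (fun u hu => (hM₁ u hu).trans (by omega)) t
  obtain ⟨g₂, hg₂, hs₂⟩ := exists_strip_walk γ₂ le_rfl (N := N)
    (fun u hu => (hM₂ u hu).trans (by omega)) t
  obtain ⟨β, hβ⟩ := exists_wcost_lt (strip_reach (mem x) mz)
    (show pt (reg (strip k N)) t (x, k) z < pt (reg (strip k N)) t (x, k) z + ε / 2 by linarith)
  have mb : b ∈ strip k N := ⟨hb, by
    have := hM₁ b γ₁.end_mem_support
    omega⟩
  have eb := pt_half_le_strip ht (mem x) mb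
  obtain ⟨p, hp, hpβ⟩ := sep_cross (lo := k) (hi := N)
    ((g₁.append g₂.reverse).mapLe (reg_le _)) (β.mapLe (reg_le _))
    (fun u hu => by
      rw [SimpleGraph.Walk.support_mapLe_eq_support, SimpleGraph.Walk.mem_support_append_iff,
        SimpleGraph.Walk.support_reverse, List.mem_reverse, hs₁, hs₂] at hu
      rcases hu with hu | hu
      · exact ⟨reg_support γ₁ (show ((x₁, k) : Pt) ∈ half k from le_refl k) u hu, by
          have := hM₁ u hu
          omega⟩
      · exact ⟨reg_support γ₂ (show ((x₂, k) : Pt) ∈ half k from le_refl k) u hu, by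
          have := hM₂ u hu
          omega⟩)
    (fun u hu => by
      rw [SimpleGraph.Walk.support_mapLe_eq_support] at hu
      exact (reg_support β (mem x) u hu).1) rfl rfl rfl hz h1 h2
  rw [SimpleGraph.Walk.support_mapLe_eq_support, SimpleGraph.Walk.mem_support_append_iff,
    SimpleGraph.Walk.support_reverse, List.mem_reverse] at hp
  rw [SimpleGraph.Walk.support_mapLe_eq_support] at hpβ
  unfold sdiff
  rcases hp with hp | hp
  · left
    have := swap ht g₁ β hp hpβ
    linarith
  · right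
    have := swap ht g₂ β hp hpβ
    linarith

/-! ### limits -/

/-- `B : ℤ → ℝ` is the limit of `T_half((x,k), b n)` up to constants; `b n` in the half-plane,
heights tending to infinity. -/
structure HalfLim (t : Environment) (k : ℤ) (b : ℕ → Pt) (B : ℤ → ℝ) : Prop where
  height : Tendsto (fun n => (b n).2) atTop atTop
  lim : ∀ x y : ℤ, Tendsto (fun n => pt (reg (half k)) t (x, k) (b n) -
    pt (reg (half k)) t (y, k) (b n)) atTop (𝓝 (B x - B y))

variable {t : Environment} {k : ℤ} {N z : ℕ → ℤ} {b : ℕ → Pt} {f B : ℤ → ℝ}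

theorem quasiconcave (ht : ∀ e, 0 ≤ t e) (hf : StripLim t k N z f) (hB : HalfLim t k b B)
    {x₁ x x₂ : ℤ} (h1 : x₁ ≤ x) (h2 : x ≤ x₂) :
    min (B x₁ - f x₁) (B x₂ - f x₂) ≤ B x - f x := by
  by_contra hcon
  push Not at hcon
  have c1 : f x₁ - f x < B x₁ - B x := by linarith [hcon.trans_le (min_le_left _ _)]
  have c2 : f x₂ - f x < B x₂ - B x := by linarith [hcon.trans_le (min_le_right _ _)]
  obtain ⟨e1, e1l, e1r⟩ := exists_between c1
  obtain ⟨e2, e2l, e2r⟩ := exists_between c2
  obtain ⟨j, j1, j2, j3⟩ := (((hf.lim x₁ x).eventually_lt_const e1l).and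
    (((hf.lim x₂ x).eventually_lt_const e2l).and hf.top)).exists
  obtain ⟨n, n1, n2, n3⟩ := (((hB.lim x₁ x).eventually_const_lt e1r).and
    (((hB.lim x₂ x).eventually_const_lt e2r).and
      (hB.height.eventually_ge_atTop (N j)))).exists
  rcases quasiconcave_fin ht j3 (z := (z j, N j)) (b := b n) rfl n3 h1 h2 with h | h <;> linarith

theorem quasiconvex (ht : ∀ e, 0 ≤ t e) (hN : Tendsto N atTop atTop) (hf : StripLim t k N z f)
    (hB : HalfLim t k b B) {x₁ x x₂ : ℤ} (h1 : x₁ ≤ x) (h2 : x ≤ x₂) :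
    B x - f x ≤ max (B x₁ - f x₁) (B x₂ - f x₂) := by
  by_contra hcon
  push Not at hcon
  have c1 : B x₁ - B x < f x₁ - f x := by linarith [(le_max_left _ _).trans_lt hcon]
  have c2 : B x₂ - B x < f x₂ - f x := by linarith [(le_max_right _ _).trans_lt hcon]
  obtain ⟨ε, hε, d1, d2⟩ : ∃ ε > 0, B x₁ - B x + 3 * ε < f x₁ - f x ∧
      B x₂ - B x + 3 * ε < f x₂ - f x := by
    refine ⟨min ((f x₁ - f x) - (B x₁ - B x)) ((f x₂ - f x) - (B x₂ - B x)) / 4, ?_, ?_, ?_⟩
    · have := lt_min (sub_pos.2 c1) (sub_pos.2 c2)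
      linarith
    · have h3 := min_le_left ((f x₁ - f x) - (B x₁ - B x)) ((f x₂ - f x) - (B x₂ - B x))
      have := lt_min (sub_pos.2 c1) (sub_pos.2 c2)
      linarith
    · have h3 := min_le_right ((f x₁ - f x) - (B x₁ - B x)) ((f x₂ - f x) - (B x₂ - B x))
      have := lt_min (sub_pos.2 c1) (sub_pos.2 c2)
      linarith
  obtain ⟨n, n1, n2, n3⟩ := (((hB.lim x₁ x).eventually_lt_const
      (show B x₁ - B x < B x₁ - B x + ε by linarith)).and
    (((hB.lim x₂ x).eventually_lt_const (show B x₂ - B x < B x₂ - B x + ε by linarith)).and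
      (hB.height.eventually_ge_atTop k))).exists
  obtain ⟨M, hM⟩ := quasiconvex_fin ht n3 h1 h2 hε
  obtain ⟨j, j1, j2, j3⟩ := (((hf.lim x₁ x).eventually_const_lt
      (show f x₁ - f x - ε < f x₁ - f x by linarith)).and
    (((hf.lim x₂ x).eventually_const_lt (show f x₂ - f x - ε < f x₂ - f x by linarith)).and
      (hN.eventually_ge_atTop M))).exists
  rcases hM (N j) j3 (z j, N j) rfl with h | h <;> linarith

/-- a function on `ℤ` that is quasiconcave and quasiconvex is monotone or antitone -/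
theorem monotone_or_antitone_of_between {h : ℤ → ℝ}
    (hc : ∀ x₁ x x₂ : ℤ, x₁ ≤ x → x ≤ x₂ → min (h x₁) (h x₂) ≤ h x)
    (hv : ∀ x₁ x x₂ : ℤ, x₁ ≤ x → x ≤ x₂ → h x ≤ max (h x₁) (h x₂)) :
    (∀ x, h x ≤ h (x + 1)) ∨ (∀ x, h (x + 1) ≤ h x) := by
  by_contra hcon
  push Not at hcon
  obtain ⟨⟨y, hy⟩, ⟨x, hx⟩⟩ := hcon
  -- `h (y+1) < h y`, `h x < h (x+1)`
  rcases lt_trichotomy x y with hxy | rfl | hxy
  · have e1 : h (x + 1) ≤ h y := by
      have := hv x (x + 1) y (by omega) (by omega)
      rcases le_max_iff.1 this with h' | h'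
      · linarith
      · exact h'
    have e2 := hv x y (y + 1) (by omega) (by omega)
    rcases le_max_iff.1 e2 with h' | h' <;> linarith
  · linarith
  · have e1 : h x ≤ h (y + 1) := by
      have := hc y (y + 1) x (by omega) (by omega)
      rcases min_le_iff.1 this with h' | h'
      · linarith
      · exact h'
    have e2 := hc y x (x + 1) (by omega) (by omega)
    rcases min_le_iff.1 e2 with h' | h' <;> linarith

/-- **TOTAL COMPARABILITY** of a half-plane limit and a strip limit -/
theorem HalfLim.comparable (ht : ∀ e, 0 ≤ t e) (hN : Tendsto N atTop atTop)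
    (hf : StripLim t k N z f) (hB : HalfLim t k b B) :
    (∀ x, H.inc f x ≤ H.inc B x) ∨ (∀ x, H.inc B x ≤ H.inc f x) := by
  rcases monotone_or_antitone_of_between (h := fun x => B x - f x)
    (fun x₁ x x₂ h1 h2 => quasiconcave ht hf hB h1 h2)
    (fun x₁ x x₂ h1 h2 => quasiconvex ht hN hf hB h1 h2) with h | h
  · left
    intro x
    have := h x
    unfold H.inc
    linarith
  · right
    intro x
    have := h x
    unfold H.inc
    linarith

end Crest.Agent.R151.SL9
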