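import Crest.Agent.R151.Y635H
import Crest.Agent.R151.Y96D
import Crest.Agent.R151.RFL890B

/-!
# R151, Y635I (helper635): consequences of helper96's `Facts` for one environment

* reflection: `incU_refl`, `incD_refl`, `big_rv`, `HasSl.rv`, `LE_rv`, `lowCoal_rv`, `highCoal_rv`,
  `locU_rv`, `Facts.refl : Facts m C t → Facts m C (N.refl t)`;
* `Facts.le_total`, `Facts.le_of_lt`, equality of increments on one row and on all rows,
  the fields (o1) .. (o7) of `Y96.Sys` for the members of `Big C t`.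
-/

set_option autoImplicit false

open MeasureTheory Filter Topology
open scoped ENNReal

namespace Crest.Agent.R151.Y96

open Crest.ProbabilityR.FirstPassage
open Crest.Agent.R151 Crest.Agent.R151.SEL Crest.Agent.R151.Y

/-! ## paths going up -/

section basic

variable {C m s s' : ℝ} {t : Environment} {v w : ℤ → ℤ × ℤ}

theorem updown_of_big (h : v ∈ Big C t) : UpDown v := ⟨h.2.2.2.1, h.2.2.2.2⟩

theorem isBig_of_big (h : v ∈ Big C t) : IsBigeodesic t v := h.1

/-- linear growth with an additive constant from the slope -/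
theorem growth_of_hasSlope {f : ℤ → ℝ} {c : ℝ} (h : H.HasSlope f c) :
    ∀ ε > 0, ∃ C : ℝ, ∀ x : ℤ, |f x - c * x| ≤ ε * |(x : ℝ)| + C := by
  intro ε hε
  have h1 := (Metric.tendsto_nhds.1 h.top ε hε).and (eventually_gt_atTop 0)
  have h2 := (Metric.tendsto_nhds.1 h.bot ε hε).and (eventually_lt_atBot 0)
  obtain ⟨N1, hN1⟩ := eventually_atTop.1 h1
  obtain ⟨N2, hN2⟩ := eventually_atBot.1 h2
  obtain ⟨B, hB⟩ := ((Set.finite_Icc N2 N1).image fun x : ℤ => |f x - c * x|).bddAbove
  have key : ∀ x : ℤ, (x : ℝ) ≠ 0 → dist (f x / x) c < ε → |f x - c * x| ≤ ε * |(x : ℝ)| := by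
    intro x hx hd
    rw [Real.dist_eq] at hd
    have : f x - c * x = (f x / x - c) * x := by
      field_simp
    rw [this, abs_mul]
    exact mul_le_mul_of_nonneg_right hd.le (abs_nonneg _)
  refine ⟨|B|, fun x => ?_⟩
  have hx0 : 0 ≤ ε * |(x : ℝ)| := by positivity
  by_cases hx1 : N1 ≤ x
  · obtain ⟨h3, h4⟩ := hN1 x hx1
    have h5 : (x : ℝ) ≠ 0 := by exact_mod_cast h4.ne'
    have := key x h5 h3
    have := abs_nonneg B
    linarith
  · by_cases hx2 : x ≤ N2
    · obtain ⟨h3, h4⟩ := hN2 x hx2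
      have h5 : (x : ℝ) ≠ 0 := by exact_mod_cast h4.ne
      have := key x h5 h3
      have := abs_nonneg B
      linarith
    · have h6 : |f x - c * x| ≤ B := hB ⟨x, ⟨by omega, by omega⟩, rfl⟩
      have := le_abs_self B
      linarith

theorem HasSl.unique (h : HasSl t v s) (h' : HasSl t v s') : s = s' :=
  (h.dn 0).unique (h'.dn 0)

theorem HasSl.growU (h : HasSl t v s) (k : ℤ) : GrowU t k v s := by
  intro ε hε
  obtain ⟨B, hB⟩ := growth_of_hasSlope (h.up k) ε hε
  refine ⟨B, fun x => ?_⟩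
  have := hB x
  rwa [neg_mul, sub_neg_eq_add] at this

theorem grow_timeLB (ht : ∀ e, 0 ≤ t e)
    (h : ∀ k j : ℤ, ∀ ε > 0, ∃ C' : ℝ, ∀ x z : ℤ,
      m * |(x : ℝ) - z| - ε * (|(x : ℝ)| + |(z : ℝ)|) - C' ≤ passageTime t (x, k) (z, j))
    {k j : ℤ} (hkj : k ≤ j) : TimeLB t m k j := by
  intro ε hε
  obtain ⟨C', hC⟩ := h k j ε hε
  refine ⟨C', fun x z => (hC x z).trans ?_⟩
  rw [passageTime_eq_pt]
  exact pt_anti (fun a b hab => hab.1) ht (reachable_Up le_rfl hkj)

end basic

/-! ## reflection -/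

section reflection

variable {C m s s' : ℝ} {t : Environment} {v w : ℤ → ℤ × ℤ}

theorem incU_refl (hv : UpDown v) (t : Environment) (k e : ℤ) :
    incU (N.refl t) (-k) (rv v) e = incD t k v e := by
  unfold incU incD
  rw [RFL.fD_eq hv t k, RFL.fD_eq hv t k]

theorem incU_refl' (hv : UpDown v) (t : Environment) (k e : ℤ) :
    incU (N.refl t) k (rv v) e = incD t (-k) v e := by
  have := incU_refl hv t (-k) e
  rwa [neg_neg] at this

theorem incD_refl (hv : UpDown v) (t : Environment) (k e : ℤ) :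
    incD (N.refl t) (-k) (rv v) e = incU t k v e := by
  unfold incU incD
  rw [RFL.fU_eq hv t k, RFL.fU_eq hv t k]

theorem incD_refl' (hv : UpDown v) (t : Environment) (k e : ℤ) :
    incD (N.refl t) k (rv v) e = incU t (-k) v e := by
  have := incD_refl hv t (-k) e
  rwa [neg_neg] at this

theorem properUp_rv (h : D411.ProperUp C v) : D411.ProperUp C (rv v) := by
  obtain ⟨h1, h2, h3, h4⟩ := h
  refine ⟨?_, ?_, ?_, ?_⟩
  · have := tendsto_neg_atTop_atBot.eventually h2
    filter_upwards [this] with n hn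
    simp only [rv, Int.cast_neg, mul_neg]
    exact hn
  · have := tendsto_neg_atBot_atTop.eventually h1
    filter_upwards [this] with n hn
    simp only [rv, Int.cast_neg, mul_neg, neg_neg]
    exact hn
  · exact (tendsto_neg_atBot_atTop.comp h4).comp tendsto_neg_atTop_atBot
  · exact (tendsto_neg_atTop_atBot.comp h3).comp tendsto_neg_atBot_atTop

theorem big_rv (h : v ∈ Big C t) : rv v ∈ Big C (N.refl t) :=
  ⟨RFL.isBigeodesic_rv h.1, properUp_rv h.2⟩

theorem big_rv_iff : rv v ∈ Big C (N.refl t) ↔ v ∈ Big C t := by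
  refine ⟨fun h => ?_, big_rv⟩
  have := big_rv h
  rwa [N.refl_refl, rv_rv] at this

theorem big_refl_iff : v ∈ Big C (N.refl t) ↔ rv v ∈ Big C t := by
  rw [← big_rv_iff (v := rv v), rv_rv]

theorem HasSl.rv (h : HasSl t v s) (hv : UpDown v) : HasSl (N.refl t) (rv v) (-s) := by
  refine ⟨fun k => ?_, fun k => ?_⟩
  · have h1 := h.dn (-k)
    rw [neg_neg]
    have h2 : (fun x : ℤ => fU (N.refl t) k (SEL.rv v) (x, k)) = fun x => fD t (-k) v (x, -k) := by
      funext x
      have := RFL.fD_eq hv t (-k) (x, -k)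
      simp only [neg_neg] at this
      exact this.symm
    rw [h2]
    exact h1
  · have h1 := h.up (-k)
    have h2 : (fun x : ℤ => fD (N.refl t) k (SEL.rv v) (x, k)) = fun x => fU t (-k) v (x, -k) := by
      funext x
      have := RFL.fU_eq hv t (-k) (x, -k)
      simp only [neg_neg] at this
      exact this.symm
    rw [h2]
    exact h1

theorem hasSl_rv_iff (hv : UpDown v) : HasSl (N.refl t) (rv v) (-s) ↔ HasSl t v s := by
  refine ⟨fun h => ?_, fun h => h.rv hv⟩
  have := h.rv hv.rv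
  rwa [N.refl_refl, rv_rv, neg_neg] at this

theorem hasSl_refl_iff (hv : UpDown v) : HasSl (N.refl t) v s ↔ HasSl t (rv v) (-s) := by
  rw [← hasSl_rv_iff (t := N.refl t) (v := v) hv, N.refl_refl]

theorem lowCoal_rv : LowCoal (rv v) (rv w) ↔ HighCoal v w := by
  constructor
  · rintro ⟨a, b, h⟩
    refine ⟨-a, -b, fun n => ?_⟩
    have := h n
    simp only [rv, Prod.mk.injEq, neg_inj] at this
    rw [show -(a - (n : ℤ)) = -a + n by ring, show -(b - (n : ℤ)) = -b + n by ring] at this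
    exact Prod.ext this.1 this.2
  · rintro ⟨a, b, h⟩
    refine ⟨-a, -b, fun n => ?_⟩
    have := h n
    simp only [rv]
    rw [show -(-a - (n : ℤ)) = a + n by ring, show -(-b - (n : ℤ)) = b + n by ring, this]

theorem highCoal_rv : HighCoal (rv v) (rv w) ↔ LowCoal v w := by
  rw [← lowCoal_rv, rv_rv, rv_rv]

theorem LE_rv (hv : UpDown v) (hw : UpDown w) :
    LE (N.refl t) (rv w) (rv v) ↔ LE t v w := by
  unfold LE
  simp only [incU_refl' hv, incU_refl' hw, incD_refl' hv, incD_refl' hw]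
  constructor
  · rintro ⟨h1, h2⟩
    refine ⟨fun k e => ?_, fun k e => ?_⟩
    · have := h2 (-k) e
      rwa [neg_neg] at this
    · have := h1 (-k) e
      rwa [neg_neg] at this
  · rintro ⟨h1, h2⟩
    exact ⟨fun k e => h2 _ _, fun k e => h1 _ _⟩

end reflection

/-! ## one side -/

/-- the part of `Facts` which is used for one half plane -/
structure Base (m : ℝ) (t : Environment) : Prop where
  nn : ∀ e, 0 ≤ t e
  nt : NoTies t
  grow : ∀ k j : ℤ, ∀ ε > 0, ∃ C' : ℝ, ∀ x z : ℤ,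
    m * |(x : ℝ) - z| - ε * (|(x : ℝ)| + |(z : ℝ)|) - C' ≤ passageTime t (x, k) (z, j)

theorem passageTime_refl (t : Environment) (x y : ℤ × ℤ) :
    passageTime (N.refl t) x y = passageTime t (x.1, -x.2) (y.1, -y.2) :=
  RFL.passageTime_act RFL.ry t x y

theorem grow_refl {m : ℝ} {t : Environment} (h : ∀ k j : ℤ, ∀ ε > 0, ∃ C' : ℝ, ∀ x z : ℤ,
    m * |(x : ℝ) - z| - ε * (|(x : ℝ)| + |(z : ℝ)|) - C' ≤ passageTime t (x, k) (z, j)) :
    ∀ k j : ℤ, ∀ ε > 0, ∃ C' : ℝ, ∀ x z : ℤ,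
      m * |(x : ℝ) - z| - ε * (|(x : ℝ)| + |(z : ℝ)|) - C' ≤
        passageTime (N.refl t) (x, k) (z, j) := by
  intro k j ε hε
  obtain ⟨C', hC⟩ := h (-k) (-j) ε hε
  refine ⟨C', fun x z => ?_⟩
  rw [passageTime_refl]
  exact hC x z

namespace Base

variable {m s s' : ℝ} {t : Environment} {v w : ℤ → ℤ × ℤ}

theorem refl (B : Base m t) : Base m (N.refl t) :=
  ⟨RFL.nonneg_refl.2 B.nn, RFL.noTies_refl.2 B.nt, grow_refl B.grow⟩

theorem timeLB (B : Base m t) {k j : ℤ} (hkj : k ≤ j) : TimeLB t m k j :=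
  grow_timeLB B.nn B.grow hkj

theorem total (B : Base m t) (hv : IsBigeodesic t v) (hvU : UpDown v) (hw : IsBigeodesic t w)
    (hwU : UpDown w) (k : ℤ) :
    (∀ e, incU t k w e ≤ incU t k v e) ∨ ∀ e, incU t k v e ≤ incU t k w e :=
  fU_total B.nt B.nn hv hvU hw hwU k

theorem le_of_lt (B : Base m t) (hv : IsBigeodesic t v) (hvU : UpDown v) (hw : IsBigeodesic t w)
    (hwU : UpDown w) {k : ℤ} (gv : GrowU t k v s) (gw : GrowU t k w s') (hs : s < s') (e : ℤ) :
    incU t k w e ≤ incU t k v e :=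
  incU_le_of_slope_lt B.nt B.nn hv hvU hw hwU gv gw hs e

theorem down (B : Base m t) (hv : IsBigeodesic t v) (hvU : UpDown v) (hw : IsBigeodesic t w)
    (hwU : UpDown w) {k j : ℤ} (hkj : k ≤ j) (h : ∀ e, incU t j w e ≤ incU t j v e) (e : ℤ) :
    incU t k w e ≤ incU t k v e :=
  inc_fU_le_of_le B.nt B.nn hv hvU hw hwU hkj h e

theorem eq_down (B : Base m t) (hv : IsBigeodesic t v) (hvU : UpDown v) (hw : IsBigeodesic t w)
    (hwU : UpDown w) {k j : ℤ} (hkj : k ≤ j) (h : ∀ e, incU t j w e = incU t j v e) (e : ℤ) :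
    incU t k w e = incU t k v e :=
  inc_fU_eq_of_eq B.nn hv hvU hw hwU hkj h e

theorem osc (B : Base m t) (hv : IsBigeodesic t v) (hvU : UpDown v) (hw : IsBigeodesic t w)
    (hwU : UpDown w) {k j : ℤ} (hkj : k ≤ j) (hs : |s| < m) (hs' : |s'| < m)
    (gv : ∀ k, GrowU t k v s) (gw : ∀ k, GrowU t k w s')
    (h : ∀ e, incU t j w e ≤ incU t j v e) :
    ∑' e, ENNReal.ofReal (incU t j v e - incU t j w e) ≤
      ∑' e, ENNReal.ofReal (incU t k v e - incU t k w e) :=
  tsum_inc_fU_le_of_growth B.nt B.nn hv hvU hw hwU hkj hs hs' (B.timeLB hkj) (gv k) (gv j)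
    (gw k) (gw j) h

/-- order and equality on the lower row give equality on the upper row -/
theorem eq_up_aux (B : Base m t) (hv : IsBigeodesic t v) (hvU : UpDown v) (hw : IsBigeodesic t w)
    (hwU : UpDown w) {k j : ℤ} (hkj : k ≤ j) (hs : |s| < m) (hs' : |s'| < m)
    (gv : ∀ k, GrowU t k v s) (gw : ∀ k, GrowU t k w s')
    (h : ∀ e, incU t j w e ≤ incU t j v e) (he : ∀ e, incU t k w e = incU t k v e) (e : ℤ) :
    incU t j w e = incU t j v e := by
  have h1 := B.osc hv hvU hw hwU hkj hs hs' gv gw h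
  have h2 : ∑' e, ENNReal.ofReal (incU t k v e - incU t k w e) = 0 := by
    rw [ENNReal.tsum_eq_zero]
    intro i
    rw [he, sub_self, ENNReal.ofReal_zero]
  rw [h2, nonpos_iff_eq_zero, ENNReal.tsum_eq_zero] at h1
  have h3 := h1 e
  rw [ENNReal.ofReal_eq_zero] at h3
  exact le_antisymm (h e) (by linarith)

theorem eq_up (B : Base m t) (hv : IsBigeodesic t v) (hvU : UpDown v) (hw : IsBigeodesic t w)
    (hwU : UpDown w) {k j : ℤ} (hkj : k ≤ j) (hs : |s| < m) (hs' : |s'| < m)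
    (gv : ∀ k, GrowU t k v s) (gw : ∀ k, GrowU t k w s')
    (he : ∀ e, incU t k w e = incU t k v e) (e : ℤ) : incU t j w e = incU t j v e := by
  rcases B.total hv hvU hw hwU j with h | h
  · exact B.eq_up_aux hv hvU hw hwU hkj hs hs' gv gw h he e
  · exact (B.eq_up_aux hw hwU hv hvU hkj hs' hs gw gv h (fun e => (he e).symm) e).symm

/-- equality of the increments on one row gives equality on every row -/
theorem eq_all (B : Base m t) (hv : IsBigeodesic t v) (hvU : UpDown v) (hw : IsBigeodesic t w)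
    (hwU : UpDown w) (hs : |s| < m) (hs' : |s'| < m)
    (gv : ∀ k, GrowU t k v s) (gw : ∀ k, GrowU t k w s') {k : ℤ}
    (he : ∀ e, incU t k w e = incU t k v e) (j e : ℤ) : incU t j w e = incU t j v e := by
  rcases le_total k j with h | h
  · exact B.eq_up hv hvU hw hwU h hs hs' gv gw he e
  · exact B.eq_down hv hvU hw hwU h he e

/-- the order of the increments on one row gives the order on every row -/
theorem le_all (B : Base m t) (hv : IsBigeodesic t v) (hvU : UpDown v) (hw : IsBigeodesic t w)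
    (hwU : UpDown w) (hs : |s| < m) (hs' : |s'| < m)
    (gv : ∀ k, GrowU t k v s) (gw : ∀ k, GrowU t k w s') {k : ℤ}
    (he : ∀ e, incU t k w e ≤ incU t k v e) (j e : ℤ) : incU t j w e ≤ incU t j v e := by
  rcases le_total j k with h | h
  · exact B.down hv hvU hw hwU h he e
  · rcases B.total hv hvU hw hwU j with h1 | h1
    · exact h1 e
    · have h2 : ∀ e, incU t k v e ≤ incU t k w e := B.down hw hwU hv hvU h h1
      have h3 : ∀ e, incU t k w e = incU t k v e := fun e => le_antisymm (he e) (h2 e)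
      exact (B.eq_all hv hvU hw hwU hs hs' gv gw h3 j e).le

/-- the increments are comparable on all rows at once -/
theorem total_all (B : Base m t) (hv : IsBigeodesic t v) (hvU : UpDown v) (hw : IsBigeodesic t w)
    (hwU : UpDown w) (hs : |s| < m) (hs' : |s'| < m)
    (gv : ∀ k, GrowU t k v s) (gw : ∀ k, GrowU t k w s') :
    (∀ k e, incU t k w e ≤ incU t k v e) ∨ ∀ k e, incU t k v e ≤ incU t k w e := by
  rcases B.total hv hvU hw hwU 0 with h | h
  · exact Or.inl (B.le_all hv hvU hw hwU hs hs' gv gw h)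
  · exact Or.inr (B.le_all hw hwU hv hvU hs' hs gw gv h)

end Base

/-! ## consequences of `Facts` -/

namespace Facts

variable {m C s s' : ℝ} {t : Environment} {v w : ℤ → ℤ × ℤ}

theorem base (F : Facts m C t) : Base m t := ⟨F.nn, F.nt, F.grow⟩

theorem abs_lt (F : Facts m C t) (hv : v ∈ Big C t) (h : HasSl t v s) : |s| < m := by
  obtain ⟨s', h1, h2⟩ := F.slope v hv
  rwa [h.unique h2]

/-- **reflection** -/
theorem refl (F : Facts m C t) : Facts m C (N.refl t) where
  nn := RFL.nonneg_refl.2 F.nn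
  nt := RFL.noTies_refl.2 F.nt
  grow := grow_refl F.grow
  slope v hv := by
    obtain ⟨s, h1, h2⟩ := F.slope _ (big_refl_iff.1 hv)
    refine ⟨-s, by rwa [abs_neg], ?_⟩
    rw [hasSl_refl_iff (updown_of_big hv), neg_neg]
    exact h2
  chain v hv w hw s hvs hws k l hlk := by
    have hvU := updown_of_big hv
    have hwU := updown_of_big hw
    have h := F.chain _ (big_refl_iff.1 hv) _ (big_refl_iff.1 hw) (-s)
      ((hasSl_refl_iff hvU).1 hvs) ((hasSl_refl_iff hwU).1 hws) (-l) (-k) (by omega)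
    have e1 : ∀ e, incU t (-l) (SEL.rv v) e = incD (N.refl t) l v e := fun e => by
      have := incD_refl' hvU.rv t l e
      rw [rv_rv] at this
      exact this.symm
    have e2 : ∀ e, incU t (-l) (SEL.rv w) e = incD (N.refl t) l w e := fun e => by
      have := incD_refl' hwU.rv t l e
      rw [rv_rv] at this
      exact this.symm
    have e3 : ∀ e, incD t (-k) (SEL.rv v) e = incU (N.refl t) k v e := fun e => by
      have := incU_refl' hvU.rv t k e
      rw [rv_rv] at this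
      exact this.symm
    have e4 : ∀ e, incD t (-k) (SEL.rv w) e = incU (N.refl t) k w e := fun e => by
      have := incU_refl' hwU.rv t k e
      rw [rv_rv] at this
      exact this.symm
    simp only [e1, e2, e3, e4] at h
    exact h.symm
  ucU v₀ hv₀ w₀ hw₀ s hvs₀ hws₀ hne v hv w hw hvs hws := by
    rw [← highCoal_rv]
    refine F.ucD _ (big_refl_iff.1 hv₀) _ (big_refl_iff.1 hw₀) (-s)
      ((hasSl_refl_iff (updown_of_big hv₀)).1 hvs₀) ((hasSl_refl_iff (updown_of_big hw₀)).1 hws₀)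
      ?_ _ (big_refl_iff.1 hv) _ (big_refl_iff.1 hw)
      ((hasSl_refl_iff (updown_of_big hv)).1 hvs) ((hasSl_refl_iff (updown_of_big hw)).1 hws)
    obtain ⟨k, e, hk⟩ := hne
    refine ⟨-k, e, ?_⟩
    have e3 := incU_refl' (updown_of_big hv₀).rv t k e
    have e4 := incU_refl' (updown_of_big hw₀).rv t k e
    rw [rv_rv] at e3 e4
    rw [← e3, ← e4]
    exact hk
  ucD v₀ hv₀ w₀ hw₀ s hvs₀ hws₀ hne v hv w hw hvs hws := by
    rw [← lowCoal_rv]
    refine F.ucU _ (big_refl_iff.1 hv₀) _ (big_refl_iff.1 hw₀) (-s)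
      ((hasSl_refl_iff (updown_of_big hv₀)).1 hvs₀) ((hasSl_refl_iff (updown_of_big hw₀)).1 hws₀)
      ?_ _ (big_refl_iff.1 hv) _ (big_refl_iff.1 hw)
      ((hasSl_refl_iff (updown_of_big hv)).1 hvs) ((hasSl_refl_iff (updown_of_big hw)).1 hws)
    obtain ⟨k, e, hk⟩ := hne
    refine ⟨-k, e, ?_⟩
    have e3 := incD_refl' (updown_of_big hv₀).rv t k e
    have e4 := incD_refl' (updown_of_big hw₀).rv t k e
    rw [rv_rv] at e3 e4
    rw [← e3, ← e4]
    exact hk

/-- a statement on lower functions from the statement on upper functions, reflected environment -/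
theorem incD_eq (hv : v ∈ Big C t) (k e : ℤ) : incD t k v e = incU (N.refl t) (-k) (rv v) e :=
  (incU_refl (updown_of_big hv) t k e).symm

theorem hasSl_rv (hv : v ∈ Big C t) (h : HasSl t v s) : HasSl (N.refl t) (rv v) (-s) :=
  h.rv (updown_of_big hv)

/-- (o1) -/
theorem o1 (F : Facts m C t) (hv : v ∈ Big C t) (k e : ℤ) :
    |incU t k v e| ≤ pt (reg (Up k)) t (e, k) (e + 1, k) :=
  abs_inc_fU_le F.nn hv.1 (updown_of_big hv) le_rfl le_rfl

/-- (o2) -/
theorem o2 (F : Facts m C t) (hv : v ∈ Big C t) (hw : w ∈ Big C t) (hvs : HasSl t v s)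
    (hws : HasSl t w s') (hs : s < s') (k e : ℤ) : incU t k w e ≤ incU t k v e :=
  F.base.le_of_lt hv.1 (updown_of_big hv) hw.1 (updown_of_big hw) (hvs.growU k) (hws.growU k) hs e

theorem o2D (F : Facts m C t) (hv : v ∈ Big C t) (hw : w ∈ Big C t) (hvs : HasSl t v s)
    (hws : HasSl t w s') (hs : s < s') (k e : ℤ) : incD t k v e ≤ incD t k w e := by
  rw [incD_eq hv, incD_eq hw]
  exact F.refl.o2 (big_rv hw) (big_rv hv) (hasSl_rv hw hws) (hasSl_rv hv hvs) (by linarith) _ _

/-- (a) different slopes -/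
theorem le_of_lt (F : Facts m C t) (hv : v ∈ Big C t) (hw : w ∈ Big C t) (hvs : HasSl t v s)
    (hws : HasSl t w s') (hs : s < s') : LE t v w :=
  ⟨F.o2 hv hw hvs hws hs, F.o2D hv hw hvs hws hs⟩

/-- upper functions: the order on one row is the order on every row -/
theorem incU_le_all (F : Facts m C t) (hv : v ∈ Big C t) (hw : w ∈ Big C t) {k : ℤ}
    (h : ∀ e, incU t k w e ≤ incU t k v e) (j e : ℤ) : incU t j w e ≤ incU t j v e := by
  obtain ⟨s, h1, h2⟩ := F.slope v hv
  obtain ⟨s', h3, h4⟩ := F.slope w hw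
  exact F.base.le_all hv.1 (updown_of_big hv) hw.1 (updown_of_big hw) h1 h3 h2.growU h4.growU h j e

theorem incU_eq_all (F : Facts m C t) (hv : v ∈ Big C t) (hw : w ∈ Big C t) {k : ℤ}
    (h : ∀ e, incU t k v e = incU t k w e) (j e : ℤ) : incU t j v e = incU t j w e :=
  le_antisymm (F.incU_le_all hw hv (fun e => (h e).le) j e)
    (F.incU_le_all hv hw (fun e => (h e).ge) j e)

theorem incD_le_all (F : Facts m C t) (hv : v ∈ Big C t) (hw : w ∈ Big C t) {k : ℤ}
    (h : ∀ e, incD t k w e ≤ incD t k v e) (j e : ℤ) : incD t j w e ≤ incD t j v e := by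
  rw [incD_eq hv, incD_eq hw]
  refine F.refl.incU_le_all (big_rv hv) (big_rv hw) (k := -k) (fun e => ?_) _ e
  rw [← incD_eq hv, ← incD_eq hw]
  exact h e

theorem incD_eq_all (F : Facts m C t) (hv : v ∈ Big C t) (hw : w ∈ Big C t) {k : ℤ}
    (h : ∀ e, incD t k v e = incD t k w e) (j e : ℤ) : incD t j v e = incD t j w e :=
  le_antisymm (F.incD_le_all hw hv (fun e => (h e).le) j e)
    (F.incD_le_all hv hw (fun e => (h e).ge) j e)

/-- upper functions are comparable on all rows at once -/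
theorem incU_total (F : Facts m C t) (hv : v ∈ Big C t) (hw : w ∈ Big C t) :
    (∀ k e, incU t k w e ≤ incU t k v e) ∨ ∀ k e, incU t k v e ≤ incU t k w e := by
  rcases F.base.total hv.1 (updown_of_big hv) hw.1 (updown_of_big hw) 0 with h | h
  · exact Or.inl (F.incU_le_all hv hw h)
  · exact Or.inr (F.incU_le_all hw hv h)

theorem incD_total (F : Facts m C t) (hv : v ∈ Big C t) (hw : w ∈ Big C t) :
    (∀ k e, incD t k w e ≤ incD t k v e) ∨ ∀ k e, incD t k v e ≤ incD t k w e := by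
  rcases F.refl.incU_total (big_rv hv) (big_rv hw) with h | h
  · refine Or.inl fun k e => ?_
    rw [incD_eq hv, incD_eq hw]
    exact h _ _
  · refine Or.inr fun k e => ?_
    rw [incD_eq hv, incD_eq hw]
    exact h _ _

/-- CHAIN, all rows at once -/
theorem chain_all (F : Facts m C t) (hv : v ∈ Big C t) (hw : w ∈ Big C t) (hvs : HasSl t v s)
    (hws : HasSl t w s) :
    (∀ k e, incU t k v e = incU t k w e) ∨ ∀ k e, incD t k v e = incD t k w e := by
  rcases F.chain v hv w hw s hvs hws 0 (-1) (by omega) with h | h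
  · exact Or.inl (F.incU_eq_all hv hw h)
  · exact Or.inr (F.incD_eq_all hv hw h)

/-- (c) **the labels are totally ordered** -/
theorem le_total (F : Facts m C t) (hv : v ∈ Big C t) (hw : w ∈ Big C t) :
    LE t v w ∨ LE t w v := by
  obtain ⟨s, -, hvs⟩ := F.slope v hv
  obtain ⟨s', -, hws⟩ := F.slope w hw
  rcases lt_trichotomy s s' with hs | hs | hs
  · exact Or.inl (F.le_of_lt hv hw hvs hws hs)
  · subst hs
    rcases F.chain_all hv hw hvs hws with h | h
    · rcases F.incD_total hv hw with h1 | h1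
      · exact Or.inr ⟨fun k e => (h k e).le, h1⟩
      · exact Or.inl ⟨fun k e => (h k e).ge, h1⟩
    · rcases F.incU_total hv hw with h1 | h1
      · exact Or.inl ⟨h1, fun k e => (h k e).le⟩
      · exact Or.inr ⟨h1, fun k e => (h k e).ge⟩
  · exact Or.inr (F.le_of_lt hw hv hws hvs hs)

/-- the slope is monotone in the order -/
theorem slope_le (_F : Facts m C t) (hvs : HasSl t v s) (hws : HasSl t w s') (h : LE t v w) :
    s ≤ s' :=
  GrowU.slope_le (hws.growU 0) (hvs.growU 0) (h.1 0)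

/-- order of upper increments on one row implies the order of the labels, if they differ somewhere
on the row -/
theorem le_of_incU (F : Facts m C t) (hv : v ∈ Big C t) (hw : w ∈ Big C t) {k : ℤ}
    (h : ∀ e, incU t k w e ≤ incU t k v e) (hne : ∃ e, incU t k w e ≠ incU t k v e) :
    LE t v w := by
  rcases F.le_total hv hw with h1 | h1
  · exact h1
  · obtain ⟨e, he⟩ := hne
    exact absurd (le_antisymm (h e) (h1.1 k e)) he

/-- (o3) -/
theorem o3 (F : Facts m C t) {v₀ w₀ : ℤ → ℤ × ℤ} (hv₀ : v₀ ∈ Big C t) (hw₀ : w₀ ∈ Big C t)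
    (hvs₀ : HasSl t v₀ s) (hws₀ : HasSl t w₀ s) (hne : ∃ k e, incU t k v₀ e ≠ incU t k w₀ e)
    (hv : v ∈ Big C t) (hw : w ∈ Big C t) (hvs : HasSl t v s) (hws : HasSl t w s) {k : ℤ}
    (hl : (tailU k v 0).1 < (tailU k w 0).1) (e : ℤ) : incU t k w e ≤ incU t k v e :=
  inc_fU_mono_of_loc F.nt F.nn hv.1 (updown_of_big hv) hw.1 (updown_of_big hw)
    (F.ucU v₀ hv₀ w₀ hw₀ s hvs₀ hws₀ hne v hv w hw hvs hws) hl e

/-- (o3), all rows at once -/
theorem o3_all (F : Facts m C t) {v₀ w₀ : ℤ → ℤ × ℤ} (hv₀ : v₀ ∈ Big C t) (hw₀ : w₀ ∈ Big C t)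
    (hvs₀ : HasSl t v₀ s) (hws₀ : HasSl t w₀ s) (hne : ∃ k e, incU t k v₀ e ≠ incU t k w₀ e)
    (hv : v ∈ Big C t) (hw : w ∈ Big C t) (hvs : HasSl t v s) (hws : HasSl t w s) {k : ℤ}
    (hl : (tailU k v 0).1 < (tailU k w 0).1) (j e : ℤ) : incU t j w e ≤ incU t j v e :=
  F.incU_le_all hv hw (F.o3 hv₀ hw₀ hvs₀ hws₀ hne hv hw hvs hws hl) j e

/-- (o5), the oscillation does not decrease downwards -/
theorem o5 (F : Facts m C t) (hv : v ∈ Big C t) (hw : w ∈ Big C t) {k j : ℤ} (hkj : k ≤ j)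
    (h : ∀ e, incU t j w e ≤ incU t j v e) :
    ∑' e, ENNReal.ofReal (incU t j v e - incU t j w e) ≤
      ∑' e, ENNReal.ofReal (incU t k v e - incU t k w e) := by
  obtain ⟨s, h1, h2⟩ := F.slope v hv
  obtain ⟨s', h3, h4⟩ := F.slope w hw
  exact F.base.osc hv.1 (updown_of_big hv) hw.1 (updown_of_big hw) hkj h1 h3 h2.growU h4.growU h

/-- (o5) in the form of `Sys.osc` -/
theorem o5' (F : Facts m C t) (hv : v ∈ Big C t) (hw : w ∈ Big C t)
    (h : ∀ e, incU t 0 w e ≤ incU t 0 v e) (n : ℕ) :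
    ∑' e, ENNReal.ofReal (incU t 0 v e - incU t 0 w e) ≤
      ∑' e, ENNReal.ofReal (incU t (-n) v e - incU t (-n) w e) :=
  F.o5 hv hw (by omega) h

/-- (o6) -/
theorem o6 (F : Facts m C t) {v₀ w₀ : ℤ → ℤ × ℤ} (hv₀ : v₀ ∈ Big C t) (hw₀ : w₀ ∈ Big C t)
    (hvs₀ : HasSl t v₀ s) (hws₀ : HasSl t w₀ s) (hne : ∃ k e, incU t k v₀ e ≠ incU t k w₀ e)
    (hv : v ∈ Big C t) (hw : w ∈ Big C t) (hvs : HasSl t v s) (hws : HasSl t w s) :
    ∀ᶠ n : ℕ in atTop, (tailU (-(n : ℤ)) v 0).1 = (tailU (-(n : ℤ)) w 0).1 := by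
  filter_upwards [eventually_loc_eq (updown_of_big hv) (updown_of_big hw)
    (F.ucU v₀ hv₀ w₀ hw₀ s hvs₀ hws₀ hne v hv w hw hvs hws)] with n hn
  rw [hn]

/-- (o7) -/
theorem o7 (F : Facts m C t) (hv : v ∈ Big C t) (hw : w ∈ Big C t)
    (h : ∀ e, incU t 0 w e ≤ incU t 0 v e) (n : ℕ) (e : ℤ) :
    incU t (-n) w e ≤ incU t (-n) v e :=
  F.incU_le_all hv hw h _ e

end Facts

end Crest.Agent.R151.Y96
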