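import Crest.Agent.R151.SL856d
import Crest.Agent.R151.Y635I
import Crest.Agent.R151.H617f

/-!
# R151/SLF856 — `Facts.slope` and `Facts.chain` from comparable row families (owner helper856)

* `RowsOK t m D f g` (fixed environment): families `f k p`, `g k p` (`k : ℤ`, `p ∈ D`, `D` dense in
  `(-m, m)`) of functions on the row `k`, monotone in `p`, of slope `-p` resp. `p`, comparable with the
  Busemann functions of all rays of `Up k` resp. `Dn k` of unbounded height.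
* `RowsOK.slope` : the field `slope` of `Y96.Facts`; `RowsOK.chain` : the field `chain`.
* `RowHyp G D R j σ f` : the hypotheses on one row (= 39's `RowFam` without the covariance);
  `ae_slope_chain` : both fields for almost every environment.
-/

set_option autoImplicit false

open Crest.ProbabilityR.FirstPassage
open Filter Set MeasureTheory
open scoped Topology

namespace Crest.Agent.R151.SLF

open Y H K SEL Y96 SL

/-- unbounded height -/
def UH (u : ℕ → ℤ × ℤ) : Prop := ∀ N : ℤ, ∃ n, N ≤ |(u n).2|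

/-- comparable families on all rows, fixed environment -/
structure RowsOK (t : Environment) (m : ℝ) (D : Set ℝ) (f g : ℤ → ℝ → ℤ → ℝ) : Prop where
  dense : ∀ x y, -m < x → x < y → y < m → ∃ p ∈ D, x < p ∧ p < y
  sub : D ⊆ Icc (-m) m
  fmono : ∀ k, ∀ p ∈ D, ∀ q ∈ D, p < q → ∀ x, inc (f k q) x ≤ inc (f k p) x
  gmono : ∀ k, ∀ p ∈ D, ∀ q ∈ D, p < q → ∀ x, inc (g k p) x ≤ inc (g k q) x
  fsl : ∀ k, ∀ p ∈ D, HasSlope (f k p) (-p)
  gsl : ∀ k, ∀ p ∈ D, HasSlope (g k p) p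
  fcmp : ∀ k, ∀ p ∈ D, ∀ u, IsRay t (reg (Up k)) u → UH u →
    Cmp (f k p) fun x => bus t (reg (Up k)) u (x, k)
  gcmp : ∀ k, ∀ p ∈ D, ∀ u, IsRay t (reg (Dn k)) u → UH u →
    Cmp (g k p) fun x => bus t (reg (Dn k)) u (x, k)

theorem Cmp.or {h k : ℤ → ℝ} (H : Cmp h k) :
    (∀ x, inc k x ≤ inc h x) ∨ ∀ x, inc h x ≤ inc k x := Or.symm H

theorem uh_tailU {v : ℤ → ℤ × ℤ} (hv : UpDown v) (k : ℤ) : UH (tailU k v) := by
  intro N
  have h1 : Tendsto (fun n : ℕ => entU k v + (n : ℤ)) atTop atTop :=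
    tendsto_atTop_add_const_left _ _ tendsto_natCast_atTop_atTop
  have h2 : Tendsto (fun n : ℕ => (tailU k v n).2) atTop atTop := hv.1.comp h1
  obtain ⟨n, hn⟩ := (h2.eventually_ge_atTop N).exists
  exact ⟨n, hn.trans (le_abs_self _)⟩

theorem uh_tailD {v : ℤ → ℤ × ℤ} (hv : UpDown v) (k : ℤ) : UH (tailD k v) := by
  intro N
  have h1 : Tendsto (fun n : ℕ => entD k v - (n : ℤ)) atTop atBot := by
    have h2 : Tendsto (fun n : ℕ => (n : ℤ) - entD k v) atTop atTop :=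
      tendsto_atTop_add_const_right _ _ tendsto_natCast_atTop_atTop
    refine (tendsto_neg_atTop_atBot.comp h2).congr fun n => ?_
    simp
  have h2 : Tendsto (fun n : ℕ => (tailD k v n).2) atTop atBot := hv.2.comp h1
  obtain ⟨n, hn⟩ := (h2.eventually_le_atBot (-N)).exists
  refine ⟨n, ?_⟩
  have := neg_le_abs (tailD k v n).2
  omega

namespace RowsOK

variable {μ : ℝ × ℝ → ℝ} {C : ℝ} {t : Environment} {D : Set ℝ} {f g : ℤ → ℝ → ℤ → ℝ}

/-- the labels of a bigeodesic -/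
theorem labels {m : ℝ} (hm : 0 ≤ m) (H : RowsOK t m D f g) (ht : ∀ e, 0 ≤ t e)
    {v : ℤ → ℤ × ℤ} (hv : v ∈ Big C t) :
    (∀ k, ∃ s, |s| ≤ m ∧ Sand D (f k) s fun x => fU t k v (x, k)) ∧
      ∀ k, ∃ s, |s| ≤ m ∧ SandUp D (g k) s fun x => fD t k v (x, k) := by
  have hud : UpDown v := updown_of_properUp hv.2
  constructor
  · intro k
    obtain ⟨s, hs, hS⟩ := exists_slope (D := D) (f := f k) (A := -m) (B := m) (by linarith) H.sub
      (H.fmono k) (h := fun x => fU t k v (x, k))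
      fun p hp => Cmp.or (H.fcmp k p hp _ (isRay_tailU hv.1 ht hud k) (uh_tailU hud k))
    exact ⟨s, abs_le.2 hs, hS⟩
  · intro k
    obtain ⟨s, hs, hS⟩ := exists_slope_up (D := D) (f := g k) (A := -m) (B := m) (by linarith) H.sub
      (H.gmono k) (h := fun x => fD t k v (x, k))
      fun p hp => Cmp.or (H.gcmp k p hp _ (isRay_tailD hv.1 ht hud k) (uh_tailD hud k))
    exact ⟨s, abs_le.2 hs, hS⟩

/-- **slopes of the bigeodesics of the class**: a common slope, which is also the label -/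
theorem slopes (hμ : D411.SmoothNorm μ) (hC : 0 < C) (hC' : μ (1, 0) * C < μ (C, 1))
    (ht : EnvOK μ t) (H : RowsOK t (μ (1, 0)) D f g) {v : ℤ → ℤ × ℤ} (hv : v ∈ Big C t) :
    ∃ s, |s| ≤ slopeAt μ C ∧ HasSl t v s ∧ ∀ k, Sand D (f k) s (fun x => fU t k v (x, k)) ∧
      SandUp D (g k) s fun x => fD t k v (x, k) := by
  have hm : 0 ≤ μ (1, 0) := (hμ.norm.pos (by simp)).le
  obtain ⟨hU, hD⟩ := H.labels hm ht.nonneg hv
  obtain ⟨s, h1, -, h3⟩ := SL.slopes hμ hC hC' ht H.dense H.fsl H.gsl hv.1 hv.2 hU hD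
  exact ⟨s, h1, ⟨fun k => (h3 k).2.2.1, fun k => (h3 k).2.2.2⟩,
    fun k => ⟨(h3 k).1, (h3 k).2.1⟩⟩

/-- the slope is the label -/
theorem sand (hμ : D411.SmoothNorm μ) (hC : 0 < C) (hC' : μ (1, 0) * C < μ (C, 1))
    (ht : EnvOK μ t) (H : RowsOK t (μ (1, 0)) D f g) {v : ℤ → ℤ × ℤ} (hv : v ∈ Big C t) {s : ℝ}
    (hs : HasSl t v s) :
    |s| ≤ slopeAt μ C ∧ ∀ k, Sand D (f k) s (fun x => fU t k v (x, k)) ∧
      SandUp D (g k) s fun x => fD t k v (x, k) := by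
  obtain ⟨s', h1, h2, h3⟩ := H.slopes hμ hC hC' ht hv
  obtain rfl := hs.unique h2
  exact ⟨h1, h3⟩

/-- the field `slope` of `Y96.Facts` -/
theorem slope (hμ : D411.SmoothNorm μ) (hC : 0 < C) (hC' : μ (1, 0) * C < μ (C, 1))
    (ht : EnvOK μ t) (H : RowsOK t (μ (1, 0)) D f g) :
    ∀ v ∈ Big C t, ∃ s, |s| < μ (1, 0) ∧ HasSl t v s := by
  intro v hv
  obtain ⟨s, h1, h2, -⟩ := H.slopes hμ hC hC' ht hv
  exact ⟨s, h1.trans_lt (slopeAt_lt hμ.norm hμ.refl hμ.diff hC'), h2⟩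

/-- the field `chain` of `Y96.Facts` -/
theorem chain (hμ : D411.SmoothNorm μ) (hC : 0 < C) (hC' : μ (1, 0) * C < μ (C, 1))
    (ht : EnvOK μ t) (H : RowsOK t (μ (1, 0)) D f g)
    (hcont : ∀ k l : ℤ, l < k → ∀ s, -μ (1, 0) < s → s < μ (1, 0) →
      ContAt D (f k) s ∨ ContAt D (g l) s) :
    ∀ v ∈ Big C t, ∀ w ∈ Big C t, ∀ s, HasSl t v s → HasSl t w s → ∀ k l : ℤ, l < k →
      (∀ e, Y96.incU t k v e = Y96.incU t k w e) ∨
        (∀ e, Y96.incD t l v e = Y96.incD t l w e) := by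
  intro v hv w hw s hvs hws k l hlk
  obtain ⟨h1, h2⟩ := H.sand hμ hC hC' ht hv hvs
  obtain ⟨-, h3⟩ := H.sand hμ hC hC' ht hw hws
  have hlt := abs_lt.1 (h1.trans_lt (slopeAt_lt hμ.norm hμ.refl hμ.diff hC'))
  rcases hcont k l hlk s hlt.1 hlt.2 with hc | hc
  · left
    intro e
    have := (h2 k).1.sandU.inc_eq hc (h3 k).1.sandU e
    simpa only [inc, Y96.incU] using this
  · right
    intro e
    have := (h2 l).2.sandU.inc_eq hc (h3 l).2.sandU e
    simpa only [inc, Y96.incD] using this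

end RowsOK

/-! ## almost every environment -/

/-- the hypotheses on the family of one row (39's `RowFam` without the covariance) -/
structure RowHyp (G : Measure ℝ) [IsProbabilityMeasure G] (D : Set ℝ) (R : Set (ℤ × ℤ)) (j : ℤ)
    (σ : ℝ) (f : ℝ → Environment → ℤ → ℝ) : Prop where
  mean : MeanFam (iidLaw G) D f 0 σ
  dep : ∀ p ∈ D, ∀ t t' : Environment, (∀ e ∈ edgesIn R, t e = t' e) →
    ∀ x, inc (f p t) x = inc (f p t') x
  slope : ∀ p ∈ D, ∀ᵐ t ∂(iidLaw G), HasSlope (f p t) (σ * p)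
  cmp : ∀ p ∈ D, ∀ᵐ t ∂(iidLaw G), ∀ u, IsRay t (reg R) u → UH u →
    Cmp (f p t) fun x => bus t (reg R) u (x, j)

theorem disjoint_edges {k l : ℤ} (h : l < k) : Disjoint (edgesIn (Up k)) (edgesIn (Dn l)) := by
  rw [Set.disjoint_left]
  intro e h1 h2
  induction e using Sym2.ind with
  | _ x y =>
    have e1 := (mem_edgesIn.1 h1).1
    have e2 := (mem_edgesIn.1 h2).1
    simp only [Up, Dn, mem_ofPred_eq] at e1 e2
    omega

variable {G : Measure ℝ} [IsProbabilityMeasure G]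

/-- **all rows at once** -/
theorem ae_rowsOK {D : Set ℝ} {m : ℝ} (hDc : D.Countable)
    (hD : ∀ x y, -m < x → x < y → y < m → ∃ p ∈ D, x < p ∧ p < y) (hsub : D ⊆ Icc (-m) m)
    {f g : ℤ → ℝ → Environment → ℤ → ℝ} (hf : ∀ k, RowHyp G D (Up k) k (-1) (f k))
    (hg : ∀ k, RowHyp G D (Dn k) k 1 (g k)) :
    ∀ᵐ t ∂(iidLaw G), RowsOK t m D (fun k p => f k p t) (fun k p => g k p t) ∧
      ∀ k l : ℤ, l < k → ∀ s, -m < s → s < m →
        ContAt D (fun p => f k p t) s ∨ ContAt D (fun p => g l p t) s := by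
  have h1 : ∀ᵐ t ∂(iidLaw G), ∀ k, ∀ p ∈ D, ∀ q ∈ D, p < q → ∀ x,
      inc (f k q t) x ≤ inc (f k p t) x := by
    rw [ae_all_iff]
    intro k
    rw [ae_ball_iff hDc]
    intro p hp
    rw [ae_ball_iff hDc]
    intro q hq
    by_cases hpq : p < q
    · filter_upwards [(hf k).mean.mono p hp q hq hpq] with t ht _ x
      linarith [ht x]
    · exact Eventually.of_forall fun t h => absurd h hpq
  have h2 : ∀ᵐ t ∂(iidLaw G), ∀ k, ∀ p ∈ D, ∀ q ∈ D, p < q → ∀ x,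
      inc (g k p t) x ≤ inc (g k q t) x := by
    rw [ae_all_iff]
    intro k
    rw [ae_ball_iff hDc]
    intro p hp
    rw [ae_ball_iff hDc]
    intro q hq
    by_cases hpq : p < q
    · filter_upwards [(hg k).mean.mono p hp q hq hpq] with t ht _ x
      linarith [ht x]
    · exact Eventually.of_forall fun t h => absurd h hpq
  have h3 : ∀ᵐ t ∂(iidLaw G), ∀ k, ∀ p ∈ D, HasSlope (f k p t) (-p) := by
    rw [ae_all_iff]
    intro k
    rw [ae_ball_iff hDc]
    intro p hp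
    filter_upwards [(hf k).slope p hp] with t ht
    simpa using ht
  have h4 : ∀ᵐ t ∂(iidLaw G), ∀ k, ∀ p ∈ D, HasSlope (g k p t) p := by
    rw [ae_all_iff]
    intro k
    rw [ae_ball_iff hDc]
    intro p hp
    filter_upwards [(hg k).slope p hp] with t ht
    simpa using ht
  have h5 : ∀ᵐ t ∂(iidLaw G), ∀ k, ∀ p ∈ D, ∀ u, IsRay t (reg (Up k)) u → UH u →
      Cmp (f k p t) fun x => bus t (reg (Up k)) u (x, k) := by
    rw [ae_all_iff]
    intro k
    rw [ae_ball_iff hDc]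
    exact (hf k).cmp
  have h6 : ∀ᵐ t ∂(iidLaw G), ∀ k, ∀ p ∈ D, ∀ u, IsRay t (reg (Dn k)) u → UH u →
      Cmp (g k p t) fun x => bus t (reg (Dn k)) u (x, k) := by
    rw [ae_all_iff]
    intro k
    rw [ae_ball_iff hDc]
    exact (hg k).cmp
  have h7 : ∀ᵐ t ∂(iidLaw G), ∀ k l : ℤ, l < k → ∀ s, -m < s → s < m →
      ContAt D (fun p => f k p t) s ∨ ContAt D (fun p => g l p t) s := by
    rw [ae_all_iff]
    intro k
    rw [ae_all_iff]
    intro l
    by_cases hlk : l < k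
    · have := chain_env G (A := -m) (B := m) hD (disjoint_edges hlk) (hf k).mean (hg l).mean
        (fun p hp x t t' h => (hf k).dep p hp t t' h x)
        (fun p hp x t t' h => (hg l).dep p hp t t' h x)
      filter_upwards [this] with t ht _
      exact ht
    · exact Eventually.of_forall fun t h => absurd h hlk
  filter_upwards [h1, h2, h3, h4, h5, h6, h7] with t t1 t2 t3 t4 t5 t6 t7
  exact ⟨⟨hD, hsub, t1, t2, t3, t4, t5, t6⟩, t7⟩

/-- **the fields `slope` and `chain` of `Y96.Facts`**, almost every environment -/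
theorem ae_slope_chain [NullSingletonClass G] {m : ℝ} {μ : ℝ × ℝ → ℝ} (hG : M51.Law213 G)
    (hM : Mom G m) (hμ : IsTC1 G μ) (hN : D411.SmoothNorm μ) {D : Set ℝ} (hDc : D.Countable)
    (hD : ∀ x y, -μ (1, 0) < x → x < y → y < μ (1, 0) → ∃ p ∈ D, x < p ∧ p < y)
    (hsub : D ⊆ Icc (-μ (1, 0)) (μ (1, 0)))
    {f g : ℤ → ℝ → Environment → ℤ → ℝ} (hf : ∀ k, RowHyp G D (Up k) k (-1) (f k))
    (hg : ∀ k, RowHyp G D (Dn k) k 1 (g k)) {C : ℝ} (hC : 0 < C)
    (hC' : μ (1, 0) * C < μ (C, 1)) :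
    ∀ᵐ t ∂(iidLaw G),
      (∀ v ∈ Big C t, ∃ s, |s| ≤ slopeAt μ C ∧ HasSl t v s ∧ ∀ k,
        Sand D (fun p => f k p t) s (fun x => fU t k v (x, k)) ∧
        SandUp D (fun p => g k p t) s fun x => fD t k v (x, k)) ∧
      (∀ v ∈ Big C t, ∃ s, |s| < μ (1, 0) ∧ HasSl t v s) ∧
      ∀ v ∈ Big C t, ∀ w ∈ Big C t, ∀ s, HasSl t v s → HasSl t w s → ∀ k l : ℤ, l < k →
        (∀ e, Y96.incU t k v e = Y96.incU t k w e) ∨
          (∀ e, Y96.incD t l v e = Y96.incD t l w e) := by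
  filter_upwards [ae_rowsOK hDc hD hsub hf hg, ae_envOK_213 hG hM hμ hN] with t ⟨t1, t2⟩ t3
  exact ⟨fun v hv => t1.slopes hN hC hC' t3 hv, t1.slope hN hC hC' t3,
    t1.chain hN hC hC' t3 t2⟩

end Crest.Agent.R151.SLF
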