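import Crest.Agent.R151.RFL890C
import Crest.Agent.R151.L763k
import Crest.Agent.R151.E39f
import Crest.Agent.R151.SLF856

/-!
# R151/RF890 — upper and lower row families from 763's system of line functions (owner helper890)

`S : Sys G μ f0` (763, L763k).  `fP f0 μ p k t x` is the upper label function of the row `k` with slope
`-p`; `gP f0 μ p k t x = fP f0 μ (-p) (-k) (N.refl t) x` is the lower one, with slope `p`.

* `Sys.rowFam_up`, `Sys.rowFam_dn` : 39's `RowFam` for every level;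
* `Sys.hrows` : the input `hrows` of `E39.hgood_of_rows`;
* `Sys.rowHyp_up`, `Sys.rowHyp_dn` : 856's `RowHyp` for every level.
-/

set_option autoImplicit false

open MeasureTheory Filter Topology
open Crest.ProbabilityR.FirstPassage

namespace Crest.Agent.R151.RF

open Crest.Agent.R151 Crest.Agent.R151.LIN Crest.Agent.R151.RFL
open Crest.Agent.R151.SEL (Up Dn)

/-! ### the slope set -/

/-- the rational multiples of `m` in `(-m, m)` -/
def DS (m : ℝ) : Set ℝ := {p | |p| < m ∧ ∃ q : ℚ, (q : ℝ) * m = p}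

theorem DS_abs_lt {m p : ℝ} (hp : p ∈ DS m) : |p| < m := hp.1

theorem DS_sub_Ioo (m : ℝ) : DS m ⊆ Set.Ioo (-m) m := fun _ hp => abs_lt.1 hp.1

theorem DS_sub_Icc (m : ℝ) : DS m ⊆ Set.Icc (-m) m := fun _ hp => abs_le.1 hp.1.le

theorem DS_neg {m p : ℝ} (hp : p ∈ DS m) : -p ∈ DS m := by
  obtain ⟨h1, q, rfl⟩ := hp
  exact ⟨by rwa [abs_neg], -q, by push_cast; ring⟩

theorem DS_neg_iff {m p : ℝ} : -p ∈ DS m ↔ p ∈ DS m :=
  ⟨fun h => by simpa using DS_neg h, DS_neg⟩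

theorem DS_neg_set (m : ℝ) : {p | -p ∈ DS m} = DS m := Set.ext fun _ => DS_neg_iff

theorem DS_countable (m : ℝ) : (DS m).Countable := by
  refine (Set.countable_range fun q : ℚ => (q : ℝ) * m).mono ?_
  rintro _ ⟨-, q, rfl⟩
  exact ⟨q, rfl⟩

theorem DS_dense (m : ℝ) : ∀ x y, -m ≤ x → x < y → y ≤ m → ∃ p ∈ DS m, x < p ∧ p < y := by
  intro x y hx hxy hy
  have hm : 0 < m := by linarith
  obtain ⟨q, hq1, hq2⟩ := exists_rat_btwn (show x / m < y / m by gcongr)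
  rw [div_lt_iff₀ hm] at hq1
  rw [lt_div_iff₀ hm] at hq2
  exact ⟨q * m, ⟨abs_lt.2 ⟨by linarith, by linarith⟩, q, rfl⟩, hq1, hq2⟩

theorem DS_zero {m : ℝ} (hm : 0 < m) : (0 : ℝ) ∈ DS m := ⟨by simpa using hm, 0, by simp⟩

/-! ### the lower row functions -/

/-- lower label function of row `k` with slope `p` -/
noncomputable def gP (f0 : ℝ → Environment → ℤ → ℝ) (μ : ℝ × ℝ → ℝ) (p : ℝ) (k : ℤ)
    (t : Environment) (x : ℤ) : ℝ := fP f0 μ (-p) (-k) (N.refl t) x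

theorem gP_refl (f0 : ℝ → Environment → ℤ → ℝ) (μ : ℝ × ℝ → ℝ) (p : ℝ) (k : ℤ)
    (t : Environment) : gP f0 μ p k (N.refl t) = fP f0 μ (-p) (-k) t := by
  funext x
  unfold gP
  rw [N.refl_refl]

theorem mir_Up_Dn (k : ℤ) : Mir ry (Up (-k)) (Dn k) := mir_Hk k

theorem mir_Dn_Up (k : ℤ) : Mir ry (Dn (-k)) (Up k) := mir_Lk k

section

variable {G : Measure ℝ} [IsProbabilityMeasure G] {μ : ℝ × ℝ → ℝ}
  {f0 : ℝ → Environment → ℤ → ℝ} (S : Sys G μ f0)
include S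

theorem Sys.measG (p : ℝ) (k x : ℤ) : Measurable fun t => gP f0 μ p k t x :=
  (S.measP (-p) (-k) x).comp N.measurable_refl

theorem Sys.depG (p : ℝ) (k : ℤ) {t t' : Environment} (h : ∀ e ∈ K.edgesIn (Dn k), t e = t' e) :
    gP f0 μ p k t = gP f0 μ p k t' := by
  funext x
  unfold gP
  rw [S.depP (-p) (-k) (refl_agree h)]

theorem Sys.intG {p : ℝ} (hp : |p| < μ (1, 0)) (k x : ℤ) :
    Integrable (fun t => H.inc (gP f0 μ p k t) x) (iidLaw G) :=
  integrable_refl.2 (S.intP (p := -p) (by rwa [abs_neg]) (-k) x)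

theorem Sys.meanG {p : ℝ} (hp : |p| < μ (1, 0)) (k x : ℤ) :
    ∫ t, H.inc (gP f0 μ p k t) x ∂(iidLaw G) = p := by
  have h1 := S.meanP (p := -p) (by rwa [abs_neg]) (-k) x
  rw [neg_neg] at h1
  exact (integral_refl (G := G) fun t => H.inc (fP f0 μ (-p) (-k) t) x).trans h1

theorem Sys.monoG {p q : ℝ} (hp : |p| < μ (1, 0)) (hq : |q| < μ (1, 0)) (hpq : p ≤ q) :
    ∀ᵐ t ∂(iidLaw G), ∀ k x : ℤ, H.inc (gP f0 μ p k t) x ≤ H.inc (gP f0 μ q k t) x := by
  filter_upwards [ae_refl_of (S.monoP (p := -q) (q := -p) (by rwa [abs_neg]) (by rwa [abs_neg])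
    (neg_le_neg hpq))] with t ht k x
  exact ht (-k) x

theorem Sys.meanFamG {D : Set ℝ} (hD : ∀ p ∈ D, |p| < μ (1, 0)) (k : ℤ) :
    H.MeanFam (iidLaw G) D (fun p t x => gP f0 μ p k t x) 0 1 where
  sign := Or.inl rfl
  meas := fun p _ x => Sys.measG S p k x
  int := fun p hp x => Sys.intG S (hD p hp) k x
  mean := fun p hp x => by
    have := Sys.meanG S (hD p hp) k x
    rw [zero_add, one_mul]
    exact this
  mono := fun p hp q hq hpq => by
    filter_upwards [Sys.monoG S (hD p hp) (hD q hq) hpq.le] with t ht x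
    have := ht k x
    rw [one_mul, one_mul]
    exact this

theorem Sys.slopeG {p : ℝ} (hp : |p| < μ (1, 0)) :
    ∀ᵐ t ∂(iidLaw G), ∀ k : ℤ, H.HasSlope (gP f0 μ p k t) p := by
  filter_upwards [ae_refl_of (S.slopeP (p := -p) (by rwa [abs_neg]))] with t ht k
  have := ht (-k)
  rw [neg_neg] at this
  exact this

/-- covariance under all shifts -/
theorem Sys.covG {p : ℝ} (hp : |p| < μ (1, 0)) :
    ∀ᵐ t ∂(iidLaw G), ∀ (a : ℤ × ℤ) (k x : ℤ), gP f0 μ p k (A.shift a t) x =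
      gP f0 μ p (k + a.2) t (x + a.1) - gP f0 μ p (k + a.2) t a.1 := by
  filter_upwards [ae_refl_of (S.covP (p := -p) (by rwa [abs_neg]))] with t ht a k x
  have h1 := ht (a.1, -a.2) (-k) x
  have h2 : N.refl (A.shift a t) = A.shift (a.1, -a.2) (N.refl t) := by
    rw [shift_refl]; simp
  unfold gP
  rw [h2, h1, neg_add]

theorem Sys.incCovG {p : ℝ} (hp : |p| < μ (1, 0)) :
    ∀ᵐ t ∂(iidLaw G), ∀ k y : ℤ, G785.IncCov (gP f0 μ p k) y t := by
  filter_upwards [Sys.covG S hp] with t ht k y w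
  have h1 := ht (y, 0) k w
  have h2 := ht (y, 0) k 0
  simp only [add_zero, zero_add] at h1 h2
  rw [h1, h2]
  ring

theorem Sys.cmpG {p : ℝ} (hp : |p| < μ (1, 0)) :
    ∀ᵐ t ∂(iidLaw G), ∀ (k : ℤ) (u : ℕ → ℤ × ℤ), Y.IsRay t (reg (Dn k)) u →
      (∀ N : ℤ, ∃ n, (u n).2 ≤ N) →
      H.Cmp (gP f0 μ p k t) (fun x => Y.bus t (reg (Dn k)) u (x, k)) := by
  filter_upwards [ae_refl_of (S.cmpP (p := -p) (by rwa [abs_neg]))] with t ht k u hu hN
  have h1 := ht (-k) (fun n => ((u n).1, -(u n).2)) ((isRay_refl (mir_Up_Dn k)).1 hu)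
    (fun N => by
      obtain ⟨n, hn⟩ := hN (-N)
      exact ⟨n, by simp only; omega⟩)
  have h2 : (fun x => Y.bus t (reg (Dn k)) u (x, k)) =
      fun x => Y.bus (N.refl t) (reg (Hk (-k))) (fun n => ((u n).1, -(u n).2)) (x, -k) := by
    funext x
    exact bus_refl (mir_Up_Dn k) t u (x, k)
  rw [h2]
  exact h1

/-! ### rays of unbounded height -/

omit S [IsProbabilityMeasure G] in
theorem high_of_abs {t : Environment} {k : ℤ} {u : ℕ → ℤ × ℤ} (hu : Y.IsRay t (reg (Up k)) u)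
    (h : ∀ N : ℤ, ∃ n, N ≤ |(u n).2|) : ∀ N : ℤ, ∃ n, N ≤ (u n).2 := by
  intro N
  obtain ⟨n, hn⟩ := h (max N (|k| + 1))
  refine ⟨n, ?_⟩
  have h1 : k ≤ (u n).2 := (reg_adj.1 (hu.adj n)).2.1
  have h2 := le_max_left N (|k| + 1)
  have h3 := le_max_right N (|k| + 1)
  have h4 := neg_abs_le k
  rcases abs_cases (u n).2 with ⟨h5, h6⟩ | ⟨h5, h6⟩ <;> omega

omit S [IsProbabilityMeasure G] in
theorem low_of_abs {t : Environment} {k : ℤ} {u : ℕ → ℤ × ℤ} (hu : Y.IsRay t (reg (Dn k)) u)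
    (h : ∀ N : ℤ, ∃ n, N ≤ |(u n).2|) : ∀ N : ℤ, ∃ n, (u n).2 ≤ N := by
  intro N
  obtain ⟨n, hn⟩ := h (max (-N) (|k| + 1))
  refine ⟨n, ?_⟩
  have h1 : (u n).2 ≤ k := (reg_adj.1 (hu.adj n)).2.1
  have h2 := le_max_left (-N) (|k| + 1)
  have h3 := le_max_right (-N) (|k| + 1)
  have h4 := le_abs_self k
  rcases abs_cases (u n).2 with ⟨h5, h6⟩ | ⟨h5, h6⟩ <;> omega

/-! ### 39's `RowFam` -/

theorem Sys.rowFam_up {D : Set ℝ} (hD : ∀ p ∈ D, |p| < μ (1, 0)) (k : ℤ) :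
    E39.RowFam G D (Up k) k (-1) (fun p t x => fP f0 μ p k t x) where
  mean := S.meanFamP hD k
  dep := fun p _ t t' h x => by
    have := S.depP p k h
    simp only [H.inc]
    rw [this]
  slope := fun p hp => by
    filter_upwards [S.slopeP (hD p hp)] with t ht
    have := ht k
    rw [neg_one_mul]
    exact this
  cov := fun p hp => by
    filter_upwards [S.incCovP (hD p hp)] with t ht y
    exact ht k y
  cmp := fun p hp => by
    filter_upwards [S.cmpP (hD p hp)] with t ht u hu hh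
    exact ht k u hu (high_of_abs hu hh)

theorem Sys.rowFam_dn {D : Set ℝ} (hD : ∀ p ∈ D, |p| < μ (1, 0)) (k : ℤ) :
    E39.RowFam G D (Dn k) k 1 (fun p t x => gP f0 μ p k t x) where
  mean := Sys.meanFamG S hD k
  dep := fun p _ t t' h x => by
    have := Sys.depG S p k h
    simp only [H.inc]
    rw [this]
  slope := fun p hp => by
    filter_upwards [Sys.slopeG S (hD p hp)] with t ht
    have := ht k
    rw [one_mul]
    exact this
  cov := fun p hp => by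
    filter_upwards [Sys.incCovG S (hD p hp)] with t ht y
    exact ht k y
  cmp := fun p hp => by
    filter_upwards [Sys.cmpG S (hD p hp)] with t ht u hu hh
    exact ht k u hu (low_of_abs hu hh)

/-- the input `hrows` of `E39.hgood_of_rows` -/
theorem Sys.hrows {D : Set ℝ} (hD : ∀ p ∈ D, |p| < μ (1, 0)) (j : ℤ) (_ : 1 ≤ j) :
    ∃ f g : ℝ → Environment → ℤ → ℝ,
      E39.RowFam G D (Up j) j (-1) f ∧ E39.RowFam G D (Dn (-j)) (-j) 1 g :=
  ⟨_, _, Sys.rowFam_up S hD j, Sys.rowFam_dn S hD (-j)⟩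

/-! ### 856's `RowHyp` -/

theorem Sys.rowHyp_up {D : Set ℝ} (hD : ∀ p ∈ D, |p| < μ (1, 0)) (k : ℤ) :
    SLF.RowHyp G D (Up k) k (-1) (fun p t x => fP f0 μ p k t x) :=
  ⟨(Sys.rowFam_up S hD k).mean, (Sys.rowFam_up S hD k).dep, (Sys.rowFam_up S hD k).slope,
    (Sys.rowFam_up S hD k).cmp⟩

theorem Sys.rowHyp_dn {D : Set ℝ} (hD : ∀ p ∈ D, |p| < μ (1, 0)) (k : ℤ) :
    SLF.RowHyp G D (Dn k) k 1 (fun p t x => gP f0 μ p k t x) :=
  ⟨(Sys.rowFam_dn S hD k).mean, (Sys.rowFam_dn S hD k).dep, (Sys.rowFam_dn S hD k).slope,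
    (Sys.rowFam_dn S hD k).cmp⟩

/-- **the row hypotheses for `D = DS (μ (1, 0))`, every level** (input of `SLF.ae_slope_chain`) -/
theorem Sys.rows :
    (∀ k, SLF.RowHyp G (DS (μ (1, 0))) (Up k) k (-1) (fun p t x => fP f0 μ p k t x)) ∧
      ∀ k, SLF.RowHyp G (DS (μ (1, 0))) (Dn k) k 1 (fun p t x => gP f0 μ p k t x) :=
  ⟨Sys.rowHyp_up S fun _ hp => hp.1, Sys.rowHyp_dn S fun _ hp => hp.1⟩

/-! ### the reflected system, row functions only: 624's `HL` for the reflected family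

`gP f0 μ p (-k) (N.refl t) x = fP f0 μ (-p) k t x`, hence the family
`k ↦ gP f0 μ p (-k) ∘ N.refl` satisfies `D624.HL`. -/

theorem Sys.hlG {p : ℝ} (hp : |p| < μ (1, 0)) :
    D624.HL G (fun k t x => gP f0 μ p (-k) (N.refl t) x) := by
  have h := S.hlP (p := -p) (by rwa [abs_neg])
  have e : (fun (k : ℤ) (t : Environment) (x : ℤ) => gP f0 μ p (-k) (N.refl t) x) =
      fP f0 μ (-p) := by
    funext k t x
    rw [gP_refl, neg_neg]
  rw [e]
  exact h

end

end Crest.Agent.R151.RF
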