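import Crest.Agent.R151.SLF856

/-!
# R151/SLF856b — the field `grow` of `Y96.Facts` and the assembly of `Facts` (owner helper856)
-/

set_option autoImplicit false

open Crest.ProbabilityR.FirstPassage
open Filter Set MeasureTheory
open scoped Topology

namespace Crest.Agent.R151.SLF

open Y H K SEL Y96 SL

/-- the norm is at least its horizontal part -/
theorem mu_fst_le {μ : ℝ × ℝ → ℝ} (hμ : D411.SmoothNorm μ) (x y : ℝ) :
    μ (1, 0) * |x| ≤ μ (x, y) := by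
  have hy : μ (x, -y) = μ (x, y) := mu_ry hμ.norm hμ.refl x y
  have h1 : μ ((2 * x, 0) : ℝ × ℝ) ≤ μ (x, y) + μ (x, -y) := by
    have := hμ.norm.add (x, y) (x, -y)
    have e : ((x, y) : ℝ × ℝ) + (x, -y) = (2 * x, 0) := by ext <;> simp; ring
    rwa [e] at this
  have h2 : μ ((2 * x, 0) : ℝ × ℝ) = 2 * |x| * μ (1, 0) := by
    rcases le_total 0 x with hx | hx
    · have := hμ.norm.smul (2 * x) (1, 0) (by positivity)
      simp only [Prod.smul_mk, smul_eq_mul, mul_one, mul_zero] at this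
      rw [this, abs_of_nonneg hx]
    · have := hμ.norm.smul (2 * -x) (1, 0) (by linarith)
      simp only [Prod.smul_mk, smul_eq_mul, mul_one, mul_zero] at this
      have e : ((2 * x, 0) : ℝ × ℝ) = (-(2 * -x), 0) := by ext <;> simp
      rw [e, hμ.refl, this, abs_of_nonpos hx]
  rw [hy] at h1
  linarith

/-- **two row growth** of the passage times -/
theorem grow_of_lShape {μ : ℝ × ℝ → ℝ} (hμ : D411.SmoothNorm μ) {t : Environment}
    (h : LShape μ t) (k j : ℤ) (ε : ℝ) (hε : 0 < ε) :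
    ∃ C' : ℝ, ∀ x z : ℤ, μ (1, 0) * |(x : ℝ) - z| - ε * (|(x : ℝ)| + |(z : ℝ)|) - C' ≤
      passageTime t (x, k) (z, j) := by
  have hm : 0 ≤ μ (1, 0) := (hμ.norm.pos (by simp)).le
  obtain ⟨N, hN⟩ := eventually_atTop.1 (h ε hε)
  refine ⟨ε * (|(k : ℝ)| + |(j : ℝ)| + N) + μ (1, 0) * (2 * N), fun x z => ?_⟩
  have hk := abs_nonneg (k : ℝ)
  have hj := abs_nonneg (j : ℝ)
  have hx := abs_nonneg (x : ℝ)
  have hz := abs_nonneg (z : ℝ)
  have hN0 : (0 : ℝ) ≤ N := Nat.cast_nonneg N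
  set n : ℕ := x.natAbs + z.natAbs + k.natAbs + j.natAbs + N with hn
  have hnN : N ≤ n := by omega
  have m1 : ((x, k) : ℤ × ℤ) ∈ box n := by rw [mem_box]; simp only; omega
  have m2 : ((z, j) : ℤ × ℤ) ∈ box n := by rw [mem_box]; simp only; omega
  have h1 := hN n hnN _ m1 _ m2
  have e1 : toR ((z, j) - (x, k) : ℤ × ℤ) = ((z : ℝ) - x, (j : ℝ) - k) := by
    simp [toR]
  rw [e1] at h1
  have h2 := mu_fst_le hμ ((z : ℝ) - x) ((j : ℝ) - k)
  have h3 : (n : ℝ) = |(x : ℝ)| + |(z : ℝ)| + |(k : ℝ)| + |(j : ℝ)| + N := by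
    rw [hn]
    push_cast
    simp only [Nat.cast_natAbs, Int.cast_abs]
  rw [h3] at h1
  rw [abs_sub_comm (z : ℝ) x] at h2
  nlinarith [mul_nonneg hm hN0]

variable {G : Measure ℝ} [IsProbabilityMeasure G]

/-- **Assembly of `Facts`**: everything except the two coalescence fields comes from the row
families. -/
theorem ae_facts [NullSingletonClass G] {m : ℝ} {μ : ℝ × ℝ → ℝ} (hG : M51.Law213 G)
    (hM : Mom G m) (hμ : IsTC1 G μ) (hN : D411.SmoothNorm μ) {D : Set ℝ} (hDc : D.Countable)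
    (hD : ∀ x y, -μ (1, 0) < x → x < y → y < μ (1, 0) → ∃ p ∈ D, x < p ∧ p < y)
    (hsub : D ⊆ Icc (-μ (1, 0)) (μ (1, 0)))
    {f g : ℤ → ℝ → Environment → ℤ → ℝ} (hf : ∀ k, RowHyp G D (Up k) k (-1) (f k))
    (hg : ∀ k, RowHyp G D (Dn k) k 1 (g k)) {C : ℝ} (hC : 0 < C)
    (hC' : μ (1, 0) * C < μ (C, 1))
    (hucU : ∀ᵐ t ∂(iidLaw G), ∀ v₀ ∈ Big C t, ∀ w₀ ∈ Big C t, ∀ s, HasSl t v₀ s → HasSl t w₀ s →
      (∃ k e, Y96.incU t k v₀ e ≠ Y96.incU t k w₀ e) →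
      ∀ v ∈ Big C t, ∀ w ∈ Big C t, HasSl t v s → HasSl t w s → LowCoal v w)
    (hucD : ∀ᵐ t ∂(iidLaw G), ∀ v₀ ∈ Big C t, ∀ w₀ ∈ Big C t, ∀ s, HasSl t v₀ s → HasSl t w₀ s →
      (∃ k e, Y96.incD t k v₀ e ≠ Y96.incD t k w₀ e) →
      ∀ v ∈ Big C t, ∀ w ∈ Big C t, HasSl t v s → HasSl t w s → HighCoal v w) :
    ∀ᵐ t ∂(iidLaw G), Facts (μ (1, 0)) C t := by
  have hat : ∀ x, G {x} = 0 := fun x => measure_singleton x
  filter_upwards [ae_slope_chain hG hM hμ hN hDc hD hsub hf hg hC hC', hucU, hucD,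
    ae_noTies (G := G) hat, ae_Nn (G := G) hG.h0, hM.as_ushape hμ hG] with t t1 t2 t3 t4 t5 t6
  exact
    { nn := t5
      nt := t4
      grow := fun k j ε hε => grow_of_lShape hN (lShape_of_dev t6) k j ε hε
      slope := t1.2.1
      chain := t1.2.2
      ucU := t2
      ucD := t3 }

end Crest.Agent.R151.SLF
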