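import Crest.Agent.R151.FAuc635
import Crest.Agent.R151.SLF856b
import Crest.Agent.R151.RF890

/-!
# R151, FA635 (helper635): `Y96.Facts` for almost every environment

`ae_facts_of_upSys`: from helper290's `UC.UpSys` and helper856's `RowHyp` families;
`ae_facts_sys`: from helper763's `LIN.Sys G μ f0` (helper890's row instances).
-/

set_option autoImplicit false

open Crest.ProbabilityR.FirstPassage
open Filter Set MeasureTheory
open scoped Topology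

namespace Crest.Agent.R151.FAuc

open Y H K SEL Y96 SL SLF

variable {G : Measure ℝ} [IsProbabilityMeasure G]

theorem ae_facts_of_upSys [NullSingletonClass G] {m : ℝ} {μ : ℝ × ℝ → ℝ} (hG : M51.Law213 G)
    (hM : Mom G m) (hμ : IsTC1 G μ) (hN : D411.SmoothNorm μ) {D : Set ℝ}
    (hsub : D ⊆ Icc (-μ (1, 0)) (μ (1, 0))) {f : ℝ → ℤ → Environment → ℤ → ℝ}
    {g : ℤ → ℝ → Environment → ℤ → ℝ} (S : UC.UpSys G D (-μ (1, 0)) (μ (1, 0)) f)
    (hf : ∀ k, RowHyp G D (Up k) k (-1) (fun p t => f p k t))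
    (hg : ∀ k, RowHyp G D (Dn k) k 1 (g k)) {C : ℝ} (hC : 0 < C)
    (hC' : μ (1, 0) * C < μ (C, 1)) : ∀ᵐ t ∂(iidLaw G), Facts (μ (1, 0)) C t :=
  ae_facts hG hM hμ hN S.countable S.dense hsub (f := fun k p t => f p k t) hf hg hC hC'
    (ae_ucU hG hM hμ hN hsub S hf hg hC hC') (ae_ucD hG hM hμ hN hsub S hf hg hC hC')

theorem ae_facts_sys [NullSingletonClass G] {m : ℝ} {μ : ℝ × ℝ → ℝ} (hG : M51.Law213 G)
    (hM : Mom G m) (hμ : IsTC1 G μ) (hN : D411.SmoothNorm μ) {f0 : ℝ → Environment → ℤ → ℝ}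
    (S : LIN.Sys G μ f0)
    (hup : UC.UpSys G (RF.DS (μ (1, 0))) (-μ (1, 0)) (μ (1, 0)) (LIN.fP f0 μ)) {C : ℝ}
    (hC : 0 < C) (hC' : μ (1, 0) * C < μ (C, 1)) : ∀ᵐ t ∂(iidLaw G), Facts (μ (1, 0)) C t :=
  ae_facts_of_upSys hG hM hμ hN (RF.DS_sub_Icc _) hup (RF.Sys.rows S).1 (RF.Sys.rows S).2 hC hC'

end Crest.Agent.R151.FAuc
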