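import Crest.Agent.R151.G338l

/-!
# R151 (S0214 part 2): (T1), (T2) for a fixed outer row (helper338)

`T1p` : small ball of `R#` of the outer row given the strips, from the law of the inner row;
`T2p` : exponential tail of `hull - ρ` given the strips.
-/

set_option autoImplicit false
set_option linter.unusedSectionVars false

open MeasureTheory Filter ProbabilityTheory Topology
open scoped ENNReal
open Crest.ProbabilityR.FirstPassage

namespace Crest.Agent.R151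

namespace Q

open K R78 B710 G338 M192

variable {μ : ℝ × ℝ → ℝ} {F : FlatData μ}

/-- union bound, three exceptional events -/
lemma real_le_add3 {Ω : Type*} [MeasurableSpace Ω] {P : Measure Ω} [IsProbabilityMeasure P]
    {S T E1 E2 E3 : Set Ω} (h : ∀ᵐ ω ∂P, ω ∈ S → ω ∉ E1 → ω ∉ E2 → ω ∉ E3 → ω ∈ T) :
    P.real S ≤ P.real T + P.real E1 + P.real E2 + P.real E3 := by
  have h1 : P.real S ≤ P.real (T ∪ (E1 ∪ (E2 ∪ E3))) := by
    apply real_mono_ae
    filter_upwards [h] with ω hω hS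
    by_cases h1 : ω ∈ E1
    · exact Or.inr (Or.inl h1)
    by_cases h2 : ω ∈ E2
    · exact Or.inr (Or.inr (Or.inl h2))
    by_cases h3 : ω ∈ E3
    · exact Or.inr (Or.inr (Or.inr h3))
    exact Or.inl (hω hS h1 h2 h3)
  have h2 := measureReal_union_le (μ := P) T (E1 ∪ (E2 ∪ E3))
  have h3 := measureReal_union_le (μ := P) E1 (E2 ∪ E3)
  have h4 := measureReal_union_le (μ := P) E2 E3
  linarith

lemma measurable_rsp (h : Hwy F) (y g : ℝ) {Ω : Type*} [MeasurableSpace Ω] {p r : Ω → RowS}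
    (hp : Measurable p) (hr : Measurable r) : Measurable fun ω => rsp h y g (p ω) (r ω) := by
  unfold rsp
  refine Measurable.prodMk (Measurable.prodMk ?_ (measurable_cenv h _ hp hr)) ?_
  · exact measurable_fst.comp (measurable_fst.comp hp)
  · exact measurable_snd.comp hp

lemma measurable_hkR (h : Hwy F) (d : ℝ × ℝ) {I : Set ℝ} (hI : MeasurableSet I) (s s' : ℝ) :
    Measurable fun q : RowS => h.hk d I s s' q.1.1 q.1.2 q.2 :=
  h.meas_hk measurable_fst.fst measurable_fst.snd measurable_snd d hI s s'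

lemma measurable_skR (h : Hwy F) (d : ℝ × ℝ) {I J : Set ℝ} (hI : MeasurableSet I)
    (hJ : MeasurableSet J) (L s s' : ℝ) :
    Measurable fun q : RowS => h.sk d I J L s s' q.1.1 q.1.2 q.2 :=
  (measurable_hkR h d hI s s').sub (measurable_hkR h d hJ (-L) L)

lemma measurable_ski (h : Hwy F) (y : ℝ) {I : Set ℝ} (hI : MeasurableSet I) (L s s' : ℝ) :
    Measurable (ski h y I L s s') := measurable_skR h _ hI MeasurableSet.univ L s s'

lemma measurable_sko (h : Hwy F) (y g : ℝ) {I : Set ℝ} (hI : MeasurableSet I) (L s s' : ℝ) :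
    Measurable (sko h y g I L s s') := measurable_skR h _ hI MeasurableSet.univ L s s'

/-- the law of `R#` of the inner row given the outer row -/
theorem inner_ski {G : Measure ℝ} [IsProbabilityMeasure G] {h : Hwy F} {y g c Λ L : ℝ}
    (hg : Geo h y g c Λ L) {I : Set ℝ} (hI : MeasurableSet I) (s s' : ℝ) (p : RowS) {B : Set ℝ}
    (hB : MeasurableSet B) :
    (PR G).real {r | h.sk (y • F.b) I Set.univ L s s' (p.1.1 - offv F g c r.1.1)
      (cenv h (dOv F y g) p r) r.2 ∈ B} = (PR G).real {q | ski h y I L s s' q ∈ B} := by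
  have hyb : h.wH < F.be (y • F.b) := by simpa using hg.y_big
  exact inner_prob (G := G) h (dOv F y g)
    (f := fun θ t φ => h.sk (y • F.b) I Set.univ L s s' θ t φ)
    (measurable_ski h y hI L s s') (fun φ => Hwy.sk_inv h _ I Set.univ L s s' φ)
    (E := fun θ => edgesIn (h.band (y • F.b) θ))
    (fun θ φ => Hwy.sk_loc h hyb I Set.univ L s s' θ φ) (g • F.b + c • F.a) p
    (fun η hη => hg.disj p.1.1 (norm_jitter hη)) hB

/-- facts about a fixed outer row used for both theorems -/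
lemma sko_nonneg_rsp {h : Hwy F} {y g L : ℝ} {I : Set ℝ} {s s' : ℝ} (hs1 : -L ≤ s) (hs4 : s' ≤ L)
    (hne : Rt h (dOv F y g) I s s') {q : RowS} (hq : Nn q.1.2) : 0 ≤ sko h y g I L s s' q :=
  sub_nonneg.2 (Hwy.hk_mono (h := h) hq (dOv F y g) (Set.subset_univ I) hs1 hs4 (hne _ _ _))

/-- **(T1) for a fixed outer row**. -/
theorem T1p {r₀ : ℝ} (hr : 0 < r₀) [IsProbabilityMeasure (gammaMeasure 1 r₀)]
    (hG0 : ∀ᵐ t ∂(iidLaw (gammaMeasure 1 r₀)), Nn t)
    (hμ : NormLike μ) {cψ : ℝ}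
    (hpsi : ∀ (v : ℝ × ℝ) (A : ℝ), 0 ≤ A → F.al v ≤ -A → |F.be v| ≤ A → cψ * A ≤ F.ψ v)
    {h : Hwy F} {y g c Λ L : ℝ} (hg : Geo h y g c Λ L)
    {I I' : Set ℝ} (hI : MeasurableSet I) (hI' : MeasurableSet I') (hIJ : I ⊆ Jw Λ)
    (hII' : ∀ x ∈ I, ∀ u, |u| ≤ cF F → x - c - u ∈ I')
    {s s' σ σ' Δ : ℝ} (hs1 : -L ≤ s) (hs2 : s ≤ L) (hs3 : -L ≤ s') (hs4 : s' ≤ L)
    (hσ : σ ≤ s - c - cF F - Δ) (hσ' : s' - c + 2 * cF F + h.κ + Δ ≤ σ')
    (hΔ : g + cF F + h.wH ≤ Δ)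
    {N : ℕ} (hN : (L + 2 * cF F + |c|) * ‖F.a‖ + (h.wH + g + cF F) * ‖F.b‖ + 1 ≤ N)
    (hne : Rt h (dOv F y g) I s s') (hneJ : Rt h (dOv F y g) (Jw Λ) (-L) L)
    {p : RowS} (hp : Nn p.1.2) {ρ : RowS → ℝ} (hρ : ∀ r, ρ (rsp h y g p r) = ρ p)
    {A B e τ q₀ κ' : ℝ} (hA : 0 < A) (he : 0 ≤ e) (hτ : 4 * A ≤ τ)
    (hτB : τ ≤ cψ * Δ - 4 * B) (hq0 : 0 < q₀) (hq : 4 * e ≤ q₀) (hκ' : 0 < κ')
    (hK : cpr (gammaMeasure 1 r₀) (obK h y g c Λ L) h (dOv F y g) A p ≤ e)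
    (hD : cpr (gammaMeasure 1 r₀) (obD F y g N) h (dOv F y g) B p ≤ e)
    (hG : cpr (gammaMeasure 1 r₀) (obG h y g L ρ) h (dOv F y g) A p ≤ e)
    (hin : q₀ ≤ (PR (gammaMeasure 1 r₀)).real {q | τ ≤ ski h y I' L σ σ' q}) :
    (PR (gammaMeasure 1 r₀)).real {r | sko h y g I L s s' (rsp h y g p r) ≤ κ' * τ} ≤
      2 * e + 11 * (κ' + A / τ) * Real.log (4 / q₀) := by
  set G := gammaMeasure 1 r₀ with hGdef
  have hcF := cF_nonneg F
  have hwH := h.wH_nonneg'
  have hgb := hg.g_big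
  have hτ0 : 0 < τ := by linarith
  have ht0 : 0 < τ - A := by linarith
  have hq1 : q₀ ≤ 1 := hin.trans measureReal_le_one
  -- the inner row
  have hinner : q₀ ≤ (PR G).real {r | τ ≤ h.sk (y • F.b) I' Set.univ L σ σ'
      (p.1.1 - offv F g c r.1.1) (cenv h (dOv F y g) p r) r.2} := by
    have := inner_ski (G := G) hg hI' σ σ' p (B := Set.Ici τ) measurableSet_Ici
    simp only [Set.mem_Ici] at this
    rw [this]; exact hin
  -- closeness
  have hbig : q₀ - 2 * e ≤ (PR G).real {r | τ - A ≤ sko h y g I L s s' (rsp h y g p r)} := by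
    have h3 := real_le_add3 (P := PR G)
      (S := {r | τ ≤ h.sk (y • F.b) I' Set.univ L σ σ'
        (p.1.1 - offv F g c r.1.1) (cenv h (dOv F y g) p r) r.2})
      (T := {r | τ - A ≤ sko h y g I L s s' (rsp h y g p r)})
      (E1 := {r | A < |(obK h y g c Λ L).ev h (dOv F y g) p r|})
      (E2 := {r | B < |(obD F y g N).ev h (dOv F y g) p r|}) (E3 := ∅) ?_
    · have hK' : (PR G).real {r | A < |(obK h y g c Λ L).ev h (dOv F y g) p r|} ≤ e := hK
      have hD' : (PR G).real {r | B < |(obD F y g N).ev h (dOv F y g) p r|} ≤ e := hD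
      rw [measureReal_empty] at h3
      linarith
    · filter_upwards [ae_jit (G := G), ae_nn_fresh hG0] with r hη hrn hS hE1 hE2 _
      simp only [not_lt, Set.mem_ofPred_eq] at hS hE1 hE2 ⊢
      have ht := nn_cenv (h := h) (d := dOv F y g) hp hrn
      have ha1 := abs_le.1 (abs_al_le' F hη)
      have hb1 := abs_le.1 (abs_be_le' F hη)
      have hac : |F.al (offv F g c r.1.1)| ≤ |c| + cF F := by
        rw [al_offv]
        exact (abs_add_le _ _).trans (add_le_add le_rfl (abs_al_le' F hη))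
      have hbc : |F.be (offv F g c r.1.1)| ≤ g + cF F := by
        rw [be_offv, abs_le]; constructor <;> linarith [hb1.1, hb1.2]
      have hac' : |F.al (Hwy.dU (offv F g c r.1.1) (y • F.b) (dOv F y g))| ≤ |c| + cF F := by
        rw [al_dU, show -c - F.al r.1.1 = -(c + F.al r.1.1) by ring, abs_neg]
        exact (abs_add_le _ _).trans (add_le_add le_rfl (abs_al_le' F hη))
      have hbc' : |F.be (Hwy.dU (offv F g c r.1.1) (y • F.b) (dOv F y g))| ≤ g + cF F := by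
        rw [be_dU, abs_le]; constructor <;> linarith [hb1.1, hb1.2]
      have hR : ∀ a b : ℝ, a ≤ |c| + cF F → b ≤ g + cF F →
          Hwy.Rgap F h.wH L a b + 1 ≤ N := by
        intro a b ha hb
        unfold Hwy.Rgap
        have h1 := mul_le_mul_of_nonneg_right (show L + cF F + a ≤ L + 2 * cF F + |c| by linarith)
          (norm_nonneg F.a)
        have h2 := mul_le_mul_of_nonneg_right (show h.wH + b ≤ h.wH + g + cF F by linarith)
          (norm_nonneg F.b)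
        linarith
      have key := Hwy.lower_close (h := h) (off := offv F g c r.1.1) (dI := y • F.b)
        (dO := dOv F y g) (θ := p.1.1) (t := cenv h (dOv F y g) p r) (φ := p.2) (φ₁ := r.2)
        hpsi hμ ht (hg.sep4 hη) (hg.winC hη) (I := I) (I' := I') (J := Jw Λ)
        (fun x hx => abs_le_of_mem_Jw hx) hIJ
        (fun x hx => by
          rw [al_offv, ← sub_sub]
          exact hII' x hx _ (abs_al_le' F hη))
        hs1 hs2 hs3 hs4 (σ := σ) (σ' := σ') (Δ := Δ)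
        (by rw [al_offv]; linarith [ha1.2])
        (by rw [al_dU]; linarith [ha1.1])
        (by linarith [hg.g_big])
        (by rw [be_offv]; linarith [hb1.2])
        (by rw [be_dU]; linarith [hb1.1])
        (N := N) (hR _ _ hac hbc) (hR _ _ hac' hbc') (hne _ _ _)
      have eK : h.K0 (offv F g c r.1.1) (y • F.b) (dOv F y g) (Jw Λ) L p.1.1
          (cenv h (dOv F y g) p r) p.2 r.2 = (obK h y g c Λ L).ev h (dOv F y g) p r := rfl
      have eD : max (devB μ N p.1.1 (cenv h (dOv F y g) p r))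
          (devB μ N (p.1.1 - dOv F y g) (cenv h (dOv F y g) p r)) =
          (obD F y g N).ev h (dOv F y g) p r := rfl
      rw [eK, eD] at key
      have hJ := Hwy.hk_mono (h := h) (θ := p.1.1) (t := cenv h (dOv F y g) p r) (φ := p.2) ht
        (dOv F y g) (Set.subset_univ (Jw Λ)) (le_refl (-L)) (le_refl L) (hneJ _ _ _)
      have e1 : sko h y g I L s s' (rsp h y g p r) =
          h.hk (dOv F y g) I s s' p.1.1 (cenv h (dOv F y g) p r) p.2 -
          h.hk (dOv F y g) Set.univ (-L) L p.1.1 (cenv h (dOv F y g) p r) p.2 := rfl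
      rw [e1]
      have hmin : τ ≤ min (h.sk (y • F.b) I' Set.univ L σ σ' (p.1.1 - offv F g c r.1.1)
          (cenv h (dOv F y g) p r) r.2)
          (cψ * Δ - 4 * (obD F y g N).ev h (dOv F y g) p r) := by
        refine le_min hS ?_
        have := (abs_le.1 hE2).2
        linarith
      have hK1 := (abs_le.1 hE1).1
      linarith
  -- small ball
  have hmr : Measurable fun r : RowS => rsp h y g p r := measurable_rsp h y g measurable_const
    measurable_id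
  have hYm : Measurable fun r : RowS =>
      h.hk (dOv F y g) I s s' (rsp h y g p r).1.1 (rsp h y g p r).1.2 (rsp h y g p r).2 - ρ p :=
    ((measurable_hkR h (dOv F y g) hI s s').comp hmr).sub_const _
  have hlc := logConc_out hr h y g hI (s := s) (s' := s') p hp hne (ρ p)
  have hsb := small_ball (μ := PR G) (D := fun r : RowS =>
      h.hk (dOv F y g) Set.univ (-L) L (rsp h y g p r).1.1 (rsp h y g p r).1.2
        (rsp h y g p r).2 - ρ p) hYm
    (A := A) (t := τ - A) (q := q₀ - 2 * e) (e := e) (κ := κ' * τ / (τ - A)) hA.le ht0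
    (by linarith) (by linarith) (by linarith) he (by linarith) (by positivity) hlc
    (by
      have : {r : RowS | A < |h.hk (dOv F y g) Set.univ (-L) L (rsp h y g p r).1.1
          (rsp h y g p r).1.2 (rsp h y g p r).2 - ρ p|} =
          {r | A < |(obG h y g L ρ).ev h (dOv F y g) p r|} := by
        ext r
        have e1 : (obG h y g L ρ).ev h (dOv F y g) p r =
          h.hk (dOv F y g) Set.univ (-L) L (rsp h y g p r).1.1
          (rsp h y g p r).1.2 (rsp h y g p r).2 - ρ (rsp h y g p r) := rfl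
        simp only [Set.mem_ofPred_eq, e1, hρ]
      rw [this]; exact hG)
    (by
      filter_upwards [ae_nn_fresh hG0] with r hrn
      have := sko_nonneg_rsp (L := L) hs1 hs4 hne (q := rsp h y g p r) (nn_cenv hp hrn)
      have e1 : sko h y g I L s s' (rsp h y g p r) =
        h.hk (dOv F y g) I s s' (rsp h y g p r).1.1 (rsp h y g p r).1.2 (rsp h y g p r).2 -
          h.hk (dOv F y g) Set.univ (-L) L (rsp h y g p r).1.1 (rsp h y g p r).1.2
            (rsp h y g p r).2 := rfl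
      rw [e1] at this
      linarith)
    (by
      refine hbig.trans (le_of_eq ?_)
      congr 1
      ext r
      have e1 : sko h y g I L s s' (rsp h y g p r) =
        h.hk (dOv F y g) I s s' (rsp h y g p r).1.1 (rsp h y g p r).1.2 (rsp h y g p r).2 -
          h.hk (dOv F y g) Set.univ (-L) L (rsp h y g p r).1.1 (rsp h y g p r).1.2
            (rsp h y g p r).2 := rfl
      simp only [Set.mem_ofPred_eq, e1]
      constructor <;> intro hh <;> linarith)
  -- arithmetic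
  have hsets : (PR G).real {r | sko h y g I L s s' (rsp h y g p r) ≤ κ' * τ} =
      (PR G).real {ω | (fun r : RowS => h.hk (dOv F y g) I s s' (rsp h y g p r).1.1
        (rsp h y g p r).1.2 (rsp h y g p r).2 - ρ p) ω - (fun r : RowS =>
      h.hk (dOv F y g) Set.univ (-L) L (rsp h y g p r).1.1 (rsp h y g p r).1.2
        (rsp h y g p r).2 - ρ p) ω ≤ κ' * τ / (τ - A) * (τ - A)} := by
    congr 1
    ext r
    have e1 : sko h y g I L s s' (rsp h y g p r) =
      h.hk (dOv F y g) I s s' (rsp h y g p r).1.1 (rsp h y g p r).1.2 (rsp h y g p r).2 -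
        h.hk (dOv F y g) Set.univ (-L) L (rsp h y g p r).1.1 (rsp h y g p r).1.2
          (rsp h y g p r).2 := rfl
    have e2 : κ' * τ / (τ - A) * (τ - A) = κ' * τ := by field_simp
    simp only [Set.mem_ofPred_eq, e1, e2]
    constructor <;> intro hh <;> linarith
  rw [hsets]
  refine hsb.trans ?_
  have hb1 : κ' * τ / (τ - A) ≤ 4 / 3 * κ' := by
    rw [div_le_iff₀ ht0]
    nlinarith
  have hb2 : A / (τ - A) ≤ 4 / 3 * (A / τ) := by
    rw [div_le_iff₀ ht0]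
    have : A / τ * τ = A := by field_simp
    have h5 : A / τ ≤ 1 / 4 := by rw [div_le_iff₀ hτ0]; linarith
    have h6 : 0 ≤ A / τ := by positivity
    nlinarith
  have hlog : Real.log (2 / (q₀ - 2 * e)) ≤ Real.log (4 / q₀) := by
    have h7 : 0 < q₀ - 2 * e := by linarith
    apply Real.log_le_log (by positivity)
    rw [div_le_div_iff₀ h7 hq0]
    linarith
  have hlog0 : 0 ≤ Real.log (4 / q₀) := by
    apply Real.log_nonneg
    rw [le_div_iff₀ hq0]; linarith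
  have hc1 : 0 ≤ κ' * τ / (τ - A) + A / (τ - A) := by positivity
  have hc2 : 8 * (κ' * τ / (τ - A) + A / (τ - A)) * Real.log (2 / (q₀ - 2 * e)) ≤
      8 * (κ' * τ / (τ - A) + A / (τ - A)) * Real.log (4 / q₀) :=
    mul_le_mul_of_nonneg_left hlog (by positivity)
  have hc3 : 8 * (κ' * τ / (τ - A) + A / (τ - A)) * Real.log (4 / q₀) ≤
      11 * (κ' + A / τ) * Real.log (4 / q₀) := by
    apply mul_le_mul_of_nonneg_right ?_ hlog0
    have : 0 ≤ A / τ := by positivity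
    linarith
  linarith

/-- monotonicity of the gap fence error in the region and in the labels -/
lemma gE_mono {h : Hwy F} {d : ℝ × ℝ} {I I' : Set ℝ} (hI : I ⊆ I') {L s s₁ s' s₁' : ℝ}
    (hs : s₁ ≤ s) (hs' : s' ≤ s₁') {θ : ℝ × ℝ} {t : Environment} {φ : ℝ × ℝ} (ht : Nn t)
    (hne : (routes t (h.Lo θ t φ) (h.Up d θ t φ) (rg F I θ) (h.iL s θ t φ)
      (h.iU d s' θ t φ)).Nonempty) : h.gE d I' L s₁ s₁' θ t φ ≤ h.gE d I L s s' θ t φ := by
  have := Hwy.hk_mono (h := h) ht d hI hs hs' hne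
  unfold Hwy.gE
  linarith

/-- nonemptiness of routes is monotone -/
lemma routes_mono_ne {h : Hwy F} {d : ℝ × ℝ} {I I' : Set ℝ} (hI : I ⊆ I') {s s₁ s' s₁' : ℝ}
    (hs : s₁ ≤ s) (hs' : s' ≤ s₁') {θ : ℝ × ℝ} {t : Environment} {φ : ℝ × ℝ}
    (hne : (routes t (h.Lo θ t φ) (h.Up d θ t φ) (rg F I θ) (h.iL s θ t φ)
      (h.iU d s' θ t φ)).Nonempty) :
    (routes t (h.Lo θ t φ) (h.Up d θ t φ) (rg F I' θ) (h.iL s₁ θ t φ)
      (h.iU d s₁' θ t φ)).Nonempty :=
  hne.mono (routes_mono (fun _ hv => hI hv) (h.ix_mono hs _ _ _) (h.ix_mono hs' _ _ _))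

lemma Rt.mono {h : Hwy F} {d : ℝ × ℝ} {I I' : Set ℝ} {s s₁ s' s₁' : ℝ} (hne : Rt h d I s s')
    (hI : I ⊆ I') (hs : s₁ ≤ s) (hs' : s' ≤ s₁') : Rt h d I' s₁ s₁' := fun θ t φ =>
  routes_mono_ne hI hs hs' (hne θ t φ)

/-- region of the upper gap in its own coordinates -/
noncomputable def Iup (F : FlatData μ) (y g c α β : ℝ) (η : ℝ × ℝ) : Set ℝ :=
  Set.Icc (α - F.al (offv F g c η) - F.al (y • F.b)) (β - F.al (offv F g c η) - F.al (y • F.b))

/-- upper bound of `R#` of the outer row in terms of the inner row, for one environment -/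
theorem sko_le {h : Hwy F} {y g c Λ L : ℝ} (hg : Geo h y g c Λ L)
    {α β σ σ' αi βi : ℝ} {s s' : ℝ}
    {α₀ β₀ a₀ b₀ α₁ β₁ a₁ b₁ : ℝ}
    (hα₀ : α ≤ α₀) (hβ₀ : β₀ ≤ β) (ha₀ : s ≤ a₀) (hb₀ : b₀ ≤ σ)
    (hα₁ : α ≤ α₁) (hβ₁ : β₁ ≤ β) (ha₁ : σ' ≤ a₁) (hb₁ : b₁ ≤ s')
    (hαi : α + cF F - c ≤ αi) (hβi : βi ≤ β - cF F - c)
    (hne0 : ∀ η, ‖η‖ ≤ 1 → Rt h (offv F g c η) (Set.Icc α₀ β₀) a₀ b₀)
    (hne2 : ∀ η, ‖η‖ ≤ 1 → Rt h (Hwy.dU (offv F g c η) (y • F.b) (dOv F y g))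
      (Iup F y g c α₁ β₁ η) a₁ b₁)
    (hnei : Rt h (y • F.b) (Set.Icc αi βi) σ σ')
    (hneJ : Rt h (dOv F y g) (Jw Λ) (-L) L)
    {q : RowS} (hq : Nn q.1.2) {r : (ℝ × ℝ) × (ℝ × ℝ)} (hη : ‖r.1‖ ≤ 1) :
    sko h y g (Set.Icc (α - h.κ) (β + h.κ)) L s s' q ≤
      obLo h g c α₀ β₀ L a₀ b₀ q.1.1 q.1.2 q.2 r +
      h.sk (y • F.b) (Set.Icc αi βi) Set.univ L σ σ' (q.1.1 - offv F g c r.1) q.1.2 r.2 +
      obUp h y g c α₁ β₁ L a₁ b₁ q.1.1 q.1.2 q.2 r + obJ h y g Λ L q.1.1 q.1.2 q.2 r := by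
  have ha := abs_le.1 (abs_al_le' F hη)
  have e0 : F.al (y • F.b) = 0 := by simp
  have hsub0 : Set.Icc α₀ β₀ ⊆ Set.Icc α β := Set.Icc_subset_Icc hα₀ hβ₀
  have hsubi : Set.Icc αi βi ⊆ Set.Icc (α - F.al (offv F g c r.1)) (β - F.al (offv F g c r.1)) := by
    rw [al_offv]
    apply Set.Icc_subset_Icc
    · linarith [ha.1]
    · linarith [ha.2]
  have hsub2 : Iup F y g c α₁ β₁ r.1 ⊆ Set.Icc (α - F.al (offv F g c r.1) - F.al (y • F.b))
      (β - F.al (offv F g c r.1) - F.al (y • F.b)) := by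
    unfold Iup
    apply Set.Icc_subset_Icc <;> linarith
  have n0 := hne0 r.1 hη q.1.1 q.1.2 (Hwy.φlo q.2 r.2)
  have n1 := hnei (q.1.1 - offv F g c r.1) q.1.2 r.2
  have n2 := hne2 r.1 hη (q.1.1 - offv F g c r.1 - y • F.b) q.1.2 (Hwy.φup q.2 r.2)
  have hJ := hneJ q.1.1 q.1.2 q.2
  have m0 := routes_mono_ne (s₁ := s) (s₁' := σ) hsub0 ha₀ hb₀ n0
  have m1 := routes_mono_ne (s₁ := σ) (s₁' := σ') hsubi le_rfl le_rfl n1
  have m2 := routes_mono_ne (s₁ := σ') (s₁' := s') hsub2 ha₁ hb₁ n2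
  have up := Hwy.upper_close (h := h) (θ := q.1.1) (t := q.1.2) (φ := q.2) (φ₁ := r.2) hq
    (hg.sep4 hη) (α := α) (β := β) (s := s) (s₁ := σ) (s₂ := σ') (s' := s') (L := L) (Jw Λ)
    m0 m1 m2
  have hK := Hwy.K0_nonpos (h := h) (θ := q.1.1) (t := q.1.2) (φ := q.2) (φ₁ := r.2) hq
    (hg.sep4 hη) (hg.winC hη) (J := Jw Λ) (fun x hx => abs_le_of_mem_Jw hx) hJ
  have g0 := gE_mono (h := h) (L := L) hsub0 ha₀ hb₀ hq n0
  have g2 := gE_mono (h := h) (L := L) hsub2 ha₁ hb₁ hq n2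
  have gi : h.sk (y • F.b) (Set.Icc (α - F.al (offv F g c r.1)) (β - F.al (offv F g c r.1)))
      Set.univ L σ σ' (q.1.1 - offv F g c r.1) q.1.2 r.2 ≤
      h.sk (y • F.b) (Set.Icc αi βi) Set.univ L σ σ' (q.1.1 - offv F g c r.1) q.1.2 r.2 := by
    have := Hwy.hk_mono (h := h) hq (y • F.b) hsubi (le_refl σ) (le_refl σ') n1
    unfold Hwy.sk
    linarith
  have e1 : sko h y g (Set.Icc (α - h.κ) (β + h.κ)) L s s' q =
      (h.hk (dOv F y g) (Set.Icc (α - h.κ) (β + h.κ)) s s' q.1.1 q.1.2 q.2 -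
        h.hk (dOv F y g) (Jw Λ) (-L) L q.1.1 q.1.2 q.2) + obJ h y g Λ L q.1.1 q.1.2 q.2 r := by
    unfold sko Hwy.sk obJ
    ring
  rw [e1]
  have g0' : h.gE (offv F g c r.1) (Set.Icc α β) L s σ q.1.1 q.1.2 (Hwy.φlo q.2 r.2) ≤
    obLo h g c α₀ β₀ L a₀ b₀ q.1.1 q.1.2 q.2 r := g0
  have g2' : h.gE (Hwy.dU (offv F g c r.1) (y • F.b) (dOv F y g))
      (Set.Icc (α - F.al (offv F g c r.1) - F.al (y • F.b))
        (β - F.al (offv F g c r.1) - F.al (y • F.b))) L σ' s'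
      (q.1.1 - offv F g c r.1 - y • F.b) q.1.2 (Hwy.φup q.2 r.2) ≤
    obUp h y g c α₁ β₁ L a₁ b₁ q.1.1 q.1.2 q.2 r := g2
  clear g0 g2 n0 n1 n2 m0 m1 m2 hJ hsub0 hsubi hsub2 hne0 hne2 hnei hneJ e1 e0 ha
  generalize obLo h g c α₀ β₀ L a₀ b₀ q.1.1 q.1.2 q.2 r = X1 at *
  generalize obUp h y g c α₁ β₁ L a₁ b₁ q.1.1 q.1.2 q.2 r = X2 at *
  generalize obJ h y g Λ L q.1.1 q.1.2 q.2 r = X3 at *
  generalize h.gE (offv F g c r.1) (Set.Icc α β) L s σ q.1.1 q.1.2 (Hwy.φlo q.2 r.2) = X4 at *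
  generalize h.K0 (offv F g c r.1) (y • F.b) (dOv F y g) (Jw Λ) L q.1.1 q.1.2 q.2 r.2 = X5 at *
  linarith

/-- **(T2) for a fixed outer row**: exponential tail of `Y = hull - ρ`. -/
theorem T2p {r₀ : ℝ} (hr : 0 < r₀) [IsProbabilityMeasure (gammaMeasure 1 r₀)]
    (hG0 : ∀ᵐ t ∂(iidLaw (gammaMeasure 1 r₀)), Nn t)
    {h : Hwy F} {y g c Λ L : ℝ} (hg : Geo h y g c Λ L)
    {α β σ σ' αi βi : ℝ} {s s' : ℝ} (hs1 : -L ≤ s) (hs4 : s' ≤ L)
    {α₀ β₀ a₀ b₀ α₁ β₁ a₁ b₁ : ℝ}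
    (hα₀ : α ≤ α₀) (hβ₀ : β₀ ≤ β) (ha₀ : s ≤ a₀) (hb₀ : b₀ ≤ σ)
    (hα₁ : α ≤ α₁) (hβ₁ : β₁ ≤ β) (ha₁ : σ' ≤ a₁) (hb₁ : b₁ ≤ s')
    (hαi : α + cF F - c ≤ αi) (hβi : βi ≤ β - cF F - c)
    (hne0 : ∀ η, ‖η‖ ≤ 1 → Rt h (offv F g c η) (Set.Icc α₀ β₀) a₀ b₀)
    (hne2 : ∀ η, ‖η‖ ≤ 1 → Rt h (Hwy.dU (offv F g c η) (y • F.b) (dOv F y g))
      (Iup F y g c α₁ β₁ η) a₁ b₁)
    (hnei : Rt h (y • F.b) (Set.Icc αi βi) σ σ')
    (hne : Rt h (dOv F y g) (Set.Icc (α - h.κ) (β + h.κ)) s s')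
    (hneJ : Rt h (dOv F y g) (Jw Λ) (-L) L)
    {p : RowS} (hp : Nn p.1.2) {ρ : RowS → ℝ} (hρ : ∀ r, ρ (rsp h y g p r) = ρ p)
    {A e τ q₀ n : ℝ} (hA : 0 < A) (he : 0 ≤ e) (hτ : 0 ≤ τ) (hq0 : 0 < q₀) (hq : 14 * e ≤ q₀)
    (hn : 1 ≤ n)
    (hLo : cpr (gammaMeasure 1 r₀) (obLo h g c α₀ β₀ L a₀ b₀) h (dOv F y g) A p ≤ e)
    (hUp : cpr (gammaMeasure 1 r₀) (obUp h y g c α₁ β₁ L a₁ b₁) h (dOv F y g) A p ≤ e)
    (hJ : cpr (gammaMeasure 1 r₀) (obJ h y g Λ L) h (dOv F y g) A p ≤ e)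
    (hG : cpr (gammaMeasure 1 r₀) (obG h y g L ρ) h (dOv F y g) A p ≤ e)
    (hin : q₀ ≤ (PR (gammaMeasure 1 r₀)).real {q | ski h y (Set.Icc αi βi) L σ σ' q ≤ τ}) :
    surv (PR (gammaMeasure 1 r₀)) (fun r => h.hk (dOv F y g) (Set.Icc (α - h.κ) (β + h.κ)) s s'
      (rsp h y g p r).1.1 (rsp h y g p r).1.2 (rsp h y g p r).2 - ρ p) (2 * n * (τ + 3 * A)) ≤
      (1 - q₀ / 8) ^ (n / 2) := by
  set G := gammaMeasure 1 r₀ with hGdef
  have hq1 : q₀ ≤ 1 := hin.trans measureReal_le_one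
  have hinner : q₀ ≤ (PR G).real {r | h.sk (y • F.b) (Set.Icc αi βi) Set.univ L σ σ'
      (p.1.1 - offv F g c r.1.1) (cenv h (dOv F y g) p r) r.2 ≤ τ} := by
    have := inner_ski (G := G) hg (measurableSet_Icc (a := αi) (b := βi)) σ σ' p
      (B := Set.Iic τ) measurableSet_Iic
    simp only [Set.mem_Iic] at this
    rw [this]; exact hin
  have hsmall : q₀ - 3 * e ≤ (PR G).real {r | sko h y g (Set.Icc (α - h.κ) (β + h.κ)) L s s'
      (rsp h y g p r) ≤ τ + 3 * A} := by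
    have h3 := real_le_add3 (P := PR G)
      (S := {r | h.sk (y • F.b) (Set.Icc αi βi) Set.univ L σ σ'
        (p.1.1 - offv F g c r.1.1) (cenv h (dOv F y g) p r) r.2 ≤ τ})
      (T := {r | sko h y g (Set.Icc (α - h.κ) (β + h.κ)) L s s' (rsp h y g p r) ≤ τ + 3 * A})
      (E1 := {r | A < |(obLo h g c α₀ β₀ L a₀ b₀).ev h (dOv F y g) p r|})
      (E2 := {r | A < |(obUp h y g c α₁ β₁ L a₁ b₁).ev h (dOv F y g) p r|})
      (E3 := {r | A < |(obJ h y g Λ L).ev h (dOv F y g) p r|}) ?_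
    · have h1 : (PR G).real {r | A < |(obLo h g c α₀ β₀ L a₀ b₀).ev h (dOv F y g) p r|} ≤ e := hLo
      have h2 : (PR G).real {r | A < |(obUp h y g c α₁ β₁ L a₁ b₁).ev h (dOv F y g) p r|} ≤ e := hUp
      have h4 : (PR G).real {r | A < |(obJ h y g Λ L).ev h (dOv F y g) p r|} ≤ e := hJ
      linarith
    · filter_upwards [ae_jit (G := G), ae_nn_fresh hG0] with r hη hrn hS hE1 hE2 hE3
      simp only [not_lt, Set.mem_ofPred_eq] at hS hE1 hE2 hE3 ⊢
      have ht := nn_cenv (h := h) (d := dOv F y g) hp hrn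
      have key := sko_le hg hα₀ hβ₀ ha₀ hb₀ hα₁ hβ₁ ha₁ hb₁ hαi hβi hne0 hne2 hnei hneJ
        (q := rsp h y g p r) ht (r := (r.1.1, r.2)) hη
      have e1 : obLo h g c α₀ β₀ L a₀ b₀ (rsp h y g p r).1.1 (rsp h y g p r).1.2
          (rsp h y g p r).2 (r.1.1, r.2) = (obLo h g c α₀ β₀ L a₀ b₀).ev h (dOv F y g) p r := rfl
      have e2 : obUp h y g c α₁ β₁ L a₁ b₁ (rsp h y g p r).1.1 (rsp h y g p r).1.2
          (rsp h y g p r).2 (r.1.1, r.2) = (obUp h y g c α₁ β₁ L a₁ b₁).ev h (dOv F y g) p r := rfl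
      have e3 : obJ h y g Λ L (rsp h y g p r).1.1 (rsp h y g p r).1.2
          (rsp h y g p r).2 (r.1.1, r.2) = (obJ h y g Λ L).ev h (dOv F y g) p r := rfl
      have e4 : h.sk (y • F.b) (Set.Icc αi βi) Set.univ L σ σ'
          ((rsp h y g p r).1.1 - offv F g c r.1.1) (rsp h y g p r).1.2 r.2 =
          h.sk (y • F.b) (Set.Icc αi βi) Set.univ L σ σ'
          (p.1.1 - offv F g c r.1.1) (cenv h (dOv F y g) p r) r.2 := rfl
      rw [e1, e2, e3] at key
      have k1 := (abs_le.1 hE1).2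
      have k2 := (abs_le.1 hE2).2
      have k3 := (abs_le.1 hE3).2
      have key' := key
      rw [e4] at key'
      linarith
  have hmr : Measurable fun r : RowS => rsp h y g p r := measurable_rsp h y g measurable_const
    measurable_id
  have hYm : Measurable fun r : RowS =>
      h.hk (dOv F y g) (Set.Icc (α - h.κ) (β + h.κ)) s s' (rsp h y g p r).1.1
        (rsp h y g p r).1.2 (rsp h y g p r).2 - ρ p :=
    ((measurable_hkR h (dOv F y g) measurableSet_Icc s s').comp hmr).sub_const _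
  have hlc := logConc_out hr h y g (measurableSet_Icc (a := α - h.κ) (b := β + h.κ))
    (s := s) (s' := s') p hp hne (ρ p)
  have e1 : ∀ r, sko h y g (Set.Icc (α - h.κ) (β + h.κ)) L s s' (rsp h y g p r) =
      h.hk (dOv F y g) (Set.Icc (α - h.κ) (β + h.κ)) s s' (rsp h y g p r).1.1
        (rsp h y g p r).1.2 (rsp h y g p r).2 -
        h.hk (dOv F y g) Set.univ (-L) L (rsp h y g p r).1.1 (rsp h y g p r).1.2
          (rsp h y g p r).2 := fun r => rfl
  have hts := tail_surv (μ := PR G) (D := fun r : RowS =>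
      h.hk (dOv F y g) Set.univ (-L) L (rsp h y g p r).1.1 (rsp h y g p r).1.2
        (rsp h y g p r).2 - ρ p) hYm
    (A := A) (t := τ + 3 * A) (q := q₀ - 3 * e) (e := e) (n := n) hA.le (by linarith)
    (by linarith) (by linarith) (by linarith) he (by linarith) hn hlc
    (by
      have : {r : RowS | A < |h.hk (dOv F y g) Set.univ (-L) L (rsp h y g p r).1.1
          (rsp h y g p r).1.2 (rsp h y g p r).2 - ρ p|} =
          {r | A < |(obG h y g L ρ).ev h (dOv F y g) p r|} := by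
        ext r
        have e1 : (obG h y g L ρ).ev h (dOv F y g) p r =
          h.hk (dOv F y g) Set.univ (-L) L (rsp h y g p r).1.1
          (rsp h y g p r).1.2 (rsp h y g p r).2 - ρ (rsp h y g p r) := rfl
        simp only [Set.mem_ofPred_eq, e1, hρ]
      rw [this]; exact hG)
    (by
      filter_upwards [ae_nn_fresh hG0] with r hrn
      have := sko_nonneg_rsp (L := L) hs1 hs4 hne (q := rsp h y g p r) (nn_cenv hp hrn)
      rw [e1] at this
      linarith)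
    (by
      refine hsmall.trans (le_of_eq ?_)
      congr 1
      ext r
      simp only [Set.mem_ofPred_eq, e1]
      constructor <;> intro hh <;> linarith)
  refine hts.trans ?_
  have hb : (1 - (q₀ - 3 * e) / 4) ≤ 1 - q₀ / 8 := by linarith
  exact Real.rpow_le_rpow (by linarith) hb (by linarith)

end Q

end Crest.Agent.R151
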