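import Crest.Agent.R151.V19
import Crest.Agent.R151.G338j

/-!
# R151 / Q8a — law of the inner row given the strips of the outer row (owner helper777)

`Ri = (jitter η, phases φ₁)`, law `κI := UU2.prod (UU.prod UU)`;
`inn off y` : the inner row `((θ - off - η, t), φ₁)`, `y = (outer row, (η, φ₁))`.

* `lintegral_inn` : for every outer row `p`, the inner row, in the environment whose edges off
  `E θ` are refreshed, has the law `(P0 G).prod (UU.prod UU)`, for invariant functionals which do
  not read the edges of `E θ`;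
* `prob_inn`, `disjoint_E0_band` (the strips of the outer row are disjoint from the band of the
  inner row).
-/

set_option autoImplicit false

open MeasureTheory Filter ProbabilityTheory Topology Set
open Crest.ProbabilityR.FirstPassage
open scoped ENNReal

namespace Crest.Agent.R151.Q

open Crest.Agent.R151.K
open M192 (Row mIL)
open V (cs E0 glue)
open B710 (FlatData)

/-- jitter and phases of the inner row -/
abbrev Ri : Type := (ℝ × ℝ) × (ℝ × ℝ)

/-- law of the jitter and of the phases of the inner row -/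
noncomputable def κI : Measure Ri := UU2.prod (UU.prod UU)

instance : IsProbabilityMeasure κI := by unfold κI; infer_instance

/-- the inner row -/
def inn (off : ℝ × ℝ) (y : Row (ℝ × ℝ) × Ri) : Row (ℝ × ℝ) :=
  ((y.1.1.1 - off - y.2.1, y.1.1.2), y.2.2)

lemma measurable_inn (off : ℝ × ℝ) : Measurable (inn off) := by
  unfold inn
  refine Measurable.prodMk (Measurable.prodMk ?_ ?_) ?_
  · exact ((measurable_fst.comp (measurable_fst.comp measurable_fst)).sub_const off).sub
      (measurable_fst.comp measurable_snd)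
  · exact measurable_snd.comp (measurable_fst.comp measurable_fst)
  · exact measurable_snd.comp measurable_snd

lemma ae_jitter_κI : ∀ᵐ ω ∂κI, ω.1 ∈ Ico (0 : ℝ) 1 ×ˢ Ico (0 : ℝ) 1 := by
  have h1 : MeasurePreserving (Prod.fst : Ri → ℝ × ℝ) κI UU2 := by
    unfold κI; exact measurePreserving_fst
  exact h1.quasiMeasurePreserving.ae ae_UU2

variable {G : Measure ℝ} [IsProbabilityMeasure G]

/-- **law of the inner row given the strips of the outer row**, `ℝ≥0∞` version -/
theorem lintegral_inn {E E' : ℝ × ℝ → Set (Sym2 (ℤ × ℤ))} {off : ℝ × ℝ}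
    {f : Row (ℝ × ℝ) → ℝ≥0∞} (hf : Measurable f)
    (hinv : ∀ φ, Inv fun θ t => f ((θ, t), φ))
    (hdep : ∀ θ φ, DependsOn (fun t => f ((θ, t), φ)) (E' θ))
    (hdis : ∀ θ, ∀ η ∈ Ico (0 : ℝ) 1 ×ˢ Ico (0 : ℝ) 1, Disjoint (E θ) (E' (θ - off - η)))
    (p : Row (ℝ × ℝ)) :
    ∫⁻ x : Environment × Ri, f (inn off (cs E p x.1, x.2)) ∂((iidLaw G).prod κI) =
      ∫⁻ q, f q ∂((P0 G).prod (UU.prod UU)) := by
  set θ := p.1.1 with hθ
  have hm0 : Measurable fun x : Environment × Ri => inn off (cs E p x.1, x.2) :=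
    (measurable_inn off).comp (((V.measurable_cs_right E p).comp measurable_fst).prodMk
      measurable_snd)
  -- replace the glued environment by the fresh one
  have h1 : ∀ᵐ x ∂((iidLaw G).prod κI), f (inn off (cs E p x.1, x.2)) =
      f ((θ - off - x.2.1, x.1), x.2.2) := by
    have h2 : ∀ᵐ x ∂((iidLaw G).prod κI), x.2.1 ∈ Ico (0 : ℝ) 1 ×ˢ Ico (0 : ℝ) 1 :=
      (measurePreserving_snd (μ := iidLaw G) (ν := κI)).quasiMeasurePreserving.ae ae_jitter_κI
    filter_upwards [h2] with x hx
    refine hdep (θ - off - x.2.1) x.2.2 fun e he => ?_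
    have : e ∉ E θ := fun h => Set.disjoint_left.1 (hdis θ _ hx) h he
    exact V.glue_of_notMem this _ _
  rw [lintegral_congr_ae h1]
  -- Fubini
  have hm1 : Measurable fun x : Environment × Ri => f ((θ - off - x.2.1, x.1), x.2.2) := by
    refine hf.comp (Measurable.prodMk (Measurable.prodMk ?_ measurable_fst) ?_)
    · exact measurable_const.sub (measurable_fst.comp measurable_snd)
    · exact measurable_snd.comp measurable_snd
  rw [lintegral_prod_symm _ hm1.aemeasurable]
  set g : ℝ × ℝ → ℝ × ℝ → ℝ≥0∞ := fun v φ => ∫⁻ t, f ((v, t), φ) ∂(iidLaw G) with hg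
  have hgm : Measurable fun q : (ℝ × ℝ) × (ℝ × ℝ) => g q.1 q.2 := by
    have : Measurable fun q : ((ℝ × ℝ) × (ℝ × ℝ)) × Environment => f ((q.1.1, q.2), q.1.2) :=
      hf.comp (((measurable_fst.comp measurable_fst).prodMk measurable_snd).prodMk
        (measurable_snd.comp measurable_fst))
    exact this.lintegral_prod_right'
  have hper : ∀ (φ : ℝ × ℝ) (m : ℤ × ℤ) (v : ℝ × ℝ), g (v + toR m) φ = g v φ := by
    intro φ m v
    have e1 := (mp_act (G := G) (tr m)).lintegral_comp (f := fun t => f ((v + toR m, t), φ))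
      (hf.comp ((measurable_const.prodMk measurable_id).prodMk measurable_const))
    show ∫⁻ t, f ((v + toR m, t), φ) ∂(iidLaw G) = ∫⁻ t, f ((v, t), φ) ∂(iidLaw G)
    rw [← e1]
    exact lintegral_congr fun t => hinv φ m v t
  have e2 : ∫⁻ ω : Ri, ∫⁻ t, f ((θ - off - ω.1, t), ω.2) ∂(iidLaw G) ∂κI =
      ∫⁻ φ, ∫⁻ η, g (θ - off - η) φ ∂UU2 ∂(UU.prod UU) := by
    unfold κI
    have hm2 : Measurable fun ω : Ri => g (θ - off - ω.1) ω.2 :=
      hgm.comp ((measurable_const.sub measurable_fst).prodMk measurable_snd)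
    exact lintegral_prod_symm _ hm2.aemeasurable
  rw [e2]
  have e3 : ∀ φ : ℝ × ℝ, ∫⁻ η, g (θ - off - η) φ ∂UU2 = ∫⁻ v, g v φ ∂UU2 := fun φ =>
    J69.lintegral_jitter (F := fun v => g v φ)
      (hgm.comp (measurable_id.prodMk measurable_const)) (hper φ) (θ - off)
  simp_rw [e3]
  rw [lintegral_prod_symm _ hf.aemeasurable]
  refine lintegral_congr fun φ => ?_
  have hm3 : Measurable fun q : (ℝ × ℝ) × Environment => f (q, φ) :=
    hf.comp (measurable_id.prodMk measurable_const)
  exact (lintegral_prod _ hm3.aemeasurable).symm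

/-- **law of the inner row given the strips of the outer row**, for events -/
theorem prob_inn {E E' : ℝ × ℝ → Set (Sym2 (ℤ × ℤ))} {off : ℝ × ℝ}
    {A : Set (Row (ℝ × ℝ))} (hA : MeasurableSet[mIL (ℝ × ℝ) E'] A)
    (hdis : ∀ θ, ∀ η ∈ Ico (0 : ℝ) 1 ×ˢ Ico (0 : ℝ) 1, Disjoint (E θ) (E' (θ - off - η)))
    (p : Row (ℝ × ℝ)) :
    ((iidLaw G).prod κI).real {x : Environment × Ri | inn off (cs E p x.1, x.2) ∈ A} =
      ((P0 G).prod (UU.prod UU)).real A := by
  have hm0 : Measurable fun x : Environment × Ri => inn off (cs E p x.1, x.2) :=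
    (measurable_inn off).comp (((V.measurable_cs_right E p).comp measurable_fst).prodMk
      measurable_snd)
  have h1 := lintegral_inn (G := G) (E := E) (E' := E') (off := off) (f := A.indicator 1)
    (measurable_one.indicator hA.1) (fun φ m θ t => ?_) (fun θ φ t t' htt => ?_) hdis p
  · rw [lintegral_indicator_one hA.1] at h1
    have h2 : ∫⁻ x : Environment × Ri, A.indicator (1 : Row (ℝ × ℝ) → ℝ≥0∞)
        (inn off (cs E p x.1, x.2)) ∂((iidLaw G).prod κI) =
        ((iidLaw G).prod κI) {x : Environment × Ri | inn off (cs E p x.1, x.2) ∈ A} := by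
      have hms : MeasurableSet {x : Environment × Ri | inn off (cs E p x.1, x.2) ∈ A} := hm0 hA.1
      rw [← lintegral_indicator_one hms]
      rfl
    rw [h2] at h1
    exact congrArg ENNReal.toReal h1
  · exact M192.indicator_congr_mem (hA.2.1 φ m θ t)
  · exact M192.indicator_congr_mem (hA.2.2 θ φ htt)

/-- the law of a functional of the inner row -/
theorem map_inn {E E' : ℝ × ℝ → Set (Sym2 (ℤ × ℤ))} {off : ℝ × ℝ}
    {f : Row (ℝ × ℝ) → ℝ} (hf : Measurable f)
    (hinv : ∀ φ, Inv fun θ t => f ((θ, t), φ))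
    (hdep : ∀ θ φ, DependsOn (fun t => f ((θ, t), φ)) (E' θ))
    (hdis : ∀ θ, ∀ η ∈ Ico (0 : ℝ) 1 ×ˢ Ico (0 : ℝ) 1, Disjoint (E θ) (E' (θ - off - η)))
    (p : Row (ℝ × ℝ)) :
    ((iidLaw G).prod κI).map (fun x : Environment × Ri => f (inn off (cs E p x.1, x.2))) =
      ((P0 G).prod (UU.prod UU)).map f := by
  have hm0 : Measurable fun x : Environment × Ri => inn off (cs E p x.1, x.2) :=
    (measurable_inn off).comp (((V.measurable_cs_right E p).comp measurable_fst).prodMk
      measurable_snd)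
  have hmf : Measurable fun x : Environment × Ri => f (inn off (cs E p x.1, x.2)) := hf.comp hm0
  ext s hs
  rw [Measure.map_apply hmf hs, Measure.map_apply hf hs]
  have hA : MeasurableSet[mIL (ℝ × ℝ) E'] (f ⁻¹' s) :=
    ⟨hf hs, fun φ m θ t => by
      have := hinv φ m θ t
      simp only at this
      simp only [Set.mem_preimage, this], fun θ φ t t' htt => by
      have := hdep θ φ htt
      simp only at this
      simp only [Set.mem_preimage, this]⟩
  have h1 := prob_inn (G := G) hA hdis p
  have h2 := (measureReal_eq_measureReal_iff (measure_ne_top _ _) (measure_ne_top _ _)).1 h1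
  exact h2

/-- integrals of functionals of the inner row -/
theorem integral_inn {E E' : ℝ × ℝ → Set (Sym2 (ℤ × ℤ))} {off : ℝ × ℝ}
    {f : Row (ℝ × ℝ) → ℝ} (hf : Measurable f)
    (hinv : ∀ φ, Inv fun θ t => f ((θ, t), φ))
    (hdep : ∀ θ φ, DependsOn (fun t => f ((θ, t), φ)) (E' θ))
    (hdis : ∀ θ, ∀ η ∈ Ico (0 : ℝ) 1 ×ˢ Ico (0 : ℝ) 1, Disjoint (E θ) (E' (θ - off - η)))
    (p : Row (ℝ × ℝ)) :
    (Integrable f ((P0 G).prod (UU.prod UU)) →
      Integrable (fun x : Environment × Ri => f (inn off (cs E p x.1, x.2)))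
        ((iidLaw G).prod κI)) ∧
    ∫ x : Environment × Ri, f (inn off (cs E p x.1, x.2)) ∂((iidLaw G).prod κI) =
      ∫ q, f q ∂((P0 G).prod (UU.prod UU)) := by
  have hm0 : Measurable fun x : Environment × Ri => inn off (cs E p x.1, x.2) :=
    (measurable_inn off).comp (((V.measurable_cs_right E p).comp measurable_fst).prodMk
      measurable_snd)
  have hmf : Measurable fun x : Environment × Ri => f (inn off (cs E p x.1, x.2)) := hf.comp hm0
  have h1 := map_inn (G := G) hf hinv hdep hdis p
  constructor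
  · intro hi
    have h2 : Integrable (fun x : ℝ => x) (((P0 G).prod (UU.prod UU)).map f) :=
      (integrable_map_measure measurable_id.aestronglyMeasurable hf.aemeasurable).2 hi
    rw [← h1] at h2
    exact (integrable_map_measure measurable_id.aestronglyMeasurable hmf.aemeasurable).1 h2
  · have h3 := integral_map (μ := (iidLaw G).prod κI) hmf.aemeasurable
      (f := fun x : ℝ => x) measurable_id.aestronglyMeasurable
    have h4 := integral_map (μ := (P0 G).prod (UU.prod UU)) hf.aemeasurable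
      (f := fun x : ℝ => x) measurable_id.aestronglyMeasurable
    rw [h1] at h3
    exact h3.symm.trans h4

section hwy

variable {μ : ℝ × ℝ → ℝ} {F : FlatData μ} (h : Hwy F)

/-- the strips of the outer row are disjoint from the band of the inner row -/
lemma disjoint_E0_band {dI dO off : ℝ × ℝ} (h1 : h.wH + cF F < F.be off)
    (h2 : F.be off + F.be dI + h.wH + cF F < F.be dO)
    (θ : ℝ × ℝ) {η : ℝ × ℝ} (hη : η ∈ Ico (0 : ℝ) 1 ×ˢ Ico (0 : ℝ) 1) :
    Disjoint (E0 h dO θ) (edgesIn (h.band dI (θ - off - η))) := by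
  have hb := abs_le.1 (abs_be_le' F (norm_jitter hη))
  have hw := h.wH_nonneg
  rw [Set.disjoint_left]
  intro e he he'
  induction e with
  | h x y =>
    have hx := (mem_edgesIn.1 he').1
    have e1 : F.be (pos (θ - off - η) x) = F.be (pos θ x) - F.be off - F.be η := by
      rw [Hwy.be_pos_sub, Hwy.be_pos_sub]
    have hx1 : -(h.wH / 2) ≤ F.be (pos (θ - off - η) x) := hx.1
    have hx2 : F.be (pos (θ - off - η) x) ≤ F.be dI + h.wH / 2 := hx.2
    rw [e1] at hx1 hx2
    rcases he with he | he
    · have h3 : |F.be (pos θ x)| ≤ h.wH / 2 := (mem_edgesIn.1 he).1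
      rw [abs_le] at h3
      linarith [h3.1, h3.2, hb.1, hb.2]
    · have h3 : |F.be (pos (θ - dO) x)| ≤ h.wH / 2 := (mem_edgesIn.1 he).1
      rw [Hwy.be_pos_sub, abs_le] at h3
      linarith [h3.1, h3.2, hb.1, hb.2]

end hwy

end Crest.Agent.R151.Q
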