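import Crest.Agent.R151.V21
import Crest.Agent.R151.G338m
import Crest.Agent.R151.Q8a
import Crest.Agent.R151.U450o

/-!
# R151 / S0214 part 2, [FALL] (F1) : the mean of the fall of the big row — core (helper763)

`core` : for an outer row (height `y + 2 g`) around an inner row (height `y`) whose fall is `≤ t` with
probability `≥ 1 / 2`, the mean of the fall of the outer row is
`≤ 481 B + 160 (eLo + eUp + eJ) + 10 t`.
-/

set_option autoImplicit false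

open MeasureTheory Filter ProbabilityTheory Topology Set
open Crest.ProbabilityR.FirstPassage

namespace Crest.Agent.R151.FALL

open K R78 B710 M192 Q

variable {μ : ℝ × ℝ → ℝ} {F : FlatData μ}

/-- the error of the two gap fences and of the window gauge, on (outer row) × (jitter, phases) -/
noncomputable def errV (h : Hwy F) (y g c Λ L α₀ β₀ a₀ b₀ α₁ β₁ a₁ b₁ : ℝ)
    (x : Row (ℝ × ℝ) × Ri) : ℝ :=
  obLo h g c α₀ β₀ L a₀ b₀ x.1.1.1 x.1.1.2 x.1.2 x.2 +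
    obUp h y g c α₁ β₁ L a₁ b₁ x.1.1.1 x.1.1.2 x.1.2 x.2 +
    obJ h y g Λ L x.1.1.1 x.1.1.2 x.1.2 x.2

theorem core {r : ℝ} (hr : 0 < r) {G : Measure ℝ} [IsProbabilityMeasure G]
    (hG : G = gammaMeasure 1 r) (h0 : G (Set.Iio 0) = 0)
    {h : Hwy F} {y g c Λ L : ℝ} (hg : Geo h y g c Λ L)
    {α β σ σ' αi βi : ℝ} {s s' : ℝ} (hs1 : -L ≤ s) (hs4 : s' ≤ L)
    {α₀ β₀ a₀ b₀ α₁ β₁ a₁ b₁ : ℝ}
    (hα₀ : α ≤ α₀) (hβ₀ : β₀ ≤ β) (ha₀ : s ≤ a₀) (hb₀ : b₀ ≤ σ)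
    (hα₁ : α ≤ α₁) (hβ₁ : β₁ ≤ β) (ha₁ : σ' ≤ a₁) (hb₁ : b₁ ≤ s')
    (hαi : α + cF F - c ≤ αi) (hβi : βi ≤ β - cF F - c)
    (hne0 : ∀ η, ‖η‖ ≤ 1 → Rt h (offv F g c η) (Set.Icc α₀ β₀) a₀ b₀)
    (hne2 : ∀ η, ‖η‖ ≤ 1 → Rt h (Hwy.dU (offv F g c η) (y • F.b) (dOv F y g))
      (Iup F y g c α₁ β₁ η) a₁ b₁)
    (hnei : Rt h (y • F.b) (Set.Icc αi βi) σ σ')
    (hne : Rt h (dOv F y g) (Set.Icc (α - h.κ) (β + h.κ)) s s')
    (hneJ : Rt h (dOv F y g) (Jw Λ) (-L) L)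
    {ρ : Row (ℝ × ℝ) → ℝ} (hρ : Measurable ρ)
    (hρS : ∀ p t, ρ (V.cs (V.E0 h (dOv F y g)) p t) = ρ p)
    (hDi : Integrable (fun p => V.hkR h (dOv F y g) univ (-L) L p - ρ p)
      ((P0 G).prod (UU.prod UU)))
    {t : ℝ} (ht : 0 ≤ t)
    (hin : 1 / 2 ≤ ((P0 G).prod (UU.prod UU)).real
      {q | ski h y (Set.Icc αi βi) L σ σ' q ≤ t})
    (em : Measurable (errV h y g c Λ L α₀ β₀ a₀ b₀ α₁ β₁ a₁ b₁))
    (ei : Integrable (errV h y g c Λ L α₀ β₀ a₀ b₀ α₁ β₁ a₁ b₁)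
      (((P0 G).prod (UU.prod UU)).prod κI)) :
    Integrable (sko h y g (Set.Icc (α - h.κ) (β + h.κ)) L s s')
      ((P0 G).prod (UU.prod UU)) ∧
    ∫ q, sko h y g (Set.Icc (α - h.κ) (β + h.κ)) L s s' q
        ∂((P0 G).prod (UU.prod UU)) ≤
      481 * ∫ p, |V.hkR h (dOv F y g) univ (-L) L p - ρ p|
        ∂((P0 G).prod (UU.prod UU)) +
      160 * ∫ x, |errV h y g c Λ L α₀ β₀ a₀ b₀ α₁ β₁ a₁ b₁ x|
        ∂(((P0 G).prod (UU.prod UU)).prod κI) + 10 * t := by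
  have hwH := h.wH_nonneg'
  have hcF := cF_nonneg F
  have hgb := hg.g_big
  have hyb := hg.y_big
  -- the data of the outer row
  have hne' : ∀ᵐ p ∂((P0 G).prod (UU.prod UU)),
      V.NE h (dOv F y g) (Set.Icc (α - h.κ) (β + h.κ)) s s' p :=
    ae_of_all _ fun p => hne _ _ _
  have S : V.SData G (UU.prod UU) (V.E0 h (dOv F y g))
      (fun p => V.hkR h (dOv F y g) (Set.Icc (α - h.κ) (β + h.κ)) s s' p - ρ p)
      (fun p => V.hkR h (dOv F y g) univ (-L) L p - ρ p) := by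
    subst hG
    exact V.sdata_hk h hr (dOv F y g) (L := L)
      (measurableSet_Icc (a := α - h.κ) (b := β + h.κ)) hs1 hs4 hne' hρ hρS hDi
  -- the inner row
  set Vf : Row (ℝ × ℝ) × Ri → ℝ := fun x =>
    h.sk (y • F.b) (Set.Icc αi βi) Set.univ L σ σ' (x.1.1.1 - offv F g c x.2.1) x.1.1.2 x.2.2
    with hVf
  have hI : ∀ᵐ p ∂((P0 G).prod (UU.prod UU)), (1 / 2 : ℝ) ≤ ((iidLaw G).prod κI).real
      {x | Vf (V.cs (V.E0 h (dOv F y g)) p x.1, x.2) ≤ t} := by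
    refine ae_of_all _ fun p => ?_
    have hyb' : h.wH < F.be (y • F.b) := by simpa using hyb
    have hA : MeasurableSet[mIL (ℝ × ℝ) fun θ => edgesIn (h.band (y • F.b) θ)]
        {q : Row (ℝ × ℝ) | ski h y (Set.Icc αi βi) L σ σ' q ≤ t} := by
      refine ⟨measurableSet_le (measurable_ski h y measurableSet_Icc L σ σ') measurable_const,
        fun φ m θ t' => ?_, fun θ φ t1 t2 htt => ?_⟩
      · have := Hwy.sk_inv h (y • F.b) (Set.Icc αi βi) Set.univ L σ σ' φ m θ t'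
        simp only [ski, Set.mem_ofPred_eq]
        simp only at this
        rw [this]
      · have := Hwy.sk_loc h hyb' (Set.Icc αi βi) Set.univ L σ σ' θ φ htt
        simp only [ski, Set.mem_ofPred_eq]
        simp only at this
        rw [this]
    have hb0 : F.be (g • F.b + c • F.a) = g := by simp
    have hbI : F.be (y • F.b) = y := by simp
    have key := prob_inn (G := G) (E := V.E0 h (dOv F y g))
      (E' := fun θ => edgesIn (h.band (y • F.b) θ)) (off := g • F.b + c • F.a) hA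
      (fun θ η hη => by
        have h1 := hg.disj θ (norm_jitter hη)
        have e1 : θ - offv F g c η = θ - (g • F.b + c • F.a) - η := by
          unfold offv; abel
        rw [e1] at h1
        exact h1) p
    refine hin.trans (le_of_eq ?_)
    rw [← key]
    congr 1
    ext x
    have e1 : p.1.1 - offv F g c x.2.1 = p.1.1 - (g • F.b + c • F.a) - x.2.1 := by
      unfold offv; abel
    simp only [hVf, Set.mem_ofPred_eq, V.cs, inn, ski, e1]
  -- the pointwise inequality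
  have hle : ∀ᵐ x ∂(((P0 G).prod (UU.prod UU)).prod κI),
      V.hkR h (dOv F y g) (Set.Icc (α - h.κ) (β + h.κ)) s s' x.1 - ρ x.1 -
        (V.hkR h (dOv F y g) univ (-L) L x.1 - ρ x.1) ≤
      Vf x + errV h y g c Λ L α₀ β₀ a₀ b₀ α₁ β₁ a₁ b₁ x := by
    have a1 : ∀ᵐ x ∂(((P0 G).prod (UU.prod UU)).prod κI), Nn x.1.1.2 :=
      (measurePreserving_fst (μ := (P0 G).prod (UU.prod UU)) (ν := κI)).quasiMeasurePreserving.ae
        (V.ae_Nn_row h0 (UU.prod UU))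
    have a2 : ∀ᵐ x ∂(((P0 G).prod (UU.prod UU)).prod κI),
        x.2.1 ∈ Ico (0 : ℝ) 1 ×ˢ Ico (0 : ℝ) 1 :=
      (measurePreserving_snd (μ := (P0 G).prod (UU.prod UU)) (ν := κI)).quasiMeasurePreserving.ae
        ae_jitter_κI
    filter_upwards [a1, a2] with x hx1 hx2
    have key := sko_le hg hα₀ hβ₀ ha₀ hb₀ hα₁ hβ₁ ha₁ hb₁ hαi hβi hne0 hne2 hnei hneJ
      (q := x.1) hx1 (r := x.2) (norm_jitter hx2)
    have e1 : sko h y g (Set.Icc (α - h.κ) (β + h.κ)) L s s' x.1 =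
        V.hkR h (dOv F y g) (Set.Icc (α - h.κ) (β + h.κ)) s s' x.1 -
          V.hkR h (dOv F y g) univ (-L) L x.1 := rfl
    rw [e1] at key
    have e2 : errV h y g c Λ L α₀ β₀ a₀ b₀ α₁ β₁ a₁ b₁ x =
      obLo h g c α₀ β₀ L a₀ b₀ x.1.1.1 x.1.1.2 x.1.2 x.2 +
      obUp h y g c α₁ β₁ L a₁ b₁ x.1.1.1 x.1.1.2 x.1.2 x.2 +
      obJ h y g Λ L x.1.1.1 x.1.1.2 x.1.2 x.2 := rfl
    rw [e2]
    simp only [hVf]
    linarith
  have R := S.mean_univ (κ := κI) (q := 1 / 2) (t := t) (by norm_num) (by norm_num) ht em ei hI hle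
  have e3 : (fun p => V.hkR h (dOv F y g) (Set.Icc (α - h.κ) (β + h.κ)) s s' p - ρ p -
        (V.hkR h (dOv F y g) univ (-L) L p - ρ p)) =
      sko h y g (Set.Icc (α - h.κ) (β + h.κ)) L s s' := by
    funext p
    have e1 : sko h y g (Set.Icc (α - h.κ) (β + h.κ)) L s s' p =
        V.hkR h (dOv F y g) (Set.Icc (α - h.κ) (β + h.κ)) s s' p -
          V.hkR h (dOv F y g) univ (-L) L p := rfl
    rw [e1]; ring
  rw [e3] at R
  refine ⟨R.1, R.2.trans (le_of_eq ?_)⟩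
  norm_num

end Crest.Agent.R151.FALL
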