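import Crest.Agent.R151.FA763b
import Crest.Agent.R151.E685F4
import Crest.Agent.R151.J69s

/-!
# R151 / S0214 part 2, [FALL] + [STRAT] : `J684.Rec` for every configuration (helper763)

`big_fall` (F1) plugged into helper685's `ev_recB`, with helper69's `SN.recA`.
-/

set_option autoImplicit false

open MeasureTheory Filter ProbabilityTheory Topology Set
open Crest.ProbabilityR.FirstPassage

namespace Crest.Agent.R151.FALL

open K R78 B710 Q
open NF (Ev Cf)

variable {μ : ℝ × ℝ → ℝ}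

/-- the big fall, helper685's form -/
theorem ev_bigFall {r : ℝ} (hr : 0 < r) (hμ : IsTC (gammaMeasure 1 r) μ) (F : FlatData μ)
    {w0 c0 K : ℝ} (hc0 : 0 < c0) :
    Ev fun p => ∀ c : Cf (gammaMeasure 1 r) F w0 c0 K p, E685.BigFall c 2300 :=
  (big_fall_gamma hr hμ F hc0).mono fun _ h c => (h c).2

/-- **the two recursions of the strategy**, unconditional -/
theorem ev_rec {r : ℝ} (hr : 0 < r) (hμ : IsTC (gammaMeasure 1 r) μ) (F : FlatData μ) (w0 : ℝ)
    {c0 K : ℝ} (hc0 : 0 < c0) (hK : 0 ≤ K)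
    (typ : ∀ {p : NF.Num}, Cf (gammaMeasure 1 r) F w0 c0 K p → Set (M192.Row (ℝ × ℝ))) :
    ∃ C0 : ℝ, Ev fun p => ∀ c : Cf (gammaMeasure 1 r) F w0 c0 K p, J684.Rec c (typ c) C0 := by
  have : IsProbabilityMeasure (gammaMeasure 1 r) := isProbabilityMeasure_gammaMeasure one_pos hr
  have h0 : (gammaMeasure 1 r) (Set.Iio 0) = 0 := gamma_Iio 1 r
  have h2 : Integrable (fun x : ℝ => x ^ 2) (gammaMeasure 1 r) :=
    integrable_sq (gamma_Iio 1 r) (half_pos hr) (gamma_exp one_pos hr)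
  have h1 : Integrable (fun x : ℝ => x) (gammaMeasure 1 r) := integrable_id_of_sq h2
  refine ⟨48 * 2300 + 10 ^ 5, ((J69.ev_SN (gammaMeasure 1 r) F w0 hc0 hK).and
    (E685.ev_recB h0 h1 h2 hμ hc0 hK (ev_bigFall (w0 := w0) hr hμ F hc0))).mono ?_⟩
  rintro p ⟨a1, a2⟩ c
  have hc := a1 c
  have hF := J69.fm_of h0 h2 hμ c.mean
  exact ⟨fun N x hx1 hx2 B hB _ => hc.recA h0 h1 h2 hμ hF (typ c) N x hx1 hx2 B hB, a2 c⟩

end Crest.Agent.R151.FALL
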