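import Crest.Agent.R151.UC290a
import Crest.Agent.R151.UC290c
import Crest.Agent.R151.H617e

/-!
# R151/UC290d — block UC (owner helper290): the almost sure statement

`UpSys G D A B f`: slope-indexed label functions `f p k t` (`p ∈ D`, line `y = k`) of the upper
half planes `{k ≤ y}`.

`UpSys.ae_com`, `UpSys.coal_up`: for label functions `g p` that do not read the edges of
`{h₀ ≤ y}` (lower half plane) almost surely at every slope `s`: either `g` is continuous at `s`
or all upper rays of slope `s` coalesce.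
-/

set_option autoImplicit false

open MeasureTheory ProbabilityTheory Filter Topology
open Crest.ProbabilityR.FirstPassage
open scoped ENNReal

namespace Crest.Agent.R151.UC

open Crest.Agent.R151.D624 Crest.Agent.R151.Y Crest.Agent.R151.H

/-- slope-indexed label functions of the upper half planes; `D` = countable dense set of
slopes; for every real slope `s` in `(A,B)` there is a label function of slope `s`, comparable
with the `f p`. -/
structure UpSys (G : Measure ℝ) (D : Set ℝ) (A B : ℝ) (f : ℝ → ℤ → Environment → ℤ → ℝ) :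
    Prop where
  countable : D.Countable
  dense : ∀ x y, A < x → x < y → y < B → ∃ p ∈ D, x < p ∧ p < y
  hl : ∀ p ∈ D, HL G (f p)
  mono : ∀ p ∈ D, ∀ q ∈ D, p < q →
    ∀ᵐ t ∂(iidLaw G), ∀ k x, inc (f q k t) x ≤ inc (f p k t) x
  real : ∀ s, A < s → s < B → ∃ φ : ℤ → Environment → ℤ → ℝ, HL G φ ∧
    (∀ p ∈ D, p < s → (∀ᵐ t ∂(iidLaw G), ∀ k x, inc (φ k t) x ≤ inc (f p k t) x) ∧
      ∀ k x, ∫⁻ t, ENNReal.ofReal (inc (f p k t) x - inc (φ k t) x) ∂(iidLaw G) ≤
        ENNReal.ofReal (s - p)) ∧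
    (∀ q ∈ D, s < q → (∀ᵐ t ∂(iidLaw G), ∀ k x, inc (f q k t) x ≤ inc (φ k t) x) ∧
      ∀ k x, ∫⁻ t, ENNReal.ofReal (inc (φ k t) x - inc (f q k t) x) ∂(iidLaw G) ≤
        ENNReal.ofReal (q - s))

section abstract_lemmas

variable {Ω : Type*} [MeasurableSpace Ω] {P : Measure Ω}

theorem ae_tendsto_zero {a : ℕ → Ω → ℝ} (hm : ∀ n, Measurable (a n))
    (h0 : ∀ᵐ ω ∂P, ∀ n, 0 ≤ a n ω)
    (h : ∀ n, ∫⁻ ω, ENNReal.ofReal (a n ω) ∂P ≤ ENNReal.ofReal ((1 / 2) ^ n)) :
    ∀ᵐ ω ∂P, Tendsto (fun n => a n ω) atTop (𝓝 0) := by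
  have h1 : ∫⁻ ω, ∑' n, ENNReal.ofReal (a n ω) ∂P ≠ ⊤ := by
    rw [lintegral_tsum fun n => (hm n).ennreal_ofReal.aemeasurable]
    refine ne_top_of_le_ne_top ?_ (ENNReal.tsum_le_tsum h)
    rw [← ENNReal.ofReal_tsum_of_nonneg (fun n => by positivity)
      (summable_geometric_of_lt_one (by norm_num) (by norm_num))]
    exact ENNReal.ofReal_ne_top
  have h2 := ae_lt_top (Measurable.tsum fun n => (hm n).ennreal_ofReal) h1
  filter_upwards [h0, h2] with ω hω0 hω
  have h3 := ENNReal.tendsto_atTop_zero_of_tsum_ne_top hω.ne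
  have h4 := (ENNReal.tendsto_toReal ENNReal.zero_ne_top).comp h3
  simp only [ENNReal.toReal_zero] at h4
  refine h4.congr fun n => ?_
  simp only [Function.comp_apply, ENNReal.toReal_ofReal (hω0 n)]

end abstract_lemmas

section events

variable {G : Measure ℝ} {f g : ℤ → Environment → ℤ → ℝ}

theorem measurableSet_com (Hf : HL G f) (Hg : HL G g) (k : ℤ) (w : ℕ) :
    MeasurableSet {t : Environment | Com t (fun k => f k t) (fun k => g k t) k w} := by
  have h1 : ∀ (N x c : ℤ), MeasurableSet {t : Environment | Opt t k N (f N t) (x, k) c} :=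
    fun N x c => HL.measurableSet_Opt Hf (z := (x, k)) (le_refl k) c
  have h2 : ∀ (N x c : ℤ), MeasurableSet {t : Environment | Opt t k N (g N t) (x, k) c} :=
    fun N x c => HL.measurableSet_Opt Hg (z := (x, k)) (le_refl k) c
  have h3 : {t : Environment | Com t (fun k => f k t) (fun k => g k t) k w} =
      ⋃ N : {N : ℤ // k < N}, ⋃ c : ℤ, ⋂ x : {x : ℤ // -(w : ℤ) ≤ x ∧ x ≤ w},
        ({t : Environment | Opt t k N (f N t) (x, k) c} ∩
          {t : Environment | Opt t k N (g N t) (x, k) c}) := by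
    ext t
    rw [Set.mem_iUnion]
    constructor
    · rintro ⟨N, hN, c, hc⟩
      refine ⟨⟨N, hN⟩, Set.mem_iUnion.2 ⟨c, Set.mem_iInter.2 fun x => ?_⟩⟩
      exact hc x.1 x.2.1 x.2.2
    · rintro ⟨N, h⟩
      obtain ⟨c, hc⟩ := Set.mem_iUnion.1 h
      refine ⟨N.1, N.2, c, fun x hx1 hx2 => ?_⟩
      exact Set.mem_iInter.1 hc ⟨x, hx1, hx2⟩
  rw [h3]
  exact MeasurableSet.iUnion fun N => MeasurableSet.iUnion fun c =>
    MeasurableSet.iInter fun x => (h1 N x c).inter (h2 N x c)

theorem opt_congr_env (Hf : HL G f) {k N : ℤ} (hkN : k < N) {t t' : Environment}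
    (h : ∀ e ∈ K.edgesIn (Hp k), t e = t' e) (z : ℤ × ℤ) (c : ℤ) :
    Opt t k N (f N t) z c ↔ Opt t' k N (f N t') z c := by
  have h1 : f N t = f N t' := Hf.dep N t t' fun e he => h e fun z hz => Hp_anti hkN.le (he z hz)
  have h2 : ∀ e ∈ (gH k).edgeSet, t e = t' e := by
    intro e he
    induction e with
    | _ a b =>
      rw [SimpleGraph.mem_edgeSet] at he
      exact h _ (K.mem_edgesIn.2 ⟨(reg_adj.1 he).2.1, (reg_adj.1 he).2.2⟩)
  unfold Opt
  simp only [Phi_congr hkN h1 h2]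

theorem com_congr (Hf : HL G f) (Hg : HL G g) {k : ℤ} {w : ℕ} {t t' : Environment}
    (h : ∀ e ∈ K.edgesIn (Hp k), t e = t' e) :
    Com t (fun k => f k t) (fun k => g k t) k w ↔
      Com t' (fun k => f k t') (fun k => g k t') k w := by
  unfold Com
  constructor
  · rintro ⟨N, hN, c, hc⟩
    refine ⟨N, hN, c, fun x h1 h2 => ?_⟩
    rw [← opt_congr_env Hf hN h, ← opt_congr_env Hg hN h]
    exact hc x h1 h2
  · rintro ⟨N, hN, c, hc⟩
    refine ⟨N, hN, c, fun x h1 h2 => ?_⟩
    rw [opt_congr_env Hf hN h, opt_congr_env Hg hN h]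
    exact hc x h1 h2

end events

namespace UpSys

variable {G : Measure ℝ} [IsProbabilityMeasure G] {D : Set ℝ} {A B : ℝ}
  {f : ℝ → ℤ → Environment → ℤ → ℝ}

/-- non-coalescence event for the label interval `(p,q)` -/
def NC (f : ℝ → ℤ → Environment → ℤ → ℝ) (k : ℤ) (w : ℕ) (p q : ℝ) : Set Environment :=
  {t | ¬ Com t (fun k => f p k t) (fun k => f q k t) k w}

omit [IsProbabilityMeasure G] in
theorem measurableSet_NC (S : UpSys G D A B f) (k : ℤ) (w : ℕ) {p q : ℝ} (hp : p ∈ D)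
    (hq : q ∈ D) : MeasurableSet (NC f k w p q) :=
  (measurableSet_com (S.hl p hp) (S.hl q hq) k w).compl

omit [IsProbabilityMeasure G] in
theorem mono_le (S : UpSys G D A B f) {p q : ℝ} (hp : p ∈ D) (hq : q ∈ D) (hpq : p ≤ q) :
    ∀ᵐ t ∂(iidLaw G), ∀ k x, inc (f q k t) x ≤ inc (f p k t) x := by
  rcases hpq.eq_or_lt with rfl | h
  · exact Eventually.of_forall fun t k x => le_rfl
  · exact S.mono p hp q hq h

theorem NC_mono (S : UpSys G D A B f) (h0 : G (Set.Iio 0) = 0) (hat : ∀ x, G {x} = 0) (k : ℤ)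
    (w : ℕ) {p p' q' q : ℝ} (hp : p ∈ D) (hp' : p' ∈ D) (hq' : q' ∈ D) (hq : q ∈ D)
    (h1 : p ≤ p') (h2 : p' ≤ q') (h3 : q' ≤ q) :
    iidLaw G (NC f k w p' q') ≤ iidLaw G (NC f k w p q) := by
  refine measure_mono_ae ?_
  filter_upwards [(S.hl p hp).ae_fam h0 hat, (S.hl p' hp').ae_fam h0 hat,
    (S.hl q' hq').ae_fam h0 hat, (S.hl q hq).ae_fam h0 hat, S.mono_le hp hp' h1,
    S.mono_le hp' hq' h2, S.mono_le hq' hq h3] with t a1 a2 a3 a4 b1 b2 b3
  intro hn hc
  exact hn (hc.mono a1 a2 a3 a4 b3 b2 b1)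

/-- at a deterministic slope the events `NC` of short intervals are small -/
theorem NC_small (S : UpSys G D A B f) (h0 : G (Set.Iio 0) = 0) (hat : ∀ x, G {x} = 0) (k : ℤ)
    (w : ℕ) {s : ℝ} (hA : A < s) (hB : s < B) {δ : ℝ} (hδ : 0 < δ) :
    ∃ p ∈ D, ∃ q ∈ D, p < s ∧ s < q ∧ iidLaw G (NC f k w p q) ≤ ENNReal.ofReal δ := by
  obtain ⟨φ, hφ, hφp, hφq⟩ := S.real s hA hB
  obtain ⟨hl, hr⟩ := twoSided_of_dense S.dense hA hB
  obtain ⟨p0, hp0, -, hp0s⟩ := hl (s - 1) (by linarith)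
  obtain ⟨q0, hq0, hq0s, -⟩ := hr (s + 1) (by linarith)
  have hpn : ∀ n : ℕ, ∃ p ∈ D, p0 < p ∧ s - (1 / 2) ^ n < p ∧ p < s := by
    intro n
    obtain ⟨p, hp, h1, h2⟩ := hl (max p0 (s - (1 / 2) ^ n)) (max_lt hp0s (by
      have : (0 : ℝ) < (1 / 2) ^ n := by positivity
      linarith))
    exact ⟨p, hp, (le_max_left _ _).trans_lt h1, (le_max_right _ _).trans_lt h1, h2⟩
  have hqn : ∀ n : ℕ, ∃ q ∈ D, q < q0 ∧ q < s + (1 / 2) ^ n ∧ s < q := by
    intro n
    obtain ⟨q, hq, h1, h2⟩ := hr (min q0 (s + (1 / 2) ^ n)) (lt_min hq0s (by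
      have : (0 : ℝ) < (1 / 2) ^ n := by positivity
      linarith))
    exact ⟨q, hq, h2.trans_le (min_le_left _ _), h2.trans_le (min_le_right _ _), h1⟩
  choose p hpD hp1 hp2 hp3 using hpn
  choose q hqD hq1 hq2 hq3 using hqn
  -- convergence of the increments
  have hconvp : ∀ᵐ t ∂(iidLaw G), ∀ N x,
      Tendsto (fun n => inc (f (p n) N t) x) atTop (𝓝 (inc (φ N t) x)) := by
    rw [ae_all_iff]; intro N
    rw [ae_all_iff]; intro x
    have h := ae_tendsto_zero (P := iidLaw G)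
      (a := fun n t => inc (f (p n) N t) x - inc (φ N t) x)
      (fun n => (measurable_inc (F := fun t => f (p n) N t)
        (fun x => (S.hl _ (hpD n)).meas N x) x).sub (measurable_inc (F := fun t => φ N t)
        (fun x => hφ.meas N x) x))
      (by
        rw [ae_all_iff]
        intro n
        filter_upwards [(hφp _ (hpD n) (hp3 n)).1] with t ht
        linarith [ht N x])
      (fun n => ((hφp _ (hpD n) (hp3 n)).2 N x).trans (ENNReal.ofReal_le_ofReal (by
        linarith [hp2 n])))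
    filter_upwards [h] with t ht
    have := ht.add_const (inc (φ N t) x)
    simpa using this
  have hconvq : ∀ᵐ t ∂(iidLaw G), ∀ N x,
      Tendsto (fun n => inc (f (q n) N t) x) atTop (𝓝 (inc (φ N t) x)) := by
    rw [ae_all_iff]; intro N
    rw [ae_all_iff]; intro x
    have h := ae_tendsto_zero (P := iidLaw G)
      (a := fun n t => inc (φ N t) x - inc (f (q n) N t) x)
      (fun n => (measurable_inc (F := fun t => φ N t)
        (fun x => hφ.meas N x) x).sub (measurable_inc (F := fun t => f (q n) N t)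
        (fun x => (S.hl _ (hqD n)).meas N x) x))
      (by
        rw [ae_all_iff]
        intro n
        filter_upwards [(hφq _ (hqD n) (hq3 n)).1] with t ht
        linarith [ht N x])
      (fun n => ((hφq _ (hqD n) (hq3 n)).2 N x).trans (ENNReal.ofReal_le_ofReal (by
        linarith [hq2 n])))
    filter_upwards [h] with t ht
    have := (ht.const_sub (inc (φ N t) x))
    simpa using this
  -- almost surely eventually `Com`
  have hev : ∀ᵐ t ∂(iidLaw G), ∀ᶠ n in atTop,
      Com t (fun k => f (p n) k t) (fun k => f (q n) k t) k w := by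
    have e1 : ∀ᵐ t ∂(iidLaw G), ∀ n, Fam t (fun k => f (p n) k t) := by
      rw [ae_all_iff]
      exact fun n => (S.hl _ (hpD n)).ae_fam h0 hat
    have e2 : ∀ᵐ t ∂(iidLaw G), ∀ n, Fam t (fun k => f (q n) k t) := by
      rw [ae_all_iff]
      exact fun n => (S.hl _ (hqD n)).ae_fam h0 hat
    have e3 : ∀ᵐ t ∂(iidLaw G), ∀ n k x, inc (φ k t) x ≤ inc (f (p n) k t) x := by
      rw [ae_all_iff]
      exact fun n => (hφp _ (hpD n) (hp3 n)).1
    have e4 : ∀ᵐ t ∂(iidLaw G), ∀ n k x, inc (f (p n) k t) x ≤ inc (f p0 k t) x := by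
      rw [ae_all_iff]
      exact fun n => S.mono p0 hp0 _ (hpD n) (hp1 n)
    have e5 : ∀ᵐ t ∂(iidLaw G), ∀ n k x, inc (f (q n) k t) x ≤ inc (φ k t) x := by
      rw [ae_all_iff]
      exact fun n => (hφq _ (hqD n) (hq3 n)).1
    have e6 : ∀ᵐ t ∂(iidLaw G), ∀ n k x, inc (f q0 k t) x ≤ inc (f (q n) k t) x := by
      rw [ae_all_iff]
      exact fun n => S.mono _ (hqD n) q0 hq0 (hq1 n)
    filter_upwards [hφ.ae_fam h0 hat, hφ.ae_sim h0 hat, e1, e2, e3, e4, e5, e6,
      (S.hl _ hp0).ae_fam h0 hat, (S.hl _ hq0).ae_fam h0 hat, hconvp, hconvq] with t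
      a1 a2 b1 b2 b3 b4 b5 b6 c1 c2 d1 d2
    exact eventually_com (k := k) a1 (a2 k) (F := fun n k => f (p n) k t)
      (E := fun n k => f (q n) k t) b1 b2 c1 c2 b3 b4 b5 b6 d1 d2 w
  -- measures tend to zero
  have hlim : Tendsto (fun n => iidLaw G (NC f k w (p n) (q n))) atTop (𝓝 (iidLaw G ∅)) := by
    refine tendsto_measure_of_ae_tendsto_indicator_of_isFiniteMeasure atTop MeasurableSet.empty
      (fun n => S.measurableSet_NC k w (hpD n) (hqD n)) ?_
    filter_upwards [hev] with t ht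
    filter_upwards [ht] with n hn
    simp only [Set.mem_empty_iff_false, iff_false]
    exact fun h => h hn
  rw [measure_empty] at hlim
  obtain ⟨n, hn⟩ := (hlim.eventually_le_const (by simpa using hδ :
    (0 : ℝ≥0∞) < ENNReal.ofReal δ)).exists
  exact ⟨p n, hpD n, q n, hqD n, hp3 n, hq3 n, hn⟩

/-- **UC, almost sure form.** -/
theorem ae_com (S : UpSys G D A B f) (h0 : G (Set.Iio 0) = 0) (hat : ∀ x, G {x} = 0)
    {g : ℝ → Environment → ℤ → ℝ} (hgm : ∀ p ∈ D, ∀ x, Measurable fun t => g p t x) {C : ℝ}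
    (hC : 0 ≤ C)
    (h1 : ∀ p ∈ D, ∀ q ∈ D, p ≤ q → ∀ x,
      ∫⁻ t, ENNReal.ofReal |inc (g p t) x - inc (g q t) x| ∂(iidLaw G) ≤
        ENNReal.ofReal (C * (q - p)))
    {T : Set (Sym2 (ℤ × ℤ))} (hgT : ∀ p ∈ D, ∀ x, DependsOn (fun t => inc (g p t) x) T)
    {h₀ : ℤ} (hT : Disjoint T (K.edgesIn (Hp h₀))) :
    ∀ᵐ t ∂(iidLaw G), ∀ s, A < s → s < B → ContAt D (fun p => g p t) s ∨
      ∀ k, h₀ ≤ k → ∀ w : ℕ, ∃ p ∈ D, ∃ q ∈ D, p < s ∧ s < q ∧
        Com t (fun k => f p k t) (fun k => f q k t) k w := by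
  have key : ∀ᵐ t ∂(iidLaw G), ∀ k : ℤ, ∀ w : ℕ, h₀ ≤ k → ∀ s, A < s → s < B →
      ContAt D (fun p => g p t) s ∨ ∃ p ∈ D, ∃ q ∈ D, p < s ∧ s < q ∧ t ∉ NC f k w p q := by
    rw [ae_all_iff]; intro k
    rw [ae_all_iff]; intro w
    by_cases hk : h₀ ≤ k
    · have hTk : Disjoint T (K.edgesIn (Hp k)) :=
        hT.mono_right fun e he z hz => Hp_anti hk (he z hz)
      have := uc_ae (P := iidLaw G) (D := D) (A := A) (B := B) (C := C) S.dense (f := g)
        (N := NC f k w) hgm hC h1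
        (fun p hp p' hp' q' hq' q hq e1 e2 e3 => S.NC_mono h0 hat k w hp hp' hq' hq e1 e2 e3)
        (fun s hs1 hs2 δ hδ => S.NC_small h0 hat k w hs1 hs2 hδ) ?_
      · filter_upwards [this] with t ht _
        exact ht
      · intro p hp q hq w' κ
        have hind : IndepFun (fun t => tv w' (g p t) (g q t))
            (fun t : Environment => Com t (fun k => f p k t) (fun k => f q k t) k w)
            (iidLaw G) := by
          refine R151.A.indepFun_of_dependsOn G (measurable_tv (hgm p hp) (hgm q hq) w')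
            ?_ (dependsOn_tv (hgT p hp) (hgT q hq) w') ?_ hTk
          · exact measurable_to_prop (by
              have := measurableSet_com (S.hl p hp) (S.hl q hq) k w
              simpa [Set.preimage, Set.mem_singleton_iff] using this)
          · intro t t' htt
            exact propext (com_congr (S.hl p hp) (S.hl q hq) htt)
        have h3 := hind.measure_inter_preimage_eq_mul (Set.Ioi κ) {False} measurableSet_Ioi
          (MeasurableSpace.measurableSet_top)
        have h4 : (fun t : Environment => Com t (fun k => f p k t) (fun k => f q k t) k w) ⁻¹'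
            {False} = NC f k w p q := by
          ext t
          simp [NC]
        rw [h4] at h3
        exact h3.le
    · exact Eventually.of_forall fun t h => absurd h hk
  filter_upwards [key] with t ht s hs1 hs2
  by_cases hc : ContAt D (fun p => g p t) s
  · exact Or.inl hc
  · right
    intro k hk w
    rcases ht k w hk s hs1 hs2 with h | ⟨p, hp, q, hq, e1, e2, e3⟩
    · exact absurd h hc
    · exact ⟨p, hp, q, hq, e1, e2, not_not.1 e3⟩

/-- **UC, coalescence.** Almost surely at every slope `s` in `(A,B)`: either the functions `g`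
(lower half plane) are continuous at `s` or all the upper rays of slope `s` coalesce. -/
theorem coal_up (S : UpSys G D A B f) (h0 : G (Set.Iio 0) = 0) (hat : ∀ x, G {x} = 0)
    {g : ℝ → Environment → ℤ → ℝ} {c σ : ℝ} (hg : MeanFam (iidLaw G) D g c σ)
    {T : Set (Sym2 (ℤ × ℤ))} (hgT : ∀ p ∈ D, ∀ x, DependsOn (fun t => inc (g p t) x) T)
    {h₀ : ℤ} (hT : Disjoint T (K.edgesIn (Hp h₀))) :
    ∀ᵐ t ∂(iidLaw G), ∀ s, A < s → s < B → ContAt D (fun p => g p t) s ∨
      ∀ (i : ℤ) (u u' : ℕ → ℤ × ℤ), IsRay t (gH i) u → IsRay t (gH i) u' →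
        Tendsto (fun n => (u n).2) atTop atTop → Tendsto (fun n => (u' n).2) atTop atTop →
        SlopeU D (fun p k => f p k t) t h₀ s u → SlopeU D (fun p k => f p k t) t h₀ s u' →
        Coal u u' := by
  have hfam : ∀ᵐ t ∂(iidLaw G), ∀ p ∈ D, Fam t (fun k => f p k t) := by
    rw [ae_ball_iff S.countable]
    exact fun p hp => (S.hl p hp).ae_fam h0 hat
  filter_upwards [S.ae_com h0 hat hg.meas zero_le_one hg.lintegral_le hgT hT, hfam,
    ae_nice h0 hat] with t h1 h2 h3 s hs1 hs2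
  rcases h1 s hs1 hs2 with h | h
  · exact Or.inl h
  · right
    intro i u u' hu hu' hup hup' hsu hsu'
    exact coal_of_com h3.nt h3.nonneg h2 h hu hu' hup hup' hsu hsu'

end UpSys

end Crest.Agent.R151.UC
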