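import Crest.Agent.R151.SLF856
import Crest.Agent.R151.UC290d

/-!
# R151, FAuc635 (helper635): the fields `ucU`, `ucD` of `Y96.Facts` for almost every environment

Inputs: helper290's `UC.UpSys` for the upper row functions `f p k t` (slope `p`, row `k`), helper856's
`SLF.RowHyp` for the upper rows `fun p t => f p k t` and for the lower rows `g k`.
`ae_ucD`: when the lower label functions of two members of `Big C t` of the same slope differ
somewhere, the upper ends of all members of this slope coalesce; `ae_ucU`: the reflected statement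
(only the conclusion is reflected, no family is).
-/

set_option autoImplicit false

open Crest.ProbabilityR.FirstPassage
open Filter Set MeasureTheory
open scoped Topology

namespace Crest.Agent.R151.FAuc

open Y H K SEL Y96 SL SLF

/-- the literal field `ucD` of `Y96.Facts` -/
def UcD (C : ℝ) (t : Environment) : Prop :=
  ∀ v₀ ∈ Big C t, ∀ w₀ ∈ Big C t, ∀ s, HasSl t v₀ s → HasSl t w₀ s →
    (∃ k e, Y96.incD t k v₀ e ≠ Y96.incD t k w₀ e) →
    ∀ v ∈ Big C t, ∀ w ∈ Big C t, HasSl t v s → HasSl t w s → HighCoal v w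

/-- the literal field `ucU` of `Y96.Facts` -/
def UcU (C : ℝ) (t : Environment) : Prop :=
  ∀ v₀ ∈ Big C t, ∀ w₀ ∈ Big C t, ∀ s, HasSl t v₀ s → HasSl t w₀ s →
    (∃ k e, Y96.incU t k v₀ e ≠ Y96.incU t k w₀ e) →
    ∀ v ∈ Big C t, ∀ w ∈ Big C t, HasSl t v s → HasSl t w s → LowCoal v w

theorem highCoal_of_coal {v w : ℤ → ℤ × ℤ} {k l : ℤ} (h : Coal (tailU k v) (tailU l w)) :
    HighCoal v w := by
  obtain ⟨i, j, h⟩ := h
  refine ⟨entU k v + i, entU l w + j, fun n => ?_⟩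
  have := h n
  unfold tailU at this
  push_cast at this
  rw [← add_assoc, ← add_assoc] at this
  exact this

/-- the tail above the row `h₀` has slope `s` in the sense of `UC.SlopeU` -/
theorem slopeU_of_sand {D : Set ℝ} {f : ℝ → ℤ → ℤ → ℝ} {t : Environment} {v : ℤ → ℤ × ℤ}
    (hvU : UpDown v) {h₀ : ℤ} {s : ℝ}
    (hS : ∀ h, h₀ ≤ h → Sand D (fun p => f p h) s fun x => fU t h v (x, h)) :
    UC.SlopeU D f t h₀ s (tailU h₀ v) := by
  intro h hh
  have e := tailU_eq_tail hvU hh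
  refine ⟨(entU h v - entU h₀ v).toNat, fun n => ?_, ?_⟩
  · have e1 := congrFun e n
    rw [← e1]
    exact Y.tailU_mem hvU n
  · rw [← e]
    exact hS h hh

/-- deterministic part -/
theorem ucD_of {m C : ℝ} {t : Environment} {D : Set ℝ} {f : ℝ → ℤ → ℤ → ℝ}
    {g : ℤ → ℝ → ℤ → ℝ} (ht : ∀ e, 0 ≤ t e)
    (hsand : ∀ v ∈ Big C t, ∀ s, HasSl t v s → (-m < s ∧ s < m) ∧
      ∀ k, Sand D (fun p => f p k) s (fun x => fU t k v (x, k)) ∧
        SandUp D (g k) s fun x => fD t k v (x, k))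
    (halt : ∀ k : ℤ, ∀ s, -m < s → s < m → ContAt D (g k) s ∨
      ∀ (i : ℤ) (u u' : ℕ → ℤ × ℤ), IsRay t (reg (Up i)) u → IsRay t (reg (Up i)) u' →
        Tendsto (fun n => (u n).2) atTop atTop → Tendsto (fun n => (u' n).2) atTop atTop →
        UC.SlopeU D f t (k + 1) s u → UC.SlopeU D f t (k + 1) s u' → Coal u u') :
    UcD C t := by
  rintro v₀ hv₀ w₀ hw₀ s hvs₀ hws₀ ⟨k, e, hke⟩ v hv w hw hvs hws
  obtain ⟨⟨h1, h2⟩, h3⟩ := hsand v₀ hv₀ s hvs₀
  obtain ⟨-, h4⟩ := hsand w₀ hw₀ s hws₀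
  rcases halt k s h1 h2 with hc | hc
  · exfalso
    apply hke
    have := (h3 k).2.sandU.inc_eq hc (h4 k).2.sandU e
    simpa only [inc, Y96.incD] using this
  · have hvU := updown_of_big hv
    have hwU := updown_of_big hw
    have tu : ∀ {v : ℤ → ℤ × ℤ}, UpDown v →
        Tendsto (fun n => (tailU (k + 1) v n).2) atTop atTop := by
      intro v hv
      exact hv.1.comp (tendsto_atTop_add_const_left _ _ tendsto_natCast_atTop_atTop)
    exact highCoal_of_coal (hc (k + 1) (tailU (k + 1) v) (tailU (k + 1) w)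
      (isRay_tailU hv.1 ht hvU _) (isRay_tailU hw.1 ht hwU _) (tu hvU) (tu hwU)
      (slopeU_of_sand hvU fun h _ => ((hsand v hv s hvs).2 h).1)
      (slopeU_of_sand hwU fun h _ => ((hsand w hw s hws).2 h).1))

/-- reflection of the conclusion -/
theorem ucU_of_refl {C : ℝ} {t : Environment} (h : UcD C (N.refl t)) : UcU C t := by
  rintro v₀ hv₀ w₀ hw₀ s hvs₀ hws₀ ⟨k, e, hke⟩ v hv w hw hvs hws
  rw [← highCoal_rv]
  refine h _ (big_rv hv₀) _ (big_rv hw₀) (-s) (hvs₀.rv (updown_of_big hv₀))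
    (hws₀.rv (updown_of_big hw₀)) ⟨-k, e, ?_⟩ _ (big_rv hv) _ (big_rv hw)
    (hvs.rv (updown_of_big hv)) (hws.rv (updown_of_big hw))
  rw [incD_refl (updown_of_big hv₀), incD_refl (updown_of_big hw₀)]
  exact hke

variable {G : Measure ℝ} [IsProbabilityMeasure G]

theorem disjoint_dn_hp (k : ℤ) : Disjoint (edgesIn (Dn k)) (edgesIn (D624.Hp (k + 1))) :=
  (disjoint_edges (k := k + 1) (l := k) (by omega)).symm

/-- **the field `ucD`** -/
theorem ae_ucD [NullSingletonClass G] {m : ℝ} {μ : ℝ × ℝ → ℝ} (hG : M51.Law213 G)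
    (hM : Mom G m) (hμ : IsTC1 G μ) (hN : D411.SmoothNorm μ) {D : Set ℝ}
    (hsub : D ⊆ Icc (-μ (1, 0)) (μ (1, 0))) {f : ℝ → ℤ → Environment → ℤ → ℝ}
    {g : ℤ → ℝ → Environment → ℤ → ℝ} (S : UC.UpSys G D (-μ (1, 0)) (μ (1, 0)) f)
    (hf : ∀ k, RowHyp G D (Up k) k (-1) (fun p t => f p k t))
    (hg : ∀ k, RowHyp G D (Dn k) k 1 (g k)) {C : ℝ} (hC : 0 < C)
    (hC' : μ (1, 0) * C < μ (C, 1)) : ∀ᵐ t ∂(iidLaw G), UcD C t := by
  have hat : ∀ x, G {x} = 0 := fun x => measure_singleton x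
  have halt : ∀ᵐ t ∂(iidLaw G), ∀ k : ℤ, ∀ s, -μ (1, 0) < s → s < μ (1, 0) →
      ContAt D (fun p => g k p t) s ∨
      ∀ (i : ℤ) (u u' : ℕ → ℤ × ℤ), IsRay t (reg (Up i)) u → IsRay t (reg (Up i)) u' →
        Tendsto (fun n => (u n).2) atTop atTop → Tendsto (fun n => (u' n).2) atTop atTop →
        UC.SlopeU D (fun p k => f p k t) t (k + 1) s u →
        UC.SlopeU D (fun p k => f p k t) t (k + 1) s u' → Coal u u' := by
    rw [ae_all_iff]
    intro k
    exact S.coal_up hG.h0 hat (hg k).mean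
      (fun p hp x t t' h => (hg k).dep p hp t t' h x) (disjoint_dn_hp k)
  filter_upwards [halt, ae_rowsOK S.countable S.dense hsub (f := fun k p t => f p k t) hf hg,
    ae_envOK_213 hG hM hμ hN] with t h1 h2 h3
  refine ucD_of (m := μ (1, 0)) (f := fun p k => f p k t) (g := fun k p => g k p t) h3.nonneg
    (fun v hv s hs => ?_) h1
  obtain ⟨h4, h5⟩ := h2.1.sand hN hC hC' h3 hv hs
  exact ⟨abs_lt.1 (h4.trans_lt (slopeAt_lt hN.norm hN.refl hN.diff hC')), h5⟩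

/-- **the field `ucU`** -/
theorem ae_ucU [NullSingletonClass G] {m : ℝ} {μ : ℝ × ℝ → ℝ} (hG : M51.Law213 G)
    (hM : Mom G m) (hμ : IsTC1 G μ) (hN : D411.SmoothNorm μ) {D : Set ℝ}
    (hsub : D ⊆ Icc (-μ (1, 0)) (μ (1, 0))) {f : ℝ → ℤ → Environment → ℤ → ℝ}
    {g : ℤ → ℝ → Environment → ℤ → ℝ} (S : UC.UpSys G D (-μ (1, 0)) (μ (1, 0)) f)
    (hf : ∀ k, RowHyp G D (Up k) k (-1) (fun p t => f p k t))
    (hg : ∀ k, RowHyp G D (Dn k) k 1 (g k)) {C : ℝ} (hC : 0 < C)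
    (hC' : μ (1, 0) * C < μ (C, 1)) : ∀ᵐ t ∂(iidLaw G), UcU C t := by
  filter_upwards [RFL.ae_refl_of (ae_ucD hG hM hμ hN hsub S hf hg hC hC')] with t ht
  exact ucU_of_refl ht

end Crest.Agent.R151.FAuc
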