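import Crest.Agent.R151.V3

/-!
# R151, block V6 (helper52): change of measure in chi-square form

* `infinitePi_withDensity` : changing finitely many factors of an infinite product;
* `cm_le`, `cm_sub_le` : `P'(A) ≤ √(P A) K`, `|P'(A) - P(A)| ≤ √(K²-1)` where `K² = ∫ ρ²`;
* `gamma_scale` : law of `λ t` for a Gamma weight and its chi-square.
-/

set_option autoImplicit false
set_option linter.unusedSectionVars false

open MeasureTheory ProbabilityTheory Set Filter
open scoped ENNReal Topology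

namespace Crest.Agent.R151.V

section prod

variable {I : Type*} {E : I → Type*} [∀ i, MeasurableSpace (E i)]
  (G G' : (i : I) → Measure (E i)) [∀ i, IsProbabilityMeasure (G i)]
  [∀ i, IsProbabilityMeasure (G' i)]

/-- product of functions of the coordinates -/
lemma lintegral_prod_infinitePi (s : Finset I) (f : (i : I) → E i → ℝ≥0∞)
    (hf : ∀ i, Measurable (f i)) :
    ∫⁻ x, ∏ i ∈ s, f i (x i) ∂Measure.infinitePi G = ∏ i ∈ s, ∫⁻ t, f i t ∂G i := by
  have h := lintegral_prod_eq_prod_lintegral_of_indepFun s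
    (fun i (x : (i : I) → E i) => f i (x i)) (iIndepFun_infinitePi (P := G) hf)
    (fun i => (hf i).comp (measurable_pi_apply i))
  rw [h]
  apply Finset.prod_congr rfl
  intro i _
  exact (measurePreserving_eval_infinitePi G i).lintegral_comp (hf i)

/-- changing finitely many factors of an infinite product measure -/
theorem infinitePi_withDensity (s : Finset I) (ρ : (i : I) → E i → ℝ≥0∞)
    (hρ : ∀ i, Measurable (ρ i)) (h1 : ∀ i ∈ s, G' i = (G i).withDensity (ρ i))
    (h2 : ∀ i, i ∉ s → G' i = G i) :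
    Measure.infinitePi G' = (Measure.infinitePi G).withDensity (fun x => ∏ i ∈ s, ρ i (x i)) := by
  classical
  symm
  apply Measure.eq_infinitePi
  intro u t ht
  have hmeas : MeasurableSet (Set.pi (u : Set I) t) :=
    MeasurableSet.pi u.countable_toSet fun i _ => ht i
  rw [withDensity_apply _ hmeas, ← lintegral_indicator hmeas]
  set f : (i : I) → E i → ℝ≥0∞ := fun i y =>
    (if i ∈ s then ρ i y else 1) * (if i ∈ u then (t i).indicator 1 y else 1) with hf
  have hfm : ∀ i, Measurable (f i) := by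
    intro i
    apply Measurable.mul
    · by_cases his : i ∈ s
      · simpa [his] using hρ i
      · simp [his]
    · by_cases hiu : i ∈ u
      · simpa [hiu] using measurable_one.indicator (ht i)
      · simp [hiu]
  have hpt : ∀ x : (i : I) → E i, (Set.pi (u : Set I) t).indicator
      (fun x => ∏ i ∈ s, ρ i (x i)) x = ∏ i ∈ s ∪ u, f i (x i) := by
    intro x
    simp only [hf, Finset.prod_mul_distrib]
    have e1 : ∏ i ∈ s ∪ u, (if i ∈ s then ρ i (x i) else 1) = ∏ i ∈ s, ρ i (x i) := by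
      rw [Finset.prod_ite_mem]
      congr 1
      exact Finset.inter_eq_right.2 Finset.subset_union_left
    have e2 : ∏ i ∈ s ∪ u, (if i ∈ u then (t i).indicator (1 : E i → ℝ≥0∞) (x i) else 1)
        = ∏ i ∈ u, (t i).indicator (1 : E i → ℝ≥0∞) (x i) := by
      rw [Finset.prod_ite_mem]
      congr 1
      exact Finset.inter_eq_right.2 Finset.subset_union_right
    rw [e1, e2]
    by_cases hx : x ∈ Set.pi (u : Set I) t
    · rw [indicator_of_mem hx]
      have : ∏ i ∈ u, (t i).indicator (1 : E i → ℝ≥0∞) (x i) = 1 := by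
        apply Finset.prod_eq_one
        intro i hi
        rw [indicator_of_mem (hx i hi)]
        rfl
      rw [this, mul_one]
    · rw [indicator_of_notMem hx]
      simp only [Set.mem_pi, not_forall] at hx
      obtain ⟨i, hi, hxi⟩ := hx
      rw [Finset.prod_eq_zero (i := i) (s := u) hi (indicator_of_notMem hxi _), mul_zero]
  rw [lintegral_congr hpt, lintegral_prod_infinitePi G (s ∪ u) f hfm]
  have hu : ∀ i ∈ u, ∫⁻ y, f i y ∂G i = G' i (t i) := by
    intro i hi
    by_cases his : i ∈ s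
    · rw [h1 i his, withDensity_apply _ (ht i), ← lintegral_indicator (ht i)]
      apply lintegral_congr
      intro y
      simp only [hf, his, hi, if_true]
      by_cases hy : y ∈ t i
      · simp [hy]
      · simp [hy]
    · rw [h2 i his, ← lintegral_indicator_one (ht i)]
      apply lintegral_congr
      intro y
      simp [hf, his, hi]
  have hnu : ∀ i ∈ s ∪ u, i ∉ u → ∫⁻ y, f i y ∂G i = 1 := by
    intro i hi hiu
    have his : i ∈ s := by
      rcases Finset.mem_union.1 hi with h | h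
      · exact h
      · exact absurd h hiu
    have : ∫⁻ y, f i y ∂G i = G' i Set.univ := by
      rw [h1 i his, withDensity_apply _ MeasurableSet.univ, Measure.restrict_univ]
      apply lintegral_congr
      intro y
      simp [hf, his, hiu]
    rw [this, measure_univ]
  rw [← Finset.prod_subset (Finset.subset_union_right : u ⊆ s ∪ u) hnu]
  exact Finset.prod_congr rfl hu

/-- the chi-square of the product density -/
lemma lintegral_prod_sq (s : Finset I) (ρ : (i : I) → E i → ℝ≥0∞) (hρ : ∀ i, Measurable (ρ i)) :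
    ∫⁻ x, (∏ i ∈ s, ρ i (x i)) ^ 2 ∂Measure.infinitePi G = ∏ i ∈ s, ∫⁻ t, (ρ i t) ^ 2 ∂G i := by
  have := lintegral_prod_infinitePi G s (fun i y => (ρ i y) ^ 2) (fun i => (hρ i).pow_const 2)
  rw [← this]
  apply lintegral_congr
  intro x
  rw [Finset.prod_pow]

end prod

section CS

variable {Ω : Type*} [MeasurableSpace Ω] {μ : Measure Ω}

/-- Cauchy-Schwarz for a density: `P'(A)² ≤ P(A) ∫ ρ²`. -/
theorem cm_le (ρ : Ω → ℝ≥0∞) (hρ : Measurable ρ) {A : Set Ω} (hA : MeasurableSet A) :
    (μ.withDensity ρ A) ^ 2 ≤ μ A * ∫⁻ x, (ρ x) ^ 2 ∂μ := by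
  rw [withDensity_apply _ hA, ← lintegral_indicator hA]
  have h1 : ∀ x, A.indicator ρ x = A.indicator 1 x * ρ x := by
    intro x
    by_cases hx : x ∈ A
    · simp [hx]
    · simp [hx]
  rw [lintegral_congr h1]
  have h2 := ENNReal.lintegral_mul_le_Lp_mul_Lq μ Real.HolderConjugate.two_two
    (f := A.indicator 1) (g := ρ) (measurable_one.indicator hA).aemeasurable hρ.aemeasurable
  have h3 : ∫⁻ x, (A.indicator (1 : Ω → ℝ≥0∞) x) ^ (2:ℝ) ∂μ = μ A := by
    rw [← lintegral_indicator_one hA]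
    apply lintegral_congr
    intro x
    by_cases hx : x ∈ A
    · simp [hx]
    · simp [hx]
  have h4 : ∫⁻ x, (ρ x) ^ (2:ℝ) ∂μ = ∫⁻ x, (ρ x) ^ 2 ∂μ := by
    apply lintegral_congr
    intro x
    norm_cast
  rw [h3, h4] at h2
  calc (∫⁻ x, A.indicator 1 x * ρ x ∂μ) ^ 2
      ≤ ((μ A) ^ (1 / (2:ℝ)) * (∫⁻ x, (ρ x) ^ 2 ∂μ) ^ (1 / (2:ℝ))) ^ 2 := by
        gcongr
        exact h2
    _ = μ A * ∫⁻ x, (ρ x) ^ 2 ∂μ := by
        rw [mul_pow, ← ENNReal.rpow_natCast, ← ENNReal.rpow_natCast, ← ENNReal.rpow_mul,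
          ← ENNReal.rpow_mul]
        norm_num

/-- real form: `P'(A) ≤ √(P(A) K²)` -/
theorem cm_le_real [IsProbabilityMeasure μ] (ρ : Ω → ℝ≥0∞) (hρ : Measurable ρ) {K2 : ℝ}
    (hK0 : 0 ≤ K2) (hK : ∫⁻ x, (ρ x) ^ 2 ∂μ ≤ ENNReal.ofReal K2) {A : Set Ω}
    (hA : MeasurableSet A) :
    (μ.withDensity ρ).real A ≤ √(μ.real A * K2) := by
  apply Real.le_sqrt_of_sq_le
  have h := (cm_le ρ hρ hA).trans (mul_le_mul_right hK _)
  have h2 := ENNReal.toReal_mono (by finiteness) h
  rw [ENNReal.toReal_pow, ENNReal.toReal_mul] at h2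
  refine h2.trans ?_
  rw [ENNReal.toReal_ofReal hK0]
  rfl

/-- local Cauchy-Schwarz: `P'(A)² ≤ P(A) ∫_A ρ²`. -/
theorem cm_le_local (ρ : Ω → ℝ≥0∞) (hρ : Measurable ρ) {A : Set Ω} (hA : MeasurableSet A) :
    (μ.withDensity ρ A) ^ 2 ≤ μ A * ∫⁻ x in A, (ρ x) ^ 2 ∂μ := by
  have h := cm_le (μ := μ.restrict A) ρ hρ MeasurableSet.univ
  rw [withDensity_apply _ MeasurableSet.univ, Measure.restrict_univ] at h
  rw [withDensity_apply _ hA]
  simpa using h

/-- `(P'(A) - P(A))² ≤ P(A) (1 - P(A)) (K² - 1)` -/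
theorem cm_sub_sq_le [IsProbabilityMeasure μ] (ρ : Ω → ℝ≥0∞) (hρ : Measurable ρ)
    [IsProbabilityMeasure (μ.withDensity ρ)] {K2 : ℝ}
    (hK : ∫⁻ x, (ρ x) ^ 2 ∂μ ≤ ENNReal.ofReal K2) {A : Set Ω} (hA : MeasurableSet A) :
    ((μ.withDensity ρ).real A - μ.real A) ^ 2 ≤ μ.real A * (1 - μ.real A) * (K2 - 1) := by
  set a := ∫⁻ x in A, (ρ x) ^ 2 ∂μ with ha
  set b := ∫⁻ x in Aᶜ, (ρ x) ^ 2 ∂μ with hb
  have hab : a + b = ∫⁻ x, (ρ x) ^ 2 ∂μ := lintegral_add_compl _ hA
  have hab' : a + b ≤ ENNReal.ofReal K2 := hab.le.trans hK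
  have hafin : a ≠ ∞ := ne_top_of_le_ne_top ENNReal.ofReal_ne_top (le_self_add.trans hab')
  have hbfin : b ≠ ∞ := ne_top_of_le_ne_top ENNReal.ofReal_ne_top (le_add_self.trans hab')
  have h1 : (μ.withDensity ρ).real A ^ 2 ≤ μ.real A * a.toReal := by
    have h := ENNReal.toReal_mono (by finiteness) (cm_le_local (μ := μ) ρ hρ hA)
    rwa [ENNReal.toReal_pow, ENNReal.toReal_mul] at h
  have h2 : (μ.withDensity ρ).real Aᶜ ^ 2 ≤ μ.real Aᶜ * b.toReal := by
    have h := ENNReal.toReal_mono (by finiteness) (cm_le_local (μ := μ) ρ hρ hA.compl)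
    rwa [ENNReal.toReal_pow, ENNReal.toReal_mul] at h
  rw [probReal_compl_eq_one_sub hA, probReal_compl_eq_one_sub hA] at h2
  have h3 : 1 ≤ a.toReal + b.toReal ∨ True := Or.inr trivial
  have hsum : a.toReal + b.toReal ≤ max K2 0 := by
    rw [← ENNReal.toReal_add hafin hbfin]
    have h := ENNReal.toReal_mono ENNReal.ofReal_ne_top hab'
    rwa [ENNReal.toReal_ofReal'] at h
  set p := μ.real A with hp
  set p' := (μ.withDensity ρ).real A with hp'
  have hp0 : 0 ≤ p := measureReal_nonneg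
  have hp1 : p ≤ 1 := measureReal_le_one
  have hK1 : 0 < K2 := by
    by_contra hcon
    push Not at hcon
    have h0 : ∫⁻ x, (ρ x) ^ 2 ∂μ = 0 := by
      have := hK
      rw [ENNReal.ofReal_of_nonpos hcon] at this
      exact le_antisymm this bot_le
    have h5 := cm_le (μ := μ) ρ hρ MeasurableSet.univ
    rw [h0, mul_zero, measure_univ] at h5
    norm_num at h5
  rw [max_eq_left hK1.le] at hsum
  have h6 : p' ^ 2 * (1 - p) ≤ p * (1 - p) * a.toReal := by
    have := mul_le_mul_of_nonneg_right h1 (sub_nonneg.2 hp1)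
    linarith
  have h7 : (1 - p') ^ 2 * p ≤ p * (1 - p) * b.toReal := by
    have := mul_le_mul_of_nonneg_right h2 hp0
    linarith
  have h8 : p * (1 - p) * (a.toReal + b.toReal) ≤ p * (1 - p) * K2 :=
    mul_le_mul_of_nonneg_left hsum (mul_nonneg hp0 (sub_nonneg.2 hp1))
  nlinarith [h6, h7, h8]

/-- total variation form: `|P'(A) - P(A)| ≤ √(K²-1)/2`. -/
theorem cm_sub_le [IsProbabilityMeasure μ] (ρ : Ω → ℝ≥0∞) (hρ : Measurable ρ)
    [IsProbabilityMeasure (μ.withDensity ρ)] {K2 : ℝ} (hK1 : 1 ≤ K2)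
    (hK : ∫⁻ x, (ρ x) ^ 2 ∂μ ≤ ENNReal.ofReal K2) {A : Set Ω} (hA : MeasurableSet A) :
    |(μ.withDensity ρ).real A - μ.real A| ≤ √(K2 - 1) / 2 := by
  have h := cm_sub_sq_le (μ := μ) ρ hρ hK hA
  set p := μ.real A with hp
  set p' := (μ.withDensity ρ).real A with hp'
  apply abs_le_of_sq_le_sq _ (by positivity)
  rw [div_pow, Real.sq_sqrt (by linarith)]
  have h1 : p * (1 - p) ≤ 1 / 4 := by nlinarith [sq_nonneg (p - 1 / 2)]
  have h2 : p * (1 - p) * (K2 - 1) ≤ 1 / 4 * (K2 - 1) :=
    mul_le_mul_of_nonneg_right h1 (by linarith)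
  linarith

end CS

section gamma

variable {κ r : ℝ}

/-- the density of the scaled Gamma law -/
noncomputable def scaleDen (κ r lam : ℝ) (x : ℝ) : ℝ≥0∞ :=
  ENNReal.ofReal (lam ^ (-κ) * Real.exp (r * x * (1 - 1 / lam)))

lemma measurable_scaleDen (κ r lam : ℝ) : Measurable (scaleDen κ r lam) := by
  unfold scaleDen
  fun_prop

/-- the law of `λ t` is `Gamma(κ, r/λ)` -/
lemma map_mul_gamma {lam : ℝ} (hr : 0 < r) (hl : 0 < lam) :
    (gammaMeasure κ r).map (fun x => lam * x) = gammaMeasure κ (r / lam) := by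
  have hm : Measurable fun x : ℝ => lam * x := measurable_const_mul lam
  have hpdf : ∀ a b : ℝ, Measurable (gammaPDF a b) :=
    fun a b => (measurable_gammaPDFReal a b).ennreal_ofReal
  ext A hA
  rw [Measure.map_apply hm hA]
  unfold gammaMeasure
  rw [withDensity_apply _ (hm hA), withDensity_apply _ hA, ← lintegral_indicator (hm hA),
    ← lintegral_indicator hA]
  have h1 : ∀ x, ((fun x : ℝ => lam * x) ⁻¹' A).indicator (gammaPDF κ r) x =
      (fun y => A.indicator (fun y => gammaPDF κ r (y / lam)) y) (lam * x) := by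
    intro x
    beta_reduce
    by_cases hx : lam * x ∈ A
    · rw [indicator_of_mem (s := A) hx, indicator_of_mem (show x ∈ (fun x : ℝ => lam * x) ⁻¹' A from hx)]
      congr 1
      field_simp
    · rw [indicator_of_notMem (s := A) hx,
        indicator_of_notMem (show x ∉ (fun x : ℝ => lam * x) ⁻¹' A from hx)]
  rw [lintegral_congr h1]
  have h2 : Measurable (fun y => A.indicator (fun y => gammaPDF κ r (y / lam)) y) :=
    ((hpdf κ r).comp (measurable_id.div_const lam)).indicator hA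
  rw [← lintegral_map h2 hm, Real.map_volume_mul_left hl.ne', lintegral_smul_measure, smul_eq_mul,
    ← lintegral_const_mul _ h2]
  apply lintegral_congr
  intro y
  by_cases hy : y ∈ A
  · rw [indicator_of_mem hy, indicator_of_mem hy]
    rcases lt_or_ge y 0 with h0 | h0
    · rw [gammaPDF_of_neg h0, gammaPDF_of_neg (div_neg_of_neg_of_pos h0 hl), mul_zero]
    · rw [gammaPDF_of_nonneg h0, gammaPDF_of_nonneg (div_nonneg h0 hl.le),
        ← ENNReal.ofReal_mul (abs_nonneg _)]
      congr 1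
      rw [abs_of_pos (inv_pos.2 hl), Real.div_rpow h0 hl.le, Real.div_rpow hr.le hl.le,
        Real.rpow_sub_one hl.ne']
      have h3 : r * (y / lam) = r / lam * y := by ring
      rw [h3]
      field_simp
  · rw [indicator_of_notMem hy, indicator_of_notMem hy, mul_zero]

/-- the law of `λ t` has density `scaleDen` -/
lemma gamma_scale_density {lam : ℝ} (hr : 0 < r) (hl : 0 < lam) :
    gammaMeasure κ (r / lam) = (gammaMeasure κ r).withDensity (scaleDen κ r lam) := by
  have hpdf : ∀ a b : ℝ, Measurable (gammaPDF a b) :=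
    fun a b => (measurable_gammaPDFReal a b).ennreal_ofReal
  unfold gammaMeasure
  rw [← withDensity_mul _ (hpdf κ r) (measurable_scaleDen κ r lam)]
  congr 1
  ext x
  rw [Pi.mul_apply]
  rcases lt_or_ge x 0 with h0 | h0
  · rw [gammaPDF_of_neg h0, gammaPDF_of_neg h0, zero_mul]
  · rw [gammaPDF_of_nonneg h0, gammaPDF_of_nonneg h0, scaleDen,
      ← ENNReal.ofReal_mul' (by positivity)]
    congr 1
    rw [Real.div_rpow hr.le hl.le, Real.rpow_neg hl.le]
    have h3 : Real.exp (-(r / lam * x)) = Real.exp (-(r * x)) * Real.exp (r * x * (1 - 1 / lam)) := by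
      rw [← Real.exp_add]
      congr 1
      field_simp
      ring
    rw [h3]
    field_simp

/-- second moment of the density -/
lemma lintegral_scaleDen_sq {lam : ℝ} (hκ : 0 < κ) (hr : 0 < r) (hl : 0 < lam) (hl2 : lam < 2) :
    ∫⁻ x, (scaleDen κ r lam x) ^ 2 ∂(gammaMeasure κ r) =
      ENNReal.ofReal ((1 - (1 - lam) ^ 2) ^ (-κ)) := by
  have hpdf : ∀ a b : ℝ, Measurable (gammaPDF a b) :=
    fun a b => (measurable_gammaPDFReal a b).ennreal_ofReal
  have hr' : 0 < r * (2 / lam - 1) := by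
    apply mul_pos hr
    rw [sub_pos, lt_div_iff₀ hl]
    linarith
  unfold gammaMeasure
  rw [lintegral_withDensity_eq_lintegral_mul _ (hpdf κ r)
    ((measurable_scaleDen κ r lam).pow_const 2)]
  have h1 : ∀ x, (gammaPDF κ r * fun x => (scaleDen κ r lam x) ^ 2) x =
      ENNReal.ofReal ((1 - (1 - lam) ^ 2) ^ (-κ)) * gammaPDF κ (r * (2 / lam - 1)) x := by
    intro x
    rw [Pi.mul_apply]
    rcases lt_or_ge x 0 with h0 | h0
    · rw [gammaPDF_of_neg h0, gammaPDF_of_neg h0, zero_mul, mul_zero]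
    · rw [gammaPDF_of_nonneg h0, gammaPDF_of_nonneg h0, scaleDen,
        ← ENNReal.ofReal_pow (by positivity), ← ENNReal.ofReal_mul' (by positivity),
        ← ENNReal.ofReal_mul (Real.rpow_nonneg (by nlinarith) _)]
      congr 1
      have e1 : 1 - (1 - lam) ^ 2 = lam * (2 - lam) := by ring
      have h2l : 0 < 2 - lam := by linarith
      have e2 : 2 / lam - 1 = (2 - lam) / lam := by field_simp
      rw [e1, e2, Real.mul_rpow hl.le h2l.le, Real.mul_rpow hr.le (div_pos h2l hl).le,
        Real.div_rpow h2l.le hl.le, Real.rpow_neg hl.le, Real.rpow_neg h2l.le]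
      have h3 : Real.exp (-(r * ((2 - lam) / lam) * x)) =
          Real.exp (-(r * x)) * Real.exp (r * x * (1 - 1 / lam)) ^ 2 := by
        rw [← Real.exp_nat_mul, ← Real.exp_add]
        congr 1
        push_cast
        field_simp
        ring
      rw [h3]
      have hp1 : 0 < lam ^ κ := Real.rpow_pos_of_pos hl _
      have hp2 : 0 < (2 - lam) ^ κ := Real.rpow_pos_of_pos h2l _
      field_simp
  rw [lintegral_congr h1, lintegral_const_mul _ (hpdf _ _), lintegral_gammaPDF_eq_one hκ hr',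
    mul_one]

variable {I : Type*}

/-- the chi-square constant of the scaling by `lam` on `s` -/
noncomputable def scaleK (κ : ℝ) (s : Finset I) (lam : I → ℝ) : ℝ :=
  ∏ i ∈ s, (1 - (1 - lam i) ^ 2) ^ (-κ)

/-- the law of the scaled environment has a product density -/
theorem gamma_scale_law (hκ : 0 < κ) (hr : 0 < r) (s : Finset I) (lam : I → ℝ)
    (h0 : ∀ i ∈ s, 0 < lam i) (h1 : ∀ i, i ∉ s → lam i = 1) :
    (Measure.infinitePi fun _ : I => gammaMeasure κ r).map (fun x i => lam i * x i) =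
      (Measure.infinitePi fun _ : I => gammaMeasure κ r).withDensity
        (fun x => ∏ i ∈ s, scaleDen κ r (lam i) (x i)) := by
  have hγ := isProbabilityMeasure_gammaMeasure hκ hr
  have hp : ∀ i, 0 < lam i := by
    intro i
    by_cases hi : i ∈ s
    · exact h0 i hi
    · rw [h1 i hi]; exact zero_lt_one
  have hG' : ∀ i : I, IsProbabilityMeasure (gammaMeasure κ (r / lam i)) :=
    fun i => isProbabilityMeasure_gammaMeasure hκ (div_pos hr (hp i))
  rw [Measure.infinitePi_map_pi (fun _ : I => gammaMeasure κ r)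
    (f := fun i x => lam i * x) (fun i => measurable_const_mul (lam i))]
  have e : (fun i : I => (gammaMeasure κ r).map (fun x => lam i * x)) =
      fun i => gammaMeasure κ (r / lam i) := by
    funext i
    exact map_mul_gamma hr (hp i)
  have e2 : (Measure.infinitePi fun i : I => (gammaMeasure κ r).map (fun x => lam i * x)) =
      Measure.infinitePi fun i : I => gammaMeasure κ (r / lam i) := by
    simp_rw [fun i : I => map_mul_gamma (κ := κ) hr (hp i)]
  rw [e2]
  refine infinitePi_withDensity (fun _ : I => gammaMeasure κ r)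
    (fun i => gammaMeasure κ (r / lam i)) s (fun i => scaleDen κ r (lam i))
    (fun i => measurable_scaleDen κ r (lam i)) ?_ ?_
  · intro i hi
    exact gamma_scale_density hr (h0 i hi)
  · intro i hi
    rw [h1 i hi, div_one]

lemma scaleK_nonneg (s : Finset I) (lam : I → ℝ) (h0 : ∀ i ∈ s, 0 < lam i)
    (h2 : ∀ i ∈ s, lam i < 2) : 0 ≤ scaleK κ s lam := by
  apply Finset.prod_nonneg
  intro i hi
  apply Real.rpow_nonneg
  nlinarith [h0 i hi, h2 i hi]

lemma one_le_scaleK (hκ : 0 < κ) (s : Finset I) (lam : I → ℝ) (h0 : ∀ i ∈ s, 0 < lam i)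
    (h2 : ∀ i ∈ s, lam i < 2) : 1 ≤ scaleK κ s lam := by
  unfold scaleK
  calc (1:ℝ) = ∏ i ∈ s, (1:ℝ) := by simp
    _ ≤ _ := by
      apply Finset.prod_le_prod
      · intro i _; exact zero_le_one
      · intro i hi
        have h3 : 0 < 1 - (1 - lam i) ^ 2 := by nlinarith [h0 i hi, h2 i hi]
        exact Real.one_le_rpow_of_pos_of_le_one_of_nonpos h3 (by nlinarith [sq_nonneg (1 - lam i)])
          (by linarith)

/-- `K² ≤ exp (2 κ Σ (1-λ)²)` for small perturbations -/
lemma scaleK_le (hκ : 0 < κ) (s : Finset I) (lam : I → ℝ)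
    (h : ∀ i ∈ s, (1 - lam i) ^ 2 ≤ 1 / 2) :
    scaleK κ s lam ≤ Real.exp (2 * κ * ∑ i ∈ s, (1 - lam i) ^ 2) := by
  unfold scaleK
  rw [Finset.mul_sum, Real.exp_sum]
  apply Finset.prod_le_prod
  · intro i hi
    apply Real.rpow_nonneg
    linarith [h i hi]
  · intro i hi
    have h3 : 0 < 1 - (1 - lam i) ^ 2 := by linarith [h i hi]
    rw [Real.rpow_def_of_pos h3]
    apply Real.exp_le_exp.2
    have h4 := Real.one_sub_inv_le_log_of_pos h3
    have h5 : (1 - (1 - lam i) ^ 2)⁻¹ ≤ 1 + 2 * (1 - lam i) ^ 2 := by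
      rw [inv_le_iff_one_le_mul₀ h3]
      nlinarith [h i hi, sq_nonneg (1 - lam i)]
    have h6 : -(2 * (1 - lam i) ^ 2) ≤ Real.log (1 - (1 - lam i) ^ 2) := by linarith
    nlinarith

lemma lintegral_scale_sq (hκ : 0 < κ) (hr : 0 < r) (s : Finset I) (lam : I → ℝ)
    (h0 : ∀ i ∈ s, 0 < lam i) (h2 : ∀ i ∈ s, lam i < 2) :
    ∫⁻ x, (∏ i ∈ s, scaleDen κ r (lam i) (x i)) ^ 2
      ∂(Measure.infinitePi fun _ : I => gammaMeasure κ r) = ENNReal.ofReal (scaleK κ s lam) := by
  have hγ := isProbabilityMeasure_gammaMeasure hκ hr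
  rw [lintegral_prod_sq (fun _ : I => gammaMeasure κ r) s (fun i => scaleDen κ r (lam i))
    (fun i => measurable_scaleDen κ r (lam i)), scaleK, ENNReal.ofReal_prod_of_nonneg]
  · apply Finset.prod_congr rfl
    intro i hi
    exact lintegral_scaleDen_sq hκ hr (h0 i hi) (h2 i hi)
  · intro i hi
    apply Real.rpow_nonneg
    nlinarith [h0 i hi, h2 i hi]

lemma measurable_scaleProd (s : Finset I) (lam : I → ℝ) :
    Measurable fun x : I → ℝ => ∏ i ∈ s, scaleDen κ r (lam i) (x i) := by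
  apply Finset.measurable_fun_prod
  intro i _
  exact (measurable_scaleDen κ r (lam i)).comp (measurable_pi_apply i)

lemma measurable_scale (lam : I → ℝ) : Measurable fun (x : I → ℝ) i => lam i * x i := by
  rw [measurable_pi_iff]
  intro i
  exact (measurable_pi_apply i).const_mul _

/-- CHANGE OF MEASURE by scaling, one-sided form: `P(D_λ t ∈ A) ≤ √(P(A) K²)`. -/
theorem gamma_scale_le (hκ : 0 < κ) (hr : 0 < r) (s : Finset I) (lam : I → ℝ)
    (h0 : ∀ i ∈ s, 0 < lam i) (h2 : ∀ i ∈ s, lam i < 2) (h1 : ∀ i, i ∉ s → lam i = 1)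
    {A : Set (I → ℝ)} (hA : MeasurableSet A) :
    (Measure.infinitePi fun _ : I => gammaMeasure κ r).real {x | (fun i => lam i * x i) ∈ A} ≤
      √((Measure.infinitePi fun _ : I => gammaMeasure κ r).real A * scaleK κ s lam) := by
  have hγ := isProbabilityMeasure_gammaMeasure hκ hr
  have h := cm_le_real (μ := Measure.infinitePi fun _ : I => gammaMeasure κ r)
    (fun x => ∏ i ∈ s, scaleDen κ r (lam i) (x i)) (measurable_scaleProd s lam)
    (scaleK_nonneg s lam h0 h2) (lintegral_scale_sq hκ hr s lam h0 h2).le hA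
  rw [← gamma_scale_law hκ hr s lam h0 h1, map_measureReal_apply (measurable_scale lam) hA] at h
  exact h

/-- CHANGE OF MEASURE by scaling, two-sided form: `|P(D_λ t ∈ A) - P(A)| ≤ √(K²-1)/2`. -/
theorem gamma_scale_sub_le (hκ : 0 < κ) (hr : 0 < r) (s : Finset I) (lam : I → ℝ)
    (h0 : ∀ i ∈ s, 0 < lam i) (h2 : ∀ i ∈ s, lam i < 2) (h1 : ∀ i, i ∉ s → lam i = 1)
    {A : Set (I → ℝ)} (hA : MeasurableSet A) :
    |(Measure.infinitePi fun _ : I => gammaMeasure κ r).real {x | (fun i => lam i * x i) ∈ A} -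
      (Measure.infinitePi fun _ : I => gammaMeasure κ r).real A| ≤ √(scaleK κ s lam - 1) / 2 := by
  have hγ := isProbabilityMeasure_gammaMeasure hκ hr
  have hlaw := gamma_scale_law hκ hr s lam h0 h1
  have hpr : IsProbabilityMeasure ((Measure.infinitePi fun _ : I => gammaMeasure κ r).withDensity
        (fun x => ∏ i ∈ s, scaleDen κ r (lam i) (x i))) := by
    rw [← hlaw]
    exact Measure.isProbabilityMeasure_map (measurable_scale lam).aemeasurable
  have h := cm_sub_le (μ := Measure.infinitePi fun _ : I => gammaMeasure κ r)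
    (fun x => ∏ i ∈ s, scaleDen κ r (lam i) (x i)) (measurable_scaleProd s lam)
    (one_le_scaleK hκ s lam h0 h2) (lintegral_scale_sq hκ hr s lam h0 h2).le hA
  rw [← hlaw, map_measureReal_apply (measurable_scale lam) hA] at h
  exact h

end gamma

end Crest.Agent.R151.V
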