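import Crest.Agent.R151.K5
import Crest.Agent.R151.V6
import Crest.Agent.R151.A565a

/-!
# R151 (S0214 part 2), module C2, deterministic part: lanes (helper338)

`Lane f c0 w` is the set of lattice points `z` with `|f z - c0| ≤ w / 2`.
* `exists_stair`: two points of a lane are joined inside the lane by a walk of length `n1 (y - x)`.
* `pR_split`: `T_L(x,y) ≥ T_L(x,p) + T_L(p,y) - 2 S_col` for `p` on a column between `x` and `y`.
-/

set_option autoImplicit false

open MeasureTheory Filter ProbabilityTheory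
open Crest.ProbabilityR.FirstPassage

namespace Crest.Agent.R151.G338

open Crest.Agent.R151.K

/-- The lane: lattice points `z` with `|f z - c0| ≤ w / 2`. -/
def Lane (f : ℝ × ℝ →L[ℝ] ℝ) (c0 w : ℝ) : Set (ℤ × ℤ) := {z | |f (toR z) - c0| ≤ w / 2}

lemma mem_Lane {f : ℝ × ℝ →L[ℝ] ℝ} {c0 w : ℝ} {z : ℤ × ℤ} :
    z ∈ Lane f c0 w ↔ |f (toR z) - c0| ≤ w / 2 := Iff.rfl

lemma f_toR (f : ℝ × ℝ →L[ℝ] ℝ) (z : ℤ × ℤ) :
    f (toR z) = z.1 * f (1, 0) + z.2 * f (0, 1) := by
  have : toR z = (z.1 : ℝ) • ((1 : ℝ), (0 : ℝ)) + (z.2 : ℝ) • ((0 : ℝ), (1 : ℝ)) := by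
    simp [toR]
  rw [this, map_add, map_smul, map_smul]
  simp

lemma pick {h t a1 a2 : ℝ} {P Q : ℕ} (h1 : |a1| ≤ h) (h2 : |a2| ≤ h) (ht : |t| ≤ h)
    (hS : |t + P * a1 + Q * a2| ≤ h) (hPQ : 0 < P + Q) :
    (0 < P ∧ |t + a1| ≤ h) ∨ (0 < Q ∧ |t + a2| ≤ h) := by
  rw [abs_le, abs_le]
  rw [abs_le] at h1 h2 ht hS
  rcases Nat.eq_zero_or_pos P with hP | hP
  · subst hP
    have hQ : 0 < Q := by omega
    right
    refine ⟨hQ, ?_⟩
    have hQ1 : (1 : ℝ) ≤ Q := by exact_mod_cast hQ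
    simp only [CharP.cast_eq_zero, zero_mul, add_zero] at hS
    rcases le_total 0 a2 with ha | ha
    · have : a2 ≤ Q * a2 := by nlinarith
      constructor <;> linarith [hS.1, hS.2, ht.1, ht.2]
    · have : Q * a2 ≤ a2 := by nlinarith
      constructor <;> linarith [hS.1, hS.2, ht.1, ht.2]
  rcases Nat.eq_zero_or_pos Q with hQ | hQ
  · subst hQ
    left
    refine ⟨hP, ?_⟩
    have hP1 : (1 : ℝ) ≤ P := by exact_mod_cast hP
    simp only [CharP.cast_eq_zero, zero_mul, add_zero] at hS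
    rcases le_total 0 a1 with ha | ha
    · have : a1 ≤ P * a1 := by nlinarith
      constructor <;> linarith [hS.1, hS.2, ht.1, ht.2]
    · have : P * a1 ≤ a1 := by nlinarith
      constructor <;> linarith [hS.1, hS.2, ht.1, ht.2]
  have hP1 : (1 : ℝ) ≤ P := by exact_mod_cast hP
  have hQ1 : (1 : ℝ) ≤ Q := by exact_mod_cast hQ
  rcases le_total t 0 with ht0 | ht0
  · rcases le_total 0 a1 with ha | ha
    · left; exact ⟨hP, by constructor <;> linarith [h1.2, ht.1]⟩
    · rcases le_total 0 a2 with ha2 | ha2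
      · right; exact ⟨hQ, by constructor <;> linarith [h2.2, ht.1]⟩
      · left
        have e1 : P * a1 ≤ a1 := by nlinarith
        have e2 : Q * a2 ≤ 0 := by nlinarith
        exact ⟨hP, by constructor <;> linarith [hS.1, ht.1, ht.2]⟩
  · rcases le_total a1 0 with ha | ha
    · left; exact ⟨hP, by constructor <;> linarith [h1.1, ht.2]⟩
    · rcases le_total a2 0 with ha2 | ha2
      · right; exact ⟨hQ, by constructor <;> linarith [h2.1, ht.2]⟩
      · left
        have e1 : a1 ≤ P * a1 := by nlinarith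
        have e2 : 0 ≤ Q * a2 := by nlinarith
        exact ⟨hP, by constructor <;> linarith [hS.2, ht.1, ht.2]⟩

/-- one lattice step with sign -/
lemma exists_step1 (x y : ℤ × ℤ) (h : 0 < (y.1 - x.1).natAbs) :
    ∃ σ : ℤ, (σ = 1 ∨ σ = -1) ∧ ((y.1 - x.1).natAbs : ℤ) * σ = y.1 - x.1 ∧
      (y.1 - (x.1 + σ)).natAbs + 1 = (y.1 - x.1).natAbs := by
  rcases le_total 0 (y.1 - x.1) with h0 | h0
  · exact ⟨1, Or.inl rfl, by omega, by omega⟩
  · exact ⟨-1, Or.inr rfl, by omega, by omega⟩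

lemma exists_step2 (x y : ℤ × ℤ) (h : 0 < (y.2 - x.2).natAbs) :
    ∃ σ : ℤ, (σ = 1 ∨ σ = -1) ∧ ((y.2 - x.2).natAbs : ℤ) * σ = y.2 - x.2 ∧
      (y.2 - (x.2 + σ)).natAbs + 1 = (y.2 - x.2).natAbs := by
  rcases le_total 0 (y.2 - x.2) with h0 | h0
  · exact ⟨1, Or.inl rfl, by omega, by omega⟩
  · exact ⟨-1, Or.inr rfl, by omega, by omega⟩

lemma exists_sign (a : ℤ) : ∃ σ : ℤ, (σ = 1 ∨ σ = -1) ∧ (a.natAbs : ℤ) * σ = a := by
  rcases le_total 0 a with h0 | h0
  · exact ⟨1, Or.inl rfl, by omega⟩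
  · exact ⟨-1, Or.inr rfl, by omega⟩

lemma adj_step1 (x : ℤ × ℤ) {σ : ℤ} (hσ : σ = 1 ∨ σ = -1) :
    squareLattice.Adj x (x.1 + σ, x.2) := by
  rcases hσ with rfl | rfl
  · exact adj_right x.1 x.2
  · have := (adj_right (x.1 + -1) x.2).symm
    simpa using this

lemma adj_step2 (x : ℤ × ℤ) {σ : ℤ} (hσ : σ = 1 ∨ σ = -1) :
    squareLattice.Adj x (x.1, x.2 + σ) := by
  rcases hσ with rfl | rfl
  · exact adj_up x.1 x.2
  · have := (adj_up x.1 (x.2 + -1)).symm
    simpa using this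

variable {f : ℝ × ℝ →L[ℝ] ℝ} {c0 w : ℝ}

/-- Two points of a lane are joined by a monotone staircase inside the lane. -/
theorem exists_stair (h1 : |f (1, 0)| ≤ w / 2) (h2 : |f (0, 1)| ≤ w / 2) {x y : ℤ × ℤ}
    (hx : x ∈ Lane f c0 w) (hy : y ∈ Lane f c0 w) :
    ∃ p : squareLattice.Walk x y, p.length = n1 (y - x) ∧ ∀ z ∈ p.support, z ∈ Lane f c0 w := by
  have key : ∀ n : ℕ, ∀ x : ℤ × ℤ, n1 (y - x) = n → x ∈ Lane f c0 w →
      ∃ p : squareLattice.Walk x y, p.length = n1 (y - x) ∧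
        ∀ z ∈ p.support, z ∈ Lane f c0 w := by
    intro n
    induction n with
    | zero =>
      intro x hn hx
      have : y = x := by
        simp only [n1, Prod.fst_sub, Prod.snd_sub] at hn
        apply Prod.ext <;> omega
      subst this
      exact ⟨SimpleGraph.Walk.nil, by simp [n1], by simpa using hx⟩
    | succ n ih =>
      intro x hn hx
      set P := (y.1 - x.1).natAbs with hP
      set Q := (y.2 - x.2).natAbs with hQ
      have hn' : P + Q = n + 1 := by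
        simpa only [n1, Prod.fst_sub, Prod.snd_sub] using hn
      obtain ⟨σ, hσ, hσP⟩ := exists_sign (y.1 - x.1)
      obtain ⟨τ, hτ, hτQ⟩ := exists_sign (y.2 - x.2)
      have hσa : |(σ : ℝ)| = 1 := by rcases hσ with rfl | rfl <;> norm_num
      have hτa : |(τ : ℝ)| = 1 := by rcases hτ with rfl | rfl <;> norm_num
      have hx' := hx
      have hy' := hy
      rw [mem_Lane, f_toR] at hx' hy'
      have hσR : (P : ℝ) * σ = (y.1 : ℝ) - x.1 := by
        have : ((P : ℤ) * σ : ℤ) = y.1 - x.1 := hσP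
        exact_mod_cast this
      have hτR : (Q : ℝ) * τ = (y.2 : ℝ) - x.2 := by
        have : ((Q : ℤ) * τ : ℤ) = y.2 - x.2 := hτQ
        exact_mod_cast this
      have hpick := pick (h := w / 2) (t := x.1 * f (1, 0) + x.2 * f (0, 1) - c0)
        (a1 := σ * f (1, 0)) (a2 := τ * f (0, 1)) (P := P) (Q := Q)
        (by rw [abs_mul, hσa, one_mul]; exact h1) (by rw [abs_mul, hτa, one_mul]; exact h2) hx'
        (by
          have : x.1 * f (1, 0) + x.2 * f (0, 1) - c0 + P * (σ * f (1, 0)) + Q * (τ * f (0, 1))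
              = y.1 * f (1, 0) + y.2 * f (0, 1) - c0 := by
            have e1 : (P : ℝ) * (σ * f (1, 0)) = ((y.1 : ℝ) - x.1) * f (1, 0) := by
              rw [← hσR]; ring
            have e2 : (Q : ℝ) * (τ * f (0, 1)) = ((y.2 : ℝ) - x.2) * f (0, 1) := by
              rw [← hτR]; ring
            rw [e1, e2]; ring
          rw [this]; exact hy')
        (by omega)
      rcases hpick with ⟨hPpos, hm⟩ | ⟨hQpos, hm⟩
      · set x' : ℤ × ℤ := (x.1 + σ, x.2) with hx'def
        have hmem : x' ∈ Lane f c0 w := by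
          rw [mem_Lane, f_toR]
          refine le_trans (le_of_eq ?_) hm
          simp only [hx'def]; push_cast; ring_nf
        have hn1 : n1 (y - x') = n := by
          simp only [n1, Prod.fst_sub, Prod.snd_sub, hx'def]
          rcases hσ with rfl | rfl <;> omega
        obtain ⟨p, hp, hps⟩ := ih x' hn1 hmem
        refine ⟨SimpleGraph.Walk.cons (adj_step1 x hσ) p, ?_, ?_⟩
        · rw [SimpleGraph.Walk.length_cons, hp, hn1, hn]
        · intro z hz
          rw [SimpleGraph.Walk.support_cons, List.mem_cons] at hz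
          rcases hz with rfl | hz
          · exact hx
          · exact hps z hz
      · set x' : ℤ × ℤ := (x.1, x.2 + τ) with hx'def
        have hmem : x' ∈ Lane f c0 w := by
          rw [mem_Lane, f_toR]
          refine le_trans (le_of_eq ?_) hm
          simp only [hx'def]; push_cast; ring_nf
        have hn1 : n1 (y - x') = n := by
          simp only [n1, Prod.fst_sub, Prod.snd_sub, hx'def]
          rcases hτ with rfl | rfl <;> omega
        obtain ⟨p, hp, hps⟩ := ih x' hn1 hmem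
        refine ⟨SimpleGraph.Walk.cons (adj_step2 x hτ) p, ?_, ?_⟩
        · rw [SimpleGraph.Walk.length_cons, hp, hn1, hn]
        · intro z hz
          rw [SimpleGraph.Walk.support_cons, List.mem_cons] at hz
          rcases hz with rfl | hz
          · exact hx
          · exact hps z hz
  exact key _ x rfl hx

lemma conn_Lane (h1 : |f (1, 0)| ≤ w / 2) (h2 : |f (0, 1)| ≤ w / 2) {x y : ℤ × ℤ}
    (hx : x ∈ Lane f c0 w) (hy : y ∈ Lane f c0 w) : Conn (Lane f c0 w) x y := by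
  obtain ⟨p, -, hp⟩ := exists_stair h1 h2 hx hy
  exact ⟨p, hp⟩

/-! ### Columns -/

/-- The ordinates of the lane on the column `c`. -/
noncomputable def colF (f : ℝ × ℝ →L[ℝ] ℝ) (c0 w : ℝ) (c : ℤ) : Finset ℤ :=
  Finset.Icc ⌈(c0 - c * f (1, 0)) / f (0, 1) - w / 2 / |f (0, 1)|⌉
    ⌊(c0 - c * f (1, 0)) / f (0, 1) + w / 2 / |f (0, 1)|⌋

lemma mem_colF (h0 : f (0, 1) ≠ 0) {c j : ℤ} : j ∈ colF f c0 w c ↔ (c, j) ∈ Lane f c0 w := by
  have hpos : 0 < |f (0, 1)| := abs_pos.2 h0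
  rw [colF, Finset.mem_Icc, Int.ceil_le, Int.le_floor, mem_Lane, f_toR]
  have e : (c : ℝ) * f (1, 0) + j * f (0, 1) - c0
      = f (0, 1) * (j - (c0 - c * f (1, 0)) / f (0, 1)) := by
    field_simp
    ring
  simp only
  rw [e, abs_mul, mul_comm |f (0, 1)| _, ← le_div_iff₀ hpos, abs_le]
  constructor
  · rintro ⟨h1, h2⟩; constructor <;> linarith
  · rintro ⟨h1, h2⟩; constructor <;> linarith

lemma card_colF_le (hw : 0 ≤ w) (c : ℤ) : ((colF f c0 w c).card : ℝ) ≤ w / |f (0, 1)| + 1 := by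
  rw [colF, Int.card_Icc]
  set A := (c0 - c * f (1, 0)) / f (0, 1) with hA
  set B := w / 2 / |f (0, 1)| with hB
  have hB0 : 0 ≤ B := by positivity
  have e : w / |f (0, 1)| = 2 * B := by rw [hB]; ring
  rw [e]
  have h1 : A - B ≤ ⌈A - B⌉ := Int.le_ceil _
  have h2 : (⌊A + B⌋ : ℝ) ≤ A + B := Int.floor_le _
  rcases le_total 0 (⌊A + B⌋ + 1 - ⌈A - B⌉) with h | h
  · have : ((⌊A + B⌋ + 1 - ⌈A - B⌉).toNat : ℝ) = (⌊A + B⌋ : ℝ) + 1 - ⌈A - B⌉ := by
      have : (((⌊A + B⌋ + 1 - ⌈A - B⌉).toNat : ℤ) : ℝ) = ((⌊A + B⌋ + 1 - ⌈A - B⌉ : ℤ) : ℝ) := by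
        rw [Int.toNat_of_nonneg h]
      push_cast at this
      exact_mod_cast this
    rw [this]; linarith
  · rw [Int.toNat_of_nonpos h]
    simp only [CharP.cast_eq_zero]; linarith

lemma exists_mem_col (h0 : f (0, 1) ≠ 0) (h2 : |f (0, 1)| ≤ w / 2) (c : ℤ) :
    ∃ j : ℤ, (c, j) ∈ Lane f c0 w := by
  refine ⟨round ((c0 - c * f (1, 0)) / f (0, 1)), ?_⟩
  rw [mem_Lane, f_toR]
  simp only
  set A := (c0 - c * f (1, 0)) / f (0, 1) with hA
  have e : (c : ℝ) * f (1, 0) + (round A : ℝ) * f (0, 1) - c0 = f (0, 1) * (round A - A) := by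
    rw [hA]
    field_simp
    ring
  rw [e, abs_mul]
  have := abs_sub_round A
  rw [abs_sub_comm] at this
  have hpos : 0 < |f (0, 1)| := abs_pos.2 h0
  nlinarith

/-- The total weight of the vertical edges above the points of the lane on the column `c`. -/
noncomputable def colSum (t : Environment) (f : ℝ × ℝ →L[ℝ] ℝ) (c0 w : ℝ) (c : ℤ) : ℝ :=
  ∑ j ∈ colF f c0 w c, t (eV c j)

variable {t : Environment}

lemma colSum_nonneg (ht : Nn t) (c : ℤ) : 0 ≤ colSum t f c0 w c :=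
  Finset.sum_nonneg fun _ _ => ht _

lemma pR_col_le_of_le (ht : Nn t) (h0 : f (0, 1) ≠ 0) {c i j : ℤ} (hij : i ≤ j)
    (hi : (c, i) ∈ Lane f c0 w) (hj : (c, j) ∈ Lane f c0 w) :
    pR t (Lane f c0 w) (c, i) (c, j) ≤ colSum t f c0 w c := by
  obtain ⟨n, rfl⟩ := Int.le.dest hij
  have hmem : ∀ k : ℕ, k ≤ n → (c, i + (k : ℤ)) ∈ Lane f c0 w := by
    intro k hk
    rw [← mem_colF h0] at hi hj ⊢
    rw [colF, Finset.mem_Icc] at hi hj ⊢
    constructor
    · linarith [hi.1, (by positivity : (0 : ℤ) ≤ k)]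
    · have : (k : ℤ) ≤ n := by exact_mod_cast hk
      linarith [hj.2]
  refine ((conn_col c i n hmem).2 t ht).trans ?_
  rw [colSum]
  have : ∑ k ∈ Finset.range n, t (eV c (i + k)) =
      ∑ j ∈ (Finset.range n).image (fun k : ℕ => i + (k : ℤ)), t (eV c j) := by
    rw [Finset.sum_image]
    intro a _ b _ hab
    simp only at hab
    omega
  rw [this]
  refine Finset.sum_le_sum_of_subset_of_nonneg ?_ fun _ _ _ => ht _
  intro j hj'
  rw [Finset.mem_image] at hj'
  obtain ⟨k, hk, rfl⟩ := hj'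
  rw [mem_colF h0]
  exact hmem k (Finset.mem_range.1 hk).le

lemma pR_col_le (ht : Nn t) (h0 : f (0, 1) ≠ 0) {p q : ℤ × ℤ} (hpq : p.1 = q.1)
    (hp : p ∈ Lane f c0 w) (hq : q ∈ Lane f c0 w) :
    pR t (Lane f c0 w) p q ≤ colSum t f c0 w p.1 := by
  obtain ⟨c, i⟩ := p
  obtain ⟨c', j⟩ := q
  simp only at hpq
  subst hpq
  rcases le_total i j with h | h
  · exact pR_col_le_of_le ht h0 h hp hq
  · rw [pR_symm ht]
    exact pR_col_le_of_le ht h0 h hq hp

/-- discrete intermediate values for the first coordinate along a walk -/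
lemma exists_mem_support_fst {x y : ℤ × ℤ} (g : squareLattice.Walk x y) {c : ℤ} (hx : x.1 ≤ c)
    (hy : c ≤ y.1) : ∃ z ∈ g.support, z.1 = c := by
  induction g with
  | nil => exact ⟨_, by simp, le_antisymm hx hy⟩
  | @cons u v w' h p ih =>
    rcases hx.lt_or_eq with hlt | heq
    · have hv : v.1 ≤ c := by
        obtain ⟨d, rfl⟩ := exists_dir h
        fin_cases d <;> simp [dir] at * <;> omega
      obtain ⟨z, hz, hzc⟩ := ih hv hy
      exact ⟨z, by rw [SimpleGraph.Walk.support_cons]; exact List.mem_cons_of_mem _ hz, hzc⟩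
    · exact ⟨u, by simp, heq⟩

/-- splitting at a column -/
theorem pR_split (ht : Nn t) (h0 : f (0, 1) ≠ 0) (h1 : |f (1, 0)| ≤ w / 2)
    (h2 : |f (0, 1)| ≤ w / 2) {x y p : ℤ × ℤ} (hx : x ∈ Lane f c0 w) (hy : y ∈ Lane f c0 w)
    (hp : p ∈ Lane f c0 w) (hxp : x.1 ≤ p.1) (hpy : p.1 ≤ y.1) :
    pR t (Lane f c0 w) x p + pR t (Lane f c0 w) p y - 2 * colSum t f c0 w p.1
      ≤ pR t (Lane f c0 w) x y := by
  refine le_pR (conn_Lane h1 h2 hx hy) fun g hg => ?_
  obtain ⟨z, hz, hzc⟩ := exists_mem_support_fst g hxp hpy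
  have hzL := hg z hz
  have hcost : walkCost t (g.takeUntil z hz) + walkCost t (g.dropUntil z hz) = walkCost t g := by
    rw [← walkCost_append, SimpleGraph.Walk.take_spec]
  have ha : pR t (Lane f c0 w) x z ≤ walkCost t (g.takeUntil z hz) :=
    pR_le ht _ fun u hu => hg u (SimpleGraph.Walk.support_takeUntil_subset_support g hz hu)
  have hb : pR t (Lane f c0 w) z y ≤ walkCost t (g.dropUntil z hz) :=
    pR_le ht _ fun u hu => hg u (SimpleGraph.Walk.support_dropUntil_subset_support g hz hu)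
  have hc1 : pR t (Lane f c0 w) z p ≤ colSum t f c0 w p.1 := by
    have := pR_col_le ht h0 (p := p) (q := z) hzc.symm hp hzL
    rwa [pR_symm ht] at this
  have hc2 : pR t (Lane f c0 w) p z ≤ colSum t f c0 w p.1 :=
    pR_col_le ht h0 (p := p) (q := z) hzc.symm hp hzL
  have h3 := pR_triangle ht (conn_Lane h1 h2 hx hzL) (conn_Lane h1 h2 hzL hp)
  have h4 := pR_triangle ht (conn_Lane h1 h2 hp hzL) (conn_Lane h1 h2 hzL hy)
  linarith

end Crest.Agent.R151.G338
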