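import Crest.Agent.R151.G338a
import Crest.Agent.R151.G338c
import Crest.Agent.R151.K6

/-!
# R151 (S0214 part 2), module C2: lower bound for the mean excess of a lane (helper338)

`lane_lower`: for Gamma weights, `E T_L(x,y) ≥ μ(y - x) + (c / w^2) n1(y - x) - C w` for every lane
`L` of width `w ≥ w0`.
-/

set_option autoImplicit false

open MeasureTheory Filter ProbabilityTheory
open Crest.ProbabilityR.FirstPassage

namespace Crest.Agent.R151.G338

open Crest.Agent.R151.K

section mean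

variable {G : Measure ℝ} [IsProbabilityMeasure G]

lemma integrable_edge (h2 : Integrable (fun x : ℝ => x ^ 2) G) (e : Sym2 (ℤ × ℤ)) :
    Integrable (fun t : Environment => t e) (iidLaw G) :=
  (mp_eval (G := G) e).integrable_comp_of_integrable (g := fun x : ℝ => x)
    (integrable_id_of_sq h2)

lemma integral_edge (e : Sym2 (ℤ × ℤ)) :
    ∫ t : Environment, t e ∂(iidLaw G) = ∫ z, z ∂G := by
  have h := integral_map (μ := iidLaw G) (φ := fun t : Environment => t e)
    (mp_eval (G := G) e).measurable.aemeasurable (f := fun x : ℝ => x)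
    (by fun_prop)
  rw [(mp_eval (G := G) e).map_eq] at h
  exact h.symm

lemma integral_list (h2 : Integrable (fun x : ℝ => x ^ 2) G) (l : List (Sym2 (ℤ × ℤ))) :
    Integrable (fun t : Environment => (l.map t).sum) (iidLaw G) ∧
      ∫ t : Environment, (l.map t).sum ∂(iidLaw G) = l.length * ∫ z, z ∂G := by
  induction l with
  | nil => simp
  | cons e l ih =>
    obtain ⟨ih1, ih2⟩ := ih
    simp only [List.map_cons, List.sum_cons, List.length_cons]
    refine ⟨(integrable_edge h2 e).add ih1, ?_⟩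
    rw [integral_add (integrable_edge h2 e) ih1, ih2, integral_edge]
    push_cast
    ring

variable {f : ℝ × ℝ →L[ℝ] ℝ} {c0 w : ℝ}

/-- restricted passage times of a lane are integrable, mean at most linear -/
theorem integrable_Lane (h0 : G (Set.Iio 0) = 0) (h2 : Integrable (fun x : ℝ => x ^ 2) G)
    (hf1 : |f (1, 0)| ≤ w / 2) (hf2 : |f (0, 1)| ≤ w / 2) {x y : ℤ × ℤ}
    (hx : x ∈ Lane f c0 w) (hy : y ∈ Lane f c0 w) :
    Integrable (fun t => pR t (Lane f c0 w) x y) (iidLaw G) ∧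
      ∫ t, pR t (Lane f c0 w) x y ∂(iidLaw G) ≤ n1 (y - x) * ∫ z, z ∂G := by
  obtain ⟨p, hp, hps⟩ := exists_stair hf1 hf2 hx hy
  obtain ⟨i1, i2⟩ := integral_list h2 p.edges
  have hle : ∀ᵐ t ∂(iidLaw G), pR t (Lane f c0 w) x y ≤ (p.edges.map t).sum := by
    filter_upwards [ae_Nn h0] with t ht
    exact pR_le ht p hps
  have hnn : ∀ᵐ t ∂(iidLaw G), 0 ≤ pR t (Lane f c0 w) x y := by
    filter_upwards [ae_Nn h0] with t ht
    exact pR_nonneg ht _ _ _
  have hint : Integrable (fun t => pR t (Lane f c0 w) x y) (iidLaw G) := by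
    refine i1.mono' (measurable_pR _ _ _).aestronglyMeasurable ?_
    filter_upwards [hle, hnn] with t h1 h3
    rw [Real.norm_eq_abs, abs_of_nonneg h3]
    exact h1
  refine ⟨hint, ?_⟩
  calc _ ≤ ∫ t : Environment, (p.edges.map t).sum ∂(iidLaw G) := integral_mono_ae hint i1 hle
    _ = _ := by rw [i2, SimpleGraph.Walk.length_edges, hp]

lemma integral_id_nonneg (h0 : G (Set.Iio 0) = 0) : 0 ≤ ∫ z, z ∂G :=
  integral_nonneg_of_ae (ae_nonneg h0)

lemma integrable_colSum (h2 : Integrable (fun x : ℝ => x ^ 2) G) (c : ℤ) :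
    Integrable (fun t => colSum t f c0 w c) (iidLaw G) := by
  unfold colSum
  exact integrable_finsetSum _ fun j _ => integrable_edge h2 _

lemma integral_colSum_le (h0 : G (Set.Iio 0) = 0) (h2 : Integrable (fun x : ℝ => x ^ 2) G)
    (hw : 0 ≤ w) (c : ℤ) :
    ∫ t, colSum t f c0 w c ∂(iidLaw G) ≤ (w / |f (0, 1)| + 1) * ∫ z, z ∂G := by
  unfold colSum
  rw [integral_finsetSum _ fun j _ => integrable_edge h2 _]
  simp only [integral_edge, Finset.sum_const, nsmul_eq_mul]
  exact mul_le_mul_of_nonneg_right (card_colF_le hw c) (integral_id_nonneg h0)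

/-- mean excess (over the time constant) of a lane -/
noncomputable def laneExc (G : Measure ℝ) (μ : ℝ × ℝ → ℝ) (f : ℝ × ℝ →L[ℝ] ℝ) (c0 w : ℝ)
    (x y : ℤ × ℤ) : ℝ :=
  ∫ t, pR t (Lane f c0 w) x y ∂(iidLaw G) - μ (toR (y - x))

variable {μ : ℝ × ℝ → ℝ}

lemma integral_pt_ge (h0 : G (Set.Iio 0) = 0) (h2 : Integrable (fun x : ℝ => x ^ 2) G)
    (hμ : IsTC G μ) (x y : ℤ × ℤ) :
    μ (toR (y - x)) ≤ ∫ t, passageTime t x y ∂(iidLaw G) := by
  rw [integral_pt]
  exact mu_le_ET h0 h2 hμ _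

lemma laneExc_nonneg (h0 : G (Set.Iio 0) = 0) (h2 : Integrable (fun x : ℝ => x ^ 2) G)
    (hμ : IsTC G μ) (hf1 : |f (1, 0)| ≤ w / 2) (hf2 : |f (0, 1)| ≤ w / 2) {x y : ℤ × ℤ}
    (hx : x ∈ Lane f c0 w) (hy : y ∈ Lane f c0 w) : 0 ≤ laneExc G μ f c0 w x y := by
  have h3 : ∫ t, passageTime t x y ∂(iidLaw G) ≤ ∫ t, pR t (Lane f c0 w) x y ∂(iidLaw G) := by
    refine integral_mono_ae (integrable_pt h0 h2 x y) (integrable_Lane h0 h2 hf1 hf2 hx hy).1 ?_
    filter_upwards [ae_Nn h0] with t ht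
    exact pt_le_pR ht (conn_Lane hf1 hf2 hx hy)
  have := integral_pt_ge h0 h2 hμ x y
  unfold laneExc
  linarith

lemma laneExc_symm (h0 : G (Set.Iio 0) = 0) (h2 : Integrable (fun x : ℝ => x ^ 2) G)
    (hμ : IsTC G μ) (x y : ℤ × ℤ) : laneExc G μ f c0 w x y = laneExc G μ f c0 w y x := by
  unfold laneExc
  congr 1
  · apply integral_congr_ae
    filter_upwards [ae_Nn h0] with t ht
    exact pR_symm ht _ _ _
  · have : toR (y - x) = - toR (x - y) := by
      simp [toR]
    rw [this, mu_neg h0 h2 hμ]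

/-- superadditivity at a column, up to `2 E (column sum)` -/
lemma laneExc_split (h0 : G (Set.Iio 0) = 0) (h2 : Integrable (fun x : ℝ => x ^ 2) G)
    (hμ : IsTC G μ) (hf : f (0, 1) ≠ 0) (hw : 0 ≤ w)
    (hf1 : |f (1, 0)| ≤ w / 2) (hf2 : |f (0, 1)| ≤ w / 2) {x y p : ℤ × ℤ}
    (hx : x ∈ Lane f c0 w) (hy : y ∈ Lane f c0 w) (hp : p ∈ Lane f c0 w)
    (hxp : x.1 ≤ p.1) (hpy : p.1 ≤ y.1) :
    laneExc G μ f c0 w x p + laneExc G μ f c0 w p y
      - 2 * ((w / |f (0, 1)| + 1) * ∫ z, z ∂G) ≤ laneExc G μ f c0 w x y := by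
  have i1 := (integrable_Lane h0 h2 hf1 hf2 hx hp).1
  have i2 := (integrable_Lane h0 h2 hf1 hf2 hp hy).1
  have i3 := (integrable_Lane h0 h2 hf1 hf2 hx hy).1
  have i4 : Integrable (fun t => colSum t f c0 w p.1) (iidLaw G) := integrable_colSum h2 p.1
  have h4 := integral_colSum_le (f := f) (c0 := c0) h0 h2 hw p.1
  have hmono : ∫ t, (pR t (Lane f c0 w) x p + pR t (Lane f c0 w) p y
      - 2 * colSum t f c0 w p.1) ∂(iidLaw G) ≤ ∫ t, pR t (Lane f c0 w) x y ∂(iidLaw G) := by
    refine integral_mono_ae ((i1.add i2).sub (i4.const_mul 2)) i3 ?_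
    filter_upwards [ae_Nn h0] with t ht
    exact pR_split ht hf hf1 hf2 hx hy hp hxp hpy
  have e : ∫ t, (pR t (Lane f c0 w) x p + pR t (Lane f c0 w) p y
      - 2 * colSum t f c0 w p.1) ∂(iidLaw G) = ∫ t, pR t (Lane f c0 w) x p ∂(iidLaw G) +
      ∫ t, pR t (Lane f c0 w) p y ∂(iidLaw G) - 2 * ∫ t, colSum t f c0 w p.1 ∂(iidLaw G) := by
    rw [integral_sub (f := fun t => pR t (Lane f c0 w) x p + pR t (Lane f c0 w) p y)
      (i1.add i2) (i4.const_mul 2), integral_add i1 i2, integral_const_mul]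
  have hμa : μ (toR (y - x)) ≤ μ (toR (p - x)) + μ (toR (y - p)) := by
    have : toR (y - x) = toR (p - x) + toR (y - p) := by
      simp [toR]
    rw [this]
    exact mu_add_le h0 h2 hμ _ _
  unfold laneExc
  rw [e] at hmono
  linarith

/-! ### two parallel lanes -/

lemma Lane_translate (v z : ℤ × ℤ) :
    z + v ∈ Lane f (c0 + f (toR v)) w ↔ z ∈ Lane f c0 w := by
  rw [mem_Lane, mem_Lane, toR_add, map_add]
  ring_nf

lemma preimage_Lane (v : ℤ × ℤ) :
    (fun u => u + v) ⁻¹' Lane f (c0 + f (toR v)) w = Lane f c0 w := by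
  ext z
  exact Lane_translate v z

lemma pR_translate (t : Environment) (v x y : ℤ × ℤ) :
    pR (act (tr v) t) (Lane f c0 w) x y = pR t (Lane f (c0 + f (toR v)) w) (x + v) (y + v) := by
  have := pR_tr t v (Lane f (c0 + f (toR v)) w) x y
  rw [preimage_Lane] at this
  exact this

lemma dependsOn_pR (R : Set (ℤ × ℤ)) (x y : ℤ × ℤ) :
    DependsOn (fun t : Environment => pR t R x y) (edgesIn R) := by
  intro t t' h
  refine pR_congr (fun a ha b hb => ?_) x y
  exact h _ (mem_edgesIn.2 ⟨ha, hb⟩)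

lemma edgesIn_disjoint {R R' : Set (ℤ × ℤ)} (h : Disjoint R R') :
    Disjoint (edgesIn R) (edgesIn R') := by
  rw [Set.disjoint_left] at h ⊢
  intro e he he'
  induction e with
  | _ a b => exact h (he a (Sym2.mem_mk_left a b)) (he' a (Sym2.mem_mk_left a b))

lemma indepFun_pR {R R' : Set (ℤ × ℤ)} (h : Disjoint R R') (x y x' y' : ℤ × ℤ) :
    IndepFun (fun t : Environment => pR t R x y) (fun t : Environment => pR t R' x' y')
      (iidLaw G) :=
  Crest.Agent.R151.A.indepFun_of_dependsOn G (measurable_pR _ _ _) (measurable_pR _ _ _)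
    (dependsOn_pR R x y) (dependsOn_pR R' x' y') (edgesIn_disjoint h)

lemma Lane_disjoint {v : ℤ × ℤ} (hv : w < |f (toR v)|) :
    Disjoint (Lane f c0 w) (Lane f (c0 + f (toR v)) w) := by
  rw [Set.disjoint_left]
  intro z hz hz'
  rw [mem_Lane] at hz hz'
  have : |f (toR v)| ≤ |f (toR z) - c0| + |f (toR z) - (c0 + f (toR v))| := by
    have h := abs_sub (f (toR z) - c0) (f (toR z) - (c0 + f (toR v)))
    have e : f (toR z) - c0 - (f (toR z) - (c0 + f (toR v))) = f (toR v) := by ring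
    rwa [e] at h
  linarith

/-- mean absolute deviation of the passage time of a lane is controlled by its mean excess:
compare with a parallel disjoint lane. -/
theorem mad_le (h0 : G (Set.Iio 0) = 0) (h2 : Integrable (fun x : ℝ => x ^ 2) G)
    (hμ : IsTC G μ) (hf1 : |f (1, 0)| ≤ w / 2) (hf2 : |f (0, 1)| ≤ w / 2) {x y v : ℤ × ℤ}
    (hx : x ∈ Lane f c0 w) (hy : y ∈ Lane f c0 w) (hv : w < |f (toR v)|) :
    ∫ t, |pR t (Lane f c0 w) x y - ∫ t', pR t' (Lane f c0 w) x y ∂(iidLaw G)| ∂(iidLaw G)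
      ≤ 2 * laneExc G μ f c0 w x y + 4 * (n1 v * ∫ z, z ∂G) := by
  set L := Lane f c0 w with hL
  set L' := Lane f (c0 + f (toR v)) w with hL'
  have hx' : x + v ∈ L' := (Lane_translate v x).2 hx
  have hy' : y + v ∈ L' := (Lane_translate v y).2 hy
  have i1 := (integrable_Lane h0 h2 hf1 hf2 hx hy).1
  have i2 := (integrable_Lane h0 h2 hf1 hf2 hx' hy').1
  rw [← hL] at i1
  rw [← hL'] at i2
  have e2 : ∫ t, pR t L' (x + v) (y + v) ∂(iidLaw G) = ∫ t, pR t L x y ∂(iidLaw G) := by
    have : (fun t => pR t L' (x + v) (y + v)) = fun t => pR (act (tr v) t) L x y := by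
      funext t
      rw [hL, hL', pR_translate]
    rw [this]
    exact integral_pt_iso (G := G) (tr v) (fun t => pR t L x y)
      (measurable_pR _ _ _).aestronglyMeasurable
  have hind := indepFun_pR (G := G) (Lane_disjoint (c0 := c0) hv) x y (x + v) (y + v)
  rw [← hL, ← hL'] at hind
  have hstep := integral_abs_sub_integral_le (μ := iidLaw G) (measurable_pR L x y)
    (measurable_pR L' (x + v) (y + v)) i1 i2 hind
  rw [e2] at hstep
  refine hstep.trans ?_
  -- pointwise
  have ip := integrable_pt h0 h2 x y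
  have ia := integrable_pt h0 h2 x (x + v)
  have ib := integrable_pt h0 h2 (y + v) y
  have hpt : ∀ᵐ t ∂(iidLaw G), |pR t L x y - pR t L' (x + v) (y + v)| ≤
      pR t L x y + pR t L' (x + v) (y + v) - 2 * passageTime t x y
        + 2 * passageTime t x (x + v) + 2 * passageTime t (y + v) y := by
    filter_upwards [ae_Nn h0] with t ht
    have a1 : passageTime t x y ≤ pR t L x y := pt_le_pR ht (conn_Lane hf1 hf2 hx hy)
    have a2 : passageTime t (x + v) (y + v) ≤ pR t L' (x + v) (y + v) :=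
      pt_le_pR ht (conn_Lane hf1 hf2 hx' hy')
    have a3 := pt_triangle ht x (x + v) y
    have a4 := pt_triangle ht (x + v) (y + v) y
    have a5 := pt_nonneg ht x (x + v)
    have a6 := pt_nonneg ht (y + v) y
    rw [abs_le]
    constructor <;> linarith
  have iR : Integrable (fun t => pR t L x y + pR t L' (x + v) (y + v) - 2 * passageTime t x y
        + 2 * passageTime t x (x + v) + 2 * passageTime t (y + v) y) (iidLaw G) :=
    ((((i1.add i2).sub (ip.const_mul 2)).add (ia.const_mul 2)).add (ib.const_mul 2))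
  have hI := integral_mono_ae ((i1.sub i2).abs) iR hpt
  refine hI.trans ?_
  have eI : ∫ t, (pR t L x y + pR t L' (x + v) (y + v) - 2 * passageTime t x y
        + 2 * passageTime t x (x + v) + 2 * passageTime t (y + v) y) ∂(iidLaw G) =
      ∫ t, pR t L x y ∂(iidLaw G) + ∫ t, pR t L x y ∂(iidLaw G)
        - 2 * ∫ t, passageTime t x y ∂(iidLaw G) + 2 * ∫ t, passageTime t x (x + v) ∂(iidLaw G)
        + 2 * ∫ t, passageTime t (y + v) y ∂(iidLaw G) := by
    rw [integral_add (f := fun t => pR t L x y + pR t L' (x + v) (y + v)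
        - 2 * passageTime t x y + 2 * passageTime t x (x + v))
      (((i1.add i2).sub (ip.const_mul 2)).add (ia.const_mul 2)) (ib.const_mul 2),
      integral_add (f := fun t => pR t L x y + pR t L' (x + v) (y + v)
        - 2 * passageTime t x y) ((i1.add i2).sub (ip.const_mul 2)) (ia.const_mul 2),
      integral_sub (f := fun t => pR t L x y + pR t L' (x + v) (y + v)) (i1.add i2)
        (ip.const_mul 2), integral_add i1 i2, integral_const_mul, integral_const_mul,
      integral_const_mul, e2]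
  rw [eI]
  have hlow := integral_pt_ge h0 h2 hμ x y
  have b1 := integral_pt_le h0 h2 x (x + v)
  have b2 := integral_pt_le h0 h2 (y + v) y
  have n1a : n1 (x + v - x) = n1 v := by congr 1; abel
  have n1b : n1 (y - (y + v)) = n1 v := by
    rw [← n1_neg v]; congr 1; abel
  rw [n1a] at b1
  rw [n1b] at b2
  unfold laneExc
  rw [← hL]
  linarith

end mean

end Crest.Agent.R151.G338
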