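import Crest.Agent.R151.G338d

/-!
# R151 (S0214 part 2), module C2: anticoncentration by scaling, and the lower bound (helper338)
-/

set_option autoImplicit false

open MeasureTheory Filter ProbabilityTheory
open Crest.ProbabilityR.FirstPassage

namespace Crest.Agent.R151.G338

open Crest.Agent.R151.K

section det

variable {f : ℝ × ℝ →L[ℝ] ℝ} {c0 w : ℝ}

/-- the vertices of the lane at horizontal distance at most `N` from `x` -/
noncomputable def laneV (f : ℝ × ℝ →L[ℝ] ℝ) (c0 w : ℝ) (x : ℤ × ℤ) (N : ℕ) : Finset (ℤ × ℤ) :=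
  (Finset.Icc (x.1 - N) (x.1 + N)).biUnion fun c =>
    (colF f c0 w c).image fun j => ((c, j) : ℤ × ℤ)

lemma mem_laneV (h0 : f (0, 1) ≠ 0) {x z : ℤ × ℤ} {N : ℕ} :
    z ∈ laneV f c0 w x N ↔ z ∈ Lane f c0 w ∧ |z.1 - x.1| ≤ N := by
  obtain ⟨a, b⟩ := z
  rw [laneV, Finset.mem_biUnion]
  constructor
  · rintro ⟨c, hc, hz⟩
    rw [Finset.mem_image] at hz
    obtain ⟨j, hj, hcj⟩ := hz
    rw [Prod.mk.injEq] at hcj
    obtain ⟨rfl, rfl⟩ := hcj
    rw [Finset.mem_Icc] at hc
    refine ⟨(mem_colF h0).1 hj, ?_⟩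
    rw [abs_le]
    simp only
    constructor <;> omega
  · rintro ⟨h1, h2⟩
    rw [abs_le] at h2
    simp only at h2
    refine ⟨a, Finset.mem_Icc.2 ⟨by omega, by omega⟩, ?_⟩
    exact Finset.mem_image.2 ⟨b, (mem_colF h0).2 h1, rfl⟩

lemma card_laneV_le (hw : 0 ≤ w) (x : ℤ × ℤ) (N : ℕ) :
    ((laneV f c0 w x N).card : ℝ) ≤ (2 * N + 1) * (w / |f (0, 1)| + 1) := by
  have h1 : (laneV f c0 w x N).card ≤
      ∑ c ∈ Finset.Icc (x.1 - (N : ℤ)) (x.1 + N), (colF f c0 w c).card := by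
    refine Finset.card_biUnion_le.trans (Finset.sum_le_sum fun c _ => Finset.card_image_le)
  calc ((laneV f c0 w x N).card : ℝ)
      ≤ ((∑ c ∈ Finset.Icc (x.1 - (N : ℤ)) (x.1 + N), (colF f c0 w c).card : ℕ) : ℝ) := by
        exact_mod_cast h1
    _ = ∑ c ∈ Finset.Icc (x.1 - (N : ℤ)) (x.1 + N), ((colF f c0 w c).card : ℝ) := by
        push_cast; rfl
    _ ≤ ∑ c ∈ Finset.Icc (x.1 - (N : ℤ)) (x.1 + N), (w / |f (0, 1)| + 1) :=
        Finset.sum_le_sum fun c _ => card_colF_le hw c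
    _ = (2 * N + 1) * (w / |f (0, 1)| + 1) := by
        rw [Finset.sum_const, Int.card_Icc, nsmul_eq_mul]
        congr 1
        have : (x.1 + (N : ℤ) + 1 - (x.1 - N)).toNat = 2 * N + 1 := by omega
        rw [this]; push_cast; ring

/-- the lattice edges at the vertices of `laneV` -/
noncomputable def laneE (f : ℝ × ℝ →L[ℝ] ℝ) (c0 w : ℝ) (x : ℤ × ℤ) (N : ℕ) :
    Finset (Sym2 (ℤ × ℤ)) :=
  (laneV f c0 w x N).image (fun z => eH z.1 z.2) ∪ (laneV f c0 w x N).image (fun z => eV z.1 z.2)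

lemma card_laneE_le (hw : 0 ≤ w) (x : ℤ × ℤ) (N : ℕ) :
    ((laneE f c0 w x N).card : ℝ) ≤ 2 * ((2 * N + 1) * (w / |f (0, 1)| + 1)) := by
  have h1 : (laneE f c0 w x N).card ≤ (laneV f c0 w x N).card + (laneV f c0 w x N).card :=
    (Finset.card_union_le _ _).trans (add_le_add Finset.card_image_le Finset.card_image_le)
  have h2 := card_laneV_le (f := f) (c0 := c0) hw x N
  have h3 : ((laneE f c0 w x N).card : ℝ) ≤
      ((laneV f c0 w x N).card : ℝ) + ((laneV f c0 w x N).card : ℝ) := by exact_mod_cast h1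
  linarith

lemma mem_laneE (h0 : f (0, 1) ≠ 0) {x u v : ℤ × ℤ} {N : ℕ} (h : squareLattice.Adj u v)
    (hu : u ∈ Lane f c0 w) (hv : v ∈ Lane f c0 w) (hu' : |u.1 - x.1| ≤ N)
    (hv' : |v.1 - x.1| ≤ N) : s(u, v) ∈ laneE f c0 w x N := by
  have hu2 := (mem_laneV (x := x) (N := N) h0).2 ⟨hu, hu'⟩
  have hv2 := (mem_laneV (x := x) (N := N) h0).2 ⟨hv, hv'⟩
  obtain ⟨a, b⟩ := u
  obtain ⟨c, d⟩ := v
  rw [squareLattice, SimpleGraph.fromRel_adj] at h
  obtain ⟨-, h⟩ := h
  simp only at h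
  rw [laneE, Finset.mem_union, Finset.mem_image, Finset.mem_image]
  rcases h with (⟨h1, h2⟩ | ⟨h1, h2⟩) | (⟨h1, h2⟩ | ⟨h1, h2⟩)
  · subst h1; subst h2
    exact Or.inr ⟨_, hu2, rfl⟩
  · subst h1; subst h2
    exact Or.inl ⟨_, hu2, rfl⟩
  · subst h1; subst h2
    exact Or.inr ⟨_, hv2, by simp only [eV]; rw [Sym2.eq_swap]⟩
  · subst h1; subst h2
    exact Or.inl ⟨_, hv2, by simp only [eH]; rw [Sym2.eq_swap]⟩

/-- scaling of the weights in `s` by `1 + lam` -/
noncomputable def scl (s : Finset (Sym2 (ℤ × ℤ))) (lam : ℝ) (e : Sym2 (ℤ × ℤ)) : ℝ :=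
  open scoped Classical in if e ∈ s then 1 + lam else 1

lemma scl_ge_one {s : Finset (Sym2 (ℤ × ℤ))} {lam : ℝ} (h : 0 ≤ lam) (e : Sym2 (ℤ × ℤ)) :
    1 ≤ scl s lam e := by
  unfold scl
  split_ifs <;> linarith

lemma walkCost_mono {t t' : Environment} (h : ∀ e, t e ≤ t' e) {x y : ℤ × ℤ}
    (g : squareLattice.Walk x y) : walkCost t g ≤ walkCost t' g := by
  unfold walkCost
  exact List.sum_le_sum fun e _ => h e

lemma walkCost_scl {s : Finset (Sym2 (ℤ × ℤ))} {lam : ℝ} {t : Environment} {x y : ℤ × ℤ}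
    (g : squareLattice.Walk x y) (h : ∀ e ∈ g.edges, e ∈ s) :
    walkCost (fun e => scl s lam e * t e) g = (1 + lam) * walkCost t g := by
  unfold walkCost
  rw [← List.sum_map_mul_left]
  congr 1
  apply List.map_congr_left
  intro e he
  simp [scl, h e he]

lemma adj_of_mem_edges {x y u v : ℤ × ℤ} (g : squareLattice.Walk x y) (h : s(u, v) ∈ g.edges) :
    squareLattice.Adj u v := g.adj_of_mem_edges h

/-- If the scaled passage time of the lane is at most `m`, the original one is at most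
`m / (1 + lam)`, outside of the bad event. -/
theorem pR_le_of_scaled {t : Environment} (ht : Nn t) (h0 : f (0, 1) ≠ 0)
    (hf1 : |f (1, 0)| ≤ w / 2) (hf2 : |f (0, 1)| ≤ w / 2) {x y : ℤ × ℤ} {N : ℕ} {c m lam : ℝ}
    (hx : x ∈ Lane f c0 w) (hy : y ∈ Lane f c0 w) (hlam : 0 < lam) (hb : t ∉ Bad c N x)
    (hm : m < c * N)
    (hs : pR (fun e => scl (laneE f c0 w x N) lam e * t e) (Lane f c0 w) x y ≤ m) :
    pR t (Lane f c0 w) x y ≤ m / (1 + lam) := by
  set s := laneE f c0 w x N with hsdef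
  set t' : Environment := fun e => scl s lam e * t e with ht'def
  have hle : ∀ e, t e ≤ t' e := fun e => by
    have h1 := scl_ge_one (s := s) hlam.le e
    have h2 := ht e
    simp only [ht'def]
    nlinarith
  have ht' : Nn t' := fun e => (ht e).trans (hle e)
  have hconn := conn_Lane hf1 hf2 hx hy
  rw [le_div_iff₀ (by linarith)]
  apply le_of_forall_pos_le_add
  intro δ hδ
  set δ' := min δ ((c * N - m) / 2) with hδ'
  have hδ'pos : 0 < δ' := lt_min hδ (by linarith)
  have hδ'2 : δ' ≤ (c * N - m) / 2 := min_le_right _ _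
  obtain ⟨g0, hg0, hg0c⟩ := exists_walk_lt_pR hconn
    (show pR t' (Lane f c0 w) x y < m + δ' by linarith)
  set g := g0.bypass with hg
  have hgL : ∀ z ∈ g.support, z ∈ Lane f c0 w := fun z hz =>
    hg0 z (SimpleGraph.Walk.support_bypass_subset_support g0 hz)
  have hgc : walkCost t' g < m + δ' := lt_of_le_of_lt (walkCost_bypass_le ht' g0) hg0c
  have hgt : walkCost t g ≤ walkCost t' g := walkCost_mono hle g
  have hin : ∀ z ∈ g.support, |z.1 - x.1| ≤ N := by
    intro z hz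
    by_contra hcon
    rw [not_le] at hcon
    have hlen : N ≤ g.length := by
      have a1 := n1_le_length (g.takeUntil z hz)
      have a2 := SimpleGraph.Walk.length_takeUntil_le_length g hz
      have a3 : (N : ℤ) < ((z.1 - x.1).natAbs : ℤ) := by
        rw [Int.natCast_natAbs]; exact hcon
      have a4 : (z.1 - x.1).natAbs ≤ n1 (z - x) := by
        simp [n1]
      omega
    have := cost_ge_of_not_Bad ht hb g (g0.bypass_isPath.isTrail.edges_nodup) hlen
    linarith
  have hedge : ∀ e ∈ g.edges, e ∈ s := by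
    intro e he
    induction e with
    | _ u v =>
      have hadj := adj_of_mem_edges g he
      have hu := SimpleGraph.Walk.fst_mem_support_of_mem_edges g he
      have hv := SimpleGraph.Walk.snd_mem_support_of_mem_edges g he
      exact mem_laneE h0 hadj (hgL u hu) (hgL v hv) (hin u hu) (hin v hv)
  have heq := walkCost_scl (lam := lam) (t := t) g hedge
  have h1 := pR_le ht g hgL
  have h2 : δ' ≤ δ := min_le_left _ _
  nlinarith [h1, heq, hgc]

end det

section gamma

variable {κ r : ℝ} {f : ℝ × ℝ →L[ℝ] ℝ} {c0 w : ℝ}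

/-- anticoncentration of lane passage times by scaling -/
theorem mad_ge (hκ : 0 < κ) (hr : 0 < r) (h0 : f (0, 1) ≠ 0)
    (hf1 : |f (1, 0)| ≤ w / 2) (hf2 : |f (0, 1)| ≤ w / 2) {x y : ℤ × ℤ} {N : ℕ} {c lam : ℝ}
    (hx : x ∈ Lane f c0 w) (hy : y ∈ Lane f c0 w) (hlam : 0 < lam) (hlam1 : lam < 1 / 2)
    (hN : (iidLaw (gammaMeasure κ r)).real (Bad c N x) ≤ 1 / 8)
    (hK : 2 * κ * ((laneE f c0 w x N).card * lam ^ 2) ≤ 1 / 32)
    (hm : 5 / 4 * ∫ t, pR t (Lane f c0 w) x y ∂(iidLaw (gammaMeasure κ r)) < c * N)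
    (hpos : 0 < ∫ t, pR t (Lane f c0 w) x y ∂(iidLaw (gammaMeasure κ r))) :
    lam / 32 * ∫ t, pR t (Lane f c0 w) x y ∂(iidLaw (gammaMeasure κ r)) ≤
      ∫ t, |pR t (Lane f c0 w) x y - ∫ t', pR t' (Lane f c0 w) x y
        ∂(iidLaw (gammaMeasure κ r))| ∂(iidLaw (gammaMeasure κ r)) := by
  have hγ := isProbabilityMeasure_gammaMeasure hκ hr
  have hG0 := gamma_Iio κ r
  have hG2 := integrable_sq hG0 (half_pos hr) (gamma_exp hκ hr)
  set P := iidLaw (gammaMeasure κ r) with hP
  set X : Environment → ℝ := fun t => pR t (Lane f c0 w) x y with hX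
  have hXm : Measurable X := measurable_pR _ _ _
  have hXi : Integrable X P := (integrable_Lane hG0 hG2 hf1 hf2 hx hy).1
  set a := ∫ t, X t ∂P with ha
  set δ := ∫ t, |X t - a| ∂P with hδ
  change lam / 32 * a ≤ δ
  by_contra hcon
  rw [not_le] at hcon
  have hδ0 : 0 ≤ δ := integral_nonneg fun _ => abs_nonneg _
  set m := a + 8 * δ with hmdef
  have hma : m < c * N := by
    have : 8 * δ ≤ a / 4 := by nlinarith
    have h5 : 5 / 4 * a < c * N := hm
    linarith
  -- Markov
  have hi : Integrable (fun t => |X t - a|) P := (hXi.sub (integrable_const a)).abs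
  have hmark : ∀ e : ℝ, 0 < e → 8 * δ ≤ e → P.real {t | e < |X t - a|} ≤ 1 / 8 := by
    intro e he hee
    have h3 := mul_meas_ge_le_integral_of_nonneg (μ := P) (f := fun t => |X t - a|)
      (Filter.Eventually.of_forall fun t => abs_nonneg _) hi e
    have h4 : P.real {t | e < |X t - a|} ≤ P.real {t | e ≤ |X t - a|} :=
      measureReal_mono fun t (ht : e < |X t - a|) => (le_of_lt ht : e ≤ |X t - a|)
    have h5 : e * P.real {t | e ≤ |X t - a|} ≤ δ := h3
    have h6 : e * P.real {t | e ≤ |X t - a|} ≤ e * (1 / 8) := by linarith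
    have h7 := le_of_mul_le_mul_left h6 he
    linarith
  -- choose e slightly larger than 8 δ
  set e := lam * a / 4 with hedef
  have he0 : 0 < e := by positivity
  have he8 : 8 * δ ≤ e := by rw [hedef]; nlinarith
  have hB := hmark e he0 he8
  -- P (X ≤ a + e) ≥ 7/8
  have hma' : a + e < c * N := by
    have : e ≤ a / 8 := by rw [hedef]; nlinarith
    have h5 : 5 / 4 * a < c * N := hm
    linarith
  set A : Set Environment := {t | X t ≤ a + e} with hA
  have hAm : MeasurableSet A := measurableSet_le hXm measurable_const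
  have hPA : 7 / 8 ≤ P.real A := by
    have h1 : P.real Aᶜ ≤ 1 / 8 := by
      refine le_trans (measureReal_mono ?_) hB
      intro t ht
      simp only [hA, Set.mem_compl_iff, Set.mem_ofPred_eq, not_le] at ht ⊢
      have := le_abs_self (X t - a)
      linarith
    have h2 := probReal_compl_eq_one_sub (μ := P) hAm
    linarith
  -- scaling
  set s := laneE f c0 w x N with hs
  have hsc := Crest.Agent.R151.V.gamma_scale_sub_le (I := Sym2 (ℤ × ℤ)) hκ hr s (scl s lam)
    (fun e _ => lt_of_lt_of_le one_pos (scl_ge_one hlam.le e))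
    (fun e he => by simp [scl, he]; linarith)
    (fun e he => by simp [scl, he]) hAm
  have hK2 := Crest.Agent.R151.V.scaleK_le hκ s (scl s lam) (fun e he => by
    simp only [scl, he, if_true]
    nlinarith)
  have hsum : ∑ e ∈ s, (1 - scl s lam e) ^ 2 = s.card * lam ^ 2 := by
    rw [Finset.sum_congr rfl (g := fun _ => lam ^ 2) (fun e he => by
      simp only [scl, he, if_true]; ring), Finset.sum_const, nsmul_eq_mul]
  rw [hsum] at hK2
  have hexp : Real.exp (2 * κ * (s.card * lam ^ 2)) ≤ 1 + 1 / 16 := by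
    have h1 : Real.exp (2 * κ * (s.card * lam ^ 2)) ≤ Real.exp (1 / 32) := Real.exp_le_exp.2 hK
    have h2 : Real.exp (1 / 32) ≤ 1 + 1 / 16 := by
      have := Real.abs_exp_sub_one_le (x := 1 / 32) (by norm_num)
      rw [abs_le] at this
      have h3 : |(1 / 32 : ℝ)| = 1 / 32 := by norm_num
      rw [h3] at this
      linarith [this.2]
    linarith
  have hsqrt : √(Crest.Agent.R151.V.scaleK κ s (scl s lam) - 1) / 2 ≤ 1 / 8 := by
    have h1 : Crest.Agent.R151.V.scaleK κ s (scl s lam) - 1 ≤ (1 / 4) ^ 2 := by linarith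
    have h2 : √(Crest.Agent.R151.V.scaleK κ s (scl s lam) - 1) ≤ 1 / 4 := by
      rw [Real.sqrt_le_left (by norm_num)]
      exact h1
    linarith
  set A' : Set Environment := {t | (fun i => scl s lam i * t i) ∈ A} with hA'
  have hPA' : 3 / 4 ≤ P.real A' := by
    have h1 : |P.real A' - P.real A| ≤ 1 / 8 := hsc.trans hsqrt
    rw [abs_le] at h1
    linarith [h1.1]
  -- lower bound set
  set Bl : Set Environment := {t | e < |X t - a|} with hBl
  have hinter : ∃ t, Nn t ∧ t ∈ A' ∧ t ∉ Bl ∧ t ∉ Bad c N x := by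
    by_contra hno
    push Not at hno
    have hsub : A' ⊆ (Bl ∪ Bad c N x) ∪ {t | ¬ Nn t} := by
      intro t ht
      by_cases hn : Nn t
      · left
        by_cases hb : t ∈ Bl
        · exact Or.inl hb
        · exact Or.inr (hno t hn ht hb)
      · right; exact hn
    have hz : P.real {t | ¬ Nn t} = 0 := by
      have := ae_Nn (G := gammaMeasure κ r) hG0
      rw [ae_iff] at this
      rw [measureReal_def, this]
      simp
    have h1 := measureReal_mono (μ := P) hsub
    have h2 := measureReal_union_le (μ := P) (Bl ∪ Bad c N x) {t | ¬ Nn t}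
    have h3 := measureReal_union_le (μ := P) Bl (Bad c N x)
    linarith
  obtain ⟨t, hnn, htA', htB, htBad⟩ := hinter
  have hX1 := pR_le_of_scaled hnn h0 hf1 hf2 hx hy hlam htBad hma' htA'
  simp only [hBl, Set.mem_ofPred_eq, not_lt] at htB
  rw [abs_le] at htB
  have hXt : pR t (Lane f c0 w) x y = X t := rfl
  rw [hXt, le_div_iff₀ (by linarith)] at hX1
  have h9 : (a - e) * (1 + lam) ≤ a + e := by
    have : (a - e) * (1 + lam) ≤ X t * (1 + lam) := by
      apply mul_le_mul_of_nonneg_right _ (by linarith)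
      linarith [htB.1]
    linarith
  -- (a - e)(1+lam) = a + a lam - e - e lam > a + e since e = lam a / 4
  have : a * lam ≤ 2 * e + e * lam := by nlinarith
  rw [hedef] at this
  nlinarith [mul_pos hlam hpos, mul_pos (mul_pos hlam hpos) hlam]


set_option maxHeartbeats 1000000 in
/-- lower bound for the mean excess of one stretch of the lane -/
theorem laneExc_ge_sqrt {μ : ℝ × ℝ → ℝ} (hκ : 0 < κ) (hr : 0 < r)
    (hμ : IsTC (gammaMeasure κ r) μ) (h0 : f (0, 1) ≠ 0) :
    ∃ c2 C2 : ℝ, 0 < c2 ∧ 0 < C2 ∧ ∀ w : ℝ, 1 ≤ w → |f (1, 0)| ≤ w / 2 → |f (0, 1)| ≤ w / 2 →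
      ∀ c0 : ℝ, ∀ x ∈ Lane f c0 w, ∀ y ∈ Lane f c0 w, 1 ≤ n1 (y - x) →
        c2 * √(n1 (y - x) / w) - C2 * w ≤ laneExc (gammaMeasure κ r) μ f c0 w x y := by
  have hγ := isProbabilityMeasure_gammaMeasure hκ hr
  have hG0 := gamma_Iio κ r
  have hG2 := integrable_sq hG0 (half_pos hr) (gamma_exp hκ hr)
  have hz : gammaMeasure κ r {0} = 0 := by
    rw [gammaMeasure, withDensity_apply _ (measurableSet_singleton _)]
    simp
  obtain ⟨cB, hcB, hBad⟩ := prob_Bad_le hG0 hz
  obtain ⟨cE, hcE, hE⟩ := exists_ET_ge hG0 hz hG2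
  set m1 := ∫ z, z ∂(gammaMeasure κ r) with hm1
  have hm1pos : 0 < m1 := by
    have h1 := hE (1, 0)
    have h2 := ET_le hG0 hG2 (1, 0)
    have h3 : (n1 (1, 0) : ℝ) = 1 := by norm_num [n1]
    rw [h3] at h1 h2
    linarith
  have hf2pos : 0 < |f (0, 1)| := abs_pos.2 h0
  set A : ℕ := ⌈2 * m1 / cB⌉₊ with hA
  set C1 : ℝ := 2 * ((2 * A + 7) * (1 / |f (0, 1)| + 1)) with hC1
  have hC1pos : 0 < C1 := by positivity
  set C' : ℝ := 3 + 64 * κ * C1 with hC'
  have hC'pos : 3 ≤ C' := by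
    have : 0 ≤ 64 * κ * C1 := by positivity
    linarith
  refine ⟨cE / (64 * C'), 2 * m1 * (2 / |f (0, 1)| + 1), by positivity, by positivity, ?_⟩
  intro w hw hf1 hf2 c0 x hx y hy hn
  have hw0 : 0 < w := by linarith
  set n := n1 (y - x) with hndef
  have hn1 : (1 : ℝ) ≤ n := by exact_mod_cast hn
  set N : ℕ := A * n + 3 with hN
  have hBadN : (iidLaw (gammaMeasure κ r)).real (Bad cB N x) ≤ 1 / 8 := by
    refine (hBad N x).trans ?_
    have : ((1 : ℝ) / 2) ^ N ≤ (1 / 2) ^ 3 :=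
      pow_le_pow_of_le_one (by norm_num) (by norm_num) (by omega)
    norm_num at this ⊢
    linarith
  obtain ⟨hXi, hXle⟩ := integrable_Lane hG0 hG2 hf1 hf2 hx hy
  rw [← hm1, ← hndef] at hXle
  set a := ∫ t, pR t (Lane f c0 w) x y ∂(iidLaw (gammaMeasure κ r)) with ha
  have hage : cE * n ≤ a := by
    have h1 : ∫ t, passageTime t x y ∂(iidLaw (gammaMeasure κ r)) ≤ a := by
      refine integral_mono_ae (integrable_pt hG0 hG2 x y) hXi ?_
      filter_upwards [ae_Nn hG0] with t ht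
      exact pt_le_pR ht (conn_Lane hf1 hf2 hx hy)
    rw [integral_pt] at h1
    exact (hE (y - x)).trans h1
  have hapos : 0 < a := lt_of_lt_of_le (by positivity) hage
  have hAm : 2 * m1 ≤ cB * A := by
    have := Nat.le_ceil (2 * m1 / cB)
    rw [div_le_iff₀ hcB] at this
    rw [hA, mul_comm cB]
    exact this
  have hma : 5 / 4 * a < cB * N := by
    rw [hN]; push_cast
    have h1 : 2 * m1 * n ≤ cB * A * n := mul_le_mul_of_nonneg_right hAm (by positivity)
    nlinarith
  -- number of edges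
  set q := √((n : ℝ) * w) with hq
  have hnw : 1 ≤ (n : ℝ) * w := by nlinarith
  have hq1 : 1 ≤ q := by rw [hq, Real.one_le_sqrt]; exact hnw
  have hq2 : q ^ 2 = n * w := Real.sq_sqrt (by positivity)
  have hcard : ((laneE f c0 w x N).card : ℝ) ≤ C1 * (n * w) := by
    refine (card_laneE_le hw0.le x N).trans ?_
    rw [hC1, mul_assoc, mul_assoc]
    apply mul_le_mul_of_nonneg_left _ (by norm_num)
    have h1 : (2 * (N : ℝ) + 1) ≤ (2 * A + 7) * n := by
      rw [hN]; push_cast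
      nlinarith
    have h2 : w / |f (0, 1)| + 1 ≤ (1 / |f (0, 1)| + 1) * w := by
      have : w / |f (0, 1)| = 1 / |f (0, 1)| * w := by ring
      rw [this]; nlinarith
    calc (2 * (N : ℝ) + 1) * (w / |f (0, 1)| + 1)
        ≤ ((2 * A + 7) * n) * ((1 / |f (0, 1)| + 1) * w) :=
          mul_le_mul h1 h2 (by positivity) (by positivity)
      _ = (2 * A + 7) * ((1 / |f (0, 1)| + 1) * (n * w)) := by ring
  set lam : ℝ := 1 / (C' * q) with hlam
  have hC'q : 3 ≤ C' * q := by nlinarith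
  have hlampos : 0 < lam := by positivity
  have hlam1 : lam < 1 / 2 := by
    rw [hlam, div_lt_div_iff₀ (by linarith) (by norm_num)]
    linarith
  have hlam2 : lam ^ 2 = 1 / (C' ^ 2 * (n * w)) := by
    rw [hlam, div_pow, mul_pow, hq2]; norm_num
  have hK : 2 * κ * ((laneE f c0 w x N).card * lam ^ 2) ≤ 1 / 32 := by
    have h1 : ((laneE f c0 w x N).card : ℝ) * lam ^ 2 ≤ C1 / C' ^ 2 := by
      rw [hlam2]
      have : C1 * (n * w) * (1 / (C' ^ 2 * (n * w))) = C1 / C' ^ 2 := by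
        field_simp
      rw [← this]
      exact mul_le_mul_of_nonneg_right hcard (by positivity)
    have h2 : 2 * κ * (C1 / C' ^ 2) ≤ 1 / 32 := by
      have h3 : 64 * κ * C1 ≤ C' ^ 2 := by
        have e1 : C' * 1 ≤ C' * C' := mul_le_mul_of_nonneg_left (by linarith) (by linarith)
        have e2 : 64 * κ * C1 ≤ C' := by linarith [hC']
        rw [pow_two]; linarith
      rw [mul_div_assoc', div_le_div_iff₀ (by positivity) (by norm_num)]
      linarith
    exact (mul_le_mul_of_nonneg_left h1 (by positivity)).trans h2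
  have hge := mad_ge hκ hr h0 hf1 hf2 hx hy hlampos hlam1 hBadN hK hma hapos
  -- the parallel lane
  set m : ℕ := ⌈(w + 1) / |f (0, 1)|⌉₊ with hm
  have hm2 : w + 1 ≤ m * |f (0, 1)| := by
    have := Nat.le_ceil ((w + 1) / |f (0, 1)|)
    rwa [div_le_iff₀ hf2pos] at this
  have hm3 : (m : ℝ) ≤ (2 / |f (0, 1)| + 1) * w := by
    have h1 := Nat.ceil_lt_add_one (show 0 ≤ (w + 1) / |f (0, 1)| by positivity)
    have h2 : (w + 1) / |f (0, 1)| ≤ 2 / |f (0, 1)| * w := by
      rw [div_mul_eq_mul_div]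
      exact div_le_div_of_nonneg_right (by linarith) hf2pos.le
    rw [← hm] at h1
    nlinarith
  have hv : w < |f (toR ((0 : ℤ), (m : ℤ)))| := by
    rw [f_toR]
    simp only [Int.cast_zero, zero_mul, zero_add, Int.cast_natCast]
    rw [abs_mul, Nat.abs_cast]
    linarith
  have hle := mad_le hG0 hG2 hμ hf1 hf2 hx hy hv
  have hn1v : (n1 ((0 : ℤ), (m : ℤ)) : ℝ) = m := by simp [n1]
  rw [hn1v, ← hm1] at hle
  have hfin := hge.trans hle
  have hsq : √((n : ℝ) / w) = n / q := by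
    rw [hq, Real.sqrt_div' _ hw0.le, Real.sqrt_mul' _ hw0.le]
    have h1 : √(n : ℝ) ≠ 0 := by positivity
    have h2 : √w ≠ 0 := by positivity
    field_simp
    rw [Real.sq_sqrt (by positivity)]
  rw [hsq]
  have h5 : cE / (64 * C') * (n / q) = 1 / 2 * (lam / 32 * (cE * n)) := by
    rw [hlam]; field_simp; norm_num
  rw [h5]
  have h6 : lam / 32 * (cE * n) ≤ lam / 32 * a :=
    mul_le_mul_of_nonneg_left hage (by positivity)
  have h7 : (m : ℝ) * m1 ≤ (2 / |f (0, 1)| + 1) * w * m1 :=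
    mul_le_mul_of_nonneg_right hm3 hm1pos.le
  nlinarith [hfin, h6, h7]

end gamma

end Crest.Agent.R151.G338
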