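import Crest.Agent.R151.V13
import Crest.Agent.R151.G338g
import Crest.Agent.R151.M192b

/-!
# R151/V14 — R7, R8 on the names of G338g (owner helper52)

`E0 h d θ` = the edges read by the two highways of the row with displacement `d`;
`glue (E0 h d θ) s t` = the environment `s` on the highway strips, fresh weights `t` elsewhere.
* `Lo_glue`, `Up_glue`, `iL_glue`, `iU_glue` : the highways read only `s`;
* `dep_hk` : `hk d I s1 s2` reads `E0 ∪ edgesIn (rg F I θ)`; `disjoint_rg` for disjoint `I1`, `I2`;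
* `LC_hk` : for fixed `(θ, φ, s)`, `hk` is a log-concave variable of the fresh weights;
* `rho`, `rho_glue`, `R8` : `∫ |R - ρ| ≤ 3 B`.
-/

set_option autoImplicit false
set_option linter.unusedSectionVars false

open MeasureTheory ProbabilityTheory Set
open scoped ENNReal
open Crest.ProbabilityR.FirstPassage

namespace Crest.Agent.R151.V

open Crest.Agent.R151.K
open R78 (V Wk IsHwy hc hp stepc hull routes IsOpen)
open Q (pos Hwy P0 UU UU2 phi rg)
open B710 (FlatData)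

section row

variable {μ : ℝ × ℝ → ℝ} {F : FlatData μ} (h : Hwy F)

/-- the edges read by the two highways of a row with displacement `d` -/
def E0 (d θ : ℝ × ℝ) : Set (Sym2 (ℤ × ℤ)) :=
  edgesIn {z | |F.be (pos θ z)| ≤ h.wH / 2} ∪ edgesIn {z | |F.be (pos (θ - d) z)| ≤ h.wH / 2}

lemma measurableSet_strip (w : ℝ) (d : ℝ × ℝ) (x : ℤ × ℤ) :
    MeasurableSet {θ : ℝ × ℝ | |F.be (pos (θ - d) x)| ≤ w} := by
  have h1 : Measurable fun θ : ℝ × ℝ => |F.be (pos (θ - d) x)| :=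
    (F.be.continuous.measurable.comp ((M192.measurable_pos x).comp
      (measurable_id.sub_const d))).abs
  exact measurableSet_le h1 measurable_const

theorem measurableSet_E0 (d : ℝ × ℝ) (e : Sym2 (ℤ × ℤ)) :
    MeasurableSet {θ : ℝ × ℝ | e ∈ E0 h d θ} := by
  induction e with
  | h x y =>
    have h1 : {θ : ℝ × ℝ | s(x, y) ∈ E0 h d θ} =
        ({θ : ℝ × ℝ | |F.be (pos (θ - 0) x)| ≤ h.wH / 2} ∩
          {θ : ℝ × ℝ | |F.be (pos (θ - 0) y)| ≤ h.wH / 2}) ∪
        ({θ : ℝ × ℝ | |F.be (pos (θ - d) x)| ≤ h.wH / 2} ∩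
          {θ : ℝ × ℝ | |F.be (pos (θ - d) y)| ≤ h.wH / 2}) := by
      ext θ
      simp only [E0, mem_ofPred_eq, mem_union, mem_inter_iff, sub_zero, mem_edgesIn]
    rw [h1]
    exact ((measurableSet_strip _ _ _).inter (measurableSet_strip _ _ _)).union
      ((measurableSet_strip _ _ _).inter (measurableSet_strip _ _ _))

/-- version with a random offset -/
theorem measurableSet_E0' {Ω : Type*} [MeasurableSpace Ω] {θ : Ω → ℝ × ℝ} (hθ : Measurable θ)
    (d : ℝ × ℝ) (e : Sym2 (ℤ × ℤ)) : MeasurableSet {ω | e ∈ E0 h d (θ ω)} :=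
  hθ (measurableSet_E0 h d e)

lemma Lo_mem (d θ : ℝ × ℝ) (s : Environment) (φ : ℝ × ℝ) (k : ℤ) :
    s(h.Lo θ s φ k, h.Lo θ s φ (k + 1)) ∈ E0 h d θ :=
  Or.inl (mem_edgesIn.2 ⟨h.strip _ _ _ _, h.strip _ _ _ _⟩)

lemma Up_mem (d θ : ℝ × ℝ) (s : Environment) (φ : ℝ × ℝ) (k : ℤ) :
    s(h.Up d θ s φ k, h.Up d θ s φ (k + 1)) ∈ E0 h d θ :=
  Or.inr (mem_edgesIn.2 ⟨h.strip _ _ _ _, h.strip _ _ _ _⟩)

variable {h} in
lemma Lo_congr {d θ : ℝ × ℝ} {t t' : Environment} (ht : ∀ e ∈ E0 h d θ, t e = t' e)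
    (φ : ℝ × ℝ) : h.Lo θ t φ = h.Lo θ t' φ :=
  h.loc _ _ _ _ fun e he => ht e (Or.inl he)

variable {h} in
lemma Up_congr {d θ : ℝ × ℝ} {t t' : Environment} (ht : ∀ e ∈ E0 h d θ, t e = t' e)
    (φ : ℝ × ℝ) : h.Up d θ t φ = h.Up d θ t' φ :=
  h.loc _ _ _ _ fun e he => ht e (Or.inr he)

variable {h} in
lemma iL_congr {d θ : ℝ × ℝ} {t t' : Environment} (ht : ∀ e ∈ E0 h d θ, t e = t' e)
    (s : ℝ) (φ : ℝ × ℝ) : h.iL s θ t φ = h.iL s θ t' φ := by
  have h1 : h.H φ.1 θ t = h.H φ.1 θ t' := Lo_congr ht φ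
  unfold Hwy.iL Hwy.ix
  rw [h1]

variable {h} in
lemma iU_congr {d θ : ℝ × ℝ} {t t' : Environment} (ht : ∀ e ∈ E0 h d θ, t e = t' e)
    (s : ℝ) (φ : ℝ × ℝ) : h.iU d s θ t φ = h.iU d s θ t' φ := by
  have h1 : h.H φ.2 (θ - d) t = h.H φ.2 (θ - d) t' := Up_congr ht φ
  unfold Hwy.iU Hwy.ix
  rw [h1]

lemma glue_eqOn (E : Set (Sym2 (ℤ × ℤ))) (s t : Environment) : ∀ e ∈ E, glue E s t e = s e :=
  fun _ he => glue_of_mem he s t

@[simp] lemma Lo_glue (d θ : ℝ × ℝ) (s t : Environment) (φ : ℝ × ℝ) :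
    h.Lo θ (glue (E0 h d θ) s t) φ = h.Lo θ s φ := Lo_congr (d := d) (glue_eqOn _ _ _) φ

@[simp] lemma Up_glue (d θ : ℝ × ℝ) (s t : Environment) (φ : ℝ × ℝ) :
    h.Up d θ (glue (E0 h d θ) s t) φ = h.Up d θ s φ := Up_congr (glue_eqOn _ _ _) φ

@[simp] lemma iL_glue (d θ : ℝ × ℝ) (s t : Environment) (a : ℝ) (φ : ℝ × ℝ) :
    h.iL a θ (glue (E0 h d θ) s t) φ = h.iL a θ s φ := iL_congr (d := d) (glue_eqOn _ _ _) a φ

@[simp] lemma iU_glue (d θ : ℝ × ℝ) (s t : Environment) (a : ℝ) (φ : ℝ × ℝ) :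
    h.iU d a θ (glue (E0 h d θ) s t) φ = h.iU d a θ s φ := iU_congr (glue_eqOn _ _ _) a φ

/-- the cost potentials of the highways read only the strips -/
lemma hcLo_glue (d θ : ℝ × ℝ) (s t : Environment) (φ : ℝ × ℝ) (z : ℤ) :
    hc (glue (E0 h d θ) s t) (h.Lo θ s φ) z = hc s (h.Lo θ s φ) z :=
  hc_congr (fun k => glue_of_mem (Lo_mem h d θ s φ k) s t) z

lemma hcUp_glue (d θ : ℝ × ℝ) (s t : Environment) (φ : ℝ × ℝ) (z : ℤ) :
    hc (glue (E0 h d θ) s t) (h.Up d θ s φ) z = hc s (h.Up d θ s φ) z :=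
  hc_congr (fun k => glue_of_mem (Up_mem h d θ s φ k) s t) z

theorem hk_glue (d : ℝ × ℝ) (I : Set ℝ) (a b : ℝ) (θ : ℝ × ℝ) (s t : Environment)
    (φ : ℝ × ℝ) : h.hk d I a b θ (glue (E0 h d θ) s t) φ =
      hull (glue (E0 h d θ) s t) (h.Lo θ s φ) (h.Up d θ s φ) (rg F I θ) (h.iL a θ s φ)
        (h.iU d b θ s φ) := by
  unfold Hwy.hk
  rw [Lo_glue, Up_glue, iL_glue, iU_glue]

/-- difference between the excess form and the hull: read by the strips only -/
theorem hkY_sub_glue (d : ℝ × ℝ) (I : Set ℝ) (a b : ℝ) (θ : ℝ × ℝ) (s t : Environment)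
    (φ : ℝ × ℝ) : h.hkY d I a b θ (glue (E0 h d θ) s t) φ -
      h.hk d I a b θ (glue (E0 h d θ) s t) φ = h.hkY d I a b θ s φ - h.hk d I a b θ s φ := by
  unfold Hwy.hkY Hwy.hk R78.hullY hp
  rw [Lo_glue, Up_glue, iL_glue, iU_glue, hcLo_glue, hcUp_glue]
  ring

/-- **R7b** -/
theorem LC_hk {r : ℝ} (hr : 0 < r) {s : Environment} (hs : Nn s) (d : ℝ × ℝ) (I : Set ℝ)
    (a b : ℝ) (θ φ : ℝ × ℝ)
    (hne : (routes s (h.Lo θ s φ) (h.Up d θ s φ) (rg F I θ) (h.iL a θ s φ)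
      (h.iU d b θ s φ)).Nonempty) :
    LC (iidLaw (gammaMeasure 1 r)) (fun t => h.hk d I a b θ (glue (E0 h d θ) s t) φ) := by
  have h1 := LC_hull hr (E0 h d θ) hs (Lo_mem h d θ s φ) (Up_mem h d θ s φ) (rg F I θ)
    (h.iL a θ s φ) (h.iU d b θ s φ) hne
  have h2 : (fun t => h.hk d I a b θ (glue (E0 h d θ) s t) φ) = fun t =>
      hull (glue (E0 h d θ) s t) (h.Lo θ s φ) (h.Up d θ s φ) (rg F I θ) (h.iL a θ s φ)
        (h.iU d b θ s φ) := by
    funext t; exact hk_glue h d I a b θ s t φ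
  rw [h2]
  exact h1

/-- **R7c**, dependence -/
theorem dep_hk (d : ℝ × ℝ) (I : Set ℝ) (a b : ℝ) (θ φ : ℝ × ℝ) :
    DependsOn (fun t => h.hk d I a b θ t φ) (E0 h d θ ∪ edgesIn (rg F I θ)) := by
  intro t t' htt
  have h0 : ∀ e ∈ E0 h d θ, t e = t' e := fun e he => htt e (Or.inl he)
  have h1 : h.Lo θ t φ = h.Lo θ t' φ := Lo_congr h0 φ
  have h2 : h.Up d θ t φ = h.Up d θ t' φ := Up_congr h0 φ
  have h3 : h.iL a θ t φ = h.iL a θ t' φ := iL_congr h0 a φ
  have h4 : h.iU d b θ t φ = h.iU d b θ t' φ := iU_congr h0 b φ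
  show h.hk d I a b θ t φ = h.hk d I a b θ t' φ
  unfold Hwy.hk hull
  rw [h3, h4]
  congr 1
  rw [h1, h2]
  refine M192.routes_congr ?_ ?_ ?_ _ _
  · intro x hx y hy
    exact htt _ (Or.inr (mem_edgesIn.2 ⟨hx, hy⟩))
  · exact M192.hc_congr fun k => h0 _ (Lo_mem h d θ t' φ k)
  · exact M192.hc_congr fun k => h0 _ (Up_mem h d θ t' φ k)

/-- excess form -/
theorem dep_hkY (d : ℝ × ℝ) (I : Set ℝ) (a b : ℝ) (θ φ : ℝ × ℝ) :
    DependsOn (fun t => h.hkY d I a b θ t φ) (E0 h d θ ∪ edgesIn (rg F I θ)) := by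
  intro t t' htt
  have h0 : ∀ e ∈ E0 h d θ, t e = t' e := fun e he => htt e (Or.inl he)
  have h1 : h.Lo θ t φ = h.Lo θ t' φ := Lo_congr h0 φ
  have h2 : h.Up d θ t φ = h.Up d θ t' φ := Up_congr h0 φ
  have h3 : h.iL a θ t φ = h.iL a θ t' φ := iL_congr h0 a φ
  have h4 : h.iU d b θ t φ = h.iU d b θ t' φ := iU_congr h0 b φ
  have h5 := dep_hk h d I a b θ φ htt
  simp only [Hwy.hk, h3, h4, h1, h2] at h5
  have h6 : ∀ z, hc t (h.Lo θ t' φ) z = hc t' (h.Lo θ t' φ) z :=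
    M192.hc_congr fun k => h0 _ (Lo_mem h d θ t' φ k)
  have h7 : ∀ z, hc t (h.Up d θ t' φ) z = hc t' (h.Up d θ t' φ) z :=
    M192.hc_congr fun k => h0 _ (Up_mem h d θ t' φ k)
  show h.hkY d I a b θ t φ = h.hkY d I a b θ t' φ
  unfold Hwy.hkY R78.hullY hp
  rw [h3, h4, h1, h2, h5, h6, h7]

/-- regions over disjoint label sets have disjoint sets of edges -/
theorem disjoint_rg {I J : Set ℝ} (hIJ : Disjoint I J) (θ : ℝ × ℝ) :
    Disjoint (edgesIn (rg F I θ)) (edgesIn (rg F J θ)) := by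
  rw [Set.disjoint_left]
  intro e he he'
  induction e with
  | h x y =>
    rw [mem_edgesIn] at he he'
    exact Set.disjoint_left.1 hIJ he.1 he'.1

/-- **R7c**: given the strips, hulls over disjoint label sets are independent -/
theorem indep_hk {μ : ℝ × ℝ → ℝ} {F : FlatData μ} (h : Hwy F) (G : Measure ℝ)
    [IsProbabilityMeasure G] (d : ℝ × ℝ) {I J : Set ℝ} (hI : MeasurableSet I)
    (hJ : MeasurableSet J) (hIJ : Disjoint I J) (a b a' b' : ℝ) (θ φ : ℝ × ℝ)
    (s : Environment) :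
    IndepFun (fun t => h.hk d I a b θ (glue (E0 h d θ) s t) φ)
      (fun t => h.hk d J a' b' θ (glue (E0 h d θ) s t) φ) (iidLaw G) := by
  have hm : Measurable fun t : Environment => glue (E0 h d θ) s t :=
    (measurable_glue (E0 h d θ)).comp (measurable_const.prodMk measurable_id)
  have hdep : ∀ {f : Environment → ℝ} {E' : Set (Sym2 (ℤ × ℤ))},
      DependsOn f (E0 h d θ ∪ E') → DependsOn (fun t => f (glue (E0 h d θ) s t)) E' := by
    intro f E' hh t t' htt
    apply hh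
    intro e he
    by_cases heE : e ∈ E0 h d θ
    · rw [glue_of_mem heE, glue_of_mem heE]
    · rw [glue_of_notMem heE, glue_of_notMem heE]
      rcases he with he | he
      · exact absurd he heE
      · exact htt e he
  exact A.indepFun_of_dependsOn G
    (h.meas_hk (θ := fun _ => θ) (t := fun t => glue (E0 h d θ) s t) (φ := fun _ => φ)
      measurable_const hm measurable_const d hI a b)
    (h.meas_hk (θ := fun _ => θ) (t := fun t => glue (E0 h d θ) s t) (φ := fun _ => φ)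
      measurable_const hm measurable_const d hJ a' b')
    (hdep (dep_hk h d I a b θ φ)) (hdep (dep_hk h d J a' b' θ φ)) (disjoint_rg hIJ θ)

end row

section R8

variable {G : Measure ℝ} [IsProbabilityMeasure G] {Q : Type*} [MeasurableSpace Q]
  {ν : Measure Q} [IsProbabilityMeasure ν]

/-- glueing twice -/
lemma glue_glue {I X : Type*} [MeasurableSpace X] (E : Set I) (s t t' : I → X) :
    glue E (glue E s t) t' = glue E s t' := by
  classical
  funext i
  by_cases hi : i ∈ E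
  · rw [glue_of_mem hi, glue_of_mem hi, glue_of_mem hi]
  · rw [glue_of_notMem hi, glue_of_notMem hi]

/-- conditional mean of `g` given `(q, edges in E q)` -/
noncomputable def rho (G : Measure ℝ) (E : Q → Set (Sym2 (ℤ × ℤ))) (g : Q × Environment → ℝ)
    (p : Q × Environment) : ℝ := ∫ t, g (p.1, glue (E p.1) p.2 t) ∂(iidLaw G)

lemma rho_glue (E : Q → Set (Sym2 (ℤ × ℤ))) (g : Q × Environment → ℝ) (q : Q)
    (s t : Environment) : rho G E g (q, glue (E q) s t) = rho G E g (q, s) := by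
  unfold rho
  simp only [glue_glue]

lemma measurable_rho {E : Q → Set (Sym2 (ℤ × ℤ))} (hE : ∀ i, MeasurableSet {q | i ∈ E q})
    {g : Q × Environment → ℝ} (hg : Measurable g) : Measurable (rho G E g) :=
  measurable_cond (G := G) hE hg

lemma integrable_rho {E : Q → Set (Sym2 (ℤ × ℤ))} (hE : ∀ i, MeasurableSet {q | i ∈ E q})
    {g : Q × Environment → ℝ} (hg : Integrable g (ν.prod (iidLaw G))) :
    Integrable (rho G E g) (ν.prod (iidLaw G)) :=
  (integrable_glue_rand G ν hE hg).integral_prod_left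

lemma integral_rho {E : Q → Set (Sym2 (ℤ × ℤ))} (hE : ∀ i, MeasurableSet {q | i ∈ E q})
    {g : Q × Environment → ℝ} (hg : Integrable g (ν.prod (iidLaw G))) :
    ∫ p, rho G E g p ∂(ν.prod (iidLaw G)) = ∫ p, g p ∂(ν.prod (iidLaw G)) :=
  integral_glue_rand G ν hE hg

/-- `∫ |f - ρ_g|` in the unconditional form -/
theorem cond_indep' {E E1 E2 : Q → Set (Sym2 (ℤ × ℤ))} (hE : ∀ i, MeasurableSet {q | i ∈ E q})
    (hd : ∀ q, Disjoint (E1 q) (E2 q)) {f g : Q × Environment → ℝ} (hf : Measurable f)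
    (hg : Measurable g) (hfE : ∀ q, DependsOn (fun t => f (q, t)) (E q ∪ E1 q))
    (hgE : ∀ q, DependsOn (fun t => g (q, t)) (E q ∪ E2 q))
    (hfi : Integrable f (ν.prod (iidLaw G))) (hgi : Integrable g (ν.prod (iidLaw G))) :
    ∫ p, |f p - rho G E g p| ∂(ν.prod (iidLaw G)) ≤
      ∫ p, |f p - g p| ∂(ν.prod (iidLaw G)) := by
  refine le_trans (le_of_eq ?_) (cond_indep ν hE hd hf hg hfE hgE hfi hgi)
  have h1 := integral_glue_rand G ν hE (f := fun p => |f p - rho G E g p|)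
    (hfi.sub (integrable_rho hE hgi)).abs
  simp only [rho_glue] at h1
  exact h1.symm

/-- **R8**: `R` is at most each of two conditionally independent variables, with means within `B`
of the mean of `R`; then `R` is within `3 B` (in `L¹`) of the conditional mean of one of them. -/
theorem R8 {E E1 E2 : Q → Set (Sym2 (ℤ × ℤ))} (hE : ∀ i, MeasurableSet {q | i ∈ E q})
    (hd : ∀ q, Disjoint (E1 q) (E2 q)) {R V1 V2 : Q × Environment → ℝ}
    (hV1 : Measurable V1) (hV2 : Measurable V2)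
    (hV1E : ∀ q, DependsOn (fun t => V1 (q, t)) (E q ∪ E1 q))
    (hV2E : ∀ q, DependsOn (fun t => V2 (q, t)) (E q ∪ E2 q))
    (hRi : Integrable R (ν.prod (iidLaw G))) (hV1i : Integrable V1 (ν.prod (iidLaw G)))
    (hV2i : Integrable V2 (ν.prod (iidLaw G)))
    (h1 : ∀ᵐ p ∂(ν.prod (iidLaw G)), R p ≤ V1 p) (h2 : ∀ᵐ p ∂(ν.prod (iidLaw G)), R p ≤ V2 p)
    {B : ℝ} (hB1 : ∫ p, V1 p ∂(ν.prod (iidLaw G)) ≤ ∫ p, R p ∂(ν.prod (iidLaw G)) + B)
    (hB2 : ∫ p, V2 p ∂(ν.prod (iidLaw G)) ≤ ∫ p, R p ∂(ν.prod (iidLaw G)) + B) :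
    ∫ p, |R p - rho G E V2 p| ∂(ν.prod (iidLaw G)) ≤ 3 * B := by
  have hρ := integrable_rho hE hV2i
  have a1 : ∫ p, |R p - V1 p| ∂(ν.prod (iidLaw G)) ≤ B := by
    have : ∫ p, |R p - V1 p| ∂(ν.prod (iidLaw G)) = ∫ p, (V1 p - R p) ∂(ν.prod (iidLaw G)) := by
      apply integral_congr_ae
      filter_upwards [h1] with p hp
      rw [abs_of_nonpos (by linarith)]; ring
    rw [this, integral_sub hV1i hRi]; linarith
  have a2 : ∫ p, |R p - V2 p| ∂(ν.prod (iidLaw G)) ≤ B := by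
    have : ∫ p, |R p - V2 p| ∂(ν.prod (iidLaw G)) = ∫ p, (V2 p - R p) ∂(ν.prod (iidLaw G)) := by
      apply integral_congr_ae
      filter_upwards [h2] with p hp
      rw [abs_of_nonpos (by linarith)]; ring
    rw [this, integral_sub hV2i hRi]; linarith
  have a3 : ∫ p, |V1 p - V2 p| ∂(ν.prod (iidLaw G)) ≤ 2 * B := by
    calc ∫ p, |V1 p - V2 p| ∂(ν.prod (iidLaw G))
        ≤ ∫ p, (|R p - V1 p| + |R p - V2 p|) ∂(ν.prod (iidLaw G)) := by
          apply integral_mono (hV1i.sub hV2i).abs ((hRi.sub hV1i).abs.add (hRi.sub hV2i).abs)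
          intro p
          have := abs_sub_le (V1 p) (R p) (V2 p)
          rw [abs_sub_comm (V1 p) (R p)] at this
          exact this
      _ = _ := integral_add (hRi.sub hV1i).abs (hRi.sub hV2i).abs
      _ ≤ 2 * B := by linarith
  have a4 := cond_indep' (G := G) (ν := ν) hE hd hV1 hV2 hV1E hV2E hV1i hV2i
  calc ∫ p, |R p - rho G E V2 p| ∂(ν.prod (iidLaw G))
      ≤ ∫ p, (|R p - V1 p| + |V1 p - rho G E V2 p|) ∂(ν.prod (iidLaw G)) := by
        apply integral_mono (hRi.sub hρ).abs ((hRi.sub hV1i).abs.add (hV1i.sub hρ).abs)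
        intro p
        exact abs_sub_le (R p) (V1 p) _
    _ = _ := integral_add (hRi.sub hV1i).abs (hV1i.sub hρ).abs
    _ ≤ 3 * B := by linarith

/-- conditional Markov form of R8: off an event of probability `≤ 3 B / (c * c')`, the conditional
probability of `|R - ρ| ≥ c'` is `≤ c` -/
theorem cond_prob_le {E : Q → Set (Sym2 (ℤ × ℤ))} (hE : ∀ i, MeasurableSet {q | i ∈ E q})
    {D : Q × Environment → ℝ} (hD : Measurable D) (hDi : Integrable D (ν.prod (iidLaw G)))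
    {c c' : ℝ} (hc : 0 < c) (hc' : 0 < c') :
    (ν.prod (iidLaw G)).real {p | c ≤ (iidLaw G).real {t | c' ≤ |D (p.1, glue (E p.1) p.2 t)|}} ≤
      (∫ p, |D p| ∂(ν.prod (iidLaw G))) / (c * c') := by
  have hA : MeasurableSet {p : Q × Environment | c' ≤ |D p|} :=
    measurableSet_le measurable_const hD.abs
  set A := {p : Q × Environment | c' ≤ |D p|} with hAdef
  have m1 := measurable_cond_prob (G := G) hE hA
  have hAe : ∀ p : Q × Environment, {t : Environment | (p.1, glue (E p.1) p.2 t) ∈ A} =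
      {t | c' ≤ |D (p.1, glue (E p.1) p.2 t)|} := fun p => rfl
  have e1 : ∫⁻ p, (iidLaw G) {t | (p.1, glue (E p.1) p.2 t) ∈ A} ∂(ν.prod (iidLaw G)) =
      (ν.prod (iidLaw G)) A := by
    have := lintegral_glue_rand G ν hE (f := A.indicator 1) (measurable_one.indicator hA)
    rw [lintegral_indicator_one hA] at this
    refine Eq.trans ?_ this
    refine lintegral_congr fun p => ?_
    have hm : MeasurableSet {t : Environment | (p.1, glue (E p.1) p.2 t) ∈ A} := by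
      have h1 : Measurable (fun t : Environment => (p.1, glue (E p.1) p.2 t)) :=
        measurable_const.prodMk ((measurable_glue (E p.1)).comp
          (measurable_const.prodMk measurable_id))
      exact h1 hA
    rw [← lintegral_indicator_one hm]
    rfl
  have e2 : (ν.prod (iidLaw G)) {p | c ≤ (iidLaw G).real {t | (p.1, glue (E p.1) p.2 t) ∈ A}} ≤
      (ν.prod (iidLaw G)) A / ENNReal.ofReal c := by
    rw [← e1]
    refine le_trans (measure_mono ?_) (meas_ge_le_lintegral_div m1.aemeasurable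
      (ENNReal.ofReal_pos.2 hc).ne' ENNReal.ofReal_ne_top)
    intro p hp
    simp only [mem_ofPred_eq] at hp ⊢
    exact ENNReal.ofReal_le_of_le_toReal hp
  have e3 : (ν.prod (iidLaw G)).real A ≤ (∫ p, |D p| ∂(ν.prod (iidLaw G))) / c' := by
    rw [le_div_iff₀ hc', mul_comm]
    exact mul_meas_ge_le_integral_of_nonneg (ae_of_all _ fun p => abs_nonneg _) hDi.abs c'
  have e4 : (ν.prod (iidLaw G)).real
      {p | c ≤ (iidLaw G).real {t | (p.1, glue (E p.1) p.2 t) ∈ A}} ≤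
      (ν.prod (iidLaw G)).real A / c := by
    unfold Measure.real
    have := ENNReal.toReal_mono (ENNReal.div_ne_top (measure_ne_top _ _)
      (ENNReal.ofReal_pos.2 hc).ne') e2
    rwa [ENNReal.toReal_div, ENNReal.toReal_ofReal hc.le] at this
  refine e4.trans ?_
  rw [mul_comm c c', ← div_div]
  gcongr

end R8

end Crest.Agent.R151.V
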