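import Crest.Agent.R151.V20

/-!
# R151/V21 — means by log-concavity for EVERY strip environment (helper52, after helper710 #10789)

`SData.mean_all` : `R# ≤ V + err`, `P (V ≤ t | S) ≥ q` (inner cost, independent of `S`) ⟹
`∫_A R# ≤ (1 + 120 / q ^ 2) E|D| + (40 / q ^ 2) E|err| + (5 / q) t P(A)` for all `A ∈ σ(S)`;
no typical set.
-/

set_option autoImplicit false
set_option linter.unusedSectionVars false

open MeasureTheory ProbabilityTheory Set
open scoped ENNReal NNReal
open Crest.ProbabilityR.FirstPassage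

namespace Crest.Agent.R151.V

open Crest.Agent.R151.K
open Q (P0)
open M192 (Row)

section pure

variable {α : Type*} [MeasurableSpace α] {μ : Measure α} [IsProbabilityMeasure μ] {X : α → ℝ}
  {Ω : Type*} [MeasurableSpace Ω] {κ : Measure Ω} [IsProbabilityMeasure κ]

/-- Markov inside the conditional space -/
theorem LC.mean_markov (h : LC μ X) (hX : Measurable X) {Z : α → ℝ} (hZm : Measurable Z)
    (hZ0 : ∀ᵐ ω ∂μ, 0 ≤ Z ω) {V err : α × Ω → ℝ}
    (hle : ∀ᵐ x ∂(μ.prod κ), Z x.1 ≤ V x + err x) {q t : ℝ} (hq0 : 0 < q) (hq1 : q ≤ 1)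
    (ht : 0 ≤ t) (hI : q ≤ (μ.prod κ).real {x | V x ≤ t})
    (hD : Integrable (fun ω => Z ω - X ω) μ) (he : Integrable err (μ.prod κ)) :
    ∫⁻ ω, ENNReal.ofReal (Z ω) ∂μ ≤ ENNReal.ofReal ((1 + 120 / q ^ 2) * ∫ ω, |Z ω - X ω| ∂μ +
      (40 / q ^ 2) * ∫ x, |err x| ∂(μ.prod κ) + (5 / q) * t) := by
  set θ := ∫ ω, |Z ω - X ω| ∂μ with hθ
  set er := ∫ x, |err x| ∂(μ.prod κ) with her
  have hθ0 : 0 ≤ θ := integral_nonneg fun _ => abs_nonneg _
  have her0 : 0 ≤ er := integral_nonneg fun _ => abs_nonneg _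
  refine ENNReal.le_of_forall_pos_le_add fun ε hε _ => ?_
  set e' : ℝ := (ε : ℝ) * q / 20 with he'
  have he'0 : 0 < e' := by
    have : (0 : ℝ) < ε := hε
    positivity
  set d : ℝ := 8 / q * θ + e' with hd
  set a : ℝ := 8 / q * er + e' with ha
  have hd0 : 0 < d := by positivity
  have ha0 : 0 < a := by positivity
  have m1 : μ.real {ω | d < |Z ω - X ω|} ≤ q / 8 := by
    have h1 := mul_meas_ge_le_integral_of_nonneg (μ := μ) (f := fun ω => |Z ω - X ω|)
      (ae_of_all _ fun _ => abs_nonneg _) hD.abs d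
    have h2 : μ.real {ω | d < |Z ω - X ω|} ≤ μ.real {ω | d ≤ |Z ω - X ω|} :=
      measureReal_mono (fun ω (hω : d < _) => hω.le) (measure_ne_top _ _)
    have h3 : μ.real {ω | d ≤ |Z ω - X ω|} ≤ θ / d := by
      rw [le_div_iff₀ hd0, mul_comm]; exact h1
    have h4 : θ / d ≤ q / 8 := by
      rw [div_le_iff₀ hd0, hd]
      have : q / 8 * (8 / q * θ + e') = θ + q / 8 * e' := by field_simp
      rw [this]; nlinarith
    linarith
  have m2 : (μ.prod κ).real {x | a < |err x|} ≤ q / 8 := by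
    have h1 := mul_meas_ge_le_integral_of_nonneg (μ := μ.prod κ) (f := fun x => |err x|)
      (ae_of_all _ fun _ => abs_nonneg _) he.abs a
    have h2 : (μ.prod κ).real {x | a < |err x|} ≤ (μ.prod κ).real {x | a ≤ |err x|} :=
      measureReal_mono (fun x (hx : a < _) => hx.le) (measure_ne_top _ _)
    have h3 : (μ.prod κ).real {x | a ≤ |err x|} ≤ er / a := by
      rw [le_div_iff₀ ha0, mul_comm]; exact h1
    have h4 : er / a ≤ q / 8 := by
      rw [div_le_iff₀ ha0, ha]
      have : q / 8 * (8 / q * er + e') = er + q / 8 * e' := by field_simp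
      rw [this]; nlinarith
    linarith
  have hZp : q - q / 8 ≤ μ.real {ω | Z ω ≤ t + a} := by
    have h2 : (μ.prod κ).real ({ω | Z ω ≤ t + a} ×ˢ univ) = μ.real {ω | Z ω ≤ t + a} := by
      unfold Measure.real
      rw [Measure.prod_prod, measure_univ, mul_one]
    have h3 : (μ.prod κ).real {x | V x ≤ t} ≤
        (μ.prod κ).real ({ω | Z ω ≤ t + a} ×ˢ univ ∪ {x | a < |err x|}) := by
      unfold Measure.real
      refine ENNReal.toReal_mono (measure_ne_top _ _) (measure_mono_ae ?_)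
      filter_upwards [hle] with x hx hxV
      by_cases h4 : a < |err x|
      · exact Or.inr h4
      · left
        refine ⟨?_, mem_univ _⟩
        push Not at h4
        have h5 := le_abs_self (err x)
        have h6 : V x ≤ t := hxV
        show Z x.1 ≤ t + a
        linarith
    have h4 := measureReal_union_le (μ := μ.prod κ) ({ω | Z ω ≤ t + a} ×ˢ (univ : Set Ω))
      {x | a < |err x|}
    linarith
  have hE : μ.real {ω | ¬ (|Z ω - X ω| ≤ d ∧ 0 ≤ Z ω)} ≤ q / 8 := by
    refine le_trans (ENNReal.toReal_mono (measure_ne_top _ _) (measure_mono_ae ?_)) m1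
    filter_upwards [hZ0] with ω hω hcon
    show d < |Z ω - X ω|
    by_contra hlt
    push Not at hlt
    exact hcon ⟨hlt, hω⟩
  have key := h.pert_mean hX hZm (d := d) (δ := q / 8) (t := t + a) (q := q - q / 8) hd0
    (by positivity) (by linarith) (by linarith) (by linarith) hE hZp
  refine key.trans ?_
  have e1 : ∫⁻ ω, ENNReal.ofReal |Z ω - X ω| ∂μ = ENNReal.ofReal θ :=
    (ofReal_integral_eq_lintegral_ofReal hD.abs (ae_of_all _ fun _ => abs_nonneg _)).symm
  have e2 : (ε : ℝ≥0∞) = ENNReal.ofReal (ε : ℝ) := by simp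
  rw [e1, e2, ← ENNReal.ofReal_add hθ0 (mul_nonneg (div_nonneg (by norm_num) (by linarith))
    (by positivity)), ← ENNReal.ofReal_add (by positivity) (NNReal.coe_nonneg ε)]
  apply ENNReal.ofReal_le_ofReal
  have h5 : 4 / (q - q / 8) ≤ 5 / q := by
    rw [div_le_div_iff₀ (by linarith) hq0]
    nlinarith
  have h6 : 4 / (q - q / 8) * (t + a + 3 * d) ≤ 5 / q * (t + a + 3 * d) :=
    mul_le_mul_of_nonneg_right h5 (by positivity)
  have h7 : 5 / q * (t + a + 3 * d) = 120 / q ^ 2 * θ + 40 / q ^ 2 * er + 5 / q * t + ε := by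
    rw [hd, ha, he']
    field_simp
    ring
  linarith

end pure

section row

variable {Φ : Type*} [MeasurableSpace Φ] {E : ℝ × ℝ → Set (Sym2 (ℤ × ℤ))}
  {G : Measure ℝ} [IsProbabilityMeasure G] {ν : Measure Φ} [IsProbabilityMeasure ν]
  {X D : Row Φ → ℝ} {Ω : Type*} [MeasurableSpace Ω] {κ : Measure Ω} [IsProbabilityMeasure κ]

lemma setLIntegral_cs (hE : ∀ e, MeasurableSet {θ | e ∈ E θ}) {A : Set (Row Φ)}
    (hA : MeasurableSet A) (hS : SInv E A) {f : Row Φ → ℝ≥0∞} (hf : Measurable f) :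
    ∫⁻ p in A, f p ∂((P0 G).prod ν) =
      ∫⁻ p in A, ∫⁻ t, f (cs E p t) ∂(iidLaw G) ∂((P0 G).prod ν) := by
  rw [← lintegral_indicator hA, ← lintegral_cs hE (hf.indicator hA), ← lintegral_indicator hA]
  refine lintegral_congr fun p => ?_
  by_cases hp : p ∈ A
  · rw [indicator_of_mem hp]
    refine lintegral_congr fun t => ?_
    rw [indicator_of_mem ((hS p t).2 hp)]
  · rw [indicator_of_notMem hp]
    rw [← lintegral_zero (μ := iidLaw G)]
    refine lintegral_congr fun t => ?_
    rw [indicator_of_notMem (fun h => hp ((hS p t).1 h))]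

lemma measurable_cs2 (hE : ∀ e, MeasurableSet {θ | e ∈ E θ}) :
    Measurable fun y : Row Φ × (Environment × Ω) => (cs E y.1 y.2.1, y.2.2) :=
  ((measurable_cs hE).comp (measurable_fst.prodMk (measurable_fst.comp measurable_snd))).prodMk
    (measurable_snd.comp measurable_snd)

/-- the Fubini form with additional independent randomness -/
theorem lintegral_cs2 (hE : ∀ e, MeasurableSet {θ | e ∈ E θ}) {f : Row Φ × Ω → ℝ≥0∞}
    (hf : Measurable f) :
    ∫⁻ p, ∫⁻ x, f (cs E p x.1, x.2) ∂((iidLaw G).prod κ) ∂((P0 G).prod ν) =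
      ∫⁻ y, f y ∂(((P0 G).prod ν).prod κ) := by
  have hW : Measurable fun p : Row Φ => ∫⁻ ω, f (p, ω) ∂κ := hf.lintegral_prod_right'
  rw [lintegral_prod _ hf.aemeasurable, ← lintegral_cs hE hW]
  refine lintegral_congr fun p => ?_
  have h1 : Measurable fun x : Environment × Ω => (cs E p x.1, x.2) :=
    ((measurable_cs_right E p).comp measurable_fst).prodMk measurable_snd
  exact lintegral_prod _ (hf.comp h1).aemeasurable

theorem mp_cs2 (hE : ∀ e, MeasurableSet {θ | e ∈ E θ}) :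
    MeasurePreserving (fun y : Row Φ × (Environment × Ω) => (cs E y.1 y.2.1, y.2.2))
      (((P0 G).prod ν).prod ((iidLaw G).prod κ)) (((P0 G).prod ν).prod κ) := by
  refine ⟨measurable_cs2 hE, ?_⟩
  ext A hA
  have hm : MeasurableSet ((fun y : Row Φ × (Environment × Ω) => (cs E y.1 y.2.1, y.2.2)) ⁻¹' A) :=
    measurable_cs2 hE hA
  rw [Measure.map_apply (measurable_cs2 hE) hA, ← lintegral_indicator_one hm,
    lintegral_prod _ (measurable_one.indicator hm).aemeasurable, ← lintegral_indicator_one hA,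
    ← lintegral_cs2 (G := G) (ν := ν) (κ := κ) hE (measurable_one.indicator hA)]
  rfl

/-- **mean by log-concavity, for every strip environment** -/
theorem SData.mean_all (h : SData G ν E X D) {A : Set (Row Φ)} (hA : MeasurableSet A)
    (hS : SInv E A) {q t : ℝ} (hq0 : 0 < q) (hq1 : q ≤ 1) (ht : 0 ≤ t)
    {V err : Row Φ × Ω → ℝ} (he : Measurable err)
    (hei : Integrable err (((P0 G).prod ν).prod κ))
    (hI : ∀ᵐ p ∂((P0 G).prod ν),
      q ≤ ((iidLaw G).prod κ).real {x | V (cs E p x.1, x.2) ≤ t})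
    (hle : ∀ᵐ y ∂(((P0 G).prod ν).prod κ), X y.1 - D y.1 ≤ V y + err y) :
    IntegrableOn (fun p => X p - D p) A ((P0 G).prod ν) ∧
      ∫ p in A, (X p - D p) ∂((P0 G).prod ν) ≤
        (1 + 120 / q ^ 2) * ∫ p, |D p| ∂((P0 G).prod ν) +
          (40 / q ^ 2) * ∫ y, |err y| ∂(((P0 G).prod ν).prod κ) +
          (5 / q) * t * ((P0 G).prod ν).real A := by
  set P := (P0 G).prod ν with hP
  have hI1 : 0 ≤ ∫ p, |D p| ∂P := integral_nonneg fun _ => abs_nonneg _
  have hI2 : 0 ≤ ∫ y, |err y| ∂(P.prod κ) := integral_nonneg fun _ => abs_nonneg _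
  have hle' : ∀ᵐ p ∂P, ∀ᵐ x ∂((iidLaw G).prod κ),
      X (cs E p x.1) - D (cs E p x.1) ≤ V (cs E p x.1, x.2) + err (cs E p x.1, x.2) :=
    Measure.ae_ae_of_ae_prod ((mp_cs2 (G := G) (ν := ν) (κ := κ) h.hE).quasiMeasurePreserving.ae hle)
  have hei' : ∀ᵐ p ∂P, Integrable (fun x => err (cs E p x.1, x.2)) ((iidLaw G).prod κ) :=
    ((mp_cs2 (G := G) (ν := ν) (κ := κ) h.hE).integrable_comp_of_integrable hei).prod_right_ae
  have hDi' : ∀ᵐ p ∂P, Integrable (fun t => D (cs E p t)) (iidLaw G) :=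
    (integrable_cs (G := G) (ν := ν) h.hE h.hDi).prod_right_ae
  -- conditional bound
  set gD : Row Φ → ℝ≥0∞ := fun p => ∫⁻ t, ENNReal.ofReal |D (cs E p t)| ∂(iidLaw G) with hgD
  set gE : Row Φ → ℝ≥0∞ := fun p =>
    ∫⁻ x, ENNReal.ofReal |err (cs E p x.1, x.2)| ∂((iidLaw G).prod κ) with hgE
  have hDo : Measurable fun p => ENNReal.ofReal |D p| := ENNReal.measurable_ofReal.comp h.hD.abs
  have hEo : Measurable fun y => ENNReal.ofReal |err y| := ENNReal.measurable_ofReal.comp he.abs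
  have mD : Measurable gD := (hDo.comp (measurable_cs h.hE)).lintegral_prod_right'
  have mE : Measurable gE := by
    have h1 : Measurable fun y : Row Φ × (Environment × Ω) =>
        ENNReal.ofReal |err (cs E y.1 y.2.1, y.2.2)| := hEo.comp (measurable_cs2 h.hE)
    exact h1.lintegral_prod_right'
  have c1 : 0 ≤ 1 + 120 / q ^ 2 := by positivity
  have c2 : 0 ≤ 40 / q ^ 2 := by positivity
  have hcond : ∀ᵐ p ∂P, ∫⁻ t, ENNReal.ofReal (X (cs E p t) - D (cs E p t)) ∂(iidLaw G) ≤
      ENNReal.ofReal (1 + 120 / q ^ 2) * gD p + (ENNReal.ofReal (40 / q ^ 2) * gE p +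
        ENNReal.ofReal ((5 / q) * t)) := by
    filter_upwards [h.lc, ae_cs h.hE h.nonneg, hle', hei', hDi', hI] with p hlc h0 hl hei hDi hIp
    have hm := measurable_cs_right E p
    have e0 : ∀ t, X (cs E p t) - D (cs E p t) - X (cs E p t) = -D (cs E p t) := fun t => by ring
    have h1 := hlc.mean_markov (κ := κ) (h.hX.comp hm)
      (Z := fun t => X (cs E p t) - D (cs E p t)) ((h.hX.sub h.hD).comp hm) h0
      (V := fun x => V (cs E p x.1, x.2)) (err := fun x => err (cs E p x.1, x.2)) hl hq0 hq1 ht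
      hIp (by simp only [e0]; exact hDi.neg) hei
    simp only [e0, abs_neg] at h1
    refine h1.trans (le_of_eq ?_)
    have hn1 : 0 ≤ ∫ t, |D (cs E p t)| ∂(iidLaw G) := integral_nonneg fun _ => abs_nonneg _
    have hn2 : 0 ≤ ∫ x, |err (cs E p x.1, x.2)| ∂((iidLaw G).prod κ) :=
      integral_nonneg fun _ => abs_nonneg _
    rw [add_assoc, ENNReal.ofReal_add (by positivity) (by positivity),
      ENNReal.ofReal_add (by positivity) (by positivity), ENNReal.ofReal_mul c1,
      ENNReal.ofReal_mul c2,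
      ofReal_integral_eq_lintegral_ofReal hDi.abs (ae_of_all _ fun _ => abs_nonneg _),
      ofReal_integral_eq_lintegral_ofReal hei.abs (ae_of_all _ fun _ => abs_nonneg _)]
  have tot : ∫⁻ p in A, ENNReal.ofReal (X p - D p) ∂P ≤
      ENNReal.ofReal ((1 + 120 / q ^ 2) * ∫ p, |D p| ∂P +
          (40 / q ^ 2) * ∫ y, |err y| ∂(P.prod κ) + (5 / q) * t * P.real A) := by
    have hZo : Measurable fun p => ENNReal.ofReal (X p - D p) :=
      ENNReal.measurable_ofReal.comp (h.hX.sub h.hD)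
    rw [setLIntegral_cs h.hE hA hS hZo]
    calc ∫⁻ p in A, ∫⁻ t, ENNReal.ofReal (X (cs E p t) - D (cs E p t)) ∂(iidLaw G) ∂P
        ≤ ∫⁻ p in A, (ENNReal.ofReal (1 + 120 / q ^ 2) * gD p +
            (ENNReal.ofReal (40 / q ^ 2) * gE p + ENNReal.ofReal ((5 / q) * t))) ∂P :=
          lintegral_mono_ae (ae_restrict_of_ae hcond)
      _ = ENNReal.ofReal (1 + 120 / q ^ 2) * ∫⁻ p in A, gD p ∂P +
            (ENNReal.ofReal (40 / q ^ 2) * ∫⁻ p in A, gE p ∂P +
              ENNReal.ofReal ((5 / q) * t) * P A) := by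
          rw [lintegral_add_left (mD.const_mul _), lintegral_add_left (mE.const_mul _),
            lintegral_const_mul _ mD, lintegral_const_mul _ mE, setLIntegral_const]
      _ ≤ ENNReal.ofReal (1 + 120 / q ^ 2) * ∫⁻ p, gD p ∂P +
            (ENNReal.ofReal (40 / q ^ 2) * ∫⁻ p, gE p ∂P +
              ENNReal.ofReal ((5 / q) * t) * P A) := by
          gcongr
          · exact Measure.restrict_le_self
          · exact Measure.restrict_le_self
      _ = _ := by
          have e1 : ∫⁻ p, gD p ∂P = ENNReal.ofReal (∫ p, |D p| ∂P) := by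
            rw [ofReal_integral_eq_lintegral_ofReal h.hDi.abs (ae_of_all _ fun _ => abs_nonneg _)]
            exact lintegral_cs h.hE hDo
          have e2 : ∫⁻ p, gE p ∂P = ENNReal.ofReal (∫ y, |err y| ∂(P.prod κ)) := by
            rw [ofReal_integral_eq_lintegral_ofReal hei.abs (ae_of_all _ fun _ => abs_nonneg _)]
            exact lintegral_cs2 h.hE hEo
          have e3 : P A = ENNReal.ofReal (P.real A) := (ofReal_measureReal).symm
          have hPA : 0 ≤ P.real A := measureReal_nonneg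
          have c3 : 0 ≤ 5 / q * t := by positivity
          rw [e1, e2, e3, ← ENNReal.ofReal_mul c1, ← ENNReal.ofReal_mul c2,
            ← ENNReal.ofReal_mul c3, ← ENNReal.ofReal_add (by positivity) (by positivity),
            ← ENNReal.ofReal_add (by positivity) (by positivity), add_assoc]
  have hPA : 0 ≤ P.real A := measureReal_nonneg
  exact toReal_bound (h.hX.sub h.hD) h.nonneg (by positivity) tot

/-- the whole space -/
theorem SData.mean_univ (h : SData G ν E X D) {q t : ℝ} (hq0 : 0 < q) (hq1 : q ≤ 1) (ht : 0 ≤ t)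
    {V err : Row Φ × Ω → ℝ} (he : Measurable err)
    (hei : Integrable err (((P0 G).prod ν).prod κ))
    (hI : ∀ᵐ p ∂((P0 G).prod ν),
      q ≤ ((iidLaw G).prod κ).real {x | V (cs E p x.1, x.2) ≤ t})
    (hle : ∀ᵐ y ∂(((P0 G).prod ν).prod κ), X y.1 - D y.1 ≤ V y + err y) :
    Integrable (fun p => X p - D p) ((P0 G).prod ν) ∧
      ∫ p, (X p - D p) ∂((P0 G).prod ν) ≤
        (1 + 120 / q ^ 2) * ∫ p, |D p| ∂((P0 G).prod ν) +
          (40 / q ^ 2) * ∫ y, |err y| ∂(((P0 G).prod ν).prod κ) + (5 / q) * t := by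
  have hu : SInv E (univ : Set (Row Φ)) := fun p t => by simp
  have h1 := h.mean_all (κ := κ) MeasurableSet.univ hu hq0 hq1 ht he hei hI hle
  rw [integrableOn_univ, Measure.restrict_univ, probReal_univ, mul_one] at h1
  exact h1

end row

end Crest.Agent.R151.V
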