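import Crest.Agent.R151.G338m
import Crest.Agent.R151.A565k
import Crest.Agent.R151.V21

/-!
# R151 (S0214 part 2): observables: measurability, invariance, failure events (helper338)

* `NS f A` : the event `|f| > A` of the space `RowS × ((ℝ × ℝ) × (ℝ × ℝ))` (law `(PR G).prod PF`);
* `meas_obK` ..., `inv_obK` ... ; `measurableSet_NS`, `inv_NS`, `prob_NS_le`.
-/

set_option autoImplicit false
set_option linter.unusedSectionVars false

open MeasureTheory Filter ProbabilityTheory Topology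
open scoped ENNReal
open Crest.ProbabilityR.FirstPassage

namespace Crest.Agent.R151

namespace Q

open K R78 B710 G338 M192

variable {μ : ℝ × ℝ → ℝ} {F : FlatData μ}

/-- the event `|f| > A` -/
def NS (f : Ob) (A : ℝ) : Set (RowS × ((ℝ × ℝ) × (ℝ × ℝ))) :=
  {y | A < |f y.1.1.1 y.1.1.2 y.1.2 y.2|}

/-- invariance of an observable under lattice translations -/
def Ob.Iv (f : Ob) : Prop := ∀ φ ω, Inv fun θ t => f θ t φ ω

lemma measurableSet_NS {f : Ob} (hf : f.Meas) (A : ℝ) : MeasurableSet (NS f A) :=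
  measurableSet_lt measurable_const hf.abs

lemma inv_NS {f : Ob} (hf : f.Iv) (A : ℝ) (ω : (ℝ × ℝ) × (ℝ × ℝ)) (φ : ℝ × ℝ) :
    Inv fun θ t => (((((θ, t), φ) : RowS), ω) : RowS × ((ℝ × ℝ) × (ℝ × ℝ))) ∈ NS f A := by
  intro m θ t
  have := hf φ ω m θ t
  show (A < |f (θ + toR m) (act (tr m) t) φ ω|) = (A < |f θ t φ ω|)
  have e : f (θ + toR m) (act (tr m) t) φ ω = f θ t φ ω := this
  rw [e]

lemma prob_NS_le {G : Measure ℝ} [IsProbabilityMeasure G] {f : Ob}
    (hi : Integrable (fun q : RowS × ((ℝ × ℝ) × (ℝ × ℝ)) => f q.1.1.1 q.1.1.2 q.1.2 q.2)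
      ((PR G).prod PF)) {A : ℝ} (hA : 0 < A) :
    ((PR G).prod PF).real (NS f A) ≤
      (∫ q, |f q.1.1.1 q.1.1.2 q.1.2 q.2| ∂((PR G).prod PF)) / A := by
  rw [le_div_iff₀ hA, mul_comm]
  refine le_trans ?_ (mul_meas_ge_le_integral_of_nonneg (ae_of_all _ fun q => abs_nonneg _)
    hi.abs A)
  exact mul_le_mul_of_nonneg_left (measureReal_mono (fun q (hq : A < _) => hq.le)) hA.le

/-! ### Random displacements -/

section rand

variable (h : Hwy F) {Ω : Type*} [MeasurableSpace Ω] {d θ : Ω → ℝ × ℝ} {t : Ω → Environment}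
  {φ : Ω → ℝ × ℝ} (hd : Measurable d) (hθ : Measurable θ) (ht : Measurable t) (hφ : Measurable φ)
include hd hθ ht hφ

lemma meas_Up_rand (k : ℤ) : Measurable fun ω => h.Up (d ω) (θ ω) (t ω) (φ ω) k :=
  h.meas_H (measurable_snd.comp hφ) (hθ.sub hd) ht k

lemma meas_iU_rand (s : ℝ) : Measurable fun ω => h.iU (d ω) s (θ ω) (t ω) (φ ω) :=
  h.meas_ix s (measurable_snd.comp hφ) (hθ.sub hd) ht

theorem meas_hk_rand {I : Ω → Set ℝ} (hI : ∀ v, MeasurableSet {ω | v ∈ rg F (I ω) (θ ω)})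
    (s s' : ℝ) : Measurable fun ω => h.hk (d ω) (I ω) s s' (θ ω) (t ω) (φ ω) :=
  measurable_hull ht (h.meas_Lo hθ ht hφ) (meas_Up_rand h hd hθ ht hφ) hI
    (h.meas_iL hθ ht hφ s) (meas_iU_rand h hd hθ ht hφ s')

theorem meas_gK_rand (s s' : ℝ) :
    Measurable fun ω => h.gK (d ω) s s' (θ ω) (t ω) (φ ω) := by
  unfold Hwy.gK gapK
  have hx := measurable_at (h.meas_Lo hθ ht hφ) (h.meas_iL hθ ht hφ s)
  have hy := measurable_at (meas_Up_rand h hd hθ ht hφ) (meas_iU_rand h hd hθ ht hφ s')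
  refine ((measurable_at (fun k => measurable_hc ht (h.meas_Lo hθ ht hφ) k)
    (h.meas_iL hθ ht hφ s)).add (Hwy.meas_pt hθ ht hφ hx hy)).sub ?_
  exact measurable_at (fun k => measurable_hc ht (meas_Up_rand h hd hθ ht hφ) k)
    (meas_iU_rand h hd hθ ht hφ s')

theorem meas_gE_rand {I : Ω → Set ℝ} (hI : ∀ v, MeasurableSet {ω | v ∈ rg F (I ω) (θ ω)})
    (L s s' : ℝ) : Measurable fun ω => h.gE (d ω) (I ω) L s s' (θ ω) (t ω) (φ ω) :=
  (meas_hk_rand h hd hθ ht hφ hI s s').sub (meas_gK_rand h hd hθ ht hφ (-L) L)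

end rand

lemma meas_rg_const {Ω : Type*} [MeasurableSpace Ω] {θ : Ω → ℝ × ℝ} (hθ : Measurable θ)
    {I : Set ℝ} (hI : MeasurableSet I) (v : ℤ × ℤ) : MeasurableSet {ω | v ∈ rg F I (θ ω)} := by
  have : Measurable fun ω => F.al (pos (θ ω) v) :=
    F.al.continuous.measurable.comp (Hwy.meas_pos hθ measurable_const)
  exact this hI

lemma meas_rg_Icc {Ω : Type*} [MeasurableSpace Ω] {θ : Ω → ℝ × ℝ} (hθ : Measurable θ)
    {α β : Ω → ℝ} (hα : Measurable α) (hβ : Measurable β) (v : ℤ × ℤ) :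
    MeasurableSet {ω | v ∈ rg F (Set.Icc (α ω) (β ω)) (θ ω)} := by
  have h1 : Measurable fun ω => F.al (pos (θ ω) v) :=
    F.al.continuous.measurable.comp (Hwy.meas_pos hθ measurable_const)
  exact (measurableSet_le hα h1).inter (measurableSet_le h1 hβ)

lemma measurable_offv (F : FlatData μ) (g c : ℝ) {Ω : Type*} [MeasurableSpace Ω]
    {η : Ω → ℝ × ℝ} (hη : Measurable η) : Measurable fun ω => offv F g c (η ω) := by
  unfold offv
  exact hη.const_add _

lemma measurable_dU (F : FlatData μ) (y g c : ℝ) {Ω : Type*} [MeasurableSpace Ω]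
    {η : Ω → ℝ × ℝ} (hη : Measurable η) :
    Measurable fun ω => Hwy.dU (offv F g c (η ω)) (y • F.b) (dOv F y g) := by
  unfold Hwy.dU
  exact ((measurable_offv F g c hη).const_sub _).sub_const _

/-- the coordinates of the space `RowS × ((ℝ × ℝ) × (ℝ × ℝ))` -/
abbrev YS : Type := RowS × ((ℝ × ℝ) × (ℝ × ℝ))

lemma mY_θ : Measurable fun q : YS => q.1.1.1 := measurable_fst.fst.fst
lemma mY_t : Measurable fun q : YS => q.1.1.2 := measurable_fst.fst.snd
lemma mY_φ : Measurable fun q : YS => q.1.2 := measurable_fst.snd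
lemma mY_η : Measurable fun q : YS => q.2.1 := measurable_snd.fst
lemma mY_φ₁ : Measurable fun q : YS => q.2.2 := measurable_snd.snd
lemma mY_lo : Measurable fun q : YS => Hwy.φlo q.1.2 q.2.2 :=
  (measurable_fst.comp mY_φ).prodMk (measurable_fst.comp mY_φ₁)
lemma mY_up : Measurable fun q : YS => Hwy.φup q.1.2 q.2.2 :=
  (measurable_snd.comp mY_φ₁).prodMk (measurable_snd.comp mY_φ)

variable (h : Hwy F) (y g c Λ L : ℝ)

lemma measurable_Jw (Λ : ℝ) : MeasurableSet (Jw Λ) := measurableSet_Icc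

/-- the inner row observable: `R#` of the inner row -/
noncomputable def obI (h : Hwy F) (y g c : ℝ) (I : Set ℝ) (L s s' : ℝ) : Ob := fun θ t _ r =>
  h.sk (y • F.b) I Set.univ L s s' (θ - offv F g c r.1) t r.2

theorem meas_obK : (obK h y g c Λ L).Meas := by
  unfold Ob.Meas obK Hwy.K0
  have m1 := meas_gK_rand h (measurable_offv F g c mY_η) mY_θ mY_t mY_lo (-L) L
  have m2 := h.meas_hk (mY_θ.sub (measurable_offv F g c mY_η)) mY_t mY_φ₁ (y • F.b)
    MeasurableSet.univ (-L) L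
  have m3 := meas_gK_rand h (measurable_dU F y g c mY_η)
    ((mY_θ.sub (measurable_offv F g c mY_η)).sub_const (y • F.b)) mY_t mY_up (-L) L
  have m4 := h.meas_hk mY_θ mY_t mY_φ (dOv F y g) (measurable_Jw Λ) (-L) L
  exact ((m1.add m2).add m3).sub m4

lemma measurable_devB_comp (N : ℕ) {Ω : Type*} [MeasurableSpace Ω] {θ : Ω → ℝ × ℝ}
    {t : Ω → Environment} (hθ : Measurable θ) (ht : Measurable t) :
    Measurable fun ω => devB μ N (θ ω) (t ω) := by
  have h1 : Measurable fun p : (ℝ × ℝ) × Environment => devB μ N p.1 p.2 := R6.measurable_devB N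
  have h2 : Measurable fun ω => (θ ω, t ω) := hθ.prodMk ht
  have h3 := h1.comp h2
  exact h3

theorem meas_obD (N : ℕ) : (obD F y g N).Meas := by
  have m1 : Measurable fun q : YS => devB μ N q.1.1.1 q.1.1.2 :=
    measurable_devB_comp N mY_θ mY_t
  have m2 : Measurable fun q : YS => devB μ N (q.1.1.1 - dOv F y g) q.1.1.2 :=
    measurable_devB_comp N (mY_θ.sub_const _) mY_t
  show Measurable fun q : YS => max (devB μ N q.1.1.1 q.1.1.2)
    (devB μ N (q.1.1.1 - dOv F y g) q.1.1.2)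
  exact m1.max m2

theorem meas_obJ : (obJ h y g Λ L).Meas := by
  unfold Ob.Meas obJ
  exact (h.meas_hk mY_θ mY_t mY_φ (dOv F y g) (measurable_Jw Λ) (-L) L).sub
    (h.meas_hk mY_θ mY_t mY_φ (dOv F y g) MeasurableSet.univ (-L) L)

theorem meas_obG {ρ : RowS → ℝ} (hρ : Measurable ρ) : (obG h y g L ρ).Meas := by
  unfold Ob.Meas obG
  exact (h.meas_hk mY_θ mY_t mY_φ (dOv F y g) MeasurableSet.univ (-L) L).sub
    (hρ.comp ((mY_θ.prodMk mY_t).prodMk mY_φ))

theorem meas_obLo (α β s s₁ : ℝ) : (obLo h g c α β L s s₁).Meas := by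
  unfold Ob.Meas obLo
  exact meas_gE_rand h (measurable_offv F g c mY_η) mY_θ mY_t mY_lo
    (meas_rg_const mY_θ measurableSet_Icc) L s s₁

theorem meas_obUp (α β s₂ s' : ℝ) : (obUp h y g c α β L s₂ s').Meas := by
  unfold Ob.Meas obUp
  have mal : Measurable fun q : YS => F.al (offv F g c q.2.1) :=
    F.al.continuous.measurable.comp (measurable_offv F g c mY_η)
  have mθ := (mY_θ.sub (measurable_offv F g c mY_η)).sub_const (y • F.b)
  exact meas_gE_rand h (measurable_dU F y g c mY_η) mθ mY_t mY_up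
    (meas_rg_Icc mθ ((mal.const_sub α).sub_const _) ((mal.const_sub β).sub_const _)) L s₂ s'

theorem meas_obI {I : Set ℝ} (hI : MeasurableSet I) (s s' : ℝ) :
    (obI h y g c I L s s').Meas := by
  unfold Ob.Meas obI
  exact h.meas_sk (mY_θ.sub (measurable_offv F g c mY_η)) mY_t mY_φ₁ (y • F.b) hI
    MeasurableSet.univ L s s'

lemma add_toR_sub (θ v : ℝ × ℝ) (m : ℤ × ℤ) : θ + toR m - v = θ - v + toR m := by abel

theorem inv_obK : (obK h y g c Λ L).Iv := by
  intro φ ω m θ t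
  have e1 := Hwy.gK_inv h (offv F g c ω.1) (-L) L (Hwy.φlo φ ω.2) m θ t
  have e2 := Hwy.hk_inv h (y • F.b) Set.univ (-L) L ω.2 m (θ - offv F g c ω.1) t
  have e3 := Hwy.gK_inv h (Hwy.dU (offv F g c ω.1) (y • F.b) (dOv F y g)) (-L) L
    (Hwy.φup φ ω.2) m (θ - offv F g c ω.1 - y • F.b) t
  have e4 := Hwy.hk_inv h (dOv F y g) (Jw Λ) (-L) L φ m θ t
  simp only at e1 e2 e3 e4
  show h.K0 (offv F g c ω.1) (y • F.b) (dOv F y g) (Jw Λ) L (θ + toR m) (act (tr m) t) φ ω.2 =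
    h.K0 (offv F g c ω.1) (y • F.b) (dOv F y g) (Jw Λ) L θ t φ ω.2
  unfold Hwy.K0
  rw [add_toR_sub, add_toR_sub, e1, e2, e3, e4]

theorem inv_obD (N : ℕ) : (obD F y g N).Iv := by
  intro φ ω m θ t
  have e1 := R6.inv_devB (μ := μ) N m θ t
  have e2 := R6.inv_devB (μ := μ) N m (θ - dOv F y g) t
  show max (devB μ N (θ + toR m) (act (tr m) t))
    (devB μ N (θ + toR m - dOv F y g) (act (tr m) t)) =
    max (devB μ N θ t) (devB μ N (θ - dOv F y g) t)
  rw [add_toR_sub, e1, e2]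

theorem inv_obJ : (obJ h y g Λ L).Iv := by
  intro φ ω m θ t
  have e1 := Hwy.hk_inv h (dOv F y g) (Jw Λ) (-L) L φ m θ t
  have e2 := Hwy.hk_inv h (dOv F y g) Set.univ (-L) L φ m θ t
  simp only at e1 e2
  show h.hk (dOv F y g) (Jw Λ) (-L) L (θ + toR m) (act (tr m) t) φ -
    h.hk (dOv F y g) Set.univ (-L) L (θ + toR m) (act (tr m) t) φ = _
  rw [e1, e2]
  rfl

theorem inv_obG {ρ : RowS → ℝ} (hρ : ∀ φ, Inv fun θ t => ρ ((θ, t), φ)) :
    (obG h y g L ρ).Iv := by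
  intro φ ω m θ t
  have e1 := hρ φ m θ t
  have e2 := Hwy.hk_inv h (dOv F y g) Set.univ (-L) L φ m θ t
  simp only at e1 e2
  show h.hk (dOv F y g) Set.univ (-L) L (θ + toR m) (act (tr m) t) φ -
    ρ ((θ + toR m, act (tr m) t), φ) = _
  rw [e1, e2]
  rfl

theorem inv_obLo (α β s s₁ : ℝ) : (obLo h g c α β L s s₁).Iv := by
  intro φ ω m θ t
  have e1 := Hwy.gK_inv h (offv F g c ω.1) (-L) L (Hwy.φlo φ ω.2) m θ t
  have e2 := Hwy.hk_inv h (offv F g c ω.1) (Set.Icc α β) s s₁ (Hwy.φlo φ ω.2) m θ t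
  simp only at e1 e2
  show h.gE (offv F g c ω.1) (Set.Icc α β) L s s₁ (θ + toR m) (act (tr m) t) (Hwy.φlo φ ω.2) = _
  unfold Hwy.gE
  rw [e1, e2]
  rfl

theorem inv_obUp (α β s₂ s' : ℝ) : (obUp h y g c α β L s₂ s').Iv := by
  intro φ ω m θ t
  have e1 := Hwy.gK_inv h (Hwy.dU (offv F g c ω.1) (y • F.b) (dOv F y g)) (-L) L
    (Hwy.φup φ ω.2) m (θ - offv F g c ω.1 - y • F.b) t
  have e2 := Hwy.hk_inv h (Hwy.dU (offv F g c ω.1) (y • F.b) (dOv F y g))
    (Set.Icc (α - F.al (offv F g c ω.1) - F.al (y • F.b))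
      (β - F.al (offv F g c ω.1) - F.al (y • F.b))) s₂ s'
    (Hwy.φup φ ω.2) m (θ - offv F g c ω.1 - y • F.b) t
  simp only at e1 e2
  show h.gE (Hwy.dU (offv F g c ω.1) (y • F.b) (dOv F y g))
    (Set.Icc (α - F.al (offv F g c ω.1) - F.al (y • F.b))
      (β - F.al (offv F g c ω.1) - F.al (y • F.b))) L s₂ s'
    (θ + toR m - offv F g c ω.1 - y • F.b) (act (tr m) t) (Hwy.φup φ ω.2) = _
  rw [add_toR_sub, add_toR_sub]
  unfold Hwy.gE
  rw [e1, e2]
  rfl

theorem inv_obI (I : Set ℝ) (s s' : ℝ) : (obI h y g c I L s s').Iv := by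
  intro φ ω m θ t
  have e1 := Hwy.sk_inv h (y • F.b) I Set.univ L s s' ω.2 m (θ - offv F g c ω.1) t
  simp only at e1
  show h.sk (y • F.b) I Set.univ L s s' (θ + toR m - offv F g c ω.1) (act (tr m) t) ω.2 = _
  rw [add_toR_sub, e1]
  rfl

end Q

end Crest.Agent.R151
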