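import Crest.Agent.R151.E39c
import Crest.Agent.R151.A565c
import Crest.Agent.R151.K2b
import Crest.Agent.R151.V10
import Crest.Agent.R151.B710

/-!
# R151, block S1 (helper785): goodness of an abscissa as a MEASURABLE event

`GM k D C3 c b Fp Fq y` only uses the two deterministic label functions `Fp`, `Fq` (slopes `-c1`
and `c1`, `c1 < μ (1,0)`); it implies helper39's `E39.Good` for every set of labels squeezed between
them, and its complement has small probability.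
-/

set_option autoImplicit false

open MeasureTheory ProbabilityTheory Set Filter
open scoped ENNReal Topology
open Crest.ProbabilityR.FirstPassage
open Crest.Agent.R151.K

namespace Crest.Agent.R151.G785

/-! ## squeezed functions -/

/-- `f` is squeezed between the increments of `p` and `q` -/
def Sqz (p q f : ℤ → ℝ) : Prop :=
  ∀ x, p (x + 1) - p x ≤ f (x + 1) - f x ∧ f (x + 1) - f x ≤ q (x + 1) - q x

/-- the lower bound for `f w - f y` -/
noncomputable def sq (p q : ℤ → ℝ) (y w : ℤ) : ℝ := if y < w then p w - p y else q w - q y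

lemma inc_le_of_step {p f : ℤ → ℝ} (h : ∀ x, p (x + 1) - p x ≤ f (x + 1) - f x) {y w : ℤ}
    (hyw : y ≤ w) : p w - p y ≤ f w - f y := by
  obtain ⟨n, rfl⟩ := Int.le.dest hyw
  clear hyw
  induction n with
  | zero => simp
  | succ n ih =>
    have := h (y + n)
    push_cast at this ⊢
    rw [← add_assoc]
    linarith

lemma Sqz.sq_le {p q f : ℤ → ℝ} (h : Sqz p q f) (y w : ℤ) : sq p q y w ≤ f w - f y := by
  unfold sq
  split_ifs with hyw
  · exact inc_le_of_step (fun x => (h x).1) hyw.le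
  · have := inc_le_of_step (fun x => (h x).2) (not_lt.1 hyw)
    linarith

lemma Sqz.shift {p q f : ℤ → ℝ} (h : Sqz p q f) (z : ℤ) :
    Sqz (fun x => p (x + z)) (fun x => q (x + z)) (fun x => f (x + z)) := by
  intro x
  have := h (x + z)
  have e : x + z + 1 = x + 1 + z := by ring
  rw [e] at this
  exact this

/-! ## the event -/

open Classical in
/-- the event `g3` of `E39.Good` -/
def G3 (k : ℕ) (c b : ℝ) (y : ℤ) : Set Environment :=
  {t | ∀ (v : ℤ × ℤ) (w : squareLattice.Walk (y, 0) v), w.edges.Nodup → w.length = k →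
    c * k ≤ ((w.edges.toFinset.filter fun e => b ≤ t e).card : ℝ)}

/-- the event `g1` (with the squeeze functions), on the row `j` -/
def G1 (k D : ℕ) (C3 : ℝ) (j : ℤ) (Fp Fq : Environment → ℤ → ℝ) (y : ℤ) : Set Environment :=
  {t | ∀ z : ℤ × ℤ, |z.1 - y| ≤ k → |z.2| ≤ (k : ℤ) + 1 → ∀ w : ℤ, (D : ℤ) < |w - y| →
    ∑ e ∈ E39.boxE k y, t e + (2 * C3 + 10) < passageTime t z (w, j) + sq (Fp t) (Fq t) y w}

/-- the event `g2` -/
def G2 (k : ℕ) (C3 : ℝ) (y : ℤ) : Set Environment := {t | ∑ e ∈ E39.boxE k y, t e ≤ C3}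

/-- the goodness event: squeeze functions `Fp, Fq` on the row `k+1`, `Hp, Hq` on `-(k+1)` -/
def GM (k D : ℕ) (C3 c b : ℝ) (Fp Fq Hp Hq : Environment → ℤ → ℝ) (y : ℤ) : Set Environment :=
  ((G1 k D C3 ((k : ℤ) + 1) Fp Fq y ∩ G1 k D C3 (-((k : ℤ) + 1)) Hp Hq y) ∩ G2 k C3 y) ∩
    G3 k c b y

section

variable {k D : ℕ} {C3 c b : ℝ} {j : ℤ} {Fp Fq Hp Hq : Environment → ℤ → ℝ} {y : ℤ}
  {t : Environment}

theorem GM.good (h : t ∈ GM k D C3 c b Fp Fq Hp Hq y) {L : Set ((ℤ → ℝ) × (ℤ → ℝ))}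
    (hL : ∀ a ∈ L, Sqz (Fp t) (Fq t) a.1) : E39.Good k D C3 c b L y t := by
  obtain ⟨⟨⟨h1, -⟩, h2⟩, h3⟩ := h
  refine ⟨fun a ha z hz1 hz2 w hw => ?_, h2, ?_⟩
  · have := h1 z hz1 hz2 w hw
    have h4 := (hL a ha).sq_le y w
    linarith
  · intro v w hn hl
    have := h3 v w hn hl
    convert this

theorem G1.mono {C3' : ℝ} (h : t ∈ G1 k D C3 j Fp Fq y) {D' : ℕ} (hD : D ≤ D') (hC : C3' ≤ C3) :
    t ∈ G1 k D' C3' j Fp Fq y := by
  intro z hz1 hz2 w hw
  have h1 : (D : ℤ) < |w - y| := lt_of_le_of_lt (by exact_mod_cast hD) hw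
  have := h z hz1 hz2 w h1
  linarith

/-- two points of the box are at distance at most the sum over the box -/
theorem pt_le_box (ht : Nn t) {u v : ℤ × ℤ} (hu1 : |u.1 - y| ≤ k) (hu2 : |u.2| ≤ (k : ℤ) + 1)
    (hv1 : |v.1 - y| ≤ k) (hv2 : |v.2| ≤ (k : ℤ) + 1) :
    passageTime t u v ≤ ∑ e ∈ E39.boxE k y, t e := by
  classical
  obtain ⟨w, hw⟩ := (E39.rc_rect hu1 hu2).trans (E39.rc_rect hv1 hv2).symm
  refine (pt_le ht w.toPath.1).trans (E39.walkCost_le_sum ht w.toPath.2.isTrail.edges_nodup ?_)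
  intro e he
  exact hw e (SimpleGraph.Walk.edges_toPath_subset_edges w he)

/-- localisation of the end point of a near tie at a good abscissa -/
theorem G1.loc (ht : Nn t) (h : t ∈ G1 k D C3 j Fp Fq y) (hj : |j| ≤ (k : ℤ) + 1)
    {f : ℤ → ℝ} (hf : Sqz (Fp t) (Fq t) f) {z : ℤ × ℤ} (hz1 : |z.1 - y| ≤ k)
    (hz2 : |z.2| ≤ (k : ℤ) + 1) {w : ℤ} (hw : (D : ℤ) < |w - y|) :
    passageTime t z (y, j) + f y + (2 * C3 + 10) < passageTime t z (w, j) + f w := by
  have h1 := h z hz1 hz2 w hw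
  have h2 := hf.sq_le y w
  have h3 : passageTime t z (y, j) ≤ ∑ e ∈ E39.boxE k y, t e :=
    pt_le_box ht hz1 hz2 (by simp) hj
  linarith

/-- at a good abscissa the minimum over the row is attained at distance at most `D` -/
theorem G1.exists_min (ht : Nn t) (h : t ∈ G1 k D C3 j Fp Fq y) (hC : 0 ≤ C3)
    (hj : |j| ≤ (k : ℤ) + 1) {f : ℤ → ℝ} (hf : Sqz (Fp t) (Fq t) f) {z : ℤ × ℤ}
    (hz1 : |z.1 - y| ≤ k) (hz2 : |z.2| ≤ (k : ℤ) + 1) :
    ∃ w : ℤ, |w - y| ≤ D ∧
      ∀ w' : ℤ, passageTime t z (w, j) + f w ≤ passageTime t z (w', j) + f w' := by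
  obtain ⟨w, hw, hmin⟩ := (Finset.Icc (y - D) (y + D)).exists_min_image
    (fun w => passageTime t z (w, j) + f w) ⟨y, by simp⟩
  rw [Finset.mem_Icc] at hw
  refine ⟨w, abs_le.2 ⟨by omega, by omega⟩, fun w' => ?_⟩
  by_cases hw' : |w' - y| ≤ D
  · exact hmin w' (Finset.mem_Icc.2 ⟨by have := abs_le.1 hw'; omega, by
      have := abs_le.1 hw'; omega⟩)
  · have h1 := G1.loc ht h hj hf hz1 hz2 (not_le.1 hw')
    have h2 := hmin y (Finset.mem_Icc.2 ⟨by omega, by omega⟩)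
    linarith

/-! ## measurability -/

theorem measurableSet_G3 : MeasurableSet (G3 k c b y) := by
  classical
  unfold G3
  simp only [Set.ofPred_forall]
  refine MeasurableSet.iInter fun v => MeasurableSet.iInter fun w => MeasurableSet.iInter fun _ =>
    MeasurableSet.iInter fun _ => ?_
  refine measurableSet_le measurable_const ?_
  have : (fun t : Environment =>
      (((w.edges.toFinset.filter fun e => b ≤ t e).card : ℕ) : ℝ)) =
      fun t => ∑ e ∈ w.edges.toFinset, (if b ≤ t e then (1:ℝ) else 0) := by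
    funext t
    rw [Finset.card_filter]
    push_cast
    rfl
  have h2 : Measurable (fun t : Environment =>
      ∑ e ∈ w.edges.toFinset, (if b ≤ t e then (1:ℝ) else 0)) := by
    refine Finset.measurable_sum _ fun e _ => ?_
    exact Measurable.ite (measurableSet_le measurable_const (measurable_pi_apply e))
      measurable_const measurable_const
  rw [← this] at h2
  convert h2

theorem measurable_sq (hp : ∀ x, Measurable fun t => Fp t x) (hq : ∀ x, Measurable fun t => Fq t x)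
    (y w : ℤ) : Measurable fun t => sq (Fp t) (Fq t) y w := by
  unfold sq
  split_ifs
  · exact (hp w).sub (hp y)
  · exact (hq w).sub (hq y)

theorem measurableSet_G1 (hp : ∀ x, Measurable fun t => Fp t x)
    (hq : ∀ x, Measurable fun t => Fq t x) : MeasurableSet (G1 k D C3 j Fp Fq y) := by
  unfold G1
  simp only [Set.ofPred_forall]
  refine MeasurableSet.iInter fun z => MeasurableSet.iInter fun _ => MeasurableSet.iInter fun _ =>
    MeasurableSet.iInter fun w => MeasurableSet.iInter fun _ => ?_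
  exact measurableSet_lt ((Finset.measurable_sum _ fun e _ => measurable_pi_apply e).add_const _)
    ((measurable_pt z _).add (measurable_sq hp hq y w))

theorem measurableSet_G2 : MeasurableSet (G2 k C3 y) :=
  measurableSet_le (Finset.measurable_sum _ fun e _ => measurable_pi_apply e) measurable_const

theorem measurableSet_GM (hp : ∀ x, Measurable fun t => Fp t x)
    (hq : ∀ x, Measurable fun t => Fq t x) (hp' : ∀ x, Measurable fun t => Hp t x)
    (hq' : ∀ x, Measurable fun t => Hq t x) :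
    MeasurableSet (GM k D C3 c b Fp Fq Hp Hq y) :=
  (((measurableSet_G1 hp hq).inter (measurableSet_G1 hp' hq')).inter measurableSet_G2).inter
    measurableSet_G3

end

/-! ## coercivity -/

/-- slope at `+∞` gives a linear lower bound on the right -/
lemma lower_right {p : ℤ → ℝ} {c : ℝ} (h : Tendsto (fun x : ℤ => p x / x) atTop (𝓝 (-c)))
    {ε : ℝ} (hε : 0 < ε) : ∃ B : ℝ, ∀ w : ℤ, 0 ≤ w → -(c + ε) * w - B ≤ p w := by
  have h1 : ∀ᶠ x : ℤ in atTop, -(c + ε) < p x / x := h.eventually (lt_mem_nhds (by linarith))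
  obtain ⟨N, hN⟩ := (h1.and (eventually_gt_atTop 0)).exists_forall_of_atTop
  refine ⟨∑ x ∈ Finset.Icc 0 N, |(c + ε) * x + p x|, fun w hw => ?_⟩
  rcases le_or_gt N w with hNw | hwN
  · obtain ⟨h2, h3⟩ := hN w hNw
    have h4 : (0:ℝ) < w := by exact_mod_cast h3
    rw [lt_div_iff₀ h4] at h2
    have h5 : 0 ≤ ∑ x ∈ Finset.Icc 0 N, |(c + ε) * x + p x| :=
      Finset.sum_nonneg fun _ _ => abs_nonneg _
    linarith
  · have h5 : |(c + ε) * w + p w| ≤ ∑ x ∈ Finset.Icc 0 N, |(c + ε) * x + p x| :=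
      Finset.single_le_sum (f := fun x : ℤ => |(c + ε) * x + p x|) (fun _ _ => abs_nonneg _)
        (Finset.mem_Icc.2 ⟨hw, hwN.le⟩)
    have h6 := neg_abs_le ((c + ε) * w + p w)
    linarith

lemma lower_left {p : ℤ → ℝ} {c : ℝ} (h : Tendsto (fun x : ℤ => p x / x) atBot (𝓝 c))
    {ε : ℝ} (hε : 0 < ε) : ∃ B : ℝ, ∀ w : ℤ, w ≤ 0 → (c + ε) * w - B ≤ p w := by
  have h1 : Tendsto (fun x : ℤ => (fun x => p (-x)) x / (x : ℝ)) atTop (𝓝 (-c)) := by
    have h2 := (h.comp tendsto_neg_atTop_atBot).neg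
    refine h2.congr fun x => ?_
    simp only [Function.comp, Int.cast_neg, div_neg, neg_neg]
  obtain ⟨B, hB⟩ := lower_right h1 hε
  refine ⟨B, fun w hw => ?_⟩
  have := hB (-w) (by omega)
  simp only [neg_neg, Int.cast_neg] at this
  linarith

/-- the squeeze function has a linear lower bound -/
lemma sq_lower {p q : ℤ → ℝ} {c sp sq' : ℝ}
    (hp : Tendsto (fun x : ℤ => p x / x) atTop (𝓝 sp))
    (hq : Tendsto (fun x : ℤ => q x / x) atBot (𝓝 sq')) (hsp : -c ≤ sp) (hsq : sq' ≤ c)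
    {ε : ℝ} (hε : 0 < ε) (y : ℤ) :
    ∃ B : ℝ, ∀ w : ℤ, -(c + ε) * |(w : ℝ)| - B ≤ sq p q y w := by
  obtain ⟨B1, h1'⟩ := lower_right (p := p) (c := -sp) (by rwa [neg_neg]) hε
  obtain ⟨B2, h2'⟩ := lower_left hq hε
  have h1 : ∀ w : ℤ, 0 ≤ w → -(c + ε) * w - B1 ≤ p w := fun w hw => by
    have a1 := h1' w hw
    have a2 : (0:ℝ) ≤ w := by exact_mod_cast hw
    have a3 : 0 ≤ (sp + c) * w := mul_nonneg (by linarith) a2
    nlinarith
  have h2 : ∀ w : ℤ, w ≤ 0 → (c + ε) * w - B2 ≤ q w := fun w hw => by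
    have a1 := h2' w hw
    have a2 : (w:ℝ) ≤ 0 := by exact_mod_cast hw
    have a3 : 0 ≤ (sq' - c) * w := mul_nonneg_of_nonpos_of_nonpos (by linarith) a2
    nlinarith
  refine ⟨|B1| + |B2| + |p y| + |q y| +
    ∑ x ∈ Finset.Icc (-|y|) |y|, (|p x| + |q x| + |c + ε| * |(x : ℝ)|), fun w => ?_⟩
  have hb1 := le_abs_self B1
  have hb2 := le_abs_self B2
  have hb3 := abs_nonneg B1
  have hb4 := abs_nonneg B2
  have hy1 := le_abs_self (p y)
  have hy2 := le_abs_self (q y)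
  have hy3 := abs_nonneg (p y)
  have hy4 := abs_nonneg (q y)
  have hs : 0 ≤ ∑ x ∈ Finset.Icc (-|y|) |y|, (|p x| + |q x| + |c + ε| * |(x : ℝ)|) :=
    Finset.sum_nonneg fun _ _ => by positivity
  by_cases hw : |w| ≤ |y|
  · have h5 : |p w| + |q w| + |c + ε| * |(w : ℝ)| ≤
        ∑ x ∈ Finset.Icc (-|y|) |y|, (|p x| + |q x| + |c + ε| * |(x : ℝ)|) :=
      Finset.single_le_sum (f := fun x : ℤ => |p x| + |q x| + |c + ε| * |(x : ℝ)|)
        (fun _ _ => by positivity) (Finset.mem_Icc.2 (abs_le.1 hw))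
    have h6 := neg_abs_le (p w)
    have h7 := neg_abs_le (q w)
    have h9 : -(c + ε) * |(w : ℝ)| ≤ |c + ε| * |(w : ℝ)| :=
      mul_le_mul_of_nonneg_right (neg_le_abs _) (abs_nonneg _)
    have h10 := abs_nonneg (p w)
    have h11 := abs_nonneg (q w)
    unfold sq
    split_ifs <;> linarith
  · rw [not_le] at hw
    unfold sq
    split_ifs with hyw
    · have hw0 : 0 ≤ w := by
        rcases abs_cases w with h | h <;> rcases abs_cases y with h' | h' <;> omega
      have h3 := h1 w hw0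
      have h4 : |(w : ℝ)| = w := abs_of_nonneg (by exact_mod_cast hw0)
      rw [h4]
      linarith
    · have hw0 : w ≤ 0 := by
        rcases abs_cases w with h | h <;> rcases abs_cases y with h' | h' <;> omega
      have h3 := h2 w hw0
      have h4 : |(w : ℝ)| = -w := abs_of_nonpos (by exact_mod_cast hw0)
      rw [h4]
      linarith

/-- **coercivity**: `T(z, (w, j)) + g w → ∞`, uniformly for `z` in a finite box -/
theorem coercive {μ : ℝ × ℝ → ℝ} {t : Environment} {m1 c1 : ℝ} (hm0 : 0 ≤ m1)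
    (hm : ∀ x y : ℝ, m1 * |x| ≤ μ (x, y)) (hc : c1 < m1)
    (hS : ∀ ε > 0, ∀ᶠ n : ℕ in atTop, dev μ n t ≤ ε * n) (A : ℕ) (j : ℤ) {g : ℤ → ℝ}
    (hg : ∀ ε > 0, ∃ B : ℝ, ∀ w : ℤ, -(c1 + ε) * |(w : ℝ)| - B ≤ g w) (C : ℝ) :
    ∃ D : ℕ, ∀ z : ℤ × ℤ, |z.1| ≤ A → |z.2| ≤ A → ∀ w : ℤ, (D : ℤ) < |w| →
      C < passageTime t z (w, j) + g w := by
  set δ := (m1 - c1) / 4 with hδ
  have hδ0 : 0 < δ := by rw [hδ]; linarith
  obtain ⟨B, hB⟩ := hg δ hδ0
  obtain ⟨N0, hN0⟩ := (hS δ hδ0).exists_forall_of_atTop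
  set K := m1 * A + δ * (A + |(j : ℝ)|) + B with hK
  obtain ⟨D1, hD1⟩ := exists_nat_gt ((C + K) / (2 * δ))
  refine ⟨max D1 N0, fun z hz1 hz2 w hw => ?_⟩
  have hw1 : (D1 : ℤ) < |w| := lt_of_le_of_lt (by exact_mod_cast le_max_left _ _) hw
  have hw2 : (N0 : ℤ) < |w| := lt_of_le_of_lt (by exact_mod_cast le_max_right _ _) hw
  set n : ℕ := w.natAbs + A + j.natAbs with hn
  have hnw : (w.natAbs : ℤ) = |w| := Int.natCast_natAbs w
  have hnj : (j.natAbs : ℤ) = |j| := Int.natCast_natAbs j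
  have hnN : N0 ≤ n := by omega
  have h1 := hN0 n hnN
  have hzb : z ∈ box n := by
    rw [mem_box]
    have a1 := abs_le.1 hz1
    have a2 := abs_le.1 hz2
    refine ⟨⟨?_, ?_⟩, ?_, ?_⟩ <;> omega
  have hwb : ((w, j) : ℤ × ℤ) ∈ box n := by
    rw [mem_box]
    have a1 := neg_abs_le w
    have a2 := le_abs_self w
    have a3 := neg_abs_le j
    have a4 := le_abs_self j
    refine ⟨⟨?_, ?_⟩, ?_, ?_⟩ <;> simp only <;> omega
  have h2 := (abs_le.1 (le_dev μ t hzb hwb)).1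
  have h3 : m1 * |(w : ℝ) - z.1| ≤ μ (toR ((w, j) - z)) := by
    have := hm ((w : ℝ) - z.1) ((j : ℝ) - z.2)
    refine this.trans (le_of_eq ?_)
    congr 1
    simp [toR]
  have h4 : |(w : ℝ)| - A ≤ |(w : ℝ) - z.1| := by
    have a1 : |(z.1 : ℝ)| ≤ A := by exact_mod_cast hz1
    have a2 := abs_sub_abs_le_abs_sub (w : ℝ) z.1
    linarith
  have h5 := hB w
  have h6 : (n : ℝ) = |(w : ℝ)| + A + |(j : ℝ)| := by
    have : (n : ℤ) = |w| + A + |j| := by rw [hn]; push_cast; simp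
    exact_mod_cast this
  have h7 : (D1 : ℝ) < |(w : ℝ)| := by exact_mod_cast hw1
  have h8 : (C + K) / (2 * δ) < |(w : ℝ)| := hD1.trans h7
  rw [div_lt_iff₀ (by positivity)] at h8
  have h9 : m1 * (|(w : ℝ)| - A) ≤ m1 * |(w : ℝ) - z.1| := mul_le_mul_of_nonneg_left h4 hm0
  have h10 : m1 - c1 = 4 * δ := by rw [hδ]; ring
  rw [h6] at h1
  nlinarith

end Crest.Agent.R151.G785
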