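import Crest.Agent.R151.J69i
import Crest.Agent.R151.NF3

/-!
# R151/J684a — crude moves of the strategy along the lower highway; the lower bound
(owner helper684)

* `gV_le_of_le`, `gV_le_of_ge` : the value functions at two labels differ by the highway between;
* `eV_mono`, `eV_le` : means;
* `eV_low` : `N P rate - C ≤ eV N 0` : definition of the rate of the lane.
-/

set_option autoImplicit false

open MeasureTheory Filter ProbabilityTheory
open Crest.ProbabilityR.FirstPassage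
open Crest.Agent.R151.K Crest.Agent.R151.Q

namespace Crest.Agent.R151.J684

open B710 (FlatData)
open R78 (V Wk IsHwy hc hp)
open M192 (frame frame_al frame_be al_pos be_pos isStrip)
open J69 (O2 Ph2 P2 Fg Ins Lam exL gV Vv endv Y_add Y_eq_cst)

variable {μ : ℝ × ℝ → ℝ} {F : FlatData μ} (h : Hwy F)

/-- the vertices of the highway between two labels are in the half-lane -/
lemma seg_mem_Lam {W g s s' : ℝ} (hg : h.wH / 2 + 5 * cF F ≤ g) (hs : Ins h W s)
    (hs' : Ins h W s') {ξ η : ℝ × ℝ} (hη : ‖η‖ ≤ 1) {u : ℝ} {t : Environment} {k : ℤ}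
    (h1 : h.ix s u (ξ - g • F.b - η) t ≤ k) (h2 : k ≤ h.ix s' u (ξ - g • F.b - η) t) :
    h.H u (ξ - g • F.b - η) t k ∈ Lam F W ξ := by
  set θ := ξ - g • F.b - η with hθ
  have e : ξ - θ = g • F.b + η := by rw [hθ]; abel
  have ea : F.al (pos ξ (h.H u θ t k)) = F.al (pos θ (h.H u θ t k)) + F.al η := by
    have : F.al (ξ - θ) = F.al η := by rw [e, map_add, map_smul, F.al_b, smul_zero, zero_add]
    rw [map_sub] at this
    rw [al_pos, al_pos]; linarith
  have eb : F.be (pos ξ (h.H u θ t k)) = F.be (pos θ (h.H u θ t k)) + (g + F.be η) := by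
    have : F.be (ξ - θ) = g + F.be η := by
      rw [e, map_add, map_smul, F.be_b, smul_eq_mul, mul_one]
    rw [map_sub] at this
    rw [be_pos, be_pos]; linarith
  have b1 := abs_le.1 (abs_al_le' F hη)
  have b2 := abs_le.1 (abs_be_le' F hη)
  have b3 := abs_le.1 (h.strip u θ t k)
  have c1 := h.back u θ t _ _ h1
  have c2 := J69.le_al_x h s u θ t
  have c3 := h.back u θ t _ _ h2
  have c4 := h.al_x_le s' u θ t
  have d1 := abs_le.1 hs
  have d2 := abs_le.1 hs'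
  have hc := cF_nonneg F
  have hk := h.κ_nonneg
  unfold Hwy.x at c2
  refine ⟨?_, ?_⟩
  · rw [ea, abs_le]
    constructor <;> linarith [b1.1, b1.2, d1.1, d1.2, d2.1, d2.2]
  · rw [eb]; linarith [b2.1, b3.1]

/-- forward move along the lower highway -/
lemma exL_fwd {W g s s' : ℝ} (hg : h.wH / 2 + 5 * cF F ≤ g) (hs : Ins h W s)
    (hs' : Ins h W s') (hss : s ≤ s') {ξ η : ℝ × ℝ} (hη : ‖η‖ ≤ 1) {u : ℝ} {t : Environment}
    (ht : Nn t) :
    Conn (Lam F W ξ) (h.x s u (ξ - g • F.b - η) t) (h.x s' u (ξ - g • F.b - η) t) ∧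
      pR t (Lam F W ξ) (h.x s u (ξ - g • F.b - η) t) (h.x s' u (ξ - g • F.b - η) t) ≤
        h.cst s s' u (ξ - g • F.b - η) t := by
  obtain ⟨w, hw, hw'⟩ := (h.isHwy u (ξ - g • F.b - η) t).exists_seg
    (J69.ix_mono h hss u (ξ - g • F.b - η) t)
  have hsup : ∀ v ∈ w.support, v ∈ Lam F W ξ := by
    intro v hv
    obtain ⟨k, h1, h2, rfl⟩ := (hw' v).1 hv
    exact seg_mem_Lam h hg hs hs' hη h1 h2
  exact ⟨⟨w, hsup⟩, (pR_le ht w hsup).trans_eq (hw t)⟩

section pt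

variable {W P g L s s' : ℝ} {ξ η : ℝ × ℝ} {u : ℝ} {t : Environment} {N : ℕ}

lemma conn_end (hP : 0 ≤ P) (hg : h.wH / 2 + 5 * cF F ≤ g) (hs : Ins h W s) (hη : ‖η‖ ≤ 1) :
    Conn (Lam F W ξ) (h.x s u (ξ - g • F.b - η) t) (endv F P g N ξ) := by
  have hc := cF_nonneg F
  have hw := J69.wH_nonneg2 h
  have hκ := h.κ_nonneg
  have hM' : J69.MPar h ((h.wH + 1 + 2 * g) / 1) g (h.wH + 1) 1 :=
    ⟨hg, by linarith, by push_cast; ring, by rw [div_one]; linarith⟩
  obtain ⟨a, b⟩ := J69.conn_x0 h hM' (ξ := ξ) (u := u) (t := t) hs hη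
  obtain ⟨c1, c2⟩ := J69.endv_bounds (F := F) P g N ξ
  have hNP : 0 ≤ N * P := mul_nonneg (Nat.cast_nonneg N) hP
  have hW : 6 * cF F ≤ W / 2 := by
    have := (abs_nonneg s).trans hs
    linarith
  exact J69.conn_Lam (by linarith) (by linarith) (by linarith) (by linarith)

/-- moving the starting label to the right does not cost anything -/
lemma gV_le_of_le (hP : 0 ≤ P) (hg : h.wH / 2 + 5 * cF F ≤ g) (hs : Ins h W s)
    (hs' : Ins h W s') (hss : s ≤ s') (hη : ‖η‖ ≤ 1) (ht : Nn t) :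
    gV h W P g L N s ξ (ξ - g • F.b - η) u t ≤ gV h W P g L N s' ξ (ξ - g • F.b - η) u t := by
  obtain ⟨h1, h2⟩ := exL_fwd h hg hs hs' hss (ξ := ξ) (u := u) hη ht
  have h3 := J69.exL_triangle ht h1 (conn_end h hP hg hs' (ξ := ξ) (u := u) (t := t) (N := N) hη)
  have h4 := Y_add h (-L) s s' u (ξ - g • F.b - η) t
  have h5 := Y_eq_cst h s s' u (ξ - g • F.b - η) t
  unfold gV
  rw [J69.Vv_eq, J69.Vv_eq]
  have h6 : exL F W ξ t (h.x s u (ξ - g • F.b - η) t) (h.x s' u (ξ - g • F.b - η) t) ≤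
      h.Y s s' u (ξ - g • F.b - η) t := by
    unfold exL; linarith
  linarith

/-- moving the starting label to the left costs at most twice the excess of the highway, plus
the potential -/
lemma gV_le_of_ge (hP : 0 ≤ P) (hg : h.wH / 2 + 5 * cF F ≤ g) (hs : Ins h W s)
    (hs' : Ins h W s') (hss : s ≤ s') (hη : ‖η‖ ≤ 1) (ht : Nn t) {D : ℝ}
    (hD : phi F (h.x s' u (ξ - g • F.b - η) t) - phi F (h.x s u (ξ - g • F.b - η) t) ≤ D) :
    gV h W P g L N s' ξ (ξ - g • F.b - η) u t ≤ gV h W P g L N s ξ (ξ - g • F.b - η) u t +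
      2 * h.Y s s' u (ξ - g • F.b - η) t + 2 * D := by
  obtain ⟨h1, h2⟩ := exL_fwd h hg hs hs' hss (ξ := ξ) (u := u) hη ht
  have h3 := J69.exL_triangle ht h1.symm
    (conn_end h hP hg hs (ξ := ξ) (u := u) (t := t) (N := N) hη)
  have h4 := Y_add h (-L) s s' u (ξ - g • F.b - η) t
  have h5 := Y_eq_cst h s s' u (ξ - g • F.b - η) t
  unfold gV
  rw [J69.Vv_eq, J69.Vv_eq]
  have h6 : exL F W ξ t (h.x s' u (ξ - g • F.b - η) t) (h.x s u (ξ - g • F.b - η) t) ≤
      h.Y s s' u (ξ - g • F.b - η) t + 2 * D := by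
    unfold exL
    rw [pR_symm ht]; linarith
  linarith

end pt

/-- bound of the potential difference between two labels -/
noncomputable def DD (h : Hwy F) (s s' : ℝ) : ℝ := ‖F.ρ‖ * (M56.Rx h s + M56.Rx h s')

lemma phi_sub_le (s s' u : ℝ) (θ : ℝ × ℝ) (t : Environment) :
    phi F (h.x s' u θ t) - phi F (h.x s u θ t) ≤ DD h s s' := by
  have e : phi F (h.x s' u θ t) - phi F (h.x s u θ t) =
      F.ρ (pos θ (h.x s' u θ t)) - F.ρ (pos θ (h.x s u θ t)) := by
    unfold phi pos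
    rw [map_add, map_add]; ring
  rw [e]
  have h1 := (F.ρ.le_opNorm (pos θ (h.x s' u θ t))).trans
    (mul_le_mul_of_nonneg_left (M56.norm_x h s' u θ t) (norm_nonneg F.ρ))
  have h2 := (F.ρ.le_opNorm (pos θ (h.x s u θ t))).trans
    (mul_le_mul_of_nonneg_left (M56.norm_x h s u θ t) (norm_nonneg F.ρ))
  rw [Real.norm_eq_abs] at h1 h2
  unfold DD
  linarith [le_abs_self (F.ρ (pos θ (h.x s' u θ t))), neg_abs_le (F.ρ (pos θ (h.x s u θ t)))]

variable {G : Measure ℝ} [IsProbabilityMeasure G]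

section means

variable (h0 : G (Set.Iio 0) = 0) (h1 : Integrable (fun x : ℝ => x) G) {ε : ℝ}
  (hm : HwyMean G h ε) {W P g L s s' : ℝ} {N : ℕ}
include h0 h1 hm

theorem eV_mono (hP : 0 ≤ P) (hg : h.wH / 2 + 5 * cF F ≤ g) (hs : Ins h W s)
    (hs' : Ins h W s') (hss : s ≤ s') :
    ∫ q : O2, Fg h W P g L N s q.1.1 q.1.2 q.2 ∂(P2 G) ≤
      ∫ q : O2, Fg h W P g L N s' q.1.1 q.1.2 q.2 ∂(P2 G) := by
  refine integral_mono_ae (J69.Fg_int h h0 h1 hm hP hg hs N) (J69.Fg_int h h0 h1 hm hP hg hs' N) ?_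
  filter_upwards [J69.ae_P2 (G := G) h0] with q hq
  exact gV_le_of_le h hP hg hs hs' hss (norm_jitter hq.2.2) hq.1

theorem eV_le (hP : 0 ≤ P) (hg : h.wH / 2 + 5 * cF F ≤ g) (hs : Ins h W s)
    (hs' : Ins h W s') (hss : s ≤ s') :
    ∫ q : O2, Fg h W P g L N s' q.1.1 q.1.2 q.2 ∂(P2 G) ≤
      ∫ q : O2, Fg h W P g L N s q.1.1 q.1.2 q.2 ∂(P2 G) + 2 * ((s' - s) * ε) +
        2 * DD h s s' := by
  obtain ⟨i1, i2⟩ := J69.Y_jit h hm (g • F.b) s s'
  have i3 := J69.Fg_int h h0 h1 hm (L := L) hP hg hs N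
  have i4 := J69.Fg_int h h0 h1 hm (L := L) hP hg hs' N
  have i5 : Integrable (fun q : O2 => Fg h W P g L N s q.1.1 q.1.2 q.2 +
      2 * h.Y s s' q.2.2 (q.1.1 - g • F.b - q.2.1) q.1.2) (P2 G) := i3.add (i1.const_mul 2)
  have key : ∫ q : O2, Fg h W P g L N s' q.1.1 q.1.2 q.2 ∂(P2 G) ≤
      ∫ q : O2, ((Fg h W P g L N s q.1.1 q.1.2 q.2 +
        2 * h.Y s s' q.2.2 (q.1.1 - g • F.b - q.2.1) q.1.2) + 2 * DD h s s') ∂(P2 G) := by
    refine integral_mono_ae i4 (i5.add (integrable_const _)) ?_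
    filter_upwards [J69.ae_P2 (G := G) h0] with q hq
    exact gV_le_of_ge h hP hg hs hs' hss (norm_jitter hq.2.2) hq.1
      (phi_sub_le h s s' q.2.2 _ q.1.2)
  rw [integral_add i5 (integrable_const _), integral_add i3 (i1.const_mul 2), integral_const_mul,
    i2, integral_const, probReal_univ, one_smul] at key
  linarith

end means

end Crest.Agent.R151.J684
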