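import Crest.Agent.R151.J684a
import Crest.Agent.R151.C710l

/-!
# R151/J684b — the lower bound of the value function: rate of the lane (owner helper684)

`eV_low` : `(N P + g) rate - C ≤ eV N s`.
-/

set_option autoImplicit false

open MeasureTheory Filter ProbabilityTheory
open Crest.ProbabilityR.FirstPassage
open Crest.Agent.R151.K Crest.Agent.R151.Q

namespace Crest.Agent.R151.J684

open B710 (FlatData)
open R78 (V Wk IsHwy hc hp)
open M192 (frame frame_al frame_be al_pos be_pos isStrip)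
open J69 (O2 Ph2 P2 Fg Ins Lam exL gV Vv endv Y_add Y_eq_cst)

variable {μ : ℝ × ℝ → ℝ} {F : FlatData μ} (h : Hwy F)

lemma Lam_sub_laneB (F : FlatData μ) (W : ℝ) (θ : ℝ × ℝ) : Lam F W θ ⊆ laneB F W θ :=
  fun _ hz => hz.1

lemma endv_zero (F : FlatData μ) (P g : ℝ) (θ : ℝ × ℝ) :
    endv F P g 0 θ = nr (θ - g • F.b) := by
  unfold endv
  simp

lemma norm_pos_x' {g s u : ℝ} {ξ η : ℝ × ℝ} {t : Environment} (hη : ‖η‖ ≤ 1) :
    ‖pos ξ (h.x s u (ξ - g • F.b - η) t)‖ ≤ M56.Rx h s + |g| * ‖F.b‖ + 1 := by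
  have e : pos ξ (h.x s u (ξ - g • F.b - η) t) =
      pos (ξ - g • F.b - η) (h.x s u (ξ - g • F.b - η) t) + (g • F.b + η) := by
    unfold pos; abel
  rw [e]
  refine (norm_add_le _ _).trans ?_
  have h1 := M56.norm_x h s u (ξ - g • F.b - η) t
  have h2 := norm_add_le (g • F.b) η
  rw [norm_smul, Real.norm_eq_abs] at h2
  linarith

/-- the potential between `x_s` and the end vertex -/
lemma phi_end_le {P g s u : ℝ} {N : ℕ} {ξ η : ℝ × ℝ} {t : Environment} (hη : ‖η‖ ≤ 1) :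
    phi F (endv F P g N ξ) - phi F (h.x s u (ξ - g • F.b - η) t) ≤
      (N * P + g) + ‖F.ρ‖ * (1 / 2 + (M56.Rx h s + |g| * ‖F.b‖ + 1)) := by
  set θ' := ξ - (N * P + g) • F.b with hθ'
  have e1 : phi F (endv F P g N ξ) = F.ρ (pos θ' (nr θ')) - F.ρ ξ + (N * P + g) := by
    have : endv F P g N ξ = nr θ' := rfl
    rw [this]
    unfold phi pos
    rw [map_add, hθ', map_sub, map_smul, F.ρ_b, smul_eq_mul]
    ring
  have e2 : phi F (h.x s u (ξ - g • F.b - η) t) =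
      F.ρ (pos ξ (h.x s u (ξ - g • F.b - η) t)) - F.ρ ξ := by
    unfold phi pos
    rw [map_add]; ring
  have h1 := (F.ρ.le_opNorm (pos θ' (nr θ'))).trans
    (mul_le_mul_of_nonneg_left (norm_pos_nr θ') (norm_nonneg F.ρ))
  have h2 := (F.ρ.le_opNorm (pos ξ (h.x s u (ξ - g • F.b - η) t))).trans
    (mul_le_mul_of_nonneg_left (norm_pos_x' h (g := g) (s := s) (u := u) (ξ := ξ) (t := t) hη)
      (norm_nonneg F.ρ))
  rw [Real.norm_eq_abs] at h1 h2
  rw [e1, e2]
  have h3 := le_abs_self (F.ρ (pos θ' (nr θ')))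
  have h4 := neg_abs_le (F.ρ (pos ξ (h.x s u (ξ - g • F.b - η) t)))
  linarith

variable {G : Measure ℝ} [IsProbabilityMeasure G]

section pt

variable (h0 : G (Set.Iio 0) = 0) (h2 : Integrable (fun x : ℝ => x ^ 2) G)
include h0 h2

/-- the lane passage time `0 → N P + g` through `x_s` -/
lemma pL_le {W P g s u : ℝ} {N : ℕ} (hP : 0 ≤ P) (hg : h.wH / 2 + 5 * cF F ≤ g)
    (hs : Ins h W s) (hW : 2 * C710.fn F.al ≤ W) {ξ η : ℝ × ℝ} (hη : ‖η‖ ≤ 1) {t : Environment}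
    (ht : Nn t) :
    C710.pL F W (N * P + g) ξ t ≤ C710.pL F W g ξ t +
      pR t (Lam F W ξ) (endv F P g 0 ξ) (h.x s u (ξ - g • F.b - η) t) +
      pR t (Lam F W ξ) (h.x s u (ξ - g • F.b - η) t) (endv F P g N ξ) := by
  have c0 := (C710.pL_theta (G := G) h0 h2 F hW g ξ).1
  rw [← endv_zero F P g ξ] at c0
  have c1 : Conn (Lam F W ξ) (endv F P g 0 ξ) (h.x s u (ξ - g • F.b - η) t) :=
    (conn_end h hP hg hs hη).symm
  have c2 : Conn (Lam F W ξ) (h.x s u (ξ - g • F.b - η) t) (endv F P g N ξ) :=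
    conn_end h hP hg hs hη
  have hsub := Lam_sub_laneB F W ξ
  have t1 := pR_triangle ht c0 ((c1.trans c2).mono hsub)
  have t2 := pR_anti ht hsub (c1.trans c2)
  have t3 := pR_triangle ht c1 c2
  have e1 : C710.pL F W (N * P + g) ξ t = pR t (laneB F W ξ) (nr ξ) (endv F P g N ξ) := rfl
  have e2 : C710.pL F W g ξ t = pR t (laneB F W ξ) (nr ξ) (endv F P g 0 ξ) := by
    rw [endv_zero]; rfl
  rw [e1, e2]
  linarith

end pt

/-- integrability of the passage times in the half-lane between `x_s` and the end vertices -/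
lemma int_pR_end (h0 : G (Set.Iio 0) = 0) (h1 : Integrable (fun x : ℝ => x) G) {W P g s : ℝ}
    (hP : 0 ≤ P) (hg : h.wH / 2 + 5 * cF F ≤ g) (hs : Ins h W s) (N : ℕ) :
    Integrable (fun q : O2 => pR q.1.2 (Lam F W q.1.1)
      (h.x s q.2.2 (q.1.1 - g • F.b - q.2.1) q.1.2) (endv F P g N q.1.1)) (P2 G) := by
  obtain ⟨M1, hM1⟩ := J69.mem_box_x h (g • F.b) s
  obtain ⟨M2, hM2⟩ := J69.mem_box_endv F P g N
  set M := max M1 M2
  have hx : Measurable fun q : O2 => h.x s q.2.2 (q.1.1 - g • F.b - q.2.1) q.1.2 :=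
    J69.meas_x h (((measurable_fst.comp measurable_fst).sub_const _).sub
      (measurable_fst.comp measurable_snd)) (measurable_snd.comp measurable_snd)
      (measurable_snd.comp measurable_fst) s
  have he : Measurable fun q : O2 => endv F P g N q.1.1 :=
    J69.meas_endv (F := F) (measurable_fst.comp measurable_fst) P g N
  have hc := cF_nonneg F
  have hκ := h.κ_nonneg
  have hW : 6 * cF F ≤ W / 2 := by
    have := (abs_nonneg s).trans hs
    linarith
  refine J69.integrable_pR_Lam (F := F) (UU2.prod UU) h0 h1 (W := W) (M := M) hx he ?_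
  filter_upwards [J69.ae_P2 (G := G) h0] with q hq
  have hη := norm_jitter hq.2.2
  have hNP : 0 ≤ N * P := mul_nonneg (Nat.cast_nonneg N) hP
  have hw := J69.wH_nonneg2 h
  obtain ⟨c1, c2⟩ := J69.endv_bounds (F := F) P g N q.1.1
  have hM' : J69.MPar h ((h.wH + 1 + 2 * g) / 1) g (h.wH + 1) 1 :=
    ⟨hg, by linarith, by push_cast; ring, by rw [div_one]; linarith⟩
  exact ⟨J69.box_mono (le_max_left _ _) (hM1 _ _ _ _ hq.2.1 hη),
    J69.box_mono (le_max_right _ _) (hM2 _ hq.2.1), J69.conn_x0 h hM' hs hη,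
    ⟨by linarith, by linarith⟩⟩

/-- **definition of the rate of the lane** -/
theorem eV_low (h0 : G (Set.Iio 0) = 0) (h1 : Integrable (fun x : ℝ => x) G)
    (h2 : Integrable (fun x : ℝ => x ^ 2) G) (hμ : IsTC G μ) {ε : ℝ} (hm : HwyMean G h ε)
    {W P g L s : ℝ} (hP : 0 ≤ P) (hg : h.wH / 2 + 5 * cF F ≤ g) (hs : Ins h W s)
    (hL : -L ≤ s) (hW : 2 * C710.fn F.al ≤ W) :
    ∃ C : ℝ, ∀ N : ℕ, (N * P + g) * rate G F W - C ≤
      ∫ q : O2, Fg h W P g L N s q.1.1 q.1.2 q.2 ∂(P2 G) := by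
  have hg0 : 0 ≤ g := by
    have := J69.wH_nonneg2 h
    have := cF_nonneg F
    linarith
  -- the passage times of the lane
  have hmp : MeasurePreserving (fun q : O2 => q.1) (P2 G) (P0 G) := measurePreserving_fst
  have iL : ∀ y : ℝ, Integrable (fun q : O2 => C710.pL F W y q.1.1 q.1.2) (P2 G) ∧
      ∫ q : O2, C710.pL F W y q.1.1 q.1.2 ∂(P2 G) = eL G F W y + y := by
    intro y
    have hi := C710.integrable_pL (G := G) h0 h2 F hW y
    refine ⟨hmp.integrable_comp_of_integrable hi, ?_⟩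
    have := mp_integral hmp hi.aestronglyMeasurable
    rw [C710.eL_eq, sub_add_cancel, ← this]
  obtain ⟨iY, mY⟩ := J69.Y_jit h hm (g • F.b) (-L) s
  have iE := int_pR_end h h0 h1 hP hg hs (G := G)
  set C1 := ‖F.ρ‖ * (1 / 2 + (M56.Rx h s + |g| * ‖F.b‖ + 1)) with hC1
  set A := ∫ q : O2, pR q.1.2 (Lam F W q.1.1)
      (h.x s q.2.2 (q.1.1 - g • F.b - q.2.1) q.1.2) (endv F P g 0 q.1.1) ∂(P2 G) with hA
  refine ⟨(eL G F W g + g) + A + C1, fun N => ?_⟩
  have i1 : Integrable (fun q : O2 => h.Y (-L) s q.2.2 (q.1.1 - g • F.b - q.2.1) q.1.2 +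
      C710.pL F W (N * P + g) q.1.1 q.1.2) (P2 G) := iY.add (iL _).1
  have i2 : Integrable (fun q : O2 => h.Y (-L) s q.2.2 (q.1.1 - g • F.b - q.2.1) q.1.2 +
      C710.pL F W (N * P + g) q.1.1 q.1.2 - C710.pL F W g q.1.1 q.1.2) (P2 G) := i1.sub (iL _).1
  have i3 : Integrable (fun q : O2 => h.Y (-L) s q.2.2 (q.1.1 - g • F.b - q.2.1) q.1.2 +
      C710.pL F W (N * P + g) q.1.1 q.1.2 - C710.pL F W g q.1.1 q.1.2 -
      pR q.1.2 (Lam F W q.1.1) (h.x s q.2.2 (q.1.1 - g • F.b - q.2.1) q.1.2)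
        (endv F P g 0 q.1.1)) (P2 G) := i2.sub (iE 0)
  have key : ∫ q : O2, (h.Y (-L) s q.2.2 (q.1.1 - g • F.b - q.2.1) q.1.2 +
      C710.pL F W (N * P + g) q.1.1 q.1.2 - C710.pL F W g q.1.1 q.1.2 -
      pR q.1.2 (Lam F W q.1.1) (h.x s q.2.2 (q.1.1 - g • F.b - q.2.1) q.1.2)
        (endv F P g 0 q.1.1) - ((N * P + g) + C1)) ∂(P2 G) ≤
      ∫ q : O2, Fg h W P g L N s q.1.1 q.1.2 q.2 ∂(P2 G) := by
    refine integral_mono_ae (i3.sub (integrable_const _))
      (J69.Fg_int h h0 h1 hm hP hg hs N) ?_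
    filter_upwards [J69.ae_P2 (G := G) h0] with q hq
    have hη := norm_jitter hq.2.2
    have a1 := pL_le h (G := G) h0 h2 (N := N) (u := q.2.2) hP hg hs hW (ξ := q.1.1) hη hq.1
    have a2 := phi_end_le h (F := F) (P := P) (g := g) (s := s) (u := q.2.2) (N := N)
      (ξ := q.1.1) (t := q.1.2) hη
    have a3 : Fg h W P g L N s q.1.1 q.1.2 q.2 =
        h.Y (-L) s q.2.2 (q.1.1 - g • F.b - q.2.1) q.1.2 +
        (pR q.1.2 (Lam F W q.1.1) (h.x s q.2.2 (q.1.1 - g • F.b - q.2.1) q.1.2)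
          (endv F P g N q.1.1) - (phi F (endv F P g N q.1.1) -
          phi F (h.x s q.2.2 (q.1.1 - g • F.b - q.2.1) q.1.2))) := rfl
    have a4 := pR_symm hq.1 (Lam F W q.1.1) (endv F P g 0 q.1.1)
      (h.x s q.2.2 (q.1.1 - g • F.b - q.2.1) q.1.2)
    rw [a3]
    linarith
  rw [integral_sub i3 (integrable_const _), integral_sub i2 (iE 0), integral_sub i1 (iL _).1,
    integral_add iY (iL _).1, (iL _).2, (iL _).2, mY, integral_const, probReal_univ, one_smul,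
    ← hA] at key
  have hNP : 0 ≤ N * P + g := add_nonneg (mul_nonneg (Nat.cast_nonneg N) hP) hg0
  have hr := C710.rate_mul_le (G := G) h0 h2 hμ F hW hNP
  have hY0 : 0 ≤ (s - -L) * ε := mul_nonneg (by linarith) hm.nonneg
  nlinarith [hr, key]

end Crest.Agent.R151.J684
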