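import Crest.Agent.R151.J684b
import Crest.Agent.R151.NF2

/-!
# R151/J684c — the fields `wmin, Acr, low, base_A, base_B, top` of `E191.Strategy` for `fS`
(owner helper684)

`wmn W = W ^ (-2/3) / 4`; `strat_base`; `strat_of_rec` : the strategy from `recA` and `recB`.
-/

set_option autoImplicit false

open MeasureTheory Filter ProbabilityTheory Topology Set
open Crest.ProbabilityR.FirstPassage
open Crest.Agent.R151.K Crest.Agent.R151.Q

namespace Crest.Agent.R151.J684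

open B710 (FlatData)
open NF
open J69 (O2 Ph2 P2 Fg Ins fS)

/-- minimal width of a fence of a B-row -/
noncomputable def wmn (W : ℝ) : ℝ := W ^ (-(2 / 3) : ℝ) / 4

lemma wmn_pos {W : ℝ} (hW : 0 < W) : 0 < wmn W := by unfold wmn; positivity

lemma wmn_pow {W : ℝ} (hW : 0 < W) : 1 / (4 * wmn W) ^ 3 = W ^ 2 := by
  have e : 4 * wmn W = W ^ (-(2 / 3) : ℝ) := by unfold wmn; ring
  rw [e, ← Real.rpow_natCast, ← Real.rpow_mul hW.le]
  have : (-(2 / 3) : ℝ) * ((3 : ℕ) : ℝ) = -(2 : ℕ) := by norm_num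
  rw [this, Real.rpow_neg hW.le, Real.rpow_natCast, one_div, inv_inv]

lemma wmn_mul {W : ℝ} (hW : 0 < W) : wmn W * W = W ^ (1 / 3 : ℝ) / 4 := by
  unfold wmn
  have : W ^ (-(2 / 3) : ℝ) * W = W ^ (1 / 3 : ℝ) := by
    nth_rewrite 2 [← Real.rpow_one W]
    rw [← Real.rpow_add hW]
    norm_num
  rw [div_mul_eq_mul_div, this]

/-- the thinnest fences are wider than every function of the other parameters -/
theorem le_wmn (A : ℕ → ℝ → ℝ → ℝ → ℝ → ℝ → ℝ → ℝ → ℝ) :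
    Ev fun p => A p.n p.δ p.v p.e p.v' p.δ' p.δ0 p.J ≤ wmn p.W * p.W := by
  refine ev_W (P := fun n δ v e v' δ' δ0 J W => A n δ v e v' δ' δ0 J ≤ wmn W * W)
    fun n δ v e v' δ' δ0 J _ _ _ _ _ _ _ _ => ?_
  have h1 : Tendsto (fun W : ℝ => W ^ (1 / 3 : ℝ)) atTop atTop :=
    tendsto_rpow_atTop (by norm_num)
  filter_upwards [h1.eventually_ge_atTop (4 * A n δ v e v' δ' δ0 J), eventually_gt_atTop 0]
    with W hW hW0
  rw [wmn_mul hW0]; linarith

variable {μ : ℝ × ℝ → ℝ} {G : Measure ℝ} {F : FlatData μ} {w0 c0 K : ℝ}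

/-- the geometric hypotheses of the value function hold -/
structure Geo {p : NF.Num} (c : Cf G F w0 c0 K p) : Prop where
  hP : 0 ≤ c.P
  hg : c.h.wH / 2 + 5 * cF F ≤ c.g
  ins : ∀ s : ℝ, |s| ≤ 7 / 16 * p.W → Ins c.h p.W s
  hL : 0 ≤ c.L
  hW : 2 * C710.fn F.al ≤ p.W

/-- **all labels `|s| ≤ 7/16 W` are inside the half-lane** -/
theorem ev_geo : Ev fun p => ∀ c : Cf G F w0 c0 K p, Geo c := by
  refine ((((((ev_std (G := G) (F := F) (w0 := w0) (c0 := c0) (K := K)).and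
    (le_w (10 * cF F))).and (strip_le_gap fun _ _ _ _ _ _ => 1)).and
    (le_δ0 fun _ _ _ _ _ _ => 32 * |K|)).and
    (le_W fun _ _ _ _ _ _ _ _ => 32 * (6 * cF F))).and
    (le_W fun _ _ _ _ _ _ _ _ => 2 * C710.fn F.al)).mono
    fun p ⟨⟨⟨⟨⟨h1, h2⟩, h3⟩, h4⟩, h5⟩, h6⟩ c => ?_
  have hs := h1 c
  have hp := hs.toStd
  have hW : 0 < p.W := zero_lt_one.trans_le hp.W
  refine ⟨by linarith [hs.yA_ge, hs.y_pos], ?_, fun s hs' => ?_, hs.L_pos.le, h6⟩
  · rw [hs.wH_eq, c.g_eq]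
    linarith
  · have hκ : c.h.κ ≤ p.W / 32 := by
      refine c.κ_le.trans ?_
      have e1 : K * (p.δ0 * p.W) ≤ |K| * (p.δ0 * p.W) :=
        mul_le_mul_of_nonneg_right (le_abs_self K) (mul_pos hp.δ0_pos hW).le
      have e2 : 32 * |K| * p.δ0 * p.W ≤ 1 * p.W := mul_le_mul_of_nonneg_right h4 hW.le
      linarith
    unfold J69.Ins
    linarith

lemma fS_eq (h : Hwy F) (W P g L l : ℝ) (N : ℕ) (x : ℝ) :
    fS G h W P g L l N x = (∫ q : O2, Fg h W P g L N (x * W) q.1.1 q.1.2 q.2 ∂(P2 G)) / l := rfl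

variable [IsProbabilityMeasure G]

section

variable (h0 : G (Set.Iio 0) = 0) (h2 : Integrable (fun x : ℝ => x ^ 2) G) (hμ : IsTC G μ)
include h0 h2 hμ

/-- constant of the crude cost -/
noncomputable def CA (F : FlatData μ) : ℝ := 1 + 4 * ‖F.ρ‖ * (2 * ‖F.a‖ + ‖F.b‖)

omit h0 h2 hμ [IsProbabilityMeasure G] in
lemma CA_pos (F : FlatData μ) : 0 < CA F := by unfold CA; positivity

omit h0 h2 hμ [IsProbabilityMeasure G] in
/-- the crude cost is small compared with the cost of the thinnest fence -/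
theorem Acr_le (hc0 : 0 < c0) (C : ℝ) : Ev fun p => ∀ c : Cf G F w0 c0 K p,
    C * p.W / c.l + 152 ≤ 1 / (4 * wmn p.W) ^ 3 := by
  refine (((ev_std (G := G) (F := F) (w0 := w0) (c0 := c0) (K := K)).and
    (le_J fun _ _ _ _ _ _ _ => 4 * |C| / c0)).and
    (le_W fun _ _ _ _ _ _ _ _ => 304)).mono fun p ⟨⟨h1, h2⟩, h3⟩ c => ?_
  have hs := h1 c
  have hp := hs.toStd
  have hW : 0 < p.W := zero_lt_one.trans_le hp.W
  have hJ : 0 < p.J := zero_lt_one.trans_le hp.J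
  rw [wmn_pow hW]
  have hl : p.J * c0 / (2 * p.W) ≤ c.l := by
    refine le_trans ?_ hs.l_ge
    calc p.J * c0 / (2 * p.W) = p.J * p.W / 2 * (c0 / p.W ^ 2) := by field_simp
      _ ≤ p.J * p.W / 2 * c.rt := by
          refine mul_le_mul_of_nonneg_left hs.rt_ge (by positivity)
  have h4 : C * p.W / c.l ≤ p.W ^ 2 / 2 := by
    rw [div_le_iff₀ hs.l_pos]
    have e1 : p.W ^ 2 / 2 * (p.J * c0 / (2 * p.W)) ≤ p.W ^ 2 / 2 * c.l :=
      mul_le_mul_of_nonneg_left hl (by positivity)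
    have e2 : p.W ^ 2 / 2 * (p.J * c0 / (2 * p.W)) = p.J * c0 / 4 * p.W := by
      field_simp; ring
    rw [e2] at e1
    refine le_trans ?_ e1
    refine mul_le_mul_of_nonneg_right ?_ hW.le
    rw [div_le_iff₀ hc0] at h2
    linarith [le_abs_self C]
  have h5 : (152 : ℝ) ≤ p.W ^ 2 / 2 := by nlinarith [hp.W]
  linarith

/-- **the base fields of the strategy** -/
theorem strat_base (hc0 : 0 < c0) : Ev fun p => ∀ c : Cf G F w0 c0 K p,
    CA F * p.W / c.l + 152 ≤ 1 / (4 * wmn p.W) ^ 3 ∧ ∃ C' : ℝ,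
      (∀ N : ℕ, (N : ℝ) - C' ≤ fS G c.h p.W c.P c.g c.L c.l N 0) ∧
      (∀ N ≤ 1, ∀ x : ℝ, |x| ≤ 3 / 16 → fS G c.h p.W c.P c.g c.L c.l N x ≤ C') ∧
      (∀ (N : ℕ) (x : ℝ), |x| ≤ 3 / 16 → fS G c.h p.W c.P c.g c.L c.l N x ≤
        fS G c.h p.W c.P c.g c.L c.l N 0 + CA F * p.W / c.l) := by
  have h1 : Integrable (fun x : ℝ => x) G := integrable_id_of_sq h2
  refine (((((ev_geo (G := G) (F := F) (w0 := w0) (c0 := c0) (K := K)).and
    (ev_std (G := G) (F := F) (w0 := w0) (c0 := c0) (K := K))).and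
    (Acr_le (G := G) (F := F) (w0 := w0) (K := K) hc0 (CA F))).and
    (highway_le (G := G) (F := F) (w0 := w0) (K := K) hc0)).and
    ((le_J fun _ _ _ _ _ _ δ0 => 2 * (8 + 1 / c0) / δ0 ^ 3).and
      (le_W fun _ _ _ _ _ _ _ _ => M56.stp F))).mono
    fun p ⟨⟨⟨⟨hgeo, hstd⟩, hA⟩, hε⟩, hJ, hst⟩ c => ?_
  have hs := hstd c
  have hG := hgeo c
  have hp := hs.toStd
  have hW : 0 < p.W := zero_lt_one.trans_le hp.W
  have hJ0 : 0 < p.J := zero_lt_one.trans_le hp.J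
  have hl := hs.l_pos
  have hm := c.mean
  -- `W ε ≤ W`
  have hWε : p.W * c.ε ≤ p.W := by
    refine (hε c).trans ?_
    have e1 : 2 * (8 + 1 / c0) / p.δ0 ^ 3 / p.J ≤ 1 := by
      rw [div_le_one hJ0]; exact hJ
    calc 2 * (8 + 1 / c0) / p.δ0 ^ 3 / p.J * c.l ≤ 1 * c.l :=
          mul_le_mul_of_nonneg_right e1 hl.le
      _ ≤ p.W / p.J := by rw [one_mul]; exact hs.l_le
      _ ≤ p.W := div_le_self hW.le hp.J
  -- the top inequality
  have hI0 : Ins c.h p.W 0 := hG.ins 0 (by rw [abs_zero]; positivity)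
  have htop : ∀ (N : ℕ) (x : ℝ), |x| ≤ 3 / 16 → fS G c.h p.W c.P c.g c.L c.l N x ≤
      fS G c.h p.W c.P c.g c.L c.l N 0 + CA F * p.W / c.l := by
    intro N x hx
    rw [fS_eq, fS_eq, zero_mul, ← add_div]
    refine div_le_div_of_nonneg_right ?_ hl.le
    have hxW : |x * p.W| ≤ 3 / 16 * p.W := by
      rw [abs_mul, abs_of_pos hW]
      exact mul_le_mul_of_nonneg_right hx hW.le
    have hIx : Ins c.h p.W (x * p.W) := hG.ins _ (by linarith)
    have hCA : 0 ≤ CA F * p.W := by have := CA_pos F; positivity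
    rcases le_total x 0 with h | h
    · have := eV_mono c.h h0 h1 hm (L := c.L) (N := N) hG.hP hG.hg hIx hI0
        (mul_nonpos_of_nonpos_of_nonneg h hW.le)
      linarith
    · have hxp : 0 ≤ x * p.W := mul_nonneg h hW.le
      have h3 := eV_le c.h h0 h1 hm (L := c.L) (N := N) hG.hP hG.hg hI0 hIx hxp
      refine h3.trans ?_
      have e1 : 2 * ((x * p.W - 0) * c.ε) ≤ p.W := by
        have hε0 : 0 ≤ p.W * c.ε := mul_nonneg hW.le hm.nonneg
        have hx1 : x ≤ 3 / 16 := (le_abs_self x).trans hx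
        nlinarith
      have hRx : ∀ s : ℝ, |s| ≤ 3 / 16 * p.W →
          M56.Rx c.h s ≤ (2 * ‖F.a‖ + ‖F.b‖) * p.W := by
        intro s hs'
        unfold M56.Rx
        rw [hs.wH_eq]
        have a1 : (|s| + M56.stp F) * ‖F.a‖ ≤ (2 * p.W) * ‖F.a‖ :=
          mul_le_mul_of_nonneg_right (by linarith) (norm_nonneg _)
        have a2 : p.δ0 * p.W / 2 * ‖F.b‖ ≤ p.W * ‖F.b‖ := by
          refine mul_le_mul_of_nonneg_right ?_ (norm_nonneg _)
          have := mul_le_mul_of_nonneg_right hp.δ0_le hW.le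
          linarith
        linarith
      have e2 : DD c.h 0 (x * p.W) ≤ ‖F.ρ‖ * (2 * (2 * ‖F.a‖ + ‖F.b‖) * p.W) := by
        unfold DD
        refine mul_le_mul_of_nonneg_left ?_ (norm_nonneg _)
        have b1 := hRx 0 (by rw [abs_zero]; positivity)
        have b2 := hRx (x * p.W) hxW
        linarith
      have e3 : CA F * p.W = p.W + 2 * (‖F.ρ‖ * (2 * (2 * ‖F.a‖ + ‖F.b‖) * p.W)) := by
        unfold CA; ring
      rw [e3]
      linarith
  refine ⟨hA c, ?_⟩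
  obtain ⟨C, hC⟩ := eV_low c.h h0 h1 h2 hμ hm (L := c.L) (s := 0) hG.hP hG.hg hI0
    (by linarith [hG.hL]) hG.hW
  set B0 := fS G c.h p.W c.P c.g c.L c.l 0 0
  set B1 := fS G c.h p.W c.P c.g c.L c.l 1 0
  set A := CA F * p.W / c.l
  refine ⟨max (C / c.l) (max (B0 + A) (B1 + A)), fun N => ?_, fun N hN x hx => ?_, htop⟩
  · have h3 := hC N
    rw [fS_eq, zero_mul, le_div_iff₀ hl]
    have hr : 0 ≤ rate G F p.W := (c.rt_pos).le
    have e1 : (N : ℝ) * c.l ≤ (N * c.P + c.g) * rate G F p.W := by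
      have : c.l = c.P * rate G F p.W := rfl
      rw [this]
      nlinarith [mul_nonneg hs.g_pos.le hr]
    have e2 : C / c.l ≤ max (C / c.l) (max (B0 + A) (B1 + A)) := le_max_left _ _
    have e3 : C ≤ max (C / c.l) (max (B0 + A) (B1 + A)) * c.l := by
      have := mul_le_mul_of_nonneg_right e2 hl.le
      rwa [div_mul_cancel₀ _ hl.ne'] at this
    linarith
  · have h3 := htop N x hx
    refine h3.trans (le_trans ?_ (le_max_right _ _))
    interval_cases N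
    · exact le_max_left _ _
    · exact le_max_right _ _

end

end Crest.Agent.R151.J684
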