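import Mathlib

/-!
# R151/J69a — the STRATEGY (section 10) as a Lyapunov induction, abstract form
(owner helper69)

`V k i` is the value (minimal excess) of the rows `k, k+1, …` started at the grid position `i`,
`φ` the Lyapunov function.  At every row one of two moves is available: a *single row move* with
finitely many options `A s` (the events `A s` are independent of the later rows) or a *double row
move* to one prescribed position.
-/

set_option autoImplicit false

namespace Crest.Agent.R151.J69

open MeasureTheory ProbabilityTheory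

variable {Ω : Type*} [MeasurableSpace Ω] {P : Measure Ω} {ι : Type*}

/-- an event independent of a random variable -/
lemma integral_indicator_indep [IsProbabilityMeasure P] {A : Set Ω} (hA : MeasurableSet A)
    {V : Ω → ℝ} (hV : Integrable V P)
    (hind : IndepFun (A.indicator (fun _ => (1 : ℝ))) V P) :
    ∫ ω, A.indicator V ω ∂P = P.real A * ∫ ω, V ω ∂P := by
  have h1 : ∀ ω, A.indicator V ω = A.indicator (fun _ => (1 : ℝ)) ω * V ω := by
    intro ω
    by_cases h : ω ∈ A <;> simp [h]
  have h2 := hind.integral_mul_eq_mul_integral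
    ((measurable_const.indicator hA).aestronglyMeasurable) hV.aestronglyMeasurable
  have h3 : ∫ ω, A.indicator (fun _ => (1 : ℝ)) ω ∂P = P.real A := by
    rw [integral_indicator hA]; simp [Measure.real]
  rw [← h3, ← h2]
  exact integral_congr_ae (Filter.Eventually.of_forall fun ω => by simp [h1 ω])

/-- one move of the strategy from the position `i` at row `k` -/
def Move (P : Measure Ω) (V : ℕ → ι → Ω → ℝ) (φ : ι → ℝ) (r : ℝ) (k : ℕ) (i : ι) : Prop :=
  (∃ (n : ℕ) (A : Fin n → Set Ω) (j : Fin n → ι) (c : Ω → ℝ), Integrable c P ∧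
      (∀ s, MeasurableSet (A s)) ∧
      (∀ s, IndepFun ((A s).indicator (fun _ => (1 : ℝ))) (V (k + 1) (j s)) P) ∧
      (∀ᵐ ω ∂P, V k i ω ≤ c ω + ∑ s, (A s).indicator (V (k + 1) (j s)) ω) ∧
      (∑ s, P.real (A s) = 1) ∧
      ∫ ω, c ω ∂P + ∑ s, P.real (A s) * φ (j s) ≤ r + φ i) ∨
  (∃ (j : ι) (c : Ω → ℝ), Integrable c P ∧
      (∀ᵐ ω ∂P, V k i ω ≤ c ω + V (k + 2) j ω) ∧ ∫ ω, c ω ∂P + φ j ≤ 2 * r + φ i)

/-- **Lyapunov induction.** -/
theorem lyapunov [IsProbabilityMeasure P] {V : ℕ → ι → Ω → ℝ} {φ : ι → ℝ} {r C₀ : ℝ} (hr : 0 ≤ r)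
    {N : ℕ} (hint : ∀ k i, Integrable (V k i) P)
    (hend : ∀ k i, N ≤ k → ∫ ω, V k i ω ∂P ≤ C₀ + φ i)
    (hmove : ∀ k i, k < N → Move P V φ r k i) (k : ℕ) (i : ι) :
    ∫ ω, V k i ω ∂P ≤ (N - k : ℕ) * r + φ i + (C₀ + r) := by
  obtain ⟨m, hm⟩ : ∃ m, N - k ≤ m := ⟨N - k, le_rfl⟩
  induction m generalizing k i with
  | zero =>
    have hk : N ≤ k := by omega
    have := hend k i hk
    have h0 : N - k = 0 := by omega
    rw [h0]; simp only [Nat.cast_zero, zero_mul, zero_add]; linarith
  | succ m ih =>
    rcases Nat.lt_or_ge k N with hk | hk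
    swap
    · exact ih k i (by omega)
    rcases hmove k i hk with ⟨n, A, j, c, hc, hA, hind, hle, hsum, hE⟩ | ⟨j, c, hc, hle, hE⟩
    · have h1 : ∫ ω, V k i ω ∂P ≤ ∫ ω, (c ω + ∑ s, (A s).indicator (V (k + 1) (j s)) ω) ∂P := by
        refine integral_mono_ae (hint k i) ?_ hle
        exact hc.add (integrable_finsetSum _ fun s _ => (hint _ _).indicator (hA s))
      rw [integral_add hc (integrable_finsetSum _ fun s _ => (hint _ _).indicator (hA s)),
        integral_finsetSum _ (fun s _ => (hint _ _).indicator (hA s))] at h1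
      have h2 : ∀ s, ∫ ω, (A s).indicator (V (k + 1) (j s)) ω ∂P ≤
          P.real (A s) * ((N - (k + 1) : ℕ) * r + φ (j s) + (C₀ + r)) := by
        intro s
        rw [integral_indicator_indep (hA s) (hint _ _) (hind s)]
        exact mul_le_mul_of_nonneg_left (ih (k + 1) (j s) (by omega)) measureReal_nonneg
      have h3 : ∑ s, ∫ ω, (A s).indicator (V (k + 1) (j s)) ω ∂P ≤
          (N - (k + 1) : ℕ) * r + (C₀ + r) + ∑ s, P.real (A s) * φ (j s) := by
        refine (Finset.sum_le_sum fun s _ => h2 s).trans ?_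
        have : ∀ s, P.real (A s) * ((N - (k + 1) : ℕ) * r + φ (j s) + (C₀ + r)) =
            P.real (A s) * ((N - (k + 1) : ℕ) * r + (C₀ + r)) + P.real (A s) * φ (j s) := by
          intro s; ring
        simp_rw [this]
        rw [Finset.sum_add_distrib, ← Finset.sum_mul, hsum, one_mul]
      have h4 : ((N - k : ℕ) : ℝ) = (N - (k + 1) : ℕ) + 1 := by
        have : N - k = (N - (k + 1)) + 1 := by omega
        rw [this]; push_cast; ring
      rw [h4]
      linarith
    · have h1 : ∫ ω, V k i ω ∂P ≤ ∫ ω, (c ω + V (k + 2) j ω) ∂P :=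
        integral_mono_ae (hint k i) (hc.add (hint _ _)) hle
      rw [integral_add hc (hint _ _)] at h1
      have h2 := ih (k + 2) j (by omega)
      rcases Nat.lt_or_ge (k + 1) N with hk' | hk'
      · have h4 : ((N - k : ℕ) : ℝ) = (N - (k + 2) : ℕ) + 2 := by
          have : N - k = (N - (k + 2)) + 2 := by omega
          rw [this]; push_cast; ring
        rw [h4]
        linarith
      · -- `k = N - 1`
        have h6 : N - k = 1 := by omega
        have h7 := hend (k + 2) j (by omega)
        rw [h6]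
        simp only [Nat.cast_one, one_mul]
        linarith

end Crest.Agent.R151.J69
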