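import Crest.Agent.R151.Q2
import Crest.Agent.R151.J69b

/-!
# R151/J69c — the value function of the strategy (owner helper69): definitions

`θ` = offset of the base point of row `0` (`θ = ξ - B`), `θ' = θ - g • b - η` = offset of the lower
highway of row `0` (height `g` above the base line, jitter `η`), `u` = phase of this highway.
`Lam F W θ` = half-lane `|al| ≤ W / 2`, `be ≥ 0` (everything relative to the base point).
`Vv h W P g N s θ θ' u t` = excess of the best walk of the half-lane from the position `s` of the
lower highway of row `0` to the vertex nearest to the point at height `g` above the base point of row `N` (`P` = pitch of the A-rows).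
`fS` = its normalised mean, plus the gauge `Y (x_{-L} → x_s)`.  It is used as `fA` AND as `fB`: the
A-row and the B-row at the same height share their lower highway.
-/

set_option autoImplicit false

open MeasureTheory Filter ProbabilityTheory
open Crest.ProbabilityR.FirstPassage
open Crest.Agent.R151.K Crest.Agent.R151.Q

namespace Crest.Agent.R151.J69

open B710 (FlatData)

variable {μ : ℝ × ℝ → ℝ} {F : FlatData μ}

/-- the half-lane `|al| ≤ W / 2`, `be ≥ 0` over the base point -/
def Lam (F : FlatData μ) (W : ℝ) (θ : ℝ × ℝ) : Set (ℤ × ℤ) :=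
  {z | |F.al (pos θ z)| ≤ W / 2 ∧ 0 ≤ F.be (pos θ z)}

/-- the vertex nearest to the point at height `g` above the base point of row `N` -/
noncomputable def endv (F : FlatData μ) (P g : ℝ) (N : ℕ) (θ : ℝ × ℝ) : ℤ × ℤ :=
  nr (θ - (N * P + g) • F.b)

/-- excess of the best walk of the half-lane from the position `s` of the lower highway of row `0`
to the vertex `endv` -/
noncomputable def Vv (h : Hwy F) (W P g : ℝ) (N : ℕ) (s : ℝ) (θ θ' : ℝ × ℝ) (u : ℝ)
    (t : Environment) : ℝ :=
  pR t (Lam F W θ) (h.x s u θ' t) (endv F P g N θ) - (phi F (endv F P g N θ) - phi F (h.x s u θ' t))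

/-- value with gauge -/
noncomputable def gV (h : Hwy F) (W P g L : ℝ) (N : ℕ) (s : ℝ) (θ θ' : ℝ × ℝ) (u : ℝ)
    (t : Environment) : ℝ :=
  h.Y (-L) s u θ' t + Vv h W P g N s θ θ' u t

/-- the normalised value function of the strategy: `x` = label (`al / W`), `l` = cost unit -/
noncomputable def fS (G : Measure ℝ) (h : Hwy F) (W P g L l : ℝ) (N : ℕ) (x : ℝ) : ℝ :=
  (∫ q : ((ℝ × ℝ) × Environment) × ((ℝ × ℝ) × ℝ),
    gV h W P g L N (x * W) q.1.1 (q.1.1 - g • F.b - q.2.1) q.2.2 q.1.2
      ∂((P0 G).prod (UU2.prod UU))) / l

end Crest.Agent.R151.J69
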