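import Crest.Agent.R151.M192b
import Crest.Agent.R151.G338h
import Crest.Agent.R151.R78J
import Crest.Agent.R151.J69c

/-!
# R151/J69d — the strategy, deterministic part (owner helper69)

* `pR_le_hull` : the passage time in a region is at most the hull cost (converted at the end points)
  if the open crossings and the highway pieces stay in the region.
* `ixspec` : `h.ix s` is a position (`R78.IsPos`) for the frame of the flat data.
* `Conn`/`pR` bounds for the half-lane `Lam`.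
-/

set_option autoImplicit false

open MeasureTheory Filter ProbabilityTheory
open Crest.ProbabilityR.FirstPassage
open Crest.Agent.R151.K Crest.Agent.R151.Q

namespace Crest.Agent.R151.J69

open B710 (FlatData)
open R78 (V Wk IsHwy hc hp hull routes IsOpen shp hullY IsStrip Frame IsPos Back)
open M192 (frame frame_al frame_be al_pos be_pos isStrip)

/-! ### Routes in a region -/

/-- routes whose open crossing and whose highway pieces stay in `R` bound the passage time in `R` -/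
theorem pR_le_hull {t : Environment} (ht : Nn t) {H H' : ℤ → V} (hH : IsHwy H) (hH' : IsHwy H')
    {A R : Set V} {i j : ℤ}
    (hopen : ∀ z w (g : Wk (H z) (H' w)), IsOpen H H' A g → ∀ v ∈ g.support, v ∈ R)
    (hseg : ∀ z k, i ≤ k → k ≤ z → H z ∈ A → H k ∈ R)
    (hseg' : ∀ w k, w ≤ k → k ≤ j → H' w ∈ A → H' k ∈ R)
    (hne : (routes t H H' A i j).Nonempty) :
    Conn R (H i) (H' j) ∧ pR t R (H i) (H' j) ≤ hull t H H' A i j - hc t H i + hc t H' j := by
  have key : ∀ c ∈ routes t H H' A i j,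
      Conn R (H i) (H' j) ∧ pR t R (H i) (H' j) + hc t H i - hc t H' j ≤ c := by
    rintro _ ⟨z, w, hz, hw, g, hg, rfl⟩
    obtain ⟨s, hs, hs'⟩ := hH.exists_seg hz
    obtain ⟨s', hs2, hs2'⟩ := hH'.exists_seg hw
    have hsup : ∀ v ∈ ((s.append g).append s').support, v ∈ R := by
      intro v hv
      rw [R78.mem_support_append, R78.mem_support_append] at hv
      rcases hv with (hv | hv) | hv
      · obtain ⟨k, h1, h2, rfl⟩ := (hs' v).1 hv
        exact hseg z k h1 h2 (hg.sub _ g.start_mem_support)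
      · exact hopen z w g hg v hv
      · obtain ⟨k, h1, h2, rfl⟩ := (hs2' v).1 hv
        exact hseg' w k h1 h2 (hg.sub _ g.end_mem_support)
    refine ⟨⟨_, hsup⟩, ?_⟩
    have h1 := pR_le ht _ hsup
    rw [walkCost_append, walkCost_append, hs t, hs2 t] at h1
    linarith
  obtain ⟨c, hcm⟩ := hne
  refine ⟨(key c hcm).1, ?_⟩
  have : pR t R (H i) (H' j) + hc t H i - hc t H' j ≤ hull t H H' A i j :=
    le_csInf ⟨c, hcm⟩ fun c hcm => (key c hcm).2
  linarith

/-! ### Labels -/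

variable {μ : ℝ × ℝ → ℝ} {F : FlatData μ} (h : Hwy F)

/-- `h.ix s` is the position `s` on the highway -/
lemma isPos_ix (s u : ℝ) (θ : ℝ × ℝ) (t : Environment) :
    IsPos (frame F) (h.H u θ t) (s - F.al θ) (h.ix s u θ t) := by
  obtain ⟨i, hi⟩ := (isStrip h u θ t).exists_pos (s - F.al θ)
  have hi1 : s ≤ F.al (pos θ (h.H u θ t i)) := by
    have := hi.ge
    rw [frame_al] at this
    rw [al_pos]; linarith
  have hi2 : ∀ k < i, F.al (pos θ (h.H u θ t k)) < s := by
    intro k hk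
    have := hi.lt k hk
    rw [frame_al] at this
    rw [al_pos]; linarith
  have hlb : i ∈ lowerBounds {k | s ≤ F.al (pos θ (h.H u θ t k))} := by
    intro k hk
    by_contra hc
    push Not at hc
    exact absurd (hi2 k hc) (not_lt.2 hk)
  have e : h.ix s u θ t = i := by
    unfold Hwy.ix firstGe
    exact le_antisymm (csInf_le ⟨i, hlb⟩ hi1) (le_csInf ⟨i, hi1⟩ hlb)
  rw [e]; exact hi

lemma back_frame (u : ℝ) (θ : ℝ × ℝ) (t : Environment) : Back (frame F) h.κ (h.H u θ t) := by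
  intro k l hkl
  have := h.back u θ t k l hkl
  rw [al_pos, al_pos] at this
  rw [frame_al, frame_al]; linarith

lemma le_al_x (s u : ℝ) (θ : ℝ × ℝ) (t : Environment) : s ≤ F.al (pos θ (h.x s u θ t)) := by
  have := (isPos_ix h s u θ t).ge
  rw [frame_al] at this
  rw [al_pos]
  unfold Hwy.x
  linarith

lemma al_x_lt (s u : ℝ) (θ : ℝ × ℝ) (t : Environment) :
    F.al (pos θ (h.x s u θ t)) < s + (frame F).stp := by
  have := (isPos_ix h s u θ t).al_le (h.isHwy u θ t)
  rw [frame_al] at this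
  rw [al_pos]
  unfold Hwy.x
  linarith

lemma ix_mono {s s' : ℝ} (hs : s ≤ s') (u : ℝ) (θ : ℝ × ℝ) (t : Environment) :
    h.ix s u θ t ≤ h.ix s' u θ t :=
  (isPos_ix h s u θ t).mono (isPos_ix h s' u θ t) (by linarith)

/-- pieces of the highway after the position `s` and before a vertex with `al ≤ r` -/
lemma al_seg_right {s r u : ℝ} {θ : ℝ × ℝ} {t : Environment} {z k : ℤ}
    (hk : h.ix s u θ t ≤ k) (hkz : k ≤ z) (hz : F.al (pos θ (h.H u θ t z)) ≤ r) :
    s - h.κ ≤ F.al (pos θ (h.H u θ t k)) ∧ F.al (pos θ (h.H u θ t k)) ≤ r + h.κ := by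
  have h1 := h.back u θ t _ _ hk
  have h2 := h.back u θ t _ _ hkz
  have h3 := le_al_x h s u θ t
  unfold Hwy.x at h3
  constructor <;> linarith

/-- pieces of the highway before the position `s` and after a vertex with `al ≥ r` -/
lemma al_seg_left {s r u : ℝ} {θ : ℝ × ℝ} {t : Environment} {w k : ℤ}
    (hk : k ≤ h.ix s u θ t) (hkw : w ≤ k) (hw : r ≤ F.al (pos θ (h.H u θ t w))) :
    r - h.κ ≤ F.al (pos θ (h.H u θ t k)) ∧
      F.al (pos θ (h.H u θ t k)) ≤ s + cF F := by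
  have h2 := h.back u θ t _ _ hkw
  constructor
  · linarith
  · rcases eq_or_lt_of_le hk with rfl | hk
    · exact h.al_x_le s u θ t
    · have := h.al_lt_of_lt_ix hk
      have := cF_nonneg F
      linarith

/-! ### The row and the gap as routes in the half-lane -/

/-- **one route**: lower highway with offset `θ₁` (phase `u₁`), upper highway with offset `θ₂`
(phase `u₂`), open crossings with `r ≤ al ≤ r'` (relative to `θ`), labels `s → s'`. -/
theorem pR_le_hull_hwy {t : Environment} (ht : Nn t) {θ θ₁ θ₂ : ℝ × ℝ} {u₁ u₂ s s' r r' : ℝ}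
    {A R : Set V}
    (hA : ∀ v ∈ A, r ≤ F.al (pos θ v) ∧ F.al (pos θ v) ≤ r')
    (hR : ∀ v, min (s + F.al (θ - θ₁)) r - h.κ ≤ F.al (pos θ v) →
      F.al (pos θ v) ≤ max r' (s' + F.al (θ - θ₂)) + (h.κ + cF F) →
      -(h.wH / 2) + F.be (θ - θ₁) ≤ F.be (pos θ v) →
      F.be (pos θ v) ≤ h.wH / 2 + F.be (θ - θ₂) → v ∈ R)
    (hlt : h.wH + F.be (θ₂ - θ₁) < 0)
    (hne : (routes t (h.H u₁ θ₁ t) (h.H u₂ θ₂ t) A (h.ix s u₁ θ₁ t) (h.ix s' u₂ θ₂ t)).Nonempty) :
    Conn R (h.x s u₁ θ₁ t) (h.x s' u₂ θ₂ t) ∧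
      pR t R (h.x s u₁ θ₁ t) (h.x s' u₂ θ₂ t) - (phi F (h.x s' u₂ θ₂ t) - phi F (h.x s u₁ θ₁ t)) ≤
        hullY t (phi F) (h.H u₁ θ₁ t) (h.H u₂ θ₂ t) A (h.ix s u₁ θ₁ t) (h.ix s' u₂ θ₂ t) := by
  have e1 : ∀ (θ' : ℝ × ℝ) (v : V), F.al (pos θ v) = F.al (pos θ' v) + F.al (θ - θ') := by
    intro θ' v; rw [al_pos, al_pos, map_sub]; ring
  have e2 : ∀ (θ' : ℝ × ℝ) (v : V), F.be (pos θ v) = F.be (pos θ' v) + F.be (θ - θ') := by
    intro θ' v; rw [be_pos, be_pos, map_sub]; ring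
  have hst1 := isStrip h u₁ θ₁ t
  have hst2 := isStrip h u₂ θ₂ t
  have hlt' : h.wH / 2 - F.be θ₁ < -(h.wH / 2) - F.be θ₂ := by
    rw [map_sub] at hlt; linarith
  have hbelt : F.be (θ - θ₁) ≤ F.be (θ - θ₂) - h.wH := by
    simp only [map_sub] at hlt ⊢; linarith
  have hw0 : 0 ≤ h.wH := by
    have := (abs_nonneg _).trans (h.strip u₁ θ₁ t 0)
    linarith
  have h0 := h.κ_nonneg
  have hc0 := cF_nonneg F
  have key := pR_le_hull (R := R) ht (h.isHwy u₁ θ₁ t) (h.isHwy u₂ θ₂ t) (A := A)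
    (i := h.ix s u₁ θ₁ t) (j := h.ix s' u₂ θ₂ t) ?_ ?_ ?_ hne
  · refine ⟨key.1, ?_⟩
    have := key.2
    unfold hullY hp Hwy.x
    linarith
  · -- open crossings
    intro z w g hg v hv
    obtain ⟨a1, a2⟩ := hA v (hg.sub v hv)
    obtain ⟨b1, b2⟩ := hst1.open_in_row hst2 hlt' hg v hv
    rw [frame_be] at b1 b2
    have hp := be_pos F θ v
    have hm3 := min_le_right (s + F.al (θ - θ₁)) r
    have hm4 := le_max_left r' (s' + F.al (θ - θ₂))
    refine hR v ?_ ?_ ?_ ?_
    · linarith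
    · linarith
    · rw [hp, map_sub]; linarith
    · rw [hp, map_sub]; linarith
  · -- lower highway
    intro z k hk hkz hz
    have hz' : F.al (pos θ₁ (h.H u₁ θ₁ t z)) ≤ r' - F.al (θ - θ₁) := by
      have := (hA _ hz).2
      rw [e1 θ₁] at this; linarith
    obtain ⟨a1, a2⟩ := al_seg_right h hk hkz hz'
    have b := abs_le.1 (h.strip u₁ θ₁ t k)
    have ea := e1 θ₁ (h.H u₁ θ₁ t k)
    have eb := e2 θ₁ (h.H u₁ θ₁ t k)
    have hm3 := min_le_left (s + F.al (θ - θ₁)) r
    have hm4 := le_max_left r' (s' + F.al (θ - θ₂))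
    refine hR _ ?_ ?_ ?_ ?_
    · linarith
    · linarith
    · linarith [b.1]
    · linarith [b.2]
  · -- upper highway
    intro w k hkw hk hw
    have hw' : r - F.al (θ - θ₂) ≤ F.al (pos θ₂ (h.H u₂ θ₂ t w)) := by
      have := (hA _ hw).1
      rw [e1 θ₂] at this; linarith
    obtain ⟨a1, a2⟩ := al_seg_left h hk hkw hw'
    have b := abs_le.1 (h.strip u₂ θ₂ t k)
    have ea := e1 θ₂ (h.H u₂ θ₂ t k)
    have eb := e2 θ₂ (h.H u₂ θ₂ t k)
    have hm3 := min_le_right (s + F.al (θ - θ₁)) r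
    have hm4 := le_max_right r' (s' + F.al (θ - θ₂))
    refine hR _ ?_ ?_ ?_ ?_
    · linarith
    · linarith
    · linarith [b.1]
    · linarith [b.2]

end Crest.Agent.R151.J69
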