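import Crest.Agent.R151.M192c
import Crest.Agent.R151.G338h
import Crest.Agent.R151.Q5c
import Crest.Agent.R151.J69d

/-!
# R151/J69e — the value function: measurability, invariance, locality (owner helper69)
-/

set_option autoImplicit false

open MeasureTheory Filter ProbabilityTheory
open Crest.ProbabilityR.FirstPassage
open Crest.Agent.R151.K Crest.Agent.R151.Q

namespace Crest.Agent.R151.J69

open B710 (FlatData)
open R78 (V Wk IsHwy hc hp hull routes IsOpen shp hullY IsStrip Frame IsPos Back)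
open M192 (frame frame_al frame_be al_pos be_pos isStrip)

/-! ### Measurability of region passage times with random data -/

section meas

variable {Ω : Type*} [MeasurableSpace Ω]

theorem measurable_pR_rand {T : Ω → Environment} {R : Ω → Set (ℤ × ℤ)} {x y : Ω → ℤ × ℤ}
    (hT : Measurable T) (hR : ∀ v, MeasurableSet {ω | v ∈ R ω}) (hx : Measurable x)
    (hy : Measurable y) : Measurable fun ω => pR (T ω) (R ω) (x ω) (y ω) := by
  have e : (fun ω => pR (T ω) (R ω) (x ω) (y ω)) = fun ω => sInf {c : ℝ |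
      ∃ q : (Σ ab : (ℤ × ℤ) × (ℤ × ℤ), squareLattice.Walk ab.1 ab.2),
        (x ω = q.1.1 ∧ y ω = q.1.2 ∧ ∀ v ∈ q.2.support, v ∈ R ω) ∧
        c = (fun q ω => walkCost (T ω) q.2 :
          (Σ ab : (ℤ × ℤ) × (ℤ × ℤ), squareLattice.Walk ab.1 ab.2) → Ω → ℝ) q ω} := by
    funext ω
    unfold pR iInf
    congr 1
    ext c
    constructor
    · rintro ⟨⟨w, hw⟩, rfl⟩
      exact ⟨⟨(x ω, y ω), w⟩, ⟨rfl, rfl, hw⟩, rfl⟩
    · rintro ⟨⟨⟨a, b⟩, w⟩, ⟨h1, h2, h3⟩, rfl⟩
      simp only at h1 h2 w h3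
      subst h1
      subst h2
      exact ⟨⟨w, h3⟩, rfl⟩
  rw [e]
  refine G338.measurable_sInf_aux (fun q => ?_) (fun q => (measurable_walkCost q.2).comp hT)
  refine MeasurableSet.inter (hx (measurableSet_singleton _)) ?_
  refine MeasurableSet.inter (hy (measurableSet_singleton _)) ?_
  have : {ω | ∀ v ∈ q.2.support, v ∈ R ω} = ⋂ v ∈ q.2.support, {ω | v ∈ R ω} := by
    ext ω; simp
  show MeasurableSet {ω | ∀ v ∈ q.2.support, v ∈ R ω}
  rw [this]
  exact MeasurableSet.biInter (Set.to_countable {v | v ∈ q.2.support}) fun v _ => hR v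

end meas

variable {μ : ℝ × ℝ → ℝ} {F : FlatData μ} (h : Hwy F)

section meas2

variable {Ω : Type*} [MeasurableSpace Ω] {θ θ' : Ω → ℝ × ℝ} {u : Ω → ℝ} {t : Ω → Environment}
  (hθ : Measurable θ) (hθ' : Measurable θ') (hu : Measurable u) (ht : Measurable t)
include hθ hθ' hu ht

omit hθ in
lemma meas_x (s : ℝ) : Measurable fun ω => h.x s (u ω) (θ' ω) (t ω) := by
  unfold Hwy.x
  exact measurable_at (h.meas_H hu hθ' ht) (h.meas_ix s hu hθ' ht)

omit hθ in
lemma meas_Y (s s' : ℝ) : Measurable fun ω => h.Y s s' (u ω) (θ' ω) (t ω) := by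
  unfold Hwy.Y hp
  have hphi : Measurable (phi F) := measurable_of_countable _
  have hH : ∀ k, Measurable fun ω => h.H (u ω) (θ' ω) (t ω) k := h.meas_H hu hθ' ht
  refine Measurable.sub (Measurable.sub ?_ ?_) (Measurable.sub ?_ ?_)
  · exact measurable_at (fun k => measurable_hc ht hH k) (h.meas_ix s' hu hθ' ht)
  · exact hphi.comp (measurable_at hH (h.meas_ix s' hu hθ' ht))
  · exact measurable_at (fun k => measurable_hc ht hH k) (h.meas_ix s hu hθ' ht)
  · exact hphi.comp (measurable_at hH (h.meas_ix s hu hθ' ht))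

omit hθ' hu ht in
lemma meas_endv (P g : ℝ) (N : ℕ) : Measurable fun ω => endv F P g N (θ ω) := by
  unfold endv
  exact measurable_nr.comp (hθ.sub_const _)

omit hθ' hu ht in
lemma meas_Lam (W : ℝ) (v : ℤ × ℤ) : MeasurableSet {ω | v ∈ Lam F W (θ ω)} := by
  have h1 : Measurable fun ω => F.al (pos (θ ω) v) :=
    F.al.continuous.measurable.comp (Hwy.meas_pos hθ measurable_const)
  have h2 : Measurable fun ω => F.be (pos (θ ω) v) :=
    F.be.continuous.measurable.comp (Hwy.meas_pos hθ measurable_const)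
  exact (measurableSet_le h1.abs measurable_const).inter (measurableSet_le measurable_const h2)

lemma meas_Vv (W P g : ℝ) (N : ℕ) (s : ℝ) :
    Measurable fun ω => Vv h W P g N s (θ ω) (θ' ω) (u ω) (t ω) := by
  unfold Vv
  have hphi : Measurable (phi F) := measurable_of_countable _
  have h1 := meas_x h hθ' hu ht s
  have h2 := meas_endv (F := F) hθ P g N
  exact (measurable_pR_rand ht (meas_Lam hθ W) h1 h2).sub ((hphi.comp h2).sub (hphi.comp h1))

lemma meas_gV (W P g L : ℝ) (N : ℕ) (s : ℝ) :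
    Measurable fun ω => gV h W P g L N s (θ ω) (θ' ω) (u ω) (t ω) :=
  (meas_Y h hθ' hu ht (-L) s).add (meas_Vv h hθ hθ' hu ht W P g N s)

end meas2

/-! ### Invariance -/

lemma x_cov (s u : ℝ) (θ : ℝ × ℝ) (t : Environment) (m : ℤ × ℤ) :
    h.x s u (θ + toR m) (act (tr m) t) = h.x s u θ t - m := by
  unfold Hwy.x
  rw [M192.ix_cov, h.cov]

lemma Y_inv (s s' u : ℝ) : Inv fun θ t => h.Y s s' u θ t := by
  intro m θ t
  have e : h.H u (θ + toR m) (act (tr m) t) = fun k => h.H u θ t k - m := by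
    funext k; exact h.cov u θ t m k
  unfold Hwy.Y
  simp only
  rw [M192.ix_cov, M192.ix_cov, e, M192.hp_tr, M192.hp_tr]
  ring

lemma endv_cov (P g : ℝ) (N : ℕ) (θ : ℝ × ℝ) (m : ℤ × ℤ) :
    endv F P g N (θ + toR m) = endv F P g N θ - m := by
  unfold endv
  rw [add_sub_right_comm, nr_add]

lemma Lam_add (W : ℝ) (θ : ℝ × ℝ) (m : ℤ × ℤ) :
    Lam F W (θ + toR m) = (fun u => u + m) ⁻¹' Lam F W θ := by
  ext v
  simp only [Lam, Set.mem_ofPred_eq, Set.mem_preimage, M192.pos_add_toR]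

lemma Vv_inv (W P g : ℝ) (N : ℕ) (s : ℝ) (θ θ' : ℝ × ℝ) (u : ℝ) (t : Environment) (m : ℤ × ℤ) :
    Vv h W P g N s (θ + toR m) (θ' + toR m) u (act (tr m) t) = Vv h W P g N s θ θ' u t := by
  unfold Vv
  rw [x_cov, endv_cov, Lam_add, pR_tr, sub_add_cancel, sub_add_cancel]
  have e : ∀ z : ℤ × ℤ, phi F (z - m) = phi F z - phi F m := fun z => Hwy.phi_sub z m
  rw [e, e]; ring

lemma gV_inv (W P g L : ℝ) (N : ℕ) (s : ℝ) (θ θ' : ℝ × ℝ) (u : ℝ) (t : Environment) (m : ℤ × ℤ) :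
    gV h W P g L N s (θ + toR m) (θ' + toR m) u (act (tr m) t) = gV h W P g L N s θ θ' u t := by
  unfold gV
  rw [Vv_inv]
  have := Y_inv h (-L) s u m θ' t
  simp only at this
  rw [this]

/-! ### Locality -/

/-- the region above the base line -/
def Abv (F : FlatData μ) (θ : ℝ × ℝ) : Set (ℤ × ℤ) := {z | 0 ≤ F.be (pos θ z)}

lemma strip_sub_Abv {θ θ' : ℝ × ℝ} (hθ : h.wH / 2 ≤ F.be (θ - θ')) :
    edgesIn {z | |F.be (pos θ' z)| ≤ h.wH / 2} ⊆ edgesIn (Abv F θ) := by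
  intro e he z hz
  have h0 : |F.be (pos θ' z)| ≤ h.wH / 2 := he z hz
  have h1 := (abs_le.1 h0).1
  show 0 ≤ F.be (pos θ z)
  have e2 : F.be (pos θ z) = F.be (pos θ' z) + F.be (θ - θ') := by
    rw [be_pos, be_pos, map_sub]; ring
  linarith

lemma Y_loc {θ θ' : ℝ × ℝ} (hθ : h.wH / 2 ≤ F.be (θ - θ')) {t t' : Environment}
    (ht : ∀ e ∈ edgesIn (Abv F θ), t e = t' e) (s s' u : ℝ) :
    h.H u θ' t = h.H u θ' t' ∧ (∀ s, h.ix s u θ' t = h.ix s u θ' t') ∧
      h.Y s s' u θ' t = h.Y s s' u θ' t' := by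
  have hH : h.H u θ' t = h.H u θ' t' := h.loc u θ' t t' fun e he => ht e (strip_sub_Abv h hθ he)
  have hix : ∀ s, h.ix s u θ' t = h.ix s u θ' t' := fun s => by unfold Hwy.ix; rw [hH]
  have hhc : ∀ k, hc t (h.H u θ' t) k = hc t' (h.H u θ' t) k := by
    intro k
    refine M192.hc_congr (fun k => ?_) k
    refine ht _ (strip_sub_Abv h hθ ?_)
    rw [mem_edgesIn]
    exact ⟨h.strip u θ' t k, h.strip u θ' t (k + 1)⟩
  refine ⟨hH, hix, ?_⟩
  unfold Hwy.Y hp
  rw [← hix, ← hix, ← hH, hhc, hhc]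

lemma gV_loc (W P g L : ℝ) (N : ℕ) (s u : ℝ) {θ θ' : ℝ × ℝ} (hθ : h.wH / 2 ≤ F.be (θ - θ')) :
    DependsOn (fun t => gV h W P g L N s θ θ' u t) (edgesIn (Abv F θ)) := by
  intro t t' ht
  obtain ⟨h1, h2, h3⟩ := Y_loc h hθ ht (-L) s u
  have hx : h.x s u θ' t = h.x s u θ' t' := by unfold Hwy.x; rw [h1, h2]
  simp only [gV, Vv]
  rw [h3, hx]
  have hp : pR t (Lam F W θ) (h.x s u θ' t') (endv F P g N θ) =
      pR t' (Lam F W θ) (h.x s u θ' t') (endv F P g N θ) := by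
    refine pR_congr (fun a ha b hb => ht _ ?_) _ _
    rw [mem_edgesIn]
    exact ⟨ha.2, hb.2⟩
  rw [hp]

end Crest.Agent.R151.J69
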