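import Crest.Agent.R151.J69e

/-!
# R151/J69f — connectivity of the half-lane, integrability of the value function (owner helper69)
-/

set_option autoImplicit false

open MeasureTheory Filter ProbabilityTheory
open Crest.ProbabilityR.FirstPassage
open Crest.Agent.R151.K Crest.Agent.R151.Q

namespace Crest.Agent.R151.J69

open B710 (FlatData)
open R78 (V Wk IsHwy hc hp hull routes IsOpen shp hullY IsStrip Frame IsPos Back)
open M192 (frame frame_al frame_be al_pos be_pos isStrip)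

variable {μ : ℝ × ℝ → ℝ} {F : FlatData μ} (h : Hwy F)

/-! ### Connectivity -/

/-- a linear functional along a walk close to a segment -/
lemma near_segment (f : ℝ × ℝ →L[ℝ] ℝ) {c : ℝ} (hc : ‖f‖ ≤ c) {P Q v : ℤ × ℤ} {s : ℝ} (hs0 : 0 ≤ s)
    (hs1 : s ≤ 1) (hv : ‖toR v - sgm (toR P) (toR Q) s‖ ≤ 3 / 2) :
    |f (toR v) - ((1 - s) * f (toR P) + s * f (toR Q))| ≤ 3 / 2 * c := by
  have e : f (toR v) - ((1 - s) * f (toR P) + s * f (toR Q)) =
      f (toR v - sgm (toR P) (toR Q) s) := by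
    unfold sgm
    rw [map_sub, map_add, map_smul, map_sub, smul_eq_mul]; ring
  rw [e, ← Real.norm_eq_abs]
  have h0 : 0 ≤ ‖f‖ := norm_nonneg f
  calc ‖f (toR v - sgm (toR P) (toR Q) s)‖ ≤ ‖f‖ * ‖toR v - sgm (toR P) (toR Q) s‖ :=
        f.le_opNorm _
    _ ≤ c * (3 / 2) := by
        have := norm_nonneg (toR v - sgm (toR P) (toR Q) s)
        gcongr
        exact h0.trans hc
    _ = 3 / 2 * c := by ring

/-- two points of a half-lane are joined in a slightly larger half-lane -/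
theorem exists_walk_halflane (F : FlatData μ) (θ : ℝ × ℝ) {r b0 : ℝ} {x y : ℤ × ℤ}
    (hx : |F.al (pos θ x)| ≤ r) (hy : |F.al (pos θ y)| ≤ r)
    (hx' : b0 ≤ F.be (pos θ x)) (hy' : b0 ≤ F.be (pos θ y)) :
    ∃ w : squareLattice.Walk x y, ∀ v ∈ w.support,
      |F.al (pos θ v)| ≤ r + 3 / 2 * cF F ∧ b0 - 3 / 2 * cF F ≤ F.be (pos θ v) := by
  obtain ⟨w, hw, -⟩ := exists_staircase x y
  refine ⟨w, fun v hv => ?_⟩
  obtain ⟨s, hs0, hs1, hs⟩ := hw v hv
  have hna : ‖F.al‖ ≤ cF F := by unfold cF; linarith [norm_nonneg F.be]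
  have hnb : ‖F.be‖ ≤ cF F := by unfold cF; linarith [norm_nonneg F.al]
  have h1 := abs_le.1 (near_segment F.al hna hs0 hs1 hs)
  have h2 := abs_le.1 (near_segment F.be hnb hs0 hs1 hs)
  rw [al_pos, abs_le] at hx hy
  rw [be_pos] at hx' hy'
  rw [al_pos, be_pos, abs_le]
  have hs1' : 0 ≤ 1 - s := by linarith
  have e1 : (1 - s) * (F.al (toR x) + F.al θ) + s * (F.al (toR y) + F.al θ) =
      (1 - s) * F.al (toR x) + s * F.al (toR y) + F.al θ := by ring
  have e2 : (1 - s) * (F.be (toR x) + F.be θ) + s * (F.be (toR y) + F.be θ) =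
      (1 - s) * F.be (toR x) + s * F.be (toR y) + F.be θ := by ring
  have a1 : (1 - s) * (F.al (toR x) + F.al θ) + s * (F.al (toR y) + F.al θ) ≤ r := by
    nlinarith [hx.2, hy.2]
  have a2 : -r ≤ (1 - s) * (F.al (toR x) + F.al θ) + s * (F.al (toR y) + F.al θ) := by
    nlinarith [hx.1, hy.1]
  have a3 : b0 ≤ (1 - s) * (F.be (toR x) + F.be θ) + s * (F.be (toR y) + F.be θ) := by
    nlinarith
  rw [e1] at a1 a2
  rw [e2] at a3
  refine ⟨⟨?_, ?_⟩, ?_⟩
  · linarith [h1.1]
  · linarith [h1.2]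
  · linarith [h2.1]

/-- points well inside the half-lane are connected in the half-lane -/
theorem conn_Lam {W : ℝ} {θ : ℝ × ℝ} {x y : ℤ × ℤ}
    (hx : |F.al (pos θ x)| ≤ W / 2 - 2 * cF F) (hy : |F.al (pos θ y)| ≤ W / 2 - 2 * cF F)
    (hx' : 2 * cF F ≤ F.be (pos θ x)) (hy' : 2 * cF F ≤ F.be (pos θ y)) :
    Conn (Lam F W θ) x y := by
  obtain ⟨w, hw⟩ := exists_walk_halflane F θ hx hy hx' hy'
  have hc := cF_nonneg F
  refine ⟨w, fun v hv => ⟨?_, ?_⟩⟩
  · linarith [(hw v hv).1]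
  · linarith [(hw v hv).2]

/-! ### Integrability -/

variable {G : Measure ℝ} [IsProbabilityMeasure G]

lemma integrable_walkCost (h1 : Integrable (fun x : ℝ => x) G) {x y : ℤ × ℤ}
    (w : squareLattice.Walk x y) : Integrable (fun t : Environment => walkCost t w) (iidLaw G) := by
  unfold walkCost
  have hie : ∀ e : Sym2 (ℤ × ℤ), Integrable (fun t : Environment => t e) (iidLaw G) :=
    fun e => (mp_eval (G := G) e).integrable_comp_of_integrable h1
  induction w.edges with
  | nil => simp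
  | cons e l ih =>
    simp only [List.map_cons, List.sum_cons]
    exact (hie e).add ih

/-- integrability of passage times of the half-lane between random vertices -/
theorem integrable_pR_Lam {Ψ : Type*} [MeasurableSpace Ψ] (π : Measure Ψ) [IsProbabilityMeasure π]
    (h0 : G (Set.Iio 0) = 0) (h1 : Integrable (fun x : ℝ => x) G) {W : ℝ} {M : ℕ}
    {X Y : ((ℝ × ℝ) × Environment) × Ψ → ℤ × ℤ} (hX : Measurable X) (hY : Measurable Y)
    (hXY : ∀ᵐ q ∂((P0 G).prod π), X q ∈ box M ∧ Y q ∈ box M ∧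
      (|F.al (pos q.1.1 (X q))| ≤ W / 2 - 4 * cF F ∧ 4 * cF F ≤ F.be (pos q.1.1 (X q))) ∧
      (|F.al (pos q.1.1 (Y q))| ≤ W / 2 - 4 * cF F ∧ 4 * cF F ≤ F.be (pos q.1.1 (Y q)))) :
    Integrable (fun q => pR q.1.2 (Lam F W q.1.1) (X q) (Y q)) ((P0 G).prod π) := by
  classical
  -- deterministic walks
  let good : ℤ × ℤ → ℤ × ℤ → Prop := fun x y => ∃ w : squareLattice.Walk x y, ∀ v ∈ w.support,
    |F.al (toR v)| ≤ W / 2 - cF F ∧ cF F ≤ F.be (toR v)
  let c : ℤ × ℤ → ℤ × ℤ → Environment → ℝ := fun x y t =>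
    if hg : good x y then walkCost t hg.choose else 0
  have hcint : ∀ x y, Integrable (c x y) (iidLaw G) := by
    intro x y
    by_cases hg : good x y
    · have : c x y = fun t => walkCost t hg.choose := by funext t; simp only [c, dif_pos hg]
      rw [this]; exact integrable_walkCost h1 _
    · have : c x y = fun _ => 0 := by funext t; simp only [c, dif_neg hg]
      rw [this]; exact integrable_const _
  let D : Environment → ℝ := fun t => ∑ x ∈ box M, ∑ y ∈ box M, c x y t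
  have hDint : Integrable D (iidLaw G) :=
    integrable_finsetSum _ fun x _ => integrable_finsetSum _ fun y _ => hcint x y
  have hD' : Integrable (fun q : ((ℝ × ℝ) × Environment) × Ψ => D q.1.2) ((P0 G).prod π) := by
    have ha : Integrable (fun p : (ℝ × ℝ) × Environment => D p.2) (P0 G) := by
      unfold P0
      exact hDint.comp_snd UU2
    exact ha.comp_fst π
  have hRm : ∀ v, MeasurableSet {q : ((ℝ × ℝ) × Environment) × Ψ | v ∈ Lam F W q.1.1} :=
    fun v => meas_Lam (F := F) (θ := fun q : ((ℝ × ℝ) × Environment) × Ψ => q.1.1)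
      (measurable_fst.comp measurable_fst) W v
  refine hD'.mono' (measurable_pR_rand (measurable_snd.comp measurable_fst) hRm hX
    hY).aestronglyMeasurable ?_
  filter_upwards [ae_P0_Nn (Ψ := Ψ) (ν := π) h0, hXY] with q hq hq'
  obtain ⟨hN, hξ⟩ := hq
  obtain ⟨hX1, hY1, ⟨hx, hx'⟩, ⟨hy, hy'⟩⟩ := hq'
  rw [Real.norm_eq_abs, abs_of_nonneg (pR_nonneg hN _ _ _)]
  have hξn := norm_jitter hξ
  have hal := abs_le.1 (abs_al_le' F hξn)
  have hbe := abs_le.1 (abs_be_le' F hξn)
  have hc := cF_nonneg F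
  have hg : good (X q) (Y q) := by
    obtain ⟨w, hw⟩ := exists_walk_halflane F q.1.1 hx hy hx' hy'
    refine ⟨w, fun v hv => ?_⟩
    obtain ⟨a1, a2⟩ := hw v hv
    rw [al_pos, abs_le] at a1
    rw [be_pos] at a2
    rw [abs_le]
    refine ⟨⟨by linarith [a1.1], by linarith [a1.2]⟩, by linarith⟩
  have hsub : ∀ v ∈ (hg.choose).support, v ∈ Lam F W q.1.1 := by
    intro v hv
    obtain ⟨a1, a2⟩ := hg.choose_spec v hv
    rw [abs_le] at a1
    refine ⟨?_, ?_⟩
    · rw [al_pos, abs_le]; exact ⟨by linarith [a1.1], by linarith [a1.2]⟩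
    · rw [be_pos]; linarith
  have hcn : ∀ x y, 0 ≤ c x y q.1.2 := by
    intro x y
    by_cases hg : good x y
    · simp only [c, dif_pos hg]; exact walkCost_nonneg hN _
    · simp only [c, dif_neg hg]; exact le_rfl
  calc pR q.1.2 (Lam F W q.1.1) (X q) (Y q) ≤ walkCost q.1.2 hg.choose := pR_le hN _ hsub
    _ = c (X q) (Y q) q.1.2 := by simp only [c, dif_pos hg]
    _ ≤ ∑ y ∈ box M, c (X q) y q.1.2 :=
        Finset.single_le_sum (f := fun y => c (X q) y q.1.2) (fun y _ => hcn _ y) hY1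
    _ ≤ D q.1.2 := Finset.single_le_sum (f := fun x => ∑ y ∈ box M, c x y q.1.2)
        (fun x _ => Finset.sum_nonneg fun y _ => hcn x y) hX1

/-- a function of a random vertex of a fixed box is integrable -/
lemma integrable_fun_box {Ω : Type*} [MeasurableSpace Ω] {P : Measure Ω} [IsFiniteMeasure P]
    {X : Ω → ℤ × ℤ} (hX : Measurable X) {M : ℕ} (hM : ∀ᵐ q ∂P, X q ∈ box M) (f : ℤ × ℤ → ℝ) :
    Integrable (fun q => f (X q)) P := by
  have hfm : Measurable f := measurable_of_countable f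
  refine Integrable.of_bound (hfm.comp hX).aestronglyMeasurable (∑ z ∈ box M, |f z|) ?_
  filter_upwards [hM] with q hq
  rw [Real.norm_eq_abs]
  exact Finset.single_le_sum (f := fun z => |f z|) (fun z _ => abs_nonneg _) hq

end Crest.Agent.R151.J69
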