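import Crest.Agent.R151.J69f

/-!
# R151/J69g — one move of the strategy, pointwise (owner helper69)

Space `Ω4`: shift `ξ`, environment `t`, own phases of row `0` (jitter `η`, `u`, `u'`), phases of
the next lower highway (jitter `η₁`, `u₁`).
-/

set_option autoImplicit false

open MeasureTheory Filter ProbabilityTheory
open Crest.ProbabilityR.FirstPassage
open Crest.Agent.R151.K Crest.Agent.R151.Q

namespace Crest.Agent.R151.J69

open B710 (FlatData)
open R78 (V Wk IsHwy hc hp hull routes IsOpen shp hullY IsStrip Frame IsPos Back)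
open M192 (frame frame_al frame_be al_pos be_pos isStrip)

variable {μ : ℝ × ℝ → ℝ} {F : FlatData μ} (h : Hwy F)

/-- excess in the half-lane between two vertices -/
noncomputable def exL (F : FlatData μ) (W : ℝ) (θ : ℝ × ℝ) (t : Environment) (x y : ℤ × ℤ) : ℝ :=
  pR t (Lam F W θ) x y - (phi F y - phi F x)

lemma Vv_eq (W P g : ℝ) (N : ℕ) (s : ℝ) (θ θ' : ℝ × ℝ) (u : ℝ) (t : Environment) :
    Vv h W P g N s θ θ' u t = exL F W θ t (h.x s u θ' t) (endv F P g N θ) := rfl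

lemma Y_eq_cst (s s' u : ℝ) (θ : ℝ × ℝ) (t : Environment) :
    h.Y s s' u θ t = h.cst s s' u θ t - (phi F (h.x s' u θ t) - phi F (h.x s u θ t)) := by
  unfold Hwy.Y Hwy.cst hp Hwy.x; ring

lemma Y_add (s s' s'' u : ℝ) (θ : ℝ × ℝ) (t : Environment) :
    h.Y s s' u θ t + h.Y s' s'' u θ t = h.Y s s'' u θ t := by
  unfold Hwy.Y; ring

/-- monotonicity of the half-lane in the base point -/
lemma Lam_sub (W : ℝ) (θ : ℝ × ℝ) {p : ℝ} (hp : 0 ≤ p) :
    Lam F W (θ - p • F.b) ⊆ Lam F W θ := by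
  intro z hz
  obtain ⟨h1, h2⟩ := hz
  rw [M192.al_pos_sub_b] at h1
  rw [M192.be_pos_sub_b] at h2
  exact ⟨h1, by linarith⟩

lemma endv_shift (P g : ℝ) (N k : ℕ) (θ : ℝ × ℝ) :
    endv F P g (N + k) θ = endv F P g N (θ - (k * P) • F.b) := by
  unfold endv
  congr 1
  rw [sub_sub, ← add_smul]
  congr 2
  push_cast
  ring

/-- triangle inequality for the excess in the half-lane -/
lemma exL_triangle {W : ℝ} {θ : ℝ × ℝ} {t : Environment} (ht : Nn t) {x y z : ℤ × ℤ}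
    (h1 : Conn (Lam F W θ) x y) (h2 : Conn (Lam F W θ) y z) :
    exL F W θ t x z ≤ exL F W θ t x y + exL F W θ t y z := by
  have := pR_triangle ht h1 h2
  unfold exL; linarith

/-- position of a vertex of a highway relative to another base point -/
lemma pos_x_bounds (s u : ℝ) (θ θ' : ℝ × ℝ) (t : Environment) :
    s + F.al (θ - θ') ≤ F.al (pos θ (h.x s u θ' t)) ∧
    F.al (pos θ (h.x s u θ' t)) ≤ s + cF F + F.al (θ - θ') ∧
    -(h.wH / 2) + F.be (θ - θ') ≤ F.be (pos θ (h.x s u θ' t)) ∧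
    F.be (pos θ (h.x s u θ' t)) ≤ h.wH / 2 + F.be (θ - θ') := by
  have e1 : F.al (pos θ (h.x s u θ' t)) = F.al (pos θ' (h.x s u θ' t)) + F.al (θ - θ') := by
    rw [al_pos, al_pos, map_sub]; ring
  have e2 : F.be (pos θ (h.x s u θ' t)) = F.be (pos θ' (h.x s u θ' t)) + F.be (θ - θ') := by
    rw [be_pos, be_pos, map_sub]; ring
  have a1 := le_al_x h s u θ' t
  have a2 := h.al_x_le s u θ' t
  have a3 := abs_le.1 (h.strip u θ' t (h.ix s u θ' t))
  have a5 : F.al (pos θ' (h.x s u θ' t)) = F.al (pos θ' (h.H u θ' t (h.ix s u θ' t))) := rfl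
  have a4 : F.be (pos θ' (h.x s u θ' t)) = F.be (pos θ' (h.H u θ' t (h.ix s u θ' t))) := rfl
  refine ⟨by linarith, by linarith, by linarith [a3.1], by linarith [a3.2]⟩

lemma endv_bounds (P g : ℝ) (N : ℕ) (θ : ℝ × ℝ) :
    |F.al (pos θ (endv F P g N θ))| ≤ cF F ∧
      N * P + g - cF F ≤ F.be (pos θ (endv F P g N θ)) := by
  set θ' := θ - (N * P + g) • F.b with hθ'
  have h1 : ‖pos θ' (nr θ')‖ ≤ 1 := (norm_pos_nr θ').trans (by norm_num)
  have h2 := abs_al_le' F h1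
  have h3 := abs_be_le' F h1
  have e : endv F P g N θ = nr θ' := rfl
  rw [e]
  rw [hθ', M192.al_pos_sub_b] at h2
  rw [hθ', M192.be_pos_sub_b, abs_le] at h3
  rw [← hθ'] at h2 h3
  exact ⟨h2, by linarith [h3.1]⟩

/-! ### The gap functional -/

/-- excess of the route `x_{-L}⁺ → x_{s}⁺ → x_{s'}¹ → x_L¹` between the upper highway of row `0`
(offset `θU`) and the next lower highway (offset `θ₁`) -/
noncomputable def gapF (W L s s' : ℝ) (ξ θU θ₁ : ℝ × ℝ) (u' u₁ : ℝ) (t : Environment) : ℝ :=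
  h.Y (-L) s u' θU t + exL F W ξ t (h.x s u' θU t) (h.x s' u₁ θ₁ t) + h.Y s' L u₁ θ₁ t

/-- full plane excess `x_{-L}⁺ → x_L¹` -/
noncomputable def gap0 (L : ℝ) (θU θ₁ : ℝ × ℝ) (u' u₁ : ℝ) (t : Environment) : ℝ :=
  R78.ptY t (phi F) (h.x (-L) u' θU t) (h.x L u₁ θ₁ t)

lemma gap0_le_gapF {W L s s' : ℝ} {ξ θU θ₁ : ℝ × ℝ} {u' u₁ : ℝ} {t : Environment} (ht : Nn t)
    (hs : -L ≤ s) (hs' : s' ≤ L)
    (hc : Conn (Lam F W ξ) (h.x s u' θU t) (h.x s' u₁ θ₁ t)) :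
    gap0 h L θU θ₁ u' u₁ t ≤ gapF h W L s s' ξ θU θ₁ u' u₁ t := by
  have h1 := R78.gapK_mono ht (h.isHwy u' θU t) (h.isHwy u₁ θ₁ t) (h.ix_mono hs u' θU t)
    (h.ix_mono hs' u₁ θ₁ t)
  have h2 := pt_le_pR ht hc
  rw [R78.gapK_eq t (phi F), R78.gapK_eq t (phi F)] at h1
  unfold gap0 gapF R78.ptY exL Hwy.Y
  unfold Hwy.x at h2 ⊢
  linarith

/-! ### One move, pointwise -/

/-- parameters of a move: row of height `y`, gaps `g`, `y + 2 g = k` pitches -/
structure MPar (h : Hwy F) (P g y : ℝ) (k : ℕ) : Prop where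
  hg : h.wH / 2 + 5 * cF F ≤ g
  hy : h.wH < y
  hk : y + 2 * g = k * P
  hP : 0 ≤ P

/-- a label is well inside the lane -/
def Ins (h : Hwy F) (W s : ℝ) : Prop := |s| ≤ W / 2 - h.κ - 6 * cF F

section move

variable {W P g y L : ℝ} {k : ℕ} (hM : MPar h P g y k) {ξ η η₁ : ℝ × ℝ} {u u' u₁ : ℝ}
  {t : Environment}
include hM

omit hM in
lemma wH_nonneg2 : 0 ≤ h.wH := by
  have := (abs_nonneg _).trans (h.strip 0 0 (fun _ => 0) 0)
  linarith

lemma conn_x0 {s : ℝ} (hs : Ins h W s) (hη : ‖η‖ ≤ 1) :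
    |F.al (pos ξ (h.x s u (ξ - g • F.b - η) t))| ≤ W / 2 - 4 * cF F ∧
      4 * cF F ≤ F.be (pos ξ (h.x s u (ξ - g • F.b - η) t)) := by
  obtain ⟨a1, a2, a3, a4⟩ := pos_x_bounds h s u ξ (ξ - g • F.b - η) t
  have e : ξ - (ξ - g • F.b - η) = g • F.b + η := by abel
  rw [e, map_add, map_smul, F.al_b, smul_zero, zero_add] at a1 a2
  rw [e, map_add, map_smul, F.be_b, smul_eq_mul, mul_one] at a3 a4
  have b1 := abs_le.1 (abs_al_le' F hη)
  have b2 := abs_le.1 (abs_be_le' F hη)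
  have hs' := abs_le.1 hs
  have h0 := h.κ_nonneg
  have hg := hM.hg
  refine ⟨?_, by linarith [b2.1]⟩
  rw [abs_le]
  constructor <;> linarith [b1.1, b1.2, hs'.1, hs'.2]

lemma conn_xU {s : ℝ} (hs : Ins h W s) (hη : ‖η‖ ≤ 1) :
    |F.al (pos ξ (h.x s u' (ξ - g • F.b - η - y • F.b) t))| ≤ W / 2 - 4 * cF F ∧
      4 * cF F ≤ F.be (pos ξ (h.x s u' (ξ - g • F.b - η - y • F.b) t)) := by
  obtain ⟨a1, a2, a3, a4⟩ := pos_x_bounds h s u' ξ (ξ - g • F.b - η - y • F.b) t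
  have e : ξ - (ξ - g • F.b - η - y • F.b) = g • F.b + y • F.b + η := by abel
  rw [e, map_add, map_add, map_smul, map_smul, F.al_b, smul_zero, smul_zero, zero_add, zero_add]
    at a1 a2
  rw [e, map_add, map_add, map_smul, map_smul, F.be_b, smul_eq_mul, smul_eq_mul, mul_one, mul_one]
    at a3 a4
  have b1 := abs_le.1 (abs_al_le' F hη)
  have b2 := abs_le.1 (abs_be_le' F hη)
  have hs' := abs_le.1 hs
  have h0 := h.κ_nonneg
  have hg := hM.hg
  have hy := hM.hy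
  have hw := wH_nonneg2 h
  refine ⟨?_, by linarith [b2.1]⟩
  rw [abs_le]
  constructor <;> linarith [b1.1, b1.2, hs'.1, hs'.2]

lemma kP_nonneg : 0 ≤ k * P := mul_nonneg (Nat.cast_nonneg k) hM.hP

/-- the next lower highway, relative to the base point of the next row -/
lemma conn_x1 {s : ℝ} (hs : Ins h W s) (hη : ‖η₁‖ ≤ 1) :
    |F.al (pos (ξ - (k * P) • F.b) (h.x s u₁ (ξ - (k * P) • F.b - g • F.b - η₁) t))| ≤
        W / 2 - 4 * cF F ∧
      4 * cF F ≤ F.be (pos (ξ - (k * P) • F.b)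
        (h.x s u₁ (ξ - (k * P) • F.b - g • F.b - η₁) t)) :=
  conn_x0 h hM hs hη

/-- the same relative to the base point of row `0` -/
lemma conn_x1' {s : ℝ} (hs : Ins h W s) (hη : ‖η₁‖ ≤ 1) :
    |F.al (pos ξ (h.x s u₁ (ξ - (k * P) • F.b - g • F.b - η₁) t))| ≤ W / 2 - 4 * cF F ∧
      4 * cF F ≤ F.be (pos ξ (h.x s u₁ (ξ - (k * P) • F.b - g • F.b - η₁) t)) := by
  obtain ⟨a, b⟩ := conn_x1 h hM (ξ := ξ) (u₁ := u₁) (t := t) hs hη
  rw [M192.al_pos_sub_b] at a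
  rw [M192.be_pos_sub_b] at b
  have := kP_nonneg h hM
  exact ⟨a, by linarith⟩

lemma conn_gap {s s' : ℝ} (hs : Ins h W s) (hs' : Ins h W s') (hη : ‖η‖ ≤ 1) (hη₁ : ‖η₁‖ ≤ 1) :
    Conn (Lam F W ξ) (h.x s u' (ξ - g • F.b - η - y • F.b) t)
      (h.x s' u₁ (ξ - (k * P) • F.b - g • F.b - η₁) t) := by
  obtain ⟨a, b⟩ := conn_xU h hM (ξ := ξ) (u' := u') (t := t) hs hη
  obtain ⟨a', b'⟩ := conn_x1' h hM (ξ := ξ) (u₁ := u₁) (t := t) hs' hη₁
  have hc := cF_nonneg F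
  exact conn_Lam (by linarith) (by linarith) (by linarith) (by linarith)

/-- **One move of the strategy, pointwise.** -/
theorem move_pt (ht : Nn t) (hη : ‖η‖ ≤ 1) (hη₁ : ‖η₁‖ ≤ 1) {N : ℕ} {s s₁ s₁' r r' : ℝ}
    {I J : Set ℝ} (hs : Ins h W s) (hs₁ : Ins h W s₁) (hs₁' : Ins h W s₁') (hr : Ins h W r)
    (hr' : Ins h W r') (hI : I ⊆ Set.Icc r r')
    (hne : (routes t (h.Lo (ξ - g • F.b - η) t (u, u')) (h.Up (y • F.b) (ξ - g • F.b - η) t (u, u'))
      (rg F I (ξ - g • F.b - η)) (h.iL s (ξ - g • F.b - η) t (u, u'))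
      (h.iU (y • F.b) s₁ (ξ - g • F.b - η) t (u, u'))).Nonempty) :
    gV h W P g L (N + k) s ξ (ξ - g • F.b - η) u t ≤
      h.sk (y • F.b) I J L s s₁ (ξ - g • F.b - η) t (u, u') +
      h.hkY (y • F.b) J (-L) L (ξ - g • F.b - η) t (u, u') +
      gapF h W L s₁ s₁' ξ (ξ - g • F.b - η - y • F.b) (ξ - (k * P) • F.b - g • F.b - η₁) u' u₁ t -
      h.Y (-L) L u' (ξ - g • F.b - η - y • F.b) t -
      h.Y (-L) L u₁ (ξ - (k * P) • F.b - g • F.b - η₁) t +
      gV h W P g L N s₁' (ξ - (k * P) • F.b) (ξ - (k * P) • F.b - g • F.b - η₁) u₁ t := by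
  set θr := ξ - g • F.b - η with hθr
  set θU := θr - y • F.b with hθU
  set θ₁ := ξ - (k * P) • F.b - g • F.b - η₁ with hθ₁
  have hc := cF_nonneg F
  have h0 := h.κ_nonneg
  have hg := hM.hg
  have hw := wH_nonneg2 h
  have hkP := kP_nonneg h hM
  have bη := abs_le.1 (abs_al_le' F hη)
  have bη' := abs_le.1 (abs_be_le' F hη)
  have e1 : ξ - θr = g • F.b + η := by rw [hθr]; abel
  have e2 : ξ - θU = g • F.b + y • F.b + η := by rw [hθU, hθr]; abel
  have ea1 : F.al (ξ - θr) = F.al η := by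
    rw [e1, map_add, map_smul, F.al_b, smul_zero, zero_add]
  have ea2 : F.al (ξ - θU) = F.al η := by
    rw [e2, map_add, map_add, map_smul, map_smul, F.al_b, smul_zero, smul_zero, zero_add, zero_add]
  have eb1 : F.be (ξ - θr) = g + F.be η := by
    rw [e1, map_add, map_smul, F.be_b, smul_eq_mul, mul_one]
  -- the row route
  have hrow := pR_le_hull_hwy h ht (θ := ξ) (θ₁ := θr) (θ₂ := θU) (u₁ := u) (u₂ := u') (s := s)
    (s' := s₁) (r := r - cF F) (r' := r' + cF F) (A := rg F I θr) (R := Lam F W ξ) ?_ ?_ ?_ hne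
  rotate_left
  · intro v hv
    have hv' := hI hv
    have e : F.al (pos ξ v) = F.al (pos θr v) + F.al η := by
      have := F.al.map_sub ξ θr
      rw [al_pos, al_pos]; linarith
    rw [e]
    exact ⟨by linarith [hv'.1, bη.1], by linarith [hv'.2, bη.2]⟩
  · intro v h1 h2 h3 h4
    have b1 := abs_le.1 hs
    have b2 := abs_le.1 hs₁
    have b3 := abs_le.1 hr
    have b4 := abs_le.1 hr'
    rw [ea1] at h1
    rw [ea2] at h2
    rw [eb1] at h3
    refine ⟨?_, by linarith [bη'.1]⟩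
    rw [abs_le]
    constructor
    · have : -(W / 2) + h.κ ≤ min (s + F.al η) (r - cF F) := le_min (by linarith [b1.1, bη.1])
        (by linarith [b3.1])
      linarith
    · have : max (r' + cF F) (s₁ + F.al η) ≤ W / 2 - h.κ - cF F :=
        max_le (by linarith [b4.2]) (by linarith [b2.2, bη.2])
      linarith
  · have : θU - θr = -(y • F.b) := by rw [hθU]; abel
    rw [this, map_neg, map_smul, F.be_b, smul_eq_mul, mul_one]
    linarith [hM.hy]
  obtain ⟨hcrow, hrow⟩ := hrow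
  -- the gap
  have hcgap := conn_gap h hM (ξ := ξ) (η := η) (η₁ := η₁) (u' := u') (u₁ := u₁) (t := t) hs₁ hs₁'
    hη hη₁
  rw [← hθr, ← hθU, ← hθ₁] at hcgap
  -- the rest
  obtain ⟨a1, a2⟩ := conn_x1 h hM (ξ := ξ) (u₁ := u₁) (t := t) hs₁' hη₁
  rw [← hθ₁] at a1 a2
  obtain ⟨c1, c2⟩ := endv_bounds (F := F) P g N (ξ - (k * P) • F.b)
  have hNP : 0 ≤ N * P := mul_nonneg (Nat.cast_nonneg N) hM.hP
  have hW : 6 * cF F ≤ W / 2 := by
    have := (abs_nonneg s).trans hs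
    linarith [h.κ_nonneg, this, abs_nonneg s]
  have hcend' : Conn (Lam F W (ξ - (k * P) • F.b)) (h.x s₁' u₁ θ₁ t)
      (endv F P g N (ξ - (k * P) • F.b)) :=
    conn_Lam (by linarith) (by linarith) (by linarith) (by linarith)
  have hcend : Conn (Lam F W ξ) (h.x s₁' u₁ θ₁ t) (endv F P g N (ξ - (k * P) • F.b)) :=
    hcend'.mono (Lam_sub W ξ hkP)
  have hanti := pR_anti ht (Lam_sub (F := F) W ξ hkP) hcend'
  have t1 := exL_triangle ht hcrow (hcgap.trans hcend)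
  have t2 := exL_triangle ht hcgap hcend
  unfold gV
  rw [Vv_eq, Vv_eq, endv_shift]
  have hx : exL F W ξ t (h.x s u θr t) (h.x s₁ u' θU t) ≤
      hullY t (phi F) (h.H u θr t) (h.H u' θU t) (rg F I θr) (h.ix s u θr t)
        (h.ix s₁ u' θU t) := hrow
  have hx3 : exL F W ξ t (h.x s₁' u₁ θ₁ t) (endv F P g N (ξ - (k * P) • F.b)) ≤
      exL F W (ξ - (k * P) • F.b) t (h.x s₁' u₁ θ₁ t) (endv F P g N (ξ - (k * P) • F.b)) := by
    unfold exL; linarith
  -- the algebra of potentials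
  have k1 : h.sk (y • F.b) I J L s s₁ θr t (u, u') + h.hkY (y • F.b) J (-L) L θr t (u, u') =
      h.Y (-L) s u θr t + hullY t (phi F) (h.H u θr t) (h.H u' θU t) (rg F I θr) (h.ix s u θr t)
        (h.ix s₁ u' θU t) + h.Y s₁ L u' θU t := by
    unfold Hwy.sk Hwy.hkY Hwy.hk hullY Hwy.Y Hwy.Lo Hwy.Up Hwy.iL Hwy.iU
    simp only
    rw [← hθU]
    ring
  have k2 := Y_add h (-L) s₁ L u' θU t
  have k3 := Y_add h (-L) s₁' L u₁ θ₁ t
  have k4 : gapF h W L s₁ s₁' ξ θU θ₁ u' u₁ t = h.Y (-L) s₁ u' θU t +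
      exL F W ξ t (h.x s₁ u' θU t) (h.x s₁' u₁ θ₁ t) + h.Y s₁' L u₁ θ₁ t := rfl
  rw [k4]
  linarith

end move

end Crest.Agent.R151.J69
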