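import Crest.Agent.R151.J69g
import Crest.Agent.R151.M56a

/-!
# R151/J69h — means of the value function, of the gaps and of row functionals (owner helper69)

`O4` = `(ξ, t)`, own phases `(η, (u, u'))` of row `0`, phases `(η₁, u₁)` of the next lower highway.
-/

set_option autoImplicit false

open MeasureTheory Filter ProbabilityTheory
open Crest.ProbabilityR.FirstPassage
open Crest.Agent.R151.K Crest.Agent.R151.Q

namespace Crest.Agent.R151.J69

open B710 (FlatData)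
open R78 (V Wk IsHwy hc hp hull routes IsOpen shp hullY IsStrip Frame IsPos Back)
open M192 (frame frame_al frame_be al_pos be_pos isStrip)

variable {μ : ℝ × ℝ → ℝ} {F : FlatData μ} (h : Hwy F)

/-! ### Spaces -/

/-- phases of a lower highway: jitter and phase -/
abbrev Ph2 : Type := (ℝ × ℝ) × ℝ
/-- own phases of a row: jitter and phases of the lower and the upper highway -/
abbrev Ph3 : Type := (ℝ × ℝ) × (ℝ × ℝ)
abbrev O2 : Type := ((ℝ × ℝ) × Environment) × Ph2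
abbrev O3 : Type := ((ℝ × ℝ) × Environment) × Ph3
abbrev O4 : Type := ((ℝ × ℝ) × Environment) × (Ph3 × Ph2)
/-- one row -/
abbrev OR : Type := ((ℝ × ℝ) × Environment) × (ℝ × ℝ)

noncomputable def P2 (G : Measure ℝ) : Measure O2 := (P0 G).prod (UU2.prod UU)
noncomputable def P3 (G : Measure ℝ) : Measure O3 := (P0 G).prod (UU2.prod (UU.prod UU))
noncomputable def P4 (G : Measure ℝ) : Measure O4 :=
  (P0 G).prod ((UU2.prod (UU.prod UU)).prod (UU2.prod UU))
/-- law of one row -/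
noncomputable def PRow (G : Measure ℝ) : Measure OR := (P0 G).prod (UU.prod UU)

variable {G : Measure ℝ} [IsProbabilityMeasure G]

instance : IsProbabilityMeasure (P2 G) := by unfold P2; infer_instance
instance : IsProbabilityMeasure (P3 G) := by unfold P3; infer_instance
instance : IsProbabilityMeasure (P4 G) := by unfold P4; infer_instance
instance : IsProbabilityMeasure (PRow G) := by unfold PRow; infer_instance

lemma mp_a : MeasurePreserving (fun q : O4 => ((q.1, (q.2.1.1, q.2.1.2.1)) : O2)) (P4 G) (P2 G) := by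
  have h1 : MeasurePreserving (fun p : Ph3 × Ph2 => ((p.1.1, p.1.2.1) : Ph2))
      ((UU2.prod (UU.prod UU)).prod (UU2.prod UU)) (UU2.prod UU) :=
    ((MeasurePreserving.id UU2).prod (measurePreserving_fst (μ := UU) (ν := UU))).comp
      measurePreserving_fst
  exact (MeasurePreserving.id (P0 G)).prod h1

lemma mp_b : MeasurePreserving (fun q : O4 => ((q.1, q.2.2) : O2)) (P4 G) (P2 G) :=
  (MeasurePreserving.id (P0 G)).prod measurePreserving_snd

lemma mp_c : MeasurePreserving (fun q : O4 => ((q.1, q.2.1) : O3)) (P4 G) (P3 G) :=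
  (MeasurePreserving.id (P0 G)).prod measurePreserving_fst

/-- almost surely everything is in the unit square and the weights are nonnegative -/
lemma ae_P4 (h0 : G (Set.Iio 0) = 0) : ∀ᵐ q ∂(P4 G), Nn q.1.2 ∧
    q.1.1 ∈ Set.Ico (0 : ℝ) 1 ×ˢ Set.Ico (0 : ℝ) 1 ∧
    q.2.1.1 ∈ Set.Ico (0 : ℝ) 1 ×ˢ Set.Ico (0 : ℝ) 1 ∧
    q.2.2.1 ∈ Set.Ico (0 : ℝ) 1 ×ˢ Set.Ico (0 : ℝ) 1 := by
  have h1 := ae_P0_Nn (G := G) (Ψ := Ph3 × Ph2) (ν := (UU2.prod (UU.prod UU)).prod (UU2.prod UU)) h0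
  have h2 : MeasurePreserving (fun q : O4 => q.2.1.1) (P4 G) UU2 :=
    (measurePreserving_fst (μ := UU2) (ν := UU.prod UU)).comp
      ((measurePreserving_fst (μ := UU2.prod (UU.prod UU)) (ν := UU2.prod UU)).comp
        measurePreserving_snd)
  have h3 : MeasurePreserving (fun q : O4 => q.2.2.1) (P4 G) UU2 :=
    (measurePreserving_fst (μ := UU2) (ν := UU)).comp
      ((measurePreserving_snd (μ := UU2.prod (UU.prod UU)) (ν := UU2.prod UU)).comp
        measurePreserving_snd)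
  have h4 := h2.quasiMeasurePreserving.ae ae_UU2
  have h5 := h3.quasiMeasurePreserving.ae ae_UU2
  have h1' : ∀ᵐ q ∂(P4 G), Nn q.1.2 ∧ q.1.1 ∈ Set.Ico (0 : ℝ) 1 ×ˢ Set.Ico (0 : ℝ) 1 := h1
  filter_upwards [h1', h4, h5] with q a b c using ⟨a.1, a.2, b, c⟩

lemma ae_P2 (h0 : G (Set.Iio 0) = 0) : ∀ᵐ q ∂(P2 G), Nn q.1.2 ∧
    q.1.1 ∈ Set.Ico (0 : ℝ) 1 ×ˢ Set.Ico (0 : ℝ) 1 ∧
    q.2.1 ∈ Set.Ico (0 : ℝ) 1 ×ˢ Set.Ico (0 : ℝ) 1 := by
  have h1 := ae_P0_Nn (G := G) (Ψ := Ph2) (ν := UU2.prod UU) h0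
  have h2 : MeasurePreserving (fun q : O2 => q.2.1) (P2 G) UU2 :=
    (measurePreserving_fst (μ := UU2) (ν := UU)).comp measurePreserving_snd
  have h4 := h2.quasiMeasurePreserving.ae ae_UU2
  have h1' : ∀ᵐ q ∂(P2 G), Nn q.1.2 ∧ q.1.1 ∈ Set.Ico (0 : ℝ) 1 ×ˢ Set.Ico (0 : ℝ) 1 := h1
  filter_upwards [h1', h4] with q a b using ⟨a.1, a.2, b⟩

/-! ### Vertices in a fixed box -/

lemma mem_box_x (v : ℝ × ℝ) (s : ℝ) : ∃ M : ℕ, ∀ (ξ η : ℝ × ℝ) (u : ℝ) (t : Environment),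
    ξ ∈ Set.Ico (0 : ℝ) 1 ×ˢ Set.Ico (0 : ℝ) 1 → ‖η‖ ≤ 1 → h.x s u (ξ - v - η) t ∈ box M := by
  obtain ⟨M, hM⟩ := exists_nat_ge (M56.Rx h s + (‖v‖ + 1) + 1)
  refine ⟨M, fun ξ η u t hξ hη => ?_⟩
  have h1 := M56.norm_x h s u (ξ - v - η) t
  have e : ξ - v - η = ξ - (v + η) := by abel
  rw [e] at h1 ⊢
  refine mem_box_of_pos hξ h1 (le_trans ?_ hM)
  have := norm_add_le v η
  linarith

lemma mem_box_endv (F : FlatData μ) (P g : ℝ) (N : ℕ) : ∃ M : ℕ, ∀ ξ : ℝ × ℝ,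
    ξ ∈ Set.Ico (0 : ℝ) 1 ×ˢ Set.Ico (0 : ℝ) 1 → endv F P g N ξ ∈ box M := by
  obtain ⟨M, hM⟩ := exists_nat_ge (1 / 2 + ‖(N * P + g) • F.b‖ + 1)
  refine ⟨M, fun ξ hξ => ?_⟩
  exact mem_box_of_pos hξ (norm_pos_nr _) hM

lemma box_mono {M M' : ℕ} (hMM : M ≤ M') {z : ℤ × ℤ} (hz : z ∈ box M) : z ∈ box M' := by
  rw [mem_box] at hz ⊢
  have : (M : ℤ) ≤ M' := by exact_mod_cast hMM
  omega

/-! ### The value function -/

/-- the value function as a functional of `(θ, t)` and of the phases of the lower highway -/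
noncomputable def Fg (h : Hwy F) (W P g L : ℝ) (N : ℕ) (s : ℝ) (θ : ℝ × ℝ) (t : Environment)
    (ψ : Ph2) : ℝ := gV h W P g L N s θ (θ - g • F.b - ψ.1) ψ.2 t

lemma Fg_inv (W P g L : ℝ) (N : ℕ) (s : ℝ) (ψ : Ph2) : Inv fun θ t => Fg h W P g L N s θ t ψ := by
  intro m θ t
  unfold Fg
  have e : θ + toR m - g • F.b - ψ.1 = (θ - g • F.b - ψ.1) + toR m := by abel
  simp only
  rw [e, gV_inv]

lemma Fg_meas (W P g L : ℝ) (N : ℕ) (s : ℝ) :
    Measurable fun q : O2 => Fg h W P g L N s q.1.1 q.1.2 q.2 := by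
  unfold Fg
  exact meas_gV h (measurable_fst.comp measurable_fst)
    (((measurable_fst.comp measurable_fst).sub_const _).sub (measurable_fst.comp measurable_snd))
    (measurable_snd.comp measurable_snd) (measurable_snd.comp measurable_fst) W P g L N s

/-- highway excesses with jitter are integrable, mean `(s' - s) ε` -/
lemma Y_jit {ε : ℝ} (hm : HwyMean G h ε) (v : ℝ × ℝ) (s s' : ℝ) :
    Integrable (fun q : O2 => h.Y s s' q.2.2 (q.1.1 - v - q.2.1) q.1.2) (P2 G) ∧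
      ∫ q : O2, h.Y s s' q.2.2 (q.1.1 - v - q.2.1) q.1.2 ∂(P2 G) = (s' - s) * ε := by
  have h1 : Integrable (fun q : ((ℝ × ℝ) × Environment) × ℝ => h.Y s s' q.2 q.1.1 q.1.2)
      ((P0 G).prod UU) := (hm.int s s').swap
  have h2 : ∫ q : ((ℝ × ℝ) × Environment) × ℝ, h.Y s s' q.2 q.1.1 q.1.2 ∂((P0 G).prod UU) =
      (s' - s) * ε := by
    rw [← hm.mean s s']
    exact integral_prod_swap (μ := UU) (ν := P0 G)
      (f := fun q : ℝ × ((ℝ × ℝ) × Environment) => h.Y s s' q.1 q.2.1 q.2.2)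
  have hmeas : Measurable fun q : ((ℝ × ℝ) × Environment) × ℝ => h.Y s s' q.2 q.1.1 q.1.2 :=
    meas_Y h (measurable_fst.comp measurable_fst) measurable_snd
      (measurable_snd.comp measurable_fst) s s'
  have hi := integrable_row (G := G) UU (X := fun θ t u => h.Y s s' u θ t) hmeas
    (fun u => Y_inv h s s' u) v h1
  have he := integral_row (G := G) UU (X := fun θ t u => h.Y s s' u θ t) hmeas
    (fun u => Y_inv h s s' u) v
  refine ⟨hi, ?_⟩
  unfold P2
  rw [he, h2]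

lemma Fg_int (h0 : G (Set.Iio 0) = 0) (h1 : Integrable (fun x : ℝ => x) G) {ε : ℝ}
    (hm : HwyMean G h ε) {W P g L s : ℝ} (hP : 0 ≤ P) (hg : h.wH / 2 + 5 * cF F ≤ g)
    (hs : Ins h W s) (N : ℕ) :
    Integrable (fun q : O2 => Fg h W P g L N s q.1.1 q.1.2 q.2) (P2 G) := by
  obtain ⟨M1, hM1⟩ := mem_box_x h (g • F.b) s
  obtain ⟨M2, hM2⟩ := mem_box_endv F P g N
  set M := max M1 M2
  have hx : Measurable fun q : O2 => h.x s q.2.2 (q.1.1 - g • F.b - q.2.1) q.1.2 :=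
    meas_x h (((measurable_fst.comp measurable_fst).sub_const _).sub
      (measurable_fst.comp measurable_snd)) (measurable_snd.comp measurable_snd)
      (measurable_snd.comp measurable_fst) s
  have he : Measurable fun q : O2 => endv F P g N q.1.1 :=
    meas_endv (F := F) (measurable_fst.comp measurable_fst) P g N
  have hc := cF_nonneg F
  have hκ := h.κ_nonneg
  have hW : 6 * cF F ≤ W / 2 := by
    have := (abs_nonneg s).trans hs
    linarith
  have hae : ∀ᵐ q ∂(P2 G), h.x s q.2.2 (q.1.1 - g • F.b - q.2.1) q.1.2 ∈ box M ∧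
      endv F P g N q.1.1 ∈ box M ∧
      (|F.al (pos q.1.1 (h.x s q.2.2 (q.1.1 - g • F.b - q.2.1) q.1.2))| ≤ W / 2 - 4 * cF F ∧
        4 * cF F ≤ F.be (pos q.1.1 (h.x s q.2.2 (q.1.1 - g • F.b - q.2.1) q.1.2))) ∧
      (|F.al (pos q.1.1 (endv F P g N q.1.1))| ≤ W / 2 - 4 * cF F ∧
        4 * cF F ≤ F.be (pos q.1.1 (endv F P g N q.1.1))) := by
    filter_upwards [ae_P2 (G := G) h0] with q hq
    have hη := norm_jitter hq.2.2
    have hNP : 0 ≤ N * P := mul_nonneg (Nat.cast_nonneg N) hP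
    have hw := wH_nonneg2 h
    obtain ⟨c1, c2⟩ := endv_bounds (F := F) P g N q.1.1
    have hM' : MPar h ((h.wH + 1 + 2 * g) / 1) g (h.wH + 1) 1 :=
      ⟨hg, by linarith, by push_cast; ring, by
        rw [div_one]; linarith⟩
    exact ⟨box_mono (le_max_left _ _) (hM1 _ _ _ _ hq.2.1 hη),
      box_mono (le_max_right _ _) (hM2 _ hq.2.1), conn_x0 h hM' hs hη,
      ⟨by linarith, by linarith⟩⟩
  have hp := integrable_pR_Lam (F := F) (UU2.prod UU) h0 h1 (W := W) (M := M) hx he hae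
  have hY := (Y_jit h hm (g • F.b) (-L) s).1
  have h3 : Integrable (fun q : O2 => phi F (endv F P g N q.1.1)) (P2 G) :=
    integrable_fun_box he (hae.mono fun q hq => hq.2.1) _
  have h4 : Integrable (fun q : O2 => phi F (h.x s q.2.2 (q.1.1 - g • F.b - q.2.1) q.1.2)) (P2 G) :=
    integrable_fun_box hx (hae.mono fun q hq => hq.1) _
  exact hY.add (hp.sub (h3.sub h4))

/-- the value function seen from the next row (`v` = displacement of the base point) -/
lemma Fg_shift (h0 : G (Set.Iio 0) = 0) (h1 : Integrable (fun x : ℝ => x) G) {ε : ℝ}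
    (hm : HwyMean G h ε) {W P g L s : ℝ} (hP : 0 ≤ P) (hg : h.wH / 2 + 5 * cF F ≤ g)
    (hs : Ins h W s) (N : ℕ) (v : ℝ × ℝ) :
    Integrable (fun q : O4 => Fg h W P g L N s (q.1.1 - v) q.1.2 q.2.2) (P4 G) ∧
      ∫ q : O4, Fg h W P g L N s (q.1.1 - v) q.1.2 q.2.2 ∂(P4 G) =
        ∫ q : O2, Fg h W P g L N s q.1.1 q.1.2 q.2 ∂(P2 G) := by
  have hi := Fg_int h h0 h1 hm (L := L) hP hg hs N
  have hi2 : Integrable (fun q : O2 => Fg h W P g L N s (q.1.1 + -v) q.1.2 q.2) (P2 G) :=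
    integrable_shift_prod (fun ψ => Fg_inv h W P g L N s ψ) (-v) hi
  have he : ∫ q : O2, Fg h W P g L N s (q.1.1 + -v) q.1.2 q.2 ∂(P2 G) =
      ∫ q : O2, Fg h W P g L N s q.1.1 q.1.2 q.2 ∂(P2 G) :=
    integral_shift_prod (fun ψ => Fg_inv h W P g L N s ψ) (Fg_meas h W P g L N s) (-v)
  constructor
  · have := (mp_b (G := G)).integrable_comp_of_integrable hi2
    simpa only [Function.comp_def, ← sub_eq_add_neg] using this
  · rw [← he]
    have := mp_integral (mp_b (G := G)) hi2.aestronglyMeasurable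
    simp only [← sub_eq_add_neg] at this ⊢
    exact this

/-! ### Row functionals -/

lemma row_int {X : ℝ × ℝ → Environment → ℝ × ℝ → ℝ}
    (hX : Measurable fun q : OR => X q.1.1 q.1.2 q.2) (hinv : ∀ φ, Inv fun θ t => X θ t φ)
    (hi : Integrable (fun q : OR => X q.1.1 q.1.2 q.2) (PRow G)) (B : ℝ × ℝ) :
    Integrable (fun q : O4 => X (q.1.1 - B - q.2.1.1) q.1.2 q.2.1.2) (P4 G) ∧
      ∫ q : O4, X (q.1.1 - B - q.2.1.1) q.1.2 q.2.1.2 ∂(P4 G) =
        ∫ q : OR, X q.1.1 q.1.2 q.2 ∂(PRow G) := by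
  have h1 := integrable_row (G := G) (UU.prod UU) hX hinv B hi
  have h2 := integral_row (G := G) (UU.prod UU) hX hinv B
  refine ⟨(mp_c (G := G)).integrable_comp_of_integrable h1, ?_⟩
  unfold PRow
  rw [← h2]
  exact mp_integral (mp_c (G := G)) h1.aestronglyMeasurable

end Crest.Agent.R151.J69
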