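import Crest.Agent.R151.J69h

/-!
# R151/J69i — the gap functionals in the mean (owner helper69)
-/

set_option autoImplicit false

open MeasureTheory Filter ProbabilityTheory
open Crest.ProbabilityR.FirstPassage
open Crest.Agent.R151.K Crest.Agent.R151.Q

namespace Crest.Agent.R151.J69

open B710 (FlatData)
open R78 (V Wk IsHwy hc hp hull routes IsOpen shp hullY IsStrip Frame IsPos Back)
open M192 (frame frame_al frame_be al_pos be_pos isStrip)

variable {μ : ℝ × ℝ → ℝ} {F : FlatData μ} (h : Hwy F)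
variable {G : Measure ℝ} [IsProbabilityMeasure G]

/-! ### Jittered vertices -/

/-- the vertex `x_s` with jitter (clipped to the unit square) -/
noncomputable def Xj (h : Hwy F) (s : ℝ) (θ : ℝ × ℝ) (t : Environment) (φ : Ph2) : ℤ × ℤ :=
  h.x s φ.2 (θ - frac2 φ.1) t

lemma frac2_mem (v : ℝ × ℝ) : frac2 v ∈ Set.Ico (0 : ℝ) 1 ×ˢ Set.Ico (0 : ℝ) 1 :=
  ⟨⟨Int.fract_nonneg _, Int.fract_lt_one _⟩, ⟨Int.fract_nonneg _, Int.fract_lt_one _⟩⟩

lemma frac2_of_mem {v : ℝ × ℝ} (hv : v ∈ Set.Ico (0 : ℝ) 1 ×ˢ Set.Ico (0 : ℝ) 1) : frac2 v = v := by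
  obtain ⟨⟨h1, h2⟩, ⟨h3, h4⟩⟩ := hv
  unfold frac2
  rw [Int.fract_eq_self.2 ⟨h1, h2⟩, Int.fract_eq_self.2 ⟨h3, h4⟩]

lemma measurable_frac2 : Measurable frac2 := by
  unfold frac2
  exact (measurable_fract.comp measurable_fst).prodMk (measurable_fract.comp measurable_snd)

theorem covV_Xj (s : ℝ) : CovV (Xj h s) (M56.Rx h s + 1) where
  meas := by
    unfold Xj
    exact meas_x h ((measurable_fst.comp measurable_fst).sub
      (measurable_frac2.comp (measurable_fst.comp measurable_snd)))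
      (measurable_snd.comp measurable_snd) (measurable_snd.comp measurable_fst) s
  cov m θ t φ := by
    unfold Xj
    have e : θ + toR m - frac2 φ.1 = (θ - frac2 φ.1) + toR m := by abel
    rw [e, x_cov]
  bdd θ t φ := by
    unfold Xj
    have h1 := M56.norm_x h s φ.2 (θ - frac2 φ.1) t
    have h2 := norm_jitter (frac2_mem φ.1)
    have e : pos θ (h.x s φ.2 (θ - frac2 φ.1) t) =
        pos (θ - frac2 φ.1) (h.x s φ.2 (θ - frac2 φ.1) t) + frac2 φ.1 := by
      unfold pos; abel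
    rw [e]
    exact (norm_add_le _ _).trans (by linarith)

/-- the full plane excess between two jittered highways with independent phases -/
theorem jit_gap (h0 : G (Set.Iio 0) = 0) (h2 : Integrable (fun x : ℝ => x ^ 2) G)
    (hμ : IsTC G μ) (v0 v1 : ℝ × ℝ) (s s' : ℝ) :
    Integrable (fun q : ((ℝ × ℝ) × Environment) × (Ph2 × Ph2) =>
      R78.ptY q.1.2 (phi F) (h.x s q.2.1.2 (q.1.1 - v0 - q.2.1.1) q.1.2)
        (h.x s' q.2.2.2 (q.1.1 - v1 - q.2.2.1) q.1.2)) ((P0 G).prod ((UU2.prod UU).prod (UU2.prod UU)))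
    ∧ 0 ≤ ∫ q : ((ℝ × ℝ) × Environment) × (Ph2 × Ph2),
      R78.ptY q.1.2 (phi F) (h.x s q.2.1.2 (q.1.1 - v0 - q.2.1.1) q.1.2)
        (h.x s' q.2.2.2 (q.1.1 - v1 - q.2.2.1) q.1.2) ∂((P0 G).prod ((UU2.prod UU).prod (UU2.prod UU))) := by
  set π : Measure Ph2 := UU2.prod UU with hπ
  set v : ℝ × ℝ := v1 - v0 + (s' - s) • F.a with hv
  obtain ⟨hi, hn⟩ := (covV_Xj h s).zero_le (G := G) (π := π) h0 h2 hμ F v
  -- the invariant functional
  let K : ℝ × ℝ → Environment → Ph2 × Ph2 → ℝ := fun θ t φ =>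
    passageTime t (Xj h s θ t φ.1) (Xj h s (θ - v) t φ.2) -
      (phi F (Xj h s (θ - v) t φ.2) - phi F (Xj h s θ t φ.1))
  have hKinv : ∀ φ, Inv fun θ t => K θ t φ := by
    intro φ m θ t
    simp only [K]
    have e : θ + toR m - v = (θ - v) + toR m := by abel
    rw [e, (covV_Xj h s).cov, (covV_Xj h s).cov, Hwy.pt_tr, Hwy.phi_sub, Hwy.phi_sub]
    ring
  have hKm : Measurable fun q : ((ℝ × ℝ) × Environment) × (Ph2 × Ph2) => K q.1.1 q.1.2 q.2 := by
    have hphi : Measurable (phi F) := measurable_of_countable _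
    have m1 : Measurable fun q : ((ℝ × ℝ) × Environment) × (Ph2 × Ph2) =>
        Xj h s q.1.1 q.1.2 q.2.1 :=
      (covV_Xj h s).meas' (by fun_prop) (by fun_prop) (by fun_prop)
    have m2 : Measurable fun q : ((ℝ × ℝ) × Environment) × (Ph2 × Ph2) =>
        Xj h s (q.1.1 - v) q.1.2 q.2.2 :=
      (covV_Xj h s).meas' (by fun_prop) (by fun_prop) (by fun_prop)
    exact (measurable_ptr (by fun_prop) m1 m2).sub ((hphi.comp m2).sub (hphi.comp m1))
  have hi' : Integrable (fun q : ((ℝ × ℝ) × Environment) × (Ph2 × Ph2) => K (q.1.1 + -v0) q.1.2 q.2)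
      ((P0 G).prod (π.prod π)) := integrable_shift_prod hKinv (-v0) hi
  have he' : ∫ q : ((ℝ × ℝ) × Environment) × (Ph2 × Ph2), K (q.1.1 + -v0) q.1.2 q.2
      ∂((P0 G).prod (π.prod π)) = ∫ q : ((ℝ × ℝ) × Environment) × (Ph2 × Ph2), K q.1.1 q.1.2 q.2
      ∂((P0 G).prod (π.prod π)) := integral_shift_prod hKinv hKm (-v0)
  -- the shift of the second phase
  let T : ((ℝ × ℝ) × Environment) × (Ph2 × Ph2) → ((ℝ × ℝ) × Environment) × (Ph2 × Ph2) :=
    fun q => (q.1, (q.2.1, (q.2.2.1, Int.fract (q.2.2.2 + (s' - s) / h.n0))))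
  have hT : MeasurePreserving T ((P0 G).prod (π.prod π)) ((P0 G).prod (π.prod π)) :=
    (MeasurePreserving.id _).prod ((MeasurePreserving.id _).prod
      ((MeasurePreserving.id _).prod (mp_fract _)))
  let H : ((ℝ × ℝ) × Environment) × (Ph2 × Ph2) → ℝ := fun q =>
    R78.ptY q.1.2 (phi F) (h.x s q.2.1.2 (q.1.1 - v0 - q.2.1.1) q.1.2)
        (h.x s' q.2.2.2 (q.1.1 - v1 - q.2.2.1) q.1.2)
  have hHm : Measurable H := by
    have hphi : Measurable (phi F) := measurable_of_countable _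
    have m1 : Measurable fun q : ((ℝ × ℝ) × Environment) × (Ph2 × Ph2) =>
        h.x s q.2.1.2 (q.1.1 - v0 - q.2.1.1) q.1.2 :=
      meas_x h (by fun_prop) (by fun_prop) (by fun_prop) s
    have m2 : Measurable fun q : ((ℝ × ℝ) × Environment) × (Ph2 × Ph2) =>
        h.x s' q.2.2.2 (q.1.1 - v1 - q.2.2.1) q.1.2 :=
      meas_x h (by fun_prop) (by fun_prop) (by fun_prop) s'
    exact (measurable_ptr (by fun_prop) m1 m2).sub ((hphi.comp m2).sub (hphi.comp m1))
  have hsq : ∀ᵐ q : ((ℝ × ℝ) × Environment) × (Ph2 × Ph2) ∂((P0 G).prod (π.prod π)),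
      q.2.1.1 ∈ Set.Ico (0 : ℝ) 1 ×ˢ Set.Ico (0 : ℝ) 1 ∧
      q.2.2.1 ∈ Set.Ico (0 : ℝ) 1 ×ˢ Set.Ico (0 : ℝ) 1 := by
    have a1 : MeasurePreserving (fun q : ((ℝ × ℝ) × Environment) × (Ph2 × Ph2) => q.2.1.1)
        ((P0 G).prod (π.prod π)) UU2 :=
      measurePreserving_fst.comp (measurePreserving_fst.comp measurePreserving_snd)
    have a2 : MeasurePreserving (fun q : ((ℝ × ℝ) × Environment) × (Ph2 × Ph2) => q.2.2.1)
        ((P0 G).prod (π.prod π)) UU2 :=
      measurePreserving_fst.comp (measurePreserving_snd.comp measurePreserving_snd)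
    filter_upwards [a1.quasiMeasurePreserving.ae ae_UU2, a2.quasiMeasurePreserving.ae ae_UU2]
      with q b1 b2 using ⟨b1, b2⟩
  have hHK : (fun q => H (T q)) =ᵐ[(P0 G).prod (π.prod π)]
      fun q => K (q.1.1 + -v0) q.1.2 q.2 := by
    filter_upwards [hsq] with q hq
    obtain ⟨q1, q2⟩ := hq
    simp only [H, T, K, Xj]
    rw [frac2_of_mem q1, frac2_of_mem q2]
    have e1 := M56.x_shift h s (s' - s) q.2.2.2 (q.1.1 - v1 - q.2.2.1) q.1.2
    rw [add_sub_cancel] at e1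
    rw [e1]
    have e2 : q.1.1 + -v0 - v - q.2.2.1 = q.1.1 - v1 - q.2.2.1 - (s' - s) • F.a := by
      rw [hv]; abel
    have e3 : q.1.1 + -v0 - q.2.1.1 = q.1.1 - v0 - q.2.1.1 := by abel
    rw [e2, e3]
    rfl
  have hiT : Integrable (fun q => H (T q)) ((P0 G).prod (π.prod π)) := hi'.congr hHK.symm
  have hiH : Integrable H ((P0 G).prod (π.prod π)) :=
    (hT.integrable_comp hHm.aestronglyMeasurable).1 hiT
  refine ⟨hiH, ?_⟩
  have e : ∫ q, H q ∂((P0 G).prod (π.prod π)) = ∫ q, H (T q) ∂((P0 G).prod (π.prod π)) :=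
    (mp_integral hT hHm.aestronglyMeasurable).symm
  have e2 : ∫ q, H (T q) ∂((P0 G).prod (π.prod π)) = _ := integral_congr_ae hHK
  show 0 ≤ ∫ q, H q ∂((P0 G).prod (π.prod π))
  rw [e, e2, he']
  exact hn

/-- the projection to `(p, ((η, u'), (η₁, u₁)))` -/
lemma mp_d : MeasurePreserving (fun q : O4 =>
      ((q.1, ((q.2.1.1, q.2.1.2.2), q.2.2)) : ((ℝ × ℝ) × Environment) × (Ph2 × Ph2))) (P4 G)
    ((P0 G).prod ((UU2.prod UU).prod (UU2.prod UU))) := by
  have h1 : MeasurePreserving (fun p : Ph3 × Ph2 => (((p.1.1, p.1.2.2), p.2) : Ph2 × Ph2))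
      ((UU2.prod (UU.prod UU)).prod (UU2.prod UU)) ((UU2.prod UU).prod (UU2.prod UU)) :=
    ((MeasurePreserving.id UU2).prod (measurePreserving_snd (μ := UU) (ν := UU))).prod
      (MeasurePreserving.id (UU2.prod UU))
  exact (MeasurePreserving.id (P0 G)).prod h1

end Crest.Agent.R151.J69
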