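import Crest.Agent.R151.J69i
import Crest.Agent.R151.M192f

/-!
# R151/J69j — definitions for the ONE MOVE LEMMA; means of the gap functionals (owner helper69)
-/

set_option autoImplicit false

open MeasureTheory Filter ProbabilityTheory
open Crest.ProbabilityR.FirstPassage
open Crest.Agent.R151.K Crest.Agent.R151.Q

namespace Crest.Agent.R151.J69

open B710 (FlatData)
open R78 (V Wk IsHwy hc hp hull routes IsOpen shp hullY IsStrip Frame IsPos Back)
open M192 (frame frame_al frame_be al_pos be_pos isStrip)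

variable {μ : ℝ × ℝ → ℝ} {F : FlatData μ}

/-- mean of the value function (`fS = eV / l`) -/
noncomputable def eV (G : Measure ℝ) (h : Hwy F) (W P g L : ℝ) (N : ℕ) (s : ℝ) : ℝ :=
  ∫ q : O2, Fg h W P g L N s q.1.1 q.1.2 q.2 ∂(P2 G)

/-- the gap functional on `O4`: from the label `s` of the upper highway of a row of height `y` to the
label `s'` of the next lower highway (`k` pitches above), inside the half-lane -/
noncomputable def gapQ (h : Hwy F) (W P g L y : ℝ) (k : ℕ) (s s' : ℝ) (q : O4) : ℝ :=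
  gapF h W L s s' q.1.1 (q.1.1 - g • F.b - q.2.1.1 - y • F.b)
    (q.1.1 - (k * P) • F.b - g • F.b - q.2.2.1) q.2.1.2.2 q.2.2.2 q.1.2

/-- mean of `gapQ` -/
noncomputable def eGap (G : Measure ℝ) (h : Hwy F) (W P g L y : ℝ) (k : ℕ) (s s' : ℝ) : ℝ :=
  ∫ q : O4, gapQ h W P g L y k s s' q ∂(P4 G)

/-- mean excess of a row of height `y` between the labels `-L`, `L` -/
noncomputable def eHk (G : Measure ℝ) (h : Hwy F) (y : ℝ) (J : Set ℝ) (L : ℝ) : ℝ :=
  ∫ q : OR, h.hkY (y • F.b) J (-L) L q.1.1 q.1.2 q.2 ∂(PRow G)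

lemma fS_eq (G : Measure ℝ) (h : Hwy F) (W P g L l : ℝ) (N : ℕ) (x : ℝ) :
    fS G h W P g L l N x = eV G h W P g L N (x * W) / l := rfl

variable (h : Hwy F) {G : Measure ℝ} [IsProbabilityMeasure G]

/-- the projection to `(p, (η, u'))` -/
lemma mp_e : MeasurePreserving (fun q : O4 => ((q.1, (q.2.1.1, q.2.1.2.2)) : O2)) (P4 G) (P2 G) := by
  have h1 : MeasurePreserving (fun p : Ph3 × Ph2 => ((p.1.1, p.1.2.2) : Ph2))
      ((UU2.prod (UU.prod UU)).prod (UU2.prod UU)) (UU2.prod UU) :=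
    ((MeasurePreserving.id UU2).prod (measurePreserving_snd (μ := UU) (ν := UU))).comp
      measurePreserving_fst
  exact (MeasurePreserving.id (P0 G)).prod h1

/-- highway excess of the upper highway of row `0` -/
lemma Y_U {ε : ℝ} (hm : HwyMean G h ε) (g y s s' : ℝ) :
    Integrable (fun q : O4 => h.Y s s' q.2.1.2.2 (q.1.1 - g • F.b - q.2.1.1 - y • F.b) q.1.2)
      (P4 G) ∧
    ∫ q : O4, h.Y s s' q.2.1.2.2 (q.1.1 - g • F.b - q.2.1.1 - y • F.b) q.1.2 ∂(P4 G) =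
      (s' - s) * ε := by
  obtain ⟨a, b⟩ := Y_jit h hm (g • F.b + y • F.b) s s'
  have e : (fun q : O4 => h.Y s s' q.2.1.2.2 (q.1.1 - g • F.b - q.2.1.1 - y • F.b) q.1.2) =
      fun q : O4 => (fun q : O2 => h.Y s s' q.2.2 (q.1.1 - (g • F.b + y • F.b) - q.2.1) q.1.2)
        (q.1, (q.2.1.1, q.2.1.2.2)) := by
    funext q
    simp only
    congr 1
    abel
  rw [e]
  exact ⟨(mp_e (G := G)).integrable_comp_of_integrable a, by
    rw [← b]; exact mp_integral (mp_e (G := G)) a.aestronglyMeasurable⟩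

/-- highway excess of the next lower highway -/
lemma Y_1 {ε : ℝ} (hm : HwyMean G h ε) (g c s s' : ℝ) :
    Integrable (fun q : O4 => h.Y s s' q.2.2.2 (q.1.1 - c • F.b - g • F.b - q.2.2.1) q.1.2)
      (P4 G) ∧
    ∫ q : O4, h.Y s s' q.2.2.2 (q.1.1 - c • F.b - g • F.b - q.2.2.1) q.1.2 ∂(P4 G) =
      (s' - s) * ε := by
  obtain ⟨a, b⟩ := Y_jit h hm (c • F.b + g • F.b) s s'
  have e : (fun q : O4 => h.Y s s' q.2.2.2 (q.1.1 - c • F.b - g • F.b - q.2.2.1) q.1.2) =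
      fun q : O4 => (fun q : O2 => h.Y s s' q.2.2 (q.1.1 - (c • F.b + g • F.b) - q.2.1) q.1.2)
        (q.1, q.2.2) := by
    funext q
    simp only
    congr 1
    abel
  rw [e]
  exact ⟨(mp_b (G := G)).integrable_comp_of_integrable a, by
    rw [← b]; exact mp_integral (mp_b (G := G)) a.aestronglyMeasurable⟩

/-- the full plane gap functional -/
lemma gap0_mean (h0 : G (Set.Iio 0) = 0) (h2 : Integrable (fun x : ℝ => x ^ 2) G)
    (hμ : IsTC G μ) (g y c L : ℝ) :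
    Integrable (fun q : O4 => gap0 h L (q.1.1 - g • F.b - q.2.1.1 - y • F.b)
      (q.1.1 - c • F.b - g • F.b - q.2.2.1) q.2.1.2.2 q.2.2.2 q.1.2) (P4 G) ∧
    0 ≤ ∫ q : O4, gap0 h L (q.1.1 - g • F.b - q.2.1.1 - y • F.b)
      (q.1.1 - c • F.b - g • F.b - q.2.2.1) q.2.1.2.2 q.2.2.2 q.1.2 ∂(P4 G) := by
  obtain ⟨a, b⟩ := jit_gap h (G := G) h0 h2 hμ (g • F.b + y • F.b) (c • F.b + g • F.b) (-L) L
  have e : (fun q : O4 => gap0 h L (q.1.1 - g • F.b - q.2.1.1 - y • F.b)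
      (q.1.1 - c • F.b - g • F.b - q.2.2.1) q.2.1.2.2 q.2.2.2 q.1.2) =
      fun q : O4 => (fun q : ((ℝ × ℝ) × Environment) × (Ph2 × Ph2) =>
      R78.ptY q.1.2 (phi F) (h.x (-L) q.2.1.2 (q.1.1 - (g • F.b + y • F.b) - q.2.1.1) q.1.2)
        (h.x L q.2.2.2 (q.1.1 - (c • F.b + g • F.b) - q.2.2.1) q.1.2))
        (q.1, ((q.2.1.1, q.2.1.2.2), q.2.2)) := by
    funext q
    unfold gap0
    simp only
    have e1 : q.1.1 - g • F.b - q.2.1.1 - y • F.b = q.1.1 - (g • F.b + y • F.b) - q.2.1.1 := by abel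
    have e2 : q.1.1 - c • F.b - g • F.b - q.2.2.1 = q.1.1 - (c • F.b + g • F.b) - q.2.2.1 := by abel
    rw [e1, e2]
  rw [e]
  refine ⟨(mp_d (G := G)).integrable_comp_of_integrable a, ?_⟩
  have := mp_integral (mp_d (G := G)) a.aestronglyMeasurable
  rw [this]
  exact b

section gap

variable {W P g y L : ℝ} {k : ℕ}

/-- the crossing of the gap is integrable -/
lemma exL_int (h0 : G (Set.Iio 0) = 0) (h1 : Integrable (fun x : ℝ => x) G)
    (hM : MPar h P g y k) {s s' : ℝ} (hs : Ins h W s) (hs' : Ins h W s') :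
    Integrable (fun q : O4 => exL F W q.1.1 q.1.2
      (h.x s q.2.1.2.2 (q.1.1 - g • F.b - q.2.1.1 - y • F.b) q.1.2)
      (h.x s' q.2.2.2 (q.1.1 - (k * P) • F.b - g • F.b - q.2.2.1) q.1.2)) (P4 G) := by
  obtain ⟨M1, hM1⟩ := mem_box_x h (g • F.b + y • F.b) s
  obtain ⟨M2, hM2⟩ := mem_box_x h ((k * P) • F.b + g • F.b) s'
  set M := max M1 M2
  have hx : Measurable fun q : O4 =>
      h.x s q.2.1.2.2 (q.1.1 - g • F.b - q.2.1.1 - y • F.b) q.1.2 :=
    meas_x h (by fun_prop) (by fun_prop) (by fun_prop) s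
  have hy : Measurable fun q : O4 =>
      h.x s' q.2.2.2 (q.1.1 - (k * P) • F.b - g • F.b - q.2.2.1) q.1.2 :=
    meas_x h (by fun_prop) (by fun_prop) (by fun_prop) s'
  have hae : ∀ᵐ q ∂(P4 G),
      h.x s q.2.1.2.2 (q.1.1 - g • F.b - q.2.1.1 - y • F.b) q.1.2 ∈ box M ∧
      h.x s' q.2.2.2 (q.1.1 - (k * P) • F.b - g • F.b - q.2.2.1) q.1.2 ∈ box M ∧
      (|F.al (pos q.1.1 (h.x s q.2.1.2.2 (q.1.1 - g • F.b - q.2.1.1 - y • F.b) q.1.2))| ≤
          W / 2 - 4 * cF F ∧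
        4 * cF F ≤ F.be (pos q.1.1
          (h.x s q.2.1.2.2 (q.1.1 - g • F.b - q.2.1.1 - y • F.b) q.1.2))) ∧
      (|F.al (pos q.1.1 (h.x s' q.2.2.2 (q.1.1 - (k * P) • F.b - g • F.b - q.2.2.1) q.1.2))| ≤
          W / 2 - 4 * cF F ∧
        4 * cF F ≤ F.be (pos q.1.1
          (h.x s' q.2.2.2 (q.1.1 - (k * P) • F.b - g • F.b - q.2.2.1) q.1.2))) := by
    filter_upwards [ae_P4 (G := G) h0] with q hq
    have hη := norm_jitter hq.2.2.1
    have hη₁ := norm_jitter hq.2.2.2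
    have e1 : q.1.1 - g • F.b - q.2.1.1 - y • F.b = q.1.1 - (g • F.b + y • F.b) - q.2.1.1 := by abel
    have e2 : q.1.1 - (k * P) • F.b - g • F.b - q.2.2.1 =
      q.1.1 - ((k * P) • F.b + g • F.b) - q.2.2.1 := by abel
    refine ⟨?_, ?_, conn_xU h hM hs hη, conn_x1' h hM hs' hη₁⟩
    · rw [e1]; exact box_mono (le_max_left _ _) (hM1 _ _ _ _ hq.2.1 hη)
    · rw [e2]; exact box_mono (le_max_right _ _) (hM2 _ _ _ _ hq.2.1 hη₁)
  have hp := integrable_pR_Lam (F := F) ((UU2.prod (UU.prod UU)).prod (UU2.prod UU)) h0 h1 (W := W)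
    (M := M) hx hy hae
  have h3 := integrable_fun_box hx (hae.mono fun q hq => hq.1) (phi F)
  have h4 := integrable_fun_box hy (hae.mono fun q hq => hq.2.1) (phi F)
  exact hp.sub (h4.sub h3)

lemma gapQ_int (h0 : G (Set.Iio 0) = 0) (h1 : Integrable (fun x : ℝ => x) G) {ε : ℝ}
    (hm : HwyMean G h ε) (hM : MPar h P g y k) {s s' : ℝ} (hs : Ins h W s) (hs' : Ins h W s') :
    Integrable (gapQ h W P g L y k s s') (P4 G) :=
  ((Y_U h hm g y (-L) s).1.add (exL_int h h0 h1 hM hs hs')).add (Y_1 h hm g (k * P) s' L).1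

/-- mean of the gap functional: highways plus the crossing -/
lemma eGap_eq (h0 : G (Set.Iio 0) = 0) (h1 : Integrable (fun x : ℝ => x) G) {ε : ℝ}
    (hm : HwyMean G h ε) (hM : MPar h P g y k) {s s' : ℝ} (hs : Ins h W s) (hs' : Ins h W s') :
    eGap G h W P g L y k s s' = (s + L) * ε + (L - s') * ε + ∫ q : O4, exL F W q.1.1 q.1.2
      (h.x s q.2.1.2.2 (q.1.1 - g • F.b - q.2.1.1 - y • F.b) q.1.2)
      (h.x s' q.2.2.2 (q.1.1 - (k * P) • F.b - g • F.b - q.2.2.1) q.1.2) ∂(P4 G) := by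
  obtain ⟨a1, b1⟩ := Y_U h hm (G := G) g y (-L) s
  obtain ⟨a2, b2⟩ := Y_1 h hm (G := G) g (k * P) s' L
  have a3 := exL_int h h0 h1 hM hs hs'
  have e : eGap G h W P g L y k s s' = ∫ q : O4, (h.Y (-L) s q.2.1.2.2
      (q.1.1 - g • F.b - q.2.1.1 - y • F.b) q.1.2 + exL F W q.1.1 q.1.2
      (h.x s q.2.1.2.2 (q.1.1 - g • F.b - q.2.1.1 - y • F.b) q.1.2)
      (h.x s' q.2.2.2 (q.1.1 - (k * P) • F.b - g • F.b - q.2.2.1) q.1.2)) +
      h.Y s' L q.2.2.2 (q.1.1 - (k * P) • F.b - g • F.b - q.2.2.1) q.1.2 ∂(P4 G) := rfl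
  have a12 : Integrable (fun q : O4 => h.Y (-L) s q.2.1.2.2
      (q.1.1 - g • F.b - q.2.1.1 - y • F.b) q.1.2 + exL F W q.1.1 q.1.2
      (h.x s q.2.1.2.2 (q.1.1 - g • F.b - q.2.1.1 - y • F.b) q.1.2)
      (h.x s' q.2.2.2 (q.1.1 - (k * P) • F.b - g • F.b - q.2.2.1) q.1.2)) (P4 G) := a1.add a3
  rw [e, integral_add a12 a2, integral_add a1 a3, b1, b2]
  ring

end gap

end Crest.Agent.R151.J69
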