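import Crest.Agent.R151.J69j
import Crest.Agent.R151.J69a

/-!
# R151/J69k — the ONE MOVE LEMMA in the mean (owner helper69)
-/

set_option autoImplicit false

open MeasureTheory Filter ProbabilityTheory
open Crest.ProbabilityR.FirstPassage
open Crest.Agent.R151.K Crest.Agent.R151.Q

namespace Crest.Agent.R151.J69

open B710 (FlatData)
open R78 (V Wk IsHwy hc hp hull routes IsOpen shp hullY IsStrip Frame IsPos Back)
open M192 (frame frame_al frame_be al_pos be_pos isStrip)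

variable {μ : ℝ × ℝ → ℝ} {F : FlatData μ}

lemma cF_pos (F : FlatData μ) : 0 < cF F := by
  have h1 : F.be F.b = 1 := F.be_b
  have h2 : 0 < ‖F.be‖ := by
    rw [norm_pos_iff]
    intro h
    rw [h] at h1
    simp at h1
  unfold cF
  positivity

variable (h : Hwy F) {G : Measure ℝ} [IsProbabilityMeasure G]

/-- the row seen on `O4` -/
noncomputable def rowQ (F : FlatData μ) (g : ℝ) (q : O4) : OR :=
  ((q.1.1 - g • F.b - q.2.1.1, q.1.2), q.2.1.2)

lemma measurable_rowQ (g : ℝ) : Measurable (rowQ F g) := by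
  unfold rowQ
  fun_prop

/-- the next value seen on `O4` -/
noncomputable def nxQ (h : Hwy F) (W P g L : ℝ) (k N : ℕ) (s : ℝ) (q : O4) : ℝ :=
  Fg h W P g L N s (q.1.1 - (k * P) • F.b) q.1.2 q.2.2

lemma nxQ_int (h0 : G (Set.Iio 0) = 0) (h1 : Integrable (fun x : ℝ => x) G) {ε : ℝ}
    (hm : HwyMean G h ε) {W P g L : ℝ} (hP : 0 ≤ P) (hg : h.wH / 2 + 5 * cF F ≤ g) {s : ℝ}
    (hs : Ins h W s) (k N : ℕ) :
    Integrable (nxQ h W P g L k N s) (P4 G) ∧
      ∫ q, nxQ h W P g L k N s q ∂(P4 G) = eV G h W P g L N s := by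
  obtain ⟨a, b⟩ := Fg_shift h h0 h1 hm (L := L) hP hg hs N ((k * P) • F.b)
  exact ⟨a, b⟩

/-- the row event and the next value are independent -/
lemma indep_nx (h0 : G (Set.Iio 0) = 0) {W P g y L : ℝ} {k : ℕ} (hM : MPar h P g y k) {B : Set OR}
    (hB : MeasurableSet[M192.mB h (y • F.b)] B) (N : ℕ) (s : ℝ) :
    IndepFun ((rowQ F g ⁻¹' B).indicator fun _ => (1 : ℝ)) (nxQ h W P g L k N s) (P4 G) := by
  obtain ⟨hBm, hBi, hBd⟩ := M192.measurableSet_mIL.1 hB
  let X : ℝ × ℝ → Environment → ℝ × ℝ → ℝ := fun θ t φ => B.indicator (fun _ => (1 : ℝ)) ((θ, t), φ)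
  let Y : ℝ × ℝ → Environment → Ph2 → ℝ := fun ξ t ψ =>
    Fg h W P g L N s (ξ - (k * P) • F.b) t (frac2 ψ.1, ψ.2)
  have hX : Measurable fun q : ((ℝ × ℝ) × Environment) × (ℝ × ℝ) => X q.1.1 q.1.2 q.2 :=
    measurable_const.indicator hBm
  have hXi : ∀ φ, Inv fun θ t => X θ t φ := by
    intro φ m θ t
    have := hBi φ m θ t
    simp only at this
    simp only [X]
    by_cases hb : ((θ, t), φ) ∈ B
    · rw [Set.indicator_of_mem hb, Set.indicator_of_mem (this ▸ hb)]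
    · rw [Set.indicator_of_notMem hb, Set.indicator_of_notMem (fun hx => hb (this ▸ hx))]
  have hY : Measurable fun q : ((ℝ × ℝ) × Environment) × Ph2 => Y q.1.1 q.1.2 q.2 := by
    have := Fg_meas h W P g L N s
    refine this.comp (g := fun q : O2 => Fg h W P g L N s q.1.1 q.1.2 q.2)
      (f := fun q : O2 => ((q.1.1 - (k * P) • F.b, q.1.2), (frac2 q.2.1, q.2.2))) ?_
    have h3 := measurable_frac2
    refine Measurable.prodMk (by fun_prop) (Measurable.prodMk ?_ (by fun_prop))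
    exact h3.comp (by fun_prop)
  have hXE : ∀ θ φ, DependsOn (fun t => X θ t φ) (edgesIn (h.band (y • F.b) θ)) := by
    intro θ φ t t' htt
    have := hBd θ φ htt
    simp only at this
    simp only [X]
    by_cases hb : ((θ, t'), φ) ∈ B
    · rw [Set.indicator_of_mem hb, Set.indicator_of_mem (this ▸ hb)]
    · rw [Set.indicator_of_notMem hb, Set.indicator_of_notMem (fun hx => hb (this ▸ hx))]
  have hYE : ∀ ξ ψ, DependsOn (fun t => Y ξ t ψ) (edgesIn (Abv F (ξ - (k * P) • F.b))) := by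
    intro ξ ψ
    have hη := norm_jitter (frac2_mem ψ.1)
    have hb := (abs_le.1 (abs_be_le' F hη)).1
    refine gV_loc h W P g L N s ψ.2 ?_
    have e : ξ - (k * P) • F.b - (ξ - (k * P) • F.b - g • F.b - frac2 ψ.1) =
      g • F.b + frac2 ψ.1 := by abel
    simp only
    rw [e, map_add, map_smul, F.be_b, smul_eq_mul, mul_one]
    have := hM.hg
    have hc := cF_nonneg F
    linarith
  have hdisj : ∀ ξ η, η ∈ Set.Ico (0 : ℝ) 1 ×ˢ Set.Ico (0 : ℝ) 1 →
      Disjoint (edgesIn (h.band (y • F.b) (ξ - g • F.b - η)))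
        (edgesIn (Abv F (ξ - (k * P) • F.b))) := by
    intro ξ η hη
    refine disjoint_edgesIn (Set.disjoint_left.2 fun z hz hz' => ?_)
    have hz2 := hz.2
    have hz3 : 0 ≤ F.be (pos (ξ - (k * P) • F.b) z) := hz'
    rw [M192.be_pos_sub_b] at hz3
    have e : F.be (pos (ξ - g • F.b - η) z) = F.be (pos ξ z) - g - F.be η := by
      rw [be_pos, be_pos, map_sub, map_sub, map_smul, F.be_b, smul_eq_mul, mul_one]; ring
    rw [e, map_smul, F.be_b, smul_eq_mul, mul_one] at hz2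
    have hb := (abs_le.1 (abs_be_le' F (norm_jitter hη))).2
    have h3 := hM.hg
    have h4 := hM.hk
    have h5 := cF_pos F
    linarith
  have key := indepFun_row (G := G) (ν := UU.prod UU) (π := UU2.prod UU) (X := X) hX hXi (Y := Y)
    hY (E := fun θ => edgesIn (h.band (y • F.b) θ))
    (E' := fun ξ => edgesIn (Abv F (ξ - (k * P) • F.b))) hXE hYE (g • F.b) hdisj
  refine IndepFun.congr key ?_ ?_
  · refine Eventually.of_forall fun q => ?_
    show X _ _ _ = (rowQ F g ⁻¹' B).indicator (fun _ => (1 : ℝ)) q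
    rfl
  · have hae := ae_P4 (G := G) h0
    have hae' : ∀ᵐ q ∂((P0 G).prod ((UU2.prod (UU.prod UU)).prod (UU2.prod UU))), Nn q.1.2 ∧
      q.1.1 ∈ Set.Ico (0 : ℝ) 1 ×ˢ Set.Ico (0 : ℝ) 1 ∧
      q.2.1.1 ∈ Set.Ico (0 : ℝ) 1 ×ˢ Set.Ico (0 : ℝ) 1 ∧
      q.2.2.1 ∈ Set.Ico (0 : ℝ) 1 ×ˢ Set.Ico (0 : ℝ) 1 := hae
    filter_upwards [hae'] with q hq
    simp only [Y, nxQ]
    rw [frac2_of_mem hq.2.2.2]

/-- row functionals on `O4`, with an event of the row -/
lemma row_ind {X : ℝ × ℝ → Environment → ℝ × ℝ → ℝ}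
    (hX : Measurable fun q : OR => X q.1.1 q.1.2 q.2) (hinv : ∀ φ, Inv fun θ t => X θ t φ)
    {B : Set OR} (hBm : MeasurableSet B)
    (hBi : ∀ φ, Inv fun θ t => (((θ, t), φ) : OR) ∈ B)
    (hi : IntegrableOn (fun q : OR => X q.1.1 q.1.2 q.2) B (PRow G)) (g : ℝ) :
    Integrable ((rowQ F g ⁻¹' B).indicator fun q : O4 =>
      X (q.1.1 - g • F.b - q.2.1.1) q.1.2 q.2.1.2) (P4 G) ∧
    ∫ q, (rowQ F g ⁻¹' B).indicator (fun q : O4 =>
      X (q.1.1 - g • F.b - q.2.1.1) q.1.2 q.2.1.2) q ∂(P4 G) =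
      ∫ q in B, X q.1.1 q.1.2 q.2 ∂(PRow G) := by
  let Z : ℝ × ℝ → Environment → ℝ × ℝ → ℝ := fun θ t φ =>
    B.indicator (fun q : OR => X q.1.1 q.1.2 q.2) ((θ, t), φ)
  have hZ : Measurable fun q : OR => Z q.1.1 q.1.2 q.2 := hX.indicator hBm
  have hZi : ∀ φ, Inv fun θ t => Z θ t φ := by
    intro φ m θ t
    have h1 := hBi φ m θ t
    have h2 := hinv φ m θ t
    simp only at h1 h2
    simp only [Z]
    by_cases hb : ((θ, t), φ) ∈ B
    · rw [Set.indicator_of_mem hb, Set.indicator_of_mem (h1 ▸ hb)]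
      exact h2
    · rw [Set.indicator_of_notMem hb, Set.indicator_of_notMem (fun hx => hb (h1 ▸ hx))]
  have hZint : Integrable (fun q : OR => Z q.1.1 q.1.2 q.2) (PRow G) :=
    (integrable_indicator_iff hBm).2 hi
  obtain ⟨a, b⟩ := row_int (G := G) hZ hZi hZint (g • F.b)
  have e : (fun q : O4 => Z (q.1.1 - g • F.b - q.2.1.1) q.1.2 q.2.1.2) =
      (rowQ F g ⁻¹' B).indicator fun q : O4 =>
      X (q.1.1 - g • F.b - q.2.1.1) q.1.2 q.2.1.2 := by
    funext q
    rfl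
  refine ⟨e ▸ a, ?_⟩
  have e2 : ∫ q : OR, Z q.1.1 q.1.2 q.2 ∂(PRow G) = ∫ q in B, X q.1.1 q.1.2 q.2 ∂(PRow G) :=
    integral_indicator hBm
  rw [← e2, ← b, e]

end Crest.Agent.R151.J69
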