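import Crest.Agent.R151.J69k

/-!
# R151/J69l — the ONE MOVE LEMMA in the mean (owner helper69)
-/

set_option autoImplicit false

open MeasureTheory Filter ProbabilityTheory
open Crest.ProbabilityR.FirstPassage
open Crest.Agent.R151.K Crest.Agent.R151.Q

namespace Crest.Agent.R151.J69

open B710 (FlatData)
open R78 (V Wk IsHwy hc hp hull routes IsOpen shp hullY IsStrip Frame IsPos Back)
open M192 (frame frame_al frame_be al_pos be_pos isStrip)

variable {μ : ℝ × ℝ → ℝ} {F : FlatData μ}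
variable (h : Hwy F) {G : Measure ℝ} [IsProbabilityMeasure G]

/-- **ONE MOVE LEMMA.**  Row of height `y` (`k` pitches), event `B` of the row: on `Bᶜ` the row is
crossed `s → s₁` in the lane `I₁` and the next label is `s₁'`, on `B` it is crossed `s → s₂` in the
lane `I₂` and the next label is `s₂'`. -/
theorem move_mean (h0 : G (Set.Iio 0) = 0) (h1 : Integrable (fun x : ℝ => x) G)
    (h2 : Integrable (fun x : ℝ => x ^ 2) G) (hμ : IsTC G μ) {ε : ℝ} (hm : HwyMean G h ε)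
    (hε : 0 ≤ ε) {W P g y L : ℝ} {k : ℕ} (hM : MPar h P g y k) {B : Set OR}
    (hB : MeasurableSet[M192.mB h (y • F.b)] B) {N : ℕ} {s s₁ s₂ s₁' s₂' r₁ r₁' r₂ r₂' : ℝ}
    {I₁ I₂ J : Set ℝ} (hI₁m : MeasurableSet I₁) (hI₂m : MeasurableSet I₂) (hJm : MeasurableSet J)
    (hs : Ins h W s) (hs₁ : Ins h W s₁) (hs₂ : Ins h W s₂) (hs₁' : Ins h W s₁')
    (hs₂' : Ins h W s₂') (hr₁ : Ins h W r₁) (hr₁' : Ins h W r₁') (hr₂ : Ins h W r₂)
    (hr₂' : Ins h W r₂') (hI₁ : I₁ ⊆ Set.Icc r₁ r₁') (hI₂ : I₂ ⊆ Set.Icc r₂ r₂') (hWL : W / 2 ≤ L)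
    (hne₁ : ∀ θ t φ, (routes t (h.Lo θ t φ) (h.Up (y • F.b) θ t φ) (rg F I₁ θ) (h.iL s θ t φ)
      (h.iU (y • F.b) s₁ θ t φ)).Nonempty)
    (hne₂ : ∀ θ t φ, (routes t (h.Lo θ t φ) (h.Up (y • F.b) θ t φ) (rg F I₂ θ) (h.iL s θ t φ)
      (h.iU (y • F.b) s₂ θ t φ)).Nonempty)
    (hi₁ : IntegrableOn (fun q : OR => h.sk (y • F.b) I₁ J L s s₁ q.1.1 q.1.2 q.2) Bᶜ (PRow G))
    (hi₂ : IntegrableOn (fun q : OR => h.sk (y • F.b) I₂ J L s s₂ q.1.1 q.1.2 q.2) B (PRow G))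
    (hi₃ : Integrable (fun q : OR => h.hkY (y • F.b) J (-L) L q.1.1 q.1.2 q.2) (PRow G)) :
    eV G h W P g L (N + k) s ≤
      ∫ q in Bᶜ, h.sk (y • F.b) I₁ J L s s₁ q.1.1 q.1.2 q.2 ∂(PRow G) +
      ∫ q in B, h.sk (y • F.b) I₂ J L s s₂ q.1.1 q.1.2 q.2 ∂(PRow G) +
      (PRow G).real Bᶜ * eV G h W P g L N s₁' + (PRow G).real B * eV G h W P g L N s₂' +
      (eGap G h W P g L y k s₁ s₁' + eGap G h W P g L y k s₂ s₂' + eHk G h y J L) := by
  classical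
  obtain ⟨hBm, hBi, hBd⟩ := M192.measurableSet_mIL.1 hB
  have hBc : MeasurableSet[M192.mB h (y • F.b)] Bᶜ := hB.compl
  obtain ⟨hCm, hCi, hCd⟩ := M192.measurableSet_mIL.1 hBc
  have hκ := h.κ_nonneg
  have hcF := cF_nonneg F
  have hP := hM.hP
  have hg := hM.hg
  have hL0 : 0 ≤ L := by
    have := (abs_nonneg _).trans hs
    linarith
  have labL : ∀ {x : ℝ}, Ins h W x → -L ≤ x ∧ x ≤ L := by
    intro x hx
    have := abs_le.1 hx
    constructor <;> linarith [this.1, this.2]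
  -- the row events on `O4`
  set A : Set O4 := rowQ F g ⁻¹' B with hA
  have hAc : rowQ F g ⁻¹' Bᶜ = Aᶜ := rfl
  have hAm : MeasurableSet A := measurable_rowQ g hBm
  -- the row functionals
  have m1 : Measurable fun q : OR => h.sk (y • F.b) I₁ J L s s₁ q.1.1 q.1.2 q.2 :=
    h.meas_sk (by fun_prop) (by fun_prop) (by fun_prop) _ hI₁m hJm _ _ _
  have m2 : Measurable fun q : OR => h.sk (y • F.b) I₂ J L s s₂ q.1.1 q.1.2 q.2 :=
    h.meas_sk (by fun_prop) (by fun_prop) (by fun_prop) _ hI₂m hJm _ _ _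
  have m3 : Measurable fun q : OR => h.hkY (y • F.b) J (-L) L q.1.1 q.1.2 q.2 :=
    h.meas_hkY (by fun_prop) (by fun_prop) (by fun_prop) _ hJm _ _
  obtain ⟨i1, e1⟩ := row_ind (F := F) (X := fun θ t φ => h.sk (y • F.b) I₁ J L s s₁ θ t φ) m1
    (fun φ => h.sk_inv _ _ _ _ _ _ φ) hCm hCi hi₁ g
  obtain ⟨i2, e2⟩ := row_ind (F := F) (X := fun θ t φ => h.sk (y • F.b) I₂ J L s s₂ θ t φ) m2
    (fun φ => h.sk_inv _ _ _ _ _ _ φ) hBm hBi hi₂ g
  obtain ⟨i3, e3⟩ := row_int (G := G) (X := fun θ t φ => h.hkY (y • F.b) J (-L) L θ t φ) m3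
    (fun φ => h.hkY_inv _ _ _ _ φ) hi₃ (g • F.b)
  rw [hAc] at i1 e1
  -- the gaps
  have i4 := gapQ_int h h0 h1 hm (L := L) hM hs₁ hs₁'
  have i5 := gapQ_int h h0 h1 hm (L := L) hM hs₂ hs₂'
  obtain ⟨i6, e6⟩ := gap0_mean h (G := G) h0 h2 hμ g y (k * P) L
  -- the highways
  obtain ⟨i7, e7⟩ := Y_U h hm (G := G) g y (-L) L
  obtain ⟨i8, e8⟩ := Y_1 h hm (G := G) g (k * P) (-L) L
  -- the next values
  obtain ⟨i9, e9⟩ := nxQ_int h h0 h1 hm (L := L) hP hg hs₁' k N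
  obtain ⟨i10, e10⟩ := nxQ_int h h0 h1 hm (L := L) hP hg hs₂' k N
  have e11 := integral_indicator_indep (P := P4 G) hAm.compl i9
    (by have := indep_nx h h0 (W := W) (L := L) hM hBc N s₁'; rwa [hAc] at this)
  have e12 := integral_indicator_indep (P := P4 G) hAm i10 (indep_nx h h0 (L := L) hM hB N s₂')
  -- probability of the row event
  have hPA : (P4 G).real A = (PRow G).real B := by
    obtain ⟨_, e⟩ := row_ind (G := G) (F := F) (X := fun _ _ _ => (1 : ℝ)) measurable_const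
      (fun φ _ _ _ => rfl) hBm hBi (integrable_const _).integrableOn g
    rw [integral_indicator hAm] at e
    simpa [Measure.real] using e
  have hPAc : (P4 G).real Aᶜ = (PRow G).real Bᶜ := by
    rw [measureReal_compl hAm, measureReal_compl hBm, hPA]
    simp
  -- the left hand side
  obtain ⟨i0, e0⟩ : Integrable (fun q : O4 => Fg h W P g L (N + k) s q.1.1 q.1.2
      (q.2.1.1, q.2.1.2.1)) (P4 G) ∧ ∫ q : O4, Fg h W P g L (N + k) s q.1.1 q.1.2
      (q.2.1.1, q.2.1.2.1) ∂(P4 G) = eV G h W P g L (N + k) s := by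
    have hi := Fg_int h h0 h1 hm (L := L) hP hg hs (N + k)
    exact ⟨(mp_a (G := G)).integrable_comp_of_integrable hi,
      mp_integral (mp_a (G := G)) hi.aestronglyMeasurable⟩
  -- the pointwise inequality
  have hpt : ∀ᵐ q ∂(P4 G), Fg h W P g L (N + k) s q.1.1 q.1.2 (q.2.1.1, q.2.1.2.1) ≤
      Aᶜ.indicator (fun q : O4 => h.sk (y • F.b) I₁ J L s s₁ (q.1.1 - g • F.b - q.2.1.1) q.1.2
        q.2.1.2) q +
      A.indicator (fun q : O4 => h.sk (y • F.b) I₂ J L s s₂ (q.1.1 - g • F.b - q.2.1.1) q.1.2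
        q.2.1.2) q +
      h.hkY (y • F.b) J (-L) L (q.1.1 - g • F.b - q.2.1.1) q.1.2 q.2.1.2 +
      (gapQ h W P g L y k s₁ s₁' q + gapQ h W P g L y k s₂ s₂' q -
        gap0 h L (q.1.1 - g • F.b - q.2.1.1 - y • F.b)
          (q.1.1 - (k * P) • F.b - g • F.b - q.2.2.1) q.2.1.2.2 q.2.2.2 q.1.2) -
      h.Y (-L) L q.2.1.2.2 (q.1.1 - g • F.b - q.2.1.1 - y • F.b) q.1.2 -
      h.Y (-L) L q.2.2.2 (q.1.1 - (k * P) • F.b - g • F.b - q.2.2.1) q.1.2 +
      (Aᶜ.indicator (nxQ h W P g L k N s₁') q + A.indicator (nxQ h W P g L k N s₂') q) := by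
    filter_upwards [ae_P4 (G := G) h0] with q hq
    obtain ⟨hN, hξ, hη, hη₁⟩ := hq
    have nη := norm_jitter hη
    have nη₁ := norm_jitter hη₁
    have G1 := gap0_le_gapF h (W := W) (L := L) (s := s₁) (s' := s₁') hN (labL hs₁).1
      (labL hs₁').2 (conn_gap h hM (ξ := q.1.1) (η := q.2.1.1) (η₁ := q.2.2.1)
        (u' := q.2.1.2.2) (u₁ := q.2.2.2) (t := q.1.2) hs₁ hs₁' nη nη₁)
    have G2 := gap0_le_gapF h (W := W) (L := L) (s := s₂) (s' := s₂') hN (labL hs₂).1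
      (labL hs₂').2 (conn_gap h hM (ξ := q.1.1) (η := q.2.1.1) (η₁ := q.2.2.1)
        (u' := q.2.1.2.2) (u₁ := q.2.2.2) (t := q.1.2) hs₂ hs₂' nη nη₁)
    by_cases hb : q ∈ A
    · rw [Set.indicator_of_notMem (fun hx : q ∈ Aᶜ => hx hb), Set.indicator_of_mem hb,
        Set.indicator_of_notMem (fun hx : q ∈ Aᶜ => hx hb), Set.indicator_of_mem hb]
      have key := move_pt h hM (ξ := q.1.1) (η := q.2.1.1) (η₁ := q.2.2.1) (u := q.2.1.2.1)
        (u' := q.2.1.2.2) (u₁ := q.2.2.2) (t := q.1.2) hN nη nη₁ (N := N) (L := L) (J := J)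
        hs hs₂ hs₂' hr₂ hr₂' hI₂ (hne₂ _ _ _)
      unfold Fg nxQ gapQ
      unfold Fg
      linarith
    · rw [Set.indicator_of_mem (show q ∈ Aᶜ from hb), Set.indicator_of_notMem hb,
        Set.indicator_of_mem (show q ∈ Aᶜ from hb), Set.indicator_of_notMem hb]
      have key := move_pt h hM (ξ := q.1.1) (η := q.2.1.1) (η₁ := q.2.2.1) (u := q.2.1.2.1)
        (u' := q.2.1.2.2) (u₁ := q.2.2.2) (t := q.1.2) hN nη nη₁ (N := N) (L := L) (J := J)
        hs hs₁ hs₁' hr₁ hr₁' hI₁ (hne₁ _ _ _)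
      unfold Fg nxQ gapQ
      unfold Fg
      linarith
  -- integration
  have j1 := i1.add i2
  have j2 := j1.add i3
  have j3 := (i4.add i5).sub i6
  have j4 := ((j2.add j3).sub i7).sub i8
  have j5 := (i9.indicator hAm.compl).add (i10.indicator hAm)
  have j6 := j4.add j5
  have hmain := integral_mono_ae i0 j6 hpt
  rw [e0, integral_add' j4 j5, integral_sub' ((j2.add j3).sub i7) i8, integral_sub' (j2.add j3) i7,
    integral_add' j2 j3, integral_sub' (i4.add i5) i6, integral_add' i4 i5, integral_add' j1 i3,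
    integral_add' i1 i2, integral_add' (i9.indicator hAm.compl) (i10.indicator hAm)] at hmain
  rw [e1, e2, e3, e7, e8, e11, e12, e9, e10, hPA, hPAc] at hmain
  have f1 : ∫ q, gapQ h W P g L y k s₁ s₁' q ∂(P4 G) = eGap G h W P g L y k s₁ s₁' := rfl
  have f2 : ∫ q, gapQ h W P g L y k s₂ s₂' q ∂(P4 G) = eGap G h W P g L y k s₂ s₂' := rfl
  have f3 : ∫ q : OR, h.hkY (y • F.b) J (-L) L q.1.1 q.1.2 q.2 ∂(PRow G) = eHk G h y J L := rfl
  rw [f1, f2, f3] at hmain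
  have hLε : 0 ≤ (L - -L) * ε := mul_nonneg (by linarith) hε
  linarith

end Crest.Agent.R151.J69
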