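import Crest.Agent.R151.J69l
import Crest.Agent.R151.M56d

/-!
# R151/J69m — the gap crossing and the gauge of a row in the mean (owner helper69)

`FM G h ε` = helper56's fence mean (hypothesis here).
-/

set_option autoImplicit false

open MeasureTheory Filter ProbabilityTheory
open Crest.ProbabilityR.FirstPassage
open Crest.Agent.R151.K Crest.Agent.R151.Q

namespace Crest.Agent.R151.J69

open B710 (FlatData)
open R78 (V Wk IsHwy hc hp hull routes IsOpen shp hullY IsStrip Frame IsPos Back)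
open M192 (frame frame_al frame_be al_pos be_pos isStrip)
open M56 (mg nu)

variable {μ : ℝ × ℝ → ℝ} {F : FlatData μ}

/-- helper56's fence mean -/
def FM (G : Measure ℝ) (h : Hwy F) (ε : ℝ) : Prop :=
  ∀ (d : ℝ × ℝ) (I : Set ℝ) (s s2 α β y2 : ℝ), MeasurableSet I →
    h.wH + 2 * mg F < F.be d → h.wH + 2 * mg F < y2 - F.be d → s ≤ α → β + h.κ < s2 + F.al d →
    Set.Icc α β ⊆ I → 2 * mg F ≤ β - α →
    ∫ q, h.hkY d I s s2 q.1.1 q.1.2 q.2 ∂(nu G) ≤
      y2 * rate G F (β - α) + (s2 - s + β - α + h.κ + 1 + F.al d) * ε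

/-- exchange of the two middle factors -/
lemma mp_comm4 {α β γ δ : Type*} [MeasurableSpace α] [MeasurableSpace β] [MeasurableSpace γ]
    [MeasurableSpace δ] (a : Measure α) (b : Measure β) (c : Measure γ) (d : Measure δ)
    [SFinite a] [SFinite b] [SFinite c] [SFinite d] :
    MeasurePreserving (fun p : (α × β) × (γ × δ) => ((p.1.1, p.2.1), (p.1.2, p.2.2)))
      ((a.prod b).prod (c.prod d)) ((a.prod c).prod (b.prod d)) := by
  have h1 := measurePreserving_prodAssoc a b (c.prod d)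
  have h2 := (MeasurePreserving.id a).prod ((measurePreserving_prodAssoc b c d).symm)
  have h3 := (MeasurePreserving.id a).prod
    ((Measure.measurePreserving_swap (μ := b) (ν := c)).prod (MeasurePreserving.id d))
  have h4 := (MeasurePreserving.id a).prod (measurePreserving_prodAssoc c b d)
  have h5 := (measurePreserving_prodAssoc a c (b.prod d)).symm
  exact h5.comp (h4.comp (h3.comp (h2.comp h1)))

/-- exchange of the two first factors -/
lemma mp_comm3 {α β γ : Type*} [MeasurableSpace α] [MeasurableSpace β] [MeasurableSpace γ]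
    (a : Measure α) (b : Measure β) (c : Measure γ) [SFinite a] [SFinite b] [SFinite c] :
    MeasurePreserving (fun p : α × (β × γ) => (p.2.1, (p.1, p.2.2)))
      (a.prod (b.prod c)) (b.prod (a.prod c)) := by
  have h1 := (measurePreserving_prodAssoc a b c).symm
  have h2 := (Measure.measurePreserving_swap (μ := a) (ν := b)).prod (MeasurePreserving.id c)
  have h3 := measurePreserving_prodAssoc b a c
  exact h3.comp (h2.comp h1)

/-- the jitters first -/
lemma mp_jit (G : Measure ℝ) [IsProbabilityMeasure G] :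
    MeasurePreserving (fun x : ((ℝ × ℝ) × (ℝ × ℝ)) × (((ℝ × ℝ) × Environment) × (ℝ × ℝ)) =>
      ((x.2.1, ((x.1.1, x.2.2.1), (x.1.2, x.2.2.2))) :
        ((ℝ × ℝ) × Environment) × (Ph2 × Ph2)))
      ((UU2.prod UU2).prod (nu G)) ((P0 G).prod ((UU2.prod UU).prod (UU2.prod UU))) := by
  have h1 := mp_comm3 (UU2.prod UU2) (P0 G) (UU.prod UU)
  have h2 := (MeasurePreserving.id (P0 G)).prod (mp_comm4 UU2 UU2 UU UU)
  exact h2.comp h1

variable (h : Hwy F) {G : Measure ℝ} [IsProbabilityMeasure G]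

section gap

variable {W P g y L : ℝ} {k : ℕ}

/-- the crossing of the gap is at most a fence of height `2 g`, jitters fixed -/
lemma exL_le_hkY (hM : MPar h P g y k) (hg2 : h.wH + 2 * mg F + cF F < 2 * g) {s s' : ℝ}
    (hs : Ins h W s) (hs' : Ins h W s') (hss : s + 2 * mg F + h.κ + cF F + 1 ≤ s')
    {ξ η η₁ : ℝ × ℝ} (hη : η ∈ Set.Ico (0 : ℝ) 1 ×ˢ Set.Ico (0 : ℝ) 1)
    (hη₁ : η₁ ∈ Set.Ico (0 : ℝ) 1 ×ˢ Set.Ico (0 : ℝ) 1) {u' u₁ : ℝ} {t : Environment} (ht : Nn t) :
    exL F W ξ t (h.x s u' (ξ - g • F.b - η - y • F.b) t)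
        (h.x s' u₁ (ξ - (k * P) • F.b - g • F.b - η₁) t) ≤
      h.hkY ((2 * g) • F.b + (η₁ - η)) (Set.Icc s (s' - h.κ - cF F - 1)) s s'
        (ξ - (g • F.b + y • F.b + η)) t (u', u₁) := by
  have hnn : ‖η₁ - η‖ ≤ 1 := by
    obtain ⟨⟨a1, a2⟩, ⟨a3, a4⟩⟩ := hη
    obtain ⟨⟨b1, b2⟩, ⟨b3, b4⟩⟩ := hη₁
    rw [Prod.norm_def]
    refine max_le ?_ ?_
    · rw [Real.norm_eq_abs, abs_le, Prod.fst_sub]; constructor <;> linarith
    · rw [Real.norm_eq_abs, abs_le, Prod.snd_sub]; constructor <;> linarith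
  have nη := norm_jitter hη
  have nη₁ := norm_jitter hη₁
  set d : ℝ × ℝ := (2 * g) • F.b + (η₁ - η) with hd
  set θU : ℝ × ℝ := ξ - (g • F.b + y • F.b + η) with hθU
  have eU : ξ - g • F.b - η - y • F.b = θU := by rw [hθU]; abel
  have e1 : ξ - (k * P) • F.b - g • F.b - η₁ = θU - d := by
    rw [hθU, hd, ← hM.hk]
    simp only [add_smul, two_mul]
    abel
  rw [eU, e1]
  have ead : F.al d = F.al (η₁ - η) := by
    rw [hd, map_add, map_smul, F.al_b, smul_zero, zero_add]
  have ebd : F.be d = 2 * g + F.be (η₁ - η) := by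
    rw [hd, map_add, map_smul, F.be_b, smul_eq_mul, mul_one]
  have bA := abs_le.1 (abs_al_le' F hnn)
  have bB := abs_le.1 (abs_be_le' F hnn)
  have bη := abs_le.1 (abs_al_le' F nη)
  have bη' := abs_le.1 (abs_be_le' F nη)
  have bη₁ := abs_le.1 (abs_al_le' F nη₁)
  have hmg := M56.one_le_mg F
  have hκ := h.κ_nonneg
  have hc := cF_nonneg F
  have hw := wH_nonneg2 h
  have hg := hM.hg
  have hy := hM.hy
  have hne := M56.row_nonempty (h := h) (d := d) (s := s) (s' := s') (σ₁ := s + mg F)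
    (σ₂ := s + mg F) (I := Set.Icc s (s' - h.κ - cF F - 1)) (by rw [ebd]; linarith [bB.1])
    le_rfl (by rw [ead]; linarith [bA.1])
    (by
      rw [min_self, max_self]
      refine Set.Icc_subset_Icc ?_ ?_
      · linarith
      · linarith)
    θU t (u', u₁)
  have eξU : ξ - θU = g • F.b + y • F.b + η := by rw [hθU]; abel
  have ea : F.al (ξ - θU) = F.al η := by
    rw [eξU, map_add, map_add, map_smul, map_smul, F.al_b, smul_zero, smul_zero, zero_add, zero_add]
  have eb : F.be (ξ - θU) = g + y + F.be η := by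
    rw [eξU, map_add, map_add, map_smul, map_smul, F.be_b, smul_eq_mul, smul_eq_mul, mul_one,
      mul_one]
  have ea1 : F.al (ξ - (θU - d)) = F.al η₁ := by
    have : ξ - (θU - d) = (ξ - θU) + d := by abel
    rw [this, map_add, ea, ead, map_sub]; ring
  have b1 := abs_le.1 hs
  have b2 := abs_le.1 hs'
  have key := pR_le_hull_hwy h ht (θ := ξ) (θ₁ := θU) (θ₂ := θU - d) (u₁ := u') (u₂ := u₁) (s := s)
    (s' := s') (r := s - cF F) (r' := s') (A := rg F (Set.Icc s (s' - h.κ - cF F - 1)) θU)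
    (R := Lam F W ξ) ?_ ?_ ?_ hne
  · exact key.2
  · intro v hv
    have hv' : F.al (pos θU v) ∈ Set.Icc s (s' - h.κ - cF F - 1) := hv
    have e : F.al (pos ξ v) = F.al (pos θU v) + F.al η := by
      have := F.al.map_sub ξ θU
      rw [al_pos, al_pos]; linarith
    rw [e]
    exact ⟨by linarith [hv'.1, bη.1], by linarith [hv'.2, bη.2]⟩
  · intro v h1 h2 h3 h4
    rw [ea] at h1
    rw [ea1] at h2
    rw [eb] at h3
    refine ⟨?_, by linarith [bη'.1]⟩
    rw [abs_le]
    constructor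
    · have : -(W / 2) + h.κ ≤ min (s + F.al η) (s - cF F) :=
        le_min (by linarith [b1.1, bη.1]) (by linarith [b1.1])
      linarith
    · have : max s' (s' + F.al η₁) ≤ W / 2 - h.κ - cF F :=
        max_le (by linarith [b2.2]) (by linarith [b2.2, bη₁.2])
      linarith
  · have : θU - d - θU = -d := by abel
    rw [this, map_neg, ebd]
    linarith [bB.1]

end gap

end Crest.Agent.R151.J69
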