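import Crest.Agent.R151.J69m

/-!
# R151/J69n — bounds of `eGap` and `eHk` (owner helper69)
-/

set_option autoImplicit false

open MeasureTheory Filter ProbabilityTheory
open Crest.ProbabilityR.FirstPassage
open Crest.Agent.R151.K Crest.Agent.R151.Q

namespace Crest.Agent.R151.J69

open B710 (FlatData)
open R78 (V Wk IsHwy hc hp hull routes IsOpen shp hullY IsStrip Frame IsPos Back)
open M192 (frame frame_al frame_be al_pos be_pos isStrip)
open M56 (mg nu)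

variable {μ : ℝ × ℝ → ℝ} {F : FlatData μ}
variable (h : Hwy F) {G : Measure ℝ} [IsProbabilityMeasure G]

/-- shift of the base point of the hull kernel -/
lemma hkY_shift {d : ℝ × ℝ} {I : Set ℝ} (hI : MeasurableSet I) {s s' : ℝ}
    (hi : Integrable (fun q => h.hkY d I s s' q.1.1 q.1.2 q.2) (nu G)) (v : ℝ × ℝ) :
    Integrable (fun q => h.hkY d I s s' (q.1.1 - v) q.1.2 q.2) (nu G) ∧
      ∫ q, h.hkY d I s s' (q.1.1 - v) q.1.2 q.2 ∂(nu G) =
        ∫ q, h.hkY d I s s' q.1.1 q.1.2 q.2 ∂(nu G) := by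
  have hinv : ∀ φ, Inv fun θ t => h.hkY d I s s' θ t φ := fun φ => h.hkY_inv d I s s' φ
  have hi2 := integrable_shift_prod (G := G) (ν := UU.prod UU)
    (F := fun θ t φ => h.hkY d I s s' θ t φ) hinv (-v) hi
  have he := integral_shift_prod (G := G) (ν := UU.prod UU)
    (F := fun θ t φ => h.hkY d I s s' θ t φ) hinv
    (h.meas_hkY (by fun_prop) (by fun_prop) (by fun_prop) d hI s s') (-v)
  simp only [← sub_eq_add_neg] at hi2 he
  exact ⟨hi2, he⟩

section gap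

variable {W P g y L : ℝ} {k : ℕ}

/-- **mean of the crossing of the gap** -/
theorem exL_mean_le (h0 : G (Set.Iio 0) = 0) (h1 : Integrable (fun x : ℝ => x) G)
    (h2 : Integrable (fun x : ℝ => x ^ 2) G) {ε : ℝ} (hm : HwyMean G h ε) (hε : 0 ≤ ε)
    (hF : FM G h ε)
    (hM : MPar h P g y k) (hg2 : h.wH + 2 * mg F + cF F < 2 * g) {s s' : ℝ}
    (hs : Ins h W s) (hs' : Ins h W s') (hss : s + 2 * mg F + h.κ + cF F + 1 ≤ s') :
    ∫ q : O4, exL F W q.1.1 q.1.2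
      (h.x s q.2.1.2.2 (q.1.1 - g • F.b - q.2.1.1 - y • F.b) q.1.2)
      (h.x s' q.2.2.2 (q.1.1 - (k * P) • F.b - g • F.b - q.2.2.1) q.1.2) ∂(P4 G) ≤
      4 * g * rate G F (s' - h.κ - cF F - 1 - s) + 2 * (s' - s) * ε := by
  set b0 : ℝ := 4 * g * rate G F (s' - h.κ - cF F - 1 - s) + 2 * (s' - s) * ε with hb0
  let Z : ((ℝ × ℝ) × Environment) × (Ph2 × Ph2) → ℝ := fun q => exL F W q.1.1 q.1.2
      (h.x s q.2.1.2 (q.1.1 - g • F.b - q.2.1.1 - y • F.b) q.1.2)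
      (h.x s' q.2.2.2 (q.1.1 - (k * P) • F.b - g • F.b - q.2.2.1) q.1.2)
  have hZm : Measurable Z := by
    have hx : Measurable fun q : ((ℝ × ℝ) × Environment) × (Ph2 × Ph2) =>
        h.x s q.2.1.2 (q.1.1 - g • F.b - q.2.1.1 - y • F.b) q.1.2 :=
      meas_x h (by fun_prop) (by fun_prop) (by fun_prop) s
    have hy : Measurable fun q : ((ℝ × ℝ) × Environment) × (Ph2 × Ph2) =>
        h.x s' q.2.2.2 (q.1.1 - (k * P) • F.b - g • F.b - q.2.2.1) q.1.2 :=
      meas_x h (by fun_prop) (by fun_prop) (by fun_prop) s'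
    have hRm : ∀ v, MeasurableSet
        {q : ((ℝ × ℝ) × Environment) × (Ph2 × Ph2) | v ∈ Lam F W q.1.1} :=
      fun v => meas_Lam (F := F) (θ := fun q : ((ℝ × ℝ) × Environment) × (Ph2 × Ph2) => q.1.1)
        (by fun_prop) W v
    have hphi : Measurable (phi F) := measurable_of_countable _
    exact (measurable_pR_rand (by fun_prop) hRm hx hy).sub ((hphi.comp hy).sub (hphi.comp hx))
  have e1 : ∫ q : O4, exL F W q.1.1 q.1.2
      (h.x s q.2.1.2.2 (q.1.1 - g • F.b - q.2.1.1 - y • F.b) q.1.2)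
      (h.x s' q.2.2.2 (q.1.1 - (k * P) • F.b - g • F.b - q.2.2.1) q.1.2) ∂(P4 G) =
      ∫ q, Z q ∂((P0 G).prod ((UU2.prod UU).prod (UU2.prod UU))) :=
    mp_integral (mp_d (G := G)) hZm.aestronglyMeasurable
  have hZint : Integrable Z ((P0 G).prod ((UU2.prod UU).prod (UU2.prod UU))) :=
    ((mp_d (G := G)).integrable_comp hZm.aestronglyMeasurable).1
      (exL_int h h0 h1 hM (W := W) hs hs')
  -- the jitters first
  have hR := mp_jit G
  let R : ((ℝ × ℝ) × (ℝ × ℝ)) × (((ℝ × ℝ) × Environment) × (ℝ × ℝ)) →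
      ((ℝ × ℝ) × Environment) × (Ph2 × Ph2) :=
    fun x => (x.2.1, ((x.1.1, x.2.2.1), (x.1.2, x.2.2.2)))
  have hR' : MeasurePreserving R ((UU2.prod UU2).prod (nu G))
    ((P0 G).prod ((UU2.prod UU).prod (UU2.prod UU))) := hR
  have e2 : ∫ q, Z q ∂((P0 G).prod ((UU2.prod UU).prod (UU2.prod UU))) =
      ∫ x, Z (R x) ∂((UU2.prod UU2).prod (nu G)) :=
    (mp_integral hR' hZm.aestronglyMeasurable).symm
  have hZR : Integrable (fun x => Z (R x)) ((UU2.prod UU2).prod (nu G)) :=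
    hR'.integrable_comp_of_integrable hZint
  rw [e1, e2, integral_prod _ hZR]
  have hb : ∫ _x : (ℝ × ℝ) × (ℝ × ℝ), b0 ∂(UU2.prod UU2) = b0 := by simp
  rw [← hb]
  refine integral_mono_ae hZR.integral_prod_left (integrable_const _) ?_
  have hsq : ∀ᵐ x : (ℝ × ℝ) × (ℝ × ℝ) ∂(UU2.prod UU2),
      x.1 ∈ Set.Ico (0 : ℝ) 1 ×ˢ Set.Ico (0 : ℝ) 1 ∧ x.2 ∈ Set.Ico (0 : ℝ) 1 ×ˢ Set.Ico (0 : ℝ) 1 := by
    have a1 : MeasurePreserving (fun x : (ℝ × ℝ) × (ℝ × ℝ) => x.1) (UU2.prod UU2) UU2 :=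
      measurePreserving_fst
    have a2 : MeasurePreserving (fun x : (ℝ × ℝ) × (ℝ × ℝ) => x.2) (UU2.prod UU2) UU2 :=
      measurePreserving_snd
    filter_upwards [a1.quasiMeasurePreserving.ae ae_UU2, a2.quasiMeasurePreserving.ae ae_UU2]
      with x b1 b2 using ⟨b1, b2⟩
  filter_upwards [hsq, hZR.prod_right_ae] with x hx hxi
  obtain ⟨hη, hη₁⟩ := hx
  have hnn : ‖x.2 - x.1‖ ≤ 1 := by
    obtain ⟨⟨a1, a2⟩, ⟨a3, a4⟩⟩ := hη
    obtain ⟨⟨b1, b2⟩, ⟨b3, b4⟩⟩ := hη₁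
    rw [Prod.norm_def]
    refine max_le ?_ ?_
    · rw [Real.norm_eq_abs, abs_le, Prod.fst_sub]; constructor <;> linarith
    · rw [Real.norm_eq_abs, abs_le, Prod.snd_sub]; constructor <;> linarith
  set d : ℝ × ℝ := (2 * g) • F.b + (x.2 - x.1) with hd
  have ead : F.al d = F.al (x.2 - x.1) := by
    rw [hd, map_add, map_smul, F.al_b, smul_zero, zero_add]
  have ebd : F.be d = 2 * g + F.be (x.2 - x.1) := by
    rw [hd, map_add, map_smul, F.be_b, smul_eq_mul, mul_one]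
  have bA := abs_le.1 (abs_al_le' F hnn)
  have bB := abs_le.1 (abs_be_le' F hnn)
  have hmg := M56.one_le_mg F
  have hκ := h.κ_nonneg
  have hc := cF_nonneg F
  have hw := wH_nonneg2 h
  have hdd : h.wH + 2 * mg F < F.be d := by rw [ebd]; linarith [bB.1]
  have hII : Set.Icc (min (s + mg F) (s + mg F) - mg F) (max (s + mg F) (s + mg F) + mg F) ⊆
      Set.Icc s (s' - h.κ - cF F - 1) := by
    rw [min_self, max_self]
    refine Set.Icc_subset_Icc ?_ ?_ <;> linarith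
  have hint := M56.hkY_integrable (h := h) (G := G) hm h0 h2 hdd (I := Set.Icc s (s' - h.κ - cF F - 1))
    measurableSet_Icc (s := s) (s' := s') (σ₁ := s + mg F) (σ₂ := s + mg F) le_rfl
    (by rw [ead]; linarith [bA.1]) hII
  obtain ⟨hsi, hse⟩ := hkY_shift h measurableSet_Icc hint (g • F.b + y • F.b + x.1)
  have hfm := hF d (Set.Icc s (s' - h.κ - cF F - 1)) s s' s (s' - h.κ - cF F - 1) (4 * g)
    measurableSet_Icc hdd (by rw [ebd]; linarith [bB.2]) le_rfl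
    (by rw [ead]; linarith [bA.1]) subset_rfl (by linarith)
  have hle : ∫ q, Z (R (x, q)) ∂(nu G) ≤
      ∫ q, h.hkY d (Set.Icc s (s' - h.κ - cF F - 1)) s s' (q.1.1 - (g • F.b + y • F.b + x.1)) q.1.2
        q.2 ∂(nu G) := by
    refine integral_mono_ae hxi hsi ?_
    filter_upwards [ae_P0_Nn (Ψ := ℝ × ℝ) (ν := UU.prod UU) h0] with q hq
    exact exL_le_hkY h hM hg2 hs hs' hss hη hη₁ hq.1
  have hfin : (s' - s + (s' - h.κ - cF F - 1) - s + h.κ + 1 + F.al d) * ε ≤ 2 * (s' - s) * ε := by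
    refine mul_le_mul_of_nonneg_right ?_ hε
    rw [ead]; linarith [bA.2]
  calc ∫ q, Z (R (x, q)) ∂(nu G) ≤ _ := hle
    _ = _ := hse
    _ ≤ _ := hfm
    _ ≤ b0 := by rw [hb0]; linarith

/-- **bound of `eGap`** -/
theorem eGap_le (h0 : G (Set.Iio 0) = 0) (h1 : Integrable (fun x : ℝ => x) G)
    (h2 : Integrable (fun x : ℝ => x ^ 2) G) {ε : ℝ} (hm : HwyMean G h ε) (hε : 0 ≤ ε)
    (hF : FM G h ε) (hM : MPar h P g y k) (hg2 : h.wH + 2 * mg F + cF F < 2 * g) {s s' : ℝ}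
    (hs : Ins h W s) (hs' : Ins h W s') (hss : s + 2 * mg F + h.κ + cF F + 1 ≤ s')
    (hWL : W / 2 ≤ L) :
    eGap G h W P g L y k s s' ≤
      4 * g * rate G F (s' - h.κ - cF F - 1 - s) + 4 * L * ε := by
  rw [eGap_eq h h0 h1 hm hM hs hs']
  have key := exL_mean_le h h0 h1 h2 hm hε hF hM hg2 hs hs' hss
  have hκ := h.κ_nonneg
  have hc := cF_nonneg F
  have b1 := abs_le.1 hs
  have b2 := abs_le.1 hs'
  have : (s + L) * ε + (L - s') * ε + 2 * (s' - s) * ε ≤ 4 * L * ε := by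
    rw [← add_mul, ← add_mul]
    refine mul_le_mul_of_nonneg_right ?_ hε
    linarith [b1.1, b2.2]
  linarith

end gap

/-- **bound of `eHk`** for the gauge over the whole plane -/
theorem eHk_le (h0 : G (Set.Iio 0) = 0)
    (h2 : Integrable (fun x : ℝ => x ^ 2) G) {ε : ℝ} (hm : HwyMean G h ε)
    (hF : FM G h ε) {y L : ℝ} (hy : h.wH + 2 * mg F < y) (hL : h.κ + 2 * mg F + 1 ≤ 2 * L) :
    eHk G h y Set.univ L ≤ (y + h.wH + 2 * mg F + 1) * rate G F (2 * L - h.κ - 1) +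
      4 * L * ε := by
  have hmg := M56.one_le_mg F
  have hκ := h.κ_nonneg
  have ead : F.al (y • F.b) = 0 := by rw [map_smul, F.al_b, smul_zero]
  have ebd : F.be (y • F.b) = y := by rw [map_smul, F.be_b, smul_eq_mul, mul_one]
  have hII : Set.Icc (min (-L + mg F) (-L + mg F) - mg F) (max (-L + mg F) (-L + mg F) + mg F) ⊆
      Set.Icc (-L) (L - h.κ - 1) := by
    rw [min_self, max_self]
    refine Set.Icc_subset_Icc ?_ ?_ <;> linarith
  have hs' : -L + mg F + mg F + h.κ < L + F.al (y • F.b) := by rw [ead]; linarith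
  have hdd : h.wH + 2 * mg F < F.be (y • F.b) := by rw [ebd]; exact hy
  have i1 := M56.hkY_integrable (h := h) (G := G) hm h0 h2 hdd (I := Set.Icc (-L) (L - h.κ - 1))
    measurableSet_Icc (s := -L) (s' := L) (σ₁ := -L + mg F) (σ₂ := -L + mg F) le_rfl hs' hII
  have i2 := M56.hkY_integrable (h := h) (G := G) hm h0 h2 hdd (I := Set.univ)
    MeasurableSet.univ (s := -L) (s' := L) (σ₁ := -L + mg F) (σ₂ := -L + mg F) le_rfl hs'
    (Set.subset_univ _)
  have hfm := hF (y • F.b) (Set.Icc (-L) (L - h.κ - 1)) (-L) L (-L) (L - h.κ - 1)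
    (y + h.wH + 2 * mg F + 1) measurableSet_Icc hdd (by rw [ebd]; linarith) le_rfl
    (by rw [ead]; linarith) subset_rfl (by linarith)
  have hle : eHk G h y Set.univ L ≤
      ∫ q, h.hkY (y • F.b) (Set.Icc (-L) (L - h.κ - 1)) (-L) L q.1.1 q.1.2 q.2 ∂(nu G) := by
    refine integral_mono_ae i2 i1 ?_
    filter_upwards [ae_P0_Nn (Ψ := ℝ × ℝ) (ν := UU.prod UU) h0] with q hq
    have hne := M56.row_nonempty (h := h) hdd (s := -L) (s' := L) (σ₁ := -L + mg F)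
      (σ₂ := -L + mg F) le_rfl hs' hII q.1.1 q.1.2 q.2
    have := R78.hull_mono (bddBelow_routes hq.1 _ _ _ _ _) hne (M192.rg_mono (Set.subset_univ _) q.1.1)
      le_rfl le_rfl
    unfold Hwy.hkY hullY
    linarith
  refine hle.trans (hfm.trans ?_)
  rw [ead]
  have e1 : L - h.κ - 1 - -L = 2 * L - h.κ - 1 := by ring
  have e2 : (L - -L + (L - h.κ - 1) - -L + h.κ + 1 + 0) * ε = 4 * L * ε := by ring
  rw [e1, e2]

end Crest.Agent.R151.J69
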