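import Crest.Agent.R151.J69n
import Crest.Agent.R151.NF3
import Crest.Agent.R151.M192l

/-!
# R151/J69o — numerical facts of the moves (owner helper69)
-/

set_option autoImplicit false

open MeasureTheory Filter ProbabilityTheory Topology Set
open Crest.ProbabilityR.FirstPassage
open Crest.Agent.R151.K Crest.Agent.R151.Q

namespace Crest.Agent.R151.J69

open B710 (FlatData)
open C710 (GoodScale fn)
open NF hiding Num
open R78 (V Wk IsHwy hc hp hull routes IsOpen shp hullY IsStrip Frame IsPos Back)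
open M192 (frame frame_al frame_be al_pos be_pos isStrip)
open M56 (mg nu)

variable {μ : ℝ × ℝ → ℝ}

/-- numerical facts of the moves -/
structure SN {G : Measure ℝ} {F : FlatData μ} {w0 c0 K : ℝ} {p : NF.Num}
    (c : Cf G F w0 c0 K p) : Prop where
  std : c.Std
  δ_le : p.δ ≤ 1 / 64
  n_ge : 16 ≤ (p.n : ℝ)
  len : c.h.κ + 6 * cF F + 4 * mg F + 4 ≤ c.g / 8
  wH_le : c.h.wH ≤ c.g / 8
  sl_le : c.sl ≤ c.g / 8
  sl_ge : c.h.κ + 2 * mg F + 2 ≤ c.sl
  g_le : 64 * p.n * c.g ≤ p.δ * p.W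
  fn_le : 2 * fn F.al ≤ p.δ * p.W / 4
  w0_le : w0 ≤ p.δ * p.W / 4
  /-- narrow lane: gaps -/
  gap : 4 * c.g * rate G F (p.δ * p.W / 4) ≤ p.e / 16 * c.l
  /-- far lane: rows -/
  far : 2 * c.P * rate G F (p.v' * p.W) ≤ p.e / 16 * c.l
  /-- highways -/
  hwy : 4 * c.L * c.ε ≤ p.e / 16 * c.l

theorem ev_SN (G : Measure ℝ) (F : FlatData μ) (w0 : ℝ) {c0 K : ℝ} (hc0 : 0 < c0) (hK : 0 ≤ K) :
    Ev fun p => ∀ c : Cf G F w0 c0 K p, SN c := by
  have a1 := ev_len G F w0 c0 K (fun n δ _ _ _ => 64 * n / δ)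
    (8 * (6 * cF F + 4 * mg F + 4) + 8 * fn F.al + 4 * |w0| + c0)
  have a2 := le_δ fun _ => 64
  have a3 := le_n 16
  have a4 := le_δ' (fun n δ v e v' => 32768 * 2 / (δ ^ 3 * e))
  have a5 := rpow_v' (fun n δ v e => 64 / e) 0.03 (by norm_num)
  have a6 := highway_small (G := G) (F := F) (w0 := w0) (K := K) hc0
    (fun n δ v e v' δ' δ0 => 128 * v' / e)
  have a7 := ev_soft G F w0 c0 hK
  refine ((((((a1.and a2).and a3).and a4).and a5).and a6).and a7).mono ?_
  rintro p ⟨⟨⟨⟨⟨⟨b1, b2⟩, b3⟩, b4⟩, b5⟩, b6⟩, b7⟩ c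
  obtain ⟨hs, hC, hg, hA, hgW⟩ := b1 c
  have hp := hs.toStd
  have hW : 0 < p.W := zero_lt_one.trans_le hp.W
  have hδ := hp.δ_pos
  have he := hp.e_pos
  have hv' := hp.v'
  have hd : 0 < p.δ0 * p.W := mul_pos hp.δ0_pos hW
  have hmg := M56.one_le_mg F
  have hcF := cF_nonneg F
  have hfn := C710.fn_nonneg F.al
  have hw0 := abs_nonneg w0
  have hκ := c.κ_le
  have hκ0 := c.h.κ_nonneg
  have hwH := hs.wH_eq
  rw [abs_of_nonneg hK] at hg
  have hKd : 0 ≤ K * (p.δ0 * p.W) := mul_nonneg hK hd.le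
  have hsl : c.sl = (K + 1) * (p.δ0 * p.W) := rfl
  have hlen : 8 * (c.h.κ + 6 * cF F + 4 * mg F + 4) ≤ c.g := by linarith
  have hgd : 64 * p.n * c.g ≤ p.δ * p.W := by
    have e1 : 64 * (p.n : ℝ) / p.δ * c.g = (64 * p.n * c.g) / p.δ := by ring
    rw [e1, div_le_iff₀ hδ] at hA
    linarith
  have hn : (1 : ℝ) ≤ p.n := by linarith
  have hgpos := hs.g_pos
  have hgd' : 64 * c.g ≤ p.δ * p.W := by
    refine le_trans ?_ hgd
    nlinarith
  have hl := hs.l_pos
  have hrt := c.rt_pos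
  have hge0 : 8 * fn F.al + 4 * |w0| ≤ p.δ * p.W := by linarith
  have hw0' : w0 ≤ |w0| := le_abs_self _
  refine
    { std := hs
      δ_le := by linarith
      n_ge := b3
      len := by linarith
      wH_le := by linarith
      sl_le := by rw [hsl]; linarith
      sl_ge := ?_
      g_le := hgd
      fn_le := by linarith
      w0_le := by linarith
      gap := ?_
      far := ?_
      hwy := ?_ }
  · rw [hsl]; linarith
  · have h1 := rate_near' c hp (t := p.δ / 4) (by positivity) (by linarith [hp.δ_le])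
      (by linarith)
    have e1 : p.δ / 4 * p.W = p.δ * p.W / 4 := by ring
    rw [e1] at h1
    have h2 : p.W * c.rt ≤ 2 * c.l := by
      have := hs.l_ge
      have hJ := hp.J
      have : p.W / 2 * c.rt ≤ c.l := by
        refine le_trans ?_ this
        refine mul_le_mul_of_nonneg_right ?_ hrt.le
        nlinarith
      linarith
    have h3 : 32768 * 2 * p.δ' ≤ p.δ ^ 3 * p.e := by
      have hpos : 0 < p.δ ^ 3 * p.e := by positivity
      have e2 : 32768 * 2 / (p.δ ^ 3 * p.e) * p.δ' = (32768 * 2 * p.δ') / (p.δ ^ 3 * p.e) := by ring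
      rw [e2, div_le_one hpos] at b4
      exact b4
    have hδ' := hp.δ'_pos
    calc 4 * c.g * rate G F (p.δ * p.W / 4) ≤ 4 * c.g * (8 / (p.δ / 4) ^ 3 * c.rt) :=
          mul_le_mul_of_nonneg_left h1 (by positivity)
      _ = (2048 * p.δ' / p.δ ^ 3) * (p.W * c.rt) := by
          rw [c.g_eq]; field_simp; ring
      _ ≤ (2048 * p.δ' / p.δ ^ 3) * (2 * c.l) := mul_le_mul_of_nonneg_left h2 (by positivity)
      _ = (4096 * p.δ' / p.δ ^ 3) * c.l := by ring
      _ ≤ p.e / 16 * c.l := by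
          refine mul_le_mul_of_nonneg_right ?_ hl.le
          rw [div_le_iff₀ (by positivity)]
          linarith
  · have h1 := P_rate_far c hs (t := p.v') hv'
    have h2 : 64 * p.v' ^ (-0.03 : ℝ) ≤ p.e := by
      have e2 : 64 / p.e * p.v' ^ (-0.03 : ℝ) = (64 * p.v' ^ (-0.03 : ℝ)) / p.e := by ring
      have b5' : 64 / p.e * p.v' ^ (-(0.03 : ℝ)) ≤ 1 := b5
      rw [e2, div_le_one he] at b5'
      exact b5'
    calc 2 * c.P * rate G F (p.v' * p.W) = 2 * (c.P * rate G F (p.v' * p.W)) := by ring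
      _ ≤ 2 * (2 * p.v' ^ (-0.03 : ℝ) * c.l) := by linarith
      _ = (4 * p.v' ^ (-0.03 : ℝ)) * c.l := by ring
      _ ≤ p.e / 16 * c.l := mul_le_mul_of_nonneg_right (by linarith) hl.le
  · have h1 := b6 c
    have e2 : 128 * p.v' / p.e * (p.W * c.ε) = (128 * p.v' * (p.W * c.ε)) / p.e := by ring
    rw [e2, div_le_iff₀ he] at h1
    rw [c.L_eq]
    linarith

end Crest.Agent.R151.J69
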