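import Crest.Agent.R151.J69p

/-!
# R151/J69q — the A-row move `recA` (owner helper69)
-/

set_option autoImplicit false

open MeasureTheory Filter ProbabilityTheory Topology Set
open Crest.ProbabilityR.FirstPassage
open Crest.Agent.R151.K Crest.Agent.R151.Q

namespace Crest.Agent.R151.J69

open B710 (FlatData)
open C710 (GoodScale fn)
open NF hiding Num
open R78 (V Wk IsHwy hc hp hull routes IsOpen shp hullY IsStrip Frame IsPos Back)
open M192 (frame frame_al frame_be al_pos be_pos isStrip)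
open M56 (mg nu)

variable {μ : ℝ × ℝ → ℝ}
variable {G : Measure ℝ} {F : FlatData μ} {w0 c0 K : ℝ} {p : NF.Num}
  {c : Cf G F w0 c0 K p}

/-- the value function of a configuration -/
noncomputable def fC (c : Cf G F w0 c0 K p) (N : ℕ) (x : ℝ) : ℝ :=
  fS G c.h p.W c.P c.g c.L c.l N x

lemma fC_eq (c : Cf G F w0 c0 K p) (N : ℕ) (x : ℝ) :
    fC c N x = eV G c.h p.W c.P c.g c.L N (x * p.W) / c.l := rfl

lemma eV_eq (hc : SN c) (N : ℕ) (x : ℝ) :
    eV G c.h p.W c.P c.g c.L N (x * p.W) = fC c N x * c.l := by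
  rw [fC_eq, div_mul_cancel₀ _ hc.std.l_pos.ne']

lemma al_smul_b (y : ℝ) : F.al (y • F.b) = 0 := by rw [map_smul, F.al_b, smul_zero]

lemma be_smul_b' (y : ℝ) : F.be (y • F.b) = y := by
  rw [map_smul, F.be_b, smul_eq_mul, mul_one]

/-- routes of a fence of width `≥ 2 mg` -/
lemma ne_fence {h : Hwy F} {y s s' a b : ℝ} (hy : h.wH + 2 * mg F < y) (h1 : s ≤ a)
    (h2 : a + 2 * mg F ≤ b) (h3 : a + 2 * mg F + h.κ < s') {I : Set ℝ} (hI : Icc a b ⊆ I)
    (θ : ℝ × ℝ) (t : Environment) (φ : ℝ × ℝ) :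
    (routes t (h.Lo θ t φ) (h.Up (y • F.b) θ t φ) (rg F I θ) (h.iL s θ t φ)
      (h.iU (y • F.b) s' θ t φ)).Nonempty := by
  refine M56.row_nonempty (h := h) (d := y • F.b) (σ₁ := a + mg F) (σ₂ := a + mg F)
    (by rw [be_smul_b']; exact hy) (by linarith) (by rw [al_smul_b]; linarith) ?_ θ t φ
  rw [min_self, max_self]
  exact (Icc_subset_Icc (by linarith) (by linarith)).trans hI

lemma int_fence [IsProbabilityMeasure G] (h0 : G (Set.Iio 0) = 0)
    (h2 : Integrable (fun x : ℝ => x ^ 2) G) {h : Hwy F} {ε : ℝ} (hm : HwyMean G h ε)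
    {y s s' a b : ℝ} (hy : h.wH + 2 * mg F < y) (h1 : s ≤ a)
    (h2' : a + 2 * mg F ≤ b) (h3 : a + 2 * mg F + h.κ < s') {I : Set ℝ} (hIm : MeasurableSet I)
    (hI : Icc a b ⊆ I) :
    Integrable (fun q => h.hkY (y • F.b) I s s' q.1.1 q.1.2 q.2) (nu G) := by
  refine M56.hkY_integrable (h := h) (G := G) hm h0 h2 (d := y • F.b) (σ₁ := a + mg F)
    (σ₂ := a + mg F) (by rw [be_smul_b']; exact hy) hIm (by linarith)
    (by rw [al_smul_b]; linarith) ?_
  rw [min_self, max_self]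
  exact (Icc_subset_Icc (by linarith) (by linarith)).trans hI

lemma alg_aux (A1 A2 e P1 f1 P2 f2 : ℝ) {l : ℝ} (hl : l ≠ 0) :
    (A1 / l + A2 / l + e + P1 * f1 + P2 * f2) * l =
      A1 + A2 + e * l + P1 * (f1 * l) + P2 * (f2 * l) := by field_simp

/-- monotonicity of the hull in the labels and the region -/
lemma hull_mono' (h : Hwy F) {t : Environment} (ht : Nn t) {d : ℝ × ℝ} {I J : Set ℝ}
    {s s' r r' : ℝ} {θ φ : ℝ × ℝ}
    (hne : (routes t (h.Lo θ t φ) (h.Up d θ t φ) (rg F I θ) (h.iL s θ t φ)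
      (h.iU d r θ t φ)).Nonempty) (hs : s' ≤ s) (hr : r ≤ r') (hIJ : I ⊆ J := by exact subset_rfl) :
    h.hk d J s' r' θ t φ ≤ h.hk d I s r θ t φ := by
  unfold Hwy.hk
  exact R78.hull_mono (bddBelow_routes ht _ _ _ _ _) hne (M192.rg_mono hIJ θ)
    (M192.iL_mono h hs θ t φ) (M192.iU_mono h d hr θ t φ)

set_option maxHeartbeats 1000000 in
/-- **the A-row move** -/
theorem SN.recA [IsProbabilityMeasure G] (hc : SN c) (h0 : G (Set.Iio 0) = 0)
    (h1 : Integrable (fun x : ℝ => x) G) (h2 : Integrable (fun x : ℝ => x ^ 2) G)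
    (hμ : IsTC G μ) (hF : FM G c.h c.ε) (T : Set (M192.Row (ℝ × ℝ))) (N : ℕ) (x : ℝ)
    (hx1 : -(1 / 16) ≤ x) (hx2 : x < 1 / 8) (B : Set (M192.Row (ℝ × ℝ)))
    (hB : MeasurableSet[c.mB] B) :
    fC c (N + 1) x ≤ ∫ q in Bᶜ, (c.rowA T).KL x q ∂(nuR G) +
      ∫ q in B, (c.rowA T).F (1 / (4 * p.n)) x q ∂(nuR G) + p.e +
      (nuR G).real Bᶜ * fC c N (x + 6 * p.δ) +
      (nuR G).real B * fC c N (x + 1 / (4 * p.n) + p.δ) := by
  obtain ⟨hW, hg, hκ, hcF, hmg, hwH, a1, a2, a3, a4, a5, a6, a7⟩ := hc.basic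
  have b1 := hc.len
  have b2 := hc.wH_le
  have b3 := hc.sl_le
  have b4 := hc.sl_ge
  have b5 := hc.δ_le
  have b6 := hc.n_ge
  have b7 := hc.g_le
  have hδ := hc.std.toStd.δ_pos
  have hl := hc.std.l_pos
  have hn : (0 : ℝ) < p.n := by linarith
  set w : ℝ := 1 / (4 * (p.n : ℝ)) with hw
  have hw0 : 0 < w := by rw [hw]; positivity
  have hw1 : w ≤ 1 / 64 := by
    rw [hw]
    exact one_div_le_one_div_of_le (by norm_num) (by linarith)
  have hwW : 16 * c.g ≤ w * p.W := by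
    have : 16 * c.g * (4 * p.n) ≤ p.W := by nlinarith
    rw [hw, div_mul_eq_mul_div, one_mul, le_div_iff₀ (by positivity)]
    exact this
  have hxW1 : -(1 / 16) * p.W ≤ x * p.W := mul_le_mul_of_nonneg_right hx1 hW.le
  have hxW2 : x * p.W ≤ 1 / 8 * p.W := mul_le_mul_of_nonneg_right hx2.le hW.le
  have hwW1 : w * p.W ≤ 1 / 64 * p.W := mul_le_mul_of_nonneg_right hw1 hW.le
  have hyA : c.h.wH + 2 * mg F < c.yA := by linarith
  set I₁ : Set ℝ := Icc (-(7 / 16 * p.W)) (7 / 16 * p.W) with hI₁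
  set I₂ : Set ℝ := Icc (x * p.W + c.sl) ((x + w) * p.W - c.sl) with hI₂
  have exw : (x + w) * p.W = x * p.W + w * p.W := by ring
  -- integrability
  have jJ : Integrable (fun q => c.h.hkY (c.yA • F.b) univ (-c.L) c.L q.1.1 q.1.2 q.2) (nu G) :=
    int_fence h0 h2 c.mean hyA (a := -c.L) (b := c.L) le_rfl (by linarith) (by linarith)
      MeasurableSet.univ (subset_univ _)
  have j1 : Integrable (fun q => c.h.hkY (c.yA • F.b) I₁ (x * p.W) ((x + 5 * p.δ) * p.W)
      q.1.1 q.1.2 q.2) (nu G) :=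
    int_fence h0 h2 c.mean hyA (a := x * p.W) (b := 7 / 16 * p.W) le_rfl (by linarith)
      (by nlinarith) measurableSet_Icc (Icc_subset_Icc (by linarith) le_rfl)
  have j2 : Integrable (fun q => c.h.hkY (c.yA • F.b) I₂ (x * p.W) ((x + w) * p.W)
      q.1.1 q.1.2 q.2) (nu G) :=
    int_fence h0 h2 c.mean hyA (a := x * p.W + c.sl) (b := (x + w) * p.W - c.sl) (by linarith)
      (by rw [exw]; linarith) (by rw [exw]; linarith) measurableSet_Icc subset_rfl
  have j3 : Integrable (fun q => c.h.hkY (c.yA • F.b) I₂ (x * p.W + c.sl) ((x + w) * p.W - c.sl)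
      q.1.1 q.1.2 q.2) (nu G) :=
    int_fence h0 h2 c.mean hyA (a := x * p.W + c.sl) (b := (x + w) * p.W - c.sl) le_rfl
      (by rw [exw]; linarith) (by rw [exw]; linarith) measurableSet_Icc subset_rfl
  have k1 := (sk_int c.mean j1 jJ).1
  have k2 := (sk_int c.mean j2 jJ).1
  have k3 := (sk_int c.mean j3 jJ).1
  have hs : Ins c.h p.W (x * p.W) := hc.ins' (by rw [abs_le]; constructor <;> linarith)
  have hs₁ : Ins c.h p.W ((x + 5 * p.δ) * p.W) :=
    hc.ins' (by rw [abs_le]; constructor <;> linarith)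
  have hs₁' : Ins c.h p.W ((x + 6 * p.δ) * p.W) :=
    hc.ins' (by rw [abs_le]; constructor <;> linarith)
  have hs₂ : Ins c.h p.W ((x + w) * p.W) :=
    hc.ins' (by rw [abs_le]; constructor <;> linarith)
  have hs₂' : Ins c.h p.W ((x + w + p.δ) * p.W) :=
    hc.ins' (by rw [abs_le]; constructor <;> linarith)
  have key := move_mean c.h h0 h1 h2 hμ c.mean c.mean.nonneg hc.mparA (B := B) hB (N := N)
    (I₁ := I₁) (I₂ := I₂) (J := univ) (L := c.L) measurableSet_Icc measurableSet_Icc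
    MeasurableSet.univ hs hs₁ hs₂ hs₁' hs₂'
    (r₁ := -(7 / 16 * p.W)) (r₁' := 7 / 16 * p.W) (r₂ := x * p.W + c.sl)
    (r₂' := (x + w) * p.W - c.sl)
    (hc.ins (by rw [abs_neg, abs_of_pos (by positivity)]))
    (hc.ins (by rw [abs_of_pos (by positivity)]))
    (hc.ins (by rw [abs_le]; constructor <;> linarith))
    (hc.ins (by rw [abs_le, exw]; constructor <;> linarith)) subset_rfl subset_rfl hc.WL
    (ne_fence hyA (a := x * p.W) (b := 7 / 16 * p.W) le_rfl (by linarith) (by nlinarith)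
      (Icc_subset_Icc (by linarith) le_rfl))
    (ne_fence hyA (a := x * p.W + c.sl) (b := (x + w) * p.W - c.sl) (by linarith)
      (by rw [exw]; linarith) (by rw [exw]; linarith) subset_rfl)
    k1.integrableOn k2.integrableOn jJ
  have g1 := hc.eGap_small h0 h1 h2 hμ hF hc.mparA hs₁ hs₁' (by nlinarith)
  have g2 := hc.eGap_small h0 h1 h2 hμ hF hc.mparA hs₂ hs₂' (by nlinarith)
  have g3 := hc.eHk_small h0 h2 hμ hF hyA (by rw [c.yA_eq']; linarith)
  rw [eV_eq hc, eV_eq hc, eV_eq hc] at key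
  -- the two branch costs
  have m1 : ∫ q in Bᶜ, (c.rowA T).KL x q ∂(nuR G) =
      (∫ q in Bᶜ, c.h.sk (c.yA • F.b) I₁ univ c.L (x * p.W) ((x + 5 * p.δ) * p.W) q.1.1 q.1.2 q.2
        ∂(PRow G)) / c.l := by
    rw [← integral_div]
    refine integral_congr_ae (ae_restrict_of_ae ?_)
    filter_upwards [M192.ae_skp (G := G) h0 c.h c.yA c.l c.L I₁ (x * p.W) ((x + 5 * p.δ) * p.W)]
      with q hq
    exact hq
  have hwc : 4 * c.sl ≤ w * p.W ∧ w ≤ 1 := ⟨by linarith, by linarith⟩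
  have m2 : ∫ q in B, (c.rowA T).F w x q ∂(nuR G) =
      (∫ q in B, c.h.sk (c.yA • F.b) I₂ univ c.L (x * p.W + c.sl) ((x + w) * p.W - c.sl)
        q.1.1 q.1.2 q.2 ∂(PRow G)) / c.l := by
    rw [← integral_div]
    refine integral_congr_ae (ae_restrict_of_ae ?_)
    filter_upwards [M192.ae_skp (G := G) h0 c.h c.yA c.l c.L I₂ (x * p.W + c.sl)
      ((x + w) * p.W - c.sl)] with q hq
    show (if 4 * c.sl ≤ w * p.W ∧ w ≤ 1 then _ else (0 : ℝ)) = _
    rw [if_pos hwc]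
    exact hq
  have m3 : ∫ q in B, c.h.sk (c.yA • F.b) I₂ univ c.L (x * p.W) ((x + w) * p.W) q.1.1 q.1.2 q.2
        ∂(PRow G) ≤
      ∫ q in B, c.h.sk (c.yA • F.b) I₂ univ c.L (x * p.W + c.sl) ((x + w) * p.W - c.sl)
        q.1.1 q.1.2 q.2 ∂(PRow G) := by
    refine integral_mono_ae k2.integrableOn k3.integrableOn (ae_restrict_of_ae ?_)
    filter_upwards [ae_P0_Nn (Ψ := ℝ × ℝ) (ν := UU.prod UU) h0] with q hq
    have := hull_mono' c.h hq.1
      (ne_fence hyA (a := x * p.W + c.sl) (b := (x + w) * p.W - c.sl) (s := x * p.W + c.sl)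
        (s' := (x + w) * p.W - c.sl) le_rfl (by rw [exw]; linarith) (by rw [exw]; linarith)
        (I := I₂) subset_rfl q.1.1 q.1.2 q.2)
      (show x * p.W ≤ x * p.W + c.sl by linarith)
      (show (x + w) * p.W - c.sl ≤ (x + w) * p.W by linarith)
    unfold Hwy.sk
    linarith
  have hPB : (nuR G).real B = (PRow G).real B := rfl
  have hPBc : (nuR G).real Bᶜ = (PRow G).real Bᶜ := rfl
  rw [m1, m2, hPB, hPBc]
  have he : 0 < p.e * c.l := mul_pos hc.std.toStd.e_pos hl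
  refine le_of_mul_le_mul_right (key.trans ?_) hl
  rw [alg_aux _ _ _ _ _ _ _ hl.ne']
  linarith

end Crest.Agent.R151.J69
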