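import Crest.Agent.R151.J69q

/-!
# R151/J69r — assembly of the `Strategy` (owner helper69)
-/

set_option autoImplicit false

open MeasureTheory Filter ProbabilityTheory Topology Set
open Crest.ProbabilityR.FirstPassage
open Crest.Agent.R151.K Crest.Agent.R151.Q

namespace Crest.Agent.R151.J69

open B710 (FlatData)
open C710 (GoodScale fn)
open NF hiding Num
open M56 (mg nu)

variable {μ : ℝ × ℝ → ℝ}
variable {G : Measure ℝ} {F : FlatData μ} {w0 c0 K : ℝ} {p : NF.Num}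

/-- the crude facts about the value function (helper684) -/
structure LowTop (c : Cf G F w0 c0 K p) : Prop where
  low : ∃ C' : ℝ, ∀ N : ℕ, N - C' ≤ fC c N 0
  base : ∃ C' : ℝ, ∀ N : ℕ, N ≤ 1 → ∀ x : ℝ, -(1 / 16) ≤ x → x < 3 / 16 → fC c N x ≤ C'
  top : ∃ A : ℝ, ∀ (N : ℕ) (x : ℝ), 0 ≤ x → x < 3 / 16 → fC c N x ≤ fC c N 0 + A

/-- the B-row move (helper685) -/
def RecB (c : Cf G F w0 c0 K p) (C0 : ℝ) : Prop :=
  ∀ (N : ℕ) (x : ℝ), 0 ≤ x → x < 3 / 16 →
    fC c (N + 2) x ≤ C0 * p.n ^ 4 + fC c N (x - 1 / (2 * p.n) + p.δ)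

/-- **the Strategy** -/
theorem strategy_of [IsProbabilityMeasure G] {c : Cf G F w0 c0 K p} (hc : SN c)
    (h0 : G (Set.Iio 0) = 0)
    (h1 : Integrable (fun x : ℝ => x) G) (h2 : Integrable (fun x : ℝ => x ^ 2) G)
    (hμ : IsTC G μ) (hF : FM G c.h c.ε) (hL : LowTop c) {C0 : ℝ} (hB : RecB c C0)
    (T : Set (M192.Row (ℝ × ℝ))) :
    Nonempty (E191.Strategy (c.rowA T) (nuR G) c.mB C0 p.n p.δ p.e) := by
  obtain ⟨C1, hlow⟩ := hL.low
  obtain ⟨C2, hbase⟩ := hL.base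
  obtain ⟨A, htop⟩ := hL.top
  have hA := abs_nonneg A
  have he := hc.std.toStd.e_pos
  have hw0 : (0 : ℝ) < 1 / (4 * (|A| + 153)) := by positivity
  refine ⟨{
    fA := fC c
    fB := fC c
    wmin := 1 / (4 * (|A| + 153))
    Acr := A
    C' := max C1 C2
    wmin_pos := hw0
    Acr_le := ?_
    low := fun N => ?_
    base_A := fun N hN x hx1 hx2 => ?_
    base_B := fun N hN x hx1 hx2 => ?_
    top := htop
    recA := ?_
    recB := ?_ }⟩
  · have e1 : 1 / (4 * (1 / (4 * (|A| + 153)))) ^ 3 = (|A| + 153) ^ 3 := by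
      field_simp
    rw [e1]
    have h3 : (1 : ℝ) ≤ |A| + 153 := by linarith
    have h4 : |A| + 153 ≤ (|A| + 153) ^ 3 := le_self_pow₀ h3 (by norm_num)
    linarith [le_abs_self A]
  · have := hlow N
    linarith [le_max_left C1 C2]
  · exact (hbase N hN x hx1 (by linarith)).trans (le_max_right _ _)
  · exact (hbase N hN x (by linarith) hx2).trans (le_max_right _ _)
  · intro f hf N x hx1 hx2 B hBm _
    have hff : f = fC c := by
      rcases hf with hf | hf <;> exact hf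
    rw [hff]
    exact hc.recA h0 h1 h2 hμ hF T N x hx1 hx2 B hBm
  · intro f hf N x w hx1 hx2 hw _
    have hff : f = fC c := by
      rcases hf with hf | hf <;> exact hf
    rw [hff]
    refine ⟨0, le_rfl, he.le, ?_⟩
    have h5 := hB N x hx1 hx2
    have h6 : 0 ≤ p.e / w ^ 3 := by
      have : 0 < w := hw0.trans_le hw
      positivity
    linarith

/-- **the Strategy in `Ev` form** = `Inputs.strat` up to 56's fence mean, 684's `LowTop` and
685's `RecB` -/
theorem ev_strategy [IsProbabilityMeasure G] (F : FlatData μ) (w0 : ℝ) {c0 K C0 : ℝ}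
    (hc0 : 0 < c0) (hK : 0 ≤ K) (h0 : G (Set.Iio 0) = 0)
    (h1 : Integrable (fun x : ℝ => x) G) (h2 : Integrable (fun x : ℝ => x ^ 2) G)
    (hμ : IsTC G μ) (hF : ∀ (h : Hwy F) (ε : ℝ), HwyMean G h ε → FM G h ε)
    (hL : Ev fun p => ∀ c : Cf G F w0 c0 K p, LowTop c)
    (hB : Ev fun p => ∀ c : Cf G F w0 c0 K p, RecB c C0)
    (typ : ∀ {p : NF.Num}, Cf G F w0 c0 K p → Set (M192.Row (ℝ × ℝ))) :
    Ev fun p => ∀ c : Cf G F w0 c0 K p,
      Nonempty (E191.Strategy (c.rowA (typ c)) (nuR G) c.mB C0 p.n p.δ p.e) := by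
  refine (((ev_SN G F w0 hc0 hK).and hL).and hB).mono ?_
  rintro p ⟨⟨a1, a2⟩, a3⟩ c
  exact strategy_of (a1 c) h0 h1 h2 hμ (hF c.h c.ε c.mean) (a2 c) (a3 c) _

end Crest.Agent.R151.J69
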