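import Crest.Agent.R151.K1c

/-!
# R151/K2 — the uniform shape theorem (owner helper507)
-/

set_option autoImplicit false

open MeasureTheory Filter ProbabilityTheory
open Crest.ProbabilityR.FirstPassage

namespace Crest.Agent.R151.K

/-- The lattice box of radius `n`. -/
noncomputable def box (n : ℕ) : Finset (ℤ × ℤ) := Finset.Icc (-(n : ℤ)) n ×ˢ Finset.Icc (-(n : ℤ)) n

lemma mem_box {n : ℕ} {x : ℤ × ℤ} :
    x ∈ box n ↔ (-(n : ℤ) ≤ x.1 ∧ x.1 ≤ n) ∧ (-(n : ℤ) ≤ x.2 ∧ x.2 ≤ n) := by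
  simp [box, Finset.mem_product, Finset.mem_Icc]

lemma card_box (n : ℕ) : (box n).card = (2 * n + 1) ^ 2 := by
  simp only [box, Finset.card_product, Int.card_Icc]
  have : ((n : ℤ) + 1 - -(n : ℤ)).toNat = 2 * n + 1 := by omega
  rw [this, sq]

lemma zero_mem_box (n : ℕ) : (0 : ℤ × ℤ) ∈ box n := by
  rw [mem_box]; simp

variable {G : Measure ℝ} [IsProbabilityMeasure G] {μ : ℝ × ℝ → ℝ} {lam : ℝ}

/-- the soft maximum of `pt x (z x)`, `x ∈ S` -/
noncomputable def soft (lam A : ℝ) (S : Finset (ℤ × ℤ)) (z : ℤ × ℤ → ℤ × ℤ)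
    (t : Environment) : ℝ :=
  A + (1 / lam) * ∑ x ∈ S, Real.exp (lam * passageTime t x (z x)) * Real.exp (-(lam * A))

lemma le_soft (hlam : 0 < lam) {A : ℝ} {S : Finset (ℤ × ℤ)} {z : ℤ × ℤ → ℤ × ℤ}
    (t : Environment) {x : ℤ × ℤ} (hx : x ∈ S) :
    passageTime t x (z x) ≤ soft lam A S z t := by
  unfold soft
  have h1 : Real.exp (lam * passageTime t x (z x)) * Real.exp (-(lam * A))
      ≤ ∑ x ∈ S, Real.exp (lam * passageTime t x (z x)) * Real.exp (-(lam * A)) :=
    Finset.single_le_sum (f := fun x => Real.exp (lam * passageTime t x (z x)) *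
      Real.exp (-(lam * A))) (fun i _ => by positivity) hx
  have h2 : lam * (passageTime t x (z x) - A) ≤
      Real.exp (lam * passageTime t x (z x)) * Real.exp (-(lam * A)) := by
    rw [← Real.exp_add]
    have := Real.add_one_le_exp (lam * passageTime t x (z x) + -(lam * A))
    linarith
  have h3 : passageTime t x (z x) - A ≤
      (1 / lam) * ∑ x ∈ S, Real.exp (lam * passageTime t x (z x)) * Real.exp (-(lam * A)) := by
    rw [one_div, ← div_eq_inv_mul, le_div_iff₀ hlam]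
    linarith
  linarith

lemma integral_soft (h0 : G (Set.Iio 0) = 0) (hlam : 0 < lam)
    (hexp : Integrable (fun x => Real.exp (lam * x)) G) (A : ℝ) (S : Finset (ℤ × ℤ))
    (z : ℤ × ℤ → ℤ × ℤ) (L : ℕ) (hz : ∀ x ∈ S, n1 (z x - x) ≤ L) :
    Integrable (soft lam A S z) (iidLaw G) ∧
    ∫ t, soft lam A S z t ∂(iidLaw G)
      ≤ A + (1 / lam) * (S.card * (∫ x, Real.exp (lam * x) ∂G) ^ L * Real.exp (-(lam * A))) := by
  have hi : ∀ x, Integrable (fun t => Real.exp (lam * passageTime t x (z x)) *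
      Real.exp (-(lam * A))) (iidLaw G) := fun x => (exp_pt h0 hlam hexp x (z x)).1.mul_const _
  have hsum : Integrable (fun t => ∑ x ∈ S, Real.exp (lam * passageTime t x (z x)) *
      Real.exp (-(lam * A))) (iidLaw G) := integrable_finsetSum _ fun x _ => hi x
  constructor
  · unfold soft
    exact (integrable_const A).add (hsum.const_mul _)
  · unfold soft
    rw [integral_add (integrable_const A) (hsum.const_mul _), integral_const_mul,
      integral_finsetSum _ fun x _ => hi x]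
    simp only [integral_const, probReal_univ, smul_eq_mul, one_mul]
    have : ∑ x ∈ S, ∫ t, Real.exp (lam * passageTime t x (z x)) * Real.exp (-(lam * A))
        ∂(iidLaw G) ≤ S.card * (∫ x, Real.exp (lam * x) ∂G) ^ L * Real.exp (-(lam * A)) := by
      rw [mul_assoc, ← nsmul_eq_mul]
      refine Finset.sum_le_card_nsmul _ _ _ fun x hx => ?_
      rw [integral_mul_const]
      have h1 := (exp_pt h0 hlam hexp x (z x)).2
      have h3 := one_le_M h0 hlam hexp
      have h2 := pow_le_pow_right₀ h3 (hz x hx)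
      gcongr
      exact h1.trans h2
    gcongr

/-- with the optimal constant -/
lemma integral_soft' (h0 : G (Set.Iio 0) = 0) (hlam : 0 < lam)
    (hexp : Integrable (fun x => Real.exp (lam * x)) G) (S : Finset (ℤ × ℤ)) (hS : S.Nonempty)
    (z : ℤ × ℤ → ℤ × ℤ) (L : ℕ) (hz : ∀ x ∈ S, n1 (z x - x) ≤ L) :
    ∃ A : ℝ, Integrable (soft lam A S z) (iidLaw G) ∧
    ∫ t, soft lam A S z t ∂(iidLaw G)
      ≤ (Real.log S.card + L * Real.log (∫ x, Real.exp (lam * x) ∂G) + 1) / lam := by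
  set M := ∫ x, Real.exp (lam * x) ∂G with hM
  have hM1 : 1 ≤ M := one_le_M h0 hlam hexp
  have hc : (0 : ℝ) < S.card := by exact_mod_cast hS.card_pos
  refine ⟨(Real.log S.card + L * Real.log M) / lam, ?_⟩
  obtain ⟨h1, h2⟩ := integral_soft h0 hlam hexp ((Real.log S.card + L * Real.log M) / lam) S z L hz
  refine ⟨h1, h2.trans (le_of_eq ?_)⟩
  have h3 : Real.exp (-(lam * ((Real.log S.card + L * Real.log M) / lam)))
      = (S.card * M ^ L)⁻¹ := by
    rw [mul_div_cancel₀ _ hlam.ne', Real.exp_neg, Real.exp_add, Real.exp_log hc, mul_comm (L : ℝ),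
      Real.exp_mul, Real.exp_log (by linarith), Real.rpow_natCast]
  rw [h3, ← hM, mul_inv_cancel₀ (by positivity)]
  field_simp

/-! ### The grid -/

/-- The grid point of index `j`. -/
noncomputable def gp (K n : ℕ) (j : ℤ × ℤ) : ℤ × ℤ :=
  fl ((j.1 : ℝ) / K, (j.2 : ℝ) / K) n

/-- The index of the grid cell of `x`. -/
def gi (K n : ℕ) (x : ℤ × ℤ) : ℤ × ℤ := (x.1 * K / n, x.2 * K / n)

lemma gi_mem {K n : ℕ} (hn : 0 < n) {x : ℤ × ℤ} (hx : x ∈ box n) : gi K n x ∈ box K := by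
  rw [mem_box] at hx ⊢
  have hn' : (0 : ℤ) < n := by exact_mod_cast hn
  have hK : (0 : ℤ) ≤ K := by positivity
  have key : ∀ a : ℤ, -(n : ℤ) ≤ a → a ≤ n → -(K : ℤ) ≤ a * K / n ∧ a * K / n ≤ K := by
    intro a h1 h2
    constructor
    · rw [Int.le_ediv_iff_mul_le hn']
      nlinarith
    · have : a * K / n ≤ (n * K) / n := Int.ediv_le_ediv hn' (by nlinarith)
      rwa [Int.mul_ediv_cancel_left _ hn'.ne'] at this
  exact ⟨key _ hx.1.1 hx.1.2, key _ hx.2.1 hx.2.2⟩

lemma gp_gi_close {K n : ℕ} (hK : 0 < K) (hn : 0 < n) (x : ℤ × ℤ) :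
    n1 (gp K n (gi K n x) - x) ≤ 2 * (n / K + 1) := by
  have hn' : (0 : ℤ) < n := by exact_mod_cast hn
  have hnR : (0 : ℝ) < n := by exact_mod_cast hn
  have hKR : (0 : ℝ) < K := by exact_mod_cast hK
  have key : ∀ a : ℤ, (⌊(n : ℝ) * (((a * K / n : ℤ) : ℝ) / K)⌋ - a).natAbs ≤ n / K + 1 := by
    intro a
    set q : ℤ := a * K / n with hq
    have h1 : q * n ≤ a * K := Int.ediv_mul_le _ hn'.ne'
    have h2 : a * K < (q + 1) * n := Int.lt_ediv_add_one_mul_self _ hn'
    have h1' : (q : ℝ) * n ≤ a * K := by exact_mod_cast h1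
    have h2' : (a : ℝ) * K < (q + 1) * n := by exact_mod_cast h2
    have h3 : (n : ℝ) * ((q : ℝ) / K) ≤ a := by
      rw [mul_div_assoc', div_le_iff₀ hKR]; linarith
    have h4 : (a : ℝ) < (n : ℝ) * ((q : ℝ) / K) + n / K := by
      rw [mul_div_assoc', ← add_div, lt_div_iff₀ hKR]; linarith
    have h5 : ⌊(n : ℝ) * ((q : ℝ) / K)⌋ ≤ a := by
      have := (Int.floor_le ((n : ℝ) * ((q : ℝ) / K))).trans h3
      exact_mod_cast this
    have h6 : (a : ℝ) - ⌊(n : ℝ) * ((q : ℝ) / K)⌋ < n / K + 1 := by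
      have := Int.lt_floor_add_one ((n : ℝ) * ((q : ℝ) / K))
      linarith
    obtain ⟨m, hm⟩ : ∃ m, m = n / K := ⟨_, rfl⟩
    have h7 : ((n : ℝ) / K) < (m : ℝ) + 1 := by
      rw [div_lt_iff₀ hKR, hm]
      have : n < (n / K + 1) * K := by
        have := Nat.lt_div_mul_add (a := n) hK
        linarith [add_mul (n / K) 1 K]
      exact_mod_cast this
    obtain ⟨f, hf⟩ : ∃ f : ℤ, f = ⌊(n : ℝ) * ((q : ℝ) / K)⌋ := ⟨_, rfl⟩
    rw [← hf] at h5 h6 ⊢
    have h8 : (a : ℝ) - f < (m : ℝ) + 2 := by linarith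
    have h9 : a - f < m + 2 := by exact_mod_cast h8
    rw [← hm]
    omega
  have h1 := key x.1
  have h2 := key x.2
  simp only [n1, gp, gi, fl, Prod.fst_sub, Prod.snd_sub]
  omega

end Crest.Agent.R151.K
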