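import Mathlib
import Crest.Agent.R88.Birkhoff

/-!
# R151/K9k — Kingman's subadditive ergodic theorem, ergodic nonnegative case (owner helper507)
-/

set_option autoImplicit false
set_option linter.unusedSectionVars false

open MeasureTheory Filter

namespace Crest.Agent.R151.K

variable {Ω : Type*} [MeasurableSpace Ω] {P : Measure Ω} [IsProbabilityMeasure P] {τ : Ω → Ω}
  {A : Set Ω} {g : ℕ → Ω → ℝ}

/-- A nonnegative subadditive process (satisfying the triangle inequality) over an ergodic map. -/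
structure Subadd (P : Measure Ω) (τ : Ω → Ω) (A : Set Ω) (g : ℕ → Ω → ℝ) : Prop where
  erg : ∀ k, 0 < k → Ergodic (τ^[k]) P
  ae : ∀ᵐ ω ∂P, ω ∈ A
  inv : ∀ ω ∈ A, τ ω ∈ A
  meas : ∀ n, Measurable (g n)
  int : Integrable (g 1) P
  zero : ∀ ω ∈ A, g 0 ω = 0
  nonneg : ∀ ω ∈ A, ∀ n, 0 ≤ g n ω
  sub : ∀ ω ∈ A, ∀ m n, g (m + n) ω ≤ g m ω + g n (τ^[m] ω)
  rev : ∀ ω ∈ A, ∀ n, g n (τ ω) ≤ g 1 ω + g (n + 1) ω

namespace Subadd

variable (h : Subadd P τ A g)
include h

lemma mp (k : ℕ) : MeasurePreserving (τ^[k]) P P := by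
  rcases Nat.eq_zero_or_pos k with rfl | hk
  · simpa using MeasurePreserving.id P
  · exact (h.erg k hk).toMeasurePreserving

lemma iterate_mem {ω : Ω} (hω : ω ∈ A) (k : ℕ) : τ^[k] ω ∈ A := by
  induction k with
  | zero => exact hω
  | succ k ih => rw [Function.iterate_succ_apply']; exact h.inv _ ih

lemma le_sum {ω : Ω} (hω : ω ∈ A) (n : ℕ) :
    g n ω ≤ ∑ i ∈ Finset.range n, g 1 (τ^[i] ω) := by
  induction n with
  | zero => simp [h.zero ω hω]
  | succ n ih =>
    rw [Finset.sum_range_succ]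
    exact (h.sub ω hω n 1).trans (add_le_add ih le_rfl)

lemma integrable_comp {f : Ω → ℝ} (hf : Integrable f P) (k : ℕ) :
    Integrable (fun ω => f (τ^[k] ω)) P :=
  (h.mp k).integrable_comp_of_integrable hf

lemma integral_comp {f : Ω → ℝ} (hf : AEStronglyMeasurable f P) (k : ℕ) :
    ∫ ω, f (τ^[k] ω) ∂P = ∫ ω, f ω ∂P := by
  have h1 := h.mp k
  conv_rhs => rw [← h1.map_eq]
  rw [integral_map h1.measurable.aemeasurable (by rw [h1.map_eq]; exact hf)]

lemma integrable (n : ℕ) : Integrable (g n) P := by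
  have hs : Integrable (fun ω => ∑ i ∈ Finset.range n, g 1 (τ^[i] ω)) P :=
    integrable_finsetSum _ fun i _ => h.integrable_comp h.int i
  refine hs.mono' (h.meas n).aestronglyMeasurable ?_
  filter_upwards [h.ae] with ω hω
  rw [Real.norm_eq_abs, abs_of_nonneg (h.nonneg ω hω n)]
  exact h.le_sum hω n

lemma subadditive : Subadditive fun n => ∫ ω, g n ω ∂P := by
  intro m n
  change ∫ ω, g (m + n) ω ∂P ≤ ∫ ω, g m ω ∂P + ∫ ω, g n ω ∂P
  have e : ∫ ω, g n ω ∂P = ∫ ω, g n (τ^[m] ω) ∂P := (h.integral_comp (h.integrable n).1 m).symm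
  rw [e, ← integral_add (h.integrable m) (h.integrable_comp (h.integrable n) m)]
  refine integral_mono_ae (h.integrable _)
    ((h.integrable m).add (h.integrable_comp (h.integrable n) m)) ?_
  filter_upwards [h.ae] with ω hω using h.sub ω hω m n

lemma mean_nonneg (n : ℕ) : 0 ≤ ∫ ω, g n ω ∂P :=
  integral_nonneg_of_ae (by filter_upwards [h.ae] with ω hω using h.nonneg ω hω n)

lemma bddBelow : BddBelow (Set.range fun n : ℕ => (∫ ω, g n ω ∂P) / n) :=
  ⟨0, by rintro _ ⟨n, rfl⟩; exact div_nonneg (h.mean_nonneg n) (Nat.cast_nonneg n)⟩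

lemma tendsto_mean : Tendsto (fun n : ℕ => (∫ ω, g n ω ∂P) / n) atTop
    (nhds h.subadditive.lim) := h.subadditive.tendsto_lim h.bddBelow

lemma lim_le (n : ℕ) (hn : n ≠ 0) : h.subadditive.lim ≤ (∫ ω, g n ω ∂P) / n :=
  h.subadditive.lim_le_div h.bddBelow hn

lemma birk {f : Ω → ℝ} (hf : Measurable f) (hfi : Integrable f P) {k : ℕ} (hk : 0 < k) :
    ∀ᵐ ω ∂P, Tendsto (fun N : ℕ => (∑ i ∈ Finset.range N, f (τ^[k * i] ω)) / N) atTop
      (nhds (∫ ω, f ω ∂P)) := by
  filter_upwards [R88.birkhoff_real (h.erg k hk) hf hfi] with ω hω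
  refine hω.congr fun N => ?_
  rw [birkhoffSum, inv_mul_eq_div]
  simp only [Function.iterate_mul]

/-- the increments are negligible -/
lemma incr : ∀ᵐ ω ∂P, Tendsto (fun N : ℕ => g 1 (τ^[N] ω) / N) atTop (nhds 0) := by
  filter_upwards [h.birk (h.meas 1) h.int one_pos] with ω hω
  simp only [one_mul] at hω
  have h1 := hω.comp (tendsto_add_atTop_nat 1)
  have h2 : Tendsto (fun N : ℕ => ((N + 1 : ℕ) : ℝ) / N) atTop (nhds 1) := by
    have : Tendsto (fun N : ℕ => 1 + 1 / (N : ℝ)) atTop (nhds (1 + 0)) :=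
      tendsto_const_nhds.add tendsto_one_div_atTop_nhds_zero_nat
    rw [add_zero] at this
    refine this.congr' ?_
    filter_upwards [eventually_gt_atTop 0] with N hN
    have : (0 : ℝ) < N := by exact_mod_cast hN
    push_cast
    field_simp
  have h3 := (h1.mul h2).sub hω
  rw [mul_one, sub_self] at h3
  refine h3.congr' ?_
  filter_upwards [eventually_gt_atTop 0] with N hN
  have hN' : (0 : ℝ) < N := by exact_mod_cast hN
  have hN1 : (0 : ℝ) < ((N + 1 : ℕ) : ℝ) := by positivity
  simp only [Function.comp_apply, Finset.sum_range_succ]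
  field_simp
  ring

/-- upper bound along blocks of length `k` -/
lemma le_blocks {ω : Ω} (hω : ω ∈ A) (k q : ℕ) :
    g (k * q) ω ≤ ∑ i ∈ Finset.range q, g k (τ^[k * i] ω) := by
  induction q with
  | zero => simp [h.zero ω hω]
  | succ q ih =>
    rw [Finset.sum_range_succ, Nat.mul_succ]
    exact (h.sub ω hω (k * q) k).trans (add_le_add ih le_rfl)

/-- a.s. upper bound -/
lemma upper (k : ℕ) (hk : 0 < k) {ε : ℝ} (hε : 0 < ε) : ∀ᵐ ω ∂P, ∀ᶠ n : ℕ in atTop,
    g n ω / n ≤ (∫ ω, g k ω ∂P) / k + ε := by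
  filter_upwards [h.birk (h.meas k) (h.integrable k) hk, h.incr, h.ae] with ω h1 h2 hω
  have hkR : (0 : ℝ) < k := by exact_mod_cast hk
  -- the block sums
  have hdiv : Tendsto (fun n : ℕ => n / k) atTop atTop :=
    Nat.tendsto_div_const_atTop hk.ne'
  have e1 : ∀ᶠ n : ℕ in atTop, (∑ i ∈ Finset.range (n / k), g k (τ^[k * i] ω)) ≤
      (∫ ω, g k ω ∂P + ε * k / 2) * ((n / k : ℕ) : ℝ) := by
    have h3 := (h1.comp hdiv).eventually_le_const
      (show ∫ ω, g k ω ∂P < ∫ ω, g k ω ∂P + ε * k / 2 by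
        have : 0 < ε * k / 2 := by positivity
        linarith)
    filter_upwards [h3, hdiv.eventually_gt_atTop 0] with n hn hn0
    simp only [Function.comp_apply] at hn
    rwa [div_le_iff₀ (by exact_mod_cast hn0)] at hn
  have e2 : ∀ᶠ m : ℕ in atTop, g 1 (τ^[m] ω) ≤ ε / (2 * k) * m := by
    have h3 := h2.eventually_le_const (show (0 : ℝ) < ε / (2 * k) by positivity)
    filter_upwards [h3, eventually_gt_atTop 0] with m hm hm0
    rwa [div_le_iff₀ (by exact_mod_cast hm0)] at hm
  rw [eventually_atTop] at e2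
  obtain ⟨m0, hm0⟩ := e2
  filter_upwards [e1, eventually_ge_atTop (m0 + k), eventually_gt_atTop 0] with n hn1 hn2 hn3
  have hnR : (0 : ℝ) < n := by exact_mod_cast hn3
  obtain ⟨q, hq⟩ : ∃ q, q = n / k := ⟨_, rfl⟩
  obtain ⟨r, hr⟩ : ∃ r, r = n % k := ⟨_, rfl⟩
  have hdm : n = k * q + r := by rw [hq, hr]; exact (Nat.div_add_mod n k).symm
  have hrk : r < k := by rw [hr]; exact Nat.mod_lt _ hk
  rw [← hq] at hn1
  have h3 : g n ω ≤ g (k * q) ω + g r (τ^[k * q] ω) := by
    conv_lhs => rw [hdm]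
    exact h.sub ω hω (k * q) r
  have h4 : g r (τ^[k * q] ω) ≤ ∑ i ∈ Finset.range r, g 1 (τ^[i] (τ^[k * q] ω)) :=
    h.le_sum (h.iterate_mem hω _) r
  have h5 : ∑ i ∈ Finset.range r, g 1 (τ^[i] (τ^[k * q] ω)) ≤
      ∑ _i ∈ Finset.range r, ε / (2 * k) * (n : ℝ) := by
    refine Finset.sum_le_sum fun i hi => ?_
    rw [Finset.mem_range] at hi
    rw [← Function.iterate_add_apply]
    have h6 := hm0 (i + k * q) (by omega)
    refine h6.trans ?_
    have : ((i + k * q : ℕ) : ℝ) ≤ n := by exact_mod_cast (by omega : i + k * q ≤ n)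
    gcongr
  rw [Finset.sum_const, Finset.card_range, nsmul_eq_mul] at h5
  have h6 : (r : ℝ) * (ε / (2 * k) * n) ≤ ε / 2 * n := by
    have h7 : (r : ℝ) ≤ k := by exact_mod_cast hrk.le
    calc (r : ℝ) * (ε / (2 * k) * n) ≤ k * (ε / (2 * k) * n) := by gcongr
      _ = ε / 2 * n := by field_simp
  have h7 := h.le_blocks hω k q
  have h8 : (∫ ω, g k ω ∂P + ε * k / 2) * (q : ℝ) ≤ (∫ ω, g k ω ∂P + ε * k / 2) * (n / k) := by
    have h9 : (q : ℝ) ≤ n / k := by
      rw [le_div_iff₀ hkR]
      exact_mod_cast (by rw [mul_comm]; omega : q * k ≤ n)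
    have h10 := h.mean_nonneg k
    gcongr
  rw [div_le_iff₀ hnR]
  have h9 : (∫ ω, g k ω ∂P + ε * k / 2) * ((n : ℝ) / k) =
      (∫ ω, g k ω ∂P) / k * n + ε / 2 * n := by field_simp
  have h10 : ((∫ ω, g k ω ∂P) / k + ε) * n = (∫ ω, g k ω ∂P) / k * n + ε / 2 * n + ε / 2 * n := by
    ring
  rw [h10]
  linarith

/-- the set where no block of length `≤ N` is cheap -/
def bad (g : ℕ → Ω → ℝ) (r : ℝ) (N : ℕ) : Set Ω := {ω | ∀ l, 1 ≤ l → l ≤ N → r * l < g l ω}

lemma measurableSet_bad (r : ℝ) (N : ℕ) : MeasurableSet (bad g r N) := by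
  have : bad g r N = ⋂ l : ℕ, ⋂ _ : 1 ≤ l, ⋂ _ : l ≤ N, {ω | r * l < g l ω} := by
    ext ω; simp [bad]
  rw [this]
  exact MeasurableSet.iInter fun l => MeasurableSet.iInter fun _ => MeasurableSet.iInter fun _ =>
    measurableSet_lt measurable_const (h.meas l)

/-- **the block decomposition** -/
lemma block {r : ℝ} (hr : 0 ≤ r) (N n : ℕ) : ∀ ω ∈ A, g n ω ≤ r * n +
    (∑ i ∈ Finset.range n, (bad g r N).indicator (g 1) (τ^[i] ω)) +
    ∑ i ∈ (Finset.range n).filter (fun i => n < i + N + 1), g 1 (τ^[i] ω) := by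
  induction n using Nat.strong_induction_on with
  | _ n ih =>
    intro ω hω
    have hind : ∀ ω' ∈ A, 0 ≤ (bad g r N).indicator (g 1) ω' := fun ω' hω' =>
      Set.indicator_apply_nonneg fun _ => h.nonneg ω' hω' 1
    rcases Nat.eq_zero_or_pos n with rfl | hn
    · simp [h.zero ω hω]
    · -- general shift of the right-hand side
      have shift : ∀ l, 1 ≤ l → l ≤ n →
          (∑ i ∈ Finset.range (n - l), (bad g r N).indicator (g 1) (τ^[i] (τ^[l] ω))) +
          (∑ i ∈ (Finset.range (n - l)).filter (fun i => n - l < i + N + 1),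
            g 1 (τ^[i] (τ^[l] ω))) + (∑ i ∈ Finset.range l,
              (bad g r N).indicator (g 1) (τ^[i] ω)) ≤
          (∑ i ∈ Finset.range n, (bad g r N).indicator (g 1) (τ^[i] ω)) +
          ∑ i ∈ (Finset.range n).filter (fun i => n < i + N + 1), g 1 (τ^[i] ω) := by
        intro l hl1 hl2
        have e1 : (∑ i ∈ Finset.range n, (bad g r N).indicator (g 1) (τ^[i] ω)) =
            (∑ i ∈ Finset.range l, (bad g r N).indicator (g 1) (τ^[i] ω)) +
            ∑ i ∈ Finset.range (n - l), (bad g r N).indicator (g 1) (τ^[i] (τ^[l] ω)) := by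
          conv_lhs => rw [show n = l + (n - l) by omega, Finset.sum_range_add]
          congr 1
          refine Finset.sum_congr rfl fun i _ => ?_
          rw [← Function.iterate_add_apply, add_comm l i]
        have e2 : (∑ i ∈ (Finset.range (n - l)).filter (fun i => n - l < i + N + 1),
            g 1 (τ^[i] (τ^[l] ω))) ≤
            ∑ i ∈ (Finset.range n).filter (fun i => n < i + N + 1), g 1 (τ^[i] ω) := by
          have e3 : (∑ i ∈ (Finset.range (n - l)).filter (fun i => n - l < i + N + 1),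
            g 1 (τ^[i] (τ^[l] ω))) = ∑ i ∈ ((Finset.range (n - l)).filter
              (fun i => n - l < i + N + 1)).map (addRightEmbedding l), g 1 (τ^[i] ω) := by
            rw [Finset.sum_map]
            refine Finset.sum_congr rfl fun i _ => ?_
            rw [addRightEmbedding_apply, ← Function.iterate_add_apply]
          rw [e3]
          refine Finset.sum_le_sum_of_subset_of_nonneg ?_ fun i _ _ =>
            h.nonneg _ (h.iterate_mem hω _) 1
          intro i hi
          simp only [Finset.mem_map, Finset.mem_filter, Finset.mem_range,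
            addRightEmbedding_apply] at hi ⊢
          omega
        linarith
      by_cases hb : ω ∈ bad g r N
      · have h1 := h.sub ω hω 1 (n - 1)
        rw [show 1 + (n - 1) = n by omega] at h1
        have h2 := ih (n - 1) (by omega) (τ^[1] ω) (h.iterate_mem hω 1)
        have h3 := shift 1 le_rfl hn
        have h4 : (bad g r N).indicator (g 1) ω = g 1 ω := Set.indicator_of_mem hb _
        rw [Finset.sum_range_one, Function.iterate_zero_apply, h4] at h3
        have h5 : r * ((n - 1 : ℕ) : ℝ) ≤ r * n := by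
          have : ((n - 1 : ℕ) : ℝ) ≤ n := by exact_mod_cast Nat.sub_le n 1
          gcongr
        linarith
      · simp only [bad, Set.mem_ofPred_eq, not_forall, not_lt] at hb
        obtain ⟨l, hl1, hl2, hl3⟩ := hb
        rcases le_or_gt l n with hln | hln
        · have h1 := h.sub ω hω l (n - l)
          rw [show l + (n - l) = n by omega] at h1
          have h2 := ih (n - l) (by omega) (τ^[l] ω) (h.iterate_mem hω l)
          have h3 := shift l hl1 hln
          have h4 : 0 ≤ ∑ i ∈ Finset.range l, (bad g r N).indicator (g 1) (τ^[i] ω) :=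
            Finset.sum_nonneg fun i _ => hind _ (h.iterate_mem hω i)
          have h5 : r * l + r * ((n - l : ℕ) : ℝ) = r * n := by
            rw [← mul_add]
            congr 1
            exact_mod_cast (by omega : l + (n - l) = n)
          linarith
        · have h1 := h.le_sum hω n
          have h2 : (Finset.range n).filter (fun i => n < i + N + 1) = Finset.range n := by
            apply Finset.filter_true_of_mem
            intro i _
            omega
          rw [h2]
          have h4 : 0 ≤ ∑ i ∈ Finset.range n, (bad g r N).indicator (g 1) (τ^[i] ω) :=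
            Finset.sum_nonneg fun i _ => hind _ (h.iterate_mem hω i)
          have h5 : 0 ≤ r * n := by positivity
          linarith

/-- If cheap blocks occur a.s., the time constant is small. -/
lemma lim_le_of_ae {r : ℝ} (hr : 0 ≤ r) (hae : ∀ᵐ ω ∂P, ∃ l, 1 ≤ l ∧ g l ω ≤ r * l) :
    h.subadditive.lim ≤ r := by
  -- the bad part of the increments
  have hB : Tendsto (fun N : ℕ => ∫ ω, (bad g r N).indicator (g 1) ω ∂P) atTop
      (nhds (∫ _, (0 : ℝ) ∂P)) := by
    refine tendsto_integral_of_dominated_convergence (fun ω => |g 1 ω|) ?_ h.int.abs ?_ ?_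
    · intro N
      exact ((h.meas 1).indicator (h.measurableSet_bad r N)).aestronglyMeasurable
    · intro N
      filter_upwards with ω
      rw [Real.norm_eq_abs]
      by_cases hω : ω ∈ bad g r N
      · rw [Set.indicator_of_mem hω]
      · rw [Set.indicator_of_notMem hω, abs_zero]; exact abs_nonneg _
    · filter_upwards [hae] with ω hω
      obtain ⟨l, hl1, hl2⟩ := hω
      refine tendsto_const_nhds.congr' ?_
      filter_upwards [eventually_ge_atTop l] with N hN
      rw [Set.indicator_of_notMem]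
      intro hb
      have := hb l hl1 hN
      linarith
  rw [integral_zero] at hB
  refine le_of_forall_pos_le_add fun ε hε => ?_
  obtain ⟨N, hN⟩ := (hB.eventually_le_const hε).exists
  -- the mean of the block decomposition
  have hmean : ∀ n : ℕ, ∫ ω, g n ω ∂P ≤ r * n + n * ε + N * ∫ ω, g 1 ω ∂P := by
    intro n
    have hint1 : Integrable ((bad g r N).indicator (g 1)) P :=
      h.int.indicator (h.measurableSet_bad r N)
    have i1 : Integrable (fun ω => ∑ i ∈ Finset.range n,
        (bad g r N).indicator (g 1) (τ^[i] ω)) P :=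
      integrable_finsetSum _ fun i _ => h.integrable_comp hint1 i
    have i2 : Integrable (fun ω => ∑ i ∈ (Finset.range n).filter (fun i => n < i + N + 1),
        g 1 (τ^[i] ω)) P := integrable_finsetSum _ fun i _ => h.integrable_comp h.int i
    have h1 := integral_mono_ae (h.integrable n)
      (((integrable_const (r * n)).add i1).add i2) (by
        filter_upwards [h.ae] with ω hω using h.block hr N n ω hω)
    refine h1.trans ?_
    rw [integral_add' ((integrable_const (r * n)).add i1) i2,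
      integral_add' (integrable_const (r * n)) i1,
      integral_finsetSum _ fun i _ => h.integrable_comp hint1 i,
      integral_finsetSum _ fun i _ => h.integrable_comp h.int i]
    simp only [h.integral_comp hint1.1, h.integral_comp h.int.1, Finset.sum_const,
      Finset.card_range, nsmul_eq_mul, integral_const, probReal_univ, smul_eq_mul, one_mul]
    have h2 : ((Finset.range n).filter (fun i => n < i + N + 1)).card ≤ N := by
      calc ((Finset.range n).filter (fun i => n < i + N + 1)).card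
          ≤ (Finset.Ico (n - N) n).card := by
            apply Finset.card_le_card
            intro i hi
            simp only [Finset.mem_filter, Finset.mem_range, Finset.mem_Ico] at hi ⊢
            omega
        _ ≤ N := by rw [Nat.card_Ico]; omega
    have h3 : (((Finset.range n).filter (fun i => n < i + N + 1)).card : ℝ) ≤ N := by
      exact_mod_cast h2
    have h4 := h.mean_nonneg 1
    have h5 : (n : ℝ) * ∫ ω, (bad g r N).indicator (g 1) ω ∂P ≤ n * ε := by gcongr
    have h6 := mul_le_mul_of_nonneg_right h3 h4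
    linarith
  have h1 := h.tendsto_mean
  have h2 : Tendsto (fun n : ℕ => r + ε + (N * ∫ ω, g 1 ω ∂P) / (n : ℝ)) atTop
      (nhds (r + ε + 0)) :=
    tendsto_const_nhds.add (tendsto_const_div_atTop_nhds_zero_nat _)
  rw [add_zero] at h2
  refine le_of_tendsto_of_tendsto h1 h2 ?_
  filter_upwards [eventually_gt_atTop 0] with n hn
  have hnR : (0 : ℝ) < n := by exact_mod_cast hn
  rw [div_le_iff₀ hnR]
  refine (hmean n).trans (le_of_eq ?_)
  field_simp

/-- the set where the lower limit is at most `r` -/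
def low (g : ℕ → Ω → ℝ) (r : ℝ) : Set Ω :=
  {ω | ∀ q : ℕ, ∃ᶠ n : ℕ in atTop, g n ω ≤ (r + 1 / (q + 1)) * n}

lemma measurableSet_low (r : ℝ) : MeasurableSet (low g r) := by
  have : low g r = ⋂ q : ℕ, ⋂ m : ℕ, ⋃ n : ℕ, ⋃ _ : m ≤ n,
      {ω | g n ω ≤ (r + 1 / ((q : ℝ) + 1)) * n} := by
    ext ω
    simp [low, frequently_atTop]
  rw [this]
  exact MeasurableSet.iInter fun q => MeasurableSet.iInter fun m => MeasurableSet.iUnion fun n =>
    MeasurableSet.iUnion fun _ => measurableSet_le (h.meas n) measurable_const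

lemma low_inv {r : ℝ} (hr : 0 ≤ r) {ω : Ω} (hω : ω ∈ A) : τ ω ∈ low g r ↔ ω ∈ low g r := by
  have key : ∀ (C : ℝ) (q : ℕ), ∀ᶠ n : ℕ in atTop, C ≤ (1 / ((q : ℝ) + 1)) * n := by
    intro C q
    have : Tendsto (fun n : ℕ => (1 / ((q : ℝ) + 1)) * (n : ℝ)) atTop atTop :=
      tendsto_natCast_atTop_atTop.const_mul_atTop (by positivity)
    exact this.eventually_ge_atTop C
  constructor
  · intro h1 q
    -- `g (n+1) ω ≤ g 1 ω + g n (τ ω)`
    have h2 := (h1 (2 * q + 1)).and_eventually (key (g 1 ω) (2 * q + 1))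
    have h3 : ∃ᶠ n : ℕ in atTop, g (n + 1) ω ≤ (r + 1 / ((q : ℝ) + 1)) * ((n + 1 : ℕ) : ℝ) := by
      refine h2.mono fun n hn => ?_
      obtain ⟨hn1, hn2⟩ := hn
      have h4 := h.sub ω hω 1 n
      rw [add_comm 1 n, Function.iterate_one] at h4
      push_cast at hn1 hn2 ⊢
      have e : (1 : ℝ) / (2 * q + 1 + 1) = 1 / ((q : ℝ) + 1) / 2 := by field_simp; ring
      rw [e] at hn1 hn2
      have h5 : 0 ≤ 1 / ((q : ℝ) + 1) := by positivity
      nlinarith [(Nat.cast_nonneg n : (0 : ℝ) ≤ n)]
    exact (tendsto_add_atTop_nat 1).frequently h3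
  · intro h1 q
    have h2 := (h1 (2 * q + 1)).and_eventually ((key (g 1 ω + r + 1) (2 * q + 1)).and
      (eventually_ge_atTop 1))
    rw [frequently_atTop] at h2 ⊢
    intro m
    obtain ⟨n, hn, hn1, hn2, hn3⟩ := h2 (m + 1)
    refine ⟨n - 1, by omega, ?_⟩
    have h4 := h.rev ω hω (n - 1)
    rw [Nat.sub_add_cancel hn3] at h4
    rw [Nat.cast_sub hn3]
    push_cast at hn1 hn2 ⊢
    have e : (1 : ℝ) / (2 * q + 1 + 1) = 1 / ((q : ℝ) + 1) / 2 := by field_simp; ring
    rw [e] at hn1 hn2
    have h5 : 0 ≤ 1 / ((q : ℝ) + 1) := by positivity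
    have h6 : 1 / ((q : ℝ) + 1) ≤ 1 := by
      rw [div_le_one (by positivity)]
      linarith [(Nat.cast_nonneg q : (0 : ℝ) ≤ q)]
    nlinarith [(Nat.cast_nonneg n : (0 : ℝ) ≤ n)]

/-- a.s. lower bound -/
lemma lower {r : ℝ} (hr : 0 ≤ r) (hlt : r < h.subadditive.lim) :
    ∀ᵐ ω ∂P, ∀ᶠ n : ℕ in atTop, r * n < g n ω := by
  -- the zero-one law
  have hA : ∀ᵐ ω ∂P, ω ∈ low g r → False := by
    have hpre : τ ⁻¹' (low g r) =ᵐ[P] low g r := by
      filter_upwards [h.ae] with ω hω
      exact propext (h.low_inv hr hω)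
    have herg : Ergodic τ P := by simpa using h.erg 1 one_pos
    rcases herg.quasiErgodic.ae_mem_or_ae_notMem₀ (h.measurableSet_low r).nullMeasurableSet hpre
      with h1 | h1
    · exfalso
      -- choose `q` with `r + 1/(q+1) < lim`
      obtain ⟨q, hq⟩ : ∃ q : ℕ, r + 1 / ((q : ℝ) + 1) < h.subadditive.lim := by
        obtain ⟨q, hq⟩ := exists_nat_one_div_lt (sub_pos.2 hlt)
        exact ⟨q, by linarith⟩
      have h2 : h.subadditive.lim ≤ r + 1 / ((q : ℝ) + 1) := by
        refine h.lim_le_of_ae (by positivity) ?_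
        filter_upwards [h1] with ω hω
        obtain ⟨n, hn1, hn2⟩ := frequently_atTop.1 (hω q) 1
        exact ⟨n, hn1, hn2⟩
      linarith
    · filter_upwards [h1] with ω hω hω' using hω hω'
  filter_upwards [hA] with ω hω
  by_contra hcon
  apply hω
  intro q
  rw [Filter.not_eventually] at hcon
  refine hcon.mono fun n hn => ?_
  rw [not_lt] at hn
  refine hn.trans ?_
  have : (0 : ℝ) ≤ 1 / ((q : ℝ) + 1) := by positivity
  gcongr
  linarith

/-- **Kingman's theorem.** -/
theorem kingman : ∀ᵐ ω ∂P, Tendsto (fun n : ℕ => g n ω / n) atTop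
    (nhds h.subadditive.lim) := by
  have hlim0 : 0 ≤ h.subadditive.lim := by
    refine ge_of_tendsto h.tendsto_mean ?_
    filter_upwards with n
    exact div_nonneg (h.mean_nonneg n) (Nat.cast_nonneg n)
  have hup : ∀ᵐ ω ∂P, ∀ k : ℕ, 0 < k → ∀ q : ℕ, ∀ᶠ n : ℕ in atTop,
      g n ω / n ≤ (∫ ω, g k ω ∂P) / k + 1 / (q + 1) := by
    rw [ae_all_iff]; intro k
    rcases Nat.eq_zero_or_pos k with rfl | hk
    · filter_upwards with ω h0; exact absurd h0 (lt_irrefl 0)
    · have : ∀ᵐ ω ∂P, ∀ q : ℕ, ∀ᶠ n : ℕ in atTop,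
          g n ω / n ≤ (∫ ω, g k ω ∂P) / k + 1 / (q + 1) := by
        rw [ae_all_iff]; intro q
        exact h.upper k hk (by positivity)
      filter_upwards [this] with ω hω _ using hω
  have hlow : ∀ᵐ ω ∂P, ∀ q : ℕ, ∀ᶠ n : ℕ in atTop,
      max 0 (h.subadditive.lim - 1 / (q + 1)) * n ≤ g n ω := by
    rw [ae_all_iff]; intro q
    rcases le_or_gt (h.subadditive.lim) (1 / (q + 1)) with hle | hgt
    · filter_upwards [h.ae] with ω hω
      rw [max_eq_left (by linarith)]
      filter_upwards with n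
      rw [zero_mul]
      exact h.nonneg ω hω n
    · have := h.lower (r := h.subadditive.lim - 1 / (q + 1)) (by linarith) (by
        have : (0 : ℝ) < 1 / ((q : ℝ) + 1) := by positivity
        linarith)
      filter_upwards [this] with ω hω
      rw [max_eq_right (by linarith)]
      filter_upwards [hω] with n hn using hn.le
  filter_upwards [hup, hlow] with ω h1 h2
  rw [Metric.tendsto_nhds]
  intro ε hε
  obtain ⟨q, hq⟩ := exists_nat_one_div_lt (show 0 < ε / 2 by positivity)
  obtain ⟨k, hk0, hk⟩ : ∃ k : ℕ, 0 < k ∧ (∫ ω, g k ω ∂P) / k < h.subadditive.lim + ε / 2 := by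
    have := (h.tendsto_mean.eventually_lt_const
      (show h.subadditive.lim < h.subadditive.lim + ε / 2 by linarith)).and
      (eventually_gt_atTop 0)
    obtain ⟨k, hk1, hk2⟩ := this.exists
    exact ⟨k, hk2, hk1⟩
  filter_upwards [h1 k hk0 q, h2 q, eventually_gt_atTop 0] with n hn1 hn2 hn3
  have hnR : (0 : ℝ) < n := by exact_mod_cast hn3
  rw [Real.dist_eq, abs_lt]
  constructor
  · have h3 : (h.subadditive.lim - 1 / (q + 1)) * n ≤ g n ω :=
      (mul_le_mul_of_nonneg_right (le_max_right _ _) hnR.le).trans hn2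
    rw [← le_div_iff₀ hnR] at h3
    linarith
  · linarith

end Subadd

end Crest.Agent.R151.K
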