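import Crest.Agent.R151.K7
import Crest.Agent.R151.K8
import Crest.Agent.R151.K9k
import Crest.Agent.R151.F2
import Crest.Agent.R151.M51C

/-!
# R151/K9a — the time constant under a second moment hypothesis on passage times (owner helper507)

`Mom G m`   : `E T(x,y)² ≤ (m |y-x|₁)²`.  Holds for the law of S0213 (`mom_of_law213`) and for laws
with a second moment (`mom_of_sq`).
`IsTC1 G μ` : `T(0, ⌊s v⌋)/s → μ v` in `L¹`, for every `v`.
`Mom.exists_tc` : existence.  Norm properties: `Mom.mu_*`.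
-/

set_option autoImplicit false
set_option linter.unusedSectionVars false

open MeasureTheory Filter ProbabilityTheory
open Crest.ProbabilityR.FirstPassage

namespace Crest.Agent.R151.K

/-- Second moments of the passage times grow at most quadratically. -/
structure Mom (G : Measure ℝ) (m : ℝ) : Prop where
  h0 : G (Set.Iio 0) = 0
  nonneg : 0 ≤ m
  sq_int : ∀ x y, Integrable (fun t => passageTime t x y ^ 2) (iidLaw G)
  sq_le : ∀ x y, ∫ t, passageTime t x y ^ 2 ∂(iidLaw G) ≤ (m * n1 (y - x)) ^ 2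

/-- `L¹` time constant. -/
def IsTC1 (G : Measure ℝ) (μ : ℝ × ℝ → ℝ) : Prop :=
  ∀ v : ℝ × ℝ, Tendsto (fun s : ℝ => ∫ t, |passageTime t 0 (fl v s) / s - μ v| ∂(iidLaw G)) atTop
    (nhds 0)

variable {G : Measure ℝ} [IsProbabilityMeasure G] {m : ℝ}

theorem mom_of_law213 (hG : M51.Law213 G) : ∃ m, Mom G m := by
  obtain ⟨C, hC, h⟩ := M51.exists_integral_sq_le hG
  refine ⟨Real.sqrt C, hG.h0, Real.sqrt_nonneg _, fun x y => ?_, fun x y => ?_⟩
  · exact (memLp_two_iff_integrable_sq (measurable_pt x y).aestronglyMeasurable).1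
      (M51.memLp_pt hG x y)
  · rw [mul_pow, Real.sq_sqrt hC]
    exact h x y

theorem mom_of_sq (h0 : G (Set.Iio 0) = 0) (h2 : Integrable (fun x : ℝ => x ^ 2) G) :
    ∃ m, Mom G m := by
  have hC : (0 : ℝ) ≤ ∫ z, z ^ 2 ∂G := integral_nonneg fun z => sq_nonneg z
  refine ⟨Real.sqrt (∫ z, z ^ 2 ∂G), h0, Real.sqrt_nonneg _, fun x y => (pt_sq h0 h2 x y).1,
    fun x y => ?_⟩
  rw [mul_pow, Real.sq_sqrt hC, mul_comm]
  exact (pt_sq h0 h2 x y).2

lemma isTC1_of_isTC {μ : ℝ × ℝ → ℝ} (h0 : G (Set.Iio 0) = 0)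
    (h2 : Integrable (fun x : ℝ => x ^ 2) G) (hμ : IsTC G μ) : IsTC1 G μ :=
  fun v => l1conv h0 h2 hμ v

lemma toR_nsmul (n : ℕ) (x : ℤ × ℤ) : toR (n • x) = (n : ℝ) • toR x := by
  have h1 : (n • x).1 = n * x.1 := by rw [Prod.smul_fst, nsmul_eq_mul]
  have h2 : (n • x).2 = n * x.2 := by rw [Prod.smul_snd, nsmul_eq_mul]
  simp only [toR, h1, h2, Prod.smul_mk, smul_eq_mul, Int.cast_mul, Int.cast_natCast]

lemma n1_nsmul (n : ℕ) (x : ℤ × ℤ) : n1 (n • x) = n * n1 x := by
  have h1 : (n • x).1 = n * x.1 := by rw [Prod.smul_fst, nsmul_eq_mul]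
  have h2 : (n • x).2 = n * x.2 := by rw [Prod.smul_snd, nsmul_eq_mul]
  simp only [n1, h1, h2, Int.natAbs_mul, Int.natAbs_natCast]
  ring

namespace Mom

section moments

variable (hM : Mom G m)
include hM

lemma memLp (x y : ℤ × ℤ) : MemLp (fun t => passageTime t x y) 2 (iidLaw G) :=
  (memLp_two_iff_integrable_sq (measurable_pt x y).aestronglyMeasurable).2 (hM.sq_int x y)

lemma int (x y : ℤ × ℤ) : Integrable (fun t => passageTime t x y) (iidLaw G) :=
  (hM.memLp x y).integrable (by norm_num)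

lemma pt_le (x y : ℤ × ℤ) : ∫ t, passageTime t x y ∂(iidLaw G) ≤ m * n1 (y - x) := by
  have h1 : (∫ t, passageTime t x y ∂(iidLaw G)) ^ 2 ≤
      ∫ t, passageTime t x y ^ 2 ∂(iidLaw G) := by
    have h := variance_nonneg (fun t : Environment => passageTime t x y) (iidLaw G)
    rw [variance_eq_sub (hM.memLp x y)] at h
    simp only [Pi.pow_apply] at h
    linarith
  have h2 := h1.trans (hM.sq_le x y)
  have h3 : 0 ≤ m * n1 (y - x) := mul_nonneg hM.nonneg (Nat.cast_nonneg _)
  exact le_of_sq_le_sq h2 h3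
where
  le_of_sq_le_sq {a b : ℝ} (h : a ^ 2 ≤ b ^ 2) (hb : 0 ≤ b) : a ≤ b :=
    (le_abs_self a).trans (abs_le_of_sq_le_sq h hb)

lemma ET_le (x : ℤ × ℤ) : ET G x ≤ m * n1 x := by
  have := hM.pt_le 0 x
  rwa [sub_zero] at this

lemma ET_add_le (x y : ℤ × ℤ) : ET G (x + y) ≤ ET G x + ET G y := by
  have h1 : ET G y = ∫ t, passageTime t x (x + y) ∂(iidLaw G) := by
    rw [integral_pt, add_sub_cancel_left]
  rw [h1, ET, ET, ← integral_add (hM.int _ _) (hM.int _ _)]
  refine integral_mono_ae (hM.int _ _) ((hM.int _ _).add (hM.int _ _)) ?_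
  filter_upwards [ae_Nn (G := G) hM.h0] with t ht using pt_triangle ht _ _ _

lemma ET_nsmul_le (x : ℤ × ℤ) (k : ℕ) : ET G (k • x) ≤ k * ET G x := by
  induction k with
  | zero => simp [ET_zero hM.h0]
  | succ k ih =>
    rw [succ_nsmul]
    refine (hM.ET_add_le _ _).trans ?_
    push_cast
    linarith

lemma abs_ET_sub_le (x y : ℤ × ℤ) : |ET G x - ET G y| ≤ m * n1 (x - y) := by
  have h1 := hM.ET_add_le (x - y) y
  have h3 := hM.ET_add_le (y - x) x
  rw [sub_add_cancel] at h1 h3
  have h4 := hM.ET_le (x - y)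
  have h5 := hM.ET_le (y - x)
  have h6 : n1 (y - x) = n1 (x - y) := by rw [← neg_sub, n1_neg]
  rw [h6] at h5
  rw [abs_le]
  constructor <;> linarith

/-- comparison of two points in `L¹` -/
lemma l1_diff_le (x y : ℤ × ℤ) :
    ∫ t, |passageTime t 0 x - passageTime t 0 y| ∂(iidLaw G) ≤ m * n1 (y - x) := by
  refine le_trans ?_ (hM.pt_le x y)
  refine integral_mono_ae ((hM.int _ _).sub (hM.int _ _)).abs (hM.int _ _) ?_
  filter_upwards [ae_Nn (G := G) hM.h0] with t ht
  have t1 := pt_triangle ht 0 x y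
  have t2 := pt_triangle ht 0 y x
  rw [pt_symm ht y x] at t2
  change |passageTime t 0 x - passageTime t 0 y| ≤ passageTime t x y
  rw [abs_le]; constructor <;> linarith

/-! ### Existence -/

lemma subadd {x : ℤ × ℤ} (hx : x ≠ 0) : Subadd (iidLaw G) (A.shift x) {t | Nn t}
    (fun n t => passageTime t 0 (n • x)) := by
  have hiter : ∀ (k : ℕ) (t : Environment), (A.shift x)^[k] t = A.shift (k • x) t := by
    intro k
    induction k with
    | zero => intro t; simp
    | succ k ih =>
      intro t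
      rw [Function.iterate_succ_apply', ih, A.shift_shift]
      congr 1
      rw [succ_nsmul']
  have hptshift : ∀ (z : ℤ × ℤ) (t : Environment) (a b : ℤ × ℤ),
      passageTime (A.shift z t) a b = passageTime t (a + z) (b + z) :=
    fun z t a b => pt_iso t (tr z) a b
  refine ⟨?_, ae_Nn hM.h0, ?_, ?_, ?_, ?_, ?_, ?_, ?_⟩
  · intro k hk
    have : (A.shift x)^[k] = A.shift (k • x) := funext (hiter k)
    rw [this]
    refine ergodic_shift ?_
    intro h0
    rcases smul_eq_zero.1 h0 with h | h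
    · omega
    · exact hx h
  · intro t ht e
    exact ht _
  · intro n
    exact measurable_pt 0 (n • x)
  · exact hM.int 0 (1 • x)
  · intro t ht
    rw [zero_nsmul]
    exact pt_self ht 0
  · intro t ht n
    exact pt_nonneg ht 0 (n • x)
  · intro t ht a b
    rw [hiter, hptshift, zero_add, ← add_nsmul, add_comm b a]
    exact pt_triangle ht 0 (a • x) ((a + b) • x)
  · intro t ht n
    rw [hptshift, zero_add, one_smul, ← succ_nsmul]
    have := pt_triangle ht x 0 ((n + 1) • x)
    rwa [pt_symm ht x 0] at this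

/-- a.s. convergence along the multiples of a lattice vector. -/
lemma exists_dir (x : ℤ × ℤ) : ∃ γ : ℝ, ∀ᵐ t ∂(iidLaw G),
    Tendsto (fun n : ℕ => passageTime t 0 (n • x) / n) atTop (nhds γ) := by
  rcases eq_or_ne x 0 with rfl | hx
  · refine ⟨0, ?_⟩
    filter_upwards [ae_Nn (G := G) hM.h0] with t ht
    simp [pt_self ht]
  · exact ⟨_, (hM.subadd hx).kingman⟩

/-- `L¹` convergence along the multiples of a lattice vector. -/
lemma exists_dir_l1 (x : ℤ × ℤ) : ∃ γ : ℝ, Tendsto (fun n : ℕ =>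
    ∫ t, |passageTime t 0 (n • x) / n - γ| ∂(iidLaw G)) atTop (nhds 0) := by
  obtain ⟨γ, hγ⟩ := hM.exists_dir x
  refine ⟨γ, ?_⟩
  have hI : ∀ n : ℕ, Integrable (fun t => (passageTime t 0 (n • x) / n) ^ 2) (iidLaw G) := by
    intro n
    have := (hM.sq_int 0 (n • x)).div_const ((n : ℝ) ^ 2)
    simpa only [div_pow] using this
  have hI2 : ∀ n : ℕ, Integrable (fun t => (passageTime t 0 (n • x) / n - γ) ^ 2)
      (iidLaw G) := by
    intro n
    refine (((hI n).const_mul 2).add (integrable_const (2 * γ ^ 2))).mono' ?_ ?_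
    · exact ((((measurable_pt 0 (n • x)).div_const _).sub_const _).pow_const 2).aestronglyMeasurable
    · filter_upwards with t
      rw [Real.norm_eq_abs, abs_of_nonneg (sq_nonneg _)]
      change (passageTime t 0 (n • x) / n - γ) ^ 2 ≤
        2 * (passageTime t 0 (n • x) / n) ^ 2 + 2 * γ ^ 2
      nlinarith [sq_nonneg (passageTime t 0 (n • x) / n + γ)]
  have hkey := tendsto_integral_abs (P := iidLaw G)
    (Y := fun s t => passageTime t 0 (⌊s⌋₊ • x) / (⌊s⌋₊ : ℝ) - γ)
    (C := 2 * (m * n1 x) ^ 2 + 2 * γ ^ 2) ?_ ?_ ?_ ?_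
  · have := hkey.comp tendsto_natCast_atTop_atTop
    simpa [Function.comp_def, Nat.floor_natCast] using this
  · intro s
    exact ((measurable_pt 0 (⌊s⌋₊ • x)).div_const _).sub_const _
  · intro s _
    exact hI2 _
  · intro s hs
    have hn : 1 ≤ ⌊s⌋₊ := (Nat.one_le_floor_iff s).2 hs
    have hnR : (0 : ℝ) < (⌊s⌋₊ : ℝ) := by exact_mod_cast hn
    refine (integral_mono (hI2 ⌊s⌋₊) (((hI ⌊s⌋₊).const_mul 2).add (integrable_const (2 * γ ^ 2)))
      (fun t => ?_)).trans ?_
    · change (passageTime t 0 (⌊s⌋₊ • x) / (⌊s⌋₊ : ℝ) - γ) ^ 2 ≤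
        2 * (passageTime t 0 (⌊s⌋₊ • x) / (⌊s⌋₊ : ℝ)) ^ 2 + 2 * γ ^ 2
      nlinarith [sq_nonneg (passageTime t 0 (⌊s⌋₊ • x) / (⌊s⌋₊ : ℝ) + γ)]
    · rw [integral_add' ((hI ⌊s⌋₊).const_mul 2) (integrable_const _), integral_const_mul]
      simp only [integral_const, probReal_univ, smul_eq_mul, one_mul]
      have h3 := hM.sq_le 0 (⌊s⌋₊ • x)
      rw [sub_zero] at h3
      have h4 : ∫ t, (passageTime t 0 (⌊s⌋₊ • x) / (⌊s⌋₊ : ℝ)) ^ 2 ∂(iidLaw G)
          = (∫ t, passageTime t 0 (⌊s⌋₊ • x) ^ 2 ∂(iidLaw G)) / (⌊s⌋₊ : ℝ) ^ 2 := by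
        simp only [div_pow]
        rw [integral_div]
      have h5 : (n1 (⌊s⌋₊ • x) : ℝ) = ⌊s⌋₊ * n1 x := by
        rw [n1_nsmul]; push_cast; ring
      have h6 : (∫ t, passageTime t 0 (⌊s⌋₊ • x) ^ 2 ∂(iidLaw G)) / (⌊s⌋₊ : ℝ) ^ 2
          ≤ (m * n1 x) ^ 2 := by
        rw [div_le_iff₀ (by positivity)]
        refine h3.trans (le_of_eq ?_)
        rw [h5]; ring
      rw [h4]
      linarith
  · filter_upwards [hγ] with t ht
    have h1 : Tendsto (fun n : ℕ => passageTime t 0 (n • x) / n - γ) atTop (nhds (γ - γ)) :=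
      ht.sub tendsto_const_nhds
    rw [sub_self] at h1
    exact h1.comp tendsto_nat_floor_atTop

lemma exists_mu (v : ℝ × ℝ) : ∃ γ : ℝ, Tendsto (fun s : ℝ =>
    ∫ t, |passageTime t 0 (fl v s) / s - γ| ∂(iidLaw G)) atTop (nhds 0) := by
  choose γ hγ using hM.exists_dir_l1
  -- the approximation at scale `k`
  obtain ⟨a, ha⟩ : ∃ a : ℕ → ℝ, a = fun k : ℕ => γ (fl v k) / k := ⟨_, rfl⟩
  have hIs : ∀ (s c : ℝ), Integrable (fun t => |passageTime t 0 (fl v s) / s - c|) (iidLaw G) :=
    fun s c => (((hM.int 0 (fl v s)).div_const s).sub (integrable_const c)).abs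
  have key : ∀ k : ℕ, 0 < k → ∀ δ : ℝ, 0 < δ → ∀ᶠ s : ℝ in atTop,
      ∫ t, |passageTime t 0 (fl v s) / s - a k| ∂(iidLaw G) ≤ 2 * m / k + δ := by
    intro k hk δ hδ
    have hkR : (0 : ℝ) < k := by exact_mod_cast hk
    -- along the multiples of `x`
    obtain ⟨x, hx⟩ : ∃ x, x = fl v k := ⟨_, rfl⟩
    have hfloor : Tendsto (fun s : ℝ => ⌊s / k⌋₊) atTop atTop :=
      tendsto_nat_floor_atTop.comp (tendsto_id.atTop_div_const hkR)
    have e1 := (hγ x).comp hfloor
    have e2 := (e1.const_mul (1 / (k : ℝ))).eventually_le_const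
      (show 1 / (k : ℝ) * 0 < δ / 3 by rw [mul_zero]; positivity)
    have e3 : Tendsto (fun s : ℝ => (m * (k * l1 v + 2 + 0)) / s) atTop (nhds 0) :=
      tendsto_const_nhds.div_atTop tendsto_id
    have e4 := e3.eventually_le_const (show (0 : ℝ) < δ / 3 by positivity)
    have e5 : Tendsto (fun s : ℝ => |γ x| / s) atTop (nhds 0) :=
      tendsto_const_nhds.div_atTop tendsto_id
    have e6 := e5.eventually_le_const (show (0 : ℝ) < δ / 3 by positivity)
    filter_upwards [e2, e4, e6, eventually_gt_atTop 0, eventually_ge_atTop (k : ℝ)]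
      with s hs1 hs2 hs3 hs0 hsk
    simp only [Function.comp_apply] at hs1
    obtain ⟨n, hn⟩ : ∃ n, n = ⌊s / k⌋₊ := ⟨_, rfl⟩
    rw [← hn] at hs1
    have hn1 : (n : ℝ) ≤ s / k := by rw [hn]; exact Nat.floor_le (by positivity)
    have hn2 : s / k < n + 1 := by rw [hn]; exact Nat.lt_floor_add_one _
    have hnpos : 0 < n := by
      rw [hn]
      exact Nat.floor_pos.2 ((le_div_iff₀ hkR).2 (by linarith))
    have hnR : (0 : ℝ) < n := by exact_mod_cast hnpos
    -- the distance
    have hdist : (n1 (n • x - fl v s) : ℝ) ≤ 2 * s / k + (k * l1 v + 2) := by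
      rw [← l1_toR]
      have d1 : toR (n • x - fl v s) = ((s • v - toR (fl v s)) - (n : ℝ) • ((k : ℝ) • v - toR x))
          + ((n : ℝ) * k - s) • v := by
        rw [toR_sub, toR_nsmul]
        module
      rw [d1]
      refine (l1_add_le _ _).trans ?_
      have d2 := l1_fl v s
      have d3 := l1_fl v k
      rw [← hx] at d3
      have d4 : l1 ((s • v - toR (fl v s)) - (n : ℝ) • ((k : ℝ) • v - toR x)) ≤
          l1 (s • v - toR (fl v s)) + n * l1 ((k : ℝ) • v - toR x) := by
        rw [sub_eq_add_neg]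
        refine (l1_add_le _ _).trans (le_of_eq ?_)
        congr 1
        simp only [l1, Prod.fst_neg, Prod.snd_neg, Prod.smul_fst, Prod.smul_snd, smul_eq_mul,
          abs_neg, abs_mul, Nat.abs_cast]
        ring
      have d5 : l1 (((n : ℝ) * k - s) • v) ≤ k * l1 v := by
        have : |(n : ℝ) * k - s| ≤ k := by
          rw [abs_le]
          rw [div_lt_iff₀ hkR] at hn2
          rw [le_div_iff₀ hkR] at hn1
          constructor <;> nlinarith
        have d6 : l1 (((n : ℝ) * k - s) • v) = |(n : ℝ) * k - s| * l1 v := by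
          simp only [l1, Prod.smul_fst, Prod.smul_snd, smul_eq_mul, abs_mul]
          ring
        rw [d6]
        exact mul_le_mul_of_nonneg_right this (l1_nonneg v)
      have d7 : (n : ℝ) * l1 ((k : ℝ) • v - toR x) ≤ 2 * s / k := by
        calc (n : ℝ) * l1 ((k : ℝ) • v - toR x) ≤ (s / k) * 2 := by
              have := l1_nonneg ((k : ℝ) • v - toR x)
              gcongr
          _ = 2 * s / k := by ring
      linarith
    -- the three errors
    have i1 : Integrable (fun t => |passageTime t 0 (fl v s) - passageTime t 0 (n • x)|)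
        (iidLaw G) := ((hM.int _ _).sub (hM.int _ _)).abs
    have i2 : Integrable (fun t => |passageTime t 0 (n • x) / n - γ x|) (iidLaw G) :=
      (((hM.int 0 (n • x)).div_const (n : ℝ)).sub (integrable_const _)).abs
    have hb : ∀ t : Environment, |passageTime t 0 (fl v s) / s - a k| ≤
        (1 / s) * |passageTime t 0 (fl v s) - passageTime t 0 (n • x)| +
          (1 / k) * |passageTime t 0 (n • x) / n - γ x| + |γ x| / s := by
      intro t
      have e : passageTime t 0 (fl v s) / s - a k =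
          (1 / s) * (passageTime t 0 (fl v s) - passageTime t 0 (n • x)) +
          (n / s) * (passageTime t 0 (n • x) / n - γ x) + (n / s - 1 / k) * γ x := by
        rw [ha]
        simp only [← hx]
        field_simp
        ring
      rw [e]
      refine (abs_add_three _ _ _).trans ?_
      rw [abs_mul, abs_mul, abs_mul, abs_of_pos (one_div_pos.2 hs0),
        abs_of_pos (div_pos hnR hs0)]
      have f1 : (n : ℝ) / s ≤ 1 / k := by
        rw [div_le_div_iff₀ hs0 hkR]
        rw [le_div_iff₀ hkR] at hn1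
        linarith
      have f2 : |(n : ℝ) / s - 1 / k| ≤ 1 / s := by
        rw [abs_of_nonpos (by linarith), neg_sub, sub_le_iff_le_add, ← add_div,
          div_le_div_iff₀ hkR hs0]
        rw [div_lt_iff₀ hkR] at hn2
        linarith
      have f3 : |(n : ℝ) / s - 1 / k| * |γ x| ≤ |γ x| / s := by
        calc |(n : ℝ) / s - 1 / k| * |γ x| ≤ (1 / s) * |γ x| := by gcongr
          _ = |γ x| / s := by ring
      have f4 : (n : ℝ) / s * |passageTime t 0 (n • x) / n - γ x| ≤
          1 / k * |passageTime t 0 (n • x) / n - γ x| := by gcongr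
      linarith
    refine (integral_mono (hIs s (a k)) (((i1.const_mul (1 / s)).add (i2.const_mul (1 / (k:ℝ)))).add
      (integrable_const (|γ x| / s))) hb).trans ?_
    refine (integral_add3 (|γ x| / s) (i1.const_mul (1 / s)) (i2.const_mul (1 / (k : ℝ)))).le.trans ?_
    rw [integral_const_mul, integral_const_mul]
    have g1 : (1 / s) * ∫ t, |passageTime t 0 (fl v s) - passageTime t 0 (n • x)| ∂(iidLaw G)
        ≤ 2 * m / k + δ / 3 := by
      have g2 := hM.l1_diff_le (fl v s) (n • x)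
      have g3 := mul_le_mul_of_nonneg_left hdist hM.nonneg
      have g4 : (1 / s) * (m * (2 * s / k + (k * l1 v + 2))) =
          2 * m / k + (m * (k * l1 v + 2 + 0)) / s := by
        field_simp
        ring
      calc (1 / s) * ∫ t, |passageTime t 0 (fl v s) - passageTime t 0 (n • x)| ∂(iidLaw G)
          ≤ (1 / s) * (m * (2 * s / k + (k * l1 v + 2))) := by
            have : (0 : ℝ) ≤ 1 / s := by positivity
            exact mul_le_mul_of_nonneg_left (g2.trans g3) this
        _ ≤ _ := by rw [g4]; linarith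
    linarith
  -- the sequence is Cauchy
  have hcs : ∀ j k : ℕ, 0 < j → 0 < k → |a j - a k| ≤ 2 * m / j + 2 * m / k := by
    intro j k hj hk
    refine le_of_forall_pos_le_add fun δ hδ => ?_
    obtain ⟨s, hs1, hs2⟩ := ((key j hj (δ / 2) (by positivity)).and
      (key k hk (δ / 2) (by positivity))).exists
    have h1 : |a j - a k| ≤ ∫ t, |passageTime t 0 (fl v s) / s - a j| ∂(iidLaw G) +
        ∫ t, |passageTime t 0 (fl v s) / s - a k| ∂(iidLaw G) := by
      rw [← integral_add (hIs s _) (hIs s _)]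
      have : |a j - a k| = ∫ _, |a j - a k| ∂(iidLaw G) := by simp
      rw [this]
      refine integral_mono (integrable_const _) ((hIs s _).add (hIs s _)) fun t => ?_
      change |a j - a k| ≤ |passageTime t 0 (fl v s) / s - a j| +
        |passageTime t 0 (fl v s) / s - a k|
      rw [abs_sub_comm (passageTime t 0 (fl v s) / s) (a j)]
      refine le_trans (le_of_eq ?_) (abs_add_le _ _)
      congr 1
      ring
    linarith
  have hcauchy : CauchySeq a := by
    rw [Metric.cauchySeq_iff']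
    intro ε hε
    obtain ⟨N, hN⟩ := exists_nat_gt (4 * m / ε)
    refine ⟨N + 1, fun n hn => ?_⟩
    rw [Real.dist_eq]
    have hN1 : (0 : ℝ) < ((N + 1 : ℕ) : ℝ) := by positivity
    have h1 := hcs n (N + 1) (by omega) (Nat.succ_pos _)
    have h2 : 2 * m / n ≤ 2 * m / ((N + 1 : ℕ) : ℝ) := by
      have h3 : ((N + 1 : ℕ) : ℝ) ≤ n := by exact_mod_cast hn
      have := hM.nonneg
      gcongr
    have h3 : 2 * m / ((N + 1 : ℕ) : ℝ) < ε / 2 := by
      rw [div_lt_iff₀ hN1]
      rw [div_lt_iff₀ hε] at hN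
      push_cast
      nlinarith
    linarith
  obtain ⟨g, hg⟩ := cauchySeq_tendsto_of_complete hcauchy
  refine ⟨g, ?_⟩
  rw [Metric.tendsto_nhds]
  intro ε hε
  -- choose k
  have hev := ((Metric.tendsto_nhds.1 hg) (ε / 4) (by positivity)).and
    ((eventually_gt_atTop 0).and
      ((tendsto_const_div_atTop_nhds_zero_nat (2 * m)).eventually_le_const
        (show (0 : ℝ) < ε / 4 by positivity)))
  obtain ⟨k, hk1, hk2, hk3⟩ := hev.exists
  rw [Real.dist_eq, abs_lt] at hk1
  filter_upwards [key k hk2 (ε / 4) (by positivity)] with s hs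
  rw [Real.dist_eq, sub_zero, abs_of_nonneg (integral_nonneg fun t => abs_nonneg _)]
  have h1 : ∫ t, |passageTime t 0 (fl v s) / s - g| ∂(iidLaw G) ≤
      ∫ t, |passageTime t 0 (fl v s) / s - a k| ∂(iidLaw G) + |a k - g| := by
    have h2 : |a k - g| = ∫ _, |a k - g| ∂(iidLaw G) := by simp
    rw [h2, ← integral_add (hIs s _) (integrable_const _)]
    refine integral_mono (hIs s _) ((hIs s _).add (integrable_const _)) fun t => ?_
    change |passageTime t 0 (fl v s) / s - g| ≤ |passageTime t 0 (fl v s) / s - a k| + |a k - g|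
    refine le_trans (le_of_eq ?_) (abs_add_le _ _)
    congr 1
    ring
  have h2 : |a k - g| < ε / 4 := by rw [abs_lt]; constructor <;> linarith
  linarith

/-- **Existence of the time constant.** -/
theorem exists_tc : ∃ μ : ℝ × ℝ → ℝ, IsTC1 G μ := by
  choose μ hμ using hM.exists_mu
  exact ⟨μ, hμ⟩

end moments

end Mom

end Crest.Agent.R151.K
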