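import Crest.Agent.R151.K9b
import Crest.Agent.R151.A565a

/-!
# R151/K9c — local control of passage times for the law of S0213 (owner helper507)

`cH z`, `cV z` : passage times from `z` to its right/upper neighbour inside the box `sbox z 3`.
`LocCtl G` : `T(x,y) ≤ A |y-x|₁ + E_n` for all `x, y` in the box of radius `n`, `E E_n ≤ η n`.
`locCtl_of_law213`.
-/

set_option autoImplicit false
set_option linter.unusedSectionVars false

open MeasureTheory Filter ProbabilityTheory
open Crest.ProbabilityR.FirstPassage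
open scoped ENNReal

namespace Crest.Agent.R151.K

/-! ### Second moments of sums of finite range fields -/

section sums

variable {Ω : Type*} [MeasurableSpace Ω] {P : Measure Ω} [IsProbabilityMeasure P]

lemma memLp_mul_int {X Y : Ω → ℝ} (hX : MemLp X 2 P) (hY : MemLp Y 2 P) :
    Integrable (fun ω => X ω * Y ω) P := by
  have := hX.integrable_mul hY
  exact this

/-- Second moment of a sum of centred variables with range of dependence `7`. -/
lemma sum_sq_le {s : Finset ℤ} {Z : ℤ → Ω → ℝ} {V : ℝ} (hV0 : 0 ≤ V)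
    (h2 : ∀ i ∈ s, MemLp (Z i) 2 P) (hmean : ∀ i ∈ s, ∫ ω, Z i ω ∂P = 0)
    (hV : ∀ i ∈ s, ∫ ω, Z i ω ^ 2 ∂P ≤ V)
    (hind : ∀ i ∈ s, ∀ j ∈ s, 7 ≤ |i - j| → IndepFun (Z i) (Z j) P) :
    Integrable (fun ω => (∑ i ∈ s, Z i ω) ^ 2) P ∧
    ∫ ω, (∑ i ∈ s, Z i ω) ^ 2 ∂P ≤ 13 * s.card * V := by
  have hint : ∀ i ∈ s, ∀ j ∈ s, Integrable (fun ω => Z i ω * Z j ω) P := fun i hi j hj =>
    memLp_mul_int (h2 i hi) (h2 j hj)
  have e : ∀ ω, (∑ i ∈ s, Z i ω) ^ 2 = ∑ i ∈ s, ∑ j ∈ s, Z i ω * Z j ω := by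
    intro ω
    rw [sq, Finset.sum_mul_sum]
  have hI : Integrable (fun ω => ∑ i ∈ s, ∑ j ∈ s, Z i ω * Z j ω) P :=
    integrable_finsetSum _ fun i hi => integrable_finsetSum _ fun j hj => hint i hi j hj
  have hpair : ∀ i ∈ s, ∀ j ∈ s, ∫ ω, Z i ω * Z j ω ∂P ≤ if |i - j| < 7 then V else 0 := by
    intro i hi j hj
    split_ifs with hij
    · have hsq : ∀ k ∈ s, Integrable (fun ω => Z k ω ^ 2) P := fun k hk => (h2 k hk).integrable_sq
      have h3 : ∫ ω, Z i ω * Z j ω ∂P ≤ ∫ ω, (Z i ω ^ 2 + Z j ω ^ 2) / 2 ∂P := by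
        refine integral_mono (hint i hi j hj) (((hsq i hi).add (hsq j hj)).div_const 2) fun ω => ?_
        change Z i ω * Z j ω ≤ (Z i ω ^ 2 + Z j ω ^ 2) / 2
        nlinarith [sq_nonneg (Z i ω - Z j ω)]
      refine h3.trans ?_
      rw [integral_div, integral_add (hsq i hi) (hsq j hj)]
      linarith [hV i hi, hV j hj]
    · have h3 := (hind i hi j hj (not_lt.1 hij)).integral_mul_eq_mul_integral
        (h2 i hi).1 (h2 j hj).1
      have h4 : ∫ ω, Z i ω * Z j ω ∂P = 0 := by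
        have : ∫ ω, Z i ω * Z j ω ∂P = ∫ ω, (Z i * Z j) ω ∂P := rfl
        rw [this, h3, hmean i hi, zero_mul]
      exact h4.le
  refine ⟨by simpa only [e] using hI, ?_⟩
  simp only [e]
  rw [integral_finsetSum _ fun i hi => integrable_finsetSum _ fun j hj => hint i hi j hj]
  have hrow : ∀ i ∈ s, ∫ ω, ∑ j ∈ s, Z i ω * Z j ω ∂P ≤ 13 * V := by
    intro i hi
    rw [integral_finsetSum _ fun j hj => hint i hi j hj]
    refine (Finset.sum_le_sum fun j hj => hpair i hi j hj).trans ?_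
    rw [← Finset.sum_filter, Finset.sum_const, nsmul_eq_mul]
    have hc : (s.filter fun j => |i - j| < 7).card ≤ 13 := by
      calc (s.filter fun j => |i - j| < 7).card ≤ (Finset.Icc (i - 6) (i + 6)).card := by
            apply Finset.card_le_card
            intro j hj
            rw [Finset.mem_filter] at hj
            rw [Finset.mem_Icc]
            have := abs_lt.1 hj.2
            omega
        _ = 13 := by rw [Int.card_Icc]; omega
    have : ((s.filter fun j => |i - j| < 7).card : ℝ) ≤ 13 := by exact_mod_cast hc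
    gcongr
  refine (Finset.sum_le_sum hrow).trans ?_
  rw [Finset.sum_const, nsmul_eq_mul]
  linarith

end sums

/-! ### Independence of restricted passage times -/

variable {G : Measure ℝ} [IsProbabilityMeasure G]

lemma indep_of_disjoint {R R' : Set (ℤ × ℤ)} (h : Disjoint (edgesIn R) (edgesIn R'))
    {f g : Environment → ℝ} (hf : Measurable f) (hg : Measurable g)
    (hfd : DependsOn f (edgesIn R)) (hgd : DependsOn g (edgesIn R')) :
    IndepFun f g (iidLaw G) := by
  have h1 := A.indep_sig G h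
  rw [IndepFun_iff_Indep]
  exact indep_of_indep_of_le_left (indep_of_indep_of_le_right h1 (A.comap_le_sig hg hgd))
    (A.comap_le_sig hf hfd)

lemma dependsOn_pR (R : Set (ℤ × ℤ)) (x y : ℤ × ℤ) :
    DependsOn (fun t : Environment => pR t R x y) (edgesIn R) := by
  intro t t' h
  exact pR_congr (fun a ha b hb => h _ (mem_edgesIn.2 ⟨ha, hb⟩)) x y

/-! ### The local fields -/

/-- cost of the horizontal step from `z` inside the local box -/
noncomputable def cH (z : ℤ × ℤ) (t : Environment) : ℝ := pR t (M51.sbox z 3) z (z + (1, 0))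

/-- cost of the vertical step from `z` inside the local box -/
noncomputable def cV (z : ℤ × ℤ) (t : Environment) : ℝ := pR t (M51.sbox z 3) z (z + (0, 1))

lemma mem_sbox_self (z : ℤ × ℤ) : z ∈ M51.sbox z 3 := by simp [M51.sbox]

lemma mem_sbox_right (z : ℤ × ℤ) : z + (1, 0) ∈ M51.sbox z 3 := by
  simp only [M51.sbox, Set.mem_ofPred_eq, Prod.fst_add, Prod.snd_add, abs_le]
  omega

lemma mem_sbox_up (z : ℤ × ℤ) : z + (0, 1) ∈ M51.sbox z 3 := by
  simp only [M51.sbox, Set.mem_ofPred_eq, Prod.fst_add, Prod.snd_add, abs_le]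
  omega

lemma adj_add_right (z : ℤ × ℤ) : squareLattice.Adj z (z + (1, 0)) := by
  obtain ⟨a, b⟩ := z
  have := adj_right a b
  simpa using this

lemma adj_add_up (z : ℤ × ℤ) : squareLattice.Adj z (z + (0, 1)) := by
  obtain ⟨a, b⟩ := z
  have := adj_up a b
  simpa using this

lemma pt_le_cH {t : Environment} (ht : Nn t) (z : ℤ × ℤ) : passageTime t z (z + (1, 0)) ≤ cH z t :=
  pt_le_pR ht (Conn.adj (adj_add_right z) (mem_sbox_self z) (mem_sbox_right z))

lemma pt_le_cV {t : Environment} (ht : Nn t) (z : ℤ × ℤ) : passageTime t z (z + (0, 1)) ≤ cV z t :=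
  pt_le_pR ht (Conn.adj (adj_add_up z) (mem_sbox_self z) (mem_sbox_up z))

/-- A local field: `c z` is nonnegative, stationary, square integrable, and depends on the edges of
the box of radius `3` around `z`. -/
structure Field (G : Measure ℝ) (c : ℤ × ℤ → Environment → ℝ) : Prop where
  meas : ∀ z, Measurable (c z)
  nn : ∀ z t, Nn t → 0 ≤ c z t
  cov : ∀ z t, c 0 (act (tr z) t) = c z t
  dep : ∀ z, DependsOn (c z) (edgesIn (M51.sbox z 3))
  sq : Integrable (fun t => c 0 t ^ 2) (iidLaw G)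

lemma sbox_preimage (z : ℤ × ℤ) : (fun u : ℤ × ℤ => u + z) ⁻¹' (M51.sbox z 3) = M51.sbox 0 3 := by
  ext u
  simp [M51.sbox]

lemma sq_int_of_detours (hG : M51.Law213 G) {x y : ℤ × ℤ} (h : squareLattice.Adj x y) :
    Integrable (fun t => pR t (M51.sbox x 3) x y ^ 2) (iidLaw G) := by
  have h1 := M51.lintegral_le_of_detours G (p := 2) (by norm_num) (M51.detours_full h)
    (f := fun t => pR t (M51.sbox x 3) x y) (by
      filter_upwards [ae_Nn (G := G) hG.h0] with t ht w hw
      exact pR_le ht w hw)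
  refine ⟨((measurable_pR _ _ _).pow_const 2).aestronglyMeasurable, ?_⟩
  rw [hasFiniteIntegral_iff_ofReal (Filter.Eventually.of_forall fun t => sq_nonneg _)]
  have h2 : ∫⁻ t, ENNReal.ofReal (pR t (M51.sbox x 3) x y ^ 2) ∂(iidLaw G) =
      ∫⁻ t, ENNReal.ofReal (pR t (M51.sbox x 3) x y) ^ (2 : ℝ) ∂(iidLaw G) := by
    refine lintegral_congr_ae ?_
    filter_upwards [ae_Nn (G := G) hG.h0] with t ht
    rw [ENNReal.rpow_two, ENNReal.ofReal_pow (pR_nonneg ht _ _ _)]
  rw [h2]
  refine lt_of_le_of_lt h1 ?_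
  refine ENNReal.mul_lt_top (ENNReal.mul_lt_top ?_ ?_) (M51.mom_four_two hG.h0 hG.mom)
  · exact ENNReal.rpow_lt_top_of_nonneg (by norm_num) (by norm_num)
  · exact ENNReal.pow_lt_top (by norm_num)

lemma field_cH (hG : M51.Law213 G) : Field G cH where
  meas z := measurable_pR _ _ _
  nn z t ht := pR_nonneg ht _ _ _
  cov z t := by
    unfold cH
    rw [← sbox_preimage z, pR_tr]
    simp [add_comm]
  dep z := dependsOn_pR _ _ _
  sq := sq_int_of_detours hG (adj_add_right 0)

lemma field_cV (hG : M51.Law213 G) : Field G cV where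
  meas z := measurable_pR _ _ _
  nn z t ht := pR_nonneg ht _ _ _
  cov z t := by
    unfold cV
    rw [← sbox_preimage z, pR_tr]
    simp [add_comm]
  dep z := dependsOn_pR _ _ _
  sq := sq_int_of_detours hG (adj_add_up 0)

/-- disjoint boxes -/
lemma disjoint_edges {z z' : ℤ × ℤ} (h : 7 ≤ |z.1 - z'.1| ∨ 7 ≤ |z.2 - z'.2|) :
    Disjoint (edgesIn (M51.sbox z 3)) (edgesIn (M51.sbox z' 3)) := by
  rw [Set.disjoint_left]
  intro e he he'
  induction e with
  | h a b =>
    rw [mem_edgesIn] at he he'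
    have h1 := he.1
    have h2 := he'.1
    simp only [M51.sbox, Set.mem_ofPred_eq, abs_le] at h1 h2
    rcases h with h | h
    · rw [le_abs] at h; omega
    · rw [le_abs] at h; omega

namespace Field

variable {c : ℤ × ℤ → Environment → ℝ} (hc : Field G c)
include hc

/-- integrals of functions of `c z` do not depend on `z` -/
lemma integral_eq (f : ℝ → ℝ) (hf : Measurable f) (z : ℤ × ℤ) :
    ∫ t, f (c z t) ∂(iidLaw G) = ∫ t, f (c 0 t) ∂(iidLaw G) := by
  have h := integral_pt_iso (G := G) (tr z) (fun t => f (c 0 t))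
    (hf.comp (hc.meas 0)).aestronglyMeasurable
  simp only [hc.cov] at h
  exact h

lemma integrable_iff (f : ℝ → ℝ) (z : ℤ × ℤ)
    (h : Integrable (fun t => f (c 0 t)) (iidLaw G)) :
    Integrable (fun t => f (c z t)) (iidLaw G) := by
  have := (mp_act (G := G) (tr z)).integrable_comp_of_integrable h
  simpa only [Function.comp_def, hc.cov] using this

lemma sq' (z : ℤ × ℤ) : Integrable (fun t => c z t ^ 2) (iidLaw G) :=
  hc.integrable_iff (fun x => x ^ 2) z hc.sq

/-- the truncated field is square integrable -/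
lemma tr_memLp {B : ℝ} (z : ℤ × ℤ) : MemLp (fun t => max (c z t - B) 0) 2 (iidLaw G) := by
  have h1 : MemLp (fun t => c z t) 2 (iidLaw G) :=
    (memLp_two_iff_integrable_sq (hc.meas z).aestronglyMeasurable).2 (hc.sq' z)
  exact (h1.sub (memLp_const B)).pos_part

lemma indep {z z' : ℤ × ℤ} (h : 7 ≤ |z.1 - z'.1| ∨ 7 ≤ |z.2 - z'.2|) (f g : ℝ → ℝ)
    (hf : Measurable f) (hg : Measurable g) :
    IndepFun (fun t => f (c z t)) (fun t => g (c z' t)) (iidLaw G) := by
  refine indep_of_disjoint (disjoint_edges h) (hf.comp (hc.meas z)) (hg.comp (hc.meas z')) ?_ ?_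
  · intro t t' htt
    exact congrArg f (hc.dep z htt)
  · intro t t' htt
    exact congrArg g (hc.dep z' htt)

/-- second moment of centred line sums of the truncated field; `l i` is a line. -/
lemma line_sq (B : ℝ) {s : Finset ℤ} (l : ℤ → ℤ × ℤ)
    (hl : ∀ i j, 7 ≤ |i - j| → 7 ≤ |(l i).1 - (l j).1| ∨ 7 ≤ |(l i).2 - (l j).2|) :
    Integrable (fun t => (∑ i ∈ s, (max (c (l i) t - B) 0 -
      ∫ t, max (c 0 t - B) 0 ∂(iidLaw G))) ^ 2) (iidLaw G) ∧
    ∫ t, (∑ i ∈ s, (max (c (l i) t - B) 0 - ∫ t, max (c 0 t - B) 0 ∂(iidLaw G))) ^ 2 ∂(iidLaw G) ≤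
      13 * s.card * ∫ t, max (c 0 t - B) 0 ^ 2 ∂(iidLaw G) := by
  obtain ⟨e, he⟩ : ∃ e, e = ∫ t, max (c 0 t - B) 0 ∂(iidLaw G) := ⟨_, rfl⟩
  rw [← he]
  have hmeas : Measurable fun x : ℝ => max (x - B) 0 := by fun_prop
  have hi : ∀ z, Integrable (fun t => max (c z t - B) 0) (iidLaw G) := fun z =>
    (hc.tr_memLp z).integrable (by norm_num)
  have hmean : ∀ z, ∫ t, max (c z t - B) 0 ∂(iidLaw G) = e := fun z => by
    rw [he]; exact hc.integral_eq (fun x => max (x - B) 0) hmeas z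
  refine sum_sq_le (P := iidLaw G) (s := s) (Z := fun i t => max (c (l i) t - B) 0 - e)
    (integral_nonneg fun t => sq_nonneg _) ?_ ?_ ?_ ?_
  · intro i _
    exact (hc.tr_memLp (l i)).sub (memLp_const e)
  · intro i _
    rw [integral_sub (hi _) (integrable_const _), hmean]
    simp
  · intro i _
    have hsq : Integrable (fun t => max (c (l i) t - B) 0 ^ 2) (iidLaw G) :=
      (hc.tr_memLp (l i)).integrable_sq
    have h1 : ∫ t, (max (c (l i) t - B) 0 - e) ^ 2 ∂(iidLaw G) =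
        ∫ t, max (c (l i) t - B) 0 ^ 2 ∂(iidLaw G) - e ^ 2 := by
      have e1 : ∀ t, (max (c (l i) t - B) 0 - e) ^ 2 = max (c (l i) t - B) 0 ^ 2 -
          2 * e * max (c (l i) t - B) 0 + e ^ 2 := fun t => by ring
      have i1 : Integrable (fun t => 2 * e * max (c (l i) t - B) 0) (iidLaw G) :=
        (hi (l i)).const_mul (2 * e)
      have i2 : Integrable (fun t => max (c (l i) t - B) 0 ^ 2 - 2 * e * max (c (l i) t - B) 0)
        (iidLaw G) := hsq.sub i1
      simp only [e1]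
      rw [integral_add i2 (integrable_const _), integral_sub hsq i1, integral_const_mul, hmean]
      simp
      ring
    rw [h1, hc.integral_eq (fun x => max (x - B) 0 ^ 2) (hmeas.pow_const 2)]
    linarith [sq_nonneg e]
  · intro i _ j _ hij
    exact hc.indep (hl i j hij) (fun x => max (x - B) 0 - e) (fun x => max (x - B) 0 - e)
      (hmeas.sub_const e) (hmeas.sub_const e)

/-- the truncated moments tend to zero -/
lemma tr_small {δ : ℝ} (hδ : 0 < δ) (h0 : G (Set.Iio 0) = 0) : ∃ B : ℝ, 0 ≤ B ∧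
    ∫ t, max (c 0 t - B) 0 ∂(iidLaw G) ≤ δ ∧ ∫ t, max (c 0 t - B) 0 ^ 2 ∂(iidLaw G) ≤ δ := by
  have hlim : Tendsto (fun n : ℕ => ∫ t, max (c 0 t - n) 0 ^ 2 ∂(iidLaw G)) atTop
      (nhds (∫ _, (0 : ℝ) ∂(iidLaw G))) := by
    refine tendsto_integral_of_dominated_convergence (fun t => c 0 t ^ 2) ?_ hc.sq ?_ ?_
    · intro n
      exact (((hc.meas 0).sub_const _).max measurable_const |>.pow_const 2).aestronglyMeasurable
    · intro n
      filter_upwards [ae_Nn (G := G) h0] with t ht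
      rw [Real.norm_eq_abs, abs_of_nonneg (sq_nonneg _)]
      have h1 := hc.nn 0 t ht
      have h2 : max (c 0 t - n) 0 ≤ c 0 t :=
        max_le (by linarith [(Nat.cast_nonneg n : (0 : ℝ) ≤ n)]) h1
      exact pow_le_pow_left₀ (le_max_right _ _) h2 2
    · filter_upwards with t
      refine tendsto_const_nhds.congr' ?_
      obtain ⟨N, hN⟩ := exists_nat_ge (c 0 t)
      filter_upwards [eventually_ge_atTop N] with n hn
      have : (N : ℝ) ≤ n := by exact_mod_cast hn
      rw [max_eq_right (by linarith)]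
      norm_num
  rw [integral_zero] at hlim
  obtain ⟨n, hn⟩ := (hlim.eventually_le_const (show 0 < min δ (δ ^ 2) by positivity)).exists
  refine ⟨n, Nat.cast_nonneg n, ?_, hn.trans (min_le_left _ _)⟩
  -- Jensen
  have h1 : (∫ t, max (c 0 t - n) 0 ∂(iidLaw G)) ^ 2 ≤
      ∫ t, max (c 0 t - n) 0 ^ 2 ∂(iidLaw G) := by
    have h := variance_nonneg (fun t => max (c 0 t - (n : ℝ)) 0) (iidLaw G)
    rw [variance_eq_sub (hc.tr_memLp 0)] at h
    simp only [Pi.pow_apply] at h
    linarith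
  have h2 := h1.trans (hn.trans (min_le_right _ _))
  exact (le_abs_self _).trans (abs_le_of_sq_le_sq h2 hδ.le)

/-- excess over `B` of the lines `l b i`, `i ∈ s` -/
lemma sup_line (B η : ℝ) (hη : 0 < η) (s : Finset ℤ) (n : ℕ) (hn : 0 < n)
    (hs : s.card = 2 * n + 1) (l : ℤ → ℤ → ℤ × ℤ)
    (hl : ∀ b i j, 7 ≤ |i - j| → 7 ≤ |(l b i).1 - (l b j).1| ∨ 7 ≤ |(l b i).2 - (l b j).2|) :
    ∃ W : Environment → ℝ, Integrable W (iidLaw G) ∧
      ∫ t, W t ∂(iidLaw G) ≤ (2 * n + 1) * (∫ t, max (c 0 t - B) 0 ∂(iidLaw G)) + η * n +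
        (2 * n + 1) ^ 2 * 13 * (∫ t, max (c 0 t - B) 0 ^ 2 ∂(iidLaw G)) / (η * n) ∧
      ∀ t, ∀ b ∈ s, ∑ i ∈ s, max (c (l b i) t - B) 0 ≤ W t := by
  obtain ⟨e, he⟩ : ∃ e, e = ∫ t, max (c 0 t - B) 0 ∂(iidLaw G) := ⟨_, rfl⟩
  obtain ⟨V, hV⟩ : ∃ V, V = ∫ t, max (c 0 t - B) 0 ^ 2 ∂(iidLaw G) := ⟨_, rfl⟩
  have hnR : (0 : ℝ) < n := by exact_mod_cast hn
  have hline : ∀ b, Integrable (fun t => (∑ i ∈ s, (max (c (l b i) t - B) 0 - e)) ^ 2)
      (iidLaw G) ∧ ∫ t, (∑ i ∈ s, (max (c (l b i) t - B) 0 - e)) ^ 2 ∂(iidLaw G)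
        ≤ 13 * s.card * V := fun b => by
    rw [he, hV]; exact hc.line_sq B (l b) (hl b)
  rw [← he, ← hV]
  refine ⟨fun t => (2 * n + 1) * e + η * n +
    (∑ b ∈ s, (∑ i ∈ s, (max (c (l b i) t - B) 0 - e)) ^ 2) / (η * n), ?_, ?_, ?_⟩
  · exact (integrable_const _).add ((integrable_finsetSum _ fun b _ => (hline b).1).div_const _)
  · rw [integral_add (integrable_const _)
      ((integrable_finsetSum _ fun b _ => (hline b).1).div_const _), integral_div,
      integral_finsetSum _ fun b _ => (hline b).1]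
    simp only [integral_const, probReal_univ, smul_eq_mul, one_mul]
    have h1 : ∑ b ∈ s, ∫ t, (∑ i ∈ s, (max (c (l b i) t - B) 0 - e)) ^ 2 ∂(iidLaw G) ≤
        (2 * n + 1) ^ 2 * 13 * V := by
      refine (Finset.sum_le_sum fun b _ => (hline b).2).trans (le_of_eq ?_)
      rw [Finset.sum_const, nsmul_eq_mul, hs]
      push_cast
      ring
    gcongr
  · intro t b hb
    have h1 : ∑ i ∈ s, max (c (l b i) t - B) 0 =
        (2 * n + 1) * e + ∑ i ∈ s, (max (c (l b i) t - B) 0 - e) := by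
      rw [Finset.sum_sub_distrib, Finset.sum_const, nsmul_eq_mul, hs]
      push_cast
      ring
    rw [h1]
    obtain ⟨S, hS⟩ : ∃ S, S = ∑ i ∈ s, (max (c (l b i) t - B) 0 - e) := ⟨_, rfl⟩
    have h2 : S ^ 2 ≤ ∑ b ∈ s, (∑ i ∈ s, (max (c (l b i) t - B) 0 - e)) ^ 2 := by
      rw [hS]
      exact Finset.single_le_sum (f := fun b => (∑ i ∈ s, (max (c (l b i) t - B) 0 - e)) ^ 2)
        (fun _ _ => sq_nonneg _) hb
    have h3 : S ≤ η * n + S ^ 2 / (η * n) := by
      rw [← sub_nonneg]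
      have h4 : η * n + S ^ 2 / (η * n) - S = ((η * n) ^ 2 + S ^ 2 - S * (η * n)) / (η * n) := by
        field_simp
      rw [h4]
      apply div_nonneg _ (by positivity)
      nlinarith [sq_nonneg (S - η * n), sq_nonneg (S + η * n)]
    have h4 : S ^ 2 / (η * n) ≤
        (∑ b ∈ s, (∑ i ∈ s, (max (c (l b i) t - B) 0 - e)) ^ 2) / (η * n) := by gcongr
    rw [← hS]
    linarith

end Field

/-! ### Line bounds for passage times -/

lemma pt_row_cH {t : Environment} (ht : Nn t) (a b : ℤ) (n : ℕ) :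
    passageTime t (a, b) (a + n, b) ≤ ∑ i ∈ Finset.Ico a (a + n), cH (i, b) t := by
  induction n with
  | zero => simp [pt_self ht]
  | succ n ih =>
    have h1 : Finset.Ico a (a + (n + 1 : ℕ)) = insert (a + n) (Finset.Ico a (a + n)) := by
      ext i; simp only [Finset.mem_Ico, Finset.mem_insert]; push_cast; omega
    rw [h1, Finset.sum_insert (by simp)]
    have h2 := pt_triangle ht (a, b) (a + n, b) (a + (n + 1 : ℕ), b)
    have h3 := pt_le_cH ht (a + n, b)
    have h4 : ((a + n, b) : ℤ × ℤ) + (1, 0) = (a + (n + 1 : ℕ), b) := by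
      simp [add_assoc]
    rw [h4] at h3
    linarith

lemma pt_col_cV {t : Environment} (ht : Nn t) (a b : ℤ) (n : ℕ) :
    passageTime t (a, b) (a, b + n) ≤ ∑ i ∈ Finset.Ico b (b + n), cV (a, i) t := by
  induction n with
  | zero => simp [pt_self ht]
  | succ n ih =>
    have h1 : Finset.Ico b (b + (n + 1 : ℕ)) = insert (b + n) (Finset.Ico b (b + n)) := by
      ext i; simp only [Finset.mem_Ico, Finset.mem_insert]; push_cast; omega
    rw [h1, Finset.sum_insert (by simp)]
    have h2 := pt_triangle ht (a, b) (a, b + n) (a, b + (n + 1 : ℕ))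
    have h3 := pt_le_cV ht (a, b + n)
    have h4 : ((a, b + n) : ℤ × ℤ) + (0, 1) = (a, b + (n + 1 : ℕ)) := by
      simp [add_assoc]
    rw [h4] at h3
    linarith

/-- a segment of a line, truncated at level `B` -/
lemma seg_le {c : ℤ → ℝ} (hc : ∀ i, 0 ≤ c i) {B : ℝ} (hB : 0 ≤ B) {s : Finset ℤ} {a : ℤ} {k : ℕ}
    (hs : Finset.Ico a (a + k) ⊆ s) :
    ∑ i ∈ Finset.Ico a (a + k), c i ≤ B * k + ∑ i ∈ s, max (c i - B) 0 := by
  have h1 : ∀ i, c i ≤ B + max (c i - B) 0 := fun i => by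
    linarith [le_max_left (c i - B) 0]
  calc ∑ i ∈ Finset.Ico a (a + k), c i ≤ ∑ i ∈ Finset.Ico a (a + k), (B + max (c i - B) 0) :=
        Finset.sum_le_sum fun i _ => h1 i
    _ = B * k + ∑ i ∈ Finset.Ico a (a + k), max (c i - B) 0 := by
        rw [Finset.sum_add_distrib, Finset.sum_const, Int.card_Ico, nsmul_eq_mul,
          add_sub_cancel_left, Int.toNat_natCast, mul_comm]
    _ ≤ B * k + ∑ i ∈ s, max (c i - B) 0 :=
        add_le_add le_rfl (Finset.sum_le_sum_of_subset_of_nonneg hs fun i _ _ =>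
          le_max_right _ _)

/-- **Local control**: `T(x,y) ≤ A |y-x|₁ + E_n` on the box of radius `n`, with `E E_n ≤ η n`. -/
def LocCtl (G : Measure ℝ) : Prop :=
  ∀ η : ℝ, 0 < η → ∃ A : ℝ, 0 ≤ A ∧ ∀ n : ℕ, 0 < n → ∃ E : Environment → ℝ,
    Integrable E (iidLaw G) ∧ ∫ t, E t ∂(iidLaw G) ≤ η * n ∧
    ∀ t, Nn t → ∀ x ∈ box n, ∀ y ∈ box n, passageTime t x y ≤ A * n1 (y - x) + E t

theorem locCtl_of_law213 (hG : M51.Law213 G) : LocCtl G := by
  intro η hη
  have hfH := field_cH hG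
  have hfV := field_cV hG
  -- the truncation level
  obtain ⟨δ, hδ0, hδ1, hδ2⟩ : ∃ δ : ℝ, 0 < δ ∧ 3 * δ ≤ η / 8 ∧ 9 * 13 * δ / (η / 8) ≤ η / 8 := by
    refine ⟨min (η / 24) ((η / 8) * (η / 8) / (9 * 13)), by positivity, ?_, ?_⟩
    · have := min_le_left (η / 24) ((η / 8) * (η / 8) / (9 * 13))
      linarith
    · have := min_le_right (η / 24) ((η / 8) * (η / 8) / (9 * 13))
      rw [div_le_iff₀ (by positivity)]
      rw [le_div_iff₀ (by norm_num)] at this
      linarith
  obtain ⟨B1, hB1, hB1a, hB1b⟩ := hfH.tr_small hδ0 hG.h0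
  obtain ⟨B2, hB2, hB2a, hB2b⟩ := hfV.tr_small hδ0 hG.h0
  refine ⟨B1 + B2, by positivity, fun n hn => ?_⟩
  have hnR : (0 : ℝ) < n := by exact_mod_cast hn
  have hn1 : (1 : ℝ) ≤ n := by exact_mod_cast hn
  obtain ⟨s, hs⟩ : ∃ s : Finset ℤ, s = Finset.Icc (-(n : ℤ)) n := ⟨_, rfl⟩
  have hcard : s.card = 2 * n + 1 := by
    rw [hs, Int.card_Icc]
    omega
  obtain ⟨W1, hW1a, hW1b, hW1c⟩ := hfH.sup_line B1 (η / 8) (by positivity) s n hn hcard
    (fun b i => (i, b)) (fun b i j h => Or.inl h)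
  obtain ⟨W2, hW2a, hW2b, hW2c⟩ := hfV.sup_line B2 (η / 8) (by positivity) s n hn hcard
    (fun a i => (a, i)) (fun a i j h => Or.inr h)
  have hbound : ∀ e V : ℝ, e ≤ δ → V ≤ δ → 0 ≤ V →
      (2 * n + 1) * e + η / 8 * n + (2 * n + 1) ^ 2 * 13 * V / (η / 8 * n) ≤ 3 * (η / 8) * n := by
    intro e V he hV hV0
    have h1 : (2 * (n : ℝ) + 1) * e ≤ 3 * n * δ := by
      calc (2 * (n : ℝ) + 1) * e ≤ (2 * n + 1) * δ := by gcongr
        _ ≤ 3 * n * δ := by nlinarith
    have h2 : (2 * (n : ℝ) + 1) ^ 2 * 13 * V / (η / 8 * n) ≤ 9 * 13 * δ / (η / 8) * n := by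
      have h3 : (2 * (n : ℝ) + 1) ^ 2 ≤ 9 * n ^ 2 := by nlinarith
      calc (2 * (n : ℝ) + 1) ^ 2 * 13 * V / (η / 8 * n) ≤ (9 * n ^ 2) * 13 * δ / (η / 8 * n) := by
            gcongr
        _ = 9 * 13 * δ / (η / 8) * n := by field_simp
    have h3 : 3 * n * δ ≤ η / 8 * n := by nlinarith
    have h4 : 9 * 13 * δ / (η / 8) * n ≤ η / 8 * n := by gcongr
    linarith
  refine ⟨fun t => W1 t + W2 t, hW1a.add hW2a, ?_, ?_⟩
  · rw [integral_add hW1a hW2a]
    have h1 := hW1b.trans (hbound _ _ hB1a hB1b (integral_nonneg fun t => sq_nonneg _))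
    have h2 := hW2b.trans (hbound _ _ hB2a hB2b (integral_nonneg fun t => sq_nonneg _))
    have : 0 ≤ η * n := by positivity
    linarith
  · intro t ht x hx y hy
    obtain ⟨a, b⟩ := x
    obtain ⟨c, d⟩ := y
    rw [mem_box] at hx hy
    simp only at hx hy
    -- row part
    have hrow : passageTime t (a, b) (c, b) ≤ B1 * (c - a).natAbs + W1 t := by
      have key : ∀ a c : ℤ, a ≤ c → -(n : ℤ) ≤ a → c ≤ n →
          passageTime t (a, b) (c, b) ≤ B1 * (c - a).natAbs + W1 t := by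
        intro a c hac ha hc'
        have h1 := pt_row_cH ht a b (c - a).toNat
        rw [Int.toNat_of_nonneg (by omega), add_sub_cancel] at h1
        have h2 := seg_le (c := fun i => cH (i, b) t) (fun i => hfH.nn _ t ht) hB1 (s := s)
          (a := a) (k := (c - a).toNat) (by
            rw [hs]
            intro i hi
            rw [Finset.mem_Ico] at hi
            rw [Finset.mem_Icc]
            omega)
        rw [Int.toNat_of_nonneg (by omega), add_sub_cancel] at h2
        have h3 := hW1c t b (by rw [hs, Finset.mem_Icc]; omega)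
        have h4 : (((c - a).toNat : ℕ) : ℝ) = (((c - a).natAbs : ℕ) : ℝ) := by
          congr 1; omega
        rw [h4] at h2
        linarith
      rcases le_total a c with hac | hac
      · exact key a c hac hx.1.1 hy.1.2
      · rw [pt_symm ht, show (c - a).natAbs = (a - c).natAbs by omega]
        exact key c a hac hy.1.1 hx.1.2
    have hcol : passageTime t (c, b) (c, d) ≤ B2 * (d - b).natAbs + W2 t := by
      have key : ∀ b d : ℤ, b ≤ d → -(n : ℤ) ≤ b → d ≤ n →
          passageTime t (c, b) (c, d) ≤ B2 * (d - b).natAbs + W2 t := by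
        intro b d hbd hb hd'
        have h1 := pt_col_cV ht c b (d - b).toNat
        rw [Int.toNat_of_nonneg (by omega), add_sub_cancel] at h1
        have h2 := seg_le (c := fun i => cV (c, i) t) (fun i => hfV.nn _ t ht) hB2 (s := s)
          (a := b) (k := (d - b).toNat) (by
            rw [hs]
            intro i hi
            rw [Finset.mem_Ico] at hi
            rw [Finset.mem_Icc]
            omega)
        rw [Int.toNat_of_nonneg (by omega), add_sub_cancel] at h2
        have h3 := hW2c t c (by rw [hs, Finset.mem_Icc]; omega)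
        have h4 : (((d - b).toNat : ℕ) : ℝ) = (((d - b).natAbs : ℕ) : ℝ) := by
          congr 1; omega
        rw [h4] at h2
        linarith
      rcases le_total b d with hbd | hbd
      · exact key b d hbd hx.2.1 hy.2.2
      · rw [pt_symm ht, show (d - b).natAbs = (b - d).natAbs by omega]
        exact key d b hbd hy.2.1 hx.2.2
    have htri := pt_triangle ht (a, b) (c, b) (c, d)
    have hn1 : (n1 ((c, d) - (a, b)) : ℝ) = ((c - a).natAbs : ℝ) + ((d - b).natAbs : ℝ) := by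
      simp only [n1, Prod.mk_sub_mk]
      push_cast
      rfl
    rw [hn1]
    have q1 : (0 : ℝ) ≤ ((c - a).natAbs : ℝ) := Nat.cast_nonneg _
    have q2 : (0 : ℝ) ≤ ((d - b).natAbs : ℝ) := Nat.cast_nonneg _
    change passageTime t (a, b) (c, d) ≤
      (B1 + B2) * (((c - a).natAbs : ℝ) + ((d - b).natAbs : ℝ)) + (W1 t + W2 t)
    nlinarith [mul_nonneg hB1 q2, mul_nonneg hB2 q1]

end Crest.Agent.R151.K
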