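import Crest.Agent.R151.K9e

/-!
# R151/K9f — almost sure local control (owner helper507)

`fuk_nagaev` : large deviations for sums of i.i.d. nonnegative variables with two moments.
`Field.as_line` : almost surely, eventually in `n`, every segment of a line of the box of radius `n`
has field sum at most `A · length + η n`.
-/

set_option autoImplicit false
set_option linter.unusedSectionVars false

open MeasureTheory Filter ProbabilityTheory
open Crest.ProbabilityR.FirstPassage

namespace Crest.Agent.R151.K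

section fn

variable {Ω : Type*} [MeasurableSpace Ω] {P : Measure Ω} [IsProbabilityMeasure P]

lemma exp_le_quad {x y : ℝ} (hx : 0 ≤ x) (hxy : x ≤ y) :
    Real.exp x ≤ 1 + x + x ^ 2 * Real.exp y := by
  -- `e^x - 1 - x ≤ x² e^x`
  have h1 : Real.exp x ≤ 1 + x + x ^ 2 * Real.exp x := by
    have h2 : 1 - x ≤ Real.exp (-x) := by
      have := Real.add_one_le_exp (-x)
      linarith
    rcases le_total x 1 with h | h
    · -- `e^x (1 - x^2) ≤ 1 + x`
      have h3 : (1 - x) * Real.exp x ≤ 1 := by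
        calc (1 - x) * Real.exp x ≤ Real.exp (-x) * Real.exp x := by gcongr
          _ = 1 := by rw [← Real.exp_add]; simp
      have h4 : (1 + x) * ((1 - x) * Real.exp x) ≤ (1 + x) * 1 := by gcongr
      nlinarith
    · have h3 : 1 ≤ x ^ 2 := by nlinarith
      have h4 : Real.exp x ≤ x ^ 2 * Real.exp x := by
        nlinarith [Real.exp_pos x]
      linarith
  have h2 : x ^ 2 * Real.exp x ≤ x ^ 2 * Real.exp y := by gcongr
  linarith

/-- exponential moment of a truncated variable -/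
lemma exp_trunc {X : Ω → ℝ} (hX : Measurable X) (hX0 : ∀ᵐ ω ∂P, 0 ≤ X ω) {e V : ℝ}
    (h2 : Integrable (fun ω => X ω ^ 2) P) (he : ∫ ω, X ω ∂P ≤ e) (hV : ∫ ω, X ω ^ 2 ∂P ≤ V)
    {l y : ℝ} (hl : 0 ≤ l) (hy : 0 ≤ y) :
    Integrable (fun ω => Real.exp (l * min (X ω) y)) P ∧
    ∫ ω, Real.exp (l * min (X ω) y) ∂P ≤ Real.exp (l * e + l ^ 2 * V * Real.exp (l * y)) := by
  have hX1 : Integrable X P :=
    ((memLp_two_iff_integrable_sq hX.aestronglyMeasurable).2 h2).integrable (by norm_num)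
  have hm : Measurable fun ω => Real.exp (l * min (X ω) y) := by fun_prop
  have hI : Integrable (fun ω => Real.exp (l * min (X ω) y)) P := by
    refine (integrable_const (Real.exp (l * y))).mono' hm.aestronglyMeasurable ?_
    filter_upwards with ω
    rw [Real.norm_eq_abs, abs_of_nonneg (Real.exp_nonneg _), Real.exp_le_exp]
    exact mul_le_mul_of_nonneg_left (min_le_right _ _) hl
  refine ⟨hI, ?_⟩
  have hR : Integrable (fun ω => 1 + l * X ω + l ^ 2 * Real.exp (l * y) * X ω ^ 2) P :=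
    ((integrable_const (1 : ℝ)).add (hX1.const_mul l)).add (h2.const_mul _)
  have h3 : ∫ ω, Real.exp (l * min (X ω) y) ∂P ≤
      ∫ ω, (1 + l * X ω + l ^ 2 * Real.exp (l * y) * X ω ^ 2) ∂P := by
    refine integral_mono_ae hI hR ?_
    filter_upwards [hX0] with ω hω
    have h4 : 0 ≤ min (X ω) y := le_min hω hy
    have h5 := exp_le_quad (mul_nonneg hl h4) (mul_le_mul_of_nonneg_left (min_le_right (X ω) y) hl)
    have h6 : min (X ω) y ≤ X ω := min_le_left _ _
    have h7 : (l * min (X ω) y) ^ 2 ≤ l ^ 2 * X ω ^ 2 := by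
      rw [mul_pow]
      gcongr
    have h8 : l * min (X ω) y ≤ l * X ω := mul_le_mul_of_nonneg_left h6 hl
    have h9 : (l * min (X ω) y) ^ 2 * Real.exp (l * y) ≤ l ^ 2 * X ω ^ 2 * Real.exp (l * y) := by
      gcongr
    change Real.exp (l * min (X ω) y) ≤ 1 + l * X ω + l ^ 2 * Real.exp (l * y) * X ω ^ 2
    linarith
  have h4 : ∫ ω, (1 + l * X ω + l ^ 2 * Real.exp (l * y) * X ω ^ 2) ∂P =
      1 + l * ∫ ω, X ω ∂P + l ^ 2 * Real.exp (l * y) * ∫ ω, X ω ^ 2 ∂P := by
    have i1 : Integrable (fun ω => 1 + l * X ω) P := (integrable_const (1 : ℝ)).add (hX1.const_mul l)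
    rw [integral_add i1 (h2.const_mul _), integral_add (integrable_const _) (hX1.const_mul l),
      integral_const_mul, integral_const_mul]
    simp
  rw [h4] at h3
  have h5 : l * ∫ ω, X ω ∂P ≤ l * e := mul_le_mul_of_nonneg_left he hl
  have h6 : l ^ 2 * Real.exp (l * y) * ∫ ω, X ω ^ 2 ∂P ≤ l ^ 2 * V * Real.exp (l * y) := by
    have : l ^ 2 * Real.exp (l * y) * ∫ ω, X ω ^ 2 ∂P ≤ l ^ 2 * Real.exp (l * y) * V :=
      mul_le_mul_of_nonneg_left hV (by positivity)
    linarith
  have h7 := Real.add_one_le_exp (l * e + l ^ 2 * V * Real.exp (l * y))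
  linarith

/-- **Fuk–Nagaev inequality** (basic form). The independence is only used in the form `hprod`. -/
lemma fuk_nagaev {ι : Type*} {X : ι → Ω → ℝ} (s : Finset ι)
    (hX : ∀ i, Measurable (X i)) (hX0 : ∀ i, ∀ᵐ ω ∂P, 0 ≤ X i ω) {e V : ℝ} (he0 : 0 ≤ e)
    (hV0 : 0 ≤ V)
    (h2 : ∀ i, Integrable (fun ω => X i ω ^ 2) P) (he : ∀ i, ∫ ω, X i ω ∂P ≤ e)
    (hV : ∀ i, ∫ ω, X i ω ^ 2 ∂P ≤ V) {N : ℕ} (hN : s.card ≤ N) {l y x q : ℝ} (hl : 0 ≤ l)
    (hy : 0 ≤ y) (hq : ∀ i, P.real {ω | y < X i ω} ≤ q) (hq0 : 0 ≤ q)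
    (hprod : ∫ ω, ∏ i ∈ s, Real.exp (l * min (X i ω) y) ∂P =
      ∏ i ∈ s, ∫ ω, Real.exp (l * min (X i ω) y) ∂P) :
    P.real {ω | x < ∑ i ∈ s, X i ω} ≤ N * q +
      Real.exp (-(l * x) + N * (l * e + l ^ 2 * V * Real.exp (l * y))) := by
  have hcard : (s.card : ℝ) ≤ N := by exact_mod_cast hN
  -- truncation
  have hsub : {ω | x < ∑ i ∈ s, X i ω} ⊆ (⋃ i ∈ s, {ω | y < X i ω}) ∪
      {ω | Real.exp (l * x) ≤ ∏ i ∈ s, Real.exp (l * min (X i ω) y)} := by
    intro ω hω
    by_cases h : ∃ i ∈ s, y < X i ω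
    · left
      simpa using h
    · right
      push Not at h
      simp only [Set.mem_ofPred_eq] at hω ⊢
      rw [← Real.exp_sum, ← Finset.mul_sum, Real.exp_le_exp]
      refine mul_le_mul_of_nonneg_left ?_ hl
      have : ∑ i ∈ s, min (X i ω) y = ∑ i ∈ s, X i ω :=
        Finset.sum_congr rfl fun i hi => min_eq_left (h i hi)
      rw [this]
      exact hω.le
  have h3 : P.real (⋃ i ∈ s, {ω | y < X i ω}) ≤ N * q := by
    refine (measureReal_biUnion_finset_le _ _).trans ?_
    refine (Finset.sum_le_card_nsmul _ _ q fun i _ => hq i).trans ?_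
    rw [nsmul_eq_mul]
    gcongr
  -- the truncated sum
  have hmom : ∀ i, ∫ ω, Real.exp (l * min (X i ω) y) ∂P ≤
      Real.exp (l * e + l ^ 2 * V * Real.exp (l * y)) :=
    fun i => (exp_trunc (hX i) (hX0 i) (h2 i) (he i) (hV i) hl hy).2
  have hmeas : Measurable fun ω => ∏ i ∈ s, Real.exp (l * min (X i ω) y) :=
    Finset.measurable_prod _ fun i _ => (((hX i).min measurable_const).const_mul l).exp
  have h4 : Integrable (fun ω => ∏ i ∈ s, Real.exp (l * min (X i ω) y)) P := by
    refine (integrable_const (∏ _i ∈ s, Real.exp (l * y))).mono' hmeas.aestronglyMeasurable ?_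
    filter_upwards with ω
    rw [Real.norm_eq_abs, abs_of_nonneg (Finset.prod_nonneg fun i _ => Real.exp_nonneg _)]
    refine Finset.prod_le_prod (fun i _ => Real.exp_nonneg _) fun i _ => ?_
    rw [Real.exp_le_exp]
    exact mul_le_mul_of_nonneg_left (min_le_right _ _) hl
  have h5 : ∫ ω, ∏ i ∈ s, Real.exp (l * min (X i ω) y) ∂P ≤
      Real.exp (N * (l * e + l ^ 2 * V * Real.exp (l * y))) := by
    rw [hprod]
    calc ∏ i ∈ s, ∫ ω, Real.exp (l * min (X i ω) y) ∂P
        ≤ ∏ _i ∈ s, Real.exp (l * e + l ^ 2 * V * Real.exp (l * y)) :=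
          Finset.prod_le_prod (fun i _ => integral_nonneg fun ω => Real.exp_nonneg _)
            fun i _ => hmom i
      _ = Real.exp (s.card * (l * e + l ^ 2 * V * Real.exp (l * y))) := by
          rw [Finset.prod_const, ← Real.exp_nat_mul]
      _ ≤ _ := by
          rw [Real.exp_le_exp]
          gcongr
  have h6 := mul_meas_ge_le_integral_of_nonneg (μ := P)
    (f := fun ω => ∏ i ∈ s, Real.exp (l * min (X i ω) y))
    (Filter.Eventually.of_forall fun ω => Finset.prod_nonneg fun i _ => Real.exp_nonneg _) h4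
    (Real.exp (l * x))
  have h7 : P.real {ω | Real.exp (l * x) ≤ ∏ i ∈ s, Real.exp (l * min (X i ω) y)} ≤
      Real.exp (-(l * x) + N * (l * e + l ^ 2 * V * Real.exp (l * y))) := by
    rw [Real.exp_add, Real.exp_neg, ← div_eq_inv_mul, le_div_iff₀ (Real.exp_pos _), mul_comm]
    exact h6.trans h5
  exact (measureReal_mono hsub).trans ((measureReal_union_le _ _).trans (add_le_add h3 h7))

/-- second moments and dyadic tails -/
lemma summable_tail {X : Ω → ℝ} (hX : Measurable X)
    (h2 : Integrable (fun ω => X ω ^ 2) P) {a : ℝ} (ha : 0 < a) :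
    Summable fun j : ℕ => (4 : ℝ) ^ j * P.real {ω | a * 2 ^ j < X ω} := by
  have hpt : ∀ (J : ℕ) (z : ℝ), ∑ j ∈ Finset.range J, (4 : ℝ) ^ j * (if a * 2 ^ j < z then 1 else 0)
      ≤ 4 / 3 * (z / a) ^ 2 := by
    intro J z
    induction J with
    | zero => simp; positivity
    | succ J ih =>
      by_cases h : a * 2 ^ J < z
      · have h1 : ∑ j ∈ Finset.range (J + 1), (4 : ℝ) ^ j * (if a * 2 ^ j < z then 1 else 0) ≤
            ∑ j ∈ Finset.range (J + 1), (4 : ℝ) ^ j := by
          refine Finset.sum_le_sum fun j _ => ?_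
          split_ifs <;> simp
        have h2 : ∑ j ∈ Finset.range (J + 1), (4 : ℝ) ^ j ≤ 4 / 3 * 4 ^ J := by
          rw [geom_sum_eq (by norm_num)]
          rw [pow_succ]
          linarith
        have h3 : (4 : ℝ) ^ J ≤ (z / a) ^ 2 := by
          have h4 : (2 : ℝ) ^ J ≤ z / a := by
            rw [le_div_iff₀ ha]; linarith
          calc (4 : ℝ) ^ J = (2 ^ J) ^ 2 := by rw [← pow_mul, mul_comm, pow_mul]; norm_num
            _ ≤ (z / a) ^ 2 := by gcongr
        linarith
      · rw [Finset.sum_range_succ, if_neg h, mul_zero, add_zero]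
        exact ih
  refine summable_of_sum_range_le (c := 4 / 3 * (∫ ω, X ω ^ 2 ∂P) / a ^ 2) (fun j => by positivity)
    fun J => ?_
  have hms : ∀ j : ℕ, MeasurableSet {ω | a * 2 ^ j < X ω} := fun j =>
    measurableSet_lt measurable_const hX
  have h1 : ∀ j : ℕ, P.real {ω | a * 2 ^ j < X ω} =
      ∫ ω, (if a * 2 ^ j < X ω then (1 : ℝ) else 0) ∂P := by
    intro j
    have : ∫ ω, (if a * 2 ^ j < X ω then (1 : ℝ) else 0) ∂P =
        ∫ ω, ({ω | a * 2 ^ j < X ω}).indicator (fun _ => (1 : ℝ)) ω ∂P := by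
      congr 1
    rw [this, integral_indicator (hms j)]
    simp
  have hint : ∀ j : ℕ, Integrable (fun ω => (4 : ℝ) ^ j * (if a * 2 ^ j < X ω then (1 : ℝ) else 0))
      P := by
    intro j
    have : Integrable (({ω | a * 2 ^ j < X ω}).indicator (fun _ => (1 : ℝ))) P :=
      (integrable_const _).indicator (hms j)
    exact (this.const_mul ((4 : ℝ) ^ j)).congr (Filter.Eventually.of_forall fun ω => rfl)
  calc ∑ j ∈ Finset.range J, (4 : ℝ) ^ j * P.real {ω | a * 2 ^ j < X ω}
      = ∫ ω, ∑ j ∈ Finset.range J, (4 : ℝ) ^ j * (if a * 2 ^ j < X ω then (1 : ℝ) else 0) ∂P := by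
        rw [integral_finsetSum _ fun j _ => hint j]
        refine Finset.sum_congr rfl fun j _ => ?_
        rw [integral_const_mul, h1]
    _ ≤ ∫ ω, 4 / 3 * (X ω / a) ^ 2 ∂P := by
        refine integral_mono (integrable_finsetSum _ fun j _ => hint j) ?_ fun ω => hpt J (X ω)
        have := (h2.div_const (a ^ 2)).const_mul (4 / 3 : ℝ)
        simpa only [div_pow] using this
    _ = 4 / 3 * (∫ ω, X ω ^ 2 ∂P) / a ^ 2 := by
        simp only [div_pow]
        rw [integral_const_mul, integral_div]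
        ring

end fn

/-! ### Products of functions of disjoint edge sets -/

variable {G : Measure ℝ} [IsProbabilityMeasure G]

lemma indep_of_disjoint' {S T : Set (Sym2 (ℤ × ℤ))} (h : Disjoint S T)
    {f g : Environment → ℝ} (hf : Measurable f) (hg : Measurable g)
    (hfd : DependsOn f S) (hgd : DependsOn g T) : IndepFun f g (iidLaw G) := by
  have h1 := A.indep_sig G h
  rw [IndepFun_iff_Indep]
  exact indep_of_indep_of_le_left (indep_of_indep_of_le_right h1 (A.comap_le_sig hg hgd))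
    (A.comap_le_sig hf hfd)

lemma prod_integral {ι : Type*} (s : Finset ι) (F : ι → Environment → ℝ)
    (S : ι → Set (Sym2 (ℤ × ℤ))) (hF : ∀ i, Measurable (F i)) (hd : ∀ i, DependsOn (F i) (S i))
    (hS : ∀ i ∈ s, ∀ j ∈ s, i ≠ j → Disjoint (S i) (S j)) :
    ∫ t, ∏ i ∈ s, F i t ∂(iidLaw G) = ∏ i ∈ s, ∫ t, F i t ∂(iidLaw G) := by
  classical
  induction s using Finset.induction_on with
  | empty => simp
  | insert a s ha ih =>
    rw [Finset.prod_insert ha, ← ih fun i hi j hj hij =>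
      hS i (Finset.mem_insert_of_mem hi) j (Finset.mem_insert_of_mem hj) hij]
    have hdep : DependsOn (fun t => ∏ i ∈ s, F i t) (⋃ i ∈ s, S i) := by
      intro t t' htt
      refine Finset.prod_congr rfl fun i hi => ?_
      exact hd i fun e he => htt e (Set.mem_biUnion hi he)
    have hdisj : Disjoint (S a) (⋃ i ∈ s, S i) := by
      rw [Set.disjoint_iUnion₂_right]
      intro i hi
      exact hS a (Finset.mem_insert_self a s) i (Finset.mem_insert_of_mem hi)
        (by rintro rfl; exact ha hi)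
    have hm : Measurable fun t => ∏ i ∈ s, F i t := Finset.measurable_prod _ fun i _ => hF i
    have hind := indep_of_disjoint' (G := G) hdisj (hF a) hm (hd a) hdep
    have := hind.integral_mul_eq_mul_integral (hF a).aestronglyMeasurable hm.aestronglyMeasurable
    rw [← this]
    refine integral_congr_ae (Filter.Eventually.of_forall fun t => ?_)
    change ∏ i ∈ insert a s, F i t = F a t * ∏ i ∈ s, F i t
    rw [Finset.prod_insert ha]

namespace Field

variable {c : ℤ × ℤ → Environment → ℝ} (hc : Field G c)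
include hc

lemma sum_tail (h0 : G (Set.Iio 0) = 0) (s : Finset ℤ) (l : ℤ → ℤ × ℤ)
    (hl : ∀ i ∈ s, ∀ j ∈ s, i ≠ j → 7 ≤ |(l i).1 - (l j).1| ∨ 7 ≤ |(l i).2 - (l j).2|)
    {L : ℕ} (hL : 0 < L) (hs : s.card ≤ L) :
    (iidLaw G).real {t | ((∫ t, c 0 t ∂(iidLaw G)) + 1) * L < ∑ i ∈ s, c (l i) t} ≤
      L * (iidLaw G).real {t | (1 / 8 : ℝ) * L < c 0 t} +
      Real.exp (256 * ∫ t, c 0 t ^ 2 ∂(iidLaw G)) / (L : ℝ) ^ 4 := by
  obtain ⟨e, he⟩ : ∃ e, e = ∫ t, c 0 t ∂(iidLaw G) := ⟨_, rfl⟩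
  obtain ⟨V, hV⟩ : ∃ V, V = ∫ t, c 0 t ^ 2 ∂(iidLaw G) := ⟨_, rfl⟩
  have he0 : 0 ≤ e := by
    rw [he]
    refine integral_nonneg_of_ae ?_
    filter_upwards [ae_Nn (G := G) h0] with t ht using hc.nn 0 t ht
  have hV0 : 0 ≤ V := by rw [hV]; exact integral_nonneg fun t => sq_nonneg _
  have hLR : (0 : ℝ) < L := by exact_mod_cast hL
  have hL1 : (1 : ℝ) ≤ L := by exact_mod_cast hL
  rw [← he, ← hV]
  have hlog0 : 0 ≤ Real.log L := Real.log_nonneg hL1
  have key := fuk_nagaev (P := iidLaw G) (X := fun i => c (l i)) s (fun i => hc.meas _)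
    (fun i => by filter_upwards [ae_Nn (G := G) h0] with t ht using hc.nn _ t ht) he0 hV0
    (fun i => hc.sq' _)
    (fun i => by rw [he, ← hc.integral_eq (fun x => x) measurable_id (l i)])
    (fun i => by rw [hV, ← hc.integral_eq (fun x => x ^ 2) (measurable_id.pow_const 2) (l i)])
    hs (l := 4 * Real.log L / L) (y := (1 / 8 : ℝ) * L) (x := (e + 1) * L)
    (q := (iidLaw G).real {t | (1 / 8 : ℝ) * L < c 0 t}) (by positivity) (by positivity)
    (fun i => by
      have h1 : (iidLaw G).real {t | (1 / 8 : ℝ) * L < c (l i) t} =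
          (iidLaw G).real {t | (1 / 8 : ℝ) * L < c 0 t} := by
        have h2 := (mp_act (G := G) (tr (l i))).measureReal_preimage
          (s := {t | (1 / 8 : ℝ) * L < c 0 t})
          (measurableSet_lt measurable_const (hc.meas 0)).nullMeasurableSet
        rw [← h2]
        congr 1
        ext t
        simp only [Set.mem_preimage, Set.mem_ofPred_eq, hc.cov]
      exact h1.le) measureReal_nonneg
    (prod_integral s _ (fun i => edgesIn (M51.sbox (l i) 3))
      (fun i => (((hc.meas _).min measurable_const).const_mul _).exp)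
      (fun i t t' htt => by
        change Real.exp _ = Real.exp _
        rw [hc.dep (l i) htt])
      (fun i hi j hj hij => disjoint_edges (hl i hi j hj hij)))
  refine key.trans ?_
  have e1 : 4 * Real.log L / L * (1 / 8 * L) = Real.log L / 2 := by
    field_simp
    ring
  have e2 : Real.exp (Real.log L / 2) = Real.sqrt L := by
    rw [Real.sqrt_eq_rpow, Real.rpow_def_of_pos hLR]
    congr 1; ring
  rw [e1, e2]
  -- `(log L)² ≤ 16 √L`
  have hlog : Real.log L ^ 2 ≤ 16 * Real.sqrt L := by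
    have h1 : Real.log L ≤ 4 * (L : ℝ) ^ (1 / 4 : ℝ) := by
      have := Real.log_le_rpow_div hLR.le (show (0 : ℝ) < 1 / 4 by norm_num)
      linarith
    have h2 : ((L : ℝ) ^ (1 / 4 : ℝ)) ^ 2 = Real.sqrt L := by
      rw [Real.sqrt_eq_rpow, ← Real.rpow_natCast, ← Real.rpow_mul hLR.le]
      norm_num
    calc Real.log L ^ 2 ≤ (4 * (L : ℝ) ^ (1 / 4 : ℝ)) ^ 2 := by gcongr
      _ = 16 * Real.sqrt L := by rw [mul_pow, h2]; norm_num
  have hsq : Real.sqrt L * Real.sqrt L = L := Real.mul_self_sqrt hLR.le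
  have e3 : -(4 * Real.log L / L * ((e + 1) * L)) + L * (4 * Real.log L / L * e +
      (4 * Real.log L / L) ^ 2 * V * Real.sqrt L) ≤ -(4 * Real.log L) + 256 * V := by
    have h3 : (L : ℝ) * ((4 * Real.log L / L) ^ 2 * V * Real.sqrt L) =
        16 * V * (Real.log L ^ 2 * Real.sqrt L / L) := by
      field_simp
      ring
    have h4 : Real.log L ^ 2 * Real.sqrt L / L ≤ 16 := by
      rw [div_le_iff₀ hLR]
      calc Real.log L ^ 2 * Real.sqrt L ≤ 16 * Real.sqrt L * Real.sqrt L := by gcongr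
        _ = 16 * L := by rw [mul_assoc, hsq]
    have h5 : 16 * V * (Real.log L ^ 2 * Real.sqrt L / L) ≤ 16 * V * 16 := by gcongr
    have h6 : -(4 * Real.log L / L * ((e + 1) * L)) + L * (4 * Real.log L / L * e) =
        -(4 * Real.log L) := by
      field_simp
      ring
    rw [mul_add, h3]
    linarith
  have e4 : Real.exp (-(4 * Real.log L) + 256 * V) = Real.exp (256 * V) / (L : ℝ) ^ 4 := by
    rw [Real.exp_add, Real.exp_neg, show 4 * Real.log (L : ℝ) = ((4 : ℕ) : ℝ) * Real.log L by norm_num,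
      Real.exp_nat_mul, Real.exp_log hLR, mul_comm, ← div_eq_mul_inv]
  gcongr
  rw [← e4]
  exact Real.exp_le_exp.2 e3

/-- the constant of the line bounds -/
noncomputable def cA (G : Measure ℝ) (c : ℤ × ℤ → Environment → ℝ) : ℝ :=
  7 * ((∫ t, c 0 t ∂(iidLaw G)) + 1)

/-- a block of `L` consecutive points of a line -/
lemma block_tail (h0 : G (Set.Iio 0) = 0) (l : ℤ → ℤ × ℤ)
    (hl : ∀ i j, 7 ≤ |i - j| → 7 ≤ |(l i).1 - (l j).1| ∨ 7 ≤ |(l i).2 - (l j).2|)
    {L : ℕ} (hL : 0 < L) (a : ℤ) :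
    (iidLaw G).real {t | cA G c * L < ∑ i ∈ Finset.Ico a (a + L), c (l i) t} ≤
      7 * (L * (iidLaw G).real {t | (1 / 8 : ℝ) * L < c 0 t} +
      Real.exp (256 * ∫ t, c 0 t ^ 2 ∂(iidLaw G)) / (L : ℝ) ^ 4) := by
  have hsub : {t | cA G c * L < ∑ i ∈ Finset.Ico a (a + L), c (l i) t} ⊆
      ⋃ r ∈ Finset.range 7, {t | ((∫ t, c 0 t ∂(iidLaw G)) + 1) * L <
        ∑ i ∈ (Finset.Ico a (a + L)).filter (fun i => (i % 7).toNat = r), c (l i) t} := by
    intro t ht
    simp only [Set.mem_iUnion, Set.mem_ofPred_eq] at ht ⊢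
    by_contra hcon
    push Not at hcon
    have h1 : ∑ i ∈ Finset.Ico a (a + L), c (l i) t = ∑ r ∈ Finset.range 7,
        ∑ i ∈ (Finset.Ico a (a + L)).filter (fun i => (i % 7).toNat = r), c (l i) t := by
      rw [Finset.sum_fiberwise_of_maps_to]
      intro i _
      rw [Finset.mem_range]
      omega
    rw [h1] at ht
    have h2 : ∑ r ∈ Finset.range 7,
        ∑ i ∈ (Finset.Ico a (a + L)).filter (fun i => (i % 7).toNat = r), c (l i) t ≤
        ∑ _r ∈ Finset.range 7, ((∫ t, c 0 t ∂(iidLaw G)) + 1) * L :=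
      Finset.sum_le_sum fun r hr => hcon r hr
    rw [Finset.sum_const, Finset.card_range, nsmul_eq_mul] at h2
    unfold cA at ht
    push_cast at h2
    linarith
  refine (measureReal_mono hsub (measure_ne_top _ _)).trans
    ((measureReal_biUnion_finset_le _ _).trans ?_)
  refine (Finset.sum_le_card_nsmul _ _ (L * (iidLaw G).real {t | (1 / 8 : ℝ) * L < c 0 t} +
      Real.exp (256 * ∫ t, c 0 t ^ 2 ∂(iidLaw G)) / (L : ℝ) ^ 4) fun r _ => ?_).trans ?_
  · refine hc.sum_tail h0 _ l ?_ hL ?_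
    · intro i hi j hj hij
      rw [Finset.mem_filter] at hi hj
      refine hl i j ?_
      rw [le_abs]
      omega
    · refine (Finset.card_filter_le _ _).trans ?_
      rw [Int.card_Ico]; omega
  · rw [Finset.card_range, nsmul_eq_mul]; norm_num

end Field

end Crest.Agent.R151.K
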