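import Crest.Agent.R151.K9f

/-!
# R151/K9g — almost sure local control (owner helper507)

`Field.as_line` : almost surely, eventually in `n`, every segment of a line of the box of radius `n`
has field sum at most `A · length + η n`.
`as_ctl` : almost surely, eventually in `n`, `T(x,y) ≤ A |y-x|₁ + η n` for all `x, y` in box `n`.
-/

set_option autoImplicit false
set_option linter.unusedSectionVars false

open MeasureTheory Filter ProbabilityTheory
open Crest.ProbabilityR.FirstPassage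

namespace Crest.Agent.R151.K

variable {G : Measure ℝ} [IsProbabilityMeasure G] {m : ℝ} {μ : ℝ × ℝ → ℝ}

/-- covering a segment by blocks -/
lemma sum_cover {f : ℤ → ℝ} (hf : ∀ i, 0 ≤ f i) {L : ℕ} (hL : 0 < L) {B : ℝ} (hB : 0 ≤ B)
    (a : ℤ) (k : ℕ)
    (h : ∀ q : ℤ, a / L ≤ q → q ≤ (a + k - 1) / L →
      ∑ i ∈ Finset.Ico (q * L) (q * L + L), f i ≤ B * L) :
    ∑ i ∈ Finset.Ico a (a + k), f i ≤ B * k + 2 * B * L := by
  have hL' : (0 : ℤ) < L := by exact_mod_cast hL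
  have hLR : (0 : ℝ) < L := by exact_mod_cast hL
  rcases Nat.eq_zero_or_pos k with rfl | hk
  · simp; positivity
  have hk' : (1 : ℤ) ≤ k := by exact_mod_cast hk
  obtain ⟨M, hM⟩ : ∃ M : Finset ℤ, M = Finset.Icc (a / L) ((a + k - 1) / L) := ⟨_, rfl⟩
  have h1 : ∑ i ∈ Finset.Ico a (a + k), f i =
      ∑ q ∈ M, ∑ i ∈ (Finset.Ico a (a + k)).filter (fun i => i / L = q), f i := by
    rw [Finset.sum_fiberwise_of_maps_to]
    intro i hi
    rw [Finset.mem_Ico] at hi
    rw [hM, Finset.mem_Icc]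
    exact ⟨Int.ediv_le_ediv hL' hi.1, Int.ediv_le_ediv hL' (by omega)⟩
  have h2 : ∀ q ∈ M, ∑ i ∈ (Finset.Ico a (a + k)).filter (fun i => i / L = q), f i ≤ B * L := by
    intro q hq
    rw [hM, Finset.mem_Icc] at hq
    refine le_trans ?_ (h q hq.1 hq.2)
    refine Finset.sum_le_sum_of_subset_of_nonneg ?_ fun i _ _ => hf i
    intro i hi
    rw [Finset.mem_filter] at hi
    rw [Finset.mem_Ico]
    have e1 := Int.ediv_mul_le i hL'.ne'
    have e2 := Int.lt_ediv_add_one_mul_self i hL'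
    rw [hi.2] at e1 e2
    constructor
    · exact e1
    · linarith
  rw [h1]
  refine (Finset.sum_le_card_nsmul _ _ _ h2).trans ?_
  rw [nsmul_eq_mul]
  have h3 : (M.card : ℝ) ≤ k / L + 2 := by
    rw [hM, Int.card_Icc]
    have e1 := Int.ediv_mul_le (a + k - 1) hL'.ne'
    have e2 := Int.lt_ediv_add_one_mul_self a hL'
    obtain ⟨u, hu⟩ : ∃ u, u = (a + k - 1) / (L : ℤ) := ⟨_, rfl⟩
    obtain ⟨v, hv⟩ : ∃ v, v = a / (L : ℤ) := ⟨_, rfl⟩
    rw [← hu] at e1
    rw [← hv] at e2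
    rw [← hu, ← hv]
    have huv : v ≤ u := by rw [hu, hv]; exact Int.ediv_le_ediv hL' (by omega)
    have e3 : (((u + 1 - v).toNat : ℕ) : ℝ) = (u : ℝ) + 1 - v := by
      have : (((u + 1 - v).toNat : ℕ) : ℤ) = u + 1 - v := Int.toNat_of_nonneg (by omega)
      have h4 : ((((u + 1 - v).toNat : ℕ) : ℤ) : ℝ) = ((u + 1 - v : ℤ) : ℝ) := by rw [this]
      push_cast at h4
      exact h4
    rw [e3]
    have e1' : (u : ℝ) * L ≤ a + k - 1 := by exact_mod_cast e1
    have e2' : (a : ℝ) < (v + 1) * L := by exact_mod_cast e2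
    have e4 : ((u : ℝ) - v - 1) * L ≤ k := by nlinarith
    have e5 : (u : ℝ) - v - 1 ≤ k / L := by rw [le_div_iff₀ hLR]; exact e4
    linarith
  calc (M.card : ℝ) * (B * L) ≤ (k / L + 2) * (B * L) := by gcongr
    _ = B * k + 2 * B * L := by field_simp

namespace Field

variable {c : ℤ × ℤ → Environment → ℝ} (hc : Field G c)
include hc

lemma cA_nonneg (h0 : G (Set.Iio 0) = 0) : 0 ≤ cA G c := by
  unfold cA
  have : 0 ≤ ∫ t, c 0 t ∂(iidLaw G) := by
    refine integral_nonneg_of_ae ?_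
    filter_upwards [ae_Nn (G := G) h0] with t ht using hc.nn 0 t ht
  positivity

/-- **Almost sure line bound.** -/
theorem as_line (h0 : G (Set.Iio 0) = 0) (l : ℤ → ℤ → ℤ × ℤ)
    (hl : ∀ b i j, 7 ≤ |i - j| → 7 ≤ |(l b i).1 - (l b j).1| ∨ 7 ≤ |(l b i).2 - (l b j).2|)
    {η : ℝ} (hη : 0 < η) :
    ∀ᵐ t ∂(iidLaw G), ∀ᶠ n : ℕ in atTop, ∀ b : ℤ, |b| ≤ n → ∀ (a : ℤ) (k : ℕ),
      -(n : ℤ) ≤ a → a + k ≤ n + 1 →
      ∑ i ∈ Finset.Ico a (a + k), c (l b i) t ≤ cA G c * k + η * n := by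
  have hA := hc.cA_nonneg h0
  obtain ⟨A, hAdef⟩ : ∃ A, A = cA G c := ⟨_, rfl⟩
  rw [← hAdef] at hA
  -- the number of blocks
  obtain ⟨q, hq0, hq⟩ : ∃ q : ℕ, 0 < q ∧ 4 * A / q ≤ η := by
    obtain ⟨q, hq⟩ := exists_nat_gt (4 * A / η)
    refine ⟨q + 1, Nat.succ_pos _, ?_⟩
    rw [div_lt_iff₀ hη] at hq
    rw [div_le_iff₀ (by positivity)]
    push_cast
    nlinarith
  have hqR : (0 : ℝ) < q := by exact_mod_cast hq0
  obtain ⟨V, hV⟩ : ∃ V, V = Real.exp (256 * ∫ t, c 0 t ^ 2 ∂(iidLaw G)) := ⟨_, rfl⟩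
  have hV0 : 0 ≤ V := by rw [hV]; positivity
  -- the bad events
  let bad : ℕ → Set Environment := fun j => if 2 ^ j < 2 * q then ∅ else
    ⋃ b ∈ Finset.Icc (-(2 ^ j : ℤ)) (2 ^ j), ⋃ p ∈ Finset.Icc (-(2 * q + 2 : ℤ)) (2 * q + 2),
      {t | A * ((2 ^ j / q : ℕ) : ℝ) <
        ∑ i ∈ Finset.Ico (p * ((2 ^ j / q : ℕ) : ℤ)) (p * ((2 ^ j / q : ℕ) : ℤ) + ((2 ^ j / q : ℕ) : ℤ)), c (l b i) t}
  have hbad : ∀ j, (iidLaw G).real (bad j) ≤
      (3 * (4 * q + 5) * 7) * ((4 : ℝ) ^ j * (iidLaw G).real {t | (1 / (16 * q : ℝ)) * 2 ^ j < c 0 t}) +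
      (3 * (4 * q + 5) * 7 * V * (2 * q) ^ 4) * (1 / 8 : ℝ) ^ j := by
    intro j
    simp only [bad]
    split_ifs with hj
    · rw [measureReal_empty]
      positivity
    · push Not at hj
      obtain ⟨L, hL⟩ : ∃ L, L = 2 ^ j / q := ⟨_, rfl⟩
      have hLpos : 0 < L := by
        rw [hL]
        exact Nat.div_pos (by omega) hq0
      have hLR : (0 : ℝ) < L := by exact_mod_cast hLpos
      have hL1 : (L : ℝ) ≤ 2 ^ j := by
        have : L ≤ 2 ^ j := by rw [hL]; exact Nat.div_le_self _ _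
        exact_mod_cast this
      have hL2 : (2 : ℝ) ^ j / (2 * q) ≤ L := by
        rw [div_le_iff₀ (by positivity)]
        have h1 : 2 ^ j < (L + 1) * q := by
          rw [hL]
          have := Nat.lt_div_mul_add (a := 2 ^ j) hq0
          linarith [add_mul (2 ^ j / q) 1 q]
        have h2 : 2 ^ j ≤ L * (2 * q) := by nlinarith
        exact_mod_cast h2
      rw [← hL]
      have hblock : ∀ (b p : ℤ), (iidLaw G).real {t | A * (L : ℝ) <
          ∑ i ∈ Finset.Ico (p * (L : ℤ)) (p * (L : ℤ) + (L : ℤ)), c (l b i) t} ≤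
          7 * ((2 : ℝ) ^ j * (iidLaw G).real {t | (1 / (16 * q : ℝ)) * 2 ^ j < c 0 t} +
            V * (2 * q) ^ 4 / (16 : ℝ) ^ j) := by
        intro b p
        have h1 := hc.block_tail h0 (l b) (hl b) hLpos (p * L)
        rw [← hAdef, ← hV] at h1
        refine h1.trans ?_
        have h2 : (iidLaw G).real {t | (1 / 8 : ℝ) * L < c 0 t} ≤
            (iidLaw G).real {t | (1 / (16 * q : ℝ)) * 2 ^ j < c 0 t} := by
          refine measureReal_mono ?_
          intro t ht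
          simp only [Set.mem_ofPred_eq] at ht ⊢
          refine lt_of_le_of_lt ?_ ht
          calc 1 / (16 * q : ℝ) * 2 ^ j = 1 / 8 * (2 ^ j / (2 * q)) := by field_simp; norm_num
            _ ≤ 1 / 8 * L := by gcongr
        have h3 : V / (L : ℝ) ^ 4 ≤ V * (2 * q) ^ 4 / (16 : ℝ) ^ j := by
          rw [div_le_div_iff₀ (by positivity) (by positivity)]
          have h4 : (16 : ℝ) ^ j ≤ (2 * q) ^ 4 * (L : ℝ) ^ 4 := by
            have h5 : (2 : ℝ) ^ j ≤ 2 * q * L := by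
              rw [div_le_iff₀ (by positivity)] at hL2
              linarith
            calc (16 : ℝ) ^ j = (2 ^ j) ^ 4 := by rw [← pow_mul, mul_comm, pow_mul]; norm_num
              _ ≤ (2 * q * L) ^ 4 := by gcongr
              _ = (2 * q) ^ 4 * (L : ℝ) ^ 4 := by ring
          calc V * (16 : ℝ) ^ j ≤ V * ((2 * q) ^ 4 * (L : ℝ) ^ 4) := by gcongr
            _ = V * (2 * q) ^ 4 * (L : ℝ) ^ 4 := by ring
        gcongr
      refine (measureReal_biUnion_finset_le _ _).trans ?_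
      refine (Finset.sum_le_sum fun b _ => (measureReal_biUnion_finset_le _ _).trans
        (Finset.sum_le_card_nsmul _ _ _ fun p _ => hblock b p)).trans ?_
      rw [Finset.sum_const, nsmul_eq_mul, nsmul_eq_mul]
      have hc1 : (((Finset.Icc (-(2 ^ j : ℤ)) (2 ^ j)).card : ℕ) : ℝ) ≤ 3 * 2 ^ j := by
        rw [Int.card_Icc]
        have h5 : ((2 : ℤ) ^ j + 1 - -(2 ^ j)).toNat = 2 * 2 ^ j + 1 := by
          have : ((2 : ℤ) ^ j + 1 - -(2 ^ j)) = ((2 * 2 ^ j + 1 : ℕ) : ℤ) := by push_cast; ring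
          rw [this, Int.toNat_natCast]
        rw [h5]
        push_cast
        have : (1 : ℝ) ≤ 2 ^ j := one_le_pow₀ (by norm_num)
        linarith
      have hc2 : (((Finset.Icc (-(2 * q + 2 : ℤ)) (2 * q + 2)).card : ℕ) : ℝ) = 4 * q + 5 := by
        rw [Int.card_Icc]
        have h5 : ((2 * (q : ℤ) + 2) + 1 - -(2 * q + 2)).toNat = 4 * q + 5 := by omega
        rw [h5]
        push_cast
        ring
      rw [hc2]
      have hfac : (2 : ℝ) ^ j * (1 / 16) ^ j = (1 / 8) ^ j := by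
        rw [← mul_pow]; norm_num
      have h4 : (2 : ℝ) ^ j * 2 ^ j = 4 ^ j := by rw [← mul_pow]; norm_num
      calc (((Finset.Icc (-(2 ^ j : ℤ)) (2 ^ j)).card : ℕ) : ℝ) * ((4 * q + 5) *
            (7 * ((2 : ℝ) ^ j * (iidLaw G).real {t | (1 / (16 * q : ℝ)) * 2 ^ j < c 0 t} +
            V * (2 * q) ^ 4 / (16 : ℝ) ^ j)))
          ≤ (3 * 2 ^ j) * ((4 * q + 5) *
            (7 * ((2 : ℝ) ^ j * (iidLaw G).real {t | (1 / (16 * q : ℝ)) * 2 ^ j < c 0 t} +
            V * (2 * q) ^ 4 / (16 : ℝ) ^ j))) := by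
            refine mul_le_mul_of_nonneg_right hc1 ?_
            positivity
        _ = (3 * (4 * q + 5) * 7) * (((2 : ℝ) ^ j * 2 ^ j) *
              (iidLaw G).real {t | (1 / (16 * q : ℝ)) * 2 ^ j < c 0 t}) +
            (3 * (4 * q + 5) * 7 * V * (2 * q) ^ 4) * ((2 : ℝ) ^ j * (1 / 16) ^ j) := by
            rw [one_div_pow]
            field_simp
        _ = _ := by rw [hfac, h4]
  have hsum : Summable fun j : ℕ =>
      (3 * (4 * q + 5) * 7 : ℝ) * ((4 : ℝ) ^ j * (iidLaw G).real {t | (1 / (16 * q : ℝ)) * 2 ^ j < c 0 t}) +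
      (3 * (4 * q + 5) * 7 * V * (2 * q) ^ 4) * (1 / 8 : ℝ) ^ j :=
    ((summable_tail (hc.meas 0) hc.sq (by positivity)).mul_left _).add
      ((summable_geometric_of_lt_one (by norm_num) (by norm_num)).mul_left _)
  filter_upwards [borel_cantelli hsum hbad, ae_Nn (G := G) h0] with t ht htn
  rw [← hAdef]
  -- the scale of `n`
  have hlog : Tendsto (fun n : ℕ => Nat.log 2 n + 1) atTop atTop := by
    refine tendsto_atTop_mono (fun n => Nat.le_succ _) ?_
    rw [tendsto_atTop_atTop]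
    intro b
    exact ⟨2 ^ b, fun n hn => Nat.le_log_of_pow_le (by norm_num) hn⟩
  filter_upwards [hlog.eventually ht, eventually_ge_atTop (2 * q), eventually_gt_atTop 0]
    with n hn hnq hn0
  intro b hb a k ha hak
  obtain ⟨j, hj⟩ : ∃ j, j = Nat.log 2 n + 1 := ⟨_, rfl⟩
  rw [← hj] at hn
  have hj1 : n < 2 ^ j := by rw [hj]; exact Nat.lt_pow_succ_log_self (by norm_num) n
  have hj2 : 2 ^ j ≤ 2 * n := by
    rw [hj, pow_succ, mul_comm]
    exact Nat.mul_le_mul_left 2 (Nat.pow_log_le_self 2 hn0.ne')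
  have hjq : ¬ 2 ^ j < 2 * q := by omega
  simp only [bad, if_neg hjq, Set.mem_iUnion, not_exists, Set.mem_ofPred_eq, not_lt] at hn
  obtain ⟨L, hL⟩ : ∃ L, L = 2 ^ j / q := ⟨_, rfl⟩
  rw [← hL] at hn
  have hLpos : 0 < L := by
    rw [hL]
    exact Nat.div_pos (by omega) hq0
  have hL' : (0 : ℤ) < L := by exact_mod_cast hLpos
  have hLn : L * q ≤ 2 * n := by
    calc L * q ≤ 2 ^ j := by rw [hL]; exact Nat.div_mul_le_self _ _
      _ ≤ 2 * n := hj2
  have hnL : n < 2 * q * L := by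
    have h1 : 2 ^ j < (L + 1) * q := by
      rw [hL]
      have := Nat.lt_div_mul_add (a := 2 ^ j) hq0
      linarith [add_mul (2 ^ j / q) 1 q]
    nlinarith
  have hnLz : (n : ℤ) < 2 * q * L := by exact_mod_cast hnL
  have hcov := sum_cover (f := fun i => c (l b i) t) (fun i => hc.nn _ t htn) hLpos hA a k (by
    intro p hp1 hp2
    refine hn b ?_ p ?_
    · rw [Finset.mem_Icc]
      rw [abs_le] at hb
      have : (n : ℤ) < 2 ^ j := by exact_mod_cast hj1
      constructor <;> linarith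
    · rw [Finset.mem_Icc]
      have e1 : -(2 * q + 2 : ℤ) ≤ a / L := by
        rw [Int.le_ediv_iff_mul_le hL']
        nlinarith
      have e2 : (a + k - 1) / L ≤ (2 * q + 2 : ℤ) := by
        have : (a + k - 1) / L ≤ (2 * q * L) / L := Int.ediv_le_ediv hL' (by linarith)
        rw [Int.mul_ediv_cancel _ hL'.ne'] at this
        linarith
      constructor <;> linarith)
  refine hcov.trans ?_
  have hfin : 2 * A * (L : ℝ) ≤ η * n := by
    have h1 : (L : ℝ) * q ≤ 2 * n := by exact_mod_cast hLn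
    have h2 : 4 * A ≤ η * q := by rwa [div_le_iff₀ hqR] at hq
    have h3 : 2 * A * (L : ℝ) * q ≤ η * n * q := by
      calc 2 * A * (L : ℝ) * q = 2 * A * (L * q) := by ring
        _ ≤ 2 * A * (2 * n) := by gcongr
        _ = 4 * A * n := by ring
        _ ≤ η * q * n := by gcongr
        _ = η * n * q := by ring
    exact le_of_mul_le_mul_right h3 hqR
  linarith

end Field

/-- **Almost sure local control.** -/
theorem as_ctl (hG : M51.Law213 G) : ∃ A : ℝ, 0 ≤ A ∧ ∀ η : ℝ, 0 < η →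
    ∀ᵐ t ∂(iidLaw G), ∀ᶠ n : ℕ in atTop, ∀ x ∈ box n, ∀ y ∈ box n,
      passageTime t x y ≤ A * n1 (y - x) + η * n := by
  have hfH := field_cH hG
  have hfV := field_cV hG
  have hA1 := hfH.cA_nonneg hG.h0
  have hA2 := hfV.cA_nonneg hG.h0
  refine ⟨Field.cA G cH + Field.cA G cV, by positivity, fun η hη => ?_⟩
  filter_upwards [hfH.as_line hG.h0 (fun b i => (i, b)) (fun b i j h => Or.inl h)
    (half_pos hη), hfV.as_line hG.h0 (fun a i => (a, i)) (fun a i j h => Or.inr h)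
    (half_pos hη), ae_Nn (G := G) hG.h0] with t h1 h2 ht
  filter_upwards [h1, h2] with n hn1 hn2
  intro x hx y hy
  obtain ⟨a, b⟩ := x
  obtain ⟨u, v⟩ := y
  rw [mem_box] at hx hy
  simp only at hx hy
  have hrow : passageTime t (a, b) (u, b) ≤ Field.cA G cH * (u - a).natAbs + η / 2 * n := by
    have key : ∀ a c : ℤ, a ≤ c → -(n : ℤ) ≤ a → c ≤ n →
        passageTime t (a, b) (c, b) ≤ Field.cA G cH * (c - a).natAbs + η / 2 * n := by
      intro a c hac ha hc'
      have h1 := pt_row_cH ht a b (c - a).toNat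
      have h3 := hn1 b (by rw [abs_le]; omega) a (c - a).toNat ha (by omega)
      rw [Int.toNat_of_nonneg (by omega), add_sub_cancel] at h1 h3
      have h4 : (((c - a).toNat : ℕ) : ℝ) = (((c - a).natAbs : ℕ) : ℝ) := by
        congr 1; omega
      rw [h4] at h3
      linarith
    rcases le_total a u with hac | hac
    · exact key a u hac hx.1.1 hy.1.2
    · rw [pt_symm ht, show (u - a).natAbs = (a - u).natAbs by omega]
      exact key u a hac hy.1.1 hx.1.2
  have hcol : passageTime t (u, b) (u, v) ≤ Field.cA G cV * (v - b).natAbs + η / 2 * n := by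
    have key : ∀ b d : ℤ, b ≤ d → -(n : ℤ) ≤ b → d ≤ n →
        passageTime t (u, b) (u, d) ≤ Field.cA G cV * (d - b).natAbs + η / 2 * n := by
      intro b d hbd hb hd'
      have h1 := pt_col_cV ht u b (d - b).toNat
      have h3 := hn2 u (by rw [abs_le]; omega) b (d - b).toNat hb (by omega)
      rw [Int.toNat_of_nonneg (by omega), add_sub_cancel] at h1 h3
      have h4 : (((d - b).toNat : ℕ) : ℝ) = (((d - b).natAbs : ℕ) : ℝ) := by
        congr 1; omega
      rw [h4] at h3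
      linarith
    rcases le_total b v with hbd | hbd
    · exact key b v hbd hx.2.1 hy.2.2
    · rw [pt_symm ht, show (v - b).natAbs = (b - v).natAbs by omega]
      exact key v b hbd hy.2.1 hx.2.2
  have htri := pt_triangle ht (a, b) (u, b) (u, v)
  have hn1' : (n1 ((u, v) - (a, b)) : ℝ) = ((u - a).natAbs : ℝ) + ((v - b).natAbs : ℝ) := by
    simp only [n1, Prod.mk_sub_mk]
    push_cast
    rfl
  rw [hn1']
  have q1 : (0 : ℝ) ≤ ((u - a).natAbs : ℝ) := Nat.cast_nonneg _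
  have q2 : (0 : ℝ) ≤ ((v - b).natAbs : ℝ) := Nat.cast_nonneg _
  nlinarith [mul_nonneg hA1 q2, mul_nonneg hA2 q1]

end Crest.Agent.R151.K
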