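import Crest.Agent.R151.K2b
import Crest.Agent.R151.B710

/-!
# R151/L763a — abstract linearity lemma (owner helper763)

A random function on the half plane which is `μ`-Lipschitz up to `o(n)` and whose mean is the linear
functional `ρ` up to `o(n)` is linear in `L¹`, uniformly in half boxes, provided that `μ` is
differentiable at a point `v` of the open upper half plane with `ρ v = μ v`.
-/

set_option autoImplicit false

open MeasureTheory Filter Topology
open Crest.ProbabilityR.FirstPassage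

namespace Crest.Agent.R151.LIN

open K

/-- the upper half of the box `box n` -/
noncomputable def hb (n : ℕ) : Finset (ℤ × ℤ) := (box n).filter fun x => 0 ≤ x.2

lemma mem_hb {n : ℕ} {x : ℤ × ℤ} : x ∈ hb n ↔ x ∈ box n ∧ 0 ≤ x.2 := by
  simp [hb]

lemma zero_mem_hb (n : ℕ) : (0 : ℤ × ℤ) ∈ hb n := mem_hb.2 ⟨zero_mem_box n, le_rfl⟩

lemma box_mono {m n : ℕ} (h : m ≤ n) : box m ⊆ box n := by
  intro x hx
  rw [mem_box] at hx ⊢
  have : (m : ℤ) ≤ n := by exact_mod_cast h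
  omega

lemma hb_mono {m n : ℕ} (h : m ≤ n) : hb m ⊆ hb n := by
  intro x hx
  rw [mem_hb] at hx ⊢
  exact ⟨box_mono h hx.1, hx.2⟩

lemma l1_toR_le {n : ℕ} {x : ℤ × ℤ} (hx : x ∈ box n) : l1 (toR x) ≤ 2 * n := by
  rw [mem_box] at hx
  have h1 : |(x.1 : ℝ)| ≤ n := by
    rw [abs_le]
    exact ⟨by exact_mod_cast hx.1.1, by exact_mod_cast hx.1.2⟩
  have h2 : |(x.2 : ℝ)| ≤ n := by
    rw [abs_le]
    exact ⟨by exact_mod_cast hx.2.1, by exact_mod_cast hx.2.2⟩
  simp only [l1, toR]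
  linarith

/-- the linear functional `(p, q)` -/
def lf (p q : ℝ) (v : ℝ × ℝ) : ℝ := p * v.1 + q * v.2

lemma lf_sub (p q : ℝ) (u v : ℝ × ℝ) : lf p q (u - v) = lf p q u - lf p q v := by
  simp only [lf, Prod.fst_sub, Prod.snd_sub]; ring

lemma lf_add (p q : ℝ) (u v : ℝ × ℝ) : lf p q (u + v) = lf p q u + lf p q v := by
  simp only [lf, Prod.fst_add, Prod.snd_add]; ring

lemma lf_smul (p q s : ℝ) (v : ℝ × ℝ) : lf p q (s • v) = s * lf p q v := by
  simp only [lf, Prod.smul_fst, Prod.smul_snd, smul_eq_mul]; ring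

lemma lf_zero (p q : ℝ) : lf p q 0 = 0 := by simp [lf]

lemma lf_neg (p q : ℝ) (v : ℝ × ℝ) : lf p q (-v) = -lf p q v := by
  simp only [lf, Prod.fst_neg, Prod.snd_neg]; ring

lemma abs_lf_le {μ : ℝ × ℝ → ℝ} (hμ : B710.NormLike μ) {p q : ℝ}
    (hρ : ∀ v : ℝ × ℝ, lf p q v ≤ μ v) (v : ℝ × ℝ) : |lf p q v| ≤ μ v := by
  rw [abs_le]
  refine ⟨?_, hρ v⟩
  have := hρ (-v)
  rw [lf_neg, hμ.neg] at this
  linarith

/-- The excess `μ - ρ` is `o(|x|)` at distance `|x|` from a tangent point. -/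
lemma excess_small {μ : ℝ × ℝ → ℝ} (hμ : B710.NormLike μ) {p q : ℝ}
    (hρ : ∀ v : ℝ × ℝ, lf p q v ≤ μ v) {v : ℝ × ℝ} (hv : lf p q v = μ v)
    (hd : DifferentiableAt ℝ μ v) (C : ℝ) {ε : ℝ} (hε : 0 < ε) :
    ∃ M0 : ℝ, 0 < M0 ∧ ∀ M ≥ M0, ∀ x : ℝ × ℝ, l1 x ≤ C →
      μ (M • v - x) - lf p q (M • v - x) ≤ ε := by
  have hψ : ∀ w, 0 ≤ μ w - lf p q w := fun w => by linarith [hρ w]
  have hdψ : DifferentiableAt ℝ (fun w => μ w - lf p q w) v := by
    refine hd.sub ?_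
    unfold lf
    fun_prop
  have hmin : IsLocalMin (fun w => μ w - lf p q w) v := by
    refine Filter.Eventually.of_forall fun w => ?_
    simp only [hv, sub_self]
    exact hψ w
  have hfd : HasFDerivAt (fun w => μ w - lf p q w) (0 : ℝ × ℝ →L[ℝ] ℝ) v := by
    have h1 := hdψ.hasFDerivAt
    rwa [hmin.fderiv_eq_zero] at h1
  set C' : ℝ := max C 1 with hC'
  have hC1 : 1 ≤ C' := le_max_right _ _
  have hlo := hfd.isLittleO
  rw [Asymptotics.isLittleO_iff] at hlo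
  have h2 := hlo (c := ε / C') (by positivity)
  obtain ⟨r, hr, hball⟩ := Metric.eventually_nhds_iff.1 h2
  refine ⟨2 * C' / r, by positivity, fun M hM x hx => ?_⟩
  have hMpos : 0 < M := lt_of_lt_of_le (by positivity) hM
  have hxn : ‖x‖ ≤ C' := by
    refine le_trans ?_ (hx.trans (le_max_left _ _))
    rw [Prod.norm_def]
    simp only [l1, Real.norm_eq_abs]
    exact max_le (by linarith [abs_nonneg x.2]) (by linarith [abs_nonneg x.1])
  have hdist : dist (v - M⁻¹ • x) v < r := by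
    rw [dist_eq_norm]
    have : v - M⁻¹ • x - v = -(M⁻¹ • x) := by abel
    rw [this, norm_neg, norm_smul, norm_inv, Real.norm_eq_abs, abs_of_pos hMpos]
    have h3 : 2 * C' ≤ M * r := by
      rw [ge_iff_le, div_le_iff₀ hr] at hM
      exact hM
    rw [inv_mul_lt_iff₀ hMpos]
    nlinarith
  have h4 := hball hdist
  simp only [hv, sub_self, zero_apply, sub_zero] at h4
  have h5 : v - M⁻¹ • x - v = -(M⁻¹ • x) := by abel
  rw [h5, norm_neg, norm_smul, norm_inv, Real.norm_eq_abs, Real.norm_eq_abs, abs_of_pos hMpos] at h4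
  have h6 : μ (M • v - x) - lf p q (M • v - x) = M * (μ (v - M⁻¹ • x) - lf p q (v - M⁻¹ • x)) := by
    have h7 : M • v - x = M • (v - M⁻¹ • x) := by
      rw [smul_sub, smul_smul, mul_inv_cancel₀ hMpos.ne', one_smul]
    rw [h7, hμ.smul _ _ hMpos.le, lf_smul]
    ring
  rw [h6]
  have h8 := (le_abs_self _).trans h4
  calc M * (μ (v - M⁻¹ • x) - lf p q (v - M⁻¹ • x)) ≤ M * (ε / C' * (M⁻¹ * ‖x‖)) := by
        gcongr
    _ = ε * (‖x‖ / C') := by field_simp
    _ ≤ ε * 1 := by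
        gcongr
        rw [div_le_one (by positivity)]
        exact hxn
    _ = ε := mul_one ε

/-- scaled version of `excess_small` -/
lemma excess_small' {μ : ℝ × ℝ → ℝ} (hμ : B710.NormLike μ) {p q : ℝ}
    (hρ : ∀ v : ℝ × ℝ, lf p q v ≤ μ v) {v : ℝ × ℝ} (hv : lf p q v = μ v)
    (hd : DifferentiableAt ℝ μ v) (C : ℝ) {ε : ℝ} (hε : 0 < ε) :
    ∃ M0 : ℝ, 0 < M0 ∧ ∀ M ≥ M0, ∀ n : ℝ, 0 < n → ∀ x : ℝ × ℝ, l1 x ≤ C * n →
      μ ((n * M) • v - x) - lf p q ((n * M) • v - x) ≤ ε * n := by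
  obtain ⟨M0, hM0, h⟩ := excess_small hμ hρ hv hd C hε
  refine ⟨M0, hM0, fun M hM n hn x hx => ?_⟩
  have h1 : (n * M) • v - x = n • (M • v - n⁻¹ • x) := by
    rw [smul_sub, smul_smul, smul_smul, mul_inv_cancel₀ hn.ne', one_smul]
  have h2 : l1 (n⁻¹ • x) ≤ C := by
    have : l1 (n⁻¹ • x) = n⁻¹ * l1 x := by
      simp only [l1, Prod.smul_fst, Prod.smul_snd, smul_eq_mul, abs_mul, abs_inv, abs_of_pos hn]
      ring
    rw [this, inv_mul_le_iff₀ hn]
    linarith
  rw [h1, hμ.smul _ _ hn.le, lf_smul, ← mul_sub]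
  have := h M hM _ h2
  nlinarith

/-- one pair of points -/
lemma mean_abs {Ω : Type*} [MeasurableSpace Ω] {P : Measure Ω} [IsProbabilityMeasure P]
    {X Y D : Ω → ℝ} (hX : Integrable X P) (hY : Integrable Y P) (hD : Integrable D P)
    {m r : ℝ} (h1 : ∀ᵐ ω ∂P, X ω - Y ω ≤ m + D ω) (hD0 : ∀ᵐ ω ∂P, 0 ≤ D ω) (hr : r ≤ m) :
    ∫ ω, |Y ω - X ω + r| ∂P ≤ ∫ ω, Y ω ∂P - ∫ ω, X ω ∂P + 2 * ∫ ω, D ω ∂P + (2 * m - r) := by
  have hint : Integrable (fun ω => (Y ω - X ω) + (2 * D ω + (2 * m - r))) P :=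
    (hY.sub hX).add ((hD.const_mul 2).add (integrable_const _))
  have h2 : ∫ ω, |Y ω - X ω + r| ∂P ≤ ∫ ω, ((Y ω - X ω) + (2 * D ω + (2 * m - r))) ∂P := by
    refine integral_mono_ae (((hY.sub hX).add (integrable_const r)).abs) hint ?_
    filter_upwards [h1, hD0] with ω h3 h4
    rw [abs_le]
    constructor <;> linarith
  refine h2.trans (le_of_eq ?_)
  have e1 : ∫ ω, ((Y ω - X ω) + (2 * D ω + (2 * m - r))) ∂P
      = ∫ ω, (Y ω - X ω) ∂P + ∫ ω, (2 * D ω + (2 * m - r)) ∂P :=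
    integral_add (hY.sub hX) ((hD.const_mul 2).add (integrable_const _))
  rw [e1, integral_sub hY hX, integral_add (hD.const_mul 2) (integrable_const _),
    integral_const_mul]
  simp only [integral_const, probReal_univ, smul_eq_mul, one_mul]
  ring

lemma gp_mem_box {K n : ℕ} (hK : 0 < K) {j : ℤ × ℤ} (hj : j ∈ box K) : gp K n j ∈ box n := by
  rw [mem_box] at hj ⊢
  have hKR : (0 : ℝ) < K := by exact_mod_cast hK
  have key : ∀ a : ℤ, -(K : ℤ) ≤ a → a ≤ K →
      -(n : ℤ) ≤ ⌊(n : ℝ) * ((a : ℝ) / K)⌋ ∧ ⌊(n : ℝ) * ((a : ℝ) / K)⌋ ≤ n := by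
    intro a h1 h2
    have h1' : (-1 : ℝ) ≤ (a : ℝ) / K := by
      rw [le_div_iff₀ hKR]
      have : (-(K : ℤ) : ℝ) ≤ a := by exact_mod_cast h1
      push_cast at this
      linarith
    have h2' : (a : ℝ) / K ≤ 1 := by
      rw [div_le_iff₀ hKR]
      have : (a : ℝ) ≤ (K : ℤ) := by exact_mod_cast h2
      push_cast at this
      linarith
    have hn : (0 : ℝ) ≤ n := by positivity
    constructor
    · rw [Int.le_floor]
      push_cast
      nlinarith
    · have : ⌊(n : ℝ) * ((a : ℝ) / K)⌋ ≤ ⌊((n : ℤ) : ℝ)⌋ := by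
        apply Int.floor_le_floor
        push_cast
        nlinarith
      rwa [Int.floor_intCast] at this
  exact ⟨key _ hj.1.1 hj.1.2, key _ hj.2.1 hj.2.2⟩

lemma gp_mem_hb {K n : ℕ} (hK : 0 < K) {j : ℤ × ℤ} (hj : j ∈ hb K) : gp K n j ∈ hb n := by
  rw [mem_hb] at hj ⊢
  refine ⟨gp_mem_box hK hj.1, ?_⟩
  simp only [gp, fl]
  rw [Int.le_floor]
  have : (0 : ℝ) ≤ (j.2 : ℝ) := by exact_mod_cast hj.2
  push_cast
  positivity

lemma gi_mem_hb {K n : ℕ} (hn : 0 < n) {x : ℤ × ℤ} (hx : x ∈ hb n) : gi K n x ∈ hb K := by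
  rw [mem_hb] at hx ⊢
  refine ⟨gi_mem hn hx.1, ?_⟩
  simp only [gi]
  have := hx.2
  positivity

/-- **Linearity in `L¹`** of a random function on the half plane. -/
theorem linear_of_mean {μ : ℝ × ℝ → ℝ} (hμ : B710.NormLike μ) {p q : ℝ}
    (hρ : ∀ v : ℝ × ℝ, lf p q v ≤ μ v) {v : ℝ × ℝ} (hv2 : 0 < v.2) (hv : lf p q v = μ v)
    (hd : DifferentiableAt ℝ μ v) {C : ℕ} (hC : 0 < C) {ε : ℝ} (hε : 0 < ε) :
    ∃ M : ℕ, C ≤ M ∧ ∃ δ : ℝ, 0 < δ ∧ ∃ n0 : ℕ, ∀ n ≥ n0, ∀ {Ω : Type} [MeasurableSpace Ω]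
      (P : Measure Ω) [IsProbabilityMeasure P] (F : ℤ × ℤ → Ω → ℝ) (D : Ω → ℝ) (a : ℝ),
      Integrable D P → ∫ ω, D ω ∂P ≤ δ * n →
      (∀ x ∈ hb (M * n), Integrable (F x) P ∧
        |∫ ω, F x ω ∂P - a + lf p q (toR x)| ≤ δ * n) →
      (∀ᵐ ω ∂P, ∀ x ∈ hb (M * n), ∀ y ∈ hb (M * n),
        F x ω - F y ω ≤ μ (toR (y - x)) + D ω) →
      ∃ D' : Ω → ℝ, Integrable D' P ∧ ∫ ω, D' ω ∂P ≤ ε * n ∧
        ∀ᵐ ω ∂P, ∀ x ∈ hb (C * n), |F x ω - F 0 ω + lf p q (toR x)| ≤ D' ω := by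
  obtain ⟨A, hA, hup⟩ := hμ.upper
  have hup' : ∀ w : ℝ × ℝ, μ w ≤ A * l1 w := hup
  have hψ : ∀ w, 0 ≤ μ w - lf p q w := fun w => by linarith [hρ w]
  -- the grid
  obtain ⟨K, hK⟩ := exists_nat_ge (16 * A * C / ε + 1)
  have hCR : (0 : ℝ) < C := by exact_mod_cast hC
  have hK1 : (1 : ℝ) ≤ K := by
    have : 0 ≤ 16 * A * C / ε := by positivity
    linarith
  have hKpos : 0 < K := by
    have : (0 : ℝ) < K := by linarith
    exact_mod_cast this
  set NK : ℝ := ((hb K).card : ℝ) with hNK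
  have hNK1 : 1 ≤ NK := by
    have : 0 < (hb K).card := Finset.card_pos.2 ⟨0, zero_mem_hb K⟩
    have : 1 ≤ (hb K).card := this
    rw [hNK]
    exact_mod_cast this
  set ε1 : ℝ := ε / (32 * NK) with hε1
  have hε1pos : 0 < ε1 := by positivity
  obtain ⟨M0, hM0, hM⟩ := excess_small' hμ hρ hv hd (2 * C + 2) hε1pos
  -- the multiple of `v`
  obtain ⟨M', hM'⟩ := exists_nat_ge (max (M0 * l1 v + 1) C)
  have hM'1 : M0 * l1 v + 1 ≤ M' := (le_max_left _ _).trans hM'
  have hM'2 : (C : ℝ) ≤ M' := (le_max_right _ _).trans hM'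
  refine ⟨M', by exact_mod_cast hM'2, ε / (64 * NK), by positivity, ?_⟩
  obtain ⟨n0, hn0⟩ := exists_nat_ge (max (16 * A / ε) 1)
  have hn01 : 16 * A / ε ≤ n0 := (le_max_left _ _).trans hn0
  have hn02 : (1 : ℝ) ≤ n0 := (le_max_right _ _).trans hn0
  refine ⟨n0, fun n hn Ω _ P _ F D a hDi hD hF hL => ?_⟩
  have hnR : (n0 : ℝ) ≤ n := by exact_mod_cast hn
  have hn1 : (1 : ℝ) ≤ n := hn02.trans hnR
  have hnpos : 0 < n := by
    have : (0 : ℝ) < n := by linarith
    exact_mod_cast this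
  set δ : ℝ := ε / (64 * NK) with hδ
  have hδpos : 0 < δ := by positivity
  -- nonnegativity of `D`
  have hD0 : ∀ᵐ ω ∂P, 0 ≤ D ω := by
    filter_upwards [hL] with ω h
    have := h 0 (zero_mem_hb _) 0 (zero_mem_hb _)
    simp only [sub_self, toR, Prod.fst_zero, Prod.snd_zero, Int.cast_zero] at this
    have h0 : μ ((0 : ℝ), (0 : ℝ)) = 0 := hμ.zero
    linarith
  -- the far point
  set y : ℤ × ℤ := fl v (n * M0) with hy
  have hyw : l1 ((n * M0) • v - toR y) ≤ 2 := l1_fl v (n * M0)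
  have hy_mem : y ∈ hb (M' * n) := by
    rw [mem_hb, mem_box]
    have h1 := abs_floor_le ((n * M0) * v.1)
    have h2 := abs_floor_le ((n * M0) * v.2)
    have hbd : ∀ a : ℝ, |a| ≤ l1 v → |(n * M0) * a| + 1 ≤ ((M' * n : ℕ) : ℝ) := by
      intro a ha
      rw [abs_mul, abs_of_nonneg (by positivity : (0 : ℝ) ≤ n * M0)]
      push_cast
      have h3 : (n : ℝ) * M0 * |a| ≤ n * M0 * l1 v := by gcongr
      nlinarith
    have hb1 := hbd v.1 (by simp only [l1]; linarith [abs_nonneg v.2])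
    have hb2 := hbd v.2 (by simp only [l1]; linarith [abs_nonneg v.1])
    have h3 := abs_le.1 (h1.trans hb1)
    have h4 := abs_le.1 (h2.trans hb2)
    refine ⟨⟨⟨?_, ?_⟩, ⟨?_, ?_⟩⟩, ?_⟩
    · have := h3.1; exact_mod_cast this
    · have := h3.2; exact_mod_cast this
    · have := h4.1; exact_mod_cast this
    · have := h4.2; exact_mod_cast this
    · simp only [hy, fl]
      rw [Int.le_floor]
      push_cast
      positivity
  -- small excess of `y - x`
  have hex : ∀ x ∈ hb (C * n), μ (toR (y - x)) - lf p q (toR (y - x)) ≤ ε1 * n := by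
    intro x hx
    have h1 : toR (y - x) = ((n : ℝ) * M0) • v - (toR x + ((n * M0) • v - toR y)) := by
      rw [toR_sub]; abel
    rw [h1]
    refine hM M0 le_rfl n (by linarith) _ ?_
    have h2 := l1_add_le (toR x) (((n : ℝ) * M0) • v - toR y)
    have h3 := l1_toR_le (mem_hb.1 hx).1
    push_cast at h3
    nlinarith
  -- integrals
  have hmn : C * n ≤ M' * n := by
    have : C ≤ M' := by exact_mod_cast hM'2
    exact Nat.mul_le_mul_right n this
  have hpair : ∀ x ∈ hb (C * n),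
      ∫ ω, |F y ω - F x ω + lf p q (toR (y - x))| ∂P ≤ 2 * (ε1 * n) + 4 * (δ * n) := by
    intro x hx
    have hx' := hb_mono hmn hx
    have h1 := mean_abs (hF x hx').1 (hF y hy_mem).1 hDi (m := μ (toR (y - x)))
      (r := lf p q (toR (y - x))) (by filter_upwards [hL] with ω h using h x hx' y hy_mem)
      hD0 (hρ _)
    have h2 := abs_le.1 (hF x hx').2
    have h3 := abs_le.1 (hF y hy_mem).2
    have h4 : lf p q (toR (y - x)) = lf p q (toR y) - lf p q (toR x) := by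
      rw [toR_sub, lf_sub]
    have h5 := hex x hx
    linarith
  have hone : ∀ x ∈ hb (C * n),
      Integrable (fun ω => |F x ω - F 0 ω + lf p q (toR x)|) P ∧
      ∫ ω, |F x ω - F 0 ω + lf p q (toR x)| ∂P ≤ 4 * (ε1 * n) + 8 * (δ * n) := by
    intro x hx
    have hx' := hb_mono hmn hx
    have i0 := (hF 0 (zero_mem_hb _)).1
    have iy := (hF y hy_mem).1
    have ix := (hF x hx').1
    refine ⟨((ix.sub i0).add (integrable_const _)).abs, ?_⟩
    have h1 := hpair x hx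
    have h2 := hpair 0 (zero_mem_hb _)
    have i1 : Integrable (fun ω => |F y ω - F x ω + lf p q (toR (y - x))|) P :=
      ((iy.sub ix).add (integrable_const _)).abs
    have i2 : Integrable (fun ω => |F y ω - F 0 ω + lf p q (toR (y - 0))|) P :=
      ((iy.sub i0).add (integrable_const _)).abs
    have h3 : ∫ ω, |F x ω - F 0 ω + lf p q (toR x)| ∂P
        ≤ ∫ ω, (|F y ω - F x ω + lf p q (toR (y - x))|
          + |F y ω - F 0 ω + lf p q (toR (y - 0))|) ∂P := by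
      refine integral_mono (((ix.sub i0).add (integrable_const _)).abs) (i1.add i2) fun ω => ?_
      simp only
      have h4 : F x ω - F 0 ω + lf p q (toR x)
          = (F y ω - F 0 ω + lf p q (toR (y - 0))) - (F y ω - F x ω + lf p q (toR (y - x))) := by
        rw [toR_sub, toR_sub, lf_sub, lf_sub]
        have : lf p q (toR 0) = 0 := by simp [lf, toR]
        rw [this]; ring
      rw [h4]
      exact (abs_sub _ _).trans (by rw [add_comm])
    rw [integral_add i1 i2] at h3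
    linarith
  -- the dominating function
  refine ⟨fun ω => ∑ j ∈ hb K, |F (gp K (C * n) j) ω - F 0 ω + lf p q (toR (gp K (C * n) j))|
    + (D ω + ε / 2 * n), ?_, ?_, ?_⟩
  · refine (integrable_finsetSum _ fun j hj => ?_).add (hDi.add (integrable_const _))
    exact (hone _ (gp_mem_hb hKpos hj)).1
  · have hs : Integrable (fun ω => ∑ j ∈ hb K,
        |F (gp K (C * n) j) ω - F 0 ω + lf p q (toR (gp K (C * n) j))|) P :=
      integrable_finsetSum _ fun j hj => (hone _ (gp_mem_hb hKpos hj)).1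
    have e1 : ∫ ω, (∑ j ∈ hb K, |F (gp K (C * n) j) ω - F 0 ω + lf p q (toR (gp K (C * n) j))|
        + (D ω + ε / 2 * n)) ∂P = ∫ ω, ∑ j ∈ hb K,
        |F (gp K (C * n) j) ω - F 0 ω + lf p q (toR (gp K (C * n) j))| ∂P
        + ∫ ω, (D ω + ε / 2 * n) ∂P := integral_add hs (hDi.add (integrable_const _))
    have e2 : ∫ ω, (D ω + ε / 2 * n) ∂P = ∫ ω, D ω ∂P + ∫ ω, (ε / 2 * n) ∂P :=
      integral_add hDi (integrable_const _)
    rw [e1, e2, integral_finsetSum _ fun j hj => (hone _ (gp_mem_hb hKpos hj)).1]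
    simp only [integral_const, probReal_univ, smul_eq_mul, one_mul]
    have h1 : ∑ j ∈ hb K,
        ∫ ω, |F (gp K (C * n) j) ω - F 0 ω + lf p q (toR (gp K (C * n) j))| ∂P
        ≤ NK * (4 * (ε1 * n) + 8 * (δ * n)) := by
      rw [hNK, ← nsmul_eq_mul]
      exact Finset.sum_le_card_nsmul _ _ _ fun j hj => (hone _ (gp_mem_hb hKpos hj)).2
    have h2 : NK * (4 * (ε1 * n) + 8 * (δ * n)) = ε / 4 * n := by
      rw [hε1, hδ]
      field_simp
      ring
    have h3 : δ * n ≤ ε / 4 * n := by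
      have : δ ≤ ε / 4 := by
        rw [hδ]
        apply div_le_div_of_nonneg_left hε.le (by norm_num)
        linarith
      gcongr
    linarith
  · filter_upwards [hL, hD0] with ω h h0 x hx
    have hCn : 0 < C * n := Nat.mul_pos hC hnpos
    set g := gp K (C * n) (gi K (C * n) x) with hg
    have hgi : gi K (C * n) x ∈ hb K := gi_mem_hb hCn hx
    have hgm : g ∈ hb (C * n) := gp_mem_hb hKpos hgi
    have hgm' := hb_mono hmn hgm
    have hx' := hb_mono hmn hx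
    have hclose := gp_gi_close (K := K) (n := C * n) hKpos hCn x
    rw [← hg] at hclose
    have hcl : l1 (toR (g - x)) ≤ 2 * ((C * n : ℝ) / K + 1) := by
      rw [l1_toR]
      have h1 : ((n1 (g - x) : ℕ) : ℝ) ≤ ((2 * (C * n / K + 1) : ℕ) : ℝ) := by
        exact_mod_cast hclose
      refine h1.trans ?_
      push_cast
      have h2 : (((C * n) / K : ℕ) : ℝ) ≤ ((C * n : ℕ) : ℝ) / K := Nat.cast_div_le
      push_cast at h2
      linarith
    have hsmall : A * l1 (toR (g - x)) ≤ ε / 4 * n := by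
      have h1 : A * l1 (toR (g - x)) ≤ A * (2 * ((C * n : ℝ) / K + 1)) := by gcongr
      refine h1.trans ?_
      have h2 : 16 * A * C / ε ≤ K := by linarith
      have h3 : 16 * A * C ≤ K * ε := by
        rwa [div_le_iff₀ hε] at h2
      have h4 : A * C * n / K ≤ ε / 16 * n := by
        rw [div_le_iff₀ (by linarith)]
        nlinarith
      have h5 : 16 * A ≤ n * ε := by
        have := hn01.trans hnR
        rwa [div_le_iff₀ hε] at this
      have h6 : A * (2 * ((C * n : ℝ) / K + 1)) = 2 * (A * C * n / K) + 2 * A := by ring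
      rw [h6]
      nlinarith
    have hμ1 : μ (toR (g - x)) ≤ ε / 4 * n := (hup' _).trans hsmall
    have hμ2 : μ (toR (x - g)) ≤ ε / 4 * n := by
      have : toR (x - g) = -toR (g - x) := by
        rw [toR_sub, toR_sub]; abel
      rw [this, hμ.neg]
      exact hμ1
    have h1 := h x hx' g hgm'
    have h2 := h g hgm' x hx'
    have h3 := abs_le.1 ((abs_lf_le hμ hρ (toR (g - x))).trans hμ1)
    have h4 : |F g ω - F 0 ω + lf p q (toR g)| ≤ ∑ j ∈ hb K,
        |F (gp K (C * n) j) ω - F 0 ω + lf p q (toR (gp K (C * n) j))| :=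
      Finset.single_le_sum
        (f := fun j => |F (gp K (C * n) j) ω - F 0 ω + lf p q (toR (gp K (C * n) j))|)
        (fun _ _ => abs_nonneg _) hgi
    have h5 := abs_le.1 h4
    rw [toR_sub, lf_sub] at h3
    rw [abs_le]
    constructor <;> linarith [h5.1, h5.2, h3.1, h3.2]

end Crest.Agent.R151.LIN
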