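import Crest.Agent.R151.Y635D
import Crest.Agent.R151.Pl6
import Crest.Agent.R151.L763a

/-!
# R151/L763b — strips, half planes, cutting at a row, limits of Hopf–Lax formulas (owner helper763)
Deterministic layer of block HLX: a fixed environment `t` with nonnegative weights.
-/

set_option autoImplicit false

open Filter Topology
open Crest.ProbabilityR.FirstPassage

namespace Crest.Agent.R151.LIN

open K

/-- horizontal strip `k ≤ y ≤ N` -/
def Sp (k N : ℤ) : Set (ℤ × ℤ) := {z | k ≤ z.2 ∧ z.2 ≤ N}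

/-- upper half plane `k ≤ y` -/
def Hk (k : ℤ) : Set (ℤ × ℤ) := {z | k ≤ z.2}

lemma mem_Sp {k N : ℤ} {z : ℤ × ℤ} : z ∈ Sp k N ↔ k ≤ z.2 ∧ z.2 ≤ N := Iff.rfl
lemma mem_Hk {k : ℤ} {z : ℤ × ℤ} : z ∈ Hk k ↔ k ≤ z.2 := Iff.rfl

lemma Sp_subset_Hk (k N : ℤ) : Sp k N ⊆ Hk k := fun _ h => h.1

lemma Sp_inter {k j N : ℤ} (h : k ≤ j) : Sp k N ∩ Hk j = Sp j N := by
  ext z; simp only [Sp, Hk, Set.mem_inter_iff, Set.mem_ofPred_eq]; omega

lemma Hk_inter {k j : ℤ} (h : k ≤ j) : Hk k ∩ Hk j = Hk j := by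
  ext z; simp only [Hk, Set.mem_inter_iff, Set.mem_ofPred_eq]; omega

lemma lin_Sp {k N : ℤ} {x y : ℤ × ℤ} (hx : x ∈ Sp k N) (hy : y ∈ Sp k N) : LIn (Sp k N) x y := by
  refine ⟨fun i _ => hx, fun i hi => ?_⟩
  simp only [Sp, Set.mem_ofPred_eq] at hx hy ⊢
  omega

lemma lin_Hk {k : ℤ} {x y : ℤ × ℤ} (hx : x ∈ Hk k) (hy : y ∈ Hk k) : LIn (Hk k) x y := by
  refine ⟨fun i _ => hx, fun i hi => ?_⟩
  simp only [Hk, Set.mem_ofPred_eq] at hx hy ⊢
  omega

lemma conn_Sp {k N : ℤ} {x y : ℤ × ℤ} (hx : x ∈ Sp k N) (hy : y ∈ Sp k N) : Conn (Sp k N) x y :=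
  (exists_path_edgesR (lin_Sp hx hy)).1

lemma conn_Hk {k : ℤ} {x y : ℤ × ℤ} (hx : x ∈ Hk k) (hy : y ∈ Hk k) : Conn (Hk k) x y :=
  (exists_path_edgesR (lin_Hk hx hy)).1

/-! ### cutting walks at a row -/

lemma snd_le_of_adj {a b : ℤ × ℤ} (h : squareLattice.Adj a b) : b.2 ≤ a.2 + 1 ∧ a.2 ≤ b.2 + 1 :=
  ⟨Y.adj_snd_le h, Y.adj_snd_le h.symm⟩

/-- last visit of a row -/
lemma last_row (j : ℤ) : ∀ {x y : ℤ × ℤ} (w : squareLattice.Walk x y), j ≤ y.2 →
    (∀ v ∈ w.support, j < v.2) ∨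
      ∃ (z : ℤ × ℤ) (w1 : squareLattice.Walk x z) (w2 : squareLattice.Walk z y),
        w = w1.append w2 ∧ z.2 = j ∧ ∀ v ∈ w2.support, j ≤ v.2 := by
  intro x y w
  induction w with
  | @nil u =>
    intro hy
    rcases hy.lt_or_eq with h | h
    · left; intro v hv
      rw [SimpleGraph.Walk.support_nil, List.mem_singleton] at hv
      rw [hv]; exact h
    · right
      refine ⟨u, SimpleGraph.Walk.nil, SimpleGraph.Walk.nil, rfl, h.symm, fun v hv => ?_⟩
      rw [SimpleGraph.Walk.support_nil, List.mem_singleton] at hv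
      rw [hv, h]
  | @cons a b c h p ih =>
    intro hy
    rcases ih hy with h1 | ⟨z, w1, w2, e, hz, h2⟩
    · have hb := h1 b p.start_mem_support
      have hab := snd_le_of_adj h
      rcases (show j ≤ a.2 by omega).lt_or_eq with h3 | h3
      · left; intro v hv
        rw [SimpleGraph.Walk.support_cons, List.mem_cons] at hv
        rcases hv with rfl | hv
        · exact h3
        · exact h1 v hv
      · right
        refine ⟨a, SimpleGraph.Walk.nil, SimpleGraph.Walk.cons h p, rfl, h3.symm, fun v hv => ?_⟩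
        rw [SimpleGraph.Walk.support_cons, List.mem_cons] at hv
        rcases hv with rfl | hv
        · exact h3.le
        · exact (h1 v hv).le
    · right
      exact ⟨z, SimpleGraph.Walk.cons h w1, w2, by rw [e]; rfl, hz, h2⟩

/-- first hit of a row from below -/
lemma first_row (j : ℤ) : ∀ {x y : ℤ × ℤ} (w : squareLattice.Walk x y), x.2 ≤ j → j ≤ y.2 →
      ∃ (z : ℤ × ℤ) (w1 : squareLattice.Walk x z) (w2 : squareLattice.Walk z y),
        w = w1.append w2 ∧ z.2 = j ∧ ∀ v ∈ w1.support, v.2 ≤ j := by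
  intro x y w
  induction w with
  | @nil u =>
    intro hx hy
    refine ⟨u, SimpleGraph.Walk.nil, SimpleGraph.Walk.nil, rfl, le_antisymm hx hy, fun v hv => ?_⟩
    rw [SimpleGraph.Walk.support_nil, List.mem_singleton] at hv
    rw [hv]; exact hx
  | @cons a b c h p ih =>
    intro hx hy
    rcases hx.lt_or_eq with h3 | h3
    · have hab := snd_le_of_adj h
      obtain ⟨z, w1, w2, e, hz, h2⟩ := ih (by omega) hy
      refine ⟨z, SimpleGraph.Walk.cons h w1, w2, by rw [e]; rfl, hz, fun v hv => ?_⟩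
      rw [SimpleGraph.Walk.support_cons, List.mem_cons] at hv
      rcases hv with rfl | hv
      · exact h3.le
      · exact h2 v hv
    · refine ⟨a, SimpleGraph.Walk.nil, SimpleGraph.Walk.cons h p, rfl, h3, fun v hv => ?_⟩
      rw [SimpleGraph.Walk.support_nil, List.mem_singleton] at hv
      rw [hv, h3]

variable {t : Environment}

lemma mem_support_append_left {x y z : ℤ × ℤ} {w1 : squareLattice.Walk x z}
    {w2 : squareLattice.Walk z y} {v : ℤ × ℤ} (h : v ∈ w1.support) : v ∈ (w1.append w2).support := by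
  rw [SimpleGraph.Walk.mem_support_append_iff]; exact Or.inl h

lemma mem_support_append_right {x y z : ℤ × ℤ} {w1 : squareLattice.Walk x z}
    {w2 : squareLattice.Walk z y} {v : ℤ × ℤ} (h : v ∈ w2.support) : v ∈ (w1.append w2).support := by
  rw [SimpleGraph.Walk.mem_support_append_iff]; exact Or.inr h

/-- cutting at the last visit of row `j` -/
lemma exists_cut (ht : Nn t) {R : Set (ℤ × ℤ)} {j : ℤ} {z b : ℤ × ℤ} (hc : Conn R z b)
    (hz : z.2 ≤ j) (hb : j ≤ b.2) {ε : ℝ} (hε : 0 < ε) :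
    ∃ q : ℤ, Conn R z (q, j) ∧ Conn (R ∩ Hk j) (q, j) b ∧
      pR t R z (q, j) + pR t (R ∩ Hk j) (q, j) b ≤ pR t R z b + ε := by
  obtain ⟨w, hw, hw'⟩ := exists_walk_lt_pR (t := t) hc (show pR t R z b < pR t R z b + ε by linarith)
  rcases last_row j w hb with h | ⟨⟨q, j'⟩, w1, w2, e, hj, h2⟩
  · exact absurd (h z w.start_mem_support) (by omega)
  · simp only at hj
    subst hj
    have h1 : ∀ v ∈ w1.support, v ∈ R := fun v hv => hw v (by rw [e]; exact mem_support_append_left hv)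
    have h3 : ∀ v ∈ w2.support, v ∈ R ∩ Hk j' := fun v hv =>
      ⟨hw v (by rw [e]; exact mem_support_append_right hv), h2 v hv⟩
    refine ⟨q, ⟨w1, h1⟩, ⟨w2, h3⟩, ?_⟩
    have := pR_le ht w1 h1
    have := pR_le ht w2 h3
    rw [e, walkCost_append] at hw'
    linarith

/-- cutting at the first hit of row `j` -/
lemma exists_cut_first (ht : Nn t) {R : Set (ℤ × ℤ)} {j : ℤ} {z b : ℤ × ℤ} (hc : Conn R z b)
    (hz : z.2 ≤ j) (hb : j ≤ b.2) {ε : ℝ} (hε : 0 < ε) :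
    ∃ q : ℤ, Conn (R ∩ {u | u.2 ≤ j}) z (q, j) ∧ Conn R (q, j) b ∧
      pR t (R ∩ {u | u.2 ≤ j}) z (q, j) + pR t R (q, j) b ≤ pR t R z b + ε := by
  obtain ⟨w, hw, hw'⟩ := exists_walk_lt_pR (t := t) hc (show pR t R z b < pR t R z b + ε by linarith)
  obtain ⟨⟨q, j'⟩, w1, w2, e, hj, h2⟩ := first_row j w hz hb
  simp only at hj
  subst hj
  have h1 : ∀ v ∈ w1.support, v ∈ R ∩ {u | u.2 ≤ j'} := fun v hv =>
    ⟨hw v (by rw [e]; exact mem_support_append_left hv), h2 v hv⟩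
  have h3 : ∀ v ∈ w2.support, v ∈ R := fun v hv =>
    hw v (by rw [e]; exact mem_support_append_right hv)
  refine ⟨q, ⟨w1, h1⟩, ⟨w2, h3⟩, ?_⟩
  have := pR_le ht w1 h1
  have := pR_le ht w2 h3
  rw [e, walkCost_append] at hw'
  linarith

lemma conn_cut_triangle (ht : Nn t) {R : Set (ℤ × ℤ)} {j : ℤ} {z b u : ℤ × ℤ}
    (h1 : Conn R z u) (h2 : Conn (R ∩ Hk j) u b) :
    pR t R z b ≤ pR t R z u + pR t (R ∩ Hk j) u b := by
  have h3 := pR_anti ht (Set.inter_subset_left : R ∩ Hk j ⊆ R) h2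
  have h4 := pR_triangle ht h1 (h2.mono Set.inter_subset_left)
  linarith

/-- strip passage times decrease to half plane passage times -/
lemma tendsto_strip (ht : Nn t) {k : ℤ} {x y : ℤ × ℤ} (hx : x ∈ Hk k) (hy : y ∈ Hk k)
    {Ns : ℕ → ℤ} (hN : Tendsto Ns atTop atTop) :
    Tendsto (fun i => pR t (Sp k (Ns i)) x y) atTop (𝓝 (pR t (Hk k) x y)) := by
  rw [Metric.tendsto_atTop]
  intro ε hε
  obtain ⟨w, hw, hw'⟩ := exists_walk_lt_pR (t := t) (conn_Hk hx hy)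
    (show pR t (Hk k) x y < pR t (Hk k) x y + ε by linarith)
  obtain ⟨M, hM⟩ : ∃ M : ℤ, ∀ v ∈ w.support, v.2 ≤ M := by
    refine ⟨(w.support.map Prod.snd).toFinset.sup' ⟨x.2, ?_⟩ id, fun v hv => ?_⟩
    · simp only [List.mem_toFinset, List.mem_map]
      exact ⟨x, w.start_mem_support, rfl⟩
    · refine Finset.le_sup' (f := id) ?_
      simp only [List.mem_toFinset, List.mem_map]
      exact ⟨v, hv, rfl⟩
  obtain ⟨i0, hi0⟩ := (Filter.tendsto_atTop.1 hN M).exists_forall_of_atTop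
  refine ⟨i0, fun i hi => ?_⟩
  have hin : ∀ v ∈ w.support, v ∈ Sp k (Ns i) := fun v hv => ⟨hw v hv, (hM v hv).trans (hi0 i hi)⟩
  have h1 := pR_le ht w hin
  have h2 : pR t (Hk k) x y ≤ pR t (Sp k (Ns i)) x y :=
    pR_anti ht (Sp_subset_Hk k (Ns i)) ⟨w, hin⟩
  rw [Real.dist_eq, abs_of_nonneg (by linarith)]
  linarith

/-- **Limit of Hopf–Lax formulas.**  `R i` is the infimum of `T_i(x,q) + g_i(q)` over the points
`q` of row `j`, `g_i → f` pointwise with a uniform linear lower bound of slope smaller than the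
coercivity rate of the passage time. -/
theorem hopfLax_lim (ht : Nn t) {k j : ℤ} (hkj : k ≤ j) {x : ℤ × ℤ} (hx : x ∈ Hk k)
    {Ns : ℕ → ℤ} (hN : Tendsto Ns atTop atTop) {g : ℕ → ℤ → ℝ} {f : ℤ → ℝ}
    (hg : ∀ q, Tendsto (fun i => g i q) atTop (𝓝 (f q)))
    {c1 c2 B1 B2 : ℝ} (hc : c2 < c1)
    (hT : ∀ q : ℤ, c1 * |(q : ℝ)| - B1 ≤ passageTime t x (q, j))
    (hlow : ∀ᶠ i in atTop, ∀ q : ℤ, -(c2 * |(q : ℝ)|) - B2 ≤ g i q)
    {R : ℕ → ℝ}
    (hR1 : ∀ᶠ i in atTop, ∀ q : ℤ, R i ≤ pR t (Sp k (Ns i)) x (q, j) + g i q)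
    (hR2 : ∀ᶠ i in atTop, ∀ ε : ℝ, 0 < ε → ∃ q : ℤ,
      pR t (Sp k (Ns i)) x (q, j) + g i q ≤ R i + ε) :
    BddBelow (Set.range fun q : ℤ => pR t (Hk k) x (q, j) + f q) ∧
    Tendsto R atTop (𝓝 (⨅ q : ℤ, (pR t (Hk k) x (q, j) + f q))) ∧
    ∃ q : ℤ, pR t (Hk k) x (q, j) + f q = ⨅ q : ℤ, (pR t (Hk k) x (q, j) + f q) := by
  have hqH : ∀ q : ℤ, ((q, j) : ℤ × ℤ) ∈ Hk k := fun q => hkj
  have hTH : ∀ q : ℤ, c1 * |(q : ℝ)| - B1 ≤ pR t (Hk k) x (q, j) := fun q =>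
    (hT q).trans (pt_le_pR ht (conn_Hk hx (hqH q)))
  have hf : ∀ q : ℤ, -(c2 * |(q : ℝ)|) - B2 ≤ f q := by
    intro q
    refine ge_of_tendsto (hg q) ?_
    filter_upwards [hlow] with i hi using hi q
  have hlb : ∀ q : ℤ, (c1 - c2) * |(q : ℝ)| - (B1 + B2) ≤ pR t (Hk k) x (q, j) + f q := by
    intro q
    have := hTH q; have := hf q
    nlinarith
  have hbdd : BddBelow (Set.range fun q : ℤ => pR t (Hk k) x (q, j) + f q) := by
    refine ⟨-(B1 + B2), ?_⟩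
    rintro _ ⟨q, rfl⟩
    have := hlb q
    have h2 : 0 ≤ (c1 - c2) * |(q : ℝ)| := mul_nonneg (by linarith) (abs_nonneg _)
    simp only
    linarith
  set m : ℝ := ⨅ q : ℤ, (pR t (Hk k) x (q, j) + f q) with hm
  have hmle : ∀ q : ℤ, m ≤ pR t (Hk k) x (q, j) + f q := fun q => ciInf_le hbdd q
  -- a finite window that contains all near minimisers
  obtain ⟨Q, hQ⟩ : ∃ Q : ℕ, ∀ q : ℤ, (Q : ℝ) < |(q : ℝ)| →
      m + 2 < (c1 - c2) * |(q : ℝ)| - (B1 + B2) := by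
    obtain ⟨Q, hQ⟩ := exists_nat_ge ((m + 2 + (B1 + B2)) / (c1 - c2))
    refine ⟨Q, fun q hq => ?_⟩
    have h1 : (m + 2 + (B1 + B2)) / (c1 - c2) < |(q : ℝ)| := lt_of_le_of_lt hQ hq
    rw [div_lt_iff₀ (by linarith)] at h1
    nlinarith
  refine ⟨hbdd, ?_, ?_⟩
  · rw [Metric.tendsto_atTop]
    intro ε hε
    set δ := min (ε / 4) (1 / 4) with hδ
    have hδpos : 0 < δ := by positivity
    have hδ1 : δ ≤ ε / 4 := min_le_left _ _
    have hδ2 : δ ≤ 1 / 4 := min_le_right _ _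
    obtain ⟨q0, hq0⟩ := exists_lt_of_ciInf_lt (show m < m + δ by linarith)
    have h1 : Tendsto (fun i => pR t (Sp k (Ns i)) x (q0, j) + g i q0) atTop
        (𝓝 (pR t (Hk k) x (q0, j) + f q0)) := (tendsto_strip ht hx (hqH q0) hN).add (hg q0)
    have h2 : ∀ᶠ i in atTop, pR t (Sp k (Ns i)) x (q0, j) + g i q0 < m + 2 * δ := by
      refine (h1.eventually (gt_mem_nhds ?_)).mono fun i hi => hi
      linarith
    have h3 : ∀ᶠ i in atTop, ∀ q ∈ Finset.Icc (-(Q : ℤ)) Q, f q - δ < g i q := by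
      rw [Filter.eventually_all_finset]
      intro q _
      exact (hg q).eventually (lt_mem_nhds (by linarith))
    have h4 : ∀ᶠ i in atTop, max x.2 j ≤ Ns i := Filter.tendsto_atTop.1 hN _
    have h5 := ((h2.and h3).and h4).and ((hlow.and hR1).and hR2)
    obtain ⟨i0, hi0⟩ := h5.exists_forall_of_atTop
    refine ⟨i0, fun i hi => ?_⟩
    obtain ⟨⟨⟨a1, a2⟩, a3⟩, ⟨a4, a5⟩, a6⟩ := hi0 i hi
    have hxS : x ∈ Sp k (Ns i) := ⟨hx, (le_max_left _ _).trans a3⟩
    have hqS : ∀ q : ℤ, ((q, j) : ℤ × ℤ) ∈ Sp k (Ns i) := fun q =>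
      ⟨hkj, (le_max_right _ _).trans a3⟩
    have hup : R i < m + 2 * δ := (a5 q0).trans_lt a1
    obtain ⟨q, hq⟩ := a6 δ hδpos
    have b1 : passageTime t x (q, j) ≤ pR t (Sp k (Ns i)) x (q, j) :=
      pt_le_pR ht (conn_Sp hxS (hqS q))
    have b2 : pR t (Hk k) x (q, j) ≤ pR t (Sp k (Ns i)) x (q, j) :=
      pR_anti ht (Sp_subset_Hk k (Ns i)) (conn_Sp hxS (hqS q))
    have hqQ : |(q : ℝ)| ≤ Q := by
      by_contra hcon
      push Not at hcon
      have b3 := hQ q hcon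
      have b4 := hT q
      have b5 := a4 q
      nlinarith
    have hqmem : q ∈ Finset.Icc (-(Q : ℤ)) Q := by
      rw [Finset.mem_Icc]
      have := abs_le.1 hqQ
      exact ⟨by exact_mod_cast this.1, by exact_mod_cast this.2⟩
    have b6 := a2 q hqmem
    have b7 := hmle q
    rw [Real.dist_eq, abs_lt]
    constructor <;> linarith
  · -- attained minimum
    have hne : (Finset.Icc (-(Q : ℤ)) Q).Nonempty := ⟨0, by simp⟩
    obtain ⟨q1, hq1, hq1'⟩ := Finset.exists_min_image (Finset.Icc (-(Q : ℤ)) Q)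
      (fun q : ℤ => pR t (Hk k) x (q, j) + f q) hne
    refine ⟨q1, le_antisymm ?_ (hmle q1)⟩
    refine le_of_forall_pos_lt_add fun ε hε => ?_
    obtain ⟨q2, hq2⟩ := exists_lt_of_ciInf_lt (show m < m + min ε 1 by
      have : 0 < min ε 1 := by positivity
      linarith)
    have hqQ : |(q2 : ℝ)| ≤ Q := by
      by_contra hcon
      push Not at hcon
      have b3 := hQ q2 hcon
      have b4 := hlb q2
      have : min ε 1 ≤ 1 := min_le_right _ _
      linarith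
    have hqmem : q2 ∈ Finset.Icc (-(Q : ℤ)) Q := by
      rw [Finset.mem_Icc]
      have := abs_le.1 hqQ
      exact ⟨by exact_mod_cast this.1, by exact_mod_cast this.2⟩
    have := hq1' q2 hqmem
    have : min ε 1 ≤ ε := min_le_left _ _
    linarith

end Crest.Agent.R151.LIN
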