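import Crest.Agent.R151.W5

/-!
# R151, W5b: lower tail of column passage times from the shape theorem
-/

set_option autoImplicit false

open MeasureTheory ProbabilityTheory Filter Topology
open Crest.ProbabilityR.FirstPassage
open Crest.Agent.R151.A (shift eShift block sig eX)
open Crest.Agent.R151.K (Nn toR)
open Crest.Agent.R151.X

namespace Crest.Agent.R151.W

variable {G : Measure ℝ} [IsProbabilityMeasure G]

/-- tall blocks are rarely cheap, from the shape theorem in probability -/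
theorem blockRare_of_shape (h0 : G (Set.Iio 0) = 0) (hz : G {0} = 0) {μ : ℝ × ℝ → ℝ} {m : ℝ}
    (hlow : ∀ L y : ℤ, 0 ≤ L → m * L ≤ μ (toR (L, y)))
    (hshape : ∀ ε > 0, ∃ n0 : ℕ, ∀ n ≥ n0, (iidLaw G).real {t | ε * n ≤ K.dev μ n t} ≤ ε) :
    BlockRare G m := by
  intro ε hε p hp
  obtain ⟨c0, hc0, hBad⟩ := K.prob_Bad_le (G := G) h0 hz
  obtain ⟨D, hD⟩ := exists_nat_ge (|m| / c0 + 1)
  have hD1 : (1 : ℝ) ≤ D := by
    have : 0 ≤ |m| / c0 := by positivity
    linarith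
  have hD1' : 1 ≤ D := by exact_mod_cast hD1
  have hD2 : m ≤ c0 * D := by
    have : |m| / c0 ≤ D := by linarith
    rw [div_le_iff₀ hc0] at this
    linarith [le_abs_self m]
  set ε' : ℝ := min (ε / (D + 2)) (p / 2) with hε'
  have hε'0 : 0 < ε' := lt_min (by positivity) (by positivity)
  obtain ⟨n0, hn0⟩ := hshape ε' hε'0
  -- L * 2^{-L} small
  have hlim : Tendsto (fun L : ℕ => (L : ℝ) * (1 / 2) ^ L) atTop (𝓝 0) :=
    tendsto_self_mul_const_pow_of_lt_one (by norm_num) (by norm_num)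
  obtain ⟨L0, hL0⟩ := eventually_atTop.1 (hlim.eventually_lt_const (show 0 < p / 2 by positivity))
  set L : ℕ := max (max L0 n0) 1 with hL
  have hL1 : 1 ≤ L := le_max_right _ _
  have hLL0 : L0 ≤ L := (le_max_left _ _).trans (le_max_left _ _)
  have hLn0 : n0 ≤ (D + 2) * L := by
    have h1 : n0 ≤ L := (le_max_right _ _).trans (le_max_left _ _)
    nlinarith
  have hLR : (1 : ℝ) ≤ L := by exact_mod_cast hL1
  refine ⟨L, hL1, ?_⟩
  have hsub : ∀ᵐ t ∂(iidLaw G), t ∈ CrossBad 0 L 0 L ((m - ε) * L) →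
      t ∈ {t | ε' * ((D + 2) * L : ℕ) ≤ K.dev μ ((D + 2) * L) t} ∪
        ⋃ x ∈ Finset.range L, K.Bad c0 (D * L) (0, (x : ℤ)) := by
    filter_upwards [K.ae_Nn (G := G) h0] with t hNn
    rintro ⟨x, y, ⟨hx1, hx2⟩, hcr⟩
    have hpt := le_of_Cr hNn hcr
    by_cases hbad : t ∈ ⋃ x ∈ Finset.range L, K.Bad c0 (D * L) (0, (x : ℤ))
    · exact Or.inr hbad
    left
    have hnb : t ∉ K.Bad c0 (D * L) (0, x) := by
      intro hcon
      apply hbad
      simp only [Set.mem_iUnion]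
      refine ⟨x.toNat, Finset.mem_range.2 (by omega), ?_⟩
      rw [Int.toNat_of_nonneg hx1]
      exact hcon
    have hdist : (y - x).natAbs < D * L := by
      by_contra hcon
      push Not at hcon
      have h1 := K.pt_ge_of_not_Bad hNn hnb (n := D * L) (x := (0, x)) (y := ((L : ℤ), y))
        (hcon.trans (by simp only [K.n1, Prod.mk_sub_mk]; omega))
      push_cast at h1
      have h2 : m * L ≤ c0 * (D * L) := by
        rw [← mul_assoc]; exact mul_le_mul_of_nonneg_right hD2 (by positivity)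
      nlinarith
    have hDL : (D : ℤ) * L = ((D * L : ℕ) : ℤ) := by push_cast; ring
    have hbx : ((0 : ℤ), x) ∈ K.box ((D + 2) * L) := by
      rw [K.mem_box]
      have : (((D + 2) * L : ℕ) : ℤ) = (D : ℤ) * L + 2 * L := by push_cast; ring
      rw [this, hDL]
      simp only
      omega
    have hby : ((L : ℤ), y) ∈ K.box ((D + 2) * L) := by
      rw [K.mem_box]
      have : (((D + 2) * L : ℕ) : ℤ) = (D : ℤ) * L + 2 * L := by push_cast; ring
      rw [this, hDL]
      simp only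
      omega
    have h1 := K.le_dev μ t hbx hby
    have h2 := hlow L (y - x) (by positivity)
    have h3 : (((L : ℤ), y) - ((0 : ℤ), x) : ℤ × ℤ) = ((L : ℤ), y - x) := by
      simp
    rw [h3] at h1
    have h4 := (abs_le.1 h1).1
    show ε' * ((D + 2) * L : ℕ) ≤ K.dev μ ((D + 2) * L) t
    have h5 : ε' * (((D + 2) * L : ℕ) : ℝ) ≤ ε * L := by
      push_cast
      have h6 : ε' ≤ ε / (D + 2) := min_le_left _ _
      have h7 : ε' * ((D + 2) * L) ≤ ε / (D + 2) * ((D + 2) * L) :=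
        mul_le_mul_of_nonneg_right h6 (by positivity)
      have h8 : ε / (D + 2) * ((D + 2) * L) = ε * L := by field_simp
      linarith
    push_cast at h2 h5 ⊢
    linarith
  refine (real_mono_ae G hsub).trans ((measureReal_union_le _ _).trans ?_)
  have h1 : (iidLaw G).real {t | ε' * ((D + 2) * L : ℕ) ≤ K.dev μ ((D + 2) * L) t} ≤ p / 2 :=
    (hn0 _ hLn0).trans (min_le_right _ _)
  have h2 : (iidLaw G).real (⋃ x ∈ Finset.range L, K.Bad c0 (D * L) (0, (x : ℤ))) ≤ p / 2 := by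
    refine (measureReal_biUnion_finset_le _ _).trans ?_
    refine (Finset.sum_le_sum fun (x : ℕ) _ => hBad (D * L) ((0 : ℤ), (x : ℤ))).trans ?_
    rw [Finset.sum_const, Finset.card_range, nsmul_eq_mul]
    refine le_trans ?_ (hL0 L hLL0).le
    refine mul_le_mul_of_nonneg_left ?_ (by positivity)
    exact pow_le_pow_of_le_one (by norm_num) (by norm_num) (Nat.le_mul_of_pos_left L hD1')
  linarith

/-- invariance of the distribution of passage times under lattice automorphisms -/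
lemma real_pt_iso (φ : squareLattice ≃g squareLattice) (x y : ℤ × ℤ) (a : ℝ) :
    (iidLaw G).real {t | passageTime t (φ x) (φ y) ≤ a} =
      (iidLaw G).real {t | passageTime t x y ≤ a} := by
  have hm : MeasurableSet {t : Environment | passageTime t x y ≤ a} :=
    measurableSet_le (K.measurable_pt x y) measurable_const
  have h := (K.mp_act (G := G) φ).measure_preimage hm.nullMeasurableSet
  have e : {t : Environment | passageTime t (φ x) (φ y) ≤ a} =
      K.act φ ⁻¹' {t | passageTime t x y ≤ a} := by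
    ext t
    simp only [Set.mem_preimage, Set.mem_ofPred_eq, K.pt_act]
  simp only [Measure.real]
  rw [e, h]

/-- lower tail of column passage times, abstract form -/
theorem col_of_blockRare (h0 : G (Set.Iio 0) = 0) (hz : G {0} = 0) {m : ℝ} (hm : 0 < m)
    (hB : BlockRare G m) {ε : ℝ} (hε : 0 < ε) :
    ∃ c > 0, ∃ C : ℝ, 0 < C ∧ ∀ a z z' : ℤ,
      (iidLaw G).real {t | passageTime t (a, z) (a, z') ≤ (m - ε) * |((z' - z : ℤ) : ℝ)|} ≤
        C * Real.exp (-(c * |((z' - z : ℤ) : ℝ)|)) := by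
  obtain ⟨c, hc, C, hC, h⟩ := ld_line G h0 hz hm hB hε
  refine ⟨c, hc, C, hC, ?_⟩
  -- the case `z ≤ z'`
  have key : ∀ (a z : ℤ) (k : ℕ), (iidLaw G).real
      {t | passageTime t (a, z) (a, z + k) ≤ (m - ε) * k} ≤ C * Real.exp (-(c * k)) := by
    intro a z k
    have h1 := real_pt_iso (G := G) (K.tr (a, z)) (0, 0) (0, (k : ℤ)) ((m - ε) * k)
    have h2 := real_pt_iso (G := G) K.sw (0, 0) ((k : ℤ), 0) ((m - ε) * k)
    simp only [K.tr_apply, K.sw_apply, Prod.mk_add_mk, zero_add] at h1 h2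
    rw [add_comm z (k : ℤ), h1, h2]
    refine le_trans (measureReal_mono ?_ (measure_ne_top _ _)) (h k)
    intro t ht
    exact ⟨0, ht⟩
  intro a z z'
  rcases le_total z z' with hzz | hzz
  · have h1 := key a z (z' - z).toNat
    have h2 : (((z' - z).toNat : ℕ) : ℤ) = z' - z := Int.toNat_of_nonneg (by omega)
    have h3 : (((z' - z).toNat : ℕ) : ℝ) = |((z' - z : ℤ) : ℝ)| := by
      rw [abs_of_nonneg (by exact_mod_cast (by omega : (0 : ℤ) ≤ z' - z))]
      exact_mod_cast h2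
    rw [h2, h3, add_sub_cancel] at h1
    exact h1
  · have h1 := key a z' (z - z').toNat
    have h2 : (((z - z').toNat : ℕ) : ℤ) = z - z' := Int.toNat_of_nonneg (by omega)
    have h3 : (((z - z').toNat : ℕ) : ℝ) = |((z' - z : ℤ) : ℝ)| := by
      rw [show (z' - z : ℤ) = -(z - z') by ring, Int.cast_neg, abs_neg,
        abs_of_nonneg (by exact_mod_cast (by omega : (0 : ℤ) ≤ z - z'))]
      exact_mod_cast h2
    rw [h2, h3, add_sub_cancel] at h1
    refine le_trans ?_ h1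
    refine real_mono_ae G ?_
    filter_upwards [K.ae_Nn (G := G) h0] with t hNn ht
    have ht' : passageTime t (a, z) (a, z') ≤ (m - ε) * |((z' - z : ℤ) : ℝ)| := ht
    show passageTime t (a, z') (a, z) ≤ _
    rwa [K.pt_symm hNn]

/-- lower tail of point-to-line passage times in the four lattice directions, abstract form -/
theorem line_of_blockRare (h0 : G (Set.Iio 0) = 0) (hz : G {0} = 0) {m : ℝ} (hm : 0 < m)
    (hB : BlockRare G m) {ε : ℝ} (hε : 0 < ε) :
    ∃ c > 0, ∃ C : ℝ, 0 < C ∧ ∀ (a b : ℤ) (k : ℕ),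
      (iidLaw G).real {t | ∃ y : ℤ, passageTime t (a, b) (a + k, y) ≤ (m - ε) * k} ≤
        C * Real.exp (-(c * k)) ∧
      (iidLaw G).real {t | ∃ y : ℤ, passageTime t (a, b) (a - k, y) ≤ (m - ε) * k} ≤
        C * Real.exp (-(c * k)) ∧
      (iidLaw G).real {t | ∃ y : ℤ, passageTime t (a, b) (y, b + k) ≤ (m - ε) * k} ≤
        C * Real.exp (-(c * k)) ∧
      (iidLaw G).real {t | ∃ y : ℤ, passageTime t (a, b) (y, b - k) ≤ (m - ε) * k} ≤
        C * Real.exp (-(c * k)) := by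
  obtain ⟨c, hc, C, hC, h⟩ := ld_line G h0 hz hm hB hε
  refine ⟨c, hc, C, hC, fun a b k => ?_⟩
  set v : ℝ := (m - ε) * k with hv
  have hmeas : ∀ (u : ℤ × ℤ) (f : ℤ → ℤ × ℤ),
      MeasurableSet {t : Environment | ∃ y : ℤ, passageTime t u (f y) ≤ v} := by
    intro u f
    have : {t : Environment | ∃ y : ℤ, passageTime t u (f y) ≤ v} =
        ⋃ y : ℤ, {t | passageTime t u (f y) ≤ v} := by ext t; simp
    rw [this]
    exact MeasurableSet.iUnion fun y => measurableSet_le (K.measurable_pt _ _) measurable_const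
  have iso : ∀ (φ : squareLattice ≃g squareLattice) (u : ℤ × ℤ) (f : ℤ → ℤ × ℤ),
      (iidLaw G).real {t : Environment | ∃ y : ℤ, passageTime t (φ u) (φ (f y)) ≤ v} =
      (iidLaw G).real {t : Environment | ∃ y : ℤ, passageTime t u (f y) ≤ v} := by
    intro φ u f
    have h1 := (K.mp_act (G := G) φ).measure_preimage (hmeas u f).nullMeasurableSet
    have e : {t : Environment | ∃ y : ℤ, passageTime t (φ u) (φ (f y)) ≤ v} =
        K.act φ ⁻¹' {t : Environment | ∃ y : ℤ, passageTime t u (f y) ≤ v} := by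
      ext t
      simp only [Set.mem_preimage, Set.mem_ofPred_eq, K.pt_act]
    simp only [Measure.real]
    rw [e, h1]
  have h1 := h k
  rw [← hv] at h1
  -- translation
  have tr : ∀ (f : ℤ → ℤ × ℤ) (g : ℤ → ℤ × ℤ),
      (∀ y, ∃ y', g y = f y' + (a, b)) →
      (iidLaw G).real {t : Environment | ∃ y : ℤ, passageTime t (0, 0) (f y) ≤ v} ≤
        C * Real.exp (-(c * k)) →
      (iidLaw G).real {t : Environment | ∃ y : ℤ, passageTime t (a, b) (g y) ≤ v} ≤
        C * Real.exp (-(c * k)) := by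
    intro f g hg hf
    rw [← iso (K.tr (a, b)) (0, 0) f] at hf
    refine le_trans (measureReal_mono ?_ (measure_ne_top _ _)) hf
    rintro t ⟨y, hy⟩
    obtain ⟨y', hy'⟩ := hg y
    refine ⟨y', ?_⟩
    simp only [K.tr_apply]
    rw [← hy']
    have : ((0, 0) + (a, b) : ℤ × ℤ) = (a, b) := by simp
    rw [this]
    exact hy
  have h2 : (iidLaw G).real {t : Environment | ∃ y : ℤ, passageTime t (0, 0) (-(k : ℤ), y) ≤ v} ≤
      C * Real.exp (-(c * k)) := by
    have := iso K.ng (0, 0) (fun y => ((k : ℤ), y))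
    simp only [K.ng_apply, neg_zero] at this
    rw [this]; exact h1
  have sw : ∀ j : ℤ, (iidLaw G).real {t : Environment | ∃ y : ℤ,
      passageTime t (0, 0) (j, y) ≤ v} ≤ C * Real.exp (-(c * k)) →
      (iidLaw G).real {t : Environment | ∃ y : ℤ, passageTime t (0, 0) (y, j) ≤ v} ≤
      C * Real.exp (-(c * k)) := by
    intro j hj
    have := iso K.sw (0, 0) (fun y => (j, y))
    simp only [K.sw_apply] at this
    rw [this]; exact hj
  refine ⟨tr (fun y => ((k : ℤ), y)) _ (fun y => ⟨y - b, ?_⟩) h1,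
    tr (fun y => (-(k : ℤ), y)) _ (fun y => ⟨y - b, ?_⟩) h2,
    tr (fun y => (y, (k : ℤ))) _ (fun y => ⟨y - a, ?_⟩) (sw _ h1),
    tr (fun y => (y, -(k : ℤ))) _ (fun y => ⟨y - a, ?_⟩) (sw _ h2)⟩ <;>
  · ext <;> simp <;> ring

/-- polynomial form of the lower tail (684's field `col`) -/
theorem col_poly_of (h0 : G (Set.Iio 0) = 0) (hz : G {0} = 0) {m v : ℝ} (hm : 0 < m)
    (hB : BlockRare G m) (hv : v < m) :
    ∃ C : ℝ, 0 ≤ C ∧ ∀ k : ℕ, 1 ≤ k →
      (iidLaw G).real {t | passageTime t (0, 0) (0, (k : ℤ)) ≤ v * k} ≤ C / (k : ℝ) ^ 6 := by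
  obtain ⟨c, hc, C, hC, h⟩ := line_of_blockRare (G := G) h0 hz hm hB (ε := m - v) (by linarith)
  refine ⟨C * (Nat.factorial 6 / c ^ 6), by positivity, fun k hk => ?_⟩
  have hkR : (0 : ℝ) < k := by exact_mod_cast hk
  have h1 := (h 0 0 k).2.2.1
  have h2 : (iidLaw G).real {t | passageTime t (0, 0) (0, (k : ℤ)) ≤ v * k} ≤
      C * Real.exp (-(c * k)) := by
    refine le_trans (measureReal_mono ?_ (measure_ne_top _ _)) h1
    intro t ht
    refine ⟨0, ?_⟩
    have e : (0 : ℤ) + (k : ℤ) = k := zero_add _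
    rw [e, sub_sub_cancel]
    exact ht
  refine h2.trans ?_
  rw [mul_div_assoc]
  refine mul_le_mul_of_nonneg_left ?_ hC.le
  have h3 := Real.pow_div_factorial_le_exp (x := c * k) (by positivity) 6
  rw [Real.exp_neg, div_div, inv_eq_one_div, div_le_div_iff₀ (Real.exp_pos _) (by positivity),
    one_mul, ← mul_pow]
  have h4 : (0 : ℝ) < (Nat.factorial 6 : ℝ) := by positivity
  rw [div_le_iff₀ h4] at h3
  linarith

/-- regular columns, abstract form -/
theorem prob_ColOK_of (h0 : G (Set.Iio 0) = 0) (hz : G {0} = 0) {m : ℝ} (hm : 0 < m)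
    (hB : BlockRare G m) {β a' : ℝ} (ha : 0 ≤ a') (hβ : |β| + a' < m) :
    ∃ c > 0, ∃ C : ℝ, 0 < C ∧ ∀ (s u w δ : ℝ) (N : ℕ), 0 ≤ w → 0 ≤ δ →
      (iidLaw G).real (ColOK s β a' u w δ N)ᶜ ≤
        C * (N + 1) * (2 * w + 1) ^ 2 * Real.exp (-(c * δ)) := by
  obtain ⟨c, hc, C, hC, h⟩ := col_of_blockRare (G := G) h0 hz hm hB
    (ε := m - (|β| + a')) (by linarith)
  refine ⟨c / m, by positivity, C, hC, fun s u w δ N hw hδ => ?_⟩
  set I : ℕ → Finset ℤ := fun k => Finset.Icc ⌈s * k + u - w⌉ ⌊s * k + u + w⌋ with hI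
  have hcard : ∀ k, ((I k).card : ℝ) ≤ 2 * w + 1 := by
    intro k
    rw [hI]
    simp only [Int.card_Icc]
    have h1 : (⌊s * k + u + w⌋ : ℝ) ≤ s * k + u + w := Int.floor_le _
    have h2 : s * k + u - w ≤ (⌈s * k + u - w⌉ : ℝ) := Int.le_ceil _
    rcases le_total 0 (⌊s * k + u + w⌋ + 1 - ⌈s * k + u - w⌉) with h3 | h3
    · have h4 : ((⌊s * k + u + w⌋ + 1 - ⌈s * k + u - w⌉).toNat : ℝ) =
          ((⌊s * k + u + w⌋ + 1 - ⌈s * k + u - w⌉ : ℤ) : ℝ) := by
        exact_mod_cast congrArg (fun z : ℤ => (z : ℝ)) (Int.toNat_of_nonneg h3)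
      rw [h4]
      push_cast
      linarith
    · rw [Int.toNat_of_nonpos h3]
      simp only [Nat.cast_zero]
      linarith
  set E : ℤ × ℤ × ℤ → Set Environment := fun q =>
    if δ / m ≤ |((q.2.2 - q.2.1 : ℤ) : ℝ)| then
      {t | passageTime t (q.1, q.2.1) (q.1, q.2.2) ≤
        (m - (m - (|β| + a'))) * |((q.2.2 - q.2.1 : ℤ) : ℝ)|} else ∅ with hE
  have hEp : ∀ q, (iidLaw G).real (E q) ≤ C * Real.exp (-(c / m * δ)) := by
    intro q
    rw [hE]
    simp only
    split_ifs with hq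
    · refine (h q.1 q.2.1 q.2.2).trans ?_
      refine mul_le_mul_of_nonneg_left (Real.exp_le_exp.2 ?_) hC.le
      have := mul_le_mul_of_nonneg_left hq hc.le
      have e1 : c / m * δ = c * (δ / m) := by ring
      linarith
    · simp only [measureReal_empty]
      positivity
  have hsub : ∀ᵐ t ∂(iidLaw G), t ∈ (ColOK s β a' u w δ N)ᶜ →
      t ∈ ⋃ k ∈ Finset.range (N + 1), ⋃ z ∈ I k, ⋃ z' ∈ I k, E ((k : ℤ), z, z') := by
    filter_upwards [K.ae_Nn (G := G) h0] with t hNn ht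
    simp only [ColOK, Set.mem_compl_iff, Set.mem_ofPred_eq] at ht
    push Not at ht
    obtain ⟨k, hk0, hkN, z, z', hz1, hz2, hlt⟩ := ht
    obtain ⟨k, rfl⟩ := Int.eq_ofNat_of_zero_le hk0
    have hmem : ∀ z : ℤ, |ht s ((k : ℤ), z) - u| ≤ w → z ∈ I k := by
      intro z hz
      rw [hI]
      simp only [Finset.mem_Icc]
      rw [abs_le] at hz
      simp only [ht] at hz
      push_cast at hz
      constructor
      · rw [Int.ceil_le]; linarith
      · rw [Int.le_floor]; linarith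
    simp only [Set.mem_iUnion]
    refine ⟨k, Finset.mem_range.2 (by exact_mod_cast Int.lt_add_one_of_le hkN), z,
      hmem z hz1, z', hmem z' hz2, ?_⟩
    have hpt := K.pt_nonneg hNn ((k : ℤ), z) ((k : ℤ), z')
    have h1 : β * ((z' : ℝ) - z) ≤ |β| * |(z' : ℝ) - z| := by
      rw [← abs_mul]; exact le_abs_self _
    have h2 : δ ≤ (|β| + a') * |(z' : ℝ) - z| := by linarith
    have h3 : δ / m ≤ |((z' - z : ℤ) : ℝ)| := by
      rw [div_le_iff₀ hm]
      push_cast
      have := mul_le_mul_of_nonneg_right hβ.le (abs_nonneg ((z' : ℝ) - z))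
      linarith
    rw [hE]
    simp only
    rw [if_pos h3]
    simp only [Set.mem_ofPred_eq]
    push_cast
    linarith
  refine (real_mono_ae G hsub).trans ?_
  have hnn : 0 ≤ C * Real.exp (-(c / m * δ)) := by positivity
  refine (measureReal_biUnion_finset_le _ _).trans ?_
  have h1 : ∀ k ∈ Finset.range (N + 1), (iidLaw G).real
      (⋃ z ∈ I k, ⋃ z' ∈ I k, E ((k : ℤ), z, z')) ≤
      (2 * w + 1) * ((2 * w + 1) * (C * Real.exp (-(c / m * δ)))) := by
    intro k _
    refine (measureReal_biUnion_finset_le _ _).trans ?_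
    have h2 : ∀ z ∈ I k, (iidLaw G).real (⋃ z' ∈ I k, E ((k : ℤ), z, z')) ≤
        (2 * w + 1) * (C * Real.exp (-(c / m * δ))) := by
      intro z _
      refine (measureReal_biUnion_finset_le _ _).trans ?_
      refine (Finset.sum_le_sum fun z' _ => hEp _).trans ?_
      rw [Finset.sum_const, nsmul_eq_mul]
      exact mul_le_mul_of_nonneg_right (hcard k) hnn
    refine (Finset.sum_le_sum h2).trans ?_
    rw [Finset.sum_const, nsmul_eq_mul]
    exact mul_le_mul_of_nonneg_right (hcard k) (by positivity)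
  refine (Finset.sum_le_sum h1).trans ?_
  rw [Finset.sum_const, Finset.card_range, nsmul_eq_mul]
  push_cast
  apply le_of_eq
  ring

/-! ## laws with an exponential moment -/

section exp_moment

variable {μ : ℝ × ℝ → ℝ} {lam : ℝ}

lemma mu_low (h0 : G (Set.Iio 0) = 0) (h2 : Integrable (fun x : ℝ => x ^ 2) G)
    (hμ : K.IsTC G μ) (L y : ℤ) (hL : 0 ≤ L) : μ (0, 1) * L ≤ μ (toR (L, y)) := by
  have hLR : (0 : ℝ) ≤ (L : ℝ) := by exact_mod_cast hL
  have h1 : μ (((L : ℝ), (y : ℝ)) + ((L : ℝ), -(y : ℝ))) ≤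
      μ ((L : ℝ), (y : ℝ)) + μ ((L : ℝ), -(y : ℝ)) := K.mu_add_le h0 h2 hμ _ _
  have h3 : μ ((L : ℝ), -(y : ℝ)) = μ ((L : ℝ), (y : ℝ)) := by
    have e1 := K.mu_neg h0 h2 hμ ((L : ℝ), -(y : ℝ))
    have e2 := K.mu_neg_fst h0 h2 hμ ((L : ℝ), (y : ℝ))
    simp only [Prod.neg_mk, neg_neg] at e1 e2
    rw [← e1, e2]
  have h4 : (((L : ℝ), (y : ℝ)) + ((L : ℝ), -(y : ℝ)) : ℝ × ℝ) = (2 * (L : ℝ)) • ((1 : ℝ), (0 : ℝ)) := by
    ext <;> simp; ring
  rw [h3, h4, K.mu_smul h0 h2 hμ (by positivity)] at h1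
  have h5 : μ ((1 : ℝ), (0 : ℝ)) = μ (0, 1) := by
    have := K.mu_swap h0 h2 hμ (0, 1)
    exact this
  rw [h5] at h1
  show μ (0, 1) * L ≤ μ ((L : ℝ), (y : ℝ))
  linarith

theorem blockRare_of_isTC (h0 : G (Set.Iio 0) = 0) (hz : G {0} = 0) (hlam : 0 < lam)
    (hexp : Integrable (fun x => Real.exp (lam * x)) G) (hμ : K.IsTC G μ) :
    BlockRare G (μ (0, 1)) :=
  blockRare_of_shape h0 hz (mu_low h0 (K.integrable_sq h0 hlam hexp) hμ)
    fun _ hε => K.uniform_shape_prob h0 hlam hexp hμ hε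

lemma mu_pos (h0 : G (Set.Iio 0) = 0) (hz : G {0} = 0) (hlam : 0 < lam)
    (hexp : Integrable (fun x => Real.exp (lam * x)) G) (hμ : K.IsTC G μ) : 0 < μ (0, 1) := by
  obtain ⟨c, hc, h⟩ := K.exists_mu_ge h0 hz (K.integrable_sq h0 hlam hexp) hμ
  have := h (0, 1)
  simp only [K.l1] at this
  norm_num at this
  linarith

/-- **COL**: exponential lower tail of column passage times. -/
theorem col (h0 : G (Set.Iio 0) = 0) (hz : G {0} = 0) (hlam : 0 < lam)
    (hexp : Integrable (fun x => Real.exp (lam * x)) G) (hμ : K.IsTC G μ) {ε : ℝ} (hε : 0 < ε) :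
    ∃ c > 0, ∃ C : ℝ, 0 < C ∧ ∀ a z z' : ℤ,
      (iidLaw G).real {t | passageTime t (a, z) (a, z') ≤
        (μ (0, 1) - ε) * |((z' - z : ℤ) : ℝ)|} ≤
        C * Real.exp (-(c * |((z' - z : ℤ) : ℝ)|)) :=
  col_of_blockRare h0 hz (mu_pos h0 hz hlam hexp hμ) (blockRare_of_isTC h0 hz hlam hexp hμ) hε

/-- point-to-line version -/
theorem line (h0 : G (Set.Iio 0) = 0) (hz : G {0} = 0) (hlam : 0 < lam)
    (hexp : Integrable (fun x => Real.exp (lam * x)) G) (hμ : K.IsTC G μ) {ε : ℝ} (hε : 0 < ε) :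
    ∃ c > 0, ∃ C : ℝ, 0 < C ∧ ∀ k : ℕ,
      (iidLaw G).real {t | ∃ y : ℤ, passageTime t (0, 0) (k, y) ≤ (μ (0, 1) - ε) * k} ≤
        C * Real.exp (-(c * k)) :=
  ld_line G h0 hz (mu_pos h0 hz hlam hexp hμ) (blockRare_of_isTC h0 hz hlam hexp hμ) hε

/-- 684's field `col` for laws with an exponential moment -/
theorem col_poly (h0 : G (Set.Iio 0) = 0) (hz : G {0} = 0) (hlam : 0 < lam)
    (hexp : Integrable (fun x => Real.exp (lam * x)) G) (hμ : K.IsTC G μ) {v : ℝ}
    (hv : v < μ (0, 1)) :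
    ∃ C : ℝ, 0 ≤ C ∧ ∀ k : ℕ, 1 ≤ k →
      (iidLaw G).real {t | passageTime t (0, 0) (0, (k : ℤ)) ≤ v * k} ≤ C / (k : ℝ) ^ 6 :=
  col_poly_of h0 hz (mu_pos h0 hz hlam hexp hμ) (blockRare_of_isTC h0 hz hlam hexp hμ) hv

/-- point-to-line version, all directions and starting points -/
theorem line' (h0 : G (Set.Iio 0) = 0) (hz : G {0} = 0) (hlam : 0 < lam)
    (hexp : Integrable (fun x => Real.exp (lam * x)) G) (hμ : K.IsTC G μ) {ε : ℝ} (hε : 0 < ε) :
    ∃ c > 0, ∃ C : ℝ, 0 < C ∧ ∀ (a b : ℤ) (k : ℕ),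
      (iidLaw G).real {t | ∃ y : ℤ, passageTime t (a, b) (a + k, y) ≤ (μ (0, 1) - ε) * k} ≤
        C * Real.exp (-(c * k)) ∧
      (iidLaw G).real {t | ∃ y : ℤ, passageTime t (a, b) (a - k, y) ≤ (μ (0, 1) - ε) * k} ≤
        C * Real.exp (-(c * k)) ∧
      (iidLaw G).real {t | ∃ y : ℤ, passageTime t (a, b) (y, b + k) ≤ (μ (0, 1) - ε) * k} ≤
        C * Real.exp (-(c * k)) ∧
      (iidLaw G).real {t | ∃ y : ℤ, passageTime t (a, b) (y, b - k) ≤ (μ (0, 1) - ε) * k} ≤
        C * Real.exp (-(c * k)) :=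
  line_of_blockRare h0 hz (mu_pos h0 hz hlam hexp hμ) (blockRare_of_isTC h0 hz hlam hexp hμ) hε

/-- **regular columns**: 684's `ColOK` fails with exponentially small probability -/
theorem prob_ColOK (h0 : G (Set.Iio 0) = 0) (hz : G {0} = 0) (hlam : 0 < lam)
    (hexp : Integrable (fun x => Real.exp (lam * x)) G) (hμ : K.IsTC G μ) {β a' : ℝ}
    (ha : 0 ≤ a') (hβ : |β| + a' < μ (0, 1)) :
    ∃ c > 0, ∃ C : ℝ, 0 < C ∧ ∀ (s u w δ : ℝ) (N : ℕ), 0 ≤ w → 0 ≤ δ →
      (iidLaw G).real (ColOK s β a' u w δ N)ᶜ ≤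
        C * (N + 1) * (2 * w + 1) ^ 2 * Real.exp (-(c * δ)) :=
  prob_ColOK_of h0 hz (mu_pos h0 hz hlam hexp hμ) (blockRare_of_isTC h0 hz hlam hexp hμ) ha hβ

end exp_moment

end Crest.Agent.R151.W
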