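import Crest.Agent.R151.L763b
import Crest.Agent.R151.A565a
import Crest.Agent.R151.W5b
import Crest.Agent.R151.F2

/-!
# R151/L763c — label functions of the half planes (owner helper763)

Input: line limits `f0 τ` of `T_{[0,N]}((x,0),(⌊τN⌋,N)) - T_{[0,N]}((0,0),(⌊τN⌋,N))` on the line
`y = 0`.  Output: the functions `FH τ k` on all half planes, with Hopf–Lax formulas.
-/

set_option autoImplicit false

open MeasureTheory Filter Topology
open Crest.ProbabilityR.FirstPassage

namespace Crest.Agent.R151.LIN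

open K

lemma shift_eq_act (z : ℤ × ℤ) (t : Environment) : A.shift z t = act (tr z) t := by
  funext e
  induction e with
  | _ x y => rfl

lemma pR_shift (t : Environment) (z : ℤ × ℤ) {R R' : Set (ℤ × ℤ)} (h : ∀ u, u ∈ R ↔ u + z ∈ R')
    (x y : ℤ × ℤ) : pR (A.shift z t) R x y = pR t R' (x + z) (y + z) := by
  rw [shift_eq_act, ← pR_tr]
  congr 1
  ext u
  exact h u

lemma Nn.shift {t : Environment} (ht : Nn t) (z : ℤ × ℤ) : Nn (A.shift z t) := fun _ => ht _

/-! ### a diagonal subsequence -/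

lemma exists_diag {Ω : Type*} [MeasurableSpace Ω] {P : Measure Ω} [IsProbabilityMeasure P]
    {ι : Type*} [Countable ι] (X : ι → ℕ → Ω → ℝ)
    (h : ∀ a, ∀ ε : ℝ, 0 < ε → Tendsto (fun N => P.real {ω | ε ≤ X a N ω}) atTop (𝓝 0)) :
    ∃ Ns : ℕ → ℕ, StrictMono Ns ∧ ∀ᵐ ω ∂P, ∀ a, ∀ ε : ℝ, 0 < ε → ∀ᶠ i in atTop,
      X a (Ns i) ω < ε := by
  classical
  have : Encodable ι := Encodable.ofCountable ι
  let F : ℕ → Finset ι := fun i =>
    (Finset.range (i + 1)).biUnion fun n => (Encodable.decode (α := ι) n).toFinset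
  have hF : ∀ a : ι, ∀ i, Encodable.encode a ≤ i → a ∈ F i := by
    intro a i hi
    simp only [F, Finset.mem_biUnion, Finset.mem_range]
    exact ⟨Encodable.encode a, by omega, by simp⟩
  let E : ℕ → ℕ → Set Ω := fun i N => ⋃ a ∈ F i, {ω | (1 / 2 : ℝ) ^ i ≤ X a N ω}
  have hE : ∀ i, ∀ᶠ N in atTop, P.real (E i N) ≤ (1 / 2 : ℝ) ^ i := by
    intro i
    have h1 : Tendsto (fun N => ∑ a ∈ F i, P.real {ω | (1 / 2 : ℝ) ^ i ≤ X a N ω}) atTop
        (𝓝 (∑ a ∈ F i, 0)) := tendsto_finsetSum _ fun a _ => h a _ (by positivity)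
    rw [Finset.sum_const_zero] at h1
    filter_upwards [h1.eventually (gt_mem_nhds (show (0 : ℝ) < (1 / 2) ^ i by positivity))]
      with N hN
    exact (measureReal_biUnion_finset_le _ _).trans hN.le
  obtain ⟨Ns, hNs, hNs'⟩ := extraction_forall_of_eventually hE
  refine ⟨Ns, hNs, ?_⟩
  have hsum : ∑' i, P (E i (Ns i)) ≠ ⊤ := by
    have h1 : ∀ i, P (E i (Ns i)) ≤ ENNReal.ofReal ((1 / 2 : ℝ) ^ i) := fun i => by
      rw [← ofReal_measureReal (measure_ne_top P _)]
      exact ENNReal.ofReal_le_ofReal (hNs' i)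
    refine ne_top_of_le_ne_top ?_ (ENNReal.tsum_le_tsum h1)
    rw [← ENNReal.ofReal_tsum_of_nonneg (fun i => by positivity)
      (summable_geometric_of_lt_one (by norm_num) (by norm_num))]
    exact ENNReal.ofReal_ne_top
  have hbc := measure_limsup_atTop_eq_zero hsum
  have hae : ∀ᵐ ω ∂P, ∀ᶠ i in atTop, ω ∉ E i (Ns i) := by
    rw [ae_iff]
    refine measure_mono_null (fun ω hω => ?_) hbc
    simp only [Set.mem_ofPred_eq, not_eventually, not_not] at hω
    rw [Filter.limsup_eq_iInf_iSup_of_nat]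
    simp only [Set.iInf_eq_iInter, Set.iSup_eq_iUnion, Set.mem_iInter, Set.mem_iUnion]
    intro n
    obtain ⟨i, hi, hi'⟩ := (Filter.frequently_atTop.1 hω) n
    exact ⟨i, hi, hi'⟩
  filter_upwards [hae] with ω hω a ε hε
  have h1 : ∀ᶠ i : ℕ in atTop, (1 / 2 : ℝ) ^ i < ε :=
    (tendsto_pow_atTop_nhds_zero_of_lt_one (by norm_num) (by norm_num)).eventually
      (gt_mem_nhds hε)
  filter_upwards [hω, h1, eventually_ge_atTop (Encodable.encode a)] with i h2 h3 h4
  by_contra hcon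
  push Not at hcon
  refine h2 ?_
  simp only [E, Set.mem_iUnion]
  exact ⟨a, hF a i h4, (h3.le.trans hcon)⟩

/-! ### coercivity of the passage time -/

variable {G : Measure ℝ} [IsProbabilityMeasure G]

/-- almost surely `T(z, w) ≥ c |w.1| - B` for every `c < m`, `m = μ e₁` -/
theorem ae_coer (h0 : G (Set.Iio 0) = 0) (hz : G {0} = 0) {m : ℝ} (hm : 0 < m)
    (hB : W.BlockRare G m) :
    ∀ᵐ t ∂(iidLaw G), ∀ c < m, ∀ z : ℤ × ℤ, ∃ B : ℝ, ∀ w : ℤ × ℤ,
      c * |(w.1 : ℝ)| - B ≤ passageTime t z w := by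
  have key : ∀ n : ℕ, ∀ a b : ℤ, ∀ᵐ t ∂(iidLaw G), ∀ᶠ k : ℕ in atTop, ∀ y : ℤ,
      (m - 1 / (n + 1)) * k < passageTime t (a, b) (a + k, y) ∧
      (m - 1 / (n + 1)) * k < passageTime t (a, b) (a - k, y) := by
    intro n a b
    obtain ⟨c, hc, C, hC, h⟩ := W.line_of_blockRare h0 hz hm hB
      (ε := 1 / ((n : ℝ) + 1)) (by positivity)
    have hs : ∀ S : ℕ → Set Environment,
        (∀ k, (iidLaw G).real (S k) ≤ C * Real.exp (-(c * k))) →
        ∀ᵐ t ∂(iidLaw G), ∀ᶠ k in atTop, t ∉ S k := by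
      intro S hS
      have h1 : ∑' k, (iidLaw G) (S k) ≠ ⊤ := by
        have h2 : ∀ k, (iidLaw G) (S k) ≤ ENNReal.ofReal (C * Real.exp (-(c * k))) := fun k => by
          rw [← ofReal_measureReal (measure_ne_top _ _)]
          exact ENNReal.ofReal_le_ofReal (hS k)
        refine ne_top_of_le_ne_top ?_ (ENNReal.tsum_le_tsum h2)
        have h3 : Summable fun k : ℕ => C * Real.exp (-(c * k)) := by
          refine Summable.mul_left C ?_
          have : (fun k : ℕ => Real.exp (-(c * k))) = fun k : ℕ => (Real.exp (-c)) ^ k := by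
            funext k
            rw [← Real.exp_nat_mul]
            congr 1; ring
          rw [this]
          exact summable_geometric_of_lt_one (Real.exp_pos _).le (Real.exp_lt_one_iff.2 (by linarith))
        rw [← ENNReal.ofReal_tsum_of_nonneg (fun k => by positivity) h3]
        exact ENNReal.ofReal_ne_top
      have hbc := measure_limsup_atTop_eq_zero h1
      rw [ae_iff]
      refine measure_mono_null (fun ω hω => ?_) hbc
      simp only [Set.mem_ofPred_eq, not_eventually, not_not] at hω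
      rw [Filter.limsup_eq_iInf_iSup_of_nat]
      simp only [Set.iInf_eq_iInter, Set.iSup_eq_iUnion, Set.mem_iInter, Set.mem_iUnion]
      intro n
      obtain ⟨i, hi, hi'⟩ := (Filter.frequently_atTop.1 hω) n
      exact ⟨i, hi, hi'⟩
    have e1 := hs _ fun k => (h a b k).1
    have e2 := hs _ fun k => (h a b k).2.1
    filter_upwards [e1, e2] with t h1 h2
    filter_upwards [h1, h2] with k h3 h4 y
    simp only [not_exists, not_le] at h3 h4
    exact ⟨h3 y, h4 y⟩
  have key' : ∀ᵐ t ∂(iidLaw G), ∀ n : ℕ, ∀ a b : ℤ, ∀ᶠ k : ℕ in atTop, ∀ y : ℤ,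
      (m - 1 / (n + 1)) * k < passageTime t (a, b) (a + k, y) ∧
      (m - 1 / (n + 1)) * k < passageTime t (a, b) (a - k, y) := by
    rw [ae_all_iff]; intro n; rw [ae_all_iff]; intro a; rw [ae_all_iff]; intro b
    exact key n a b
  filter_upwards [key', ae_Nn h0] with t ht hnn c hc z
  obtain ⟨n, hn⟩ := exists_nat_one_div_lt (show (0 : ℝ) < m - c by linarith)
  obtain ⟨K0, hK0⟩ := (ht n z.1 z.2).exists_forall_of_atTop
  refine ⟨|c| * (K0 + |(z.1 : ℝ)|), fun w => ?_⟩
  have hT := K.pt_nonneg hnn z w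
  have hw : |(w.1 : ℝ)| ≤ |((w.1 - z.1 : ℤ) : ℝ)| + |(z.1 : ℝ)| := by
    have : (w.1 : ℝ) = ((w.1 - z.1 : ℤ) : ℝ) + (z.1 : ℝ) := by push_cast; ring
    rw [this]; exact abs_add_le _ _
  have hcw : c * |(w.1 : ℝ)| ≤ |c| * |(w.1 : ℝ)| :=
    mul_le_mul_of_nonneg_right (le_abs_self c) (abs_nonneg _)
  have habs : 0 ≤ |c| := abs_nonneg c
  set d : ℤ := w.1 - z.1 with hd
  by_cases hsm : d.natAbs < K0
  · have h1 : |((d : ℤ) : ℝ)| ≤ K0 := by
      rw [← Int.cast_abs, Int.abs_eq_natAbs]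
      exact_mod_cast hsm.le
    have h2 : |c| * |(w.1 : ℝ)| ≤ |c| * (K0 + |(z.1 : ℝ)|) :=
      mul_le_mul_of_nonneg_left (by linarith) habs
    linarith
  · push Not at hsm
    have h3 := hK0 d.natAbs hsm w.2
    have hd' : |(d : ℝ)| = ((d.natAbs : ℕ) : ℝ) := by
      rw [← Int.cast_abs, Int.abs_eq_natAbs]
      simp
    have h4 : (m - 1 / (n + 1)) * (d.natAbs : ℝ) < passageTime t z w := by
      rcases le_total 0 d with h5 | h5
      · have e : ((z.1 + (d.natAbs : ℤ) : ℤ), w.2) = w := by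
          refine Prod.ext ?_ rfl
          simp only
          omega
        have := h3.1
        rwa [e] at this
      · have e : ((z.1 - (d.natAbs : ℤ) : ℤ), w.2) = w := by
          refine Prod.ext ?_ rfl
          simp only
          omega
        have := h3.2
        rwa [e] at this
    have h5 : c * (d.natAbs : ℝ) ≤ (m - 1 / (n + 1)) * (d.natAbs : ℝ) :=
      mul_le_mul_of_nonneg_right (by linarith) (by positivity)
    -- `c |w.1| ≤ c |d| + |c| |z.1|`
    have h6 : c * |(w.1 : ℝ)| ≤ c * |(d : ℝ)| + |c| * |(z.1 : ℝ)| := by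
      have h7 : |(|(w.1 : ℝ)| - |(d : ℝ)|)| ≤ |(z.1 : ℝ)| := by
        have := abs_abs_sub_abs_le (w.1 : ℝ) (d : ℝ)
        refine this.trans (le_of_eq ?_)
        congr 1
        rw [hd]; push_cast; ring
      have h8 : c * (|(w.1 : ℝ)| - |(d : ℝ)|) ≤ |c| * |(z.1 : ℝ)| := by
        refine (le_abs_self _).trans ?_
        rw [abs_mul]
        exact mul_le_mul_of_nonneg_left h7 habs
      linarith
    rw [hd'] at h6
    have : 0 ≤ |c| * K0 := by positivity
    linarith

end Crest.Agent.R151.LIN
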