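import Crest.Agent.R151.L763d

/-!
# R151/L763e — the functions `FH` of the half planes, one fixed environment (owner helper763)
-/

set_option autoImplicit false

open MeasureTheory Filter Topology
open Crest.ProbabilityR.FirstPassage

namespace Crest.Agent.R151.LIN

open K

variable {D : Set ℝ} {cc : ℝ → ℝ} {m1 : ℝ}
  {f0 : ℝ → Environment → ℤ → ℝ} {τ : ℝ} {Ns : ℕ → ℕ} {t : Environment}

section aux

variable (h : Good f0 m1 τ Ns t) {k j : ℤ} {z z' : ℤ × ℤ}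
include h

theorem Good.bdd (hkj : k ≤ j) (hz : z ∈ Hk k) (hzj : z.2 ≤ j) :
    BddBelow (Set.range fun q : ℤ => pR t (Hk k) z (q, j) + fl f0 τ j t q) :=
  (h.main hkj hz hzj).1

theorem Good.mH_lim (hkj : k ≤ j) (hz : z ∈ Hk k) (hzj : z.2 ≤ j) :
    Tendsto (fun i => pR t (Sp k (Ns i)) z (bt τ (Ns i)) - pR t (Sp j (Ns i)) (0, j) (bt τ (Ns i)))
      atTop (𝓝 (mH f0 τ k j t z)) :=
  (h.main hkj hz hzj).2.1

theorem Good.mH_attained (hkj : k ≤ j) (hz : z ∈ Hk k) (hzj : z.2 ≤ j) :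
    ∃ q : ℤ, pR t (Hk k) z (q, j) + fl f0 τ j t q = mH f0 τ k j t z :=
  (h.main hkj hz hzj).2.2

theorem Good.mH_sub_lim (hkj : k ≤ j) (hz : z ∈ Hk k) (hzj : z.2 ≤ j) (hz' : z' ∈ Hk k)
    (hzj' : z'.2 ≤ j) :
    Tendsto (fun i => pR t (Sp k (Ns i)) z (bt τ (Ns i)) - pR t (Sp k (Ns i)) z' (bt τ (Ns i)))
      atTop (𝓝 (mH f0 τ k j t z - mH f0 τ k j t z')) := by
  refine ((h.mH_lim hkj hz hzj).sub (h.mH_lim hkj hz' hzj')).congr fun i => ?_
  ring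

/-- **strip limits**: the function of the half plane `Hk k` is the limit of the strip
differences -/
theorem Good.lim_FH (hz : z ∈ Hk k) :
    Tendsto (fun i => pR t (Sp k (Ns i)) z (bt τ (Ns i)) -
      pR t (Sp k (Ns i)) (0, k) (bt τ (Ns i))) atTop (𝓝 (FH f0 τ k t z)) := by
  refine h.mH_sub_lim (j := max k z.2 + 1) (z := z) (z' := (0, k)) ?_ hz ?_ (le_refl k) ?_
  · have := le_max_left k z.2; omega
  · have := le_max_right k z.2; omega
  · have := le_max_left k z.2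
    change k ≤ _; omega

theorem Good.lim_sub (hz : z ∈ Hk k) (hz' : z' ∈ Hk k) :
    Tendsto (fun i => pR t (Sp k (Ns i)) z (bt τ (Ns i)) - pR t (Sp k (Ns i)) z' (bt τ (Ns i)))
      atTop (𝓝 (FH f0 τ k t z - FH f0 τ k t z')) := by
  refine ((h.lim_FH hz).sub (h.lim_FH hz')).congr fun i => ?_
  ring

theorem Good.mH_sub (hkj : k ≤ j) (hz : z ∈ Hk k) (hzj : z.2 ≤ j) (hz' : z' ∈ Hk k)
    (hzj' : z'.2 ≤ j) :
    mH f0 τ k j t z - mH f0 τ k j t z' = FH f0 τ k t z - FH f0 τ k t z' :=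
  tendsto_nhds_unique (h.mH_sub_lim hkj hz hzj hz' hzj') (h.lim_sub hz hz')

omit h in
theorem FH_base : FH f0 τ k t (0, k) = 0 := by simp [FH]

theorem Good.FH_eq (hkj : k ≤ j) (hz : z ∈ Hk k) (hzj : z.2 ≤ j) :
    FH f0 τ k t z = mH f0 τ k j t z - mH f0 τ k j t (0, k) := by
  rw [h.mH_sub hkj hz hzj (z' := (0, k)) (le_refl k) hkj, FH_base, sub_zero]

/-- on its boundary row `FH` is the label function -/
theorem Good.FH_row (x : ℤ) : FH f0 τ k t (x, k) = fl f0 τ k t x :=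
  tendsto_nhds_unique (h.lim_FH (z := (x, k)) (le_refl k)) (h.conv k x)

/-- **Lipschitz** -/
theorem Good.FH_sub_le (hz : z ∈ Hk k) (hz' : z' ∈ Hk k) :
    FH f0 τ k t z - FH f0 τ k t z' ≤ pR t (Hk k) z z' := by
  refine le_of_tendsto_of_tendsto (h.lim_sub hz hz') (tendsto_strip h.nn hz hz' h.tendsto_Ns) ?_
  filter_upwards [h.tendsto_Ns.eventually_ge_atTop (max z.2 z'.2)] with i hi
  have m1 : z ∈ Sp k (Ns i) := ⟨hz, (le_max_left _ _).trans hi⟩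
  have m2 : z' ∈ Sp k (Ns i) := ⟨hz', (le_max_right _ _).trans hi⟩
  have m3 : bt τ (Ns i) ∈ Sp k (Ns i) := ⟨le_trans hz' m2.2, le_rfl⟩
  have := pR_triangle h.nn (conn_Sp m1 m2) (conn_Sp m2 m3)
  linarith

theorem Good.abs_FH_sub_le (hz : z ∈ Hk k) (hz' : z' ∈ Hk k) :
    |FH f0 τ k t z - FH f0 τ k t z'| ≤ pR t (Hk k) z z' := by
  rw [abs_le]
  have h1 := h.FH_sub_le hz hz'
  have h2 := h.FH_sub_le hz' hz
  rw [pR_symm h.nn] at h2
  constructor <;> linarith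

/-- **Hopf–Lax between levels** -/
theorem Good.hopfLax (hkj : k ≤ j) : ∃ κ : ℝ, ∀ z ∈ Hk k, z.2 ≤ j →
    (∀ q : ℤ, FH f0 τ k t z ≤ κ + pR t (Hk k) z (q, j) + FH f0 τ j t (q, j)) ∧
      ∃ q : ℤ, FH f0 τ k t z = κ + pR t (Hk k) z (q, j) + FH f0 τ j t (q, j) := by
  refine ⟨-mH f0 τ k j t (0, k), fun z hz hzj => ⟨fun q => ?_, ?_⟩⟩
  · rw [h.FH_eq hkj hz hzj, h.FH_row]
    have h1 : mH f0 τ k j t z ≤ pR t (Hk k) z (q, j) + fl f0 τ j t q :=
      ciInf_le (h.bdd hkj hz hzj) q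
    linarith
  · obtain ⟨q, hq⟩ := h.mH_attained hkj hz hzj
    refine ⟨q, ?_⟩
    rw [h.FH_eq hkj hz hzj, h.FH_row, ← hq]
    ring

/-- **dynamic programming inside one half plane** -/
theorem Good.exists_grad (hkj : k ≤ j) (hz : z ∈ Hk k) (hzj : z.2 ≤ j) :
    ∃ q : ℤ, FH f0 τ k t z = pR t (Hk k) z (q, j) + FH f0 τ k t (q, j) := by
  obtain ⟨κ, hκ⟩ := h.hopfLax hkj
  obtain ⟨q, hq⟩ := (hκ z hz hzj).2
  have hqj : ((q, j) : ℤ × ℤ) ∈ Hk k := hkj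
  refine ⟨q, le_antisymm ?_ ?_⟩
  · have := h.FH_sub_le hz hqj
    linarith
  · have := (hκ (q, j) hqj le_rfl).1 q
    rw [pR_self h.nn hqj] at this
    linarith

omit h in
lemma mem_of_reg_adj {R : Set (ℤ × ℤ)} {x y : ℤ × ℤ} (h : (reg R).Adj x y) : x ∈ R ∧ y ∈ R :=
  (reg_adj.1 h).2

theorem Good.isLip (k : ℤ) : Y.IsLip t (reg (Hk k)) (FH f0 τ k t) := by
  intro x y hxy
  obtain ⟨hx, hy⟩ := mem_of_reg_adj hxy
  refine (h.FH_sub_le hx hy).trans ?_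
  exact pR_adj h.nn (reg_adj.1 hxy).1 hx hy

/-- **gradients exist** as soon as geodesics exist -/
theorem Good.hasGrad (hgeo : ∀ x y, (reg (Hk k)).Reachable x y →
    ∃ w : (reg (Hk k)).Walk x y, IsGeo t w) :
    Y.HasGrad t (reg (Hk k)) (FH f0 τ k t) (Hk k) := by
  intro z hz
  obtain ⟨q, hq⟩ := h.exists_grad (j := z.2 + 1) (by have : k ≤ z.2 := hz; omega) hz (by omega)
  have hqm : ((q, z.2 + 1) : ℤ × ℤ) ∈ Hk k := by
    have : k ≤ z.2 := hz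
    change k ≤ z.2 + 1
    omega
  have hr : (reg (Hk k)).Reachable z (q, z.2 + 1) := (conn_iff_reachable hz).1 (conn_Hk hz hqm)
  obtain ⟨w, hw⟩ := hgeo _ _ hr
  have hG : Y.Grad t (reg (Hk k)) (FH f0 τ k t) z (q, z.2 + 1) := by
    refine ⟨hr, ?_⟩
    rw [← pR_eq_pt hz]
    linarith
  have hne : z ≠ (q, z.2 + 1) := by
    intro he
    have := congrArg Prod.snd he
    simp only at this
    omega
  obtain ⟨y, hy, -⟩ := Y.Grad.exists_step (h.isLip k) hG hne hw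
  exact ⟨y, (mem_of_reg_adj hy.1).2, hy⟩

end aux

end Crest.Agent.R151.LIN
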