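import Crest.Agent.R151.L763f

/-!
# R151/L763g — from the localisation (L) of near geodesics to the one sided lower bounds
`lowR`, `lowL` of `LineFns` (owner helper763)
-/

set_option autoImplicit false

open MeasureTheory Filter Topology
open Crest.ProbabilityR.FirstPassage

namespace Crest.Agent.R151.LIN

open K

lemma Sp_inter_le {k N M : ℤ} (h : N ≤ M) : Sp k M ∩ {u : ℤ × ℤ | u.2 ≤ N} = Sp k N := by
  ext u
  simp only [Set.mem_inter_iff, mem_Sp, Set.mem_ofPred_eq]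
  omega

/-- `w` is almost optimal for the first hit of row `N` on the way from `(0,0)` to `(b, M)` -/
def NearOpt (t : Environment) (N M b w : ℤ) : Prop :=
  pR t (Sp 0 N) (0, 0) (w, N) + pR t (Sp 0 M) (w, N) (b, M) ≤ pR t (Sp 0 M) (0, 0) (b, M) + 1

lemma exists_nearOpt {t : Environment} (ht : Nn t) {N M b : ℤ} (hN : 0 ≤ N) (hNM : N ≤ M) {ε : ℝ}
    (hε : 0 < ε) : ∃ w : ℤ, pR t (Sp 0 N) (0, 0) (w, N) + pR t (Sp 0 M) (w, N) (b, M) ≤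
      pR t (Sp 0 M) (0, 0) (b, M) + ε := by
  have m0 : ((0, 0) : ℤ × ℤ) ∈ Sp 0 M := ⟨le_rfl, hN.trans hNM⟩
  have mb : ((b, M) : ℤ × ℤ) ∈ Sp 0 M := ⟨hN.trans hNM, le_rfl⟩
  obtain ⟨q, -, -, hq⟩ := exists_cut_first ht (conn_Sp m0 mb) (j := N) hN hNM hε
  rw [Sp_inter_le hNM] at hq
  exact ⟨q, hq⟩

/-- deterministic comparison, right half -/
lemma det_right {t : Environment} (ht : Nn t) {N M b z : ℤ} (hN : 0 ≤ N) (hNM : N ≤ M)
    (h : ∀ w : ℤ, w ≤ z → ¬ NearOpt t N M b w) {x : ℤ} (hx : 0 ≤ x) :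
    gl 0 M b t x ≤ gl 0 N z t x := by
  refine le_of_forall_pos_le_add fun ε hε => ?_
  obtain ⟨w, hw⟩ := exists_nearOpt ht (b := b) hN hNM (ε := min ε 1) (lt_min hε one_pos)
  have hzw : z ≤ w := by
    by_contra hcon
    push Not at hcon
    refine h w hcon.le ?_
    unfold NearOpt
    have := min_le_right ε 1
    linarith
  have m : ∀ u : ℤ, ((u, 0) : ℤ × ℤ) ∈ Sp 0 N := fun u => ⟨le_rfl, hN⟩
  have m' : ∀ u : ℤ, ((u, N) : ℤ × ℤ) ∈ Sp 0 N := fun u => ⟨hN, le_rfl⟩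
  have M0 : ∀ u : ℤ, ((u, 0) : ℤ × ℤ) ∈ Sp 0 M := fun u => ⟨le_rfl, hN.trans hNM⟩
  have MN : ∀ u : ℤ, ((u, N) : ℤ × ℤ) ∈ Sp 0 M := fun u => ⟨hN, hNM⟩
  have MM : ∀ u : ℤ, ((u, M) : ℤ × ℤ) ∈ Sp 0 M := fun u => ⟨hN.trans hNM, le_rfl⟩
  have hsw := Pl.strip_switch ht (R := Sp 0 N) (lo := 0) (hi := N) (fun z hz => hz)
    (a := (0, 0)) (b := (x, 0)) (c := (z, N)) (d := (w, N)) rfl rfl rfl rfl hx hzw
    (conn_Sp (m 0) (m' w)) (conn_Sp (m x) (m' z))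
  have htri := pR_triangle ht (conn_Sp (M0 x) (MN w)) (conn_Sp (MN w) (MM b))
  have han : pR t (Sp 0 M) (x, 0) (w, N) ≤ pR t (Sp 0 N) (x, 0) (w, N) := by
    refine pR_anti ht (fun u (hu : (0 : ℤ) ≤ u.2 ∧ u.2 ≤ N) => ?_) (conn_Sp (m x) (m' w))
    exact (⟨hu.1, hu.2.trans hNM⟩ : (0 : ℤ) ≤ u.2 ∧ u.2 ≤ M)
  have := min_le_left ε 1
  unfold gl
  linarith

/-- deterministic comparison, left half -/
lemma det_left {t : Environment} (ht : Nn t) {N M b z : ℤ} (hN : 0 ≤ N) (hNM : N ≤ M)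
    (h : ∀ w : ℤ, z ≤ w → ¬ NearOpt t N M b w) {x : ℤ} (hx : x ≤ 0) :
    gl 0 M b t x ≤ gl 0 N z t x := by
  refine le_of_forall_pos_le_add fun ε hε => ?_
  obtain ⟨w, hw⟩ := exists_nearOpt ht (b := b) hN hNM (ε := min ε 1) (lt_min hε one_pos)
  have hzw : w ≤ z := by
    by_contra hcon
    push Not at hcon
    refine h w hcon.le ?_
    unfold NearOpt
    have := min_le_right ε 1
    linarith
  have m : ∀ u : ℤ, ((u, 0) : ℤ × ℤ) ∈ Sp 0 N := fun u => ⟨le_rfl, hN⟩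
  have m' : ∀ u : ℤ, ((u, N) : ℤ × ℤ) ∈ Sp 0 N := fun u => ⟨hN, le_rfl⟩
  have M0 : ∀ u : ℤ, ((u, 0) : ℤ × ℤ) ∈ Sp 0 M := fun u => ⟨le_rfl, hN.trans hNM⟩
  have MN : ∀ u : ℤ, ((u, N) : ℤ × ℤ) ∈ Sp 0 M := fun u => ⟨hN, hNM⟩
  have MM : ∀ u : ℤ, ((u, M) : ℤ × ℤ) ∈ Sp 0 M := fun u => ⟨hN.trans hNM, le_rfl⟩
  have hsw := Pl.strip_switch ht (R := Sp 0 N) (lo := 0) (hi := N) (fun z hz => hz)
    (a := (x, 0)) (b := (0, 0)) (c := (w, N)) (d := (z, N)) rfl rfl rfl rfl hx hzw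
    (conn_Sp (m x) (m' z)) (conn_Sp (m 0) (m' w))
  have htri := pR_triangle ht (conn_Sp (M0 x) (MN w)) (conn_Sp (MN w) (MM b))
  have han : pR t (Sp 0 M) (x, 0) (w, N) ≤ pR t (Sp 0 N) (x, 0) (w, N) := by
    refine pR_anti ht (fun u (hu : (0 : ℤ) ≤ u.2 ∧ u.2 ≤ N) => ?_) (conn_Sp (m x) (m' w))
    exact (⟨hu.1, hu.2.trans hNM⟩ : (0 : ℤ) ≤ u.2 ∧ u.2 ≤ M)
  have := min_le_left ε 1
  unfold gl
  linarith

/-- a fixed function bounded below by `U M` on events of probability `≥ 1 - δ` for infinitely many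
`M` is bounded below by the limit with probability `≥ 1 - δ` -/
lemma prob_limit {Ω : Type*} [MeasurableSpace Ω] {P : Measure Ω} [IsProbabilityMeasure P]
    {ι : Type*} [Countable ι] {S : Set ι} {g : Ω → ι → ℝ} {U : ℕ → Ω → ι → ℝ} {u : Ω → ι → ℝ}
    (hU : ∀ x, ∀ ε : ℝ, 0 < ε → Tendsto (fun M => P.real {ω | ε ≤ |U M ω x - u ω x|}) atTop (𝓝 0))
    {A : ℕ → Set Ω} (hA : ∀ᵐ ω ∂P, ∀ᶠ M in atTop, ω ∉ A M → ∀ x ∈ S, U M ω x ≤ g ω x) {δ : ℝ}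
    (hδ : ∃ᶠ M in atTop, P.real (A M) ≤ δ) : P.real {ω | ∃ x ∈ S, g ω x < u ω x} ≤ δ := by
  obtain ⟨φ, hφ, hφA⟩ := extraction_of_frequently_atTop hδ
  obtain ⟨ψ, hψ, hae⟩ := exists_diag (P := P) (fun x i ω => |U (φ i) ω x - u ω x|)
    (fun x ε hε => (hU x ε hε).comp hφ.tendsto_atTop)
  have hsub : ∀ᵐ ω ∂P, ω ∈ {ω | ∃ x ∈ S, g ω x < u ω x} →
      ω ∈ ⋃ n : ℕ, ⋂ i ∈ Set.Ici n, A (φ (ψ i)) := by
    filter_upwards [hae, hA] with ω h1 h2 hω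
    obtain ⟨x, hx, hlt⟩ := hω
    have e1 : ∀ᶠ i in atTop, ω ∈ A (φ (ψ i)) := by
      have h3 := (hφ.tendsto_atTop.comp hψ.tendsto_atTop).eventually h2
      filter_upwards [h1 x (u ω x - g ω x) (by linarith), h3] with i h4 h5
      by_contra hcon
      have h6 := h5 hcon x hx
      have h7 := (abs_lt.1 h4).1
      simp only [Function.comp] at h6
      linarith
    obtain ⟨n, hn⟩ := e1.exists_forall_of_atTop
    refine Set.mem_iUnion.2 ⟨n, ?_⟩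
    simp only [Set.mem_iInter]
    intro i hi
    exact hn i hi
  have hle : P {ω | ∃ x ∈ S, g ω x < u ω x} ≤ P (⋃ n : ℕ, ⋂ i ∈ Set.Ici n, A (φ (ψ i))) :=
    measure_mono_ae hsub
  have hmono : Monotone fun n : ℕ => ⋂ i ∈ Set.Ici n, A (φ (ψ i)) := by
    intro n m hnm
    exact Set.biInter_subset_biInter_left fun i hi => le_trans hnm hi
  have hδ0 : 0 ≤ δ := measureReal_nonneg.trans (hφA 0)
  have hle2 : P (⋃ n : ℕ, ⋂ i ∈ Set.Ici n, A (φ (ψ i))) ≤ ENNReal.ofReal δ := by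
    rw [hmono.measure_iUnion]
    refine iSup_le fun n => ?_
    have h1 : (⋂ i ∈ Set.Ici n, A (φ (ψ i))) ⊆ A (φ (ψ n)) :=
      Set.biInter_subset_of_mem (show n ∈ Set.Ici n from le_refl n)
    refine (measure_mono h1).trans ?_
    rw [← ENNReal.ofReal_toReal (measure_ne_top P (A (φ (ψ n))))]
    exact ENNReal.ofReal_le_ofReal (hφA _)
  have := hle.trans hle2
  rw [measureReal_def]
  exact ENNReal.toReal_le_of_le_ofReal hδ0 this

variable {G : Measure ℝ} [IsProbabilityMeasure G]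

/-- convergence in probability of the row `0` functions towards the points `(⌊τ M⌋, M)` -/
def ConvAt (G : Measure ℝ) (f : Environment → ℤ → ℝ) (τ : ℝ) : Prop :=
  ∀ x : ℤ, ∀ ε : ℝ, 0 < ε → Tendsto (fun M : ℕ => (iidLaw G).real
      {t | ε ≤ |gl 0 M ⌊τ * M⌋ t x - (f t x - f t 0)|}) atTop (𝓝 0)

/-- near geodesics towards `τ` do not exit to the left of `s` -/
def LocL (G : Measure ℝ) (τ s : ℝ) : Prop :=
  ∀ δ : ℝ, 0 < δ → ∀ᶠ N : ℕ in atTop, ∃ᶠ M : ℕ in atTop,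
    (iidLaw G).real {t | ∃ w : ℤ, (w : ℝ) ≤ s * N ∧ NearOpt t N M ⌊τ * M⌋ w} ≤ δ

/-- near geodesics towards `τ` do not exit to the right of `s` -/
def LocR (G : Measure ℝ) (τ s : ℝ) : Prop :=
  ∀ δ : ℝ, 0 < δ → ∀ᶠ N : ℕ in atTop, ∃ᶠ M : ℕ in atTop,
    (iidLaw G).real {t | ∃ w : ℤ, s * N ≤ (w : ℝ) ∧ NearOpt t N M ⌊τ * M⌋ w} ≤ δ

theorem low_right (h0 : G (Set.Iio 0) = 0) {f : Environment → ℤ → ℝ} {τ' s : ℝ}
    (hc : ConvAt G f τ') (hL : LocL G τ' s) {z : ℕ → ℤ} (hz : ∀ᶠ N : ℕ in atTop, (z N : ℝ) ≤ s * N) :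
    Tendsto (fun N : ℕ => (iidLaw G).real
      {t | ∃ x : ℤ, 0 ≤ x ∧ gl 0 N (z N) t x < f t x - f t 0}) atTop (𝓝 0) := by
  rw [tendsto_order]
  refine ⟨fun a ha => Eventually.of_forall fun N => ha.trans_le measureReal_nonneg, fun a ha => ?_⟩
  filter_upwards [hL (a / 2) (by linarith), hz] with N hN hzN
  have := prob_limit (P := iidLaw G) (S := {x : ℤ | 0 ≤ x}) (g := fun t x => gl 0 N (z N) t x)
    (U := fun M t x => gl 0 M ⌊τ' * M⌋ t x) (u := fun t x => f t x - f t 0) hc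
    (A := fun M => {t | ∃ w : ℤ, (w : ℝ) ≤ s * N ∧ NearOpt t N M ⌊τ' * M⌋ w}) ?_ hN
  · exact this.trans_lt (by linarith)
  · filter_upwards [ae_Nn h0] with t ht
    filter_upwards [eventually_ge_atTop N] with M hM hA x hx
    refine det_right ht (by positivity) (by exact_mod_cast hM) (fun w hw hno => hA ⟨w, ?_, hno⟩) hx
    exact (by exact_mod_cast hw : (w : ℝ) ≤ z N).trans hzN

theorem low_left (h0 : G (Set.Iio 0) = 0) {f : Environment → ℤ → ℝ} {τ' s : ℝ}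
    (hc : ConvAt G f τ') (hL : LocR G τ' s) {z : ℕ → ℤ} (hz : ∀ᶠ N : ℕ in atTop, s * N ≤ (z N : ℝ)) :
    Tendsto (fun N : ℕ => (iidLaw G).real
      {t | ∃ x : ℤ, x ≤ 0 ∧ gl 0 N (z N) t x < f t x - f t 0}) atTop (𝓝 0) := by
  rw [tendsto_order]
  refine ⟨fun a ha => Eventually.of_forall fun N => ha.trans_le measureReal_nonneg, fun a ha => ?_⟩
  filter_upwards [hL (a / 2) (by linarith), hz] with N hN hzN
  have := prob_limit (P := iidLaw G) (S := {x : ℤ | x ≤ 0}) (g := fun t x => gl 0 N (z N) t x)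
    (U := fun M t x => gl 0 M ⌊τ' * M⌋ t x) (u := fun t x => f t x - f t 0) hc
    (A := fun M => {t | ∃ w : ℤ, s * N ≤ (w : ℝ) ∧ NearOpt t N M ⌊τ' * M⌋ w}) ?_ hN
  · exact this.trans_lt (by linarith)
  · filter_upwards [ae_Nn h0] with t ht
    filter_upwards [eventually_ge_atTop N] with M hM hA x hx
    refine det_left ht (by positivity) (by exact_mod_cast hM) (fun w hw hno => hA ⟨w, ?_, hno⟩) hx
    exact hzN.trans (by exact_mod_cast hw : (z N : ℝ) ≤ w)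

end Crest.Agent.R151.LIN
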