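import Crest.Agent.R151.M192h
import Crest.Agent.R151.A565k
import Crest.Agent.R151.R78P

/-!
# R151 / S0214 part 2, M192i — the paths of the stack, deterministic half (owner helper192)
-/

set_option autoImplicit false

open MeasureTheory Filter ProbabilityTheory Topology Set
open Crest.ProbabilityR.FirstPassage
open Crest.Agent.R151.K Crest.Agent.R151.Q

namespace Crest.Agent.R151.NF

open B710 (FlatData NormLike)
open R78 (IsStrip IsStack IsOpen IsHwy Wk hull routes shp gp SUMY ptY hp hc exc Sep)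
open M192 (frame isStrip pe frame_al frame_be)

variable {μ : ℝ × ℝ → ℝ}

namespace Cf

variable {G : Measure ℝ} {F : FlatData μ} {w0 c0 K : ℝ} {p : Num} {c : Cf G F w0 c0 K p}

/-- numerical facts used for the paths (`w` = width of the lane, `e'`, `n'` = precision and radius
of the shape theorem in the gaps) -/
structure PathNum (c : Cf G F w0 c0 K p) (w cψ e' : ℝ) (n' : ℕ) : Prop where
  W_pos : 0 < p.W
  l_pos : 0 < c.l
  e_pos : 0 < p.e
  δ_pos : 0 < p.δ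
  cψ_pos : 0 < cψ
  wH_lt : c.h.wH < c.yA
  gap : c.h.wH + 4 * cF F < 2 * c.g
  lab : w / 2 + cF F + c.h.κ + 1 ≤ (p.v - 1) * p.W
  win : p.v * p.W + c.h.κ + 2 * cF F + 1 ≤ c.L
  back : c.h.κ + 1 + 2 * cF F ≤ p.δ * p.W / 16
  ht : 2 * c.g + c.h.wH + 2 * cF F ≤ p.δ * p.W / 16
  htW : 2 * c.g + c.h.wH + 2 * cF F ≤ c.L
  rad : (‖F.a‖ + ‖F.b‖) * (2 * c.L) + 1 ≤ n'
  dev : 4 * (e' * n') ≤ cψ * (p.δ * p.W / 32)
  cost : 4 * c.l ≤ p.e * (cψ * p.W)

section geometry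

variable (c)

lemma al_th (k : ℕ) (ω : M192.St (ℝ × ℝ)) (z : ℤ × ℤ) :
    F.al (pos (c.th k ω) z) = F.al (pos ω.1.1 z) - F.al (ω.2 k).1 := c.al_pos_rq k _ _ z

lemma be_th (k : ℕ) (ω : M192.St (ℝ × ℝ)) (z : ℤ × ℤ) :
    F.be (pos (c.th k ω) z) = F.be (pos ω.1.1 z) - (k * c.P + c.g) - F.be (ω.2 k).1 :=
  c.be_pos_rq k _ _ z

lemma al_thU (k : ℕ) (ω : M192.St (ℝ × ℝ)) (z : ℤ × ℤ) :
    F.al (pos (c.th k ω - c.dA) z) = F.al (pos ω.1.1 z) - F.al (ω.2 k).1 := by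
  rw [dA, M192.al_pos_sub_b, al_th]

lemma be_thU (k : ℕ) (ω : M192.St (ℝ × ℝ)) (z : ℤ × ℤ) :
    F.be (pos (c.th k ω - c.dA) z) =
      F.be (pos ω.1.1 z) - (k * c.P + c.g) - F.be (ω.2 k).1 - c.yA := by
  rw [dA, M192.be_pos_sub_b, be_th]

lemma be_off (k : ℕ) (ω : M192.St (ℝ × ℝ)) :
    F.be (c.th k ω) = F.be ω.1.1 - (k * c.P + c.g) - F.be (ω.2 k).1 := by
  unfold th B
  rw [map_sub, map_sub, M192.be_smul_b]

lemma be_offU (k : ℕ) (ω : M192.St (ℝ × ℝ)) :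
    F.be (c.th k ω - c.dA) = F.be ω.1.1 - (k * c.P + c.g) - F.be (ω.2 k).1 - c.yA := by
  rw [map_sub, be_off, dA, M192.be_smul_b]

/-- height of the lower highway of row `k` -/
lemma be_Lk (k : ℕ) (ω : M192.St (ℝ × ℝ)) (i : ℤ) :
    |F.be (pos ω.1.1 (c.Lk k ω i)) - (k * c.P + c.g) - F.be (ω.2 k).1| ≤ c.h.wH / 2 := by
  have := c.h.strip (ω.2 k).2.1 (c.th k ω) ω.1.2 i
  rw [be_th] at this
  exact this

lemma be_Uk (k : ℕ) (ω : M192.St (ℝ × ℝ)) (i : ℤ) :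
    |F.be (pos ω.1.1 (c.Uk k ω i)) - (k * c.P + c.g) - F.be (ω.2 k).1 - c.yA| ≤ c.h.wH / 2 := by
  have := c.h.strip (ω.2 k).2.2 (c.th k ω - c.dA) ω.1.2 i
  rw [be_thU] at this
  exact this

lemma hwyL (k : ℕ) (ω : M192.St (ℝ × ℝ)) : IsHwy (c.Lk k ω) := c.h.isHwy _ _ _

lemma hwyU (k : ℕ) (ω : M192.St (ℝ × ℝ)) : IsHwy (c.Uk k ω) := c.h.isHwy _ _ _

end geometry

lemma abs_be_nr (F : FlatData μ) (θ : ℝ × ℝ) : |F.be (pos θ (nr θ))| ≤ cF F :=
  abs_be_le' F ((norm_pos_nr' θ).trans (by norm_num))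

lemma abs_al_nr (F : FlatData μ) (θ : ℝ × ℝ) : |F.al (pos θ (nr θ))| ≤ cF F :=
  abs_al_le' F ((norm_pos_nr' θ).trans (by norm_num))

variable {w cψ e' : ℝ} {n' : ℕ} (hP : c.PathNum w cψ e' n')

/-- jitters in the unit square -/
def Jit (ω : M192.St (ℝ × ℝ)) : Prop := ∀ k, (ω.2 k).1 ∈ Ico (0 : ℝ) 1 ×ˢ Ico (0 : ℝ) 1

lemma Jit.al {ω : M192.St (ℝ × ℝ)} (h : Jit ω) (F : FlatData μ) (k : ℕ) :
    |F.al (ω.2 k).1| ≤ cF F := abs_al_le' F (norm_jitter (h k))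

lemma Jit.be {ω : M192.St (ℝ × ℝ)} (h : Jit ω) (F : FlatData μ) (k : ℕ) :
    |F.be (ω.2 k).1| ≤ cF F := abs_be_le' F (norm_jitter (h k))

/-- end point of the walk -/
noncomputable def topv (c : Cf G F w0 c0 K p) (N : ℕ) (ω : M192.St (ℝ × ℝ)) : ℤ × ℤ :=
  nr (ω.1.1 - (((N : ℝ) + 1) * c.P) • F.b)

lemma be_topv (c : Cf G F w0 c0 K p) (N : ℕ) (ω : M192.St (ℝ × ℝ)) :
    |F.be (pos ω.1.1 (c.topv N ω)) - ((N : ℝ) + 1) * c.P| ≤ cF F := by
  have := abs_be_nr F (ω.1.1 - (((N : ℝ) + 1) * c.P) • F.b)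
  rw [M192.be_pos_sub_b] at this
  exact this

lemma al_topv (c : Cf G F w0 c0 K p) (N : ℕ) (ω : M192.St (ℝ × ℝ)) :
    |F.al (pos ω.1.1 (c.topv N ω))| ≤ cF F := by
  have := abs_al_nr F (ω.1.1 - (((N : ℝ) + 1) * c.P) • F.b)
  rw [M192.al_pos_sub_b] at this
  exact this

include hP in
lemma PathNum.P_pos : 0 < c.P := by
  have h1 := hP.wH_lt
  have h2 := hP.gap
  have h3 := c.h.wH_nonneg
  have h4 := cF_nonneg F
  have : c.P = c.yA + 2 * c.g := rfl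
  rw [this]; linarith

include hP in
/-- the rows form a stack crossed by the walks `nr ξ → topv N` -/
theorem PathNum.stack {ω : M192.St (ℝ × ℝ)} (hj : Jit ω) (N : ℕ) :
    IsStack N (fun k => c.Lk k ω) (fun k => c.Uk k ω) {nr ω.1.1} {c.topv N ω} := by
  have hPP := hP.P_pos
  have hyA := hP.wH_lt
  have hg := hP.gap
  have hw := c.h.wH_nonneg
  have hcF := cF_nonneg F
  have hPe : c.P = c.yA + 2 * c.g := rfl
  have hb : ∀ k, |F.be (ω.2 k).1| ≤ cF F := hj.be F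
  refine R78.isStack_of_strips (F := frame F)
    (loL := fun k => -(c.h.wH / 2) - F.be (c.th k ω)) (hiL := fun k => c.h.wH / 2 - F.be (c.th k ω))
    (loU := fun k => -(c.h.wH / 2) - F.be (c.th k ω - c.dA))
    (hiU := fun k => c.h.wH / 2 - F.be (c.th k ω - c.dA))
    (fun k _ => isStrip c.h _ _ _) (fun k _ => isStrip c.h _ _ _) ?_ ?_ ?_ ?_ ?_ ?_
  · intro k _
    simp only [be_off, be_offU]
    linarith
  · intro k _
    simp only [be_off, be_offU]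
    have h1 := abs_le.1 (hb k)
    have h2 := abs_le.1 (hb (k + 1))
    push_cast
    nlinarith [h1.1, h1.2, h2.1, h2.2]
  · intro k hk
    simp only [be_offU]
    have h1 := abs_le.1 (hb k)
    have h2 := abs_le.1 (hb N)
    have h3 : ((k : ℝ) + 1) ≤ N := by exact_mod_cast hk
    have h4 : ((k : ℝ) + 1) * c.P ≤ N * c.P := mul_le_mul_of_nonneg_right h3 hPP.le
    nlinarith [h1.1, h1.2, h2.1, h2.2]
  · rintro _ rfl
    simp only [be_off]
    rw [frame_be]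
    have h1 := abs_le.1 (hb 0)
    have h2 := abs_le.1 (abs_be_nr F ω.1.1)
    rw [M192.be_pos] at h2
    push_cast
    nlinarith [h1.1, h1.2, h2.1, h2.2]
  · rintro _ rfl
    simp only [be_offU]
    rw [frame_be]
    have h1 := abs_le.1 (hb 0)
    have h2 := abs_le.1 (abs_be_nr F ω.1.1)
    rw [M192.be_pos] at h2
    push_cast
    nlinarith [h1.1, h1.2, h2.1, h2.2]
  · rintro _ rfl
    simp only [be_offU]
    rw [frame_be]
    have h1 := abs_le.1 (hb N)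
    have h2 := abs_le.1 (c.be_topv N ω)
    rw [M192.be_pos] at h2
    nlinarith [h1.1, h1.2, h2.1, h2.2]

end Cf

end Crest.Agent.R151.NF
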