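import Crest.Agent.R151.M192i

/-!
# R151 / S0214 part 2, M192j — the paths of the stack, deterministic theorem (owner helper192)
-/

set_option autoImplicit false

open MeasureTheory Filter ProbabilityTheory Topology Set
open Crest.ProbabilityR.FirstPassage
open Crest.Agent.R151.K Crest.Agent.R151.Q

namespace Crest.Agent.R151.NF

open B710 (FlatData NormLike)
open R78 (IsStrip IsStack IsOpen IsHwy Wk hull routes shp gp SUMY ptY hp hc exc Sep hc_mono)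
open M192 (frame isStrip pe frame_al frame_be)

variable {μ : ℝ × ℝ → ℝ}

lemma phi_eq (F : FlatData μ) (ξ : ℝ × ℝ) (z : ℤ × ℤ) :
    phi F z = F.al (pos ξ z) + F.be (pos ξ z) - F.al ξ - F.be ξ := by
  unfold phi
  rw [F.ρ_eq, M192.al_pos, M192.be_pos]; ring

namespace Cf

variable {G : Measure ℝ} {F : FlatData μ} {w0 c0 K : ℝ} {p : Num} {c : Cf G F w0 c0 K p}
variable {w cψ e' : ℝ} {n' : ℕ} (hP : c.PathNum w cψ e' n')

section labels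

variable (c)

lemma jL_le {s : ℝ} {k : ℕ} {ω : M192.St (ℝ × ℝ)} {i : ℤ}
    (h : s ≤ F.al (pos ω.1.1 (c.Lk k ω i)) - F.al (ω.2 k).1) : c.jL s k ω ≤ i := by
  rw [← c.al_th] at h
  exact c.h.ix_le h

lemma jU_le {s : ℝ} {k : ℕ} {ω : M192.St (ℝ × ℝ)} {i : ℤ}
    (h : s ≤ F.al (pos ω.1.1 (c.Uk k ω i)) - F.al (ω.2 k).1) : c.jU s k ω ≤ i := by
  rw [← c.al_thU] at h
  exact c.h.ix_le h

lemma lt_jL {s : ℝ} {k : ℕ} {ω : M192.St (ℝ × ℝ)} {i : ℤ}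
    (h : F.al (pos ω.1.1 (c.Lk k ω i)) - F.al (ω.2 k).1 < s - c.h.κ) : i < c.jL s k ω := by
  rw [← c.al_th] at h
  exact c.h.lt_ix_of_al_lt h

lemma lt_jU {s : ℝ} {k : ℕ} {ω : M192.St (ℝ × ℝ)} {i : ℤ}
    (h : F.al (pos ω.1.1 (c.Uk k ω i)) - F.al (ω.2 k).1 < s - c.h.κ) : i < c.jU s k ω := by
  rw [← c.al_thU] at h
  exact c.h.lt_ix_of_al_lt h

lemma al_jL_ge (s : ℝ) (k : ℕ) (ω : M192.St (ℝ × ℝ)) :
    s ≤ F.al (pos ω.1.1 (c.Lk k ω (c.jL s k ω))) - F.al (ω.2 k).1 := by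
  rw [← c.al_th]
  exact c.h.ix_spec _ _ _ _

lemma al_jU_ge (s : ℝ) (k : ℕ) (ω : M192.St (ℝ × ℝ)) :
    s ≤ F.al (pos ω.1.1 (c.Uk k ω (c.jU s k ω))) - F.al (ω.2 k).1 := by
  rw [← c.al_thU]
  exact c.h.ix_spec _ _ _ _

lemma al_jL_le (s : ℝ) (k : ℕ) (ω : M192.St (ℝ × ℝ)) :
    F.al (pos ω.1.1 (c.Lk k ω (c.jL s k ω))) - F.al (ω.2 k).1 ≤ s + cF F := by
  rw [← c.al_th]
  exact c.h.al_x_le _ _ _ _

lemma al_jU_le (s : ℝ) (k : ℕ) (ω : M192.St (ℝ × ℝ)) :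
    F.al (pos ω.1.1 (c.Uk k ω (c.jU s k ω))) - F.al (ω.2 k).1 ≤ s + cF F := by
  rw [← c.al_thU]
  exact c.h.al_x_le _ _ _ _

end labels

/-- the kernel of row `k` at the labels of two positions is at most the sharp cost -/
lemma K_le_shp {T : Set (M192.Row (ℝ × ℝ))} {ω : M192.St (ℝ × ℝ)} (ht : Nn ω.1.2) (k : ℕ)
    (hl : 0 < c.l) {z w : ℤ} {s r : ℝ}
    (hs : s * p.W ≤ F.al (pos ω.1.1 (c.Lk k ω z)) - F.al (ω.2 k).1)
    (hr : F.al (pos ω.1.1 (c.Uk k ω w)) - F.al (ω.2 k).1 < r * p.W - c.h.κ)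
    (hne : (routes ω.1.2 (c.Lk k ω) (c.Uk k ω) univ z w).Nonempty) :
    (c.rows T k).K s r ω ≤ shp ω.1.2 (c.Lk k ω) (c.Uk k ω) univ (c.jL (-c.L) k ω)
      (c.jU c.L k ω) univ z w / c.l := by
  have hpe : pe ω.1.2 = ω.1.2 := M192.pe_of_nn ht
  show c.h.sk (c.yA • F.b) univ univ c.L (s * p.W) (r * p.W) (c.th k ω) (pe ω.1.2) (ω.2 k).2 / c.l ≤
    _
  rw [hpe]
  refine div_le_div_of_nonneg_right ?_ hl.le
  have hu : rg F univ (c.th k ω) = univ := by ext; simp [rg]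
  have h1 : hull ω.1.2 (c.Lk k ω) (c.Uk k ω) univ (c.jL (s * p.W) k ω) (c.jU (r * p.W) k ω) ≤
      hull ω.1.2 (c.Lk k ω) (c.Uk k ω) univ z w :=
    R78.hull_mono (bddBelow_routes ht _ _ _ _ _) hne subset_rfl (c.jL_le hs) (c.lt_jU hr).le
  have h2 : c.h.sk (c.yA • F.b) univ univ c.L (s * p.W) (r * p.W) (c.th k ω) ω.1.2 (ω.2 k).2 =
      hull ω.1.2 (c.Lk k ω) (c.Uk k ω) univ (c.jL (s * p.W) k ω) (c.jU (r * p.W) k ω) -
      hull ω.1.2 (c.Lk k ω) (c.Uk k ω) univ (c.jL (-c.L) k ω) (c.jU c.L k ω) := by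
    unfold Hwy.sk Hwy.hk
    rw [hu]
    rfl
  rw [h2]
  unfold shp
  linarith

include hP in
/-- **linear cost of a backward move in the gap between row `k` and row `k + 1`** -/
lemma PathNum.gap_ge (hμ : NormLike μ)
    (hpsi : ∀ (v : ℝ × ℝ) (A : ℝ), 0 ≤ A → F.al v ≤ -A → |F.be v| ≤ A → cψ * A ≤ F.ψ v)
    {ω : M192.St (ℝ × ℝ)} (hj : Jit ω) (ht : Nn ω.1.2) (k : ℕ) {i z : ℤ}
    (hi : |F.al (pos ω.1.1 (c.Uk k ω i))| ≤ w / 2) (hz : |F.al (pos ω.1.1 (c.Lk (k + 1) ω z))| ≤ w / 2)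
    (hD : devB μ n' (c.th k ω - c.dA) ω.1.2 ≤ e' * n') {s r : ℝ}
    (hs : r * p.W = F.al (pos ω.1.1 (c.Lk (k + 1) ω z)) - F.al (ω.2 (k + 1)).1)
    (hr : s * p.W = F.al (pos ω.1.1 (c.Uk k ω i)) - F.al (ω.2 k).1 + c.h.κ + 1)
    (hsr : p.δ / 8 < s - r) :
    (s - r) / p.e ≤ gp ω.1.2 (c.Uk k ω) (c.Lk (k + 1) ω) (c.jU (-c.L) k ω) (c.jL c.L (k + 1) ω)
      i z / c.l := by
  have hW := hP.W_pos
  have hl := hP.l_pos
  have hcF := cF_nonneg F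
  have hκ := c.h.κ_nonneg
  have hg := hP.gap
  have hw := c.h.wH_nonneg
  have hPP := hP.P_pos
  have hyA := hP.wH_lt
  have hPe : c.P = c.yA + 2 * c.g := rfl
  have hbk := hP.back
  have hht := hP.ht
  have hhtW := hP.htW
  have hlab := hP.lab
  have hwin := hP.win
  have ha1 := abs_le.1 (hj.al F k)
  have ha2 := abs_le.1 (hj.al F (k + 1))
  have hb1 := abs_le.1 (hj.be F k)
  have hb2 := abs_le.1 (hj.be F (k + 1))
  have hi' := abs_le.1 hi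
  have hz' := abs_le.1 hz
  have hk1 : ((k : ℝ) + 1) * c.P = k * c.P + c.P := by ring
  -- positions
  have eal : ∀ a b : ℤ × ℤ, F.al (toR (a - b)) = F.al (pos ω.1.1 a) - F.al (pos ω.1.1 b) := by
    intro a b
    rw [← pos_sub_pos ω.1.1 b a, map_sub]
  have ebe : ∀ a b : ℤ × ℤ, F.be (toR (a - b)) = F.be (pos ω.1.1 a) - F.be (pos ω.1.1 b) := by
    intro a b
    rw [← pos_sub_pos ω.1.1 b a, map_sub]
  have hUi := abs_le.1 (c.be_Uk k ω i)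
  have hLz := abs_le.1 (c.be_Lk (k + 1) ω z)
  have hUa := abs_le.1 (c.be_Uk k ω (c.jU (-c.L) k ω))
  have hLb := abs_le.1 (c.be_Lk (k + 1) ω (c.jL c.L (k + 1) ω))
  push_cast at hLz hLb
  rw [hk1] at hLz hLb
  have aUa1 := c.al_jU_ge (-c.L) k ω
  have aUa2 := c.al_jU_le (-c.L) k ω
  have aLb1 := c.al_jL_ge c.L (k + 1) ω
  have aLb2 := c.al_jL_le c.L (k + 1) ω
  have hδW0 : 0 < p.δ * p.W := mul_pos hP.δ_pos hW
  have hδW : p.δ * p.W / 8 < (s - r) * p.W := by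
    have := mul_lt_mul_of_pos_right hsr hW
    linarith
  have hvW : p.v * p.W = (p.v - 1) * p.W + p.W := by ring
  obtain ⟨D, hD'⟩ : ∃ D, D = (s - r) * p.W := ⟨_, rfl⟩
  have hsrW : D = s * p.W - r * p.W := by rw [hD']; ring
  -- the norm bound
  have hn : ∀ x : ℤ × ℤ, |F.al (pos ω.1.1 x) - F.al (ω.2 k).1| ≤ 2 * c.L →
      |F.be (pos ω.1.1 x) - (k * c.P + c.g) - F.be (ω.2 k).1 - c.yA| ≤ 2 * c.L →
      ‖pos (c.th k ω - c.dA) x‖ ≤ (‖F.a‖ + ‖F.b‖) * (2 * c.L) := by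
    intro x h1 h2
    rw [← al_thU] at h1
    rw [← be_thU] at h2
    refine (norm_le_coord F _).trans ?_
    have h3 := mul_le_mul_of_nonneg_right h1 (norm_nonneg F.a)
    have h4 := mul_le_mul_of_nonneg_right h2 (norm_nonneg F.b)
    linarith
  have q1 : c.jU (-c.L) k ω ≤ i := c.jU_le (by linarith [hi'.1, ha1.2])
  have q2 : z ≤ c.jL c.L (k + 1) ω := (c.lt_jL (by linarith [hz'.2, ha2.1])).le
  have hDD : p.δ * p.W / 8 < D := by rw [hD']; exact hδW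
  have q3 : 0 ≤ D / 2 := by linarith
  have q4 : F.al (toR (c.Lk (k + 1) ω z - c.Uk k ω i)) ≤ -(D / 2) := by
    rw [eal]; linarith
  have q5 : |F.be (toR (c.Lk (k + 1) ω z - c.Uk k ω i))| ≤ D / 2 := by
    rw [ebe, abs_le]
    constructor <;> linarith [hUi.1, hUi.2, hLz.1, hLz.2, hb1.1, hb1.2, hb2.1, hb2.2]
  have q6 : 0 ≤ F.al (toR (c.Lk (k + 1) ω (c.jL c.L (k + 1) ω) - c.Uk k ω (c.jU (-c.L) k ω))) := by
    rw [eal]; linarith
  have q7 : 0 ≤ F.be (toR (c.Lk (k + 1) ω (c.jL c.L (k + 1) ω) - c.Uk k ω (c.jU (-c.L) k ω))) := by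
    rw [ebe]; linarith [hUa.1, hUa.2, hLb.1, hLb.2]
  have b1 := hn (c.Uk k ω (c.jU (-c.L) k ω)) (by rw [abs_le]; constructor <;> linarith)
    (by rw [abs_le]; constructor <;> linarith [hUa.1, hUa.2])
  have b2 := hn (c.Uk k ω i) (by rw [abs_le]; constructor <;> linarith [hi'.1, hi'.2])
    (by rw [abs_le]; constructor <;> linarith [hUi.1, hUi.2])
  have b3 := hn (c.Lk (k + 1) ω z) (by rw [abs_le]; constructor <;> linarith [hz'.1, hz'.2])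
    (by rw [abs_le]; constructor <;> linarith [hLz.1, hLz.2])
  have b4 := hn (c.Lk (k + 1) ω (c.jL c.L (k + 1) ω)) (by rw [abs_le]; constructor <;> linarith)
    (by rw [abs_le]; constructor <;> linarith [hLb.1, hLb.2])
  have key := gp_ge (F := F) hpsi hμ ht (c.hwyU k ω) (c.hwyL (k + 1) ω) q1 q2 q3 q4 q5 q6 q7
    (θ := c.th k ω - c.dA) (N := n') (R := (‖F.a‖ + ‖F.b‖) * (2 * c.L)) hP.rad b1 b2 b3 b4
  have hdev := hP.dev
  have hcost := hP.cost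
  have he := hP.e_pos
  have hcψ := hP.cψ_pos
  clear q4 q5 q6 q7 b1 b2 b3 b4 hn eal ebe hUi hLz hUa hLb aUa1 aUa2 aLb1 aLb2 hi' hz' ha1 ha2
    hb1 hb2
  rw [div_le_div_iff₀ he hl]
  have h1 : cψ * (p.δ * p.W / 32) ≤ cψ * (D / 4) :=
    mul_le_mul_of_nonneg_left (by linarith) hcψ.le
  have h2 : cψ * (D / 4) ≤ gp ω.1.2 (c.Uk k ω) (c.Lk (k + 1) ω) (c.jU (-c.L) k ω)
      (c.jL c.L (k + 1) ω) i z := by
    have h3 : cψ * (D / 2) = cψ * (D / 4) + cψ * (D / 4) := by ring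
    linarith
  have hsr0 : 0 ≤ s - r := by
    have := hP.δ_pos
    linarith
  calc (s - r) * c.l ≤ (s - r) * (p.e * (cψ * p.W) / 4) :=
        mul_le_mul_of_nonneg_left (by linarith) hsr0
    _ = (cψ * (D / 4)) * p.e := by rw [hD']; ring
    _ ≤ _ := mul_le_mul_of_nonneg_right h2 he.le

end Cf

end Crest.Agent.R151.NF
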