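import Crest.Agent.R151.M192j

/-!
# R151 / S0214 part 2, M192k — the paths of the stack, deterministic theorem (owner helper192)
-/

set_option autoImplicit false

open MeasureTheory Filter ProbabilityTheory Topology Set
open Crest.ProbabilityR.FirstPassage
open Crest.Agent.R151.K Crest.Agent.R151.Q

namespace Crest.Agent.R151.NF

open B710 (FlatData NormLike)
open R78 (IsStrip IsStack IsOpen IsHwy Wk hull routes shp gp SUMY ptY hp hc exc Sep hc_mono)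
open M192 (frame isStrip pe frame_al frame_be)

variable {μ : ℝ × ℝ → ℝ}

namespace Cf

variable {G : Measure ℝ} {F : FlatData μ} {w0 c0 K : ℝ} {p : Num} {c : Cf G F w0 c0 K p}
variable {w cψ e' : ℝ} {n' : ℕ} (hP : c.PathNum w cψ e' n')

include hP in
/-- lower boundary term -/
lemma PathNum.bdry_lo {ω : M192.St (ℝ × ℝ)} (hj : Jit ω) (ht : Nn ω.1.2) {z : ℤ}
    (hz : z ≤ c.jL c.L 0 ω) :
    -(5 * cF F) - c.cstL 0 ω ≤ ptY ω.1.2 (phi F) (nr ω.1.1) (c.Lk 0 ω z) -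
      (hp ω.1.2 (phi F) (c.Lk 0 ω) z - hp ω.1.2 (phi F) (c.Lk 0 ω) (c.jL (-c.L) 0 ω)) := by
  have h0 := Crest.Agent.R151.K.pt_nonneg ht (nr ω.1.1) (c.Lk 0 ω z)
  have h1 : hc ω.1.2 (c.Lk 0 ω) z ≤ hc ω.1.2 (c.Lk 0 ω) (c.jL c.L 0 ω) := hc_mono ht _ hz
  have e : c.cstL 0 ω = hc ω.1.2 (c.Lk 0 ω) (c.jL c.L 0 ω) -
    hc ω.1.2 (c.Lk 0 ω) (c.jL (-c.L) 0 ω) := rfl
  have hcF := cF_nonneg F
  have h2 := c.al_jL_le (-c.L) 0 ω
  have h3 := abs_le.1 (c.be_Lk 0 ω (c.jL (-c.L) 0 ω))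
  have h4 := abs_le.1 (abs_be_nr F ω.1.1)
  have h5 := abs_le.1 (abs_al_nr F ω.1.1)
  have h6 := abs_le.1 (hj.al F 0)
  have h7 := abs_le.1 (hj.be F 0)
  have h8 := hP.htW
  have h9 := c.h.wH_nonneg
  have hg := hP.gap
  push_cast at h3
  have hphi : phi F (c.Lk 0 ω (c.jL (-c.L) 0 ω)) - phi F (nr ω.1.1) ≤ 5 * cF F := by
    rw [phi_eq F ω.1.1, phi_eq F ω.1.1]
    linarith [h3.1, h3.2]
  unfold ptY hp
  rw [e]
  linarith

include hP in
/-- upper boundary term -/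
lemma PathNum.bdry_hi {ω : M192.St (ℝ × ℝ)} (hj : Jit ω) (ht : Nn ω.1.2) (N : ℕ) {i : ℤ}
    (hi : c.jU (-c.L) N ω ≤ i) :
    -(4 * cF F) - c.cstU N ω ≤ ptY ω.1.2 (phi F) (c.Uk N ω i) (c.topv N ω) -
      (hp ω.1.2 (phi F) (c.Uk N ω) (c.jU c.L N ω) - hp ω.1.2 (phi F) (c.Uk N ω) i) := by
  have h0 := Crest.Agent.R151.K.pt_nonneg ht (c.Uk N ω i) (c.topv N ω)
  have h1 : hc ω.1.2 (c.Uk N ω) (c.jU (-c.L) N ω) ≤ hc ω.1.2 (c.Uk N ω) i := hc_mono ht _ hi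
  have e : c.cstU N ω = hc ω.1.2 (c.Uk N ω) (c.jU c.L N ω) -
    hc ω.1.2 (c.Uk N ω) (c.jU (-c.L) N ω) := rfl
  have hcF := cF_nonneg F
  have h2 := c.al_jU_ge c.L N ω
  have h3 := abs_le.1 (c.be_Uk N ω (c.jU c.L N ω))
  have h4 := abs_le.1 (c.be_topv N ω)
  have h5 := abs_le.1 (c.al_topv N ω)
  have h6 := abs_le.1 (hj.al F N)
  have h7 := abs_le.1 (hj.be F N)
  have h8 := hP.htW
  have h9 := c.h.wH_nonneg
  have hg := hP.gap
  have hPe : c.P = c.yA + 2 * c.g := rfl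
  have hk1 : ((N : ℝ) + 1) * c.P = N * c.P + c.P := by ring
  rw [hk1] at h4
  have hphi : -(4 * cF F) ≤ phi F (c.Uk N ω (c.jU c.L N ω)) - phi F (c.topv N ω) := by
    rw [phi_eq F ω.1.1, phi_eq F ω.1.1]
    linarith [h3.1, h3.2, h4.1, h4.2]
  unfold ptY hp
  rw [e]
  linarith

include hP in
/-- **The deterministic theorem of the paths.** -/
theorem PathNum.det (hμ : NormLike μ)
    (hpsi : ∀ (v : ℝ × ℝ) (A : ℝ), 0 ≤ A → F.al v ≤ -A → |F.be v| ≤ A → cψ * A ≤ F.ψ v)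
    {T : Set (M192.Row (ℝ × ℝ))} {ω : M192.St (ℝ × ℝ)} (hj : Jit ω) (ht : Nn ω.1.2) (N : ℕ)
    (g : Wk (nr ω.1.1) (c.topv N ω)) (hg : ∀ x ∈ g.support, x ∈ laneB F w ω.1.1) :
    ∃ z w' gap : ℕ → ℝ, (∀ k ≤ N, |z k| ≤ p.v - 1) ∧ (∀ k < N, |w' k| ≤ p.v - 1) ∧
      (∀ k < N, 0 ≤ gap k) ∧
      (∀ k < N, devB μ n' (c.th k ω - c.dA) ω.1.2 ≤ e' * n' → p.δ / 8 < w' k - z (k + 1) →
        (w' k - z (k + 1)) / p.e ≤ gap k) ∧
      ∑ k ∈ Finset.range N, (c.rows T k).K (z k) (w' k) ω + ∑ k ∈ Finset.range N, gap k ≤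
        (exc ω.1.2 (phi F) g - c.sumY N ω + c.cstL 0 ω + c.cstU N ω + 9 * cF F) / c.l := by
  have hW := hP.W_pos
  have hl := hP.l_pos
  have hcF := cF_nonneg F
  have hκ := c.h.κ_nonneg
  have hlab := hP.lab
  have hwin := hP.win
  obtain ⟨z, i, hzi, hsum⟩ := R78.chain_pr_gauge (φ := phi F) ht (hP.stack hj N)
    (A := fun _ => univ) (B := fun _ => univ)
    (aL := fun k => c.jL (-c.L) k ω) (bL := fun k => c.jL c.L k ω)
    (aU := fun k => c.jU (-c.L) k ω) (bU := fun k => c.jU c.L k ω)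
    (mem_singleton _) (mem_singleton _) g (fun k _ a b _ _ => bddBelow_routes ht _ _ _ _ _)
    (fun k _ a b o _ v _ => mem_univ v)
  have hne : ∀ k ≤ N, (routes ω.1.2 (c.Lk k ω) (c.Uk k ω) univ (z k) (i k)).Nonempty := by
    intro k hk
    obtain ⟨o, ho⟩ := hzi k hk
    exact ⟨_, z k, i k, le_rfl, le_rfl, o, ho.mono (subset_univ _), rfl⟩
  have hzl : ∀ k ≤ N, |F.al (pos ω.1.1 (c.Lk k ω (z k)))| ≤ w / 2 := by
    intro k hk
    obtain ⟨o, ho⟩ := hzi k hk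
    exact hg _ (ho.sub _ o.start_mem_support)
  have hil : ∀ k ≤ N, |F.al (pos ω.1.1 (c.Uk k ω (i k)))| ≤ w / 2 := by
    intro k hk
    obtain ⟨o, ho⟩ := hzi k hk
    exact hg _ (ho.sub _ o.end_mem_support)
  have hvW : p.v * p.W = (p.v - 1) * p.W + p.W := by ring
  -- window
  have za : ∀ k ≤ N, c.jL (-c.L) k ω ≤ z k := by
    intro k hk
    have h1 := abs_le.1 (hzl k hk)
    have h2 := abs_le.1 (hj.al F k)
    exact c.jL_le (by linarith [h1.1, h2.2])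
  have zb : ∀ k ≤ N, z k ≤ c.jL c.L k ω := by
    intro k hk
    have h1 := abs_le.1 (hzl k hk)
    have h2 := abs_le.1 (hj.al F k)
    exact (c.lt_jL (by linarith [h1.2, h2.1])).le
  have ia : ∀ k ≤ N, c.jU (-c.L) k ω ≤ i k := by
    intro k hk
    have h1 := abs_le.1 (hil k hk)
    have h2 := abs_le.1 (hj.al F k)
    exact c.jU_le (by linarith [h1.1, h2.2])
  have ib : ∀ k ≤ N, i k ≤ c.jU c.L k ω := by
    intro k hk
    have h1 := abs_le.1 (hil k hk)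
    have h2 := abs_le.1 (hj.al F k)
    exact (c.lt_jU (by linarith [h1.2, h2.1])).le
  set z' : ℕ → ℝ := fun k => (F.al (pos ω.1.1 (c.Lk k ω (z k))) - F.al (ω.2 k).1) / p.W with hz'
  set w' : ℕ → ℝ := fun k =>
    (F.al (pos ω.1.1 (c.Uk k ω (i k))) - F.al (ω.2 k).1 + c.h.κ + 1) / p.W with hw'
  have ez : ∀ k, z' k * p.W = F.al (pos ω.1.1 (c.Lk k ω (z k))) - F.al (ω.2 k).1 := fun k =>
    div_mul_cancel₀ _ hW.ne'
  have ew : ∀ k, w' k * p.W = F.al (pos ω.1.1 (c.Uk k ω (i k))) - F.al (ω.2 k).1 + c.h.κ + 1 :=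
    fun k => div_mul_cancel₀ _ hW.ne'
  have habs : ∀ x : ℝ, |x * p.W| ≤ (p.v - 1) * p.W → |x| ≤ p.v - 1 := by
    intro x hx
    rw [abs_mul, abs_of_pos hW] at hx
    exact le_of_mul_le_mul_right hx hW
  refine ⟨z', w', fun k => gp ω.1.2 (c.Uk k ω) (c.Lk (k + 1) ω) (c.jU (-c.L) k ω)
    (c.jL c.L (k + 1) ω) (i k) (z (k + 1)) / c.l, ?_, ?_, ?_, ?_, ?_⟩
  · intro k hk
    refine habs _ ?_
    have h1 := abs_le.1 (hzl k hk)
    have h2 := abs_le.1 (hj.al F k)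
    rw [ez, abs_le]
    constructor <;> linarith [h1.1, h1.2, h2.1, h2.2]
  · intro k hk
    refine habs _ ?_
    have h1 := abs_le.1 (hil k hk.le)
    have h2 := abs_le.1 (hj.al F k)
    rw [ew, abs_le]
    constructor <;> linarith [h1.1, h1.2, h2.1, h2.2]
  · intro k hk
    exact div_nonneg (R78.gp_nonneg ht (c.hwyU k ω) (c.hwyL (k + 1) ω) (ia k hk.le)
      (zb (k + 1) hk)) hl.le
  · intro k hk hD hsr
    exact hP.gap_ge hμ hpsi hj ht k (hil k hk.le) (hzl (k + 1) hk) hD (ez (k + 1)) (ew k) hsr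
  · have hK : ∀ k ∈ Finset.range N, (c.rows T k).K (z' k) (w' k) ω ≤
        shp ω.1.2 (c.Lk k ω) (c.Uk k ω) univ (c.jL (-c.L) k ω) (c.jU c.L k ω) univ (z k) (i k) /
          c.l := by
      intro k hk
      have hk' := (Finset.mem_range.1 hk).le
      exact K_le_shp ht k hl (ez k).le (by rw [ew]; linarith) (hne k hk')
    have h1 := Finset.sum_le_sum hK
    rw [← Finset.sum_div] at h1
    have hN : 0 ≤ shp ω.1.2 (c.Lk N ω) (c.Uk N ω) univ (c.jL (-c.L) N ω) (c.jU c.L N ω) univ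
        (z N) (i N) := R78.shp_nonneg (bddBelow_routes ht _ _ _ _ _) (hne N le_rfl) subset_rfl
          (za N le_rfl) (ib N le_rfl)
    rw [Finset.sum_range_succ] at hsum
    have hlo := hP.bdry_lo hj ht (zb 0 (Nat.zero_le _))
    have hhi := hP.bdry_hi hj ht N (ia N le_rfl)
    have hS : SUMY ω.1.2 (phi F) N (fun k => c.Lk k ω) (fun k => c.Uk k ω) (fun _ => univ)
      (fun k => c.jL (-c.L) k ω) (fun k => c.jL c.L k ω) (fun k => c.jU (-c.L) k ω)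
      (fun k => c.jU c.L k ω) = c.sumY N ω := rfl
    rw [hS] at hsum
    rw [← Finset.sum_div]
    refine (add_le_add_left h1 _).trans ?_
    rw [← add_div]
    refine div_le_div_of_nonneg_right ?_ hl.le
    linarith

end Cf

end Crest.Agent.R151.NF
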