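import Crest.Agent.R151.PA821a

/-!
# R151 / S0214 part 2, PA821b — the lane of the stack (owner helper821)

* `Cf.laneX_integrable`, `Cf.laneX_mean`: `E laneX w H = eL G F w H`;
* `lane_rate`: `eL G F w H ≤ (rate G F w + η) * H + C'` for all `H ≥ 0`;
* `lane_conn`, `exists_lane_walk`: near-optimal walks in the lane.
-/

set_option autoImplicit false

open MeasureTheory Filter ProbabilityTheory Topology Set
open Crest.ProbabilityR.FirstPassage
open Crest.Agent.R151.K Crest.Agent.R151.Q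

namespace Crest.Agent.R151.NF

open B710 (FlatData)
open C710 (fn fn_nonneg pL pL_theta integrable_pL mean_disp eL_add_le eL_le rate_tendsto rate_nonneg eL_eq)
open M192 (St Row PS rq measurable_rq)

variable {μ : ℝ × ℝ → ℝ} {G : Measure ℝ} [IsProbabilityMeasure G] {F : FlatData μ}

/-- **(P2)** the mean excess of a lane grows at most like its rate -/
theorem lane_rate (h0 : G (Set.Iio 0) = 0) (h2 : Integrable (fun x : ℝ => x ^ 2) G)
    (hμ : IsTC G μ) {w : ℝ} (hw : 2 * fn F.al ≤ w) {η : ℝ} (hη : 0 < η) :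
    ∃ C' : ℝ, ∀ H : ℝ, 0 ≤ H → eL G F w H ≤ (rate G F w + η) * H + C' := by
  have ht := rate_tendsto (G := G) h0 h2 hμ F hw
  have hr := rate_nonneg (G := G) h0 h2 hμ F hw
  have hev : ∀ᶠ n : ℕ in atTop, eL G F w n / n < rate G F w + η :=
    ht.eventually (gt_mem_nhds (by linarith))
  obtain ⟨n, hn, hn1⟩ := (hev.and (eventually_ge_atTop 1)).exists
  have hn0 : (0 : ℝ) < n := by exact_mod_cast hn1
  rw [div_lt_iff₀ hn0] at hn
  have hm : (0 : ℝ) ≤ ∫ z, z ∂G := integral_nonneg_of_ae (ae_nonneg h0)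
  -- multiples
  have hmul : ∀ (q : ℕ) (r : ℝ), eL G F w (q * n + r) ≤ q * eL G F w n + eL G F w r := by
    intro q r
    induction q with
    | zero => simp
    | succ q ih =>
      have h := eL_add_le (G := G) h0 h2 F hw (n : ℝ) (q * n + r)
      have e : (n : ℝ) + (q * n + r) = ((q + 1 : ℕ) : ℝ) * n + r := by push_cast; ring
      rw [e] at h
      refine h.trans ?_
      push_cast
      linarith
  refine ⟨(n * l1 F.b + 2) * (∫ z, z ∂G), fun H hH => ?_⟩
  set q : ℕ := ⌊H / n⌋₊ with hq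
  have hq1 : (q : ℝ) * n ≤ H := by
    have := Nat.floor_le (div_nonneg hH hn0.le)
    rw [le_div_iff₀ hn0] at this
    exact this
  have hq2 : H < (q + 1) * n := by
    have := Nat.lt_floor_add_one (H / n)
    rw [div_lt_iff₀ hn0] at this
    exact this
  have h3 := hmul q (H - q * n)
  rw [add_sub_cancel] at h3
  have h4 := eL_le (G := G) h0 h2 F hw (H - q * n)
  have h5 : |H - q * n| ≤ n := by
    rw [abs_of_nonneg (by linarith)]; linarith
  have h6 : (|H - q * n| * l1 F.b + 2) * (∫ z, z ∂G) ≤ (n * l1 F.b + 2) * (∫ z, z ∂G) := by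
    have := l1_nonneg F.b
    gcongr
  have h7 : (q : ℝ) * eL G F w n ≤ q * ((rate G F w + η) * n) :=
    mul_le_mul_of_nonneg_left hn.le (Nat.cast_nonneg q)
  have h8 : (rate G F w + η) * (q * n) ≤ (rate G F w + η) * H :=
    mul_le_mul_of_nonneg_left hq1 (by linarith)
  calc eL G F w H ≤ q * eL G F w n + eL G F w (H - q * n) := h3
    _ ≤ q * ((rate G F w + η) * n) + (n * l1 F.b + 2) * (∫ z, z ∂G) := by linarith
    _ = (rate G F w + η) * (q * n) + (n * l1 F.b + 2) * (∫ z, z ∂G) := by ring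
    _ ≤ _ := by linarith

/-- near-optimal walks in the lane exist, for every offset and every nonnegative environment -/
theorem lane_conn (h0 : G (Set.Iio 0) = 0) (h2 : Integrable (fun x : ℝ => x ^ 2) G) {w : ℝ}
    (hw : 2 * fn F.al ≤ w) (H : ℝ) (θ : ℝ × ℝ) :
    Conn (laneB F w θ) (nr θ) (nr (θ - H • F.b)) :=
  (pL_theta (G := G) h0 h2 F hw H θ).1

theorem exists_lane_walk (h0 : G (Set.Iio 0) = 0) (h2 : Integrable (fun x : ℝ => x ^ 2) G) {w : ℝ}
    (hw : 2 * fn F.al ≤ w) (H : ℝ) (θ : ℝ × ℝ) (t : Environment) {ε : ℝ} (hε : 0 < ε) :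
    ∃ g : squareLattice.Walk (nr θ) (nr (θ - H • F.b)), (∀ v ∈ g.support, v ∈ laneB F w θ) ∧
      walkCost t g ≤ pR t (laneB F w θ) (nr θ) (nr (θ - H • F.b)) + ε := by
  obtain ⟨g0, hg0⟩ := lane_conn (G := G) h0 h2 hw H θ
  have : Nonempty {p : squareLattice.Walk (nr θ) (nr (θ - H • F.b)) //
      ∀ v ∈ p.support, v ∈ laneB F w θ} := ⟨⟨g0, hg0⟩⟩
  obtain ⟨g, hg⟩ := exists_lt_of_ciInf_lt
    (show pR t (laneB F w θ) (nr θ) (nr (θ - H • F.b)) <
      pR t (laneB F w θ) (nr θ) (nr (θ - H • F.b)) + ε by linarith)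
  exact ⟨g.1, g.2, hg.le⟩

namespace Cf

variable {w0 c0 K : ℝ} {p : Num} (c : Cf G F w0 c0 K p)

/-- **(P2)** integrability and mean of the excess of the lane -/
theorem laneX_spec (h0 : G (Set.Iio 0) = 0) (h2 : Integrable (fun x : ℝ => x ^ 2) G) {w : ℝ}
    (hw : 2 * fn F.al ≤ w) (H : ℝ) :
    Integrable (c.laneX w H) c.PSt ∧ ∫ ω, c.laneX w H ω ∂c.PSt = eL G F w H := by
  have i1 := integrable_pL (G := G) h0 h2 F hw H
  obtain ⟨i2, e2⟩ := mean_disp (G := G) h0 h2 F F.ρ H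
  have mp0 : MeasurePreserving (fun q : (ℝ × ℝ) × Environment => q.1) (P0 G) UU2 := by
    unfold P0; exact measurePreserving_fst
  have i3 : Integrable (fun q : (ℝ × ℝ) × Environment =>
      F.ρ (toR (nr (q.1 - H • F.b) - nr q.1))) (P0 G) := mp0.integrable_comp_of_integrable i2
  have e3 : ∫ q : (ℝ × ℝ) × Environment, F.ρ (toR (nr (q.1 - H • F.b) - nr q.1)) ∂(P0 G) = H := by
    have := mp_integral mp0 i2.aestronglyMeasurable
    rw [this, e2, map_smul, F.ρ_b, smul_eq_mul, mul_one]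
  have mp1 : MeasurePreserving (fun ω : St (ℝ × ℝ) => ω.1) c.PSt (P0 G) := by
    show MeasurePreserving (fun ω : St (ℝ × ℝ) => ω.1) (PS G (UU.prod UU)) (P0 G)
    unfold PS
    exact measurePreserving_fst
  have e : c.laneX w H = (fun q : (ℝ × ℝ) × Environment => pL F w H q.1 q.2 -
      F.ρ (toR (nr (q.1 - H • F.b) - nr q.1))) ∘ fun ω : St (ℝ × ℝ) => ω.1 := by
    funext ω
    unfold laneX pL
    simp only [Function.comp]
    congr 1
    unfold phi
    rw [← map_sub]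
    congr 1
    unfold toR
    ext <;> simp
  have i4 := i1.sub i3
  constructor
  · rw [e]
    exact mp1.integrable_comp_of_integrable i4
  · rw [e]
    have h5 := mp_integral mp1 i4.aestronglyMeasurable
    have h6 := integral_sub i1 i3
    refine Eq.trans h5 ?_
    refine Eq.trans h6 ?_
    rw [e3, eL_eq]

theorem laneX_integrable (h0 : G (Set.Iio 0) = 0) (h2 : Integrable (fun x : ℝ => x ^ 2) G)
    {w : ℝ} (hw : 2 * fn F.al ≤ w) (H : ℝ) : Integrable (c.laneX w H) c.PSt :=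
  (c.laneX_spec h0 h2 hw H).1

theorem laneX_mean (h0 : G (Set.Iio 0) = 0) (h2 : Integrable (fun x : ℝ => x ^ 2) G)
    {w : ℝ} (hw : 2 * fn F.al ≤ w) (H : ℝ) : ∫ ω, c.laneX w H ω ∂c.PSt = eL G F w H :=
  (c.laneX_spec h0 h2 hw H).2

/-- almost surely: nonnegative environment, shift and jitters in the unit square -/
theorem ae_stack (h0 : G (Set.Iio 0) = 0) : ∀ᵐ ω ∂c.PSt, Nn ω.1.2 ∧
    ω.1.1 ∈ Ico (0 : ℝ) 1 ×ˢ Ico (0 : ℝ) 1 ∧
      ∀ k, (ω.2 k).1 ∈ Ico (0 : ℝ) 1 ×ˢ Ico (0 : ℝ) 1 := by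
  have h1 := M192.ae_jitter (G := G) (ν := UU.prod UU)
  have h2 := ae_P0_Nn (G := G) (Ψ := ℕ → (ℝ × ℝ) × (ℝ × ℝ))
    (ν := Measure.infinitePi fun _ : ℕ => UU2.prod (UU.prod UU)) h0
  filter_upwards [h1, h2] with ω hω1 hω2
  exact ⟨hω2.1, hω2.2, hω1⟩

/-- a near-optimal walk of the lane, in terms of `laneX` -/
theorem exists_walk (h0 : G (Set.Iio 0) = 0) (h2 : Integrable (fun x : ℝ => x ^ 2) G)
    {w : ℝ} (hw : 2 * fn F.al ≤ w) (H : ℝ) {ε : ℝ} (hε : 0 < ε) (ω : St (ℝ × ℝ)) :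
    ∃ g : squareLattice.Walk (nr ω.1.1) (nr (ω.1.1 - H • F.b)),
      (∀ v ∈ g.support, v ∈ laneB F w ω.1.1) ∧
      R78.exc ω.1.2 (phi F) g ≤ c.laneX w H ω + ε := by
  obtain ⟨g, hg, hc⟩ := exists_lane_walk (G := G) h0 h2 hw H ω.1.1 ω.1.2 hε
  refine ⟨g, hg, ?_⟩
  unfold R78.exc laneX
  linarith

end Cf

end Crest.Agent.R151.NF
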