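import Crest.Agent.R151.M192k
import Crest.Agent.R151.M192l
import Crest.Agent.R151.M56d
import Crest.Agent.R151.PA821b

/-!
# R151 / S0214 part 2, M192m — `Inputs.paths` (owner helper192)

Good events of the gaps, assembly of `E191.Paths` on the stack, order of constants.
-/

set_option autoImplicit false

open MeasureTheory Filter ProbabilityTheory Topology Set
open Crest.ProbabilityR.FirstPassage
open Crest.Agent.R151.K Crest.Agent.R151.Q

namespace Crest.Agent.R151.NF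

open B710 (FlatData NormLike)
open R78 (Wk exc)
open C710 (fn)
open M56 (mg)

variable {μ : ℝ × ℝ → ℝ}

/-! ### Good events of the gaps -/

lemma measurable_devB' {Ω : Type*} [MeasurableSpace Ω] (n' : ℕ) {θ : Ω → ℝ × ℝ}
    {t : Ω → Environment} (hθ : Measurable θ) (ht : Measurable t) :
    Measurable fun ω => devB μ n' (θ ω) (t ω) := by
  have h := (R6.measurable_devB (μ := μ) n').comp (hθ.prodMk ht)
  exact h

/-- probability of the bad events of the gaps -/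
theorem prob_devG {G : Measure ℝ} [IsProbabilityMeasure G] {e' : ℝ} {n' : ℕ}
    (h : ∀ v : ℝ × ℝ, (P0 G).real {p | e' * n' ≤ devB μ n' (p.1 + v) p.2} ≤ e')
    (B : ℕ → ℝ × ℝ) (d : ℝ × ℝ) (k : ℕ) :
    (M192.PS G (UU.prod UU)).real
      {ω | e' * n' ≤ devB μ n' (ω.1.1 - B k - (ω.2 k).1 - d) ω.1.2} ≤ e' := by
  obtain ⟨A, hAdef⟩ : ∃ A : Set (M192.Row (ℝ × ℝ)),
    A = {q | e' * n' ≤ devB μ n' (q.1.1 - d) q.1.2} := ⟨_, rfl⟩
  have hm0 : Measurable fun q : M192.Row (ℝ × ℝ) => devB μ n' (q.1.1 - d) q.1.2 :=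
    measurable_devB' n' ((measurable_fst.comp measurable_fst).sub_const _)
      (measurable_snd.comp measurable_fst)
  have hA : MeasurableSet[M192.mIL (ℝ × ℝ) (fun _ => univ)] A := by
    rw [M192.measurableSet_mIL, hAdef]
    refine ⟨measurableSet_le measurable_const hm0, fun φ m θ t => ?_, fun θ φ t t' htt => ?_⟩
    · have := R6.inv_devB (μ := μ) n' m (θ - d) t
      simp only [mem_ofPred_eq]
      rw [add_sub_right_comm, this]
    · have : t = t' := funext fun e => htt e (mem_univ e)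
      simp only [this]
  have h1 := M192.stack_measure (G := G) (ν := UU.prod UU) B k hA
  have h3 : MeasurePreserving (fun q : M192.Row (ℝ × ℝ) => q.1) ((P0 G).prod (UU.prod UU))
      (P0 G) := measurePreserving_fst
  have hm1 : MeasurableSet {p : (ℝ × ℝ) × Environment | e' * n' ≤ devB μ n' (p.1 + -d) p.2} :=
    measurableSet_le measurable_const (measurable_devB' n' (measurable_fst.add_const _)
      measurable_snd)
  have h4 := h3.measure_preimage hm1.nullMeasurableSet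
  have h5 : (fun q : M192.Row (ℝ × ℝ) => q.1) ⁻¹'
      {p : (ℝ × ℝ) × Environment | e' * n' ≤ devB μ n' (p.1 + -d) p.2} = A := by
    rw [hAdef]
    ext q
    simp only [mem_preimage, mem_ofPred_eq, ← sub_eq_add_neg]
  rw [h5] at h4
  have h6 : {ω : M192.St (ℝ × ℝ) | e' * n' ≤ devB μ n' (ω.1.1 - B k - (ω.2 k).1 - d) ω.1.2} =
      M192.rq B k ⁻¹' A := by
    rw [hAdef]; rfl
  rw [h6]
  unfold Measure.real
  rw [h1, h4]
  exact h (-d)

namespace Cf

variable {G : Measure ℝ} {F : FlatData μ} {w0 c0 K : ℝ} {p : Num} {c : Cf G F w0 c0 K p}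
variable {w cψ e' : ℝ} {n' : ℕ}

lemma measurable_th (c : Cf G F w0 c0 K p) (k : ℕ) : Measurable (c.th k) := by
  unfold th
  exact ((measurable_fst.comp measurable_fst).sub_const (c.B k)).sub
    (measurable_fst.comp ((measurable_pi_apply k).comp measurable_snd))

/-- **Assembly of the paths** -/
theorem paths_of [IsProbabilityMeasure G] (h0 : G (Iio 0) = 0)
    (h2 : Integrable (fun x : ℝ => x ^ 2) G) (hμ : IsTC G μ) (hn : NormLike μ)
    (hP : c.PathNum w cψ e' n') (hw : 2 * fn F.al ≤ w)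
    (hpsi : ∀ (v : ℝ × ℝ) (A : ℝ), 0 ≤ A → F.al v ≤ -A → |F.be v| ≤ A → cψ * A ≤ F.ψ v)
    (hR3 : Integrable (fun q => c.h.hkY c.dA univ (-c.L) c.L q.1.1 q.1.2 q.2) (nuR G) ∧
      0 ≤ ∫ q, c.h.hkY c.dA univ (-c.L) c.L q.1.1 q.1.2 q.2 ∂(nuR G))
    (hdev : ∀ v : ℝ × ℝ, (P0 G).real {p | e' * n' ≤ devB μ n' (p.1 + v) p.2} ≤ e')
    (hee : e' ≤ p.e) {C0 θ : ℝ} (hrate : c.P * rate G F w ≤ C0 * p.v ^ (θ - 1) * c.l)
    (hε : 4 * c.L * c.ε ≤ p.e / 2 * c.l) (T : Set (M192.Row (ℝ × ℝ))) :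
    Nonempty (E191.Paths (c.rows T) c.PSt C0 θ p.δ p.v p.e) := by
  have hl := hP.l_pos
  have he := hP.e_pos
  have hPP := hP.P_pos
  obtain ⟨η, hη⟩ : ∃ η, η = p.e / 2 * c.l / c.P := ⟨_, rfl⟩
  have hη0 : 0 < η := by rw [hη]; positivity
  obtain ⟨C1, hC1⟩ := lane_rate (F := F) h0 h2 hμ hw hη0
  obtain ⟨B, hB⟩ := c.cst_bound
  refine ⟨
    { C' := C0 * p.v ^ (θ - 1) + p.e / 2 + (C1 + 1 + 2 * B + 9 * cF F) / c.l
      GD := fun k => {ω | devB μ n' (c.th k ω - c.dA) ω.1.2 ≤ e' * n'}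
      GD_meas := fun k => measurableSet_le (measurable_devB' n' ((c.measurable_th k).sub_const _)
        (measurable_snd.comp measurable_fst)) measurable_const
      GD_prob := fun k => ?_
      path := fun N => ?_ }⟩
  · refine le_trans ?_ hee
    refine le_trans (measureReal_mono ?_) (prob_devG hdev c.B c.dA k)
    intro ω hω
    simp only [mem_compl_iff, mem_ofPred_eq, not_le] at hω
    exact hω.le
  · have hN1 : (0 : ℝ) ≤ ((N : ℝ) + 1) * c.P := by positivity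
    have iS := c.sumY_integrable h0 h2 hμ hR3 N
    have iL := c.laneX_integrable h0 h2 hw (((N : ℝ) + 1) * c.P)
    have iA := (c.cstL_spec 0).1
    have iB := (c.cstU_spec N).1
    have hint : Integrable (fun ω => (c.laneX w (((N : ℝ) + 1) * c.P) ω + 1 - c.sumY N ω +
        c.cstL 0 ω + c.cstU N ω + 9 * cF F) / c.l) c.PSt :=
      (((((iL.add (integrable_const 1)).sub iS).add iA).add iB).add (integrable_const _)).div_const _
    refine ⟨_, hint, ?_, ?_⟩
    · rw [integral_div]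
      have e1 : ∫ ω, (c.laneX w (((N : ℝ) + 1) * c.P) ω + 1 - c.sumY N ω +
          c.cstL 0 ω + c.cstU N ω + 9 * cF F) ∂c.PSt =
          ∫ ω, c.laneX w (((N : ℝ) + 1) * c.P) ω ∂c.PSt + 1 - ∫ ω, c.sumY N ω ∂c.PSt +
          ∫ ω, c.cstL 0 ω ∂c.PSt + ∫ ω, c.cstU N ω ∂c.PSt + 9 * cF F := by
        have i1 := iL.add (integrable_const (1 : ℝ))
        have a1 : ∫ ω, (c.laneX w (((N : ℝ) + 1) * c.P) ω + 1) ∂c.PSt =
            ∫ ω, c.laneX w (((N : ℝ) + 1) * c.P) ω ∂c.PSt + ∫ _ω, (1 : ℝ) ∂c.PSt :=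
          integral_add iL (integrable_const 1)
        have a2 : ∫ ω, (c.laneX w (((N : ℝ) + 1) * c.P) ω + 1 - c.sumY N ω) ∂c.PSt =
            ∫ ω, (c.laneX w (((N : ℝ) + 1) * c.P) ω + 1) ∂c.PSt - ∫ ω, c.sumY N ω ∂c.PSt :=
          integral_sub i1 iS
        have a3 : ∫ ω, (c.laneX w (((N : ℝ) + 1) * c.P) ω + 1 - c.sumY N ω + c.cstL 0 ω) ∂c.PSt =
            ∫ ω, (c.laneX w (((N : ℝ) + 1) * c.P) ω + 1 - c.sumY N ω) ∂c.PSt +
              ∫ ω, c.cstL 0 ω ∂c.PSt := integral_add (i1.sub iS) iA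
        have a4 : ∫ ω, (c.laneX w (((N : ℝ) + 1) * c.P) ω + 1 - c.sumY N ω + c.cstL 0 ω +
            c.cstU N ω) ∂c.PSt =
            ∫ ω, (c.laneX w (((N : ℝ) + 1) * c.P) ω + 1 - c.sumY N ω + c.cstL 0 ω) ∂c.PSt +
              ∫ ω, c.cstU N ω ∂c.PSt := integral_add ((i1.sub iS).add iA) iB
        have a5 : ∫ ω, (c.laneX w (((N : ℝ) + 1) * c.P) ω + 1 - c.sumY N ω + c.cstL 0 ω +
            c.cstU N ω + 9 * cF F) ∂c.PSt =
            ∫ ω, (c.laneX w (((N : ℝ) + 1) * c.P) ω + 1 - c.sumY N ω + c.cstL 0 ω +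
              c.cstU N ω) ∂c.PSt + ∫ _ω, 9 * cF F ∂c.PSt :=
          integral_add (((i1.sub iS).add iA).add iB) (integrable_const _)
        rw [a5, a4, a3, a2, a1]
        simp
      rw [e1, c.laneX_mean h0 h2 hw, div_le_iff₀ hl]
      have m1 := hC1 (((N : ℝ) + 1) * c.P) hN1
      have m2 := c.sumY_mean h0 h2 hμ hR3 N
      have m3 := (hB 0).1
      have m4 := (hB N).2
      have m5 : (rate G F w + η) * (((N : ℝ) + 1) * c.P) =
          ((N : ℝ) + 1) * (c.P * rate G F w + p.e / 2 * c.l) := by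
        rw [hη]; field_simp
      have m6 : ((N : ℝ) + 1) * (c.P * rate G F w + p.e / 2 * c.l) ≤
          ((N : ℝ) + 1) * (C0 * p.v ^ (θ - 1) * c.l + p.e / 2 * c.l) :=
        mul_le_mul_of_nonneg_left (by linarith) (by positivity)
      have m7 : 4 * c.L * c.ε * N ≤ p.e / 2 * c.l * N :=
        mul_le_mul_of_nonneg_right hε (Nat.cast_nonneg N)
      have m8 : ((C0 * p.v ^ (θ - 1) + p.e) * N + (C0 * p.v ^ (θ - 1) + p.e / 2 +
          (C1 + 1 + 2 * B + 9 * cF F) / c.l)) * c.l =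
          ((N : ℝ) + 1) * (C0 * p.v ^ (θ - 1) * c.l + p.e / 2 * c.l) + p.e / 2 * c.l * N +
            (C1 + 1 + 2 * B + 9 * cF F) := by
        field_simp
        ring
      rw [m8]
      linarith
    · filter_upwards [c.ae_stack h0] with ω hω
      obtain ⟨g, hg, hgc⟩ : ∃ g : Wk (nr ω.1.1) (c.topv N ω),
          (∀ v ∈ g.support, v ∈ laneB F w ω.1.1) ∧
          exc ω.1.2 (phi F) g ≤ c.laneX w (((N : ℝ) + 1) * c.P) ω + 1 :=
        c.exists_walk h0 h2 hw (((N : ℝ) + 1) * c.P) one_pos ω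
      obtain ⟨z, w', gap, r1, r2, r3, r4, r5⟩ := hP.det hn hpsi (T := T) hω.2.2 hω.1 N g hg
      refine ⟨z, w', gap, fun k hk => (r1 k hk).trans (by linarith),
        fun k hk => (r2 k hk).trans (by linarith), r3, r4, r5.trans ?_⟩
      refine div_le_div_of_nonneg_right ?_ hl.le
      linarith

end Cf

/-! ### Order of constants -/

variable {G : Measure ℝ} {F : FlatData μ} {w0 c0 K : ℝ}

set_option maxHeartbeats 1600000 in
/-- **`Inputs.paths`** -/
theorem ev_paths [IsProbabilityMeasure G] (h0 : G (Iio 0) = 0)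
    (h2 : Integrable (fun x : ℝ => x ^ 2) G) (hμ : IsTC G μ) (hn : NormLike μ) {m : ℝ}
    (hM : Mom G m) (hL : LocCtl G) (hc0 : 0 < c0) (hK : 0 ≤ K)
    (typ : ∀ {p : Num}, Cf G F w0 c0 K p → Set (M192.Row (ℝ × ℝ))) :
    ∃ C0 : ℝ, Ev fun p => ∀ c : Cf G F w0 c0 K p,
      Nonempty (E191.Paths (c.rows (typ c)) c.PSt C0 0.97 p.δ p.v p.e) := by
  obtain ⟨cψ, hcψ, hpsi⟩ := exists_psi_low hn F
  have hD : ∀ ε : ℝ, ∃ n0 : ℕ, 0 < ε → ∀ n ≥ n0, ∀ v : ℝ × ℝ,
      (P0 G).real {p | ε * n ≤ devB μ n (p.1 + v) p.2} ≤ ε := by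
    intro ε
    by_cases hε : 0 < ε
    · obtain ⟨n0, hn0⟩ := R6.devB_prob hM (isTC1_of_isTC h0 h2 hμ) hL hε
      exact ⟨n0, fun _ => hn0⟩
    · exact ⟨0, fun h => absurd h hε⟩
  choose n0 hn0 using hD
  obtain ⟨Q, hQ⟩ : ∃ Q : ℝ, Q = ‖F.a‖ + ‖F.b‖ := ⟨_, rfl⟩
  have hQ0 : 0 ≤ Q := by rw [hQ]; positivity
  refine ⟨2, ?_⟩
  refine (((((ev_len G F w0 c0 K (fun _ δ _ _ _ => 64 / δ)
    (4 * (mg F + 1) + 4 * cF F + 2 * fn F.al)).and (le_v fun _ _ => 4)).and
    (le_L fun _ _ v _ => v + 1)).and ((highway_small (G := G) (F := F) (w0 := w0) (K := K) hc0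
      fun _ _ _ e v' _ _ => 16 * v' / e).and
    (l_small (G := G) (F := F) (w0 := w0) (c0 := c0) (K := K)
      fun _ _ _ e _ _ _ => 4 / (e * cψ)))).and
    (le_W fun _ δ _ e v' _ _ _ => (n0 (min e (cψ * δ / (128 * (4 * Q * v' + 3)))) : ℝ))).mono ?_
  rintro p ⟨⟨⟨⟨h1, h2v⟩, h3⟩, h4, h5⟩, h6⟩ c
  obtain ⟨hs, hC, hg, hgδ, hgW⟩ := h1 c
  have h4 := h4 c
  have h5 := h5 c
  have hp := hs.toStd
  have hW : 0 < p.W := zero_lt_one.trans_le hp.W
  have hd : 0 < p.δ0 * p.W := mul_pos hp.δ0_pos hW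
  have hmg := M56.one_le_mg F
  have hcF := cF_nonneg F
  have hfn : 0 ≤ fn F.al := C710.fn_nonneg _
  have hκ := c.κ_le
  have hwH := hs.wH_eq
  rw [abs_of_nonneg hK] at hg
  have hKd : 0 ≤ K * (p.δ0 * p.W) := mul_nonneg hK hd.le
  have hg8 := hs.g_le
  have hyA := hs.half
  have hδ := hp.δ_pos
  have he := hp.e_pos
  have hgδ' : 64 * c.g ≤ p.δ * p.W := by
    have := mul_le_mul_of_nonneg_left hgδ hδ.le
    have e1 : p.δ * (64 / p.δ * c.g) = 64 * c.g := by field_simp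
    linarith
  have hLW : c.L = 2 * p.v' * p.W := c.L_eq
  obtain ⟨e', he'⟩ : ∃ e', e' = min p.e (cψ * p.δ / (128 * (4 * Q * p.v' + 3))) := ⟨_, rfl⟩
  have hv'0 : 0 ≤ 4 * Q * p.v' := by
    have := hp.v'
    positivity
  have he'0 : 0 < e' := by
    rw [he']
    refine lt_min he ?_
    have := mul_pos hcψ hδ
    positivity
  obtain ⟨n', hn'⟩ : ∃ n', n' = ⌈Q * (2 * c.L) + 1 + p.W⌉₊ := ⟨_, rfl⟩
  have hL0 := hs.L_pos
  have hQL : 0 ≤ Q * (2 * c.L) := mul_nonneg hQ0 (by linarith)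
  have n1 : Q * (2 * c.L) + 1 + p.W ≤ n' := by rw [hn']; exact Nat.le_ceil _
  have n2 : (n' : ℝ) ≤ (4 * Q * p.v' + 3) * p.W := by
    have h := Nat.ceil_lt_add_one (a := Q * (2 * c.L) + 1 + p.W) (by linarith)
    rw [← hn'] at h
    have e1 : Q * (2 * c.L) = 4 * Q * p.v' * p.W := by rw [hLW]; ring
    have hW1 := hp.W
    rw [e1] at h
    linarith
  have n3 : n0 e' ≤ n' := by
    rw [← he'] at h6
    have : (n0 e' : ℝ) ≤ n' := by linarith
    exact_mod_cast this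
  have hdevn : 4 * (e' * n') ≤ cψ * (p.δ * p.W / 32) := by
    have a1 : e' ≤ cψ * p.δ / (128 * (4 * Q * p.v' + 3)) := by rw [he']; exact min_le_right _ _
    have a2 : e' * n' ≤ cψ * p.δ / (128 * (4 * Q * p.v' + 3)) * ((4 * Q * p.v' + 3) * p.W) :=
      mul_le_mul a1 n2 (Nat.cast_nonneg _) (he'0.le.trans a1)
    have a3 : cψ * p.δ / (128 * (4 * Q * p.v' + 3)) * ((4 * Q * p.v' + 3) * p.W) =
        cψ * p.δ * p.W / 128 := by
      have : 4 * Q * p.v' + 3 ≠ 0 := by linarith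
      field_simp
    rw [a3] at a2
    linarith
  have hcost : 4 * c.l ≤ p.e * (cψ * p.W) := by
    have := mul_le_mul_of_nonneg_left h5 (mul_pos he hcψ).le
    have e1 : p.e * cψ * (4 / (p.e * cψ) * c.l) = 4 * c.l := by field_simp
    rw [e1] at this
    linarith
  have hvW : p.v * p.W / 2 + p.W ≤ (p.v - 1) * p.W := by nlinarith
  have hvL : (p.v + 1) * p.W ≤ c.L := h3
  have hvL' : p.v * p.W + p.W ≤ c.L := by linarith
  have hWL : p.W ≤ c.L := by nlinarith [hp.v]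
  have hPN : c.PathNum (p.v * p.W) cψ e' n' :=
    { W_pos := hW
      l_pos := hs.l_pos
      e_pos := he
      δ_pos := hδ
      cψ_pos := hcψ
      wH_lt := by linarith
      gap := by linarith
      lab := by linarith
      win := by linarith
      back := by linarith
      ht := by linarith
      htW := by linarith
      rad := by rw [← hQ]; linarith
      dev := hdevn
      cost := hcost }
  have hdis : c.h.wH + 2 * mg F < F.be c.dA := by
    unfold Cf.dA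
    rw [M192.be_smul_b]; linarith
  have hal : F.al c.dA = 0 := by
    unfold Cf.dA
    rw [map_smul, F.al_b, smul_zero]
  have hs1 : -c.L + mg F ≤ 0 := by linarith
  have hs2 : 0 + mg F + c.h.κ < c.L + F.al c.dA := by rw [hal]; linarith
  refine Cf.paths_of h0 h2 hμ hn hPN ?_ hpsi ⟨?_, ?_⟩ (hn0 e' he'0 n' n3) ?_ ?_ ?_ _
  · nlinarith [hp.v]
  · exact M56.hkY_integrable c.mean h0 h2 hdis MeasurableSet.univ hs1 hs2 (subset_univ _)
  · exact M56.hkY_nonneg c.mean h0 h2 hdis MeasurableSet.univ hs1 hs2 (subset_univ _) hμ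
  · rw [he']; exact min_le_left _ _
  · have h7 := P_rate_far c hs hp.v
    have e1 : (0.97 : ℝ) - 1 = -0.03 := by norm_num
    rw [e1]
    exact h7
  · have h8 := mul_le_mul_of_nonneg_left h4 (by linarith : 0 ≤ p.e / 2)
    have e1 : p.e / 2 * (16 * p.v' / p.e * (p.W * c.ε)) = 8 * p.v' * p.W * c.ε := by
      field_simp; ring
    rw [e1] at h8
    rw [hLW]
    linarith

end Crest.Agent.R151.NF
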