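import Mathlib
import Crest.Agent.R151.M51C

/-!
# R151, block MOM (helper51), part D: square rings of open edges

`ringEdges c j` = the edges of the boundary of the square of radius `j` around `c`.
-/

set_option autoImplicit false

open MeasureTheory ProbabilityTheory
open scoped ENNReal
open Crest.ProbabilityR.FirstPassage
open Crest.Agent.R151.K

namespace Crest.Agent.R151.M51

/-- the `8 j` edges of the boundary of the square of radius `j` around `c` -/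
noncomputable def ringEdges (c : ℤ × ℤ) (j : ℕ) : Finset (Sym2 (ℤ × ℤ)) :=
  ((Finset.Ico (-(j:ℤ)) j).image fun i => eV (c.1 - j) (c.2 + i)) ∪
  ((Finset.Ico (-(j:ℤ)) j).image fun i => eV (c.1 + j) (c.2 + i)) ∪
  (((Finset.Ico (-(j:ℤ)) j).image fun i => eH (c.1 + i) (c.2 - j)) ∪
  ((Finset.Ico (-(j:ℤ)) j).image fun i => eH (c.1 + i) (c.2 + j)))

lemma card_ringEdges_le (c : ℤ × ℤ) (j : ℕ) : (ringEdges c j).card ≤ 8 * j := by
  have h : ∀ f : ℤ → Sym2 (ℤ × ℤ), ((Finset.Ico (-(j:ℤ)) j).image f).card ≤ 2 * j := by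
    intro f
    refine Finset.card_image_le.trans ?_
    rw [Int.card_Ico]; omega
  unfold ringEdges
  refine (Finset.card_union_le _ _).trans ?_
  refine (Nat.add_le_add (Finset.card_union_le _ _) (Finset.card_union_le _ _)).trans ?_
  have h1 := h fun i => eV (c.1 - j) (c.2 + i)
  have h2 := h fun i => eV (c.1 + j) (c.2 + i)
  have h3 := h fun i => eH (c.1 + i) (c.2 - j)
  have h4 := h fun i => eH (c.1 + i) (c.2 + j)
  omega

lemma mem_ringEdges {c : ℤ × ℤ} {j : ℕ} {e : Sym2 (ℤ × ℤ)} : e ∈ ringEdges c j ↔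
    (∃ i : ℤ, -(j:ℤ) ≤ i ∧ i < j ∧ e = eV (c.1 - j) (c.2 + i)) ∨
    (∃ i : ℤ, -(j:ℤ) ≤ i ∧ i < j ∧ e = eV (c.1 + j) (c.2 + i)) ∨
    (∃ i : ℤ, -(j:ℤ) ≤ i ∧ i < j ∧ e = eH (c.1 + i) (c.2 - j)) ∨
    (∃ i : ℤ, -(j:ℤ) ≤ i ∧ i < j ∧ e = eH (c.1 + i) (c.2 + j)) := by
  unfold ringEdges
  simp only [Finset.mem_union, Finset.mem_image, Finset.mem_Ico]
  constructor
  · rintro ((⟨i, hi, rfl⟩ | ⟨i, hi, rfl⟩) | (⟨i, hi, rfl⟩ | ⟨i, hi, rfl⟩))
    · exact Or.inl ⟨i, hi.1, hi.2, rfl⟩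
    · exact Or.inr (Or.inl ⟨i, hi.1, hi.2, rfl⟩)
    · exact Or.inr (Or.inr (Or.inl ⟨i, hi.1, hi.2, rfl⟩))
    · exact Or.inr (Or.inr (Or.inr ⟨i, hi.1, hi.2, rfl⟩))
  · rintro (⟨i, h1, h2, rfl⟩ | ⟨i, h1, h2, rfl⟩ | ⟨i, h1, h2, rfl⟩ | ⟨i, h1, h2, rfl⟩)
    · exact Or.inl (Or.inl ⟨i, ⟨h1, h2⟩, rfl⟩)
    · exact Or.inl (Or.inr ⟨i, ⟨h1, h2⟩, rfl⟩)
    · exact Or.inr (Or.inl ⟨i, ⟨h1, h2⟩, rfl⟩)
    · exact Or.inr (Or.inr ⟨i, ⟨h1, h2⟩, rfl⟩)

lemma eV_inj' {a b a' b' : ℤ} (h : eV a b = eV a' b') : a = a' ∧ b = b' := by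
  unfold eV at h
  rw [Sym2.eq_iff] at h
  simp only [Prod.mk.injEq] at h
  omega

lemma eH_inj' {a b a' b' : ℤ} (h : eH a b = eH a' b') : a = a' ∧ b = b' := by
  unfold eH at h
  rw [Sym2.eq_iff] at h
  simp only [Prod.mk.injEq] at h
  omega

/-- rings of different radii around the same centre are disjoint -/
lemma ringEdges_disjoint (c : ℤ × ℤ) {j j' : ℕ} (h : j ≠ j') :
    Disjoint (ringEdges c j) (ringEdges c j') := by
  rw [Finset.disjoint_left]
  intro e he he'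
  rw [mem_ringEdges] at he he'
  rcases he with ⟨i, h1, h2, rfl⟩ | ⟨i, h1, h2, rfl⟩ | ⟨i, h1, h2, rfl⟩ | ⟨i, h1, h2, rfl⟩ <;>
  rcases he' with ⟨i', h1', h2', he⟩ | ⟨i', h1', h2', he⟩ | ⟨i', h1', h2', he⟩ |
    ⟨i', h1', h2', he⟩ <;>
  first
    | (have := eV_inj' he; omega)
    | (have := eH_inj' he; omega)
    | exact eH_ne_eV _ _ _ _ he
    | exact eH_ne_eV _ _ _ _ he.symm

/-- the ring of radius `j` around `c` consists of edges of weight at most `lam` -/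
def OpenRing (t : Environment) (lam : ℝ) (c : ℤ × ℤ) (j : ℕ) : Prop :=
  ∀ e ∈ ringEdges c j, t e ≤ lam

/-- there is an open ring of radius between `1` and `m` around `c` -/
def Enc (lam : ℝ) (m : ℕ) (c : ℤ × ℤ) : Set Environment :=
  {t | ∃ j : ℕ, 1 ≤ j ∧ j ≤ m ∧ OpenRing t lam c j}

/-- disjoint families: the probability that each contains an edge of weight `> s` -/
theorem prob_all_fail (G : Measure ℝ) [IsProbabilityMeasure G] {m : ℕ}
    (F : Fin m → Finset (Sym2 (ℤ × ℤ))) (hF : ∀ i j, i ≠ j → Disjoint (F i) (F j)) (N : ℕ)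
    (hN : ∀ j, (F j).card ≤ N) (s : ℝ) :
    iidLaw G {t | ∀ j, ∃ e ∈ F j, s < t e} ≤ ((N:ℝ≥0∞) * G (Set.Ioi s)) ^ m := by
  classical
  have hsub : {t : Environment | ∀ j, ∃ e ∈ F j, s < t e} ⊆
      ⋃ φ ∈ Fintype.piFinset F, {t : Environment | ∀ j, s < t (φ j)} := by
    intro t ht
    simp only [Set.mem_ofPred_eq] at ht
    choose φ hφ hs using ht
    simp only [Set.mem_iUnion]
    exact ⟨φ, Fintype.mem_piFinset.2 hφ, hs⟩
  have hone : ∀ φ ∈ Fintype.piFinset F, iidLaw G {t : Environment | ∀ j, s < t (φ j)} ≤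
      G (Set.Ioi s) ^ m := by
    intro φ hφ
    rw [Fintype.mem_piFinset] at hφ
    have hinj : Function.Injective φ := by
      intro i j hij
      by_contra hne
      exact Finset.disjoint_left.1 (hF i j hne) (hφ i) (hij ▸ hφ j)
    have h1 : {t : Environment | ∀ j, s < t (φ j)} =
        (fun (t : Environment) j => t (φ j)) ⁻¹' (Set.pi Set.univ fun _ : Fin m => Set.Ioi s) := by
      ext t
      simp [Set.mem_pi]
    rw [h1, ← Measure.map_apply (measurable_pi_iff.2 fun j => measurable_pi_apply (φ j))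
      (MeasurableSet.univ_pi fun _ => measurableSet_Ioi), map_coords G hinj, Measure.pi_pi]
    simp
  calc iidLaw G {t | ∀ j, ∃ e ∈ F j, s < t e}
      ≤ iidLaw G (⋃ φ ∈ Fintype.piFinset F, {t : Environment | ∀ j, s < t (φ j)}) :=
        measure_mono hsub
    _ ≤ ∑ φ ∈ Fintype.piFinset F, iidLaw G {t : Environment | ∀ j, s < t (φ j)} :=
        measure_biUnion_finset_le _ _
    _ ≤ ∑ φ ∈ Fintype.piFinset F, G (Set.Ioi s) ^ m := Finset.sum_le_sum hone
    _ = (∏ j, ((F j).card : ℝ≥0∞)) * G (Set.Ioi s) ^ m := by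
        rw [Finset.sum_const, Fintype.card_piFinset, nsmul_eq_mul, Nat.cast_prod]
    _ ≤ (∏ _j : Fin m, (N : ℝ≥0∞)) * G (Set.Ioi s) ^ m := by
        gcongr with j
        exact_mod_cast hN j
    _ = _ := by
        rw [Finset.prod_const, Finset.card_univ, Fintype.card_fin, mul_pow]

/-- `P(no open ring of radius ≤ m around c) ≤ (8 m G(lam, ∞))^m` -/
theorem prob_not_Enc (G : Measure ℝ) [IsProbabilityMeasure G] (lam : ℝ) (m : ℕ) (c : ℤ × ℤ) :
    iidLaw G (Enc lam m c)ᶜ ≤ (((8 * m : ℕ) : ℝ≥0∞) * G (Set.Ioi lam)) ^ m := by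
  refine le_trans (measure_mono ?_) (prob_all_fail G (fun j : Fin m => ringEdges c (j + 1)) ?_
    (8 * m) ?_ lam)
  · intro t ht
    simp only [Enc, Set.mem_compl_iff, Set.mem_ofPred_eq, OpenRing, not_exists, not_and] at ht
    intro j
    have := ht (j + 1) (by omega) (by omega)
    push Not at this
    obtain ⟨e, he, h⟩ := this
    exact ⟨e, he, h⟩
  · intro i j hij
    apply ringEdges_disjoint
    intro h
    apply hij
    ext
    omega
  · intro j
    refine (card_ringEdges_le c (j + 1)).trans ?_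
    have := j.2
    omega

lemma measurableSet_Enc (lam : ℝ) (m : ℕ) (c : ℤ × ℤ) : MeasurableSet (Enc lam m c) := by
  have : Enc lam m c = ⋃ j ∈ Finset.Icc 1 m, ⋂ e ∈ ringEdges c j, {t : Environment | t e ≤ lam} := by
    ext t
    simp only [Enc, OpenRing, Set.mem_ofPred_eq, Set.mem_iUnion, Finset.mem_Icc, Set.mem_iInter]
    constructor
    · rintro ⟨j, h1, h2, h⟩
      exact ⟨j, ⟨h1, h2⟩, h⟩
    · rintro ⟨j, ⟨h1, h2⟩, h⟩
      exact ⟨j, h1, h2, h⟩
  rw [this]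
  refine Finset.measurableSet_biUnion _ fun j _ => ?_
  refine Finset.measurableSet_biInter _ fun e _ => ?_
  exact measurableSet_le (measurable_pi_apply e) measurable_const

end Crest.Agent.R151.M51
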