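import Mathlib
import Crest.Agent.R151.M51D
import Crest.Agent.R151.U750b

/-!
# R151, block MOM (helper51), part E: the ring lemma in a box

If every vertex of the box is enclosed by an open ring (weights `≤ lam`, radius `≤ m`,
`8 m lam ≤ K`), then `TE` does not change when the weights are truncated at `K`.
-/

set_option autoImplicit false

open MeasureTheory ProbabilityTheory
open Crest.ProbabilityR.FirstPassage
open Crest.Agent.R151.K
open Crest.Agent.R151.U (Box mem_Box_adj seg mem_seg TE exists_walk_TE TE_le_walk exists_TE TE_le)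

namespace Crest.Agent.R151.M51

/-- vertices of the box -/
def InB (a b y0 R : ℤ) (z : ℤ × ℤ) : Prop :=
  a ≤ z.1 ∧ z.1 ≤ b ∧ y0 - R ≤ z.2 ∧ z.2 ≤ y0 + R

/-- the part of the box enclosed by the ring of radius `j` around `c` -/
def Ins (b : ℤ) (c : ℤ × ℤ) (j : ℕ) (z : ℤ × ℤ) : Prop :=
  c.1 - j < z.1 ∧ (c.1 + j < b → z.1 < c.1 + j) ∧ c.2 - j < z.2 ∧ z.2 < c.2 + j

/-- the vertices of the ring, seen in the box -/
def Arc (a b y0 R : ℤ) (c : ℤ × ℤ) (j : ℕ) (z : ℤ × ℤ) : Prop :=
  InB a b y0 R z ∧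
  (((z.1 = c.1 - j ∨ (z.1 = c.1 + j ∧ c.1 + j < b)) ∧ c.2 - j ≤ z.2 ∧ z.2 ≤ c.2 + j) ∨
   ((z.2 = c.2 - j ∨ z.2 = c.2 + j) ∧ c.1 - j ≤ z.1 ∧ z.1 ≤ c.1 + j))

variable {a b y0 R : ℤ} {c : ℤ × ℤ} {j : ℕ}

lemma step_out {u v : ℤ × ℤ} (h : squareLattice.Adj u v)
    (hu : InB a b y0 R u) (hv : InB a b y0 R v) (hi : Ins b c j u) (ho : ¬ Ins b c j v) :
    Arc a b y0 R c j v := by
  obtain ⟨u1, u2⟩ := u
  obtain ⟨v1, v2⟩ := v
  obtain ⟨c1, c2⟩ := c
  rw [adj_iff] at h
  simp only [InB, Ins, Arc] at *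
  refine ⟨hv, ?_⟩
  by_cases hb : c1 + (j:ℤ) < b
  · simp only [hb, true_imp_iff] at hi ho
    omega
  · simp only [hb, false_imp_iff, true_and] at hi ho
    omega

lemma hit {u v : ℤ × ℤ} (w : squareLattice.Walk u v)
    (hw : ∀ e ∈ w.edges, e ∈ Box a b y0 R) (hu : InB a b y0 R u) (hi : Ins b c j u) :
    (∃ z ∈ w.support, Arc a b y0 R c j z) ∨ (Ins b c j v ∧ InB a b y0 R v) := by
  induction w with
  | nil => exact Or.inr ⟨hi, hu⟩
  | @cons u x v h w ih =>
    have he : s(u, x) ∈ Box a b y0 R := hw _ (by simp)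
    rw [mem_Box_adj h] at he
    have hx : InB a b y0 R x := by unfold InB; omega
    by_cases hix : Ins b c j x
    · rcases ih (fun e he => hw e (by simp [he])) hx hix with ⟨z, hz, hz'⟩ | h'
      · exact Or.inl ⟨z, by simp [hz], hz'⟩
      · exact Or.inr h'
    · exact Or.inl ⟨x, by simp, step_out h hu hx hi hix⟩

/-- a long vertical segment with an enclosed point meets the ring -/
lemma seg_hit {x y : ℤ} {l m : ℕ} (hjm : j ≤ m) (hl : 2 * m + 1 ≤ l)
    (hS : ∀ z ∈ seg x y l, InB a b y0 R z) {p : ℤ × ℤ} (hp : p ∈ seg x y l)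
    (hi : Ins b c j p) : ∃ z ∈ seg x y l, Arc a b y0 R c j z := by
  obtain ⟨p1, p2⟩ := p
  obtain ⟨c1, c2⟩ := c
  rw [mem_seg] at hp
  simp only at hp
  obtain ⟨rfl, hp1, hp2⟩ := hp
  have hpB := hS (p1, p2) (by rw [mem_seg]; exact ⟨rfl, hp1, hp2⟩)
  simp only [Ins] at hi
  obtain ⟨hi1, hi2, hi3, hi4⟩ := hi
  have hx : p1 ≤ c1 + j := by
    by_cases hb : c1 + (j:ℤ) < b
    · exact (hi2 hb).le
    · unfold InB at hpB; simp only at hpB; omega
  by_cases ht : c2 + (j:ℤ) < y + l
  · have hmem : ((p1, c2 + (j:ℤ)) : ℤ × ℤ) ∈ seg p1 y l := by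
      rw [mem_seg]; refine ⟨rfl, ?_, ?_⟩ <;> simp only <;> omega
    refine ⟨_, hmem, hS _ hmem, Or.inr ⟨Or.inr rfl, hi1.le, hx⟩⟩
  · have hmem : ((p1, c2 - (j:ℤ)) : ℤ × ℤ) ∈ seg p1 y l := by
      rw [mem_seg]; refine ⟨rfl, ?_, ?_⟩ <;> simp only <;> omega
    refine ⟨_, hmem, hS _ hmem, Or.inr ⟨Or.inl rfl, hi1.le, hx⟩⟩

/-! ### walks along the ring -/

lemma colWalk {x y y' : ℤ} (hx : x = c.1 - j ∨ x = c.1 + j) (hxa : a ≤ x) (hxb : x < b)
    (h1 : c.2 - j ≤ y) (h2 : y ≤ c.2 + j) (h3 : y0 - R ≤ y) (h4 : y ≤ y0 + R)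
    (h1' : c.2 - j ≤ y') (h2' : y' ≤ c.2 + j) (h3' : y0 - R ≤ y') (h4' : y' ≤ y0 + R) :
    ∃ w : squareLattice.Walk (x, y) (x, y'), w.length ≤ 2 * j ∧
      ∀ e ∈ w.edges, e ∈ Box a b y0 R ∧ e ∈ ringEdges c j := by
  have key : ∀ n : ℕ, ∀ y : ℤ, c.2 - j ≤ y → y + n ≤ c.2 + j → y0 - R ≤ y → y + n ≤ y0 + R →
      ∃ w : squareLattice.Walk (x, y) (x, y + n), w.length = n ∧
      ∀ e ∈ w.edges, e ∈ Box a b y0 R ∧ e ∈ ringEdges c j := by
    intro n
    induction n with
    | zero =>
      intro y _ _ _ _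
      refine ⟨(SimpleGraph.Walk.nil : squareLattice.Walk (x, y) (x, y)).copy rfl (by simp), ?_, ?_⟩
      · simp
      · intro e he; simp at he
    | succ n ih =>
      intro y hy1 hy2 hy3 hy4
      push_cast at hy2 hy4
      obtain ⟨w, hw, hs⟩ := ih (y + 1) (by omega) (by omega) (by omega) (by omega)
      refine ⟨(SimpleGraph.Walk.cons (adj_up x y) w).copy rfl (by
        rw [Prod.mk.injEq]; push_cast; constructor <;> [rfl; ring]), by simp [hw], ?_⟩
      intro e he
      simp only [SimpleGraph.Walk.edges_copy, SimpleGraph.Walk.edges_cons, List.mem_cons] at he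
      rcases he with rfl | he
      · refine ⟨?_, ?_⟩
        · rw [mem_Box_adj (adj_up x y)]
          simp only
          omega
        · rw [mem_ringEdges]
          rcases hx with rfl | rfl
          · refine Or.inl ⟨y - c.2, by omega, by omega, ?_⟩
            rw [eV]; ring_nf
          · refine Or.inr (Or.inl ⟨y - c.2, by omega, by omega, ?_⟩)
            rw [eV]; ring_nf
      · exact hs e he
  rcases le_total y y' with h | h
  · obtain ⟨w, hw, hs⟩ := key (y' - y).toNat y h1 (by omega) h3 (by omega)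
    have e : y + ((y' - y).toNat : ℤ) = y' := by omega
    refine ⟨w.copy rfl (by rw [e]), ?_, ?_⟩
    · simp only [SimpleGraph.Walk.length_copy, hw]; omega
    · intro e he
      rw [SimpleGraph.Walk.edges_copy] at he
      exact hs e he
  · obtain ⟨w, hw, hs⟩ := key (y - y').toNat y' h1' (by omega) h3' (by omega)
    have e : y' + ((y - y').toNat : ℤ) = y := by omega
    refine ⟨(w.copy rfl (by rw [e])).reverse, ?_, ?_⟩
    · simp only [SimpleGraph.Walk.length_reverse, SimpleGraph.Walk.length_copy, hw]; omega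
    · intro e he
      rw [SimpleGraph.Walk.edges_reverse, List.mem_reverse, SimpleGraph.Walk.edges_copy] at he
      exact hs e he

lemma rowWalk {x x' y : ℤ} (hy : y = c.2 - j ∨ y = c.2 + j) (h3 : y0 - R ≤ y) (h4 : y ≤ y0 + R)
    (h1 : c.1 - j ≤ x) (h2 : x ≤ c.1 + j) (ha : a ≤ x) (hb : x ≤ b)
    (h1' : c.1 - j ≤ x') (h2' : x' ≤ c.1 + j) (ha' : a ≤ x') (hb' : x' ≤ b) :
    ∃ w : squareLattice.Walk (x, y) (x', y), w.length ≤ 2 * j ∧
      ∀ e ∈ w.edges, e ∈ Box a b y0 R ∧ e ∈ ringEdges c j := by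
  have key : ∀ n : ℕ, ∀ x : ℤ, c.1 - j ≤ x → x + n ≤ c.1 + j → a ≤ x → x + n ≤ b →
      ∃ w : squareLattice.Walk (x, y) (x + n, y), w.length = n ∧
      ∀ e ∈ w.edges, e ∈ Box a b y0 R ∧ e ∈ ringEdges c j := by
    intro n
    induction n with
    | zero =>
      intro x _ _ _ _
      refine ⟨(SimpleGraph.Walk.nil : squareLattice.Walk (x, y) (x, y)).copy rfl (by simp), ?_, ?_⟩
      · simp
      · intro e he; simp at he
    | succ n ih =>
      intro x hy1 hy2 hy3 hy4
      push_cast at hy2 hy4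
      obtain ⟨w, hw, hs⟩ := ih (x + 1) (by omega) (by omega) (by omega) (by omega)
      refine ⟨(SimpleGraph.Walk.cons (adj_right x y) w).copy rfl (by
        rw [Prod.mk.injEq]; push_cast; constructor <;> [ring; rfl]), by simp [hw], ?_⟩
      intro e he
      simp only [SimpleGraph.Walk.edges_copy, SimpleGraph.Walk.edges_cons, List.mem_cons] at he
      rcases he with rfl | he
      · refine ⟨?_, ?_⟩
        · rw [mem_Box_adj (adj_right x y)]
          simp only
          omega
        · rw [mem_ringEdges]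
          rcases hy with rfl | rfl
          · refine Or.inr (Or.inr (Or.inl ⟨x - c.1, by omega, by omega, ?_⟩))
            rw [eH]; ring_nf
          · refine Or.inr (Or.inr (Or.inr ⟨x - c.1, by omega, by omega, ?_⟩))
            rw [eH]; ring_nf
      · exact hs e he
  rcases le_total x x' with h | h
  · obtain ⟨w, hw, hs⟩ := key (x' - x).toNat x h1 (by omega) ha (by omega)
    have e : x + ((x' - x).toNat : ℤ) = x' := by omega
    refine ⟨w.copy rfl (by rw [e]), ?_, ?_⟩
    · simp only [SimpleGraph.Walk.length_copy, hw]; omega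
    · intro e he
      rw [SimpleGraph.Walk.edges_copy] at he
      exact hs e he
  · obtain ⟨w, hw, hs⟩ := key (x - x').toNat x' h1' (by omega) ha' (by omega)
    have e : x' + ((x - x').toNat : ℤ) = x := by omega
    refine ⟨(w.copy rfl (by rw [e])).reverse, ?_, ?_⟩
    · simp only [SimpleGraph.Walk.length_reverse, SimpleGraph.Walk.length_copy, hw]; omega
    · intro e he
      rw [SimpleGraph.Walk.edges_reverse, List.mem_reverse, SimpleGraph.Walk.edges_copy] at he
      exact hs e he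

/-- the arc is connected (through a corner) inside the box -/
lemma arc_conn (hc : InB a b y0 R c) (hj1 : 1 ≤ j) (hj : 2 * (j:ℤ) ≤ b - a) (hj' : (j:ℤ) ≤ R) :
    ∃ h : ℤ × ℤ, ∀ z, Arc a b y0 R c j z → ∃ w : squareLattice.Walk z h, w.length ≤ 4 * j ∧
      ∀ e ∈ w.edges, e ∈ Box a b y0 R ∧ e ∈ ringEdges c j := by
  unfold InB at hc
  obtain ⟨xv, hxv, hxa, hxb⟩ : ∃ xv : ℤ, (xv = c.1 - j ∨ xv = c.1 + j) ∧ a ≤ xv ∧ xv < b := by
    by_cases h : a ≤ c.1 - j
    · exact ⟨c.1 - j, Or.inl rfl, h, by omega⟩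
    · exact ⟨c.1 + j, Or.inr rfl, by omega, by omega⟩
  obtain ⟨yh, hyh, hya, hyb⟩ : ∃ yh : ℤ, (yh = c.2 - j ∨ yh = c.2 + j) ∧ y0 - R ≤ yh ∧
      yh ≤ y0 + R := by
    by_cases h : y0 - R ≤ c.2 - j
    · exact ⟨c.2 - j, Or.inl rfl, h, by omega⟩
    · exact ⟨c.2 + j, Or.inr rfl, by omega, by omega⟩
  refine ⟨(xv, yh), ?_⟩
  rintro ⟨z1, z2⟩ ⟨hzB, hz | hz⟩
  · unfold InB at hzB
    simp only at hzB hz
    obtain ⟨hz1, hz2, hz3⟩ := hz
    obtain ⟨w1, hw1, hs1⟩ := colWalk (a := a) (b := b) (y0 := y0) (R := R) (c := c) (j := j)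
      (x := z1) (y := z2) (y' := yh) (by omega) (by omega) (by omega) (by omega) (by omega)
      (by omega) (by omega) (by omega) (by omega) (by omega) (by omega)
    obtain ⟨w2, hw2, hs2⟩ := rowWalk (a := a) (b := b) (y0 := y0) (R := R) (c := c) (j := j)
      (x := z1) (x' := xv) (y := yh) hyh (by omega) (by omega) (by omega) (by omega)
      (by omega) (by omega) (by omega) (by omega) (by omega) (by omega)
    refine ⟨w1.append w2, ?_, ?_⟩
    · rw [SimpleGraph.Walk.length_append]; omega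
    · intro e he
      rw [SimpleGraph.Walk.edges_append, List.mem_append] at he
      rcases he with he | he
      · exact hs1 e he
      · exact hs2 e he
  · unfold InB at hzB
    simp only at hzB hz
    obtain ⟨hz1, hz2, hz3⟩ := hz
    obtain ⟨w1, hw1, hs1⟩ := rowWalk (a := a) (b := b) (y0 := y0) (R := R) (c := c) (j := j)
      (x := z1) (x' := xv) (y := z2) hz1 (by omega) (by omega) (by omega) (by omega)
      (by omega) (by omega) (by omega) (by omega) (by omega) (by omega)
    obtain ⟨w2, hw2, hs2⟩ := colWalk (a := a) (b := b) (y0 := y0) (R := R) (c := c) (j := j)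
      (x := xv) (y := z2) (y' := yh) hxv hxa hxb (by omega) (by omega)
      (by omega) (by omega) (by omega) (by omega) (by omega) (by omega)
    refine ⟨w1.append w2, ?_, ?_⟩
    · rw [SimpleGraph.Walk.length_append]; omega
    · intro e he
      rw [SimpleGraph.Walk.edges_append, List.mem_append] at he
      rcases he with he | he
      · exact hs1 e he
      · exact hs2 e he

/-- one half of the surgery: from an enclosed point `u`, a walk to the long segment `B` can be
shortened to a walk from the ring to `B`. -/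
lemma half {x y : ℤ} {l m : ℕ} (hjm : j ≤ m) (hl : 2 * m + 1 ≤ l)
    (hS : ∀ z ∈ seg x y l, InB a b y0 R z) {u v : ℤ × ℤ} (w : squareLattice.Walk u v)
    (hv : v ∈ seg x y l) (hw : ∀ e ∈ w.edges, e ∈ Box a b y0 R) (hu : InB a b y0 R u)
    (hi : Ins b c j u) :
    ∃ z, Arc a b y0 R c j z ∧ ∃ v' ∈ seg x y l, ∃ p : squareLattice.Walk z v',
      p.edges.Sublist w.edges := by
  classical
  rcases hit w hw hu hi with ⟨z, hz, hz'⟩ | ⟨h1, h2⟩
  · refine ⟨z, hz', v, hv, w.dropUntil z hz, ?_⟩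
    have := w.take_spec hz
    have h3 : w.edges = (w.takeUntil z hz).edges ++ (w.dropUntil z hz).edges := by
      rw [← SimpleGraph.Walk.edges_append, this]
    rw [h3]
    exact List.sublist_append_right _ _
  · obtain ⟨z, hz, hz'⟩ := seg_hit hjm hl hS hv h1
    exact ⟨z, hz', z, hz, SimpleGraph.Walk.nil, by simp⟩

lemma walkCost_sublist {s : Environment} (hs : Nn s) {u v u' v' : ℤ × ℤ}
    {w : squareLattice.Walk u v} {w' : squareLattice.Walk u' v'} (h : w.edges.Sublist w'.edges) :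
    walkCost s w ≤ walkCost s w' := by
  unfold walkCost
  refine List.Sublist.sum_le_sum (h.map s) ?_
  intro q hq
  obtain ⟨e, -, rfl⟩ := List.mem_map.1 hq
  exact hs e

lemma walkCost_le_of_le {s : Environment} {lam : ℝ} {u v : ℤ × ℤ}
    (w : squareLattice.Walk u v) (h : ∀ e ∈ w.edges, s e ≤ lam) :
    walkCost s w ≤ w.length * lam := by
  induction w with
  | nil => simp [walkCost]
  | @cons u0 v0 w0 h' w ih =>
    have h1 := ih (fun e he => h e (by simp [he]))
    have h2 := h s(u0, v0) (by simp)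
    have h3 : walkCost s (SimpleGraph.Walk.cons h' w) = s s(u0, v0) + walkCost s w := by
      simp [walkCost]
    rw [h3, SimpleGraph.Walk.length_cons]
    push_cast
    linarith

/-- the truncated environment -/
def trunc (K : ℝ) (t : Environment) : Environment := fun e => min (t e) K

lemma trunc_Nn {K : ℝ} (hK : 0 ≤ K) {t : Environment} (ht : Nn t) : Nn (trunc K t) :=
  fun e => le_min (ht e) hK

open Classical in
/-- number of heavy edges of a walk -/
noncomputable def heavy (K : ℝ) (t : Environment) {u v : ℤ × ℤ} (w : squareLattice.Walk u v) : ℕ :=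
  w.edges.countP fun e => K < t e

lemma exists_split {u v : ℤ × ℤ} (w : squareLattice.Walk u v) {e : Sym2 (ℤ × ℤ)}
    (he : e ∈ w.edges) : ∃ (p q : ℤ × ℤ) (h : squareLattice.Adj p q)
      (w1 : squareLattice.Walk u p) (w2 : squareLattice.Walk q v), s(p, q) = e ∧
      w = w1.append (SimpleGraph.Walk.cons h w2) := by
  induction w with
  | nil => simp at he
  | @cons u x v h w ih =>
    rw [SimpleGraph.Walk.edges_cons, List.mem_cons] at he
    rcases he with rfl | he
    · exact ⟨u, x, h, SimpleGraph.Walk.nil, w, rfl, rfl⟩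
    · obtain ⟨p, q, h', w1, w2, h1, h2⟩ := ih he
      exact ⟨p, q, h', SimpleGraph.Walk.cons h w1, w2, h1, by rw [h2]; rfl⟩

variable {x y x' y' : ℤ} {l l' m : ℕ} {K lam : ℝ} {t : Environment}

/-- all vertices of the box are enclosed by an open ring -/
def AllEnc (a b y0 R : ℤ) (lam : ℝ) (m : ℕ) (t : Environment) : Prop :=
  ∀ c, InB a b y0 R c → t ∈ Enc lam m c

/-- one step of the surgery -/
lemma surgery (ht : Nn t) (hlam : 0 ≤ lam) (hK : 8 * m * lam ≤ K)
    (hm : 2 * (m:ℤ) ≤ b - a) (hm' : (m:ℤ) ≤ R) (hE : AllEnc a b y0 R lam m t)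
    (hl : 2 * m + 1 ≤ l) (hl' : 2 * m + 1 ≤ l')
    (hS : ∀ z ∈ seg x y l, InB a b y0 R z) (hS' : ∀ z ∈ seg x' y' l', InB a b y0 R z)
    {u v : ℤ × ℤ} (w : squareLattice.Walk u v) (hu : u ∈ seg x y l) (hv : v ∈ seg x' y' l')
    (hw : ∀ e ∈ w.edges, e ∈ Box a b y0 R) (hh : heavy K t w ≠ 0) :
    ∃ u' ∈ seg x y l, ∃ v' ∈ seg x' y' l', ∃ w' : squareLattice.Walk u' v',
      (∀ e ∈ w'.edges, e ∈ Box a b y0 R) ∧ heavy K t w' < heavy K t w ∧
      walkCost (trunc K t) w' ≤ walkCost (trunc K t) w := by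
  classical
  have hm1 : 0 ≤ (m:ℝ) := Nat.cast_nonneg m
  have hK0 : 0 ≤ K := le_trans (by positivity) hK
  have hs := trunc_Nn hK0 ht
  obtain ⟨e, he, heK⟩ : ∃ e ∈ w.edges, K < t e := by
    have : 0 < heavy K t w := Nat.pos_of_ne_zero hh
    unfold heavy at this
    rw [List.countP_pos_iff] at this
    obtain ⟨e, he, h⟩ := this
    exact ⟨e, he, by simpa using h⟩
  obtain ⟨p, q, hpq, w1, w2, rfl, rfl⟩ := exists_split w he
  have hw1 : ∀ e ∈ w1.edges, e ∈ Box a b y0 R := fun e he => hw e (by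
    rw [SimpleGraph.Walk.edges_append, List.mem_append]; exact Or.inl he)
  have hw2 : ∀ e ∈ (SimpleGraph.Walk.cons hpq w2).edges, e ∈ Box a b y0 R := fun e he => hw e (by
    rw [SimpleGraph.Walk.edges_append, List.mem_append]; exact Or.inr he)
  have hpB : InB a b y0 R p := by
    have := hw2 s(p, q) (by simp)
    rw [mem_Box_adj hpq] at this
    unfold InB; omega
  obtain ⟨j, hj1, hjm, hopen⟩ := hE p hpB
  have hi : Ins b p j p := by
    unfold Ins
    refine ⟨by omega, fun _ => by omega, by omega, by omega⟩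
  obtain ⟨hub, hhub⟩ := arc_conn (a := a) (b := b) (y0 := y0) (R := R) (c := p) (j := j) hpB hj1
    (by omega) (by omega)
  have hqB : InB a b y0 R q := by
    have := hw2 s(p, q) (by simp)
    rw [mem_Box_adj hpq] at this
    unfold InB; omega
  have hw2' : ∀ e ∈ w2.edges, e ∈ Box a b y0 R := fun e he => hw2 e (by simp [he])
  obtain ⟨z2, hz2, v', hv', p2, hp2⟩ : ∃ z, Arc a b y0 R p j z ∧ ∃ v' ∈ seg x' y' l',
      ∃ p2 : squareLattice.Walk z v', p2.edges.Sublist w2.edges := by
    by_cases hq : Ins b p j q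
    · exact half (c := p) (j := j) hjm hl' hS' w2 hv hw2' hqB hq
    · exact ⟨q, step_out hpq hpB hqB hi hq, v, hv, w2, List.Sublist.refl _⟩
  obtain ⟨z1, hz1, u', hu', p1, hp1⟩ := half (c := p) (j := j) hjm hl hS w1.reverse hu
    (fun e he => hw1 e (by simpa using he)) hpB hi
  obtain ⟨r1, hr1, hs1⟩ := hhub z1 hz1
  obtain ⟨r2, hr2, hs2⟩ := hhub z2 hz2
  rw [SimpleGraph.Walk.edges_reverse] at hp1
  have hp1' : p1.reverse.edges.Sublist w1.edges := by
    rw [SimpleGraph.Walk.edges_reverse]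
    simpa using hp1.reverse
  have hmR : (1:ℝ) ≤ m := by exact_mod_cast hj1.trans hjm
  have hlamK : lam ≤ K := by nlinarith
  have hopen1 : ∀ e ∈ r1.edges, t e ≤ lam := fun e he => hopen e (hs1 e he).2
  have hopen2 : ∀ e ∈ r2.reverse.edges, t e ≤ lam := fun e he => hopen e
    (hs2 e (by simpa using he)).2
  refine ⟨u', hu', v', hv',
    p1.reverse.append (r1.append (r2.reverse.append p2)), ?_, ?_, ?_⟩
  · intro e he
    simp only [SimpleGraph.Walk.edges_append, List.mem_append] at he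
    rcases he with he | he | he | he
    · exact hw1 e (hp1'.subset he)
    · exact (hs1 e he).1
    · exact (hs2 e (by simpa using he)).1
    · exact hw2' e (hp2.subset he)
  · unfold heavy
    simp only [SimpleGraph.Walk.edges_append, List.countP_append, SimpleGraph.Walk.edges_cons,
      List.countP_cons]
    have e1 : r1.edges.countP (fun e => decide (K < t e)) = 0 := by
      rw [List.countP_eq_zero]
      intro e he
      have := hopen1 e he
      simp only [decide_eq_true_eq, not_lt]; linarith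
    have e2 : r2.reverse.edges.countP (fun e => decide (K < t e)) = 0 := by
      rw [List.countP_eq_zero]
      intro e he
      have := hopen2 e he
      simp only [decide_eq_true_eq, not_lt]; linarith
    have e3 := hp1'.countP_le (p := fun e => decide (K < t e))
    have e4 := hp2.countP_le (p := fun e => decide (K < t e))
    rw [e1, e2]
    simp only [heK, decide_true, if_true]
    omega
  · have c1 := walkCost_sublist hs hp1'
    have c2 := walkCost_sublist hs hp2
    have c3 := walkCost_le_of_le (s := trunc K t) (lam := lam) r1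
      (fun e he => (min_le_left _ _).trans (hopen1 e he))
    have c4 := walkCost_le_of_le (s := trunc K t) (lam := lam) r2.reverse
      (fun e he => (min_le_left _ _).trans (hopen2 e he))
    simp only [walkCost_append]
    have c5 : walkCost (trunc K t) (SimpleGraph.Walk.cons hpq w2) =
        K + walkCost (trunc K t) w2 := by
      have : trunc K t s(p, q) = K := min_eq_right heK.le
      simp [walkCost, this]
    rw [c5]
    have l1 : (r1.length : ℝ) ≤ 4 * m := by
      have : r1.length ≤ 4 * m := by omega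
      exact_mod_cast this
    have l2 : (r2.reverse.length : ℝ) ≤ 4 * m := by
      rw [SimpleGraph.Walk.length_reverse]
      have : r2.length ≤ 4 * m := by omega
      exact_mod_cast this
    have d1 := mul_le_mul_of_nonneg_right l1 hlam
    have d2 := mul_le_mul_of_nonneg_right l2 hlam
    nlinarith

/-- a walk without heavy edges -/
lemma exists_light (ht : Nn t) (hlam : 0 ≤ lam) (hK : 8 * m * lam ≤ K)
    (hm : 2 * (m:ℤ) ≤ b - a) (hm' : (m:ℤ) ≤ R) (hE : AllEnc a b y0 R lam m t)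
    (hl : 2 * m + 1 ≤ l) (hl' : 2 * m + 1 ≤ l')
    (hS : ∀ z ∈ seg x y l, InB a b y0 R z) (hS' : ∀ z ∈ seg x' y' l', InB a b y0 R z) :
    ∀ (N : ℕ) {u v : ℤ × ℤ} (w : squareLattice.Walk u v), u ∈ seg x y l → v ∈ seg x' y' l' →
    (∀ e ∈ w.edges, e ∈ Box a b y0 R) → heavy K t w ≤ N →
    ∃ u' ∈ seg x y l, ∃ v' ∈ seg x' y' l', ∃ w' : squareLattice.Walk u' v',
      (∀ e ∈ w'.edges, e ∈ Box a b y0 R) ∧ heavy K t w' = 0 ∧
      walkCost (trunc K t) w' ≤ walkCost (trunc K t) w := by
  intro N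
  induction N with
  | zero =>
    intro u v w hu hv hw hN
    exact ⟨u, hu, v, hv, w, hw, Nat.le_zero.1 hN, le_rfl⟩
  | succ N ih =>
    intro u v w hu hv hw hN
    by_cases hh : heavy K t w = 0
    · exact ⟨u, hu, v, hv, w, hw, hh, le_rfl⟩
    · obtain ⟨u', hu', v', hv', w', hw', h1, h2⟩ :=
        surgery ht hlam hK hm hm' hE hl hl' hS hS' w hu hv hw hh
      obtain ⟨u2, hu2, v2, hv2, w2, hw2, h3, h4⟩ := ih w' hu' hv' hw' (by omega)
      exact ⟨u2, hu2, v2, hv2, w2, hw2, h3, h4.trans h2⟩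

lemma trunc_cost_eq {u v : ℤ × ℤ} (w : squareLattice.Walk u v) (h : heavy K t w = 0) :
    walkCost (trunc K t) w = walkCost t w := by
  unfold walkCost
  congr 1
  apply List.map_congr_left
  intro e he
  unfold heavy at h
  rw [List.countP_eq_zero] at h
  have := h e he
  simp only [decide_eq_true_eq, not_lt] at this
  exact min_eq_left this

/-- **ring lemma**: truncation at `K` does not change the segment-to-segment time -/
theorem TE_trunc (ht : Nn t) (hlam : 0 ≤ lam) (hK : 8 * m * lam ≤ K) (hK0 : 0 ≤ K)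
    (hm : 2 * (m:ℤ) ≤ b - a) (hm' : (m:ℤ) ≤ R) (hE : AllEnc a b y0 R lam m t)
    (hl : 2 * m + 1 ≤ l) (hl' : 2 * m + 1 ≤ l')
    (hS : ∀ z ∈ seg x y l, InB a b y0 R z) (hS' : ∀ z ∈ seg x' y' l', InB a b y0 R z)
    (hc : Crest.Agent.R151.U.Conn (↑(Box a b y0 R)) (seg x y l) (seg x' y' l')) :
    TE (Box a b y0 R) (seg x y l) (seg x' y' l') t =
      TE (Box a b y0 R) (seg x y l) (seg x' y' l') (trunc K t) := by
  apply le_antisymm
  · obtain ⟨u, hu, v, hv, w, -, hw, hcw⟩ := exists_walk_TE (trunc_Nn hK0 ht) hc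
    obtain ⟨u', hu', v', hv', w', hw', h1, h2⟩ :=
      exists_light ht hlam hK hm hm' hE hl hl' hS hS' (heavy K t w) w hu hv hw le_rfl
    calc TE (Box a b y0 R) (seg x y l) (seg x' y' l') t
        ≤ walkCost t w' := TE_le_walk ht w' hw' hu' hv'
      _ = walkCost (trunc K t) w' := (trunc_cost_eq w' h1).symm
      _ ≤ walkCost (trunc K t) w := h2
      _ ≤ _ := hcw
  · obtain ⟨S, hSE, hSc, hSt⟩ := exists_TE hc t
    rw [hSt]
    refine (TE_le hSE hSc _).trans ?_
    exact Finset.sum_le_sum fun e _ => min_le_left _ _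

end Crest.Agent.R151.M51
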