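import Mathlib
import Crest.Agent.R151.M51E

/-!
# R151, block MOM (helper51), part F: five edge-disjoint routes, second moment of `TE`
-/

set_option autoImplicit false

open MeasureTheory ProbabilityTheory
open scoped ENNReal
open Crest.ProbabilityR.FirstPassage
open Crest.Agent.R151.K
open Crest.Agent.R151.U (Box mem_Box_adj seg mem_seg TE TE_le_walk measurable_TE TE_nonneg
  edge_mem_support)

namespace Crest.Agent.R151.M51

/-- all end points in row `r` -/
def RowE (r : ℤ) (e : Sym2 (ℤ × ℤ)) : Prop := ∀ p ∈ e, p.2 = r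

/-- all end points in column `r` -/
def ColE (r : ℤ) (e : Sym2 (ℤ × ℤ)) : Prop := ∀ p ∈ e, p.1 = r

lemma RowE.ne {r r' : ℤ} {e : Sym2 (ℤ × ℤ)} (h : RowE r e) (h' : RowE r' e) : r = r' := by
  induction e using Sym2.inductionOn with
  | _ p q => rw [← h p (Sym2.mem_mk_left _ _), ← h' p (Sym2.mem_mk_left _ _)]

lemma ColE.ne {r r' : ℤ} {e : Sym2 (ℤ × ℤ)} (h : ColE r e) (h' : ColE r' e) : r = r' := by
  induction e using Sym2.inductionOn with
  | _ p q => rw [← h p (Sym2.mem_mk_left _ _), ← h' p (Sym2.mem_mk_left _ _)]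

lemma RowE.not_col {r c : ℤ} {e : Sym2 (ℤ × ℤ)} (h : RowE r e) (h' : ColE c e)
    {u v : ℤ × ℤ} {w : squareLattice.Walk u v} (he : e ∈ w.edges) : False := by
  induction e using Sym2.inductionOn with
  | _ p q =>
    have hadj := w.adj_of_mem_edges he
    apply hadj.ne
    ext
    · rw [h' p (Sym2.mem_mk_left _ _), h' q (Sym2.mem_mk_right _ _)]
    · rw [h p (Sym2.mem_mk_left _ _), h q (Sym2.mem_mk_right _ _)]

/-- one route: row `r`, column `c`, row `s` -/
lemma exists_route {a b y0 R : ℤ} {x x' r s c : ℤ} (hx : a ≤ x) (hx' : x ≤ b) (hy : a ≤ x')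
    (hy' : x' ≤ b) (hc : a ≤ c) (hc' : c < b) (hr : y0 - R ≤ r) (hr' : r ≤ y0 + R)
    (hs : y0 - R ≤ s) (hs' : s ≤ y0 + R) :
    ∃ w : squareLattice.Walk (x, r) (x', s), (w.length : ℤ) ≤ 2 * (b - a) + 2 * R ∧
      (∀ e ∈ w.edges, e ∈ Box a b y0 R) ∧ ∀ e ∈ w.edges, RowE r e ∨ ColE c e ∨ RowE s e := by
  obtain ⟨w1, h1, s1⟩ := exists_walk_row x r c
  obtain ⟨w2, h2, s2⟩ := exists_walk_col c r s
  obtain ⟨w3, h3, s3⟩ := exists_walk_row c s x'
  refine ⟨w1.append (w2.append w3), ?_, ?_, ?_⟩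
  · rw [SimpleGraph.Walk.length_append, SimpleGraph.Walk.length_append, h1, h2, h3]
    omega
  · intro e he
    rw [SimpleGraph.Walk.edges_append, SimpleGraph.Walk.edges_append, List.mem_append,
      List.mem_append] at he
    rcases he with he | he | he
    · induction e using Sym2.inductionOn with
      | _ p q =>
        have hadj := w1.adj_of_mem_edges he
        rw [mem_Box_adj hadj]
        have hp := s1 p (edge_mem_support w1 he (Sym2.mem_mk_left _ _))
        have hq := s1 q (edge_mem_support w1 he (Sym2.mem_mk_right _ _))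
        have hne : p.1 ≠ q.1 := by
          intro h; exact hadj.ne (Prod.ext h (by rw [hp.1, hq.1]))
        omega
    · induction e using Sym2.inductionOn with
      | _ p q =>
        have hadj := w2.adj_of_mem_edges he
        rw [mem_Box_adj hadj]
        have hp := s2 p (edge_mem_support w2 he (Sym2.mem_mk_left _ _))
        have hq := s2 q (edge_mem_support w2 he (Sym2.mem_mk_right _ _))
        omega
    · induction e using Sym2.inductionOn with
      | _ p q =>
        have hadj := w3.adj_of_mem_edges he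
        rw [mem_Box_adj hadj]
        have hp := s3 p (edge_mem_support w3 he (Sym2.mem_mk_left _ _))
        have hq := s3 q (edge_mem_support w3 he (Sym2.mem_mk_right _ _))
        have hne : p.1 ≠ q.1 := by
          intro h; exact hadj.ne (Prod.ext h (by rw [hp.1, hq.1]))
        omega
  · intro e he
    rw [SimpleGraph.Walk.edges_append, SimpleGraph.Walk.edges_append, List.mem_append,
      List.mem_append] at he
    rcases he with he | he | he
    · exact Or.inl fun p hp => (s1 p (edge_mem_support w1 he hp)).1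
    · exact Or.inr (Or.inl fun p hp => (s2 p (edge_mem_support w2 he hp)).1)
    · exact Or.inr (Or.inr fun p hp => (s3 p (edge_mem_support w3 he hp)).1)

/-- `E TE^2 ≤ L^7 mom G 5 2` from five edge-disjoint routes -/
theorem lintegral_TE_sq_le (G : Measure ℝ) [IsProbabilityMeasure G] (h0 : G (Set.Iio 0) = 0)
    {a b y0 R x x' y y' : ℤ} {l l' : ℕ} (hab : a + 5 ≤ b) (hx : a ≤ x) (hx' : x ≤ b)
    (hy : a ≤ x') (hy' : x' ≤ b) (h1 : y0 - R ≤ y) (h2 : y + l ≤ y0 + R + 1)
    (h3 : y0 - R ≤ y') (h4 : y' + l' ≤ y0 + R + 1) (hl : 15 ≤ l) (hl' : 15 ≤ l')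
    {L : ℕ} (hL : 2 * (b - a) + 2 * R ≤ L) :
    ∫⁻ t, ENNReal.ofReal (TE (Box a b y0 R) (seg x y l) (seg x' y' l') t) ^ (2:ℝ) ∂(iidLaw G) ≤
      (L:ℝ≥0∞) ^ (2:ℝ) * (L:ℝ≥0∞) ^ 5 * mom G 5 2 := by
  -- the offset
  obtain ⟨o, ho, ho', hoff⟩ : ∃ o : ℤ, 0 ≤ o ∧ o ≤ 10 ∧ ∀ i j : ℤ, 0 ≤ i → i ≤ 4 → 0 ≤ j → j ≤ 4 →
      y + i ≠ y' + o + j := by
    by_cases h : y ≤ y' + 4 ∧ y' ≤ y + 4
    · exact ⟨10, by norm_num, le_rfl, fun i j _ _ _ _ => by omega⟩
    · exact ⟨0, le_rfl, by norm_num, fun i j _ _ _ _ => by omega⟩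
  have hroute : ∀ i : Fin 5, ∃ w : squareLattice.Walk (x, y + (i:ℕ)) (x', y' + o + (i:ℕ)),
      (w.length : ℤ) ≤ 2 * (b - a) + 2 * R ∧ (∀ e ∈ w.edges, e ∈ Box a b y0 R) ∧
      ∀ e ∈ w.edges, RowE (y + (i:ℕ)) e ∨ ColE (a + (i:ℕ)) e ∨ RowE (y' + o + (i:ℕ)) e := by
    intro i
    have := i.2
    exact exists_route hx hx' hy hy' (by omega) (by omega) (by omega) (by omega) (by omega)
      (by omega)
  choose W hW1 hW2 hW3 using hroute
  have hdisj : ∀ i j : Fin 5, i ≠ j → (W i).edges.Disjoint (W j).edges := by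
    intro i j hij e he he'
    have hi := i.2
    have hj := j.2
    have hij' : (i:ℕ) ≠ (j:ℕ) := fun h => hij (Fin.ext h)
    have h0 : ((i:ℕ):ℤ) ≠ (j:ℕ) := by exact_mod_cast hij'
    rcases hW3 i e he with h | h | h <;> rcases hW3 j e he' with h' | h' | h'
    · have := h.ne h'; omega
    · exact h.not_col h' he
    · exact hoff i j (by omega) (by omega) (by omega) (by omega) (h.ne h')
    · exact h'.not_col h he'
    · have := h.ne h'; omega
    · exact h'.not_col h he'
    · exact hoff j i (by omega) (by omega) (by omega) (by omega) (h'.ne h)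
    · exact h.not_col h' he
    · have := h.ne h'; omega
  have h5 := lintegral_min_lists_le G (k := 5) (p := 2) (by norm_num) L (fun i => (W i).edges)
    hdisj (fun i => by
      rw [SimpleGraph.Walk.length_edges]
      have := hW1 i
      omega)
  refine le_trans ?_ h5
  apply lintegral_mono_ae
  filter_upwards [ae_Nn h0] with t ht
  apply ENNReal.rpow_le_rpow _ (by norm_num)
  apply le_iInf
  intro i
  apply ENNReal.ofReal_le_ofReal
  have hi := i.2
  exact TE_le_walk ht (W i) (hW2 i) (by rw [mem_seg]; refine ⟨rfl, ?_, ?_⟩ <;> simp only <;> omega)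
    (by rw [mem_seg]; refine ⟨rfl, ?_, ?_⟩ <;> simp only <;> omega)

lemma memLp_TE (G : Measure ℝ) [IsProbabilityMeasure G] (h0 : G (Set.Iio 0) = 0)
    (hm : mom G 5 2 < ⊤)
    {a b y0 R x x' y y' : ℤ} {l l' : ℕ} (hab : a + 5 ≤ b) (hx : a ≤ x) (hx' : x ≤ b)
    (hy : a ≤ x') (hy' : x' ≤ b) (h1 : y0 - R ≤ y) (h2 : y + l ≤ y0 + R + 1)
    (h3 : y0 - R ≤ y') (h4 : y' + l' ≤ y0 + R + 1) (hl : 15 ≤ l) (hl' : 15 ≤ l') :
    MemLp (TE (Box a b y0 R) (seg x y l) (seg x' y' l')) 2 (iidLaw G) := by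
  refine ⟨(measurable_TE _ _ _).aestronglyMeasurable, ?_⟩
  rw [eLpNorm_lt_top_iff_lintegral_rpow_enorm_lt_top (by norm_num) (by norm_num)]
  have h5 := lintegral_TE_sq_le G h0 hab hx hx' hy hy' h1 h2 h3 h4 hl hl'
    (L := (2 * (b - a) + 2 * R).toNat) (by omega)
  refine lt_of_le_of_lt (le_trans (le_of_eq ?_) h5) ?_
  · apply lintegral_congr_ae
    filter_upwards [ae_Nn h0] with t ht
    rw [Real.enorm_eq_ofReal (TE_nonneg ht)]
    simp
  · refine ENNReal.mul_lt_top (ENNReal.mul_lt_top ?_ ?_) hm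
    · exact ENNReal.rpow_lt_top_of_nonneg (by norm_num) (ENNReal.natCast_ne_top _)
    · exact ENNReal.pow_lt_top (ENNReal.natCast_lt_top _)

end Crest.Agent.R151.M51
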