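import Mathlib
import Crest.Agent.R151.M51F
import Crest.Agent.R151.K5

/-!
# R151, block MOM (helper51), part G: variance of the truncated segment-to-segment time
-/

set_option autoImplicit false

open MeasureTheory ProbabilityTheory
open scoped ENNReal
open Crest.ProbabilityR.FirstPassage
open Crest.Agent.R151.K
open Crest.Agent.R151.V (dvar dvar_map dvar_eq pmin pmin_le exists_pmin measurable_pmin Ess
  dvar_pmin_le card_Ess_le)
open Crest.Agent.R151.U (Box mem_Box_adj seg mem_seg TE TE_le_walk measurable_TE TE_nonneg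
  edge_mem_support PP mem_PP PP_nonempty TE_eq TE_eq_fun exists_walk_TE sum_edges_path)

namespace Crest.Agent.R151.M51

/-- the law of a truncated weight -/
noncomputable def truncLaw (G : Measure ℝ) (K : ℝ) : Measure ℝ := G.map fun x => min x K

instance truncLaw_prob (G : Measure ℝ) [IsProbabilityMeasure G] (K : ℝ) :
    IsProbabilityMeasure (truncLaw G K) :=
  Measure.isProbabilityMeasure_map (measurable_id.min measurable_const).aemeasurable

lemma measurable_trunc (K : ℝ) : Measurable (trunc K) :=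
  measurable_pi_iff.2 fun e => (measurable_pi_apply e).min measurable_const

lemma mp_trunc (G : Measure ℝ) [IsProbabilityMeasure G] (K : ℝ) :
    MeasurePreserving (trunc K) (iidLaw G) (iidLaw (truncLaw G K)) := by
  refine ⟨measurable_trunc K, ?_⟩
  unfold iidLaw truncLaw
  have := Measure.infinitePi_map_pi (μ := fun _ : Sym2 (ℤ × ℤ) => G)
    (f := fun _ x => min x K) (fun _ => measurable_id.min measurable_const)
  exact this

lemma truncLaw_Iio {G : Measure ℝ} [IsProbabilityMeasure G] (h0 : G (Set.Iio 0) = 0) {K : ℝ}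
    (hK : 0 ≤ K) : truncLaw G K (Set.Iio 0) = 0 := by
  unfold truncLaw
  rw [Measure.map_apply (by fun_prop) measurableSet_Iio]
  have : (fun x : ℝ => min x K) ⁻¹' Set.Iio 0 = Set.Iio 0 := by
    ext x
    simp only [Set.mem_preimage, Set.mem_Iio, min_lt_iff]
    constructor
    · rintro (h | h)
      · exact h
      · exact absurd h (not_lt.2 hK)
    · exact Or.inl
  rw [this, h0]

lemma truncLaw_zero {G : Measure ℝ} [IsProbabilityMeasure G] (hz : G {0} = 0) {K : ℝ}
    (hK : 0 < K) : truncLaw G K {0} = 0 := by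
  unfold truncLaw
  rw [Measure.map_apply (by fun_prop) (measurableSet_singleton 0)]
  have : (fun x : ℝ => min x K) ⁻¹' {0} = {0} := by
    ext x
    simp only [Set.mem_preimage, Set.mem_singleton_iff]
    constructor
    · intro h
      rcases min_choice x K with h' | h'
      · rw [← h', h]
      · exfalso; rw [h] at h'; linarith
    · rintro rfl
      exact min_eq_left hK.le
  rw [this, hz]

lemma Bad_mono {c : ℝ} {n : ℕ} {x : ℤ × ℤ} {s t : Environment} (hst : ∀ e, s e ≤ t e)
    (h : t ∈ Bad c n x) : s ∈ Bad c n x := by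
  obtain ⟨f, hf, hc⟩ := h
  refine ⟨f, hf, lt_of_le_of_lt ?_ hc⟩
  unfold cst
  exact List.sum_le_sum fun e _ => hst e

/-- the constant of the linear lower bound, uniform in the truncation level `K ≥ 1` -/
theorem exists_prob_Bad_trunc {G : Measure ℝ} [IsProbabilityMeasure G] (h0 : G (Set.Iio 0) = 0)
    (hz : G {0} = 0) : ∃ c : ℝ, 0 < c ∧ ∀ K : ℝ, 1 ≤ K → ∀ (n : ℕ) (x : ℤ × ℤ),
      iidLaw G {t | trunc K t ∈ Bad c n x} ≤ ENNReal.ofReal ((1 / 2) ^ n) := by
  obtain ⟨c, hc, hb⟩ := prob_Bad_le (G := truncLaw G 1) (truncLaw_Iio h0 zero_le_one)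
    (truncLaw_zero hz one_pos)
  refine ⟨c, hc, fun K hK n x => ?_⟩
  calc iidLaw G {t | trunc K t ∈ Bad c n x}
      ≤ iidLaw G ((trunc 1) ⁻¹' (Bad c n x)) := by
        apply measure_mono
        intro t ht
        exact Bad_mono (fun e => min_le_min le_rfl hK) ht
    _ = iidLaw (truncLaw G 1) (Bad c n x) :=
        (mp_trunc G 1).measure_preimage (measurableSet_Bad c n x).nullMeasurableSet
    _ ≤ _ := by
        have : IsProbabilityMeasure (iidLaw (truncLaw G 1)) := by unfold iidLaw; infer_instance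
        rw [← ENNReal.ofReal_toReal (measure_ne_top (iidLaw (truncLaw G 1)) (Bad c n x))]
        exact ENNReal.ofReal_le_ofReal (hb n x)

lemma card_Box_le {a b y0 R : ℤ} {L : ℕ} (hab : a ≤ b) (hR : 0 ≤ R)
    (hL : 2 * (b - a) + 2 * R ≤ L) : (Box a b y0 R).card ≤ 2 * (L + 1) ^ 2 := by
  unfold Box
  refine (Finset.card_union_le _ _).trans ?_
  have h1 := (Finset.card_image_le (s := Finset.Ico a b ×ˢ Finset.Icc (y0 - R) (y0 + R))
    (f := fun p : ℤ × ℤ => eH p.1 p.2))
  have h2 := (Finset.card_image_le (s := Finset.Ico a b ×ˢ Finset.Ico (y0 - R) (y0 + R))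
    (f := fun p : ℤ × ℤ => eV p.1 p.2))
  rw [Finset.card_product, Int.card_Ico, Int.card_Icc] at h1
  rw [Finset.card_product, Int.card_Ico, Int.card_Ico] at h2
  have e1 : (b - a).toNat ≤ L + 1 := by omega
  have e2 : (y0 + R + 1 - (y0 - R)).toNat ≤ L + 1 := by omega
  have e3 : (y0 + R - (y0 - R)).toNat ≤ L + 1 := by omega
  have m1 := Nat.mul_le_mul e1 e2
  have m2 := Nat.mul_le_mul e1 e3
  nlinarith

/-- geometric data: the box, the two segments, the length bound -/
structure Geo (a b y0 R x x' y y' : ℤ) (l l' L : ℕ) : Prop where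
  hab : a + 5 ≤ b
  hx : a ≤ x
  hx' : x ≤ b
  hy : a ≤ x'
  hy' : x' ≤ b
  h1 : y0 - R ≤ y
  h2 : y + l ≤ y0 + R + 1
  h3 : y0 - R ≤ y'
  h4 : y' + l' ≤ y0 + R + 1
  hl : 15 ≤ l
  hl' : 15 ≤ l'
  hL : 2 * (b - a) + 2 * R ≤ L

variable {a b y0 R x x' y y' : ℤ} {l l' L : ℕ}

lemma Geo.conn (g : Geo a b y0 R x x' y y' l l' L) :
    Crest.Agent.R151.U.Conn (↑(Box a b y0 R)) (seg x y l) (seg x' y' l') := by
  obtain ⟨hab, hx, hx', hy, hy', h1, h2, h3, h4, hl, hl', hL⟩ := g
  obtain ⟨w, -, hw, -⟩ := exists_route (a := a) (b := b) (y0 := y0) (R := R) (x := x) (x' := x')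
    (r := y) (s := y') (c := a) hx hx' hy hy' le_rfl (by omega) (by omega) (by omega) (by omega)
    (by omega)
  exact Crest.Agent.R151.U.conn_walk w (fun e he => by exact_mod_cast hw e he)
    (by rw [mem_seg]; refine ⟨rfl, ?_, ?_⟩ <;> simp only <;> omega)
    (by rw [mem_seg]; refine ⟨rfl, ?_, ?_⟩ <;> simp only <;> omega)

lemma Geo.TE_trunc_le (g : Geo a b y0 R x x' y y' l l' L) {K : ℝ} (hK : 0 ≤ K) {t : Environment}
    (ht : Nn t) : TE (Box a b y0 R) (seg x y l) (seg x' y' l') (trunc K t) ≤ L * K := by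
  obtain ⟨hab, hx, hx', hy, hy', h1, h2, h3, h4, hl, hl', hL⟩ := g
  obtain ⟨w, hw1, hw, -⟩ := exists_route (a := a) (b := b) (y0 := y0) (R := R) (x := x) (x' := x')
    (r := y) (s := y') (c := a) hx hx' hy hy' le_rfl (by omega) (by omega) (by omega) (by omega)
    (by omega)
  have e1 := TE_le_walk (A := seg x y l) (B := seg x' y' l') (trunc_Nn hK ht) w hw
    (by rw [mem_seg]; refine ⟨rfl, ?_, ?_⟩ <;> simp only <;> omega)
    (by rw [mem_seg]; refine ⟨rfl, ?_, ?_⟩ <;> simp only <;> omega)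
  have e2 := walkCost_le_of_le (s := trunc K t) (lam := K) w (fun e _ => min_le_right _ _)
  have e3 : (w.length : ℝ) ≤ L := by
    have : w.length ≤ L := by omega
    exact_mod_cast this
  have e4 := mul_le_mul_of_nonneg_right e3 hK
  linarith

open Classical in
/-- deterministic bound of the number of essential edges -/
lemma Geo.card_Ess (g : Geo a b y0 R x x' y y' l l' L) {s : Environment} (hs : Nn s) {c : ℝ}
    {n1 : ℕ} (hn1 : TE (Box a b y0 R) (seg x y l) (seg x' y' l') s < c * n1)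
    (hb : ∀ u ∈ seg x y l, s ∉ Bad c n1 u) :
    (((PP (Box a b y0 R) (seg x y l) (seg x' y' l')).biUnion id).filter
      (fun e => Ess (PP (Box a b y0 R) (seg x y l) (seg x' y' l')) (PP_nonempty g.conn) s e)).card
      ≤ n1 := by
  obtain ⟨u, hu, v, hv, w, hwp, hw, hcw⟩ := exists_walk_TE hs g.conn
  have hmem : w.edges.toFinset ∈ PP (Box a b y0 R) (seg x y l) (seg x' y' l') := by
    rw [mem_PP]
    refine ⟨fun e he => hw e (by simpa using he), ?_⟩
    exact Crest.Agent.R151.U.conn_walk w (fun e he => by simpa using he) hu hv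
  have hsum : ∑ i ∈ w.edges.toFinset, s i =
      pmin (PP (Box a b y0 R) (seg x y l) (seg x' y' l')) (PP_nonempty g.conn) s := by
    apply le_antisymm
    · rw [← sum_edges_path w hwp, ← TE_eq g.conn]
      exact hcw
    · exact pmin_le hmem s
  refine (card_Ess_le _ _ s hmem hsum).trans ?_
  refine (List.toFinset_card_le _).trans ?_
  rw [SimpleGraph.Walk.length_edges]
  by_contra hlt
  push Not at hlt
  have := cost_ge_of_not_Bad hs (hb u hu) w hwp.isTrail.edges_nodup hlt.le
  linarith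

lemma biUnion_PP_subset (E : Finset (Sym2 (ℤ × ℤ))) (A B : Set (ℤ × ℤ)) [DecidableEq (Sym2 (ℤ × ℤ))] :
    (PP E A B).biUnion id ⊆ E := by
  intro e he
  rw [Finset.mem_biUnion] at he
  obtain ⟨S, hS, he⟩ := he
  exact (mem_PP.1 hS).1 he

/-- `dvar` of the truncated time is at most `C K^3 L` -/
theorem exists_dvar_trunc_le {G : Measure ℝ} [IsProbabilityMeasure G] (h0 : G (Set.Iio 0) = 0)
    (hz : G {0} = 0) : ∃ C : ℝ, 0 ≤ C ∧ ∀ (a b y0 R x x' y y' : ℤ) (l l' L : ℕ),
      Geo a b y0 R x x' y y' l l' L → ∀ K : ℝ, 1 ≤ K →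
      dvar (iidLaw G) (fun t => TE (Box a b y0 R) (seg x y l) (seg x' y' l') (trunc K t)) ≤
        ENNReal.ofReal (C * K ^ 3 * L) := by
  classical
  obtain ⟨c, hc, hB⟩ := exists_prob_Bad_trunc h0 hz
  refine ⟨2 * (1 / c + 10), by positivity, ?_⟩
  intro a b y0 R x x' y y' l l' L g K hK
  have hK0 : 0 ≤ K := by linarith
  have hL1 : 10 ≤ L := by
    have := g.hab
    have := g.hL
    have := g.h1
    have := g.h2
    have := g.hl
    omega
  set E := Box a b y0 R with hE
  set A := seg x y l with hA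
  set B := seg x' y' l' with hB'
  have hconn := g.conn
  set GK := truncLaw G K with hGK
  have hae : ∀ᵐ u ∂GK, 0 ≤ u := ae_nonneg (truncLaw_Iio h0 hK0)
  -- reduction to the truncated law
  have e1 : dvar (iidLaw G) (fun t => TE E A B (trunc K t)) = dvar (iidLaw GK) (TE E A B) := by
    have : SFinite (iidLaw GK) := by unfold iidLaw; infer_instance
    exact (dvar_map (mp_trunc G K) (measurable_TE E A B)).symm
  rw [e1, TE_eq_fun hconn]
  refine (dvar_pmin_le GK hae (PP E A B) (PP_nonempty hconn)).trans ?_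
  -- second moment of the truncated weight
  have e2 : ∫⁻ u, ENNReal.ofReal (u ^ 2) ∂GK ≤ ENNReal.ofReal (K ^ 2) := by
    rw [hGK, truncLaw, lintegral_map (by fun_prop) (by fun_prop)]
    calc ∫⁻ u, ENNReal.ofReal ((min u K) ^ 2) ∂G ≤ ∫⁻ _u, ENNReal.ofReal (K ^ 2) ∂G := by
          apply lintegral_mono_ae
          filter_upwards [ae_nonneg h0] with u hu
          apply ENNReal.ofReal_le_ofReal
          exact pow_le_pow_left₀ (le_min hu hK0) (min_le_right _ _) 2
      _ = _ := by simp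
  -- number of essential edges
  set n1 : ℕ := ⌊L * K / c⌋₊ + 1 + 3 * (L + 1) with hn1
  have hn1c : (L:ℝ) * K < c * n1 := by
    have h1 := Nat.lt_floor_add_one ((L:ℝ) * K / c)
    rw [div_lt_iff₀ hc] at h1
    rw [hn1]; push_cast
    nlinarith
  set F : Environment → ℕ := fun s => (((PP E A B).biUnion id).filter
      (fun e => Ess (PP E A B) (PP_nonempty hconn) s e)).card with hF
  have hFE : ∀ s, F s ≤ 2 * (L + 1) ^ 2 := by
    intro s
    refine (Finset.card_le_card ((Finset.filter_subset _ _).trans (biUnion_PP_subset E A B))).trans ?_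
    have := g.hab
    have := g.h1
    have := g.h2
    exact card_Box_le (by omega) (by omega) g.hL
  set rows : Finset (ℤ × ℤ) := (Finset.Ico y (y + l)).image fun r => (x, r) with hrows
  have hrows_mem : ∀ u ∈ A, u ∈ rows := by
    rintro ⟨u1, u2⟩ hu
    rw [hA, mem_seg] at hu
    rw [hrows, Finset.mem_image]
    exact ⟨u2, Finset.mem_Ico.2 ⟨hu.2.1, hu.2.2⟩, by rw [← hu.1]⟩
  have hrows_card : rows.card ≤ L + 1 := by
    refine Finset.card_image_le.trans ?_
    rw [Int.card_Ico]
    have := g.hab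
    have := g.h1
    have := g.h2
    have := g.hL
    omega
  have e3 : ∫⁻ s, (F s : ℝ≥0∞) ∂(iidLaw GK) ≤
      ENNReal.ofReal ((1 / c + 10) * K * L) := by
    have e4 : ∫⁻ s, (F s : ℝ≥0∞) ∂(iidLaw GK) ≤ ∫⁻ t, ((n1 : ℝ≥0∞) +
        ∑ u ∈ rows, Set.indicator {t : Environment | trunc K t ∈ Bad c n1 u}
          (fun _ => ((2 * (L + 1) ^ 2 : ℕ) : ℝ≥0∞)) t) ∂(iidLaw G) := by
      rw [← (mp_trunc G K).map_eq]
      refine (lintegral_map_le _ _).trans ?_
      apply lintegral_mono_ae
      filter_upwards [ae_Nn h0] with t ht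
      by_cases hbad : ∃ u ∈ rows, trunc K t ∈ Bad c n1 u
      · obtain ⟨u, hu, hub⟩ := hbad
        refine le_trans ?_ le_add_self
        refine le_trans ?_ (Finset.single_le_sum (fun _ _ => zero_le) hu)
        rw [Set.indicator_of_mem (by exact hub)]
        exact_mod_cast hFE _
      · push Not at hbad
        refine le_trans ?_ le_self_add
        have h1 : TE E A B (trunc K t) < c * n1 :=
          lt_of_le_of_lt (g.TE_trunc_le hK0 ht) hn1c
        have h2 := g.card_Ess (trunc_Nn hK0 ht) h1 (fun u hu => hbad u (hrows_mem u hu))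
        exact_mod_cast h2
    refine e4.trans ?_
    have hP : IsProbabilityMeasure (iidLaw G) := by unfold iidLaw; infer_instance
    have hmeas : ∀ u, MeasurableSet {t : Environment | trunc K t ∈ Bad c n1 u} := fun u =>
      measurable_trunc K (measurableSet_Bad c n1 u)
    rw [lintegral_add_left measurable_const, lintegral_const, measure_univ, mul_one,
      lintegral_finsetSum _ (fun u _ => measurable_const.indicator (hmeas u))]
    have e5 : ∀ u ∈ rows, ∫⁻ t, Set.indicator {t : Environment | trunc K t ∈ Bad c n1 u}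
          (fun _ => ((2 * (L + 1) ^ 2 : ℕ) : ℝ≥0∞)) t ∂(iidLaw G) ≤
          ENNReal.ofReal (2 * ((L:ℝ) + 1) ^ 2 * (1 / 2) ^ n1) := by
      intro u _
      rw [lintegral_indicator_const (hmeas u)]
      refine (mul_le_mul' le_rfl (hB K hK n1 u)).trans (le_of_eq ?_)
      rw [ENNReal.ofReal_mul (by positivity)]
      congr 1
      rw [← ENNReal.ofReal_natCast]
      congr 1
      push_cast; ring
    refine (add_le_add le_rfl (Finset.sum_le_sum e5)).trans ?_
    rw [Finset.sum_const, nsmul_eq_mul]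
    have e6 : (rows.card : ℝ≥0∞) * ENNReal.ofReal (2 * ((L:ℝ) + 1) ^ 2 * (1 / 2) ^ n1) ≤
        ENNReal.ofReal 2 := by
      rw [← ENNReal.ofReal_natCast, ← ENNReal.ofReal_mul (by positivity)]
      apply ENNReal.ofReal_le_ofReal
      have f1 : (rows.card : ℝ) ≤ L + 1 := by exact_mod_cast hrows_card
      have f2 : ((1:ℝ) / 2) ^ n1 ≤ ((1 / 2) ^ (L + 1)) ^ 3 := by
        rw [← pow_mul]
        apply pow_le_pow_of_le_one (by norm_num) (by norm_num)
        rw [hn1]; omega
      have f3 : ((1:ℝ) / 2) ^ (L + 1) ≤ 1 / (L + 1) := by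
        rw [one_div_pow]
        apply one_div_le_one_div_of_le (by positivity)
        have := (Nat.lt_two_pow_self (n := L + 1)).le
        exact_mod_cast this
      have f4 : ((1:ℝ) / 2) ^ n1 ≤ (1 / (L + 1)) ^ 3 :=
        f2.trans (pow_le_pow_left₀ (by positivity) f3 3)
      calc (rows.card : ℝ) * (2 * ((L:ℝ) + 1) ^ 2 * (1 / 2) ^ n1)
          ≤ ((L:ℝ) + 1) * (2 * ((L:ℝ) + 1) ^ 2 * (1 / (L + 1)) ^ 3) := by gcongr
        _ = 2 := by field_simp
    refine (add_le_add le_rfl e6).trans ?_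
    rw [← ENNReal.ofReal_natCast, ← ENNReal.ofReal_add (by positivity) (by norm_num)]
    apply ENNReal.ofReal_le_ofReal
    have g1 : (⌊(L:ℝ) * K / c⌋₊ : ℝ) ≤ L * K / c := Nat.floor_le (by positivity)
    have hLr : (10:ℝ) ≤ L := by exact_mod_cast hL1
    have g2 : (L:ℝ) ≤ K * L := by nlinarith
    rw [hn1]; push_cast
    have g3 : (1 / c + 10) * K * L = L * K / c + 10 * (K * L) := by
      field_simp
    rw [g3]
    nlinarith
  calc (2 * ∫⁻ u, ENNReal.ofReal (u ^ 2) ∂GK) * ∫⁻ s, (F s : ℝ≥0∞) ∂(iidLaw GK)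
      ≤ (2 * ENNReal.ofReal (K ^ 2)) * ENNReal.ofReal ((1 / c + 10) * K * L) := by gcongr
    _ = ENNReal.ofReal (2 * (1 / c + 10) * K ^ 3 * L) := by
        have : (2:ℝ≥0∞) = ENNReal.ofReal 2 := by simp
        rw [this, ← ENNReal.ofReal_mul (by norm_num), ← ENNReal.ofReal_mul (by positivity)]
        congr 1; ring

end Crest.Agent.R151.M51
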