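import Mathlib
import Crest.Agent.R151.M51G

/-!
# R151, block MOM (helper51), part H: the deviation bound (DEV) for the general law
-/

set_option autoImplicit false

open MeasureTheory ProbabilityTheory
open scoped ENNReal
open Crest.ProbabilityR.FirstPassage
open Crest.Agent.R151.K
open Crest.Agent.R151.V (dvar dvar_eq)
open Crest.Agent.R151.U (Box seg mem_seg TE measurable_TE TE_nonneg TE_le exists_TE)

namespace Crest.Agent.R151.M51

lemma iidLaw_prob (G : Measure ℝ) [IsProbabilityMeasure G] : IsProbabilityMeasure (iidLaw G) := by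
  unfold iidLaw; infer_instance

lemma abs_dev_le_sqrt {Ω : Type*} [MeasurableSpace Ω] {P : Measure Ω} [IsProbabilityMeasure P]
    {f : Ω → ℝ} (hf : MemLp f 2 P) :
    ∫ t, |f t - ∫ s, f s ∂P| ∂P ≤ Real.sqrt (variance f P) := by
  have h1 : MemLp (fun t => |f t - ∫ s, f s ∂P|) 2 P :=
    (hf.sub (memLp_const _)).norm
  have h2 := variance_nonneg (fun t => |f t - ∫ s, f s ∂P|) P
  rw [variance_eq_sub h1] at h2
  apply Real.le_sqrt_of_sq_le
  have h3 : (∫ t, ((fun t => |f t - ∫ s, f s ∂P|) ^ 2) t ∂P) = variance f P := by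
    rw [variance_eq_integral hf.aestronglyMeasurable.aemeasurable]
    apply integral_congr_ae
    filter_upwards with t
    simp [sq_abs]
  rw [h3] at h2
  linarith

/-- Hölder: `∫ |D| ≤ sqrt(∫ X²) sqrt(P bad)` when `0 ≤ D ≤ X` and `D = 0` off `bad` -/
lemma lintegral_bad_le {Ω : Type*} [MeasurableSpace Ω] {P : Measure Ω} [IsProbabilityMeasure P]
    {D X : Ω → ℝ} (hX : Measurable X) {bad : Set Ω} (hbad : MeasurableSet bad)
    (hDX : ∀ᵐ t ∂P, D t ≤ X t) (hD0 : ∀ᵐ t ∂P, t ∉ bad → D t ≤ 0) {A B : ℝ≥0∞}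
    (hA : ∫⁻ t, ENNReal.ofReal (X t) ^ (2:ℝ) ∂P ≤ A) (hB : P bad ≤ B) :
    ∫⁻ t, ENNReal.ofReal (D t) ∂P ≤ (A * B) ^ (1 / 2 : ℝ) := by
  have h1 : ∫⁻ t, ENNReal.ofReal (D t) ∂P ≤
      ∫⁻ t, ((fun t => ENNReal.ofReal (X t)) * (bad.indicator fun _ => (1:ℝ≥0∞))) t ∂P := by
    apply lintegral_mono_ae
    filter_upwards [hDX, hD0] with t h1 h2
    rw [Pi.mul_apply]
    by_cases ht : t ∈ bad
    · rw [Set.indicator_of_mem ht, mul_one]
      exact ENNReal.ofReal_le_ofReal h1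
    · rw [ENNReal.ofReal_of_nonpos (h2 ht)]
      exact zero_le
  refine h1.trans ?_
  have h2 := ENNReal.lintegral_mul_le_Lp_mul_Lq P (p := 2) (q := 2)
    (by constructor <;> norm_num) hX.ennreal_ofReal.aemeasurable
    (measurable_const.indicator hbad : Measurable (bad.indicator fun _ => (1:ℝ≥0∞))).aemeasurable
  refine h2.trans ?_
  rw [ENNReal.mul_rpow_of_nonneg _ _ (by norm_num : (0:ℝ) ≤ 1 / 2)]
  gcongr
  have h3 : ∀ t, (bad.indicator fun _ => (1:ℝ≥0∞)) t ^ (2:ℝ) = bad.indicator (fun _ => 1) t := by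
    intro t
    by_cases ht : t ∈ bad <;> simp [ht]
  simp only [h3]
  rw [lintegral_indicator_const hbad, one_mul]
  exact hB

variable {a b y0 R x x' y y' : ℤ} {l l' L : ℕ}

/-- `P(some vertex of the box has no open ring) ≤ (L+1)² (8 m G(lam,∞))^m` -/
lemma prob_not_allEnc (G : Measure ℝ) [IsProbabilityMeasure G] (hab : a ≤ b) (hR : 0 ≤ R)
    (hL : 2 * (b - a) + 2 * R ≤ L) (lam : ℝ) (m : ℕ) :
    ∃ bad : Set Environment, MeasurableSet bad ∧ (∀ t, t ∉ bad → AllEnc a b y0 R lam m t) ∧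
      iidLaw G bad ≤ ((L + 1) ^ 2 : ℕ) * (((8 * m : ℕ) : ℝ≥0∞) * G (Set.Ioi lam)) ^ m := by
  classical
  set V : Finset (ℤ × ℤ) := Finset.Icc a b ×ˢ Finset.Icc (y0 - R) (y0 + R) with hV
  refine ⟨⋃ c ∈ V, (Enc lam m c)ᶜ, ?_, ?_, ?_⟩
  · exact Finset.measurableSet_biUnion _ fun c _ => (measurableSet_Enc lam m c).compl
  · intro t ht c hc
    simp only [Set.mem_iUnion, Set.mem_compl_iff, not_exists, not_not] at ht
    apply ht c
    unfold InB at hc
    rw [hV, Finset.mem_product, Finset.mem_Icc, Finset.mem_Icc]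
    omega
  · refine (measure_biUnion_finset_le _ _).trans ?_
    refine (Finset.sum_le_sum fun c _ => prob_not_Enc G lam m c).trans ?_
    rw [Finset.sum_const, nsmul_eq_mul]
    gcongr
    rw [hV, Finset.card_product, Int.card_Icc, Int.card_Icc]
    have e1 : (b + 1 - a).toNat ≤ L + 1 := by omega
    have e2 : (y0 + R + 1 - (y0 - R)).toNat ≤ L + 1 := by omega
    have := Nat.mul_le_mul e1 e2
    rw [sq]; exact this

/-- the deviation bound with free parameters `K`, `m` -/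
theorem exists_dev_bound {G : Measure ℝ} [IsProbabilityMeasure G] (hG : Law213 G)
    (hz : G {0} = 0) : ∃ C : ℝ, 0 ≤ C ∧ ∀ (a b y0 R x x' y y' : ℤ) (l l' L : ℕ),
      Geo a b y0 R x x' y y' l l' L → ∀ (K : ℝ) (m : ℕ), 1 ≤ K → 1 ≤ m → 2 * (m:ℤ) ≤ b - a →
      2 * m + 1 ≤ l → 2 * m + 1 ≤ l' →
      Integrable (TE (Box a b y0 R) (seg x y l) (seg x' y' l')) (iidLaw G) ∧
      ∫ t, |TE (Box a b y0 R) (seg x y l) (seg x' y' l') t -
        ∫ s, TE (Box a b y0 R) (seg x y l) (seg x' y' l') s ∂(iidLaw G)| ∂(iidLaw G) ≤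
        C * (Real.sqrt (K ^ 3 * L) +
          Real.sqrt (((L:ℝ) + 1) ^ 9 * (8 * m * (G (Set.Ioi (K / (8 * m)))).toReal) ^ m)) := by
  obtain ⟨C1, hC1, hdv⟩ := exists_dvar_trunc_le hG.h0 hz
  have hM4 := mom_four_two hG.h0 hG.mom
  have hM5 : mom G 5 2 < ⊤ := mom_lt_top hM4 (by norm_num) (by norm_num)
  set M := (mom G 5 2).toReal with hM
  have hPP := iidLaw_prob G
  refine ⟨Real.sqrt C1 + 2 * Real.sqrt M, by positivity, ?_⟩
  intro a b y0 R x x' y y' l l' L g K m hK hm hm2 hml hml'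
  have hK0 : 0 ≤ K := by linarith
  have gab := g.hab
  have gh1 := g.h1
  have gh2 := g.h2
  have ghl := g.hl
  set X := TE (Box a b y0 R) (seg x y l) (seg x' y' l') with hX
  set XK : Environment → ℝ := fun t => X (trunc K t) with hXK
  have hXm : Measurable X := measurable_TE _ _ _
  have hXKm : Measurable XK := hXm.comp (measurable_trunc K)
  have hX2 : MemLp X 2 (iidLaw G) :=
    memLp_TE G hG.h0 hM5 g.hab g.hx g.hx' g.hy g.hy' g.h1 g.h2 g.h3 g.h4 g.hl g.hl'
  have hXi : Integrable X (iidLaw G) := hX2.integrable (by norm_num)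
  have hXKb : ∀ᵐ t ∂(iidLaw G), 0 ≤ XK t ∧ XK t ≤ L * K := by
    filter_upwards [ae_Nn hG.h0] with t ht
    exact ⟨TE_nonneg (trunc_Nn hK0 ht), g.TE_trunc_le hK0 ht⟩
  have hXK2 : MemLp XK 2 (iidLaw G) := by
    refine MemLp.of_bound hXKm.aestronglyMeasurable (L * K) ?_
    filter_upwards [hXKb] with t ht
    rw [Real.norm_of_nonneg ht.1]; exact ht.2
  have hXKi : Integrable XK (iidLaw G) := hXK2.integrable (by norm_num)
  -- variance of the truncated time
  have hvar : ∫ t, |XK t - ∫ s, XK s ∂(iidLaw G)| ∂(iidLaw G) ≤ Real.sqrt C1 * Real.sqrt (K ^ 3 * L) := by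
    refine (abs_dev_le_sqrt hXK2).trans ?_
    rw [← Real.sqrt_mul hC1]
    apply Real.sqrt_le_sqrt
    have h1 := hdv a b y0 R x x' y y' l l' L g K hK
    change dvar (iidLaw G) XK ≤ _ at h1
    rw [dvar_eq hXK2] at h1
    have h2 := (ENNReal.ofReal_le_ofReal_iff (by positivity)).1 h1
    have h3 := variance_nonneg XK (iidLaw G)
    nlinarith
  -- the difference
  have hmR : (0:ℝ) < m := by exact_mod_cast hm
  set lam := K / (8 * m) with hlam
  have hlam0 : 0 ≤ lam := by positivity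
  have hKlam : 8 * m * lam ≤ K := by
    rw [hlam]
    field_simp
    exact le_rfl
  obtain ⟨bad, hbadm, hbad, hbadP⟩ := prob_not_allEnc (a := a) (b := b) (y0 := y0) (R := R)
    (L := L) G (by omega) (by omega) g.hL lam m
  have hSA : ∀ z ∈ seg x y l, InB a b y0 R z := by
    intro z hz
    rw [mem_seg] at hz
    have := g.hx
    have := g.hx'
    unfold InB; omega
  have hSB : ∀ z ∈ seg x' y' l', InB a b y0 R z := by
    intro z hz
    rw [mem_seg] at hz
    have := g.hy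
    have := g.hy'
    have := g.h3
    have := g.h4
    unfold InB; omega
  have hle : ∀ t, XK t ≤ X t := by
    intro t
    obtain ⟨S, hSE, hSc, hSt⟩ := exists_TE g.conn t
    have : X t = ∑ e ∈ S, t e := hSt
    rw [this]
    refine (TE_le hSE hSc _).trans ?_
    exact Finset.sum_le_sum fun e _ => min_le_left _ _
  have hdiff0 : ∀ᵐ t ∂(iidLaw G), t ∉ bad → X t - XK t ≤ 0 := by
    filter_upwards [ae_Nn hG.h0] with t ht hb
    have := TE_trunc (K := K) ht hlam0 hKlam hK0 hm2 (by omega) (hbad t hb) hml hml' hSA hSB g.conn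
    have h2 : X t = XK t := this
    linarith
  have hdiff1 : ∀ᵐ t ∂(iidLaw G), X t - XK t ≤ X t := by
    filter_upwards [hXKb] with t ht
    linarith [ht.1]
  have hsq := lintegral_TE_sq_le G hG.h0 g.hab g.hx g.hx' g.hy g.hy' g.h1 g.h2 g.h3 g.h4 g.hl g.hl'
    g.hL
  have hD := lintegral_bad_le (P := iidLaw G) (D := fun t => X t - XK t) hXm hbadm hdiff1 hdiff0
    hsq hbadP
  set q := (G (Set.Ioi lam)).toReal with hq
  have hDr : ∫ t, (X t - XK t) ∂(iidLaw G) ≤
      Real.sqrt M * Real.sqrt (((L:ℝ) + 1) ^ 9 * (8 * m * q) ^ m) := by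
    have hnn : 0 ≤ᵐ[iidLaw G] fun t => X t - XK t :=
      Filter.Eventually.of_forall fun t => sub_nonneg.2 (hle t)
    have hi1 : Integrable (fun t => X t - XK t) (iidLaw G) := hXi.sub hXKi
    rw [← ofReal_integral_eq_lintegral_ofReal hi1 hnn] at hD
    have hq' : G (Set.Ioi lam) = ENNReal.ofReal q :=
      (ENNReal.ofReal_toReal (measure_ne_top _ _)).symm
    have hM' : mom G 5 2 = ENNReal.ofReal M := (ENNReal.ofReal_toReal hM5.ne).symm
    have hq0 : 0 ≤ q := ENNReal.toReal_nonneg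
    have hM0 : 0 ≤ M := ENNReal.toReal_nonneg
    have e1 : ((L:ℝ≥0∞) ^ (2:ℝ) * (L:ℝ≥0∞) ^ 5 * mom G 5 2) *
        (((L + 1) ^ 2 : ℕ) * (((8 * m : ℕ) : ℝ≥0∞) * G (Set.Ioi lam)) ^ m) ≤
        ENNReal.ofReal (M * (((L:ℝ) + 1) ^ 9 * (8 * m * q) ^ m)) := by
      rw [hq', hM', ENNReal.rpow_two, ← ENNReal.ofReal_natCast, ← ENNReal.ofReal_natCast,
        ← ENNReal.ofReal_natCast, ← ENNReal.ofReal_pow (by positivity),
        ← ENNReal.ofReal_pow (by positivity), ← ENNReal.ofReal_mul (by positivity),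
        ← ENNReal.ofReal_mul (by positivity), ← ENNReal.ofReal_mul (by positivity),
        ← ENNReal.ofReal_pow (by positivity), ← ENNReal.ofReal_mul (by positivity),
        ← ENNReal.ofReal_mul (by positivity)]
      apply ENNReal.ofReal_le_ofReal
      push_cast
      have f1 : (L:ℝ) ^ 2 * (L:ℝ) ^ 5 ≤ ((L:ℝ) + 1) ^ 7 := by
        rw [← pow_add]
        exact pow_le_pow_left₀ (by positivity) (by linarith) 7
      calc (L:ℝ) ^ 2 * (L:ℝ) ^ 5 * M * (((L:ℝ) + 1) ^ 2 * (8 * m * q) ^ m)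
          ≤ ((L:ℝ) + 1) ^ 7 * M * (((L:ℝ) + 1) ^ 2 * (8 * m * q) ^ m) := by gcongr
        _ = _ := by ring
    have e2 := hD.trans (ENNReal.rpow_le_rpow e1 (by norm_num : (0:ℝ) ≤ 1 / 2))
    rw [ENNReal.ofReal_rpow_of_nonneg (by positivity) (by norm_num)] at e2
    have e3 := (ENNReal.ofReal_le_ofReal_iff (by positivity)).1 e2
    rw [← Real.sqrt_eq_rpow, Real.sqrt_mul hM0] at e3
    exact e3
  refine ⟨hXi, ?_⟩
  have hi1 : Integrable (fun t => X t - XK t) (iidLaw G) := hXi.sub hXKi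
  have hi2 : Integrable (fun t => |XK t - ∫ s, XK s ∂(iidLaw G)|) (iidLaw G) :=
    (hXKi.sub (integrable_const _)).abs
  have hS : ∫ t, |X t - ∫ s, X s ∂(iidLaw G)| ∂(iidLaw G) ≤
      ∫ t, ((X t - XK t) + |XK t - ∫ s, XK s ∂(iidLaw G)| +
        ∫ s, (X s - XK s) ∂(iidLaw G)) ∂(iidLaw G) := by
    apply integral_mono_ae
    · exact (hXi.sub (integrable_const _)).abs
    · exact (hi1.add hi2).add (integrable_const _)
    · filter_upwards with t
      have h1 : ∫ s, (X s - XK s) ∂(iidLaw G) = ∫ s, X s ∂(iidLaw G) - ∫ s, XK s ∂(iidLaw G) :=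
        integral_sub hXi hXKi
      have h2 : 0 ≤ ∫ s, (X s - XK s) ∂(iidLaw G) :=
        integral_nonneg fun s => sub_nonneg.2 (hle s)
      have h3 := hle t
      rw [abs_le]
      have h4 := abs_le.1 (le_refl |XK t - ∫ s, XK s ∂(iidLaw G)|)
      constructor
      · linarith [h4.1]
      · linarith [h4.2]
  have hI : ∫ t, ((X t - XK t) + |XK t - ∫ s, XK s ∂(iidLaw G)| +
        ∫ s, (X s - XK s) ∂(iidLaw G)) ∂(iidLaw G) =
      2 * ∫ s, (X s - XK s) ∂(iidLaw G) + ∫ t, |XK t - ∫ s, XK s ∂(iidLaw G)| ∂(iidLaw G) := by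
    have hi12 : Integrable (fun t => X t - XK t + |XK t - ∫ s, XK s ∂(iidLaw G)|) (iidLaw G) :=
      hi1.add hi2
    rw [integral_add hi12 (integrable_const _), integral_add hi1 hi2, integral_const,
      probReal_univ, smul_eq_mul]
    ring
  rw [hI] at hS
  refine hS.trans ?_
  have s1 : 0 ≤ Real.sqrt (K ^ 3 * L) := Real.sqrt_nonneg _
  have s2 : 0 ≤ Real.sqrt (((L:ℝ) + 1) ^ 9 * (8 * m * q) ^ m) := Real.sqrt_nonneg _
  have s3 : 0 ≤ Real.sqrt C1 := Real.sqrt_nonneg _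
  have s4 : 0 ≤ Real.sqrt M := Real.sqrt_nonneg _
  nlinarith [mul_nonneg s3 s2, mul_nonneg s4 s1]

end Crest.Agent.R151.M51
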