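import Mathlib
import Crest.Agent.R151.M51H
import Crest.Agent.R151.U750c

/-!
# R151, block MOM (helper51), part I: (DEV) and the local hypotheses of block (4) for the
general law of S0213
-/

set_option autoImplicit false

open MeasureTheory ProbabilityTheory
open scoped ENNReal
open Crest.ProbabilityR.FirstPassage
open Crest.Agent.R151.K
open Crest.Agent.R151.U (Box seg mem_seg mem_Box_adj TE measurable_TE TE_nonneg TE_le TE_le_walk
  exists_TE len DEV Cheap edge_mem_support)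

namespace Crest.Agent.R151.M51

/-- **(DEV) for the general law.** -/
theorem dev213 {G : Measure ℝ} [IsProbabilityMeasure G] (hG : Law213 G) (hz : G {0} = 0) :
    DEV G := by
  intro C0
  obtain ⟨C1, hC1, hdev⟩ := exists_dev_bound hG hz
  obtain ⟨Ct, hCt, htail⟩ := tail_le (mom_four_two hG.h0 hG.mom)
  set D : ℝ := 2048 * (Ct * Real.sqrt 2048) with hD
  have hD0 : 0 ≤ D := by positivity
  refine ⟨C1 * (Real.sqrt (4 * C0) + Real.sqrt ((4 * C0 + 1) ^ 9 * D ^ 256)), 11, ?_⟩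
  intro k hk a b y0 R x x' y y' l l' hab hba hR hx hx' hy hy' h1 h2 h3 h4 hl hl'
  -- the sizes
  have hlen : 1024 ≤ len k := by
    unfold len
    calc 1024 = 2 ^ 10 := by norm_num
      _ ≤ 2 ^ (15 * k / 16) := Nat.pow_le_pow_right (by norm_num) (by omega)
  set L : ℕ := 4 * C0 * 2 ^ k with hL
  have hLz : (L : ℤ) = 4 * (C0 * 2 ^ k) := by rw [hL]; push_cast; ring
  set K : ℝ := (2:ℝ) ^ ((k:ℝ) / 16) with hK
  have hK1 : 1 ≤ K := Real.one_le_rpow (by norm_num) (by positivity)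
  have hK0 : 0 < K := by linarith
  have g : Geo a b y0 R x x' y y' l l' L := by
    refine ⟨by omega, hx, hx', hy, hy', h1, h2, h3, h4, by omega, by omega, ?_⟩
    rw [hLz]; linarith
  obtain ⟨r1, r2⟩ := hdev a b y0 R x x' y y' l l' L g K 256 hK1 (by norm_num) (by omega)
    (by omega) (by omega)
  refine ⟨r1, r2.trans ?_⟩
  set P : ℝ := (2:ℝ) ^ ((5 / 8 : ℝ) * k) with hP
  have hP0 : 0 < P := by positivity
  have hk0 : (0:ℝ) ≤ k := Nat.cast_nonneg k
  have hP2 : P ^ 2 = (2:ℝ) ^ ((5 / 4 : ℝ) * k) := by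
    rw [hP, ← Real.rpow_natCast, ← Real.rpow_mul (by norm_num)]
    congr 1; push_cast; ring
  have h2k : ((2:ℝ) ^ k) = (2:ℝ) ^ (k:ℝ) := (Real.rpow_natCast _ _).symm
  have hLr : (L:ℝ) = 4 * C0 * (2:ℝ) ^ (k:ℝ) := by rw [hL, ← h2k]; push_cast; ring
  -- first term
  have t1 : Real.sqrt (K ^ 3 * L) ≤ Real.sqrt (4 * C0) * P := by
    rw [← Real.sqrt_sq hP0.le, ← Real.sqrt_mul (by positivity)]
    apply Real.sqrt_le_sqrt
    rw [hP2, hLr]
    have e1 : K ^ 3 * (2:ℝ) ^ (k:ℝ) ≤ (2:ℝ) ^ ((5 / 4 : ℝ) * k) := by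
      rw [hK, ← Real.rpow_natCast, ← Real.rpow_mul (by norm_num), ← Real.rpow_add (by norm_num)]
      apply Real.rpow_le_rpow_of_exponent_le (by norm_num)
      push_cast; nlinarith
    calc K ^ 3 * (4 * C0 * (2:ℝ) ^ (k:ℝ)) = 4 * C0 * (K ^ 3 * (2:ℝ) ^ (k:ℝ)) := by ring
      _ ≤ 4 * C0 * (2:ℝ) ^ ((5 / 4 : ℝ) * k) := by gcongr
  -- second term
  have t2 : Real.sqrt (((L:ℝ) + 1) ^ 9 *
      (8 * (256:ℕ) * (G (Set.Ioi (K / (8 * (256:ℕ))))).toReal) ^ 256) ≤
      Real.sqrt ((4 * C0 + 1) ^ 9 * D ^ 256) * P := by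
    rw [← Real.sqrt_sq hP0.le, ← Real.sqrt_mul (by positivity)]
    apply Real.sqrt_le_sqrt
    rw [hP2]
    have e1 : ((L:ℝ) + 1) ^ 9 ≤ (4 * C0 + 1) ^ 9 * (2:ℝ) ^ (9 * (k:ℝ)) := by
      have f1 : (1:ℝ) ≤ (2:ℝ) ^ (k:ℝ) := Real.one_le_rpow (by norm_num) hk0
      have f2 : (L:ℝ) + 1 ≤ (4 * C0 + 1) * (2:ℝ) ^ (k:ℝ) := by rw [hLr]; linarith
      have f3 : (2:ℝ) ^ (9 * (k:ℝ)) = ((2:ℝ) ^ (k:ℝ)) ^ 9 := by
        rw [← Real.rpow_natCast ((2:ℝ) ^ (k:ℝ)), ← Real.rpow_mul (by norm_num)]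
        congr 1; push_cast; ring
      rw [f3, ← mul_pow]
      exact pow_le_pow_left₀ (by positivity) f2 9
    have e2 : (G (Set.Ioi (K / (8 * (256:ℕ))))).toReal ≤
        Ct * Real.sqrt 2048 * (2:ℝ) ^ (-(k:ℝ) / 32) := by
      have f1 := htail (K / (8 * (256:ℕ))) (by positivity)
      have f2 := ENNReal.toReal_le_of_le_ofReal (by positivity) f1
      refine f2.trans (le_of_eq ?_)
      rw [mul_assoc]
      congr 1
      have f3 : K / (8 * (256:ℕ)) = K / 2048 := by norm_num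
      rw [f3, Real.div_rpow hK0.le (by norm_num), hK, ← Real.rpow_mul (by norm_num),
        Real.sqrt_eq_rpow, div_eq_mul_inv, ← Real.rpow_neg (by norm_num : (0:ℝ) ≤ 2048), mul_comm]
      congr 2
      · norm_num
      · ring
    have e3 : 8 * (256:ℕ) * (G (Set.Ioi (K / (8 * (256:ℕ))))).toReal ≤
        D * (2:ℝ) ^ (-(k:ℝ) / 32) := by
      rw [hD]
      have : (8 * ((256:ℕ):ℝ)) = 2048 := by norm_num
      rw [this]
      nlinarith [e2]
    have e4 : (8 * (256:ℕ) * (G (Set.Ioi (K / (8 * (256:ℕ))))).toReal) ^ 256 ≤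
        D ^ 256 * (2:ℝ) ^ (-8 * (k:ℝ)) := by
      refine (pow_le_pow_left₀ (by positivity) e3 256).trans (le_of_eq ?_)
      rw [mul_pow]
      congr 1
      rw [← Real.rpow_natCast ((2:ℝ) ^ (-(k:ℝ) / 32)), ← Real.rpow_mul (by norm_num)]
      congr 1; push_cast; ring
    calc ((L:ℝ) + 1) ^ 9 * (8 * (256:ℕ) * (G (Set.Ioi (K / (8 * (256:ℕ))))).toReal) ^ 256
        ≤ ((4 * C0 + 1) ^ 9 * (2:ℝ) ^ (9 * (k:ℝ))) * (D ^ 256 * (2:ℝ) ^ (-8 * (k:ℝ))) :=
          mul_le_mul e1 e4 (pow_nonneg (by positivity) _) (by positivity)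
      _ = (4 * C0 + 1) ^ 9 * D ^ 256 * ((2:ℝ) ^ (9 * (k:ℝ)) * (2:ℝ) ^ (-8 * (k:ℝ))) := by ring
      _ ≤ (4 * C0 + 1) ^ 9 * D ^ 256 * (2:ℝ) ^ ((5 / 4 : ℝ) * k) := by
          refine mul_le_mul_of_nonneg_left ?_
            (mul_nonneg (by positivity) (pow_nonneg hD0 _))
          rw [← Real.rpow_add (by norm_num)]
          apply Real.rpow_le_rpow_of_exponent_le (by norm_num)
          nlinarith
  calc C1 * (Real.sqrt (K ^ 3 * L) + Real.sqrt (((L:ℝ) + 1) ^ 9 *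
      (8 * (256:ℕ) * (G (Set.Ioi (K / (8 * (256:ℕ))))).toReal) ^ 256))
      ≤ C1 * (Real.sqrt (4 * C0) * P + Real.sqrt ((4 * C0 + 1) ^ 9 * D ^ 256) * P) := by
        gcongr
    _ = _ := by ring

/-! ### the exponential bound for long cheap paths -/

theorem pei213 {G : Measure ℝ} [IsProbabilityMeasure G] (h0 : G (Set.Iio 0) = 0)
    (hz : G {0} = 0) : ∃ c : ℝ, 0 < c ∧ ∀ (L : ℕ) (x : ℤ × ℤ), 1 ≤ L →
    (iidLaw G) (Cheap c L x) ≤ ENNReal.ofReal ((1 / 2 : ℝ) ^ L) := by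
  obtain ⟨c, hc, hb⟩ := prob_Bad_le' (G := G) h0 hz (δ := 1 / 4) (by norm_num)
  have hP := iidLaw_prob G
  refine ⟨c, hc, fun L x hL => ?_⟩
  have hsub : Cheap c L x ≤ᵐ[iidLaw G] ⋃ n : ℕ, Bad c (L + n) x := by
    filter_upwards [ae_Nn h0] with t ht
    rintro ⟨y, w, hw, hL, hc⟩
    change t ∈ ⋃ n : ℕ, Bad c (L + n) x
    rw [Set.mem_iUnion]
    refine ⟨w.length - L, ?_⟩
    have e : L + (w.length - L) = w.length := by omega
    rw [e]
    by_contra hnb
    exact absurd (cost_ge_of_not_Bad ht hnb w hw.isTrail.edges_nodup le_rfl) (not_le.2 hc)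
  refine (measure_mono_ae hsub).trans ((measure_iUnion_le _).trans ?_)
  have h1 : ∀ n : ℕ, iidLaw G (Bad c (L + n) x) ≤ ENNReal.ofReal ((1 / 4) ^ (L + n)) := by
    intro n
    have := hb (L + n) x
    rw [Measure.real] at this
    exact (ENNReal.le_ofReal_iff_toReal_le (measure_ne_top _ _) (by positivity)).2 this
  refine (ENNReal.tsum_le_tsum h1).trans ?_
  have hsum : Summable fun n : ℕ => ((1:ℝ) / 4) ^ (L + n) := by
    simp only [pow_add]
    exact (summable_geometric_of_lt_one (by norm_num) (by norm_num)).mul_left _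
  rw [← ENNReal.ofReal_tsum_of_nonneg (fun n => by positivity) hsum]
  apply ENNReal.ofReal_le_ofReal
  simp only [pow_add]
  rw [tsum_mul_left, tsum_geometric_of_lt_one (by norm_num) (by norm_num)]
  have e1 : ((1:ℝ) / 4) ^ L = (1 / 2) ^ L * (1 / 2) ^ L := by
    rw [← mul_pow]; norm_num
  have e2 : ((1:ℝ) / 2) ^ L ≤ 1 / 2 := by
    calc ((1:ℝ) / 2) ^ L ≤ (1 / 2) ^ 1 :=
          pow_le_pow_of_le_one (by norm_num) (by norm_num) hL
      _ = 1 / 2 := by norm_num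
  have e3 : (0:ℝ) < (1 / 2) ^ L := by positivity
  rw [e1]
  nlinarith

/-! ### local crossings: three edge-disjoint routes give an integrable time -/

theorem integrable_TE_of_three {G : Measure ℝ} [IsProbabilityMeasure G] (hG : Law213 G)
    (E : Finset (Sym2 (ℤ × ℤ))) (A B : Set (ℤ × ℤ)) (S : Fin 3 → List (Sym2 (ℤ × ℤ)))
    (hS : ∀ i j, i ≠ j → (S i).Disjoint (S j)) (m : ℕ) (hm : ∀ j, (S j).length ≤ m)
    (hle : ∀ t, Nn t → ∀ j, TE E A B t ≤ ((S j).map t).sum) :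
    Integrable (TE E A B) (iidLaw G) := by
  have hP := iidLaw_prob G
  refine ⟨(measurable_TE _ _ _).aestronglyMeasurable, ?_⟩
  have h3 : mom G 3 1 < ⊤ := mom_lt_top (mom_four_two hG.h0 hG.mom) (by norm_num) (by norm_num)
  have h1 := lintegral_min_lists_le G (k := 3) (p := 1) (by norm_num) m S hS hm
  rw [hasFiniteIntegral_iff_norm]
  refine lt_of_le_of_lt ?_ (lt_of_le_of_lt h1 ?_)
  · apply lintegral_mono_ae
    filter_upwards [ae_Nn hG.h0] with t ht
    rw [Real.norm_of_nonneg (TE_nonneg ht), ENNReal.rpow_one]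
    exact le_iInf fun i => ENNReal.ofReal_le_ofReal (hle t ht i)
  · refine ENNReal.mul_lt_top (ENNReal.mul_lt_top ?_ ?_) h3
    · exact ENNReal.rpow_lt_top_of_nonneg (by norm_num) (by simp)
    · exact ENNReal.pow_lt_top (by simp)

/-- version with walks -/
theorem integrable_TE_of_walks {G : Measure ℝ} [IsProbabilityMeasure G] (hG : Law213 G)
    (E : Finset (Sym2 (ℤ × ℤ))) (A B : Set (ℤ × ℤ)) {u v : Fin 3 → ℤ × ℤ}
    (W : ∀ i, squareLattice.Walk (u i) (v i))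
    (hS : ∀ i j, i ≠ j → (W i).edges.Disjoint (W j).edges)
    (hu : ∀ i, u i ∈ A) (hv : ∀ i, v i ∈ B) (hE : ∀ i, ∀ e ∈ (W i).edges, e ∈ E) :
    Integrable (TE E A B) (iidLaw G) := by
  refine integrable_TE_of_three hG E A B (fun i => (W i).edges) hS
    (∑ i, (W i).length) (fun j => ?_) (fun t ht j => ?_)
  · rw [SimpleGraph.Walk.length_edges]
    exact Finset.single_le_sum (f := fun i => (W i).length) (fun _ _ => Nat.zero_le _)
      (Finset.mem_univ j)
  · exact TE_le_walk ht (W j) (hE j) (hu j) (hv j)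

lemma mem_Box_of_support {a b y0 R : ℤ} {u v : ℤ × ℤ} (w : squareLattice.Walk u v)
    (h : ∀ z ∈ w.support, a ≤ z.1 ∧ z.1 < b ∧ y0 - R ≤ z.2 ∧ z.2 ≤ y0 + R) :
    ∀ e ∈ w.edges, e ∈ Box a b y0 R := by
  intro e he
  induction e using Sym2.inductionOn with
  | _ p q =>
    rw [mem_Box_adj (w.adj_of_mem_edges he)]
    have hp := h p (edge_mem_support w he (Sym2.mem_mk_left _ _))
    have hq := h q (edge_mem_support w he (Sym2.mem_mk_right _ _))
    omega

lemma mem_edges_wsw {x y : ℤ × ℤ} {w : squareLattice.Walk x y} {e : Sym2 (ℤ × ℤ)}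
    (h : e ∈ (wsw w).edges) : ∃ f ∈ w.edges, Sym2.map sw f = e := by
  have h' : e ∈ (SimpleGraph.Walk.map sw.toHom w :
      squareLattice.Walk (sw.toHom x) (sw.toHom y)).edges := h
  rw [SimpleGraph.Walk.edges_map, List.mem_map] at h'
  exact h'

lemma mem_support_wsw {x y : ℤ × ℤ} {w : squareLattice.Walk x y} {z : ℤ × ℤ}
    (h : z ∈ (wsw w).support) : ∃ f ∈ w.support, sw f = z := by
  have h' : z ∈ (SimpleGraph.Walk.map sw.toHom w :
      squareLattice.Walk (sw.toHom x) (sw.toHom y)).support := h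
  rw [SimpleGraph.Walk.support_map, List.mem_map] at h'
  exact h'

theorem loc1_213 {G : Measure ℝ} [IsProbabilityMeasure G] (hG : Law213 G) :
    Integrable (TE (Box 0 3 0 3) {(0, 0)} {(0, 1)}) (iidLaw G) := by
  refine integrable_TE_of_walks hG _ _ _ (u := fun _ => (0, 0)) (v := fun _ => (0, 1))
    (fun i => wsw (w3U 0 0 i)) ?_ (fun _ => rfl) (fun _ => rfl) ?_
  · intro i j hij e he he'
    obtain ⟨f, hf, hfe⟩ := mem_edges_wsw he
    obtain ⟨f', hf', hfe'⟩ := mem_edges_wsw he'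
    have : f = f' := Sym2.map.injective sw.injective (hfe.trans hfe'.symm)
    subst this
    exact w3U_disj 0 0 i j hij hf hf'
  · intro i
    apply mem_Box_of_support
    intro z hz
    obtain ⟨z', hz', rfl⟩ := mem_support_wsw hz
    have := w3U_supp 0 0 i z' hz'
    change _ ≤ z'.2 ∧ z'.2 < _ ∧ _ ≤ z'.1 ∧ z'.1 ≤ _
    omega

theorem loc2_213 {G : Measure ℝ} [IsProbabilityMeasure G] (hG : Law213 G) :
    Integrable (TE (Box 0 3 0 3) {(0, 0)} {(1, 0)}) (iidLaw G) := by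
  refine integrable_TE_of_walks hG _ _ _ (u := fun _ => (0, 0)) (v := fun _ => (1, 0))
    (fun i => w3M 0 0 i) (w3M_disj 0 0) (fun _ => rfl) (fun _ => rfl) ?_
  intro i
  apply mem_Box_of_support
  intro z hz
  have := w3M_supp 0 0 i z hz
  omega

/-- three routes from the origin to the column `3` -/
def wX : (i : Fin 3) → squareLattice.Walk (0, 0) ((3, (i:ℤ) - 1) : ℤ × ℤ)
  | 0 => .cons (v := (0, -1)) (adj_iff.2 (by omega)) <|
    .cons (v := (1, -1)) (adj_iff.2 (by omega)) <|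
    .cons (v := (2, -1)) (adj_iff.2 (by omega)) <|
    .cons (adj_iff.2 (by simp)) .nil
  | 1 => .cons (v := (1, 0)) (adj_iff.2 (by omega)) <|
    .cons (v := (2, 0)) (adj_iff.2 (by omega)) <|
    .cons (adj_iff.2 (by simp)) .nil
  | 2 => .cons (v := (0, 1)) (adj_iff.2 (by omega)) <|
    .cons (v := (1, 1)) (adj_iff.2 (by omega)) <|
    .cons (v := (2, 1)) (adj_iff.2 (by omega)) <|
    .cons (adj_iff.2 (by simp)) .nil

theorem loc3_213 {G : Measure ℝ} [IsProbabilityMeasure G] (hG : Law213 G) :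
    Integrable (TE (Box 0 3 0 3) {(0, 0)} (seg 3 (-1) 3)) (iidLaw G) := by
  refine integrable_TE_of_walks hG _ _ _ (u := fun _ => (0, 0)) (v := fun i => (3, (i:ℤ) - 1))
    (fun i => wX i) ?_ (fun _ => rfl) ?_ ?_
  · intro i j hij
    fin_cases i <;> fin_cases j <;>
      first
        | exact absurd rfl hij
        | (simp [wX, List.Disjoint])
  · intro i
    rw [mem_seg]
    have := i.2
    refine ⟨rfl, ?_, ?_⟩ <;> simp only <;> push_cast <;> omega
  · intro i e he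
    fin_cases i <;>
    · simp only [wX, SimpleGraph.Walk.edges_cons, SimpleGraph.Walk.edges_nil, List.mem_cons,
        List.not_mem_nil, or_false] at he
      rcases he with rfl | rfl | rfl | rfl <;>
      · rw [mem_Box_adj (adj_iff.2 (by simp))]
        simp

end Crest.Agent.R151.M51
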