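import Mathlib
import Crest.Agent.R151.M51I
import Crest.Agent.R151.K9c
import Crest.Agent.R151.A565e

/-!
# R151, block MOM (helper51), part J: inputs of part 1 (no corner) for the general law
-/

set_option autoImplicit false

open MeasureTheory ProbabilityTheory Filter
open scoped ENNReal Topology
open Crest.ProbabilityR.FirstPassage
open Crest.Agent.R151.K

namespace Crest.Agent.R151.M51

variable {G : Measure ℝ} [IsProbabilityMeasure G]

lemma edgesIn_sbox_sub (z : ℤ × ℤ) {m : ℤ} (h : m ≤ z.1 - 3) :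
    edgesIn (sbox z 3) ⊆ {e | m ≤ A.eX e} := by
  intro e he
  induction e with
  | h a b =>
    rw [mem_edgesIn] at he
    have h1 := he.1
    have h2 := he.2
    simp only [sbox, Set.mem_ofPred_eq, abs_le] at h1 h2
    rw [Set.mem_ofPred_eq, A.eX_mk]
    omega

/-- the local cost of the search block has a second moment -/
theorem locK_213 (hG : Law213 G) : A.LocK G := by
  have hF := field_cH (G := G) hG
  refine ⟨fun t => cH (-4, 0) t + cH (-3, 0) t + cH (-2, 0) t + cH (-1, 0) t, ?_, ?_, ?_, ?_⟩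
  · exact (((hF.meas _).add (hF.meas _)).add (hF.meas _)).add (hF.meas _)
  · have key : ∀ z : ℤ × ℤ, -8 ≤ z.1 - 3 → DependsOn (cH z) {e | -8 ≤ A.eX e} := by
      intro z hz t t' htt
      exact hF.dep z fun e he => htt e (edgesIn_sbox_sub z hz he)
    intro t t' htt
    have e1 := key (-4, 0) (by norm_num) htt
    have e2 := key (-3, 0) (by norm_num) htt
    have e3 := key (-2, 0) (by norm_num) htt
    have e4 := key (-1, 0) (by norm_num) htt
    simp only [e1, e2, e3, e4]
  · have key : ∀ z : ℤ × ℤ, MemLp (cH z) 2 (iidLaw G) := fun z =>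
      (memLp_two_iff_integrable_sq (hF.meas z).aestronglyMeasurable).2 (hF.sq' z)
    exact ((((key (-4, 0)).add (key (-3, 0))).add (key (-2, 0))).add (key (-1, 0))).integrable_sq
  · filter_upwards [ae_Nn (G := G) hG.h0] with t ht
    have a1 := pt_le_cH ht (-4, 0)
    have a2 := pt_le_cH ht (-3, 0)
    have a3 := pt_le_cH ht (-2, 0)
    have a4 := pt_le_cH ht (-1, 0)
    have t1 := K.pt_triangle ht (-4, 0) (-3, 0) (0, 0)
    have t2 := K.pt_triangle ht (-3, 0) (-2, 0) (0, 0)
    have t3 := K.pt_triangle ht (-2, 0) (-1, 0) (0, 0)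
    have e1 : ((-4, 0) : ℤ × ℤ) + (1, 0) = (-3, 0) := by norm_num
    have e2 : ((-3, 0) : ℤ × ℤ) + (1, 0) = (-2, 0) := by norm_num
    have e3 : ((-2, 0) : ℤ × ℤ) + (1, 0) = (-1, 0) := by norm_num
    have e4 : ((-1, 0) : ℤ × ℤ) + (1, 0) = (0, 0) := by norm_num
    rw [e1] at a1
    rw [e2] at a2
    rw [e3] at a3
    rw [e4] at a4
    linarith

/-- the hypotheses of block (4), from the two shape statements -/
theorem hyp_213 (hG : Law213 G) (hz : G {0} = 0) {al be s a : ℝ}
    (hlow : ∀ x : ℤ × ℤ, al * x.1 + be * x.2 + a * |x.2 - s * x.1| ≤ ET G x)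
    (hup : Tendsto (fun m : ℕ => ET G ((m : ℤ), ⌊s * m⌋) / m) atTop (𝓝 (al + be * s)))
    (ha : 0 < a) : U.Hyp G al be s a where
  h0 := hG.h0
  hI := integrable_pt' hG
  hlow := hlow
  hup := hup
  ha := ha
  loc1 := loc1_213 hG
  loc2 := loc2_213 hG
  loc3 := loc3_213 hG
  pei := pei213 hG.h0 hz
  dev := dev213 hG hz

end Crest.Agent.R151.M51
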