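import Crest.Agent.R151.V3
import Crest.Agent.R151.K1c

/-!
# R151/U750a — passage times in finite edge sets between vertex sets (owner helper750)

`TE E A B t` is the minimum over all subsets `S ⊆ E` which join `A` to `B` of `∑ e ∈ S, t e`.
-/

set_option autoImplicit false

open MeasureTheory Filter
open Crest.ProbabilityR.FirstPassage
open Crest.Agent.R151.K
open Crest.Agent.R151.V (pmin pmin_le exists_pmin measurable_pmin)

namespace Crest.Agent.R151.U

abbrev Pt := ℤ × ℤ
abbrev Edge := Sym2 (ℤ × ℤ)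

/-- `A` and `B` are joined by a walk with all edges in `S`. -/
def Conn (S : Set Edge) (A B : Set Pt) : Prop :=
  ∃ a ∈ A, ∃ b ∈ B, ∃ w : squareLattice.Walk a b, ∀ e ∈ w.edges, e ∈ S

open Classical in
/-- The connecting subsets of `E`. -/
noncomputable def PP (E : Finset Edge) (A B : Set Pt) : Finset (Finset Edge) :=
  E.powerset.filter (fun S => Conn (↑S) A B)

open Classical in
/-- The passage time from `A` to `B` inside `E`. -/
noncomputable def TE (E : Finset Edge) (A B : Set Pt) (t : Environment) : ℝ :=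
  if h : (PP E A B).Nonempty then pmin (PP E A B) h t else 0

lemma mem_PP {E : Finset Edge} {A B : Set Pt} {S : Finset Edge} :
    S ∈ PP E A B ↔ S ⊆ E ∧ Conn (↑S) A B := by
  simp [PP]

lemma Conn.mono {S S' : Set Edge} {A A' B B' : Set Pt} (h : Conn S A B) (hS : S ⊆ S')
    (hA : A ⊆ A') (hB : B ⊆ B') : Conn S' A' B' := by
  obtain ⟨a, ha, b, hb, w, hw⟩ := h
  exact ⟨a, hA ha, b, hB hb, w, fun e he => hS (hw e he)⟩

lemma Conn.symm {S : Set Edge} {A B : Set Pt} (h : Conn S A B) : Conn S B A := by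
  obtain ⟨a, ha, b, hb, w, hw⟩ := h
  refine ⟨b, hb, a, ha, w.reverse, fun e he => hw e ?_⟩
  simpa using he

lemma Conn.trans {S S' : Set Edge} {A C : Set Pt} {b : Pt} (h : Conn S A {b})
    (h' : Conn S' {b} C) : Conn (S ∪ S') A C := by
  obtain ⟨a, ha, b1, hb1, w, hw⟩ := h
  obtain ⟨b2, hb2, c, hc, w', hw'⟩ := h'
  rw [Set.mem_singleton_iff] at hb1 hb2
  subst hb1
  subst hb2
  refine ⟨a, ha, c, hc, w.append w', fun e he => ?_⟩
  rw [SimpleGraph.Walk.edges_append, List.mem_append] at he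
  rcases he with he | he
  · exact Or.inl (hw e he)
  · exact Or.inr (hw' e he)

lemma conn_walk {a b : Pt} (w : squareLattice.Walk a b) {S : Set Edge}
    (hw : ∀ e ∈ w.edges, e ∈ S) {A B : Set Pt} (ha : a ∈ A) (hb : b ∈ B) : Conn S A B :=
  ⟨a, ha, b, hb, w, hw⟩

lemma conn_self {S : Set Edge} {A B : Set Pt} {a : Pt} (ha : a ∈ A) (hb : a ∈ B) : Conn S A B :=
  ⟨a, ha, a, hb, SimpleGraph.Walk.nil, by simp⟩

lemma PP_nonempty {E : Finset Edge} {A B : Set Pt} (h : Conn (↑E) A B) : (PP E A B).Nonempty :=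
  ⟨E, mem_PP.2 ⟨Finset.Subset.refl _, h⟩⟩

lemma TE_eq {E : Finset Edge} {A B : Set Pt} (h : Conn (↑E) A B) (t : Environment) :
    TE E A B t = pmin (PP E A B) (PP_nonempty h) t := by
  unfold TE
  rw [dif_pos (PP_nonempty h)]

lemma TE_eq_fun {E : Finset Edge} {A B : Set Pt} (h : Conn (↑E) A B) :
    TE E A B = pmin (PP E A B) (PP_nonempty h) := by
  funext t
  exact TE_eq h t

lemma TE_le {E S : Finset Edge} {A B : Set Pt} (hS : S ⊆ E) (h : Conn (↑S) A B)
    (t : Environment) : TE E A B t ≤ ∑ e ∈ S, t e := by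
  have hE : Conn (↑E) A B := h.mono (by exact_mod_cast hS) subset_rfl subset_rfl
  rw [TE_eq hE]
  exact pmin_le (mem_PP.2 ⟨hS, h⟩) t

lemma exists_TE {E : Finset Edge} {A B : Set Pt} (h : Conn (↑E) A B) (t : Environment) :
    ∃ S ⊆ E, Conn (↑S) A B ∧ TE E A B t = ∑ e ∈ S, t e := by
  obtain ⟨S, hS, hSt⟩ := exists_pmin (PP E A B) (PP_nonempty h) t
  rw [mem_PP] at hS
  exact ⟨S, hS.1, hS.2, by rw [TE_eq h]; exact hSt⟩

lemma measurable_TE (E : Finset Edge) (A B : Set Pt) : Measurable (TE E A B) := by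
  by_cases h : (PP E A B).Nonempty
  · have : TE E A B = pmin (PP E A B) h := by
      funext t
      unfold TE
      rw [dif_pos h]
    rw [this]
    exact measurable_pmin _ _
  · have : TE E A B = fun _ => 0 := by
      funext t
      unfold TE
      rw [dif_neg h]
    rw [this]
    exact measurable_const

lemma TE_nonneg {E : Finset Edge} {A B : Set Pt} {t : Environment} (ht : Nn t) :
    0 ≤ TE E A B t := by
  by_cases h : (PP E A B).Nonempty
  · unfold TE
    rw [dif_pos h]
    exact Crest.Agent.R151.V.pmin_nonneg ht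
  · unfold TE
    rw [dif_neg h]

lemma sum_edges_le {t : Environment} (ht : Nn t) {a b : Pt} (w : squareLattice.Walk a b) :
    ∑ e ∈ w.edges.toFinset, t e ≤ walkCost t w := by
  unfold walkCost
  induction w.edges with
  | nil => simp
  | cons e l ih =>
    rw [List.toFinset_cons, List.map_cons, List.sum_cons]
    calc ∑ e' ∈ insert e l.toFinset, t e' ≤ t e + ∑ e' ∈ l.toFinset, t e' := by
          by_cases he : e ∈ l.toFinset
          · rw [Finset.insert_eq_of_mem he]
            linarith [ht e]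
          · rw [Finset.sum_insert he]
      _ ≤ _ := by linarith

lemma sum_edges_path {t : Environment} {a b : Pt} (w : squareLattice.Walk a b) (hw : w.IsPath) :
    walkCost t w = ∑ e ∈ w.edges.toFinset, t e := by
  unfold walkCost
  exact (List.sum_toFinset t hw.isTrail.edges_nodup).symm

lemma TE_le_walk {E : Finset Edge} {A B : Set Pt} {t : Environment} (ht : Nn t) {a b : Pt}
    (w : squareLattice.Walk a b) (hw : ∀ e ∈ w.edges, e ∈ E) (ha : a ∈ A) (hb : b ∈ B) :
    TE E A B t ≤ walkCost t w := by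
  refine le_trans (TE_le (S := w.edges.toFinset) ?_ ?_ t) (sum_edges_le ht w)
  · intro e he
    exact hw e (by simpa using he)
  · exact conn_walk w (fun e he => by simpa using he) ha hb

lemma exists_path_of_conn {S : Set Edge} {A B : Set Pt} (h : Conn S A B) :
    ∃ a ∈ A, ∃ b ∈ B, ∃ w : squareLattice.Walk a b, w.IsPath ∧ ∀ e ∈ w.edges, e ∈ S := by
  classical
  obtain ⟨a, ha, b, hb, w, hw⟩ := h
  exact ⟨a, ha, b, hb, w.bypass, w.bypass_isPath, fun e he => hw e (w.edges_bypass_subset_edges he)⟩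

lemma exists_walk_TE {E : Finset Edge} {A B : Set Pt} {t : Environment} (ht : Nn t)
    (h : Conn (↑E) A B) :
    ∃ a ∈ A, ∃ b ∈ B, ∃ w : squareLattice.Walk a b, w.IsPath ∧ (∀ e ∈ w.edges, e ∈ E) ∧
      walkCost t w ≤ TE E A B t := by
  obtain ⟨S, hSE, hS, hSt⟩ := exists_TE h t
  obtain ⟨a, ha, b, hb, w, hw, hwS⟩ := exists_path_of_conn hS
  refine ⟨a, ha, b, hb, w, hw, fun e he => hSE (by exact_mod_cast hwS e he), ?_⟩
  rw [hSt, sum_edges_path w hw]
  exact Finset.sum_le_sum_of_subset_of_nonneg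
    (fun e he => by have := hwS e (by simpa using he); exact_mod_cast this) (fun e _ _ => ht e)

lemma TE_mono {E E' : Finset Edge} {A A' B B' : Set Pt} (hE : E ⊆ E') (hA : A ⊆ A')
    (hB : B ⊆ B') (h : Conn (↑E) A B) (t : Environment) : TE E' A' B' t ≤ TE E A B t := by
  obtain ⟨S, hSE, hS, hSt⟩ := exists_TE h t
  rw [hSt]
  exact TE_le (hSE.trans hE) (hS.mono subset_rfl hA hB) t

lemma TE_trans {E : Finset Edge} {A C : Set Pt} {b : Pt} {t : Environment} (ht : Nn t)
    (h : Conn (↑E) A {b}) (h' : Conn (↑E) {b} C) :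
    TE E A C t ≤ TE E A {b} t + TE E {b} C t := by
  classical
  obtain ⟨S, hSE, hS, hSt⟩ := exists_TE h t
  obtain ⟨S', hSE', hS', hSt'⟩ := exists_TE h' t
  rw [hSt, hSt']
  refine (TE_le (S := S ∪ S') (Finset.union_subset hSE hSE') ?_ t).trans ?_
  · have := hS.trans hS'
    refine this.mono ?_ subset_rfl subset_rfl
    simp
  · rw [← Finset.sum_union_inter]
    have : 0 ≤ ∑ e ∈ S ∩ S', t e := Finset.sum_nonneg fun e _ => ht e
    linarith

lemma pt_le_TE {E : Finset Edge} {a b : Pt} {t : Environment} (ht : Nn t)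
    (h : Conn (↑E) {a} {b}) : passageTime t a b ≤ TE E {a} {b} t := by
  obtain ⟨a', ha, b', hb, w, -, -, hc⟩ := exists_walk_TE ht h
  rw [Set.mem_singleton_iff] at ha hb
  subst ha
  subst hb
  exact (pt_le ht w).trans hc

lemma exists_TE_pt {E : Finset Edge} {A B : Set Pt} {t : Environment} (ht : Nn t)
    (h : Conn (↑E) A B) : ∃ a ∈ A, ∃ b ∈ B, passageTime t a b ≤ TE E A B t := by
  obtain ⟨a, ha, b, hb, w, -, -, hc⟩ := exists_walk_TE ht h
  exact ⟨a, ha, b, hb, (pt_le ht w).trans hc⟩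

/-! ### lattice automorphisms -/

lemma conn_iso (φ : squareLattice ≃g squareLattice) {S : Set Edge} {A B : Set Pt}
    (h : Conn S A B) : Conn (Sym2.map φ '' S) (φ '' A) (φ '' B) := by
  obtain ⟨a, ha, b, hb, w, hw⟩ := h
  refine ⟨φ a, ⟨a, ha, rfl⟩, φ b, ⟨b, hb, rfl⟩, w.map φ.toHom, fun e he => ?_⟩
  rw [SimpleGraph.Walk.edges_map, List.mem_map] at he
  obtain ⟨e', he', rfl⟩ := he
  exact ⟨e', hw e' he', rfl⟩

lemma TE_iso_le (φ : squareLattice ≃g squareLattice) (E : Finset Edge) (A B : Set Pt)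
    (h : Conn (↑E) A B) (t : Environment) :
    TE (E.image (Sym2.map φ)) (φ '' A) (φ '' B) t ≤ TE E A B (act φ t) := by
  classical
  obtain ⟨S, hSE, hS, hSt⟩ := exists_TE h (act φ t)
  rw [hSt]
  refine (TE_le (S := S.image (Sym2.map φ)) (Finset.image_subset_image hSE) ?_ t).trans ?_
  · have := conn_iso φ hS
    rwa [Finset.coe_image]
  · rw [Finset.sum_image (fun x _ y _ hxy => Sym2.map.injective φ.injective hxy)]
    rfl

lemma TE_iso (φ : squareLattice ≃g squareLattice) (E : Finset Edge) (A B : Set Pt)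
    (h : Conn (↑E) A B) (t : Environment) :
    TE (E.image (Sym2.map φ)) (φ '' A) (φ '' B) t = TE E A B (act φ t) := by
  classical
  apply le_antisymm (TE_iso_le φ E A B h t)
  have h1 : Conn (↑(E.image (Sym2.map φ))) (φ '' A) (φ '' B) := by
    have := conn_iso φ h
    rwa [Finset.coe_image]
  have h2 := TE_iso_le φ.symm (E.image (Sym2.map φ)) (φ '' A) (φ '' B) h1 (act φ t)
  have e1 : (E.image (Sym2.map φ)).image (Sym2.map φ.symm) = E := by
    rw [Finset.image_image]
    have : (Sym2.map (⇑φ.symm) ∘ Sym2.map (⇑φ)) = id := by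
      funext e
      rw [Function.comp_apply, Sym2.map_map]
      have : (⇑φ.symm ∘ ⇑φ) = id := by
        funext x
        simp
      rw [this, Sym2.map_id]
    rw [this, Finset.image_id]
  have e2 : ∀ C : Set Pt, φ.symm '' (φ '' C) = C := by
    intro C
    rw [← Set.image_comp]
    have : (⇑φ.symm ∘ ⇑φ) = id := by
      funext x
      simp
    rw [this, Set.image_id]
  have e3 : act φ.symm (act φ t) = t := by
    funext e
    unfold act
    rw [Sym2.map_map]
    have : (⇑φ ∘ ⇑φ.symm) = id := by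
      funext x
      simp
    rw [this, Sym2.map_id]
    rfl
  rw [e1, e2, e2, e3] at h2
  exact h2

end Crest.Agent.R151.U
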