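import Crest.Agent.R151.V4

/-!
# R151, block V5 (helper52): small balls and exponential tails from log-concavity
-/

set_option autoImplicit false
set_option linter.unusedSectionVars false

open MeasureTheory ProbabilityTheory Set Filter
open scoped ENNReal Topology

namespace Crest.Agent.R151.V

variable {Ω : Type*} [MeasurableSpace Ω] {μ : Measure Ω} {X : Ω → ℝ}

/-- interpolation form of log-concavity: `G(a) ≥ G(a0)^(1-θ) G(s)^θ` -/
lemma LC.interp [IsProbabilityMeasure μ] (h : LC μ X) {a0 s a : ℝ} (h0 : a0 < s) (h1 : a0 ≤ a)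
    (h2 : a ≤ s) :
    μ.real {ω | a0 ≤ X ω} ^ (1 - (a - a0) / (s - a0)) * μ.real {ω | s ≤ X ω} ^ ((a - a0) / (s - a0))
      ≤ μ.real {ω | a ≤ X ω} := by
  have hs : 0 < s - a0 := sub_pos.2 h0
  rcases h1.eq_or_lt with rfl | h1
  · simp
  rcases h2.eq_or_lt with rfl | h2
  · rw [div_self hs.ne']; simp
  have ht0 : 0 < (a - a0) / (s - a0) := div_pos (sub_pos.2 h1) hs
  have ht1 : (a - a0) / (s - a0) < 1 := by rw [div_lt_one hs]; linarith
  have := h a0 s _ ht0 ht1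
  have e : (1 - (a - a0) / (s - a0)) * a0 + (a - a0) / (s - a0) * s = a := by
    field_simp
    ring
  rwa [e] at this

/-- (7.1) SMALL BALL BOUND. -/
theorem LC.small_ball [IsProbabilityMeasure μ] (h : LC μ X) (hX : Measurable X) {a0 s a δ q : ℝ}
    (h0 : a0 < s) (h1 : a0 ≤ a) (h2 : a ≤ s) (hδ0 : 0 ≤ δ) (hδ : δ ≤ 1 / 2)
    (hG0 : 1 - δ ≤ μ.real {ω | a0 ≤ X ω}) (hq0 : 0 < q) (hq : q ≤ μ.real {ω | s ≤ X ω}) :
    μ.real {ω | X ω < a} ≤ 2 * δ + (a - a0) / (s - a0) * Real.log (1 / q) := by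
  have hs : 0 < s - a0 := sub_pos.2 h0
  set θ := (a - a0) / (s - a0) with hθ
  have hθ0 : 0 ≤ θ := div_nonneg (sub_nonneg.2 h1) hs.le
  have hθ1 : θ ≤ 1 := by rw [hθ, div_le_one hs]; linarith
  have hcompl : μ.real {ω | X ω < a} = 1 - μ.real {ω | a ≤ X ω} := by
    rw [← probReal_compl_eq_one_sub (measurableSet_le measurable_const hX)]
    congr 1
    ext ω
    simp
  rw [hcompl]
  have h3 := h.interp h0 h1 h2
  rw [← hθ] at h3
  have hd : 0 < 1 - δ := by linarith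
  have h4 : (1 - δ) ^ (1 - θ) * q ^ θ ≤
      μ.real {ω | a0 ≤ X ω} ^ (1 - θ) * μ.real {ω | s ≤ X ω} ^ θ := by
    apply mul_le_mul (Real.rpow_le_rpow hd.le hG0 (by linarith))
      (Real.rpow_le_rpow hq0.le hq hθ0) (Real.rpow_nonneg hq0.le _)
      (Real.rpow_nonneg (hd.le.trans hG0) _)
  have h5 : (1 - δ) ^ (1 - θ) * q ^ θ = Real.exp ((1 - θ) * Real.log (1 - δ) + θ * Real.log q) := by
    rw [Real.exp_add, Real.rpow_def_of_pos hd, Real.rpow_def_of_pos hq0]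
    congr 2 <;> ring
  have h6 : 1 + ((1 - θ) * Real.log (1 - δ) + θ * Real.log q) ≤
      Real.exp ((1 - θ) * Real.log (1 - δ) + θ * Real.log q) := by
    have := Real.add_one_le_exp ((1 - θ) * Real.log (1 - δ) + θ * Real.log q)
    linarith
  have h7 : -(2 * δ) ≤ Real.log (1 - δ) := by
    have h8 := Real.one_sub_inv_le_log_of_pos hd
    have h9 : (1 - δ)⁻¹ ≤ 1 + 2 * δ := by
      rw [inv_le_iff_one_le_mul₀ hd]
      nlinarith
    linarith
  have h10 : (1 - θ) * Real.log (1 - δ) ≥ -(2 * δ) := by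
    have : (1 - θ) * Real.log (1 - δ) ≥ (1 - θ) * -(2 * δ) :=
      mul_le_mul_of_nonneg_left h7 (by linarith)
    nlinarith
  rw [one_div, Real.log_inv]
  linarith

/-- (7.1) for nonnegative `X`: `P (X < κ s) ≤ κ log (1/q)`. -/
theorem LC.small_ball_nonneg [IsProbabilityMeasure μ] (h : LC μ X) (hX : Measurable X)
    (hpos : ∀ᵐ ω ∂μ, 0 ≤ X ω) {s κ q : ℝ}
    (h0 : 0 < s) (h1 : 0 ≤ κ) (h2 : κ ≤ 1) (hq0 : 0 < q) (hq : q ≤ μ.real {ω | s ≤ X ω}) :
    μ.real {ω | X ω < κ * s} ≤ κ * Real.log (1 / q) := by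
  have h3 := h.small_ball hX (a0 := 0) (s := s) (a := κ * s) (δ := 0) (q := q) h0
    (by positivity) (by nlinarith) le_rfl (by norm_num) ?_ hq0 hq
  · have : (κ * s - 0) / (s - 0) = κ := by rw [sub_zero, sub_zero]; field_simp
    rw [this] at h3
    linarith
  · have : μ.real {ω | 0 ≤ X ω} = 1 := by
      rw [← probReal_univ (μ := μ)]
      apply measureReal_congr
      filter_upwards [hpos] with ω hω
      exact propext ⟨fun _ => trivial, fun _ => hω⟩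
    linarith

/-- (7.2) exponential tail: `G(a) ≤ G(a0) (G(t1)/G(a0))^((a-a0)/(t1-a0))`. -/
theorem LC.tail [IsProbabilityMeasure μ] (h : LC μ X) {a0 t1 a : ℝ} (h0 : a0 < t1) (h1 : t1 ≤ a)
    (hG : 0 < μ.real {ω | a0 ≤ X ω}) :
    μ.real {ω | a ≤ X ω} ≤ μ.real {ω | a0 ≤ X ω} *
      (μ.real {ω | t1 ≤ X ω} / μ.real {ω | a0 ≤ X ω}) ^ ((a - a0) / (t1 - a0)) := by
  set G := fun c : ℝ => μ.real {ω | c ≤ X ω} with hGdef
  change G a ≤ G a0 * (G t1 / G a0) ^ ((a - a0) / (t1 - a0))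
  change 0 < G a0 at hG
  have hGn : ∀ c, 0 ≤ G c := fun c => measureReal_nonneg
  have hs : 0 < t1 - a0 := sub_pos.2 h0
  have hs' : 0 < a - a0 := by linarith
  set τ := (t1 - a0) / (a - a0) with hτ
  have hτ0 : 0 < τ := div_pos hs hs'
  have hτi : (a - a0) / (t1 - a0) = τ⁻¹ := by rw [hτ, inv_div]
  have h3 : G a0 ^ (1 - τ) * G a ^ τ ≤ G t1 := h.interp (a := t1) (s := a) (by linarith) h0.le h1
  have h4 : (G a / G a0) ^ τ ≤ G t1 / G a0 := by
    rw [Real.div_rpow (hGn a) (hGn a0), div_le_div_iff₀ (Real.rpow_pos_of_pos hG _) hG]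
    calc G a ^ τ * G a0 = (G a0 ^ (1 - τ) * G a ^ τ) * G a0 ^ τ := by
          have : G a0 ^ (1 - τ) * G a0 ^ τ = G a0 := by
            rw [← Real.rpow_add hG]; simp
          calc G a ^ τ * G a0 = G a ^ τ * (G a0 ^ (1 - τ) * G a0 ^ τ) := by rw [this]
            _ = _ := by ring
      _ ≤ G t1 * G a0 ^ τ := mul_le_mul_of_nonneg_right h3 (Real.rpow_nonneg hG.le _)
  have h5 : G a / G a0 ≤ (G t1 / G a0) ^ τ⁻¹ := by
    have h6 := Real.rpow_le_rpow (Real.rpow_nonneg (div_nonneg (hGn a) hG.le) _) h4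
      (inv_nonneg.2 hτ0.le)
    rwa [← Real.rpow_mul (div_nonneg (hGn a) hG.le), mul_inv_cancel₀ hτ0.ne', Real.rpow_one] at h6
  rw [hτi]
  rw [div_le_iff₀ hG] at h5
  linarith

/-- exponential tail in the form used: `G(a) ≤ ρ^((a-a0)/m)`. -/
theorem LC.tail' [IsProbabilityMeasure μ] (h : LC μ X) {a0 t1 a ρ : ℝ} (h0 : a0 < t1) (h1 : t1 ≤ a)
    (hG : 0 < μ.real {ω | a0 ≤ X ω}) (hρ : μ.real {ω | t1 ≤ X ω} ≤ ρ * μ.real {ω | a0 ≤ X ω}) :
    μ.real {ω | a ≤ X ω} ≤ ρ ^ ((a - a0) / (t1 - a0)) := by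
  refine (h.tail h0 h1 hG).trans ?_
  have h2 : μ.real {ω | t1 ≤ X ω} / μ.real {ω | a0 ≤ X ω} ≤ ρ := by
    rwa [div_le_iff₀ hG]
  have h3 : 0 ≤ μ.real {ω | t1 ≤ X ω} / μ.real {ω | a0 ≤ X ω} :=
    div_nonneg measureReal_nonneg measureReal_nonneg
  have h4 : 0 ≤ (a - a0) / (t1 - a0) := div_nonneg (by linarith) (by linarith)
  calc _ ≤ 1 * (ρ) ^ ((a - a0) / (t1 - a0)) := by
        apply mul_le_mul measureReal_le_one (Real.rpow_le_rpow h3 h2 h4)
          (Real.rpow_nonneg h3 _) zero_le_one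
    _ = _ := one_mul _

/-- expectation of the excess over `x ≥ t1` -/
theorem LC.lintegral_tail [IsProbabilityMeasure μ] (h : LC μ X) (hX : Measurable X)
    {a0 t1 x ρ : ℝ} (h0 : a0 < t1) (h1 : t1 ≤ x)
    (hG : 0 < μ.real {ω | a0 ≤ X ω}) (hρ : μ.real {ω | t1 ≤ X ω} ≤ ρ * μ.real {ω | a0 ≤ X ω})
    (hρ0 : 0 < ρ) (hρ1 : ρ < 1) :
    ∫⁻ ω, ENNReal.ofReal (X ω - x) ∂μ ≤
      ENNReal.ofReal ((t1 - a0) / Real.log (1 / ρ) * ρ ^ ((x - a0) / (t1 - a0))) := by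
  have hm : 0 < t1 - a0 := sub_pos.2 h0
  have hL : 0 < Real.log (1 / ρ) := Real.log_pos (by rw [lt_div_iff₀ hρ0]; linarith)
  have h2 : ∫⁻ ω, ENNReal.ofReal (X ω - x) ∂μ = ∫⁻ ω, ENNReal.ofReal (max (X ω - x) 0) ∂μ := by
    apply lintegral_congr
    intro ω
    rw [ENNReal.ofReal_max]
    simp
  rw [h2, lintegral_eq_lintegral_meas_le μ (f := fun ω => max (X ω - x) 0)
    (Eventually.of_forall fun ω => le_max_right _ _)
    ((hX.sub_const x).max measurable_const).aemeasurable]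
  set c := Real.log (1 / ρ) / (t1 - a0) with hc
  have hc0 : 0 < c := div_pos hL hm
  have h3 : ∀ t ∈ Ioi (0:ℝ), μ {ω | t ≤ max (X ω - x) 0} ≤
      ENNReal.ofReal (Real.exp (-c * (x - a0)) * Real.exp ((-c) * t)) := by
    intro t ht
    have ht : (0:ℝ) < t := ht
    have h4 : {ω | t ≤ max (X ω - x) 0} = {ω | x + t ≤ X ω} := by
      ext ω
      simp only [Set.mem_ofPred_eq, le_max_iff]
      constructor
      · rintro (h | h)
        · linarith
        · linarith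
      · intro h
        left; linarith
    rw [h4, ← ofReal_measureReal (measure_ne_top _ _)]
    apply ENNReal.ofReal_le_ofReal
    refine (h.tail' h0 (a := x + t) (by linarith) hG hρ).trans (le_of_eq ?_)
    rw [Real.rpow_def_of_pos hρ0, ← Real.exp_add]
    congr 1
    rw [hc, one_div, Real.log_inv]
    field_simp
    ring
  calc ∫⁻ t in Ioi (0:ℝ), μ {ω | t ≤ max (X ω - x) 0}
      ≤ ∫⁻ t in Ioi (0:ℝ), ENNReal.ofReal (Real.exp (-c * (x - a0)) * Real.exp ((-c) * t)) :=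
        setLIntegral_mono' measurableSet_Ioi h3
    _ = ENNReal.ofReal (∫ t in Ioi (0:ℝ), Real.exp (-c * (x - a0)) * Real.exp ((-c) * t)) := by
        rw [ofReal_integral_eq_lintegral_ofReal]
        · exact (integrableOn_exp_mul_Ioi (by linarith) 0).const_mul _
        · exact Eventually.of_forall fun t => by positivity
    _ = _ := by
        rw [integral_const_mul, integral_exp_mul_Ioi (by linarith) 0]
        congr 1
        rw [Real.rpow_def_of_pos hρ0, mul_zero, Real.exp_zero]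
        have h6 : Real.exp (-c * (x - a0)) = Real.exp (Real.log ρ * ((x - a0) / (t1 - a0))) := by
          congr 1
          rw [hc, one_div, Real.log_inv]
          field_simp
        rw [h6, hc, neg_div_neg_eq, one_div_div]
        ring

/-- (7.2) for a perturbed variable: `P (Z ≤ t) ≥ q`, `Z ≥ 0` and `|Z - X| ≤ d` up to probability
`δ ≤ q/4`. -/
lemma pert_ratio [IsProbabilityMeasure μ] (hX : Measurable X) {Z : Ω → ℝ} {d δ t q : ℝ}
    (hd : 0 < d) (hδ : δ ≤ q / 4) (hq1 : q ≤ 1)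
    (hE : μ.real {ω | ¬ (|Z ω - X ω| ≤ d ∧ 0 ≤ Z ω)} ≤ δ)
    (hZ : q ≤ μ.real {ω | Z ω ≤ t}) :
    0 < μ.real {ω | -d ≤ X ω} ∧
      μ.real {ω | t + 2 * d ≤ X ω} ≤ (1 - q / 2) * μ.real {ω | -d ≤ X ω} := by
  have hcompl : ∀ c : ℝ, μ.real {ω | c ≤ X ω} = 1 - μ.real {ω | X ω < c} := by
    intro c
    rw [← probReal_compl_eq_one_sub (measurableSet_lt hX measurable_const)]
    congr 1
    ext ω
    simp
  have h1 : 1 - δ ≤ μ.real {ω | -d ≤ X ω} := by
    rw [hcompl]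
    have : μ.real {ω | X ω < -d} ≤ μ.real {ω | ¬ (|Z ω - X ω| ≤ d ∧ 0 ≤ Z ω)} := by
      apply measureReal_mono _ (measure_ne_top _ _)
      intro ω hω
      simp only [Set.mem_ofPred_eq] at hω ⊢
      rintro ⟨h1, h2⟩
      rw [abs_le] at h1
      linarith [h1.1, h1.2]
    linarith
  have h2 : μ.real {ω | t + 2 * d ≤ X ω} ≤ 1 - q + δ := by
    rw [hcompl]
    have h3 : μ.real {ω | Z ω ≤ t} ≤ μ.real {ω | X ω < t + 2 * d} +
        μ.real {ω | ¬ (|Z ω - X ω| ≤ d ∧ 0 ≤ Z ω)} := by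
      refine (measureReal_mono ?_ (measure_ne_top _ _)).trans (measureReal_union_le _ _)
      intro ω hω
      simp only [Set.mem_union, Set.mem_ofPred_eq] at hω ⊢
      by_contra hcon
      push Not at hcon
      obtain ⟨h4, h5, h6⟩ := hcon
      rw [abs_le] at h5
      linarith [h5.1, h5.2]
    linarith
  refine ⟨by linarith, h2.trans ?_⟩
  have h4 : (1 - q / 2) * (1 - δ) ≤ (1 - q / 2) * μ.real {ω | -d ≤ X ω} :=
    mul_le_mul_of_nonneg_left h1 (by linarith)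
  nlinarith [h4, sq_nonneg q]

/-- (7.2) tail for the perturbed variable -/
theorem LC.pert_tail [IsProbabilityMeasure μ] (h : LC μ X) (hX : Measurable X) {Z : Ω → ℝ}
    {d δ t q a : ℝ} (hd : 0 < d) (ht : 0 ≤ t) (hδ : δ ≤ q / 4) (hq1 : q ≤ 1)
    (hE : μ.real {ω | ¬ (|Z ω - X ω| ≤ d ∧ 0 ≤ Z ω)} ≤ δ)
    (hZ : q ≤ μ.real {ω | Z ω ≤ t}) (ha : t + 3 * d ≤ a) :
    μ.real {ω | a ≤ Z ω} ≤ δ + (1 - q / 2) ^ (a / (t + 3 * d)) := by
  obtain ⟨h1, h2⟩ := pert_ratio hX hd hδ hq1 hE hZ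
  have h3 := h.tail' (a0 := -d) (t1 := t + 2 * d) (a := a - d) (by linarith) (by linarith) h1 h2
  have e1 : (a - d - -d) / (t + 2 * d - -d) = a / (t + 3 * d) := by congr 1 <;> ring
  rw [e1] at h3
  have h4 : μ.real {ω | a ≤ Z ω} ≤ μ.real {ω | ¬ (|Z ω - X ω| ≤ d ∧ 0 ≤ Z ω)} +
      μ.real {ω | a - d ≤ X ω} := by
    refine (measureReal_mono ?_ (measure_ne_top _ _)).trans (measureReal_union_le _ _)
    intro ω hω
    simp only [Set.mem_union, Set.mem_ofPred_eq] at hω ⊢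
    by_contra hcon
    push Not at hcon
    obtain ⟨⟨h5, h6⟩, h7⟩ := hcon
    rw [abs_le] at h5
    linarith [h5.1, h5.2]
  linarith

/-- (7.2) tail integral of `X` when the perturbed variable has `P (Z ≤ t) ≥ q` -/
theorem LC.pert_lintegral [IsProbabilityMeasure μ] (h : LC μ X) (hX : Measurable X) {Z : Ω → ℝ}
    {d δ t q x : ℝ} (hd : 0 < d) (ht : 0 ≤ t) (hδ : δ ≤ q / 4) (hq0 : 0 < q) (hq1 : q ≤ 1)
    (hE : μ.real {ω | ¬ (|Z ω - X ω| ≤ d ∧ 0 ≤ Z ω)} ≤ δ)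
    (hZ : q ≤ μ.real {ω | Z ω ≤ t}) (hx : t + 2 * d ≤ x) :
    ∫⁻ ω, ENNReal.ofReal (X ω - x) ∂μ ≤
      ENNReal.ofReal ((t + 3 * d) * (2 / q) * (1 - q / 2) ^ ((x + d) / (t + 3 * d))) := by
  obtain ⟨h1, h2⟩ := pert_ratio hX hd hδ hq1 hE hZ
  have h3 := h.lintegral_tail hX (a0 := -d) (t1 := t + 2 * d) (x := x) (by linarith) hx h1 h2
    (by linarith) (by linarith)
  refine h3.trans (ENNReal.ofReal_le_ofReal ?_)
  have e1 : t + 2 * d - -d = t + 3 * d := by ring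
  have e2 : x - -d = x + d := by ring
  rw [e1, e2]
  apply mul_le_mul_of_nonneg_right _ (Real.rpow_nonneg (by linarith) _)
  rw [div_eq_mul_inv]
  apply mul_le_mul_of_nonneg_left _ (by linarith)
  have hρ : (0:ℝ) < 1 - q / 2 := by linarith
  have h4 : q / 2 ≤ Real.log (1 / (1 - q / 2)) := by
    rw [one_div, Real.log_inv]
    have := Real.log_le_sub_one_of_pos hρ
    linarith
  calc (Real.log (1 / (1 - q / 2)))⁻¹ ≤ (q / 2)⁻¹ := by
        apply inv_anti₀ (by linarith) h4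
    _ = 2 / q := by rw [inv_div]

/-- (7.2) mean of the perturbed variable: `E Z ≤ E |Z - X| + (4/q) (t + 3 d)`. -/
theorem LC.pert_mean [IsProbabilityMeasure μ] (h : LC μ X) (hX : Measurable X) {Z : Ω → ℝ}
    (hZm : Measurable Z) {d δ t q : ℝ} (hd : 0 < d) (ht : 0 ≤ t) (hδ : δ ≤ q / 4) (hq0 : 0 < q)
    (hq1 : q ≤ 1) (hE : μ.real {ω | ¬ (|Z ω - X ω| ≤ d ∧ 0 ≤ Z ω)} ≤ δ)
    (hZ : q ≤ μ.real {ω | Z ω ≤ t}) :
    ∫⁻ ω, ENNReal.ofReal (Z ω) ∂μ ≤
      ∫⁻ ω, ENNReal.ofReal |Z ω - X ω| ∂μ + ENNReal.ofReal ((4 / q) * (t + 3 * d)) := by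
  have h1 := h.pert_lintegral hX hd ht hδ hq0 hq1 hE hZ (x := t + 2 * d) le_rfl
  have h2 : ∀ ω, ENNReal.ofReal (Z ω) ≤ ENNReal.ofReal |Z ω - X ω| +
      (ENNReal.ofReal (X ω - (t + 2 * d)) + ENNReal.ofReal (t + 2 * d)) := by
    intro ω
    have h3 : Z ω ≤ |Z ω - X ω| + (max (X ω - (t + 2 * d)) 0 + (t + 2 * d)) := by
      have := le_abs_self (Z ω - X ω)
      have := le_max_left (X ω - (t + 2 * d)) 0
      linarith
    calc ENNReal.ofReal (Z ω) ≤ ENNReal.ofReal (|Z ω - X ω| +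
          (max (X ω - (t + 2 * d)) 0 + (t + 2 * d))) := ENNReal.ofReal_le_ofReal h3
      _ = _ := by
          rw [ENNReal.ofReal_add (abs_nonneg _) (by positivity),
            ENNReal.ofReal_add (le_max_right _ _) (by positivity), ENNReal.ofReal_max]
          simp
  calc ∫⁻ ω, ENNReal.ofReal (Z ω) ∂μ
      ≤ ∫⁻ ω, (ENNReal.ofReal |Z ω - X ω| +
      (ENNReal.ofReal (X ω - (t + 2 * d)) + ENNReal.ofReal (t + 2 * d))) ∂μ := lintegral_mono h2
    _ = ∫⁻ ω, ENNReal.ofReal |Z ω - X ω| ∂μ +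
        (∫⁻ ω, ENNReal.ofReal (X ω - (t + 2 * d)) ∂μ + ENNReal.ofReal (t + 2 * d)) := by
        rw [lintegral_add_left (by fun_prop), lintegral_add_left (by fun_prop)]
        simp
    _ ≤ ∫⁻ ω, ENNReal.ofReal |Z ω - X ω| ∂μ +
        (ENNReal.ofReal ((t + 3 * d) * (2 / q) * (1 - q / 2) ^ ((t + 2 * d + d) / (t + 3 * d)))
          + ENNReal.ofReal (t + 2 * d)) := by gcongr
    _ ≤ _ := by
        gcongr
        rw [← ENNReal.ofReal_add]
        · apply ENNReal.ofReal_le_ofReal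
          have e1 : (t + 2 * d + d) / (t + 3 * d) = 1 := by
            rw [show t + 2 * d + d = t + 3 * d by ring]
            exact div_self (by linarith)
          rw [e1, Real.rpow_one]
          have h5 : 0 < t + 3 * d := by linarith
          have h6 : 0 < 2 / q := by positivity
          have h7 : (t + 3 * d) * (2 / q) * (1 - q / 2) = (t + 3 * d) * (2 / q) - (t + 3 * d) := by
            field_simp
          rw [h7]
          have h8 : 4 / q * (t + 3 * d) = 2 * ((t + 3 * d) * (2 / q)) := by ring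
          rw [h8]
          nlinarith [mul_pos h5 h6]
        · have : (0:ℝ) ≤ 1 - q / 2 := by linarith
          positivity
        · linarith

/-- (7.1) for a perturbed variable: `P (Z ≥ t) ≥ q + δ`, `Z ≥ 0` and `|Z - X| ≤ d` up to
probability `δ ≤ 1/2`: then `P (Z < a) ≤ 3 δ + (a + 2 d)/t log (1/q)`. -/
theorem LC.pert_small_ball [IsProbabilityMeasure μ] (h : LC μ X) (hX : Measurable X) {Z : Ω → ℝ}
    {d δ t q a : ℝ} (hd : 0 ≤ d) (ht : 0 < t) (ha0 : 0 ≤ a) (ha : a + 2 * d ≤ t)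
    (hδ : δ ≤ 1 / 2) (hq0 : 0 < q)
    (hE : μ.real {ω | ¬ (|Z ω - X ω| ≤ d ∧ 0 ≤ Z ω)} ≤ δ)
    (hZ : q + δ ≤ μ.real {ω | t ≤ Z ω}) :
    μ.real {ω | Z ω < a} ≤ 3 * δ + (a + 2 * d) / t * Real.log (1 / q) := by
  have hcompl : ∀ c : ℝ, μ.real {ω | c ≤ X ω} = 1 - μ.real {ω | X ω < c} := by
    intro c
    rw [← probReal_compl_eq_one_sub (measurableSet_lt hX measurable_const)]
    congr 1
    ext ω
    simp
  have hδ0 : 0 ≤ δ := measureReal_nonneg.trans hE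
  have h1 : 1 - δ ≤ μ.real {ω | -d ≤ X ω} := by
    rw [hcompl]
    have : μ.real {ω | X ω < -d} ≤ μ.real {ω | ¬ (|Z ω - X ω| ≤ d ∧ 0 ≤ Z ω)} := by
      apply measureReal_mono _ (measure_ne_top _ _)
      intro ω hω
      simp only [Set.mem_ofPred_eq] at hω ⊢
      rintro ⟨h1, h2⟩
      rw [abs_le] at h1
      linarith [h1.1, h1.2]
    linarith
  have h2 : q ≤ μ.real {ω | t - d ≤ X ω} := by
    have h3 : μ.real {ω | t ≤ Z ω} ≤ μ.real {ω | t - d ≤ X ω} +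
        μ.real {ω | ¬ (|Z ω - X ω| ≤ d ∧ 0 ≤ Z ω)} := by
      refine (measureReal_mono ?_ (measure_ne_top _ _)).trans (measureReal_union_le _ _)
      intro ω hω
      simp only [Set.mem_union, Set.mem_ofPred_eq] at hω ⊢
      by_contra hcon
      push Not at hcon
      obtain ⟨h4, h5, h6⟩ := hcon
      rw [abs_le] at h5
      linarith [h5.1, h5.2]
    linarith
  have h3 : μ.real {ω | Z ω < a} ≤ μ.real {ω | X ω < a + d} +
      μ.real {ω | ¬ (|Z ω - X ω| ≤ d ∧ 0 ≤ Z ω)} := by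
    refine (measureReal_mono ?_ (measure_ne_top _ _)).trans (measureReal_union_le _ _)
    intro ω hω
    simp only [Set.mem_union, Set.mem_ofPred_eq] at hω ⊢
    by_contra hcon
    push Not at hcon
    obtain ⟨h4, h5, h6⟩ := hcon
    rw [abs_le] at h5
    linarith [h5.1, h5.2]
  have h4 := h.small_ball hX (a0 := -d) (s := t - d) (a := a + d) (δ := δ) (q := q)
    (by linarith) (by linarith) (by linarith) hδ0 hδ h1 hq0 h2
  have e1 : (a + d - -d) / (t - d - -d) = (a + 2 * d) / t := by congr 1 <;> ring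
  rw [e1] at h4
  linarith

end Crest.Agent.R151.V
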