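import Mathlib
import Crest.Agent.R151.R78F
import Crest.Agent.R151.V5
import Crest.Agent.R151.K2b
import Crest.Agent.R151.E39a
import Crest.Agent.R151.M192a
import Crest.Agent.R151.U750a

/-!
# R151, block R7 (helper51): conditioning on the strips

* `LC_ciInf`: countable minima of `constant + sum of i.i.d. exponential weights` have a log-concave
  survival function;
* `hull_glue`: with the highways and the edges of `E0` fixed, the hull cost is such a minimum in the
  remaining edges; `LC_hull`, `measurable_hull_glue`;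
* `mp_glue_param`: resampling off a random (parameter dependent) set of edges preserves the law.
-/

set_option autoImplicit false

open MeasureTheory ProbabilityTheory Filter
open scoped ENNReal Topology
open Crest.ProbabilityR.FirstPassage
open Crest.Agent.R151.K
open Crest.Agent.R151.E39 (glue glue_of_mem glue_of_notMem measurable_glue mp_glue)

namespace Crest.Agent.R151.M51

/-! ### Log-concavity of countable minima -/

lemma LC.congr_ae {Ω : Type*} [MeasurableSpace Ω] {μ : Measure Ω} {X Y : Ω → ℝ}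
    (h : V.LC μ X) (hXY : X =ᵐ[μ] Y) : V.LC μ Y := by
  intro a b t ht0 ht1
  have key : ∀ c : ℝ, μ.real {ω | c ≤ Y ω} = μ.real {ω | c ≤ X ω} := by
    intro c
    apply measureReal_congr
    filter_upwards [hXY] with ω hω
    apply propext
    change (c ≤ Y ω) ↔ (c ≤ X ω)
    rw [hω]
  rw [key, key, key]
  exact h a b t ht0 ht1

/-- running minimum -/
noncomputable def fmin (f : ℕ → ℝ) : ℕ → ℝ
  | 0 => f 0
  | n + 1 => min (fmin f n) (f (n + 1))

lemma fmin_le {f : ℕ → ℝ} {k n : ℕ} (h : k ≤ n) : fmin f n ≤ f k := by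
  induction n with
  | zero => obtain rfl : k = 0 := by omega
            exact le_rfl
  | succ n ih =>
    rcases Nat.lt_or_ge k (n + 1) with hk | hk
    · exact (min_le_left _ _).trans (ih (by omega))
    · obtain rfl : k = n + 1 := by omega
      exact min_le_right _ _

lemma le_fmin {f : ℕ → ℝ} {a : ℝ} {n : ℕ} (h : ∀ k, k ≤ n → a ≤ f k) : a ≤ fmin f n := by
  induction n with
  | zero => exact h 0 le_rfl
  | succ n ih => exact le_min (ih fun k hk => h k (by omega)) (h _ le_rfl)

lemma fmin_anti (f : ℕ → ℝ) : Antitone (fmin f) :=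
  antitone_nat_of_succ_le fun _ => min_le_left _ _

lemma fmin_congr {f g : ℕ → ℝ} {n : ℕ} (h : ∀ k, k ≤ n → f k = g k) : fmin f n = fmin g n := by
  induction n with
  | zero => exact h 0 le_rfl
  | succ n ih =>
    change min (fmin f n) (f (n + 1)) = min (fmin g n) (g (n + 1))
    rw [ih fun k hk => h k (by omega), h _ le_rfl]

lemma measurable_fmin {Ω : Type*} [MeasurableSpace Ω] {f : ℕ → Ω → ℝ} (hf : ∀ n, Measurable (f n))
    (n : ℕ) : Measurable fun x => fmin (fun k => f k x) n := by
  induction n with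
  | zero => exact hf 0
  | succ n ih => exact ih.min (hf _)

lemma concaveOn_fmin {ι : Type*} [Fintype ι] (c : ℕ → ℝ) (S : ℕ → Finset ι) (O : Set (ι → ℝ))
    (hO : Convex ℝ O) (n : ℕ) :
    ConcaveOn ℝ O (fun y : ι → ℝ => fmin (fun k => c k + ∑ e ∈ S k, y e) n) := by
  have base : ∀ k, ConcaveOn ℝ O (fun y : ι → ℝ => c k + ∑ e ∈ S k, y e) := by
    intro k
    have := V.concaveOn_inf' ({k} : Finset ℕ) (Finset.singleton_nonempty k) c S O hO
    simpa only [Finset.inf'_singleton] using this
  induction n with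
  | zero => exact base 0
  | succ n ih => exact ih.inf (base _)

lemma sum_restrict {I : Type*} [DecidableEq I] (s T : Finset I) (hT : T ⊆ s) (x : I → ℝ) :
    ∑ e ∈ s.attach.filter (fun e => e.1 ∈ T), x e.1 = ∑ e ∈ T, x e := by
  rw [Finset.sum_filter, Finset.sum_attach s (fun e => if e ∈ T then x e else 0),
    ← Finset.sum_filter]
  congr 1
  ext e
  rw [Finset.mem_filter]
  exact ⟨fun h => h.2, fun h => ⟨hT h, h⟩⟩

lemma LC_finMin {I : Type*} {r : ℝ} (hr : 0 < r) (c : ℕ → ℝ) (S : ℕ → Finset I) (n : ℕ) :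
    V.LC (Measure.infinitePi fun _ : I => gammaMeasure 1 r)
      (fun x => fmin (fun k => c k + ∑ e ∈ S k, x e) n) := by
  classical
  obtain ⟨s, hs⟩ : ∃ s : Finset I, s = (Finset.range (n + 1)).biUnion S := ⟨_, rfl⟩
  have hsub : ∀ k, k ≤ n → S k ⊆ s := fun k hk => by
    rw [hs]
    exact Finset.subset_biUnion_of_mem S (by rw [Finset.mem_range]; omega)
  obtain ⟨F, hF⟩ : ∃ F : (s → ℝ) → ℝ, F = fun y =>
    fmin (fun k => c k + ∑ e ∈ s.attach.filter (fun e => e.1 ∈ S k), y e) n := ⟨_, rfl⟩
  have hFm : Measurable F := by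
    rw [hF]
    exact measurable_fmin (f := fun k (y : s → ℝ) =>
      c k + ∑ e ∈ s.attach.filter (fun e => e.1 ∈ S k), y e) (fun k => measurable_const.add
      (Finset.measurable_sum _ fun e _ => measurable_pi_apply e)) n
  have hFc : ConcaveOn ℝ {y : s → ℝ | ∀ i, 0 ≤ y i} F := by
    rw [hF]
    have := concaveOn_fmin (ι := s) c (fun k => s.attach.filter (fun e => e.1 ∈ S k))
      {y : s → ℝ | ∀ i, 0 ≤ y i} (V.convex_orthant s) n
    exact this
  have h := V.LC_infinitePi (I := I) hr s hFm hFc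
  refine LC.congr_ae h (Filter.Eventually.of_forall fun x => ?_)
  change F (s.restrict x) = _
  rw [hF]
  apply fmin_congr
  intro k hk
  exact congrArg (fun z => c k + z) (sum_restrict s (S k) (hsub k hk) x)

/-- countable minima of `constant + sum of weights` are log-concave -/
theorem LC_ciInf {I : Type*} {r : ℝ} (hr : 0 < r) (c : ℕ → ℝ) (S : ℕ → Finset I)
    (hc : BddBelow (Set.range c)) :
    V.LC (Measure.infinitePi fun _ : I => gammaMeasure 1 r)
      (fun x => ⨅ n, (c n + ∑ e ∈ S n, x e)) := by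
  classical
  have hγ := isProbabilityMeasure_gammaMeasure zero_lt_one hr
  obtain ⟨m, hm⟩ := hc
  set N : Set (I → ℝ) := {x | ∀ n, ∀ e ∈ S n, 0 ≤ x e} with hN
  have hNm : MeasurableSet N := by
    have : N = ⋂ n, ⋂ e ∈ S n, {x : I → ℝ | 0 ≤ x e} := by
      ext x; simp [hN]
    rw [this]
    refine MeasurableSet.iInter fun n => Finset.measurableSet_biInter _ fun e _ => ?_
    exact measurableSet_le measurable_const (measurable_pi_apply e)
  have hNae : ∀ᵐ x ∂(Measure.infinitePi fun _ : I => gammaMeasure 1 r), x ∈ N := by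
    have h1 : ∀ e : I, ∀ᵐ x ∂(Measure.infinitePi fun _ : I => gammaMeasure 1 r), 0 ≤ x e := by
      intro e
      have h2 : ∀ᵐ y ∂(gammaMeasure 1 r), (0:ℝ) ≤ y := by
        have h3 : gammaMeasure 1 r (Set.Iio 0) = 0 := K.gamma_Iio 1 r
        rw [ae_iff]
        convert h3 using 2
        ext y; simp
      have hmp := measurePreserving_eval_infinitePi (fun _ : I => gammaMeasure 1 r) e
      exact hmp.quasiMeasurePreserving.ae h2
    have h2 : ∀ᵐ x ∂(Measure.infinitePi fun _ : I => gammaMeasure 1 r),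
        ∀ n, ∀ e ∈ S n, 0 ≤ x e := by
      rw [ae_all_iff]
      intro n
      rw [Finset.eventually_all]
      exact fun e _ => h1 e
    exact h2
  set Z : ℕ → (I → ℝ) → ℝ := fun n x => fmin (fun k => c k + ∑ e ∈ S k, x e) n with hZ
  have hZm : ∀ n, Measurable (Z n) := fun n => measurable_fmin (fun k => measurable_const.add
    (Finset.measurable_sum _ fun e _ => measurable_pi_apply e)) n
  have hlow : ∀ x ∈ N, ∀ k, m ≤ c k + ∑ e ∈ S k, x e := by
    intro x hx k
    have h1 : m ≤ c k := hm ⟨k, rfl⟩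
    have h2 : 0 ≤ ∑ e ∈ S k, x e := Finset.sum_nonneg fun e he => hx k e he
    linarith
  have hmain : V.LC (Measure.infinitePi fun _ : I => gammaMeasure 1 r)
      (N.indicator fun x => ⨅ n, (c n + ∑ e ∈ S n, x e)) := by
    refine V.LC.of_antitone (Y := fun n => N.indicator (Z n)) (fun n => (hZm n).indicator hNm)
      (fun n => ?_) ?_ ?_
    · refine LC.congr_ae (LC_finMin hr c S n) ?_
      filter_upwards [hNae] with x hx
      rw [Set.indicator_of_mem hx]
    · intro x n n' hn
      by_cases hx : x ∈ N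
      · simp only [Set.indicator_of_mem hx]
        exact fmin_anti _ hn
      · simp only [Set.indicator_of_notMem hx]
        exact le_rfl
    · intro x
      by_cases hx : x ∈ N
      · simp only [Set.indicator_of_mem hx]
        have hanti : Antitone fun n => Z n x := fmin_anti _
        have hbd : BddBelow (Set.range fun n => Z n x) := by
          refine ⟨m, ?_⟩
          rintro _ ⟨n, rfl⟩
          exact le_fmin fun k _ => hlow x hx k
        have heq : ⨅ n, Z n x = ⨅ n, (c n + ∑ e ∈ S n, x e) := by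
          have hbd' : BddBelow (Set.range fun n => c n + ∑ e ∈ S n, x e) := by
            refine ⟨m, ?_⟩
            rintro _ ⟨n, rfl⟩
            exact hlow x hx n
          apply le_antisymm
          · refine le_ciInf fun n => (ciInf_le hbd n).trans ?_
            exact fmin_le (f := fun k => c k + ∑ e ∈ S k, x e) le_rfl
          · exact le_ciInf fun n => le_fmin fun k _ => ciInf_le hbd' k
        rw [← heq]
        exact tendsto_atTop_ciInf hanti hbd
      · simp only [Set.indicator_of_notMem hx]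
        exact tendsto_const_nhds
  refine LC.congr_ae hmain ?_
  filter_upwards [hNae] with x hx
  rw [Set.indicator_of_mem hx]

/-! ### Hull costs with fixed highways -/

section hull

open Crest.Agent.R151.R78 (Wk IsHwy hc stepc hull routes IsOpen hc_mono)
open Crest.Agent.R151.U (sum_edges_path)

variable {H H' : ℤ → ℤ × ℤ} {A : Set (ℤ × ℤ)} {i j : ℤ} {E0 : Set (Sym2 (ℤ × ℤ))}
  {t t2 : Environment}

lemma stepc_glue (hH : ∀ k, s(H k, H (k + 1)) ∈ E0) (k : ℤ) :
    stepc (glue E0 t t2) H k = stepc t H k := by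
  unfold stepc
  exact glue_of_mem (hH k)

/-- the potential of a highway does not change -/
lemma hc_glue (hH : ∀ k, s(H k, H (k + 1)) ∈ E0) : hc (glue E0 t t2) H = hc t H := by
  funext k
  rcases k with n | n
  · change ∑ k ∈ Finset.range n, stepc (glue E0 t t2) H k = ∑ k ∈ Finset.range n, stepc t H k
    exact Finset.sum_congr rfl fun k _ => stepc_glue hH k
  · change -∑ k ∈ Finset.range (n + 1), stepc (glue E0 t t2) H (-(k : ℤ) - 1) =
      -∑ k ∈ Finset.range (n + 1), stepc t H (-(k : ℤ) - 1)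
    rw [Finset.sum_congr rfl fun k _ => stepc_glue hH _]

lemma glue_Nn (ht : Nn t) (ht2 : Nn t2) : Nn (glue E0 t t2) := by
  intro e
  by_cases h : e ∈ E0
  · rw [glue_of_mem h]; exact ht e
  · rw [glue_of_notMem h]; exact ht2 e

open Classical in
/-- cost of a path: fixed part plus free part -/
lemma walkCost_glue {x y : ℤ × ℤ} (g : Wk x y) (hg : g.IsPath) :
    walkCost (glue E0 t t2) g = ∑ e ∈ g.edges.toFinset.filter (· ∈ E0), t e +
      ∑ e ∈ g.edges.toFinset.filter (· ∉ E0), t2 e := by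
  rw [sum_edges_path g hg, ← Finset.sum_filter_add_sum_filter_not g.edges.toFinset (· ∈ E0)]
  congr 1
  · refine Finset.sum_congr rfl fun e he => ?_
    rw [Finset.mem_filter] at he
    exact glue_of_mem he.2
  · refine Finset.sum_congr rfl fun e he => ?_
    rw [Finset.mem_filter] at he
    exact glue_of_notMem he.2

/-- simple routes -/
def PRt (H H' : ℤ → ℤ × ℤ) (A : Set (ℤ × ℤ)) (i j : ℤ) : Type :=
  {p : (Σ z : ℤ, Σ w : ℤ, Wk (H z) (H' w)) // i ≤ p.1 ∧ p.2.1 ≤ j ∧ p.2.2.IsPath ∧
    IsOpen H H' A p.2.2}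

instance (H H' : ℤ → ℤ × ℤ) (A : Set (ℤ × ℤ)) (i j : ℤ) : Countable (PRt H H' A i j) := by
  unfold PRt; infer_instance

/-- lower bound of the value of a route -/
lemma route_ge (ht : Nn t) {z w : ℤ} (hz : i ≤ z) (hw : w ≤ j) (g : Wk (H z) (H' w)) :
    hc t H i - hc t H' j ≤ hc t H z + walkCost t g - hc t H' w := by
  have a1 := hc_mono ht H hz
  have a2 := hc_mono ht H' hw
  have a3 := walkCost_nonneg ht g
  linarith

lemma bddBelow_routes (ht : Nn t) : BddBelow (routes t H H' A i j) := by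
  refine ⟨hc t H i - hc t H' j, ?_⟩
  rintro _ ⟨z, w, hz, hw, g, hg, rfl⟩
  exact route_ge ht hz hw g

lemma hull_eq_iInf (ht : Nn t) (hne : (routes t H H' A i j).Nonempty) :
    hull t H H' A i j = ⨅ p : PRt H H' A i j,
      (hc t H p.1.1 + walkCost t p.1.2.2 - hc t H' p.1.2.1) := by
  have hbd : BddBelow (Set.range fun p : PRt H H' A i j =>
      hc t H p.1.1 + walkCost t p.1.2.2 - hc t H' p.1.2.1) := by
    refine ⟨hc t H i - hc t H' j, ?_⟩
    rintro _ ⟨p, rfl⟩
    exact route_ge ht p.2.1 p.2.2.1 _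
  obtain ⟨c0, z0, w0, hz0, hw0, g0, hg0, -⟩ := hne
  obtain ⟨g0', hp0, hg0', -⟩ := hg0.exists_path ht
  have hne' : Nonempty (PRt H H' A i j) := ⟨⟨⟨z0, w0, g0'⟩, hz0, hw0, hp0, hg0'⟩⟩
  apply le_antisymm
  · refine le_ciInf fun p => ?_
    exact csInf_le (bddBelow_routes ht) ⟨p.1.1, p.1.2.1, p.2.1, p.2.2.1, p.1.2.2, p.2.2.2.2, rfl⟩
  · refine le_csInf ⟨_, z0, w0, hz0, hw0, g0, hg0, rfl⟩ ?_
    rintro _ ⟨z, w, hz, hw, g, hg, rfl⟩
    obtain ⟨g', hp, hg', hle⟩ := hg.exists_path ht
    refine (ciInf_le hbd ⟨⟨z, w, g'⟩, hz, hw, hp, hg'⟩).trans ?_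
    dsimp only
    linarith

/-- **hull costs are log-concave given the strips** -/
theorem LC_hull {r : ℝ} (hr : 0 < r) (hH : ∀ k, s(H k, H (k + 1)) ∈ E0)
    (hH' : ∀ k, s(H' k, H' (k + 1)) ∈ E0) (ht : Nn t)
    (hne : (routes t H H' A i j).Nonempty) :
    V.LC (iidLaw (gammaMeasure 1 r)) (fun t2 => hull (glue E0 t t2) H H' A i j) := by
  classical
  have hγ := isProbabilityMeasure_gammaMeasure zero_lt_one hr
  obtain ⟨c0, z0, w0, hz0, hw0, g0, hg0, -⟩ := hne
  obtain ⟨g0', hp0, hg0', -⟩ := hg0.exists_path ht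
  have hne' : Nonempty (PRt H H' A i j) := ⟨⟨⟨z0, w0, g0'⟩, hz0, hw0, hp0, hg0'⟩⟩
  obtain ⟨f, hf⟩ := exists_surjective_nat (PRt H H' A i j)
  have h := LC_ciInf (I := Sym2 (ℤ × ℤ)) hr
    (fun n => hc t H (f n).1.1 - hc t H' (f n).1.2.1 +
      ∑ e ∈ (f n).1.2.2.edges.toFinset.filter (· ∈ E0), t e)
    (fun n => (f n).1.2.2.edges.toFinset.filter (· ∉ E0)) (by
      refine ⟨hc t H i - hc t H' j, ?_⟩
      rintro _ ⟨n, rfl⟩
      have a1 := hc_mono ht H (f n).2.1
      have a2 := hc_mono ht H' (f n).2.2.1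
      have a3 : 0 ≤ ∑ e ∈ (f n).1.2.2.edges.toFinset.filter (· ∈ E0), t e :=
        Finset.sum_nonneg fun e _ => ht e
      dsimp only
      linarith)
  refine LC.congr_ae h ?_
  filter_upwards [ae_Nn (G := gammaMeasure 1 r) (K.gamma_Iio 1 r)] with t2 ht2
  have hN := glue_Nn (E0 := E0) ht ht2
  rw [hull_eq_iInf hN ⟨_, z0, w0, hz0, hw0, g0, hg0, rfl⟩, ← hf.iInf_comp]
  refine iInf_congr fun n => ?_
  rw [hc_glue hH, hc_glue hH', walkCost_glue _ (f n).2.2.2.1]
  ring

end hull

/-! ### Resampling off a parameter dependent set -/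

section param

variable {I X Θ : Type*} [MeasurableSpace X] [MeasurableSpace Θ]

lemma measurable_glue_param {B : Θ → Set I} (hB : ∀ i, MeasurableSet {θ | i ∈ B θ}) :
    Measurable (fun q : Θ × ((I → X) × (I → X)) => glue (B q.1) q.2.1 q.2.2) := by
  classical
  refine measurable_pi_lambda _ fun i => ?_
  have : (fun q : Θ × ((I → X) × (I → X)) => glue (B q.1) q.2.1 q.2.2 i) =
      fun q => if q.1 ∈ {θ | i ∈ B θ} then q.2.1 i else q.2.2 i := by
    funext q
    by_cases h : q.1 ∈ {θ | i ∈ B θ}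
    · rw [if_pos h]; exact glue_of_mem h
    · rw [if_neg h]; exact glue_of_notMem h
  rw [this]
  exact Measurable.ite (measurable_fst (hB i)) ((measurable_pi_apply i).comp
    (measurable_fst.comp measurable_snd)) ((measurable_pi_apply i).comp
    (measurable_snd.comp measurable_snd))

/-- resampling the coordinates off `B θ` (keeping `θ`) preserves the law -/
theorem mp_glue_param (μ : Measure Θ) [SFinite μ] (G : Measure X) [IsProbabilityMeasure G]
    {B : Θ → Set I} (hB : ∀ i, MeasurableSet {θ | i ∈ B θ}) :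
    MeasurePreserving (fun q : Θ × ((I → X) × (I → X)) => (q.1, glue (B q.1) q.2.1 q.2.2))
      (μ.prod ((Measure.infinitePi fun _ : I => G).prod (Measure.infinitePi fun _ : I => G)))
      (μ.prod (Measure.infinitePi fun _ : I => G)) := by
  have hm : Measurable (fun q : Θ × ((I → X) × (I → X)) => (q.1, glue (B q.1) q.2.1 q.2.2)) :=
    measurable_fst.prodMk (measurable_glue_param hB)
  refine ⟨hm, ?_⟩
  ext s hs
  rw [Measure.map_apply hm hs, Measure.prod_apply (hm hs), Measure.prod_apply hs]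
  refine lintegral_congr fun θ => ?_
  have h1 := (mp_glue G (B θ)).measure_preimage (s := Prod.mk θ ⁻¹' s)
    (measurable_prodMk_left hs).nullMeasurableSet
  rw [← h1]
  rfl

/-- Fubini form -/
theorem lintegral_glue_param (μ : Measure Θ) [SFinite μ] (G : Measure X) [IsProbabilityMeasure G]
    {B : Θ → Set I} (hB : ∀ i, MeasurableSet {θ | i ∈ B θ}) {F : Θ → (I → X) → ℝ≥0∞}
    (hF : Measurable fun q : Θ × (I → X) => F q.1 q.2) :
    ∫⁻ q, F q.1 q.2 ∂(μ.prod (Measure.infinitePi fun _ : I => G)) =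
      ∫⁻ q, ∫⁻ t2, F q.1 (glue (B q.1) q.2 t2) ∂(Measure.infinitePi fun _ : I => G)
        ∂(μ.prod (Measure.infinitePi fun _ : I => G)) := by
  have hFg : Measurable fun q : Θ × ((I → X) × (I → X)) => F q.1 (glue (B q.1) q.2.1 q.2.2) :=
    hF.comp (measurable_fst.prodMk (measurable_glue_param hB))
  rw [← (mp_glue_param μ G hB).lintegral_comp hF, lintegral_prod _ hFg.aemeasurable,
    lintegral_prod _ (by
      refine Measurable.aemeasurable ?_
      refine Measurable.lintegral_prod_right' (f := fun p : (Θ × (I → X)) × (I → X) =>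
        F p.1.1 (glue (B p.1.1) p.1.2 p.2)) ?_
      exact hFg.comp (measurable_fst.fst.prodMk (measurable_fst.snd.prodMk measurable_snd)))]
  refine lintegral_congr fun θ => ?_
  rw [lintegral_prod]
  exact (hFg.comp (measurable_const.prodMk measurable_id)).aemeasurable

end param

end Crest.Agent.R151.M51
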