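import Crest.Agent.R151.M56d

/-!
# R151 / S0214 part 2, M56e — mean cost of fences (R4), deterministic part (helper56)

`chain_lower`: a walk of the `b`-lane of width `β - α` crossing `N + 1` rows of pitch `y₂` costs at
least the sum of the hull costs, minus the excesses of the highways over the window, plus the costs
of the gaps, minus a constant.
-/

set_option autoImplicit false

open MeasureTheory Filter ProbabilityTheory Topology
open Crest.ProbabilityR.FirstPassage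

namespace Crest.Agent.R151.M56

open Crest.Agent.R151.K Crest.Agent.R151.Q
open R78 (V Wk IsHwy hc hp stepc hull routes IsOpen shp hullY ptY gapK IsStrip Frame IsPos Back Sep
  IsStack)
open M192 (frame frame_al frame_be al_pos be_pos isStrip ix_cov pos_add_toR)
open B710 (FlatData)
open C710 (fn fn_nonneg abs_f_le l1_nr toR_sub' n1_le_of_l1 pL)

variable {μ : ℝ × ℝ → ℝ} {F : FlatData μ} (h : Hwy F)

/-- height of the first row of the stack -/
noncomputable def H0 : ℝ := h.wH / 2 + mg F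

/-- base point of row `k` of the stack -/
noncomputable def Bk (c0 y2 : ℝ) (k : ℕ) : ℝ × ℝ := (-c0) • F.a + (H0 h + k * y2) • F.b

/-- offset of row `k` of the stack -/
noncomputable def tk (c0 y2 : ℝ) (ξ : ℝ × ℝ) (k : ℕ) : ℝ × ℝ := ξ - Bk h c0 y2 k

/-- height of the end of the walk -/
noncomputable def yN (d : ℝ × ℝ) (y2 : ℝ) (N : ℕ) : ℝ :=
  H0 h + N * y2 + F.be d + h.wH / 2 + mg F

lemma al_Bk (c0 y2 : ℝ) (k : ℕ) : F.al (Bk h c0 y2 k) = -c0 := al_comb F _ _

lemma be_Bk (c0 y2 : ℝ) (k : ℕ) : F.be (Bk h c0 y2 k) = H0 h + k * y2 := be_comb F _ _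

lemma al_tk (c0 y2 : ℝ) (ξ : ℝ × ℝ) (k : ℕ) (z : V) :
    F.al (pos (tk h c0 y2 ξ k) z) = F.al (pos ξ z) + c0 := by
  unfold tk
  rw [al_pos, al_pos, map_sub, al_Bk]; ring

lemma be_tk (c0 y2 : ℝ) (ξ : ℝ × ℝ) (k : ℕ) (z : V) :
    F.be (pos (tk h c0 y2 ξ k) z) = F.be (pos ξ z) - (H0 h + k * y2) := by
  unfold tk
  rw [be_pos, be_pos, map_sub, be_Bk]; ring

/-- phases of row `k` -/
def ph (u : ℕ → ℝ) (k : ℕ) : ℝ × ℝ := (u (2 * k), u (2 * k + 1))

/-- lower highway of row `k` of the stack -/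
noncomputable def Lk (c0 y2 : ℝ) (ξ : ℝ × ℝ) (t : Environment) (u : ℕ → ℝ) (k : ℕ) : ℤ → V :=
  h.Lo (tk h c0 y2 ξ k) t (ph u k)

/-- upper highway of row `k` of the stack -/
noncomputable def Uk (d : ℝ × ℝ) (c0 y2 : ℝ) (ξ : ℝ × ℝ) (t : Environment) (u : ℕ → ℝ) (k : ℕ) : ℤ → V :=
  h.Up d (tk h c0 y2 ξ k) t (ph u k)

lemma norm_nr (θ : ℝ × ℝ) : ‖pos θ (nr θ)‖ ≤ 1 := by
  have h1 := l1_nr θ
  refine le_trans ?_ h1
  rw [Prod.norm_def]
  unfold l1 pos
  refine max_le ?_ ?_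
  · rw [Real.norm_eq_abs]
    have := abs_nonneg (toR (nr θ) + θ).2
    linarith
  · rw [Real.norm_eq_abs]
    have := abs_nonneg (toR (nr θ) + θ).1
    linarith

variable {h} {d : ℝ × ℝ} {y2 : ℝ} (hd : h.wH + 2 * mg F < F.be d) (hy : h.wH < y2 - F.be d)
include hd hy

omit hd hy in
lemma tk_succ (c0 : ℝ) (ξ : ℝ × ℝ) (k : ℕ) :
    tk h c0 y2 ξ k - d - (y2 • F.b - d) = tk h c0 y2 ξ (k + 1) := by
  unfold tk Bk
  push_cast
  rw [add_mul, one_mul, ← add_assoc, add_smul _ y2]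
  abel

/-- the stack -/
lemma stack (c0 : ℝ) (ξ : ℝ × ℝ) (t : Environment) (u : ℕ → ℝ) (N : ℕ) :
    IsStack N (Lk h c0 y2 ξ t u) (Uk h d c0 y2 ξ t u) {nr ξ} {nr (ξ - (yN h d y2 N) • F.b)} := by
  have hw := wH_nonneg h
  have hm := one_le_mg F
  have hfa := fn_nonneg F.al
  have hfb := fn_nonneg F.be
  have hmf : fn F.be + 1 ≤ mg F := by unfold mg; linarith
  have hbt : ∀ k : ℕ, F.be (tk h c0 y2 ξ k) = F.be ξ - (H0 h + k * y2) := by
    intro k; unfold tk; rw [map_sub, be_Bk]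
  have hx : |F.be (pos ξ (nr ξ))| ≤ fn F.be := by
    have := nr_coord F.be ξ 0
    simpa using this
  have hyv : |F.be (pos ξ (nr (ξ - (yN h d y2 N) • F.b))) - yN h d y2 N| ≤ fn F.be := by
    have := nr_coord F.be ξ ((yN h d y2 N) • F.b)
    rwa [map_smul, F.be_b, smul_eq_mul, mul_one] at this
  rw [abs_le] at hx hyv
  rw [be_pos] at hx hyv
  refine R78.isStack_of_strips (F := frame F)
    (loL := fun k => -(h.wH / 2) - F.be (tk h c0 y2 ξ k))
    (hiL := fun k => h.wH / 2 - F.be (tk h c0 y2 ξ k))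
    (loU := fun k => -(h.wH / 2) - F.be (tk h c0 y2 ξ k - d))
    (hiU := fun k => h.wH / 2 - F.be (tk h c0 y2 ξ k - d))
    (fun k _ => isStrip h _ _ t) (fun k _ => isStrip h _ _ t) ?_ ?_ ?_ ?_ ?_ ?_
  · intro k _
    simp only [map_sub]
    linarith
  · intro k _
    simp only [map_sub, hbt]
    push_cast
    linarith
  · intro k hk
    simp only [map_sub, hbt]
    have h1 : (k : ℝ) ≤ N := by exact_mod_cast hk.le
    have h2 : 0 ≤ y2 := by linarith
    nlinarith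
  · rintro _ rfl
    simp only [hbt]
    rw [frame_be]
    unfold H0
    push_cast
    linarith
  · rintro _ rfl
    simp only [map_sub, hbt]
    rw [frame_be]
    unfold H0
    push_cast
    linarith
  · rintro _ rfl
    simp only [map_sub, hbt]
    rw [frame_be]
    have e : yN h d y2 N = H0 h + N * y2 + F.be d + h.wH / 2 + mg F := rfl
    linarith [hyv.1]

/-- the constant of `chain_lower` -/
noncomputable def Cch (h : Hwy F) (d : ℝ × ℝ) (α β : ℝ) : ℝ :=
  ‖F.ρ‖ * (1 + Rx h (β + h.κ + 1) + ‖(-((α + β) / 2)) • F.a + H0 h • F.b‖) +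
    ‖F.ρ‖ * (1 + Rx h (α - F.al d) +
      ‖(F.be d + h.wH / 2 + mg F) • F.b + ((α + β) / 2) • F.a - d‖)

variable {α β s s2 : ℝ} {I : Set ℝ} (hs : s ≤ α) (hs2 : β + h.κ < s2 + F.al d)
  (hI : Set.Icc α β ⊆ I) (hw : 2 * fn F.al ≤ β - α)
include hs hs2 hI hw

/-- **chain inequality of the fences** -/
theorem chain_lower {t : Environment} (ht : Nn t) (ξ : ℝ × ℝ) (u : ℕ → ℝ) (N : ℕ) :
    ∑ k ∈ Finset.range (N + 1), (h.hkY d I s s2 (tk h ((α + β) / 2) y2 ξ k) t (ph u k) -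
        h.Y s (β + h.κ + 1) (u (2 * k)) (tk h ((α + β) / 2) y2 ξ k) t -
        h.Y (α - F.al d) s2 (u (2 * k + 1)) (tk h ((α + β) / 2) y2 ξ k - d) t) +
      ∑ k ∈ Finset.range N, h.gY (y2 • F.b - d) (α - F.al d) (β + h.κ + 1)
        (tk h ((α + β) / 2) y2 ξ k - d) t (u (2 * k + 1), u (2 * k + 2)) -
      Cch h d α β ≤
    pL F (β - α) (yN h d y2 N) ξ t -
      (phi F (nr (ξ - (yN h d y2 N) • F.b)) - phi F (nr ξ)) := by
  set c0 : ℝ := (α + β) / 2 with hc0
  set L := Lk h c0 y2 ξ t u with hL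
  set U := Uk h d c0 y2 ξ t u with hU
  set θ := tk h c0 y2 ξ with hθ
  have hstack := stack hd hy c0 ξ t u N
  -- indices
  set iL : ℕ → ℤ := fun k => h.iL s (θ k) t (ph u k) with hiL
  set jU : ℕ → ℤ := fun k => h.iU d s2 (θ k) t (ph u k) with hjU
  set bL : ℕ → ℤ := fun k => h.iL (β + h.κ + 1) (θ k) t (ph u k) with hbL
  set aU : ℕ → ℤ := fun k => h.iU d (α - F.al d) (θ k) t (ph u k) with haU
  have hLidx : ∀ k m, L k m ∈ laneB F (β - α) ξ → iL k ≤ m ∧ m ≤ bL k := by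
    intro k m hm
    have h1 : |F.al (pos ξ (L k m))| ≤ (β - α) / 2 := hm
    rw [abs_le] at h1
    have h2 : F.al (pos (θ k) (h.H (ph u k).1 (θ k) t m)) = F.al (pos ξ (L k m)) + c0 :=
      al_tk h c0 y2 ξ k _
    constructor
    · refine ix_le_of_ge (h := h) ?_
      rw [h2]; linarith [h1.1]
    · refine (lt_ix_of_lt (h := h) ?_).le
      rw [h2]; linarith [h1.2]
  have hUidx : ∀ k m, U k m ∈ laneB F (β - α) ξ → aU k ≤ m ∧ m ≤ jU k := by
    intro k m hm
    have h1 : |F.al (pos ξ (U k m))| ≤ (β - α) / 2 := hm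
    rw [abs_le] at h1
    have h2 : F.al (pos (θ k - d) (h.H (ph u k).2 (θ k - d) t m)) =
        F.al (pos ξ (U k m)) + c0 - F.al d := by
      have e1 := Hwy.al_Up (F := F) d (θ k) (h.H (ph u k).2 (θ k - d) t m)
      rw [e1]
      have e2 : F.al (pos (θ k) (U k m)) = F.al (pos ξ (U k m)) + c0 := al_tk h c0 y2 ξ k _
      have e3 : h.H (ph u k).2 (θ k - d) t m = U k m := rfl
      rw [e3, e2]
    constructor
    · refine ix_le_of_ge (h := h) ?_
      rw [h2]; linarith [h1.1]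
    · refine (lt_ix_of_lt (h := h) ?_).le
      rw [h2]; linarith [h1.2]
  -- the sum
  have key : ∑ k ∈ Finset.range (N + 1), hull t (L k) (U k) (rg F I (θ k)) (iL k) (jU k) +
      ∑ k ∈ Finset.range N, gapK t (U k) (L (k + 1)) (aU k) (bL (k + 1)) -
      hc t (L 0) (bL 0) + hc t (U N) (aU N) ≤ pL F (β - α) (yN h d y2 N) ξ t := by
    unfold pL
    refine le_pR ?_ fun g hg => ?_
    · -- the lane is connected
      have h3 := C710.nr_mem_laneB' F hw ξ
      have h4 := C710.nr_mem_laneB F hw ξ (yN h d y2 N)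
      obtain ⟨w, -, hw'⟩ := seg_coord F ξ 0 ((yN h d y2 N) • F.b)
      have hlane := C710.laneB_eq F (β - α) ξ
      rw [hlane] at h3 h4 ⊢
      have hfn : fn F.al ≤ β - α := by
        have := fn_nonneg F.al
        linarith
      exact (C710.lane_conn (G := Measure.dirac (0 : ℝ)) (by simp) (integrable_dirac (by simp)) hfn
        h3 h4).1
    · obtain ⟨z, w, hopen, hsum⟩ := R78.chain_pr ht hstack (A := fun k => rg F I (θ k)) rfl rfl g
        (fun k _ i j _ _ => routes_bdd ht _ _ _ _ _)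
        (fun k _ i j o ho v hv => by
          have h1 : |F.al (pos ξ v)| ≤ (β - α) / 2 := hg v (ho.sub v hv)
          rw [abs_le] at h1
          apply hI
          have h2 : F.al (pos (θ k) v) = F.al (pos ξ v) + c0 := al_tk h c0 y2 ξ k v
          rw [h2]
          constructor <;> linarith [h1.1, h1.2])
      have hz : ∀ k ≤ N, iL k ≤ z k ∧ z k ≤ bL k := by
        intro k hk
        obtain ⟨o, ho⟩ := hopen k hk
        exact hLidx k _ (hg _ (ho.sub _ o.start_mem_support))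
      have hwk : ∀ k ≤ N, aU k ≤ w k ∧ w k ≤ jU k := by
        intro k hk
        obtain ⟨o, ho⟩ := hopen k hk
        exact hUidx k _ (hg _ (ho.sub _ o.end_mem_support))
      have s1 : ∑ k ∈ Finset.range (N + 1), hull t (L k) (U k) (rg F I (θ k)) (iL k) (jU k) ≤
          ∑ k ∈ Finset.range (N + 1), hull t (L k) (U k) (rg F I (θ k)) (z k) (w k) := by
        refine Finset.sum_le_sum fun k hk => ?_
        rw [Finset.mem_range] at hk
        have hk' : k ≤ N := by omega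
        obtain ⟨o, ho⟩ := hopen k hk'
        refine R78.hull_mono (routes_bdd ht _ _ _ _ _) ?_ subset_rfl (hz k hk').1 (hwk k hk').2
        refine ⟨_, z k, w k, le_rfl, le_rfl, o, ⟨fun v hv => ?_, ho.fst, ho.snd⟩, rfl⟩
        have h1 : |F.al (pos ξ v)| ≤ (β - α) / 2 := hg v (ho.sub v hv)
        rw [abs_le] at h1
        apply hI
        have h2 : F.al (pos (θ k) v) = F.al (pos ξ v) + c0 := al_tk h c0 y2 ξ k v
        rw [h2]
        constructor <;> linarith [h1.1, h1.2]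
      have s2 : ∑ k ∈ Finset.range N, gapK t (U k) (L (k + 1)) (aU k) (bL (k + 1)) ≤
          ∑ k ∈ Finset.range N, gapK t (U k) (L (k + 1)) (w k) (z (k + 1)) := by
        refine Finset.sum_le_sum fun k hk => ?_
        rw [Finset.mem_range] at hk
        exact R78.gapK_mono ht (h.isHwy _ _ _) (h.isHwy _ _ _) (hwk k (by omega)).1
          (hz (k + 1) (by omega)).2
      have s4 : hc t (U N) (aU N) ≤ hc t (U N) (w N) := R78.hc_mono ht _ (hwk N le_rfl).1
      have s5 : hc t (L 0) (z 0) ≤ hc t (L 0) (bL 0) := R78.hc_mono ht _ (hz 0 (Nat.zero_le _)).2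
      have s6 := pt_nonneg ht (nr ξ) (L 0 (z 0))
      have s7 := pt_nonneg ht (U N (w N)) (nr (ξ - (yN h d y2 N) • F.b))
      linarith
  -- the end points
  have c1 : phi F (L 0 (bL 0)) - phi F (nr ξ) ≤
      ‖F.ρ‖ * (1 + Rx h (β + h.κ + 1) + ‖(-c0) • F.a + H0 h • F.b‖) := by
    have e1 : phi F (L 0 (bL 0)) - phi F (nr ξ) =
        F.ρ (pos (θ 0) (L 0 (bL 0)) + Bk h c0 y2 0 - pos ξ (nr ξ)) := by
      unfold phi
      rw [← map_sub]
      congr 1
      simp only [hθ, tk, pos]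
      abel
    rw [e1]
    refine (le_abs_self _).trans ((F.ρ.le_opNorm _).trans
      (mul_le_mul_of_nonneg_left ?_ (norm_nonneg _)))
    refine (norm_sub_le _ _).trans ?_
    have n1 := norm_add_le (pos (θ 0) (L 0 (bL 0))) (Bk h c0 y2 0)
    have n2 : ‖pos (θ 0) (L 0 (bL 0))‖ ≤ Rx h (β + h.κ + 1) := norm_x h _ _ _ _
    have n3 : ‖pos ξ (nr ξ)‖ ≤ 1 := norm_nr ξ
    have n4 : Bk h c0 y2 0 = (-c0) • F.a + H0 h • F.b := by unfold Bk; simp
    rw [n4] at n1 ⊢
    linarith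
  have c2 : phi F (nr (ξ - (yN h d y2 N) • F.b)) - phi F (U N (aU N)) ≤
      ‖F.ρ‖ * (1 + Rx h (α - F.al d) +
        ‖(F.be d + h.wH / 2 + mg F) • F.b + c0 • F.a - d‖) := by
    have e1 : phi F (nr (ξ - (yN h d y2 N) • F.b)) - phi F (U N (aU N)) =
        F.ρ (pos (ξ - (yN h d y2 N) • F.b) (nr (ξ - (yN h d y2 N) • F.b)) -
          pos (θ N - d) (U N (aU N)) + ((F.be d + h.wH / 2 + mg F) • F.b + c0 • F.a - d)) := by
      unfold phi
      rw [← map_sub]
      congr 1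
      have e2 : yN h d y2 N = (H0 h + N * y2) + (F.be d + h.wH / 2 + mg F) := by unfold yN; ring
      simp only [hθ, tk, pos, Bk, e2, add_smul, neg_smul]
      abel
    rw [e1]
    refine (le_abs_self _).trans ((F.ρ.le_opNorm _).trans
      (mul_le_mul_of_nonneg_left ?_ (norm_nonneg _)))
    have n1 := norm_add_le (pos (ξ - (yN h d y2 N) • F.b) (nr (ξ - (yN h d y2 N) • F.b)) -
      pos (θ N - d) (U N (aU N))) ((F.be d + h.wH / 2 + mg F) • F.b + c0 • F.a - d)
    have n0 := norm_sub_le (pos (ξ - (yN h d y2 N) • F.b) (nr (ξ - (yN h d y2 N) • F.b)))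
      (pos (θ N - d) (U N (aU N)))
    have n2 : ‖pos (θ N - d) (U N (aU N))‖ ≤ Rx h (α - F.al d) := norm_x h _ _ _ _
    have n3 : ‖pos (ξ - (yN h d y2 N) • F.b) (nr (ξ - (yN h d y2 N) • F.b))‖ ≤ 1 := norm_nr _
    linarith
  -- excess form
  have e1 : ∀ k, h.hkY d I s s2 (θ k) t (ph u k) =
      hull t (L k) (U k) (rg F I (θ k)) (iL k) (jU k) - hp t (phi F) (L k) (iL k) +
        hp t (phi F) (U k) (jU k) := fun k => rfl
  have e2 : ∀ k, h.Y s (β + h.κ + 1) (u (2 * k)) (θ k) t =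
      hp t (phi F) (L k) (bL k) - hp t (phi F) (L k) (iL k) := fun k => rfl
  have e3 : ∀ k, h.Y (α - F.al d) s2 (u (2 * k + 1)) (θ k - d) t =
      hp t (phi F) (U k) (jU k) - hp t (phi F) (U k) (aU k) := fun k => rfl
  have e4 : ∀ k, h.gY (y2 • F.b - d) (α - F.al d) (β + h.κ + 1) (θ k - d) t
      (u (2 * k + 1), u (2 * k + 2)) = gapK t (U k) (L (k + 1)) (aU k) (bL (k + 1)) -
        hp t (phi F) (U k) (aU k) + hp t (phi F) (L (k + 1)) (bL (k + 1)) := by
    intro k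
    have hs := tk_succ (h := h) (d := d) (y2 := y2) c0 ξ k
    have e5 : h.Up (y2 • F.b - d) (θ k - d) t (u (2 * k + 1), u (2 * k + 2)) = L (k + 1) := by
      unfold Hwy.Up
      rw [hs]
      rfl
    have e6 : h.iU (y2 • F.b - d) (β + h.κ + 1) (θ k - d) t (u (2 * k + 1), u (2 * k + 2)) =
        bL (k + 1) := by
      unfold Hwy.iU
      rw [hs]
      rfl
    have e7 : h.Lo (θ k - d) t (u (2 * k + 1), u (2 * k + 2)) = U k := rfl
    have e8 : h.iL (α - F.al d) (θ k - d) t (u (2 * k + 1), u (2 * k + 2)) = aU k := rfl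
    unfold Hwy.gY
    rw [e5, e6, e7, e8, R78.gapK_eq t (phi F)]
    unfold ptY
    ring
  simp only [e1, e2, e3, e4, Finset.sum_add_distrib, Finset.sum_sub_distrib]
  have f1 : ∑ k ∈ Finset.range (N + 1), hp t (phi F) (L k) (bL k) =
      ∑ k ∈ Finset.range N, hp t (phi F) (L (k + 1)) (bL (k + 1)) + hp t (phi F) (L 0) (bL 0) :=
    Finset.sum_range_succ' _ _
  have f2 : ∑ k ∈ Finset.range (N + 1), hp t (phi F) (U k) (aU k) =
      ∑ k ∈ Finset.range N, hp t (phi F) (U k) (aU k) + hp t (phi F) (U N) (aU N) :=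
    Finset.sum_range_succ _ _
  have f3 : hp t (phi F) (L 0) (bL 0) = hc t (L 0) (bL 0) - phi F (L 0 (bL 0)) := rfl
  have f4 : hp t (phi F) (U N) (aU N) = hc t (U N) (aU N) - phi F (U N (aU N)) := rfl
  have f5 : Cch h d α β = ‖F.ρ‖ * (1 + Rx h (β + h.κ + 1) + ‖(-c0) • F.a + H0 h • F.b‖) +
    ‖F.ρ‖ * (1 + Rx h (α - F.al d) + ‖(F.be d + h.wH / 2 + mg F) • F.b + c0 • F.a - d‖) := rfl
  rw [f1, f2, f3, f4, f5]
  linarith

end Crest.Agent.R151.M56
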