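import Crest.Agent.R151.X684g

/-!
# R151, block X (helper684), part h: the inputs, base estimate, column estimate
-/

set_option autoImplicit false

open MeasureTheory ProbabilityTheory Filter Topology
open Crest.ProbabilityR.FirstPassage
open Crest.Agent.R151.A (shift eShift block sig eX)
open Crest.Agent.R151.K (Nn)

namespace Crest.Agent.R151.X

/-- The inputs of the no-corner argument at the direction `(1, s)`, for the functional
`(x, y) ↦ α x + β y` and the corner slope `a`. -/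
structure Inputs (G : Measure ℝ) (s α β a : ℝ) : Prop where
  nn : G (Set.Iio 0) = 0
  a_pos : 0 < a
  /-- the hard wall -/
  hw : ∀ η > 0, ∀ ε > 0, ∃ b0 : ℝ, ∀ b, b0 ≤ b → ∀ n : ℕ, 1 ≤ n → ∀ u : ℝ,
    (iidLaw G).real (HWbad s α β a u b (η * b) 0 n) ≤ ε
  /-- polynomial lower tail along columns -/
  col : ∃ C : ℝ, 0 ≤ C ∧ ∀ k : ℕ, 1 ≤ k →
    (iidLaw G).real {t | passageTime t (0, 0) (0, (k : ℤ)) ≤ (|β| + a / 2) * k} ≤
      C / (k : ℝ) ^ 6
  /-- connections at the two ends of a block -/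
  conn : ∀ ε > 0, ∃ (C : ℝ) (K0 : ℕ) (L0 : ℝ), 0 ≤ C ∧ ∀ L, L0 ≤ L → ∀ n : ℕ, K0 ≤ n → 1 ≤ n →
    ∀ u, (iidLaw G).real (ConnL s u L C n)ᶜ ≤ ε ∧ (iidLaw G).real (ConnR s u L C n)ᶜ ≤ ε
  /-- short crossings -/
  short : ∀ ε > 0, ∀ K0 : ℕ, ∃ K' : ℝ, ∀ n : ℕ, 1 ≤ n → n ≤ K0 → ∀ u,
    1 - ε ≤ (iidLaw G).real (Apt s α β u K' K' n)
  /-- anticoncentration -/
  ac : ∃ c > 0, ∃ C : ℝ, ∀ n : ℕ, 1 ≤ n → ∀ w : ℝ, 1 ≤ w → ∀ u v h : ℝ, 0 < h → h ≤ 1 →
    (iidLaw G).real (Apt s α β u w v n) ≤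
      (iidLaw G).real (Apt s α β u w (v - c * h * Real.sqrt (n / w)) n) + C * h +
        C * Real.sqrt (w / n) / h
  /-- upper bound -/
  ub : ∀ ε > 0, ∃ N0 : ℕ, ∀ N : ℕ, N0 ≤ N → ∀ u,
    1 - ε ≤ (iidLaw G).real
      (Apt s α β u ((N : ℝ) ^ (19 / 20 : ℝ)) ((N : ℝ) ^ (19 / 20 : ℝ)) N)

lemma Apt_mono {s α β u w w' v v' : ℝ} {n : ℕ} (hw : w ≤ w') (hv : v ≤ v') :
    Apt s α β u w v n ⊆ Apt s α β u w' v' n :=
  fun _ h => h.mono (sl_mono (by simpa using hw) le_rfl le_rfl) hv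

lemma HWbad_mono {s α β a u w w' δ δ' : ℝ} {p q : ℤ} (hw : w ≤ w') (hδ : δ' ≤ δ) :
    HWbad s α β a u w δ p q ⊆ HWbad s α β a u w' δ' p q := by
  rintro t ⟨x, y, h⟩
  exact ⟨x, y, h.mono (sl_mono (by simpa using hw) le_rfl le_rfl) (by linarith)⟩

lemma ColOK_anti {s β a' u w w' δ δ' : ℝ} {N N' : ℕ} (hw : w ≤ w') (hδ : δ' ≤ δ)
    (hN : N ≤ N') : ColOK s β a' u w' δ' N' ⊆ ColOK s β a' u w δ N := by
  intro t h k hk0 hkN z z' hz hz'
  have := h k hk0 (hkN.trans (by exact_mod_cast hN)) z z' (hz.trans hw) (hz'.trans hw)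
  linarith

lemma Blk_mono {s α β u w L v w' L' v' : ℝ} {p q : ℤ} (hw : w ≤ w') (hL : L ≤ L')
    (hv : v ≤ v') : Blk s α β u w L v p q ⊆ Blk s α β u w' L' v' p q := by
  rintro t ⟨x, y, h1, h2, h3⟩
  exact ⟨x, y, h1.trans hL, h2.trans hL,
    h3.mono (sl_mono (by simpa using hw) le_rfl le_rfl) hv⟩

section

variable {G : Measure ℝ} [IsProbabilityMeasure G] {s α β a : ℝ}

/-- **base estimate**: a good crossing of length `n` has energy at least `c n^{1/3}` -/
lemma base (H : Inputs G s α β a) : ∃ (Cb b1 : ℝ), 0 ≤ Cb ∧ ∀ n : ℕ, 1 ≤ n → ∀ w v u : ℝ,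
    b1 ≤ w → 0 ≤ v → 9 / 10 ≤ (iidLaw G).real (Apt s α β u w v n) →
    (n : ℝ) ≤ Cb * (v + w) ^ 3 := by
  obtain ⟨b0, hb0⟩ := H.hw 1 one_pos (1 / 10) (by norm_num)
  obtain ⟨c, hc, C, hC⟩ := H.ac
  set C' : ℝ := max C 1 with hC'
  have hC'1 : 1 ≤ C' := le_max_right _ _
  have hCC' : C ≤ C' := le_max_left _ _
  set h : ℝ := 1 / (10 * C') with hh
  have hh0 : 0 < h := by positivity
  have hh1 : h ≤ 1 := by
    rw [hh, div_le_one (by positivity)]
    linarith
  have hCh : C' * h = 1 / 10 := by rw [hh]; field_simp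
  refine ⟨(10 * C' / h) ^ 2 + 1 / (c * h) ^ 2, max b0 1, by positivity,
    fun n hn w v u hw hv hA => ?_⟩
  have hw1 : 1 ≤ w := (le_max_right _ _).trans hw
  have hwb : b0 ≤ w := (le_max_left _ _).trans hw
  have hvw : 1 ≤ v + w := by linarith
  have hn0 : (0 : ℝ) < n := by exact_mod_cast hn
  have hcube : 1 ≤ (v + w) ^ 3 := one_le_pow₀ hvw
  have hwcube : w ≤ (v + w) ^ 3 := by
    have h1 : (v + w) ^ 3 = (v + w) * (v + w) ^ 2 := by ring
    have h2 : 1 ≤ (v + w) ^ 2 := one_le_pow₀ hvw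
    rw [h1]; nlinarith
  by_cases hnC : (n : ℝ) ≤ (10 * C' / h) ^ 2 * w
  · have h1 : 0 ≤ 1 / (c * h) ^ 2 * (v + w) ^ 3 := by positivity
    have h2 : (10 * C' / h) ^ 2 * w ≤ (10 * C' / h) ^ 2 * (v + w) ^ 3 :=
      mul_le_mul_of_nonneg_left hwcube (by positivity)
    rw [add_mul]; linarith
  · push Not at hnC
    have h1 := hC n hn w hw1 u v h hh0 hh1
    have h2 : C * h ≤ 1 / 10 := by rw [← hCh]; exact mul_le_mul_of_nonneg_right hCC' hh0.le
    have hw0' : 0 < w := by linarith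
    have h3 : C * Real.sqrt (w / n) / h ≤ 1 / 10 := by
      have h31 : w / n ≤ (h / (10 * C')) ^ 2 := by
        rw [div_le_iff₀ hn0]
        have h32 : (h / (10 * C')) ^ 2 * ((10 * C' / h) ^ 2 * w) = w := by
          field_simp
        calc w = (h / (10 * C')) ^ 2 * ((10 * C' / h) ^ 2 * w) := h32.symm
          _ ≤ (h / (10 * C')) ^ 2 * n := mul_le_mul_of_nonneg_left hnC.le (by positivity)
      have h33 : Real.sqrt (w / n) ≤ h / (10 * C') := by
        rw [← Real.sqrt_sq (show 0 ≤ h / (10 * C') by positivity)]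
        exact Real.sqrt_le_sqrt h31
      have h34 : C * Real.sqrt (w / n) ≤ C' * (h / (10 * C')) :=
        mul_le_mul hCC' h33 (Real.sqrt_nonneg _) (by positivity)
      rw [div_le_iff₀ hh0]
      refine h34.trans (le_of_eq ?_)
      field_simp
    have h4 : 7 / 10 ≤ (iidLaw G).real
        (Apt s α β u w (v - c * h * Real.sqrt (n / w)) n) := by linarith
    have h5 := hb0 w hwb n hn u
    have h6 : -w < v - c * h * Real.sqrt (n / w) := by
      by_contra hcon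
      push Not at hcon
      have hsub : Apt s α β u w (v - c * h * Real.sqrt (n / w)) n ⊆
          HWbad s α β a u w (1 * w) 0 n := by
        intro t ht1
        refine ⟨⌊u⌋, ⌊u + s * n⌋, ht1.mono le_rfl ?_⟩
        have : 0 ≤ a * |ht s ((n : ℤ), ⌊u + s * n⌋) - ht s (0, ⌊u⌋)| :=
          mul_nonneg H.a_pos.le (abs_nonneg _)
        linarith
      have := measureReal_mono (μ := iidLaw G) hsub (measure_ne_top _ _)
      linarith
    have h7 : c * h * Real.sqrt (n / w) < v + w := by linarith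
    have h8 : (c * h) ^ 2 * (n / w) < (v + w) ^ 2 := by
      have h9 : (c * h * Real.sqrt (n / w)) ^ 2 < (v + w) ^ 2 :=
        pow_lt_pow_left₀ h7 (by positivity) (by norm_num)
      rwa [mul_pow, Real.sq_sqrt (by positivity)] at h9
    have hw0 : 0 < w := by linarith
    have h9 : (n : ℝ) ≤ 1 / (c * h) ^ 2 * (v + w) ^ 3 := by
      rw [div_mul_eq_mul_div, one_mul, le_div_iff₀ (by positivity)]
      have h10 : (c * h) ^ 2 * n < (v + w) ^ 2 * w := by
        rw [mul_div_assoc', div_lt_iff₀ hw0] at h8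
        exact h8
      have h11 : (v + w) ^ 2 * w ≤ (v + w) ^ 3 := by
        have : (v + w) ^ 3 = (v + w) ^ 2 * (v + w) := by ring
        rw [this]
        exact mul_le_mul_of_nonneg_left (by linarith) (by positivity)
      nlinarith
    have h10 : 0 ≤ (10 * C' / h) ^ 2 * (v + w) ^ 3 := by positivity
    rw [add_mul]; linarith

lemma pt_shift (z : ℤ × ℤ) (t : Environment) (x y : ℤ × ℤ) :
    passageTime (shift z t) x y = passageTime t (x + z) (y + z) :=
  K.pt_act t (K.tr z) x y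

/-- stationarity of the lower tail along columns -/
lemma prob_col_le (H : Inputs G s α β a) {C κ : ℝ}
    (hκ : κ = |β| + a / 2)
    (hC : ∀ k : ℕ, 1 ≤ k →
      (iidLaw G).real {t | passageTime t (0, 0) (0, (k : ℤ)) ≤ (|β| + a / 2) * k} ≤
      C / (k : ℝ) ^ 6) (k z z' : ℤ) (n : ℕ) (hn : 1 ≤ n) (hzn : |z' - z| = n) :
    (iidLaw G).real {t | Nn t ∧ passageTime t (k, z) (k, z') ≤ κ * n} ≤ C / (n : ℝ) ^ 6 := by
  -- reduce to `z' = z + n` by symmetry
  have key : ∀ z : ℤ, (iidLaw G).real {t | passageTime t (k, z) (k, z + n) ≤ κ * n} ≤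
      C / (n : ℝ) ^ 6 := by
    intro z
    have h1 : {t | passageTime t (k, z) (k, z + n) ≤ κ * n} =
        shift (k, z) ⁻¹' {t | passageTime t (0, 0) (0, (n : ℤ)) ≤ κ * n} := by
      ext t
      simp only [Set.mem_ofPred_eq, Set.mem_preimage, pt_shift]
      have e1 : ((0 : ℤ), (0 : ℤ)) + (k, z) = (k, z) := by ext <;> simp
      have e2 : ((0 : ℤ), (n : ℤ)) + (k, z) = (k, z + n) := by ext <;> simp [add_comm]
      rw [e1, e2]
    rw [h1]
    have h2 : MeasurableSet {t : Environment | passageTime t (0, 0) (0, (n : ℤ)) ≤ κ * n} :=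
      measurableSet_le (K.measurable_pt _ _) measurable_const
    have h3 : (iidLaw G).real (shift (k, z) ⁻¹'
        {t | passageTime t (0, 0) (0, (n : ℤ)) ≤ κ * n}) =
        (iidLaw G).real {t | passageTime t (0, 0) (0, (n : ℤ)) ≤ κ * n} := by
      simp only [Measure.real]
      rw [(A.mp_shift G (k, z)).measure_preimage h2.nullMeasurableSet]
    rw [h3, hκ]
    exact hC n hn
  rcases abs_choice (z' - z) with h | h
  · have h1 : z' = z + n := by omega
    subst h1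
    exact (measureReal_mono (fun t ht => ht.2) (measure_ne_top _ _)).trans (key z)
  · have h1 : z = z' + n := by omega
    subst h1
    refine (measureReal_mono ?_ (measure_ne_top _ _)).trans (key z')
    rintro t ⟨h2, h3⟩
    simp only [Set.mem_ofPred_eq]
    rw [K.pt_symm h2]
    exact h3

/-- **the columns are regular** -/
lemma prob_colOK (H : Inputs G s α β a) : ∃ C : ℝ, 0 ≤ C ∧ ∀ (N : ℕ) (u w δ : ℝ), 0 ≤ w → 0 < δ →
    (iidLaw G).real (ColOK s β (a / 2) u w δ N)ᶜ ≤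
      (N + 1) * (2 * w + 5) ^ 2 * (C * (1 / δ) ^ 6) := by
  classical
  obtain ⟨C, hC0, hC⟩ := H.col
  set κ : ℝ := |β| + a / 2 with hκ
  have hκ0 : 0 < κ := by have := H.a_pos; positivity
  refine ⟨C * κ ^ 6, by positivity, fun N u w δ hw hδ => ?_⟩
  set W' : ℕ := ⌈w⌉₊ + 1 with hW'
  set I : Finset ℤ := Finset.Icc (-(W' : ℤ)) W' with hI
  set z0 : ℕ → ℤ := fun k => ⌊u + s * k⌋ with hz0
  set Ev : ℕ → ℤ × ℤ → Set Environment := fun k ij =>
    {t | Nn t ∧ (δ < κ * |(ij.2 : ℝ) - ij.1| ∧ passageTime t ((k : ℤ), z0 k + ij.1)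
      ((k : ℤ), z0 k + ij.2) ≤ κ * |(ij.2 : ℝ) - ij.1|)} with hEv
  have hsub : (ColOK s β (a / 2) u w δ N)ᶜ ⊆
      (⋃ k ∈ Finset.range (N + 1), ⋃ ij ∈ I ×ˢ I, Ev k ij) ∪ {t | ¬ Nn t} := by
    intro t ht1
    by_cases hN : Nn t
    swap
    · exact Or.inr hN
    left
    simp only [ColOK, Set.mem_compl_iff, Set.mem_ofPred_eq, not_forall, not_le] at ht1
    obtain ⟨k, hk0, hkN, z, z', hz, hz', hlt⟩ := ht1
    obtain ⟨k', rfl⟩ : ∃ k' : ℕ, k = k' := ⟨k.toNat, (Int.toNat_of_nonneg hk0).symm⟩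
    have hmemI : ∀ z : ℤ, |ht s ((k' : ℤ), z) - u| ≤ w → z - z0 k' ∈ I := by
      intro z hz
      have h1 : ht s ((k' : ℤ), z) = (z : ℝ) - s * k' := by simp [ht]
      rw [h1, abs_le] at hz
      have h2 := Int.lt_floor_add_one (u + s * k')
      have h3 := Int.floor_le (u + s * k')
      have h4 : w ≤ ⌈w⌉₊ := Nat.le_ceil w
      rw [hI, Finset.mem_Icc]
      constructor
      · have h5 : (-(W' : ℤ) : ℝ) ≤ ((z - z0 k' : ℤ) : ℝ) := by
          simp only [hW', hz0]; push_cast; linarith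
        exact_mod_cast h5
      · have h5 : ((z - z0 k' : ℤ) : ℝ) ≤ ((W' : ℤ) : ℝ) := by
          simp only [hW', hz0]; push_cast; linarith
        exact_mod_cast h5
    simp only [Set.mem_iUnion, Finset.mem_range, Finset.mem_product]
    refine ⟨k', by omega, (z - z0 k', z' - z0 k'), ⟨hmemI z hz, hmemI z' hz'⟩, hN, ?_⟩
    have e1 : (((z' - z0 k' : ℤ) : ℝ)) - ((z - z0 k' : ℤ) : ℝ) = (z' : ℝ) - z := by
      push_cast; ring
    have e2 : z0 k' + (z - z0 k') = z := by ring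
    have e3 : z0 k' + (z' - z0 k') = z' := by ring
    simp only [e1, e2, e3]
    have h5 : β * ((z' : ℝ) - z) ≤ |β| * |(z' : ℝ) - z| := by
      rw [← abs_mul]; exact le_abs_self _
    have h6 : 0 ≤ passageTime t ((k' : ℤ), z) ((k' : ℤ), z') := K.pt_nonneg hN _ _
    have h7 : κ * |(z' : ℝ) - z| = |β| * |(z' : ℝ) - z| + a / 2 * |(z' : ℝ) - z| := by
      rw [hκ]; ring
    constructor
    · rw [h7]; linarith
    · rw [h7]; linarith
  have hEvp : ∀ k ij, (iidLaw G).real (Ev k ij) ≤ C * κ ^ 6 * (1 / δ) ^ 6 := by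
    intro k ij
    by_cases hcase : δ < κ * |(ij.2 : ℝ) - ij.1|
    · obtain ⟨n, hn⟩ : ∃ n : ℕ, |ij.2 - ij.1| = n :=
        ⟨(ij.2 - ij.1).natAbs, Int.abs_eq_natAbs _⟩
      have hnr : |(ij.2 : ℝ) - ij.1| = n := by
        have h1 : ((|ij.2 - ij.1| : ℤ) : ℝ) = ((n : ℤ) : ℝ) := by rw [hn]
        push_cast at h1
        exact h1
      have hn1 : 1 ≤ n := by
        rcases Nat.eq_zero_or_pos n with h | h
        · rw [hnr, h] at hcase
          simp only [Nat.cast_zero, mul_zero] at hcase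
          linarith
        · exact h
      have h1 := prob_col_le H hκ hC (k : ℤ) (z0 k + ij.1) (z0 k + ij.2) n hn1
        (by rw [add_sub_add_left_eq_sub]; exact hn)
      have h2 : (iidLaw G).real (Ev k ij) ≤ C / (n : ℝ) ^ 6 := by
        refine le_trans (measureReal_mono ?_ (measure_ne_top _ _)) h1
        rintro t ⟨g1, g2, g3⟩
        rw [hnr] at g3
        exact ⟨g1, g3⟩
      refine h2.trans ?_
      rw [hnr] at hcase
      have hn0 : (0 : ℝ) < n := by exact_mod_cast hn1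
      have h3 : δ / κ ≤ n := by
        rw [div_le_iff₀ hκ0]; linarith
      have h4 : (δ / κ) ^ 6 ≤ (n : ℝ) ^ 6 := pow_le_pow_left₀ (by positivity) h3 6
      have h5 : C / (n : ℝ) ^ 6 ≤ C / (δ / κ) ^ 6 :=
        div_le_div_of_nonneg_left hC0 (by positivity) h4
      refine h5.trans (le_of_eq ?_)
      field_simp
    · have : Ev k ij = ∅ := by
        ext t
        simp only [hEv, Set.mem_ofPred_eq, Set.mem_empty_iff_false, iff_false]
        tauto
      rw [this]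
      simp only [measureReal_empty]
      positivity
  have hcardI : (I.card : ℝ) ≤ 2 * w + 5 := by
    rw [hI, Int.card_Icc]
    have h1 : ((W' : ℤ) + 1 - -(W' : ℤ)).toNat = 2 * W' + 1 := by omega
    rw [h1]
    have h2 : (⌈w⌉₊ : ℝ) < w + 1 := Nat.ceil_lt_add_one hw
    push_cast [hW']
    linarith
  calc (iidLaw G).real (ColOK s β (a / 2) u w δ N)ᶜ
      ≤ (iidLaw G).real (⋃ k ∈ Finset.range (N + 1), ⋃ ij ∈ I ×ˢ I, Ev k ij) +
        (iidLaw G).real {t | ¬ Nn t} :=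
        (measureReal_mono hsub (measure_ne_top _ _)).trans (measureReal_union_le _ _)
    _ = (iidLaw G).real (⋃ k ∈ Finset.range (N + 1), ⋃ ij ∈ I ×ˢ I, Ev k ij) := by
        rw [real_not_Nn G H.nn, add_zero]
    _ ≤ ∑ k ∈ Finset.range (N + 1), ∑ ij ∈ I ×ˢ I, (iidLaw G).real (Ev k ij) :=
        (measureReal_biUnion_finset_le _ _).trans
          (Finset.sum_le_sum fun k _ => measureReal_biUnion_finset_le _ _)
    _ ≤ ∑ _k ∈ Finset.range (N + 1), ∑ _ij ∈ I ×ˢ I, C * κ ^ 6 * (1 / δ) ^ 6 :=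
        Finset.sum_le_sum fun k _ => Finset.sum_le_sum fun ij _ => hEvp k ij
    _ = (N + 1) * ((I.card : ℝ) ^ 2 * (C * κ ^ 6 * (1 / δ) ^ 6)) := by
        rw [Finset.sum_const, Finset.sum_const, Finset.card_range, Finset.card_product,
          nsmul_eq_mul, nsmul_eq_mul]
        push_cast; ring
    _ ≤ (N + 1) * ((2 * w + 5) ^ 2 * (C * κ ^ 6 * (1 / δ) ^ 6)) := by
        have h1 : (I.card : ℝ) ^ 2 ≤ (2 * w + 5) ^ 2 := pow_le_pow_left₀ (by positivity) hcardI 2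
        have h2 : 0 ≤ C * κ ^ 6 * (1 / δ) ^ 6 := by positivity
        exact mul_le_mul_of_nonneg_left (mul_le_mul_of_nonneg_right h1 h2) (by positivity)
    _ = (N + 1) * (2 * w + 5) ^ 2 * (C * κ ^ 6 * (1 / δ) ^ 6) := by ring

end

end Crest.Agent.R151.X
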