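import Crest.Agent.R151.N5
import Crest.Agent.R151.M51C
import Crest.Agent.R151.X684h

/-!
# R151, block N (helper792): the fields `conn`, `short` of `X.Inputs` for the general law
-/

set_option autoImplicit false

open MeasureTheory ProbabilityTheory Filter Topology
open Crest.ProbabilityR.FirstPassage
open Crest.Agent.R151.A (shift eShift block sig eX)
open Crest.Agent.R151.K (n1 Nn)
open Crest.Agent.R151.X (Cr CrE sl ht lin Apt Blk HWbad ConnL ConnR)
open Crest.Agent.R151.M51 (HasDetours Law213 mom mom_lt_top mom_four_two Thick)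
open scoped ENNReal

namespace Crest.Agent.R151.N

/-! ### chains of connections along a line -/

/-- concatenation of neighbour connections along a segment of a line -/
lemma Cr_line {S : Set (Sym2 (ℤ × ℤ))} {t : Environment} (z : ℤ → ℤ × ℤ) {a b : ℤ} (d : ℤ → ℝ)
    (hd : ∀ j, a ≤ j → j < b → 0 ≤ d j ∧ Cr S (z j) (z (j + 1)) (d j) t) :
    ∀ x y : ℤ, a ≤ x → x ≤ b → a ≤ y → y ≤ b → Cr S (z x) (z y) (∑ j ∈ Finset.Ico a b, d j) t := by
  have hup : ∀ (k : ℕ) (x : ℤ), a ≤ x → x + k ≤ b →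
      Cr S (z x) (z (x + k)) (∑ j ∈ Finset.Ico x (x + k), d j) t := by
    intro k
    induction k with
    | zero =>
      intro x _ _
      simp only [Nat.cast_zero, add_zero, Finset.Ico_self, Finset.sum_empty]
      exact Cr.refl _ le_rfl t
    | succ k ih =>
      intro x hx hk
      push_cast at hk ⊢
      have h1 := ih x hx (by omega)
      have h2 := (hd (x + k) (by omega) (by omega)).2
      have h3 : Finset.Ico x (x + (k + 1)) = insert (x + (k : ℤ)) (Finset.Ico x (x + k)) := by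
        ext i; simp only [Finset.mem_Ico, Finset.mem_insert]; omega
      rw [h3, Finset.sum_insert (by simp), add_comm (d (x + k)), ← add_assoc x]
      exact h1.trans h2
  have hle : ∀ x y : ℤ, a ≤ x → x ≤ y → y ≤ b →
      Cr S (z x) (z y) (∑ j ∈ Finset.Ico a b, d j) t := by
    intro x y hx hxy hy
    have h1 := hup (y - x).toNat x hx (by omega)
    have h2 : x + ((y - x).toNat : ℤ) = y := by omega
    rw [h2] at h1
    refine h1.mono le_rfl ?_
    refine Finset.sum_le_sum_of_subset_of_nonneg ?_ ?_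
    · intro i hi
      simp only [Finset.mem_Ico] at hi ⊢
      omega
    · intro i hi _
      simp only [Finset.mem_Ico] at hi
      exact (hd i hi.1 hi.2).1
  intro x y hx hx' hy hy'
  rcases le_total x y with h | h
  · exact hle x y hx h hy'
  · exact (hle y x hy h hx').symm

/-- the constant bounding the mean cost of the best of three detours -/
noncomputable def MD (G : Measure ℝ) : ℝ := ((9 : ℝ≥0∞) ^ (1 : ℝ) * (9 : ℝ≥0∞) ^ 3 * mom G 3 1).toReal

lemma MD_nonneg (G : Measure ℝ) : 0 ≤ MD G := ENNReal.toReal_nonneg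

variable {G : Measure ℝ} [IsProbabilityMeasure G]

lemma ofReal_MD (hG : Law213 G) :
    ENNReal.ofReal (MD G) = (9 : ℝ≥0∞) ^ (1 : ℝ) * (9 : ℝ≥0∞) ^ 3 * mom G 3 1 := by
  unfold MD
  rw [ENNReal.ofReal_toReal]
  have h1 : mom G 3 1 < ⊤ := mom_lt_top (mom_four_two hG.h0 hG.mom) (by norm_num) (by norm_num)
  refine ENNReal.mul_ne_top (ENNReal.mul_ne_top ?_ ?_) h1.ne
  · simp
  · exact ENNReal.pow_ne_top (by norm_num)

/-- one adjacency: a random cost with bounded mean -/
lemma exists_detour_cost (hG : Law213 G) {S : Set (Sym2 (ℤ × ℤ))} {x y : ℤ × ℤ} {R : Set (ℤ × ℤ)}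
    (h : HasDetours 3 x y R)
    (hR : ∀ w : squareLattice.Walk x y, (∀ z ∈ w.support, z ∈ R) → ∀ e ∈ w.edges, e ∈ S) :
    ∃ X : Environment → ℝ≥0∞, Measurable X ∧ (∫⁻ t, X t ∂(iidLaw G)) ≤ ENNReal.ofReal (MD G) ∧
      (∀ t, X t ≠ ⊤) ∧ ∀ t, Nn t → Cr S x y (X t).toReal t := by
  obtain ⟨W, h1, h2, h3⟩ := h
  refine ⟨fun t => ⨅ i, ENNReal.ofReal (((W i).edges.map t).sum), ?_, ?_, ?_, ?_⟩
  · exact Measurable.iInf fun i => (measurable_walkCost (W i)).ennreal_ofReal
  · have h4 := M51.lintegral_min_lists_le G (p := 1) one_pos 9 (fun i => (W i).edges) h1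
      (fun i => by rw [SimpleGraph.Walk.length_edges]; exact h2 i)
    rw [ofReal_MD hG]
    refine le_trans (le_of_eq ?_) h4
    refine lintegral_congr fun t => ?_
    rw [ENNReal.rpow_one]
  · intro t
    exact ((iInf_le _ (0 : Fin 3)).trans_lt ENNReal.ofReal_lt_top).ne
  · intro t ht
    obtain ⟨i, hi⟩ := exists_eq_ciInf_of_finite
      (f := fun i => ENNReal.ofReal (((W i).edges.map t).sum))
    refine ⟨W i, hR (W i) (h3 i), ?_⟩
    change ((W i).edges.map t).sum ≤ (⨅ i, ENNReal.ofReal (((W i).edges.map t).sum)).toReal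
    rw [← hi, ENNReal.toReal_ofReal]
    exact List.sum_nonneg fun x hx => by
      obtain ⟨e, he, rfl⟩ := List.mem_map.1 hx
      exact ht e

/-- connections along a column inside a thick set of columns, with large probability -/
lemma prob_col_conn (hG : Law213 G) {S : Set (Sym2 (ℤ × ℤ))} {A : Set ℤ} (hA : Thick A) {c : ℤ}
    (hc : c ∈ A) {a b : ℤ} (hab : a ≤ b)
    (hS : ∀ j : ℤ, a ≤ j → j < b → ∀ z z' : ℤ × ℤ, squareLattice.Adj z z' →
      z ∈ M51.sbox (c, j) 3 → z.1 ∈ A → z' ∈ M51.sbox (c, j) 3 → z'.1 ∈ A → s(z, z') ∈ S)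
    {κ : ℝ} (hK : 0 < κ) :
    (iidLaw G).real {t | ¬ ∀ x y : ℤ, a ≤ x → x ≤ b → a ≤ y → y ≤ b →
      Cr S (c, x) (c, y) κ t} ≤ (b - a) * MD G / κ := by
  have hadj : ∀ j : ℤ, squareLattice.Adj ((c, j) : ℤ × ℤ) (c, j + 1) := fun j =>
    M51.adj_iff.2 (Or.inl ⟨rfl, Or.inl rfl⟩)
  have hdet : ∀ j : ℤ, HasDetours 3 ((c, j) : ℤ × ℤ) (c, j + 1)
      (M51.sbox (c, j) 3 ∩ {z | z.1 ∈ A}) := fun j => M51.detours_col hA (hadj j) hc hc
  have hX : ∀ j : ℤ, a ≤ j → j < b → ∃ X : Environment → ℝ≥0∞, Measurable X ∧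
      (∫⁻ t, X t ∂(iidLaw G)) ≤ ENNReal.ofReal (MD G) ∧
      (∀ t, X t ≠ ⊤) ∧ ∀ t, Nn t → Cr S (c, j) (c, j + 1) (X t).toReal t := by
    intro j hj hj'
    refine exists_detour_cost hG (hdet j) ?_
    intro w hw e he
    induction e with
    | _ z z' =>
      have h1 := hw _ (w.fst_mem_support_of_mem_edges he)
      have h2 := hw _ (w.snd_mem_support_of_mem_edges he)
      exact hS j hj hj' z z' (w.adj_of_mem_edges he) h1.1 h1.2 h2.1 h2.2
  choose! X hXm hXi hXt hXc using hX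
  set Y : Environment → ℝ≥0∞ := fun t => ∑ j ∈ Finset.Ico a b, X j t with hY
  have hYm : Measurable Y := Finset.measurable_sum _ fun j hj => by
    rw [Finset.mem_Ico] at hj
    exact hXm j hj.1 hj.2
  have hYi : ∫⁻ t, Y t ∂(iidLaw G) ≤ ENNReal.ofReal ((b - a) * MD G) := by
    rw [hY, lintegral_finsetSum _ fun j hj => by
      rw [Finset.mem_Ico] at hj
      exact hXm j hj.1 hj.2]
    refine (Finset.sum_le_sum (g := fun _ => ENNReal.ofReal (MD G)) fun j hj => ?_).trans
      (le_of_eq ?_)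
    · rw [Finset.mem_Ico] at hj
      exact hXi j hj.1 hj.2
    · rw [Finset.sum_const, Int.card_Ico, nsmul_eq_mul, ENNReal.ofReal_mul (by
        have : (a : ℝ) ≤ b := by exact_mod_cast hab
        linarith)]
      congr 1
      rw [← ENNReal.ofReal_natCast]
      congr 1
      have h1 : (((b - a).toNat : ℤ) : ℝ) = ((b - a : ℤ) : ℝ) := by
        rw [Int.toNat_of_nonneg (by omega)]
      have h2 : (((b - a).toNat : ℕ) : ℝ) = (((b - a).toNat : ℤ) : ℝ) := by norm_cast
      rw [h2, h1]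
      push_cast
      ring
  have hba : (0 : ℝ) ≤ (b : ℝ) - a := by
    have : (a : ℝ) ≤ b := by exact_mod_cast hab
    linarith
  refine ENNReal.toReal_le_of_le_ofReal (div_nonneg (mul_nonneg hba (MD_nonneg G)) hK.le) ?_
  have hsub : {t | ¬ ∀ x y : ℤ, a ≤ x → x ≤ b → a ≤ y → y ≤ b → Cr S (c, x) (c, y) κ t} ⊆
      {t | ENNReal.ofReal κ ≤ Y t} ∪ {t | ¬ Nn t} := by
    intro t ht
    simp only [Set.mem_ofPred_eq, Set.mem_union] at ht ⊢
    by_contra hcon
    push Not at hcon
    obtain ⟨h1, h2⟩ := hcon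
    apply ht
    intro x y hx hx' hy hy'
    have h3 := Cr_line (S := S) (t := t) (fun j => (c, j)) (a := a) (b := b)
      (fun j => (X j t).toReal) (fun j hj hj' =>
        ⟨ENNReal.toReal_nonneg, hXc j hj hj' t h2⟩) x y hx hx' hy hy'
    refine h3.mono le_rfl ?_
    have h4 : ∑ j ∈ Finset.Ico a b, (X j t).toReal = (Y t).toReal := by
      rw [hY]
      rw [ENNReal.toReal_sum]
      intro j hj
      rw [Finset.mem_Ico] at hj
      exact hXt j hj.1 hj.2 t
    rw [h4]
    exact ENNReal.toReal_le_of_le_ofReal hK.le h1.le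
  refine (measure_mono hsub).trans ((measure_union_le _ _).trans ?_)
  have h5 : iidLaw G {t | ¬ Nn t} = 0 := by
    have := Crest.Agent.R151.K.ae_Nn (G := G) hG.h0
    rwa [ae_iff] at this
  rw [h5, add_zero]
  have h6 := meas_ge_le_lintegral_div (μ := iidLaw G) hYm.aemeasurable
    (ε := ENNReal.ofReal κ) (by simpa using hK) ENNReal.ofReal_ne_top
  refine h6.trans ?_
  rw [ENNReal.ofReal_div_of_pos hK]
  gcongr

/-! ### tails of a single weight -/

lemma exists_tail (G : Measure ℝ) [IsProbabilityMeasure G] {ε : ℝ} (hε : 0 < ε) :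
    ∃ r0 : ℝ, ∀ r, r0 ≤ r → ∀ e : Sym2 (ℤ × ℤ), (iidLaw G).real {t | r ≤ |t e|} ≤ ε := by
  have h1 : Tendsto (fun r : ℝ => G {x | r ≤ |x|}) atTop (𝓝 0) := by
    have h2 := tendsto_measure_iInter_atTop (μ := G) (s := fun r : ℝ => {x : ℝ | r ≤ |x|})
      (fun r => (measurableSet_le measurable_const measurable_norm).nullMeasurableSet)
      (fun r r' hr x hx => le_trans hr hx) ⟨0, measure_ne_top _ _⟩
    have h3 : (⋂ r : ℝ, {x : ℝ | r ≤ |x|}) = ∅ := by
      ext x
      simp only [Set.mem_iInter, Set.mem_ofPred_eq, Set.mem_empty_iff_false, iff_false, not_forall,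
        not_le]
      exact ⟨|x| + 1, by linarith⟩
    rw [h3, measure_empty] at h2
    exact h2
  have h4 := (ENNReal.tendsto_toReal ENNReal.zero_ne_top).comp h1
  rw [ENNReal.toReal_zero] at h4
  obtain ⟨r0, hr0⟩ := eventually_atTop.1 (h4.eventually_le_const hε)
  refine ⟨r0, fun r hr e => ?_⟩
  have h5 : (iidLaw G).real {t | r ≤ |t e|} = (G {x | r ≤ |x|}).toReal := by
    have h6 := measurePreserving_eval_infinitePi (fun _ : Sym2 (ℤ × ℤ) => G) e
    have h7 := h6.measure_preimage (s := {x : ℝ | r ≤ |x|})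
      (measurableSet_le measurable_const measurable_norm).nullMeasurableSet
    rw [← h7]
    rfl
  rw [h5]
  exact hr0 r hr

/-! ### the field `conn` -/

lemma detour_mem_sl {s u L : ℝ} {n : ℕ} (hL : 3 + 4 * |s| ≤ L) {c j : ℤ}
    (hj : |ht s (c, j) - u| ≤ L + |s|) {z z' : ℤ × ℤ}
    (hz : z ∈ M51.sbox (c, j) 3) (hz1 : z.1 ∈ Set.Icc (0 : ℤ) (n - 1))
    (hz' : z' ∈ M51.sbox (c, j) 3) (hz1' : z'.1 ∈ Set.Icc (0 : ℤ) (n - 1)) :
    s(z, z') ∈ sl s u (2 * L) 0 n := by
  have key : ∀ z : ℤ × ℤ, z ∈ M51.sbox (c, j) 3 → |ht s z - u| ≤ 2 * L := by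
    intro z hz
    obtain ⟨h1, h2⟩ := hz
    simp only at h1 h2
    have h3 : |(z.1 : ℝ) - c| ≤ 3 := by exact_mod_cast h1
    have h4 : |(z.2 : ℝ) - j| ≤ 3 := by exact_mod_cast h2
    have h5 : ht s z - u = (ht s (c, j) - u) + ((z.2 : ℝ) - j) - s * ((z.1 : ℝ) - c) := by
      simp only [ht]; ring
    rw [h5]
    refine (abs_sub _ _).trans ?_
    have h6 := abs_add_le (ht s (c, j) - u) ((z.2 : ℝ) - j)
    have h7 : |s * ((z.1 : ℝ) - c)| ≤ |s| * 3 := by
      rw [abs_mul]; gcongr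
    linarith [abs_nonneg s]
  refine ⟨?_, X.mem_tube.2 ⟨key z hz, key z' hz'⟩⟩
  simp only [block, Set.mem_ofPred_eq]
  obtain ⟨z1, z2⟩ := z
  obtain ⟨z1', z2'⟩ := z'
  simp only [Set.mem_Icc, A.eX_mk] at hz1 hz1' ⊢
  rcases min_choice z1 z1' with h | h <;> rw [h] <;> omega

/-- the field `conn` of `X.Inputs`, general law -/
theorem inputs_conn (hG : Law213 G) (s : ℝ) :
    ∀ ε > 0, ∃ (C : ℝ) (K0 : ℕ) (L0 : ℝ), 0 ≤ C ∧ ∀ L, L0 ≤ L → ∀ n : ℕ, K0 ≤ n → 1 ≤ n →
      ∀ u, (iidLaw G).real (ConnL s u L C n)ᶜ ≤ ε ∧ (iidLaw G).real (ConnR s u L C n)ᶜ ≤ ε := by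
  intro ε hε
  -- the tail of a single weight
  obtain ⟨r0, hr0⟩ := exists_tail G (half_pos hε)
  have hMD := MD_nonneg G
  set C1 : ℝ := 6 * MD G / ε with hC1
  have hC10 : 0 ≤ C1 := by positivity
  refine ⟨C1 + 2, 3, max (max 3 (3 + 4 * |s|)) r0, by positivity, fun L hL n hn3 hn u => ?_⟩
  have hL3 : 3 ≤ L := ((le_max_left _ _).trans (le_max_left _ _)).trans hL
  have hLs : 3 + 4 * |s| ≤ L := ((le_max_right _ _).trans (le_max_left _ _)).trans hL
  have hLr : r0 ≤ L := (le_max_right _ _).trans hL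
  have hL0 : 0 < L := by linarith
  have hA : Thick (Set.Icc (0 : ℤ) (n - 1)) := M51.thick_Icc (by omega)
  have hmain : ∀ c : ℤ, c ∈ Set.Icc (0 : ℤ) (n - 1) → ∀ v : ℝ, (∀ j : ℤ, |(j : ℝ) - v| ≤ L →
      |ht s (c, j) - u| ≤ L + |s|) →
      (iidLaw G).real {t | ¬ ∀ x y : ℤ, ⌈v - L⌉ ≤ x → x ≤ ⌊v + L⌋ → ⌈v - L⌉ ≤ y → y ≤ ⌊v + L⌋ →
        Cr (sl s u (2 * L) 0 n) (c, x) (c, y) ((C1 + 1) * L) t} ≤ ε / 2 := by
    intro c hc v hv
    have hab : ⌈v - L⌉ ≤ ⌊v + L⌋ := by
      rw [Int.ceil_le]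
      have := Int.lt_floor_add_one (v + L)
      linarith
    have h1 := prob_col_conn hG (S := sl s u (2 * L) 0 n) hA hc hab (fun j hj hj' z z' _ hz hz1 hz'
      hz1' => by
        refine detour_mem_sl hLs (hv j ?_) hz hz1 hz' hz1'
        rw [Int.ceil_le] at hj
        have h2 : j ≤ ⌊v + L⌋ := hj'.le
        rw [Int.le_floor] at h2
        rw [abs_le]
        constructor <;> linarith) (κ := (C1 + 1) * L) (by positivity)
    refine h1.trans ?_
    rw [div_le_iff₀ (by positivity)]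
    have h2 : ((⌊v + L⌋ : ℤ) : ℝ) - (⌈v - L⌉ : ℤ) ≤ 2 * L := by
      linarith [Int.floor_le (v + L), Int.le_ceil (v - L)]
    have h3 : C1 * ε = 6 * MD G := by rw [hC1]; field_simp
    calc (((⌊v + L⌋ : ℤ) : ℝ) - (⌈v - L⌉ : ℤ)) * MD G ≤ 2 * L * MD G := by gcongr
      _ ≤ ε / 2 * ((C1 + 1) * L) := by
          have : ε / 2 * ((C1 + 1) * L) = (C1 * ε) / 2 * L + ε / 2 * L := by ring
          rw [this, h3]
          nlinarith [mul_nonneg hMD hL0.le, mul_pos hε hL0]
  have hwin : ∀ v : ℝ, ∀ x : ℤ, |(x : ℝ) - v| ≤ L → ⌈v - L⌉ ≤ x ∧ x ≤ ⌊v + L⌋ := by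
    intro v x hx
    rw [abs_le] at hx
    rw [Int.ceil_le, Int.le_floor]
    constructor <;> linarith
  constructor
  · have h1 := hmain 0 ⟨le_rfl, by omega⟩ u (fun j hj => by
      have : ht s (0, j) = (j : ℝ) := by simp [ht]
      rw [this]
      linarith [abs_nonneg s])
    refine (measureReal_mono ?_).trans (h1.trans (by linarith))
    intro t ht1 hcon
    apply ht1
    intro x hx
    have h2 : ht s (0, x) = (x : ℝ) := by simp [ht]
    rw [h2] at hx
    have h3 : |((⌊u⌋ : ℤ) : ℝ) - u| ≤ L := by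
      rw [abs_le]
      constructor <;> linarith [Int.floor_le u, Int.lt_floor_add_one u]
    have h4 := hcon ⌊u⌋ x (hwin u _ h3).1 (hwin u _ h3).2 (hwin u _ hx).1 (hwin u _ hx).2
    exact h4.mono le_rfl (by nlinarith)
  · have hn1 : (n : ℤ) - 1 ∈ Set.Icc (0 : ℤ) (n - 1) := ⟨by omega, le_rfl⟩
    have h1 := hmain ((n : ℤ) - 1) hn1 (u + s * n) (fun j hj => by
      have h2 : ht s ((n : ℤ) - 1, j) - u = ((j : ℝ) - (u + s * n)) + s := by
        simp only [ht]; push_cast; ring
      rw [h2]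
      exact (abs_add_le _ _).trans (by linarith))
    set ys : ℤ := ⌊u + s * n⌋ with hys
    set e0 : Sym2 (ℤ × ℤ) := s(((n : ℤ) - 1, ys), ((n : ℤ), ys)) with he0
    have h5 := hr0 L hLr e0
    have hsub : (ConnR s u L (C1 + 2) n)ᶜ ⊆
        {t | ¬ ∀ x y : ℤ, ⌈u + s * n - L⌉ ≤ x → x ≤ ⌊u + s * n + L⌋ → ⌈u + s * n - L⌉ ≤ y →
          y ≤ ⌊u + s * n + L⌋ →
          Cr (sl s u (2 * L) 0 n) ((n : ℤ) - 1, x) ((n : ℤ) - 1, y) ((C1 + 1) * L) t} ∪
          {t | L ≤ |t e0|} := by
      intro t ht1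
      by_contra hcon
      simp only [Set.mem_union, Set.mem_ofPred_eq, not_or, not_not, not_le] at hcon
      obtain ⟨h6, h7⟩ := hcon
      apply ht1
      intro y hy
      have h2 : ht s (n, y) - u = (y : ℝ) - (u + s * n) := by
        simp only [ht]; push_cast; ring
      rw [h2] at hy
      have h3 : |(ys : ℝ) - (u + s * n)| ≤ 1 := by
        rw [abs_le]
        constructor <;> linarith [Int.floor_le (u + s * n), Int.lt_floor_add_one (u + s * n)]
      have h3' : |(ys : ℝ) - (u + s * n)| ≤ L := by linarith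
      have h8 := h6 y ys (hwin _ _ hy).1 (hwin _ _ hy).2 (hwin _ _ h3').1 (hwin _ _ h3').2
      have hadj : squareLattice.Adj (((n : ℤ) - 1, ys) : ℤ × ℤ) ((n : ℤ), ys) :=
        M51.adj_iff.2 (Or.inr ⟨rfl, Or.inl (by ring)⟩)
      have h9 : Cr (sl s u (2 * L) 0 n) ((n : ℤ) - 1, ys) ((n : ℤ), ys) L t := by
        refine ⟨SimpleGraph.Walk.cons hadj SimpleGraph.Walk.nil, ?_, ?_⟩
        · intro e he
          simp only [SimpleGraph.Walk.edges_cons, SimpleGraph.Walk.edges_nil,
            List.mem_singleton] at he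
          subst he
          refine ⟨?_, X.mem_tube.2 ⟨?_, ?_⟩⟩
          · simp only [block, Set.mem_ofPred_eq, A.eX_mk]
            rw [min_eq_left (by omega)]
            omega
          · have h10 : ht s ((n : ℤ) - 1, ys) - u = ((ys : ℝ) - (u + s * n)) + s := by
              simp only [ht]; push_cast; ring
            rw [h10]
            refine (abs_add_le _ _).trans ?_
            linarith [abs_nonneg s]
          · have h10 : ht s ((n : ℤ), ys) - u = (ys : ℝ) - (u + s * n) := by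
              simp only [ht]; push_cast; ring
            rw [h10]
            linarith
        · simp only [walkCost, SimpleGraph.Walk.edges_cons, SimpleGraph.Walk.edges_nil,
            List.map_cons, List.map_nil, List.sum_cons, List.sum_nil, add_zero]
          exact (le_abs_self _).trans h7.le
      exact (h8.trans h9).mono le_rfl (by linarith)
    refine (measureReal_mono hsub).trans ((measureReal_union_le _ _).trans ?_)
    linarith

/-! ### the field `short` -/

/-- a family of at most `m` weights is bounded with large probability -/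
lemma exists_bound_family (G : Measure ℝ) [IsProbabilityMeasure G] {ε : ℝ} (hε : 0 < ε) (m : ℕ) :
    ∃ r : ℝ, 0 ≤ r ∧ ∀ F : Finset (Sym2 (ℤ × ℤ)), F.card ≤ m →
      (iidLaw G).real {t | ∃ e ∈ F, r ≤ |t e|} ≤ ε := by
  obtain ⟨r0, hr0⟩ := exists_tail G (ε := ε / (m + 1)) (by positivity)
  refine ⟨max r0 0, le_max_right _ _, fun F hF => ?_⟩
  have h1 : {t : Environment | ∃ e ∈ F, max r0 0 ≤ |t e|} =
      ⋃ e ∈ F, {t : Environment | max r0 0 ≤ |t e|} := by
    ext t; simp
  rw [h1]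
  refine (measureReal_biUnion_finset_le F _).trans ?_
  calc ∑ e ∈ F, (iidLaw G).real {t : Environment | max r0 0 ≤ |t e|}
      ≤ ∑ _e ∈ F, ε / (m + 1) := Finset.sum_le_sum fun e _ => hr0 _ (le_max_left _ _) e
    _ = F.card * (ε / (m + 1)) := by rw [Finset.sum_const, nsmul_eq_mul]
    _ ≤ m * (ε / (m + 1)) := by
        have : (F.card : ℝ) ≤ m := by exact_mod_cast hF
        gcongr
    _ ≤ ε := by
        rw [← mul_div_assoc, div_le_iff₀ (by positivity)]
        nlinarith

/-- the field `short` of `X.Inputs`, any law -/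
theorem inputs_short (G : Measure ℝ) [IsProbabilityMeasure G] (s α β : ℝ) :
    ∀ ε > 0, ∀ K0 : ℕ, ∃ K' : ℝ, ∀ n : ℕ, 1 ≤ n → n ≤ K0 → ∀ u,
      1 - ε ≤ (iidLaw G).real (Apt s α β u K' K' n) := by
  classical
  intro ε hε K0
  -- number of edges
  set m : ℕ := ⌈|s| * K0 + 1⌉₊ + K0 with hm
  obtain ⟨r, hr0, hr⟩ := exists_bound_family G hε m
  set K' : ℝ := r * m + |α| * K0 + |β| * (|s| * K0 + 1) + (1 + 2 * |s| * K0) with hK'
  refine ⟨K', fun n hn hnK u => ?_⟩
  have hnK' : (n : ℝ) ≤ K0 := by exact_mod_cast hnK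
  have hs0 := abs_nonneg s
  have hsn : |s * n| ≤ |s| * K0 := by
    rw [abs_mul, Nat.abs_cast]
    gcongr
  set y0 : ℤ := ⌊u⌋ with hy0
  set y1 : ℤ := ⌊u + s * n⌋ with hy1
  have hdy : |(y1 : ℝ) - y0| ≤ |s| * K0 + 1 := by
    rw [abs_le] at hsn ⊢
    have h1 := Int.floor_le u
    have h2 := Int.lt_floor_add_one u
    have h3 := Int.floor_le (u + s * n)
    have h4 := Int.lt_floor_add_one (u + s * n)
    constructor <;> linarith [hsn.1, hsn.2]
  -- the two families of edges
  set a : ℤ := min y0 y1 with ha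
  set b : ℤ := max y0 y1 with hb
  have hab : a ≤ b := min_le_max
  let ev : ℤ → Sym2 (ℤ × ℤ) := fun j => s((0, j), (0, j + 1))
  let eh : ℤ → Sym2 (ℤ × ℤ) := fun i => s((i, y1), (i + 1, y1))
  let F : Finset (Sym2 (ℤ × ℤ)) := (Finset.Ico a b).image ev ∪ (Finset.Ico (0 : ℤ) n).image eh
  have hbacast : ((b - a : ℤ) : ℝ) = |(y1 : ℝ) - y0| := by
    rw [ha, hb]
    rcases le_total y0 y1 with h | h
    · rw [max_eq_right h, min_eq_left h, abs_of_nonneg (by
        have : (y0 : ℝ) ≤ y1 := by exact_mod_cast h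
        linarith)]
      push_cast; ring
    · rw [max_eq_left h, min_eq_right h, abs_of_nonpos (by
        have : (y1 : ℝ) ≤ y0 := by exact_mod_cast h
        linarith)]
      push_cast; ring
  have hcardv : (b - a).toNat ≤ ⌈|s| * K0 + 1⌉₊ := by
    have h1 : (((b - a).toNat : ℕ) : ℝ) ≤ |s| * K0 + 1 := by
      have h2 : (((b - a).toNat : ℤ) : ℝ) = ((b - a : ℤ) : ℝ) := by
        rw [Int.toNat_of_nonneg (by omega)]
      have h3 : (((b - a).toNat : ℕ) : ℝ) = (((b - a).toNat : ℤ) : ℝ) := by norm_cast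
      rw [h3, h2, hbacast]
      exact hdy
    exact_mod_cast h1.trans (Nat.le_ceil _)
  have hF : F.card ≤ m := by
    refine (Finset.card_union_le _ _).trans ?_
    rw [hm]
    refine add_le_add (Finset.card_image_le.trans ?_) (Finset.card_image_le.trans ?_)
    · rw [Int.card_Ico]; exact hcardv
    · rw [Int.card_Ico]; omega
  have h1 := hr F hF
  -- geometry
  have hu0 : |(y0 : ℝ) - u| ≤ 1 := by
    rw [abs_le]
    constructor <;> linarith [Int.floor_le u, Int.lt_floor_add_one u]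
  have hu1 : |(y1 : ℝ) - (u + s * n)| ≤ 1 := by
    rw [abs_le]
    constructor <;> linarith [Int.floor_le (u + s * n), Int.lt_floor_add_one (u + s * n)]
  have hrm : 0 ≤ r * m := by positivity
  have hαK : 0 ≤ |α| * K0 := by positivity
  have hβK : 0 ≤ |β| * (|s| * K0 + 1) := by positivity
  have hK'1 : 1 + 2 * |s| * K0 ≤ K' := by rw [hK']; linarith
  have hsK : 0 ≤ |s| * K0 := by positivity
  have hsub : (Apt s α β u K' K' n)ᶜ ⊆ {t | ∃ e ∈ F, r ≤ |t e|} := by
    intro t ht1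
    by_contra hcon
    simp only [Set.mem_ofPred_eq, not_exists, not_and, not_le] at hcon
    apply ht1
    have hv : ∀ j, a ≤ j → j < b → 0 ≤ r ∧ Cr (sl s u K' 0 n) (0, j) (0, j + 1) r t := by
      intro j hj hj'
      refine ⟨hr0, ?_⟩
      have hadj : squareLattice.Adj ((0, j) : ℤ × ℤ) (0, j + 1) :=
        M51.adj_iff.2 (Or.inl ⟨rfl, Or.inl rfl⟩)
      have hmem : ev j ∈ F := Finset.mem_union_left _
        (Finset.mem_image_of_mem _ (Finset.mem_Ico.2 ⟨hj, hj'⟩))
      refine ⟨SimpleGraph.Walk.cons hadj SimpleGraph.Walk.nil, ?_, ?_⟩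
      · intro e he
        simp only [SimpleGraph.Walk.edges_cons, SimpleGraph.Walk.edges_nil,
          List.mem_singleton] at he
        subst he
        have hb1 : ∀ i : ℤ, a ≤ i → i ≤ b → |ht s (0, i) - u| ≤ K' := by
          intro i hi hi'
          have h2 : ht s (0, i) = (i : ℝ) := by simp [ht]
          rw [h2]
          have h3 : (a : ℝ) ≤ i := by exact_mod_cast hi
          have h4 : (i : ℝ) ≤ b := by exact_mod_cast hi'
          have h5 : (a : ℝ) = min (y0 : ℝ) y1 := by rw [ha]; push_cast; rfl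
          have h6 : (b : ℝ) = max (y0 : ℝ) y1 := by rw [hb]; push_cast; rfl
          rw [abs_le] at hu0 hu1 hsn ⊢
          constructor
          · have h7 : u - 1 - |s| * K0 ≤ min (y0 : ℝ) y1 :=
              le_min (by linarith) (by linarith)
            linarith
          · have h7 : max (y0 : ℝ) y1 ≤ u + 1 + |s| * K0 :=
              max_le (by linarith) (by linarith)
            linarith
        refine ⟨?_, X.mem_tube.2 ⟨hb1 j hj hj'.le, hb1 (j + 1) (by omega) (by omega)⟩⟩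
        simp only [block, Set.mem_ofPred_eq, A.eX_mk, min_self]
        omega
      · simp only [walkCost, SimpleGraph.Walk.edges_cons, SimpleGraph.Walk.edges_nil,
          List.map_cons, List.map_nil, List.sum_cons, List.sum_nil, add_zero]
        exact (le_abs_self _).trans (hcon _ hmem).le
    have hh : ∀ i, (0 : ℤ) ≤ i → i < n → 0 ≤ r ∧ Cr (sl s u K' 0 n) (i, y1) (i + 1, y1) r t := by
      intro i hi hi'
      refine ⟨hr0, ?_⟩
      have hadj : squareLattice.Adj ((i, y1) : ℤ × ℤ) (i + 1, y1) :=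
        M51.adj_iff.2 (Or.inr ⟨rfl, Or.inl rfl⟩)
      have hmem : eh i ∈ F := Finset.mem_union_right _
        (Finset.mem_image_of_mem _ (Finset.mem_Ico.2 ⟨hi, hi'⟩))
      refine ⟨SimpleGraph.Walk.cons hadj SimpleGraph.Walk.nil, ?_, ?_⟩
      · intro e he
        simp only [SimpleGraph.Walk.edges_cons, SimpleGraph.Walk.edges_nil,
          List.mem_singleton] at he
        subst he
        have hb1 : ∀ k : ℤ, 0 ≤ k → k ≤ n → |ht s (k, y1) - u| ≤ K' := by
          intro k hk hk'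
          have h2 : ht s (k, y1) - u = ((y1 : ℝ) - (u + s * n)) + s * ((n : ℝ) - k) := by
            simp only [ht]; ring
          rw [h2]
          refine (abs_add_le _ _).trans ?_
          have h3 : |s * ((n : ℝ) - k)| ≤ |s| * K0 := by
            rw [abs_mul]
            have h4 : |(n : ℝ) - k| ≤ K0 := by
              have h5 : (0 : ℝ) ≤ k := by exact_mod_cast hk
              have h6 : (k : ℝ) ≤ n := by exact_mod_cast hk'
              rw [abs_le]
              constructor <;> linarith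
            gcongr
          linarith
        refine ⟨?_, X.mem_tube.2 ⟨hb1 i hi hi'.le, hb1 (i + 1) (by omega) (by omega)⟩⟩
        simp only [block, Set.mem_ofPred_eq, A.eX_mk]
        rw [min_eq_left (by omega)]
        exact ⟨hi, hi'⟩
      · simp only [walkCost, SimpleGraph.Walk.edges_cons, SimpleGraph.Walk.edges_nil,
          List.map_cons, List.map_nil, List.sum_cons, List.sum_nil, add_zero]
        exact (le_abs_self _).trans (hcon _ hmem).le
    have h2 := Cr_line (S := sl s u K' 0 n) (t := t) (fun j => (0, j)) (a := a) (b := b)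
      (fun _ => r) hv y0 y1 (min_le_left _ _) (le_max_left _ _) (min_le_right _ _)
      (le_max_right _ _)
    have h3 := Cr_line (S := sl s u K' 0 n) (t := t) (fun i => (i, y1)) (a := 0) (b := n)
      (fun _ => r) hh 0 n le_rfl (by omega) (by omega) le_rfl
    refine (h2.trans h3).mono le_rfl ?_
    rw [Finset.sum_const, Finset.sum_const, Int.card_Ico, Int.card_Ico, nsmul_eq_mul, nsmul_eq_mul]
    have h4 : (((b - a).toNat : ℕ) : ℝ) ≤ ⌈|s| * K0 + 1⌉₊ := by exact_mod_cast hcardv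
    have h5 : ((((n : ℤ) - 0).toNat : ℕ) : ℝ) ≤ K0 := by
      have : ((n : ℤ) - 0).toNat = n := by omega
      rw [this]; exact hnK'
    have h6 : (((b - a).toNat : ℕ) : ℝ) * r + ((((n : ℤ) - 0).toNat : ℕ) : ℝ) * r ≤ r * m := by
      have h7 : (m : ℝ) = (⌈|s| * K0 + 1⌉₊ : ℕ) + K0 := by rw [hm]; push_cast; ring
      rw [h7]
      nlinarith
    have h8 : lin α β ((n : ℤ), y1) - lin α β (0, y0) = α * n + β * ((y1 : ℝ) - y0) := by
      simp only [lin]; push_cast; ring
    change _ ≤ lin α β ((n : ℤ), y1) - lin α β (0, y0) + K'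
    rw [h8]
    have h9 : -(|α| * K0) ≤ α * n := by
      have : |α * n| ≤ |α| * K0 := by
        rw [abs_mul, Nat.abs_cast]
        gcongr
      linarith [neg_abs_le (α * n)]
    have h10 : -(|β| * (|s| * K0 + 1)) ≤ β * ((y1 : ℝ) - y0) := by
      have : |β * ((y1 : ℝ) - y0)| ≤ |β| * (|s| * K0 + 1) := by
        rw [abs_mul]
        gcongr
      linarith [neg_abs_le (β * ((y1 : ℝ) - y0))]
    rw [hK']
    linarith
  have hmeas : MeasurableSet (Apt s α β u K' K' n) :=
    X.sig_le _ _ (X.measurableSet_CrE α β _ _ _ _)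
  have h2 := measureReal_mono (μ := iidLaw G) hsub (measure_ne_top _ _)
  rw [probReal_compl_eq_one_sub hmeas] at h2
  linarith

end Crest.Agent.R151.N
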