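import Crest.Agent.R151.X684i

/-!
# R151, block X (helper684), part j: renormalisation with constants, and the contradiction
-/

set_option autoImplicit false

open MeasureTheory ProbabilityTheory Filter Topology
open Crest.ProbabilityR.FirstPassage
open Crest.Agent.R151.A (shift eShift block sig eX)
open Crest.Agent.R151.K (Nn)

namespace Crest.Agent.R151.X

set_option maxHeartbeats 400000

variable {G : Measure ℝ} [IsProbabilityMeasure G] {s α β a : ℝ}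

lemma exists_consts {a C b c3 : ℝ} (ha : 0 < a) (hC : 0 ≤ C) (hb : 0 ≤ b) (hc3 : 6 ≤ c3) :
    ∃ q1 q2 q5 q6 qD q8 B : ℝ, 1 ≤ q1 ∧ 1 ≤ q2 ∧ 6 ≤ q5 ∧ q5 ≤ q6 ∧ 0 ≤ q8 ∧ 1 ≤ B ∧ c3 ≤ B ∧
      q1 ≤ B ∧ q2 ≤ B ∧ q8 ≤ B ∧
      (∀ e : ℝ, 1 ≤ e → 2 * (c3 * e) + 1 ≤ q1 * e) ∧
      (∀ e : ℝ, 1 ≤ e → c3 * e + 2 * (C * (q1 * e) + b * (q1 * e + 1)) ≤ q5 * e) ∧
      (∀ e : ℝ, 1 ≤ e → (q5 * e + 3 * (e / 100) + a) / a ≤ q2 * e) ∧
      (∀ e : ℝ, 1 ≤ e → q5 * e + 2 * (e / 100) + C * (q2 * e) + b * (q2 * e + 1) ≤ q6 * e) ∧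
      (∀ e : ℝ, 1 ≤ e → q6 * e + e / 100 + 2 * a ≤ qD * e) ∧
      (∀ e : ℝ, 1 ≤ e → 2 * (q5 * e + 2 * (qD * e) + 2 * (e / 100)) / a ≤ q8 * e) := by
  obtain ⟨q1, hq1⟩ : ∃ q1 : ℝ, q1 = 2 * c3 + 1 := ⟨_, rfl⟩
  have hq11 : 1 ≤ q1 := by linarith
  obtain ⟨q5, hq5⟩ : ∃ q5 : ℝ, q5 = c3 + 2 * (C * q1 + b * (q1 + 1)) := ⟨_, rfl⟩
  have hq56 : 6 ≤ q5 := by
    have : 0 ≤ 2 * (C * q1 + b * (q1 + 1)) := by positivity
    linarith
  obtain ⟨q2, hq2⟩ : ∃ q2 : ℝ, q2 = (q5 + 3 / 100 + a) / a := ⟨_, rfl⟩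
  have hq21 : 1 ≤ q2 := by
    rw [hq2, le_div_iff₀ ha]; linarith
  obtain ⟨q6, hq6⟩ : ∃ q6 : ℝ, q6 = q5 + 2 / 100 + C * q2 + b * (q2 + 1) := ⟨_, rfl⟩
  have hq65 : q5 ≤ q6 := by
    have : 0 ≤ C * q2 + b * (q2 + 1) := by positivity
    linarith
  obtain ⟨qD, hqD⟩ : ∃ qD : ℝ, qD = q6 + 1 / 100 + 2 * a := ⟨_, rfl⟩
  obtain ⟨q8, hq8⟩ : ∃ q8 : ℝ, q8 = 2 * (q5 + 2 * qD + 2 / 100) / a := ⟨_, rfl⟩
  have hq80 : 0 ≤ q8 := by
    have : 0 ≤ q5 + 2 * qD + 2 / 100 := by linarith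
    rw [hq8]; positivity
  refine ⟨q1, q2, q5, q6, qD, q8, q8 + q1 + q2 + c3 + 1, hq11, hq21, hq56, hq65, hq80,
    by linarith, by linarith, by linarith, by linarith, by linarith, ?_, ?_, ?_, ?_, ?_, ?_⟩
  · intro e he
    have : q1 * e = 2 * (c3 * e) + e := by rw [hq1]; ring
    linarith
  · intro e he
    have h1 : q5 * e = c3 * e + 2 * (C * (q1 * e) + b * (q1 * e + e)) := by rw [hq5]; ring
    have h2 : b * (q1 * e + 1) ≤ b * (q1 * e + e) := mul_le_mul_of_nonneg_left (by linarith) hb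
    linarith
  · intro e he
    have h1 : q2 * e = (q5 * e + 3 / 100 * e + a * e) / a := by rw [hq2]; ring
    rw [h1]
    refine div_le_div_of_nonneg_right ?_ ha.le
    have : a ≤ a * e := le_mul_of_one_le_right ha.le he
    linarith
  · intro e he
    have h1 : q6 * e = q5 * e + 2 / 100 * e + C * (q2 * e) + b * (q2 * e + e) := by
      rw [hq6]; ring
    have h2 : b * (q2 * e + 1) ≤ b * (q2 * e + e) := mul_le_mul_of_nonneg_left (by linarith) hb
    linarith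
  · intro e he
    have h1 : qD * e = q6 * e + 1 / 100 * e + 2 * (a * e) := by rw [hqD]; ring
    have : a ≤ a * e := le_mul_of_one_le_right ha.le he
    linarith
  · intro e he
    have h1 : q8 * e = 2 * (q5 * e + 2 * (qD * e) + 2 / 100 * e) / a := by rw [hq8]; ring
    rw [h1]
    refine div_le_div_of_nonneg_right ?_ ha.le
    linarith

/-- arithmetic of the column estimate -/
lemma col_arith {Cb Cc e M B W : ℝ} {n : ℝ} (hCb : 0 ≤ Cb) (hCc : 0 ≤ Cc) (he : 1 ≤ e)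
    (hM : 1 ≤ M) (hB : 1 ≤ B) (hW : W = B * (M * e)) (hn : 0 ≤ n)
    (h2 : n ≤ Cb * (M * e + W) ^ 3)
    (hKK : 100 * ((Cb * (M * (1 + B)) ^ 3 + 1) * (6 * (B * M) + 7) ^ 2 * (Cc * 100 ^ 6)) ≤ e) :
    (n + 1) * (2 * (3 * W + 1) + 5) ^ 2 * (Cc * (1 / (e / 100)) ^ 6) ≤ 1 / 100 := by
  have he0 : 0 < e := by linarith
  have hW0 : 0 ≤ W := by rw [hW]; positivity
  have h3 : n + 1 ≤ (Cb * (M * (1 + B)) ^ 3 + 1) * e ^ 3 := by
    have h4 : (M * e + W) ^ 3 = (M * (1 + B)) ^ 3 * e ^ 3 := by rw [hW]; ring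
    rw [h4] at h2
    have h5 : 1 ≤ e ^ 3 := one_le_pow₀ he
    have h6 : (Cb * (M * (1 + B)) ^ 3 + 1) * e ^ 3 = Cb * ((M * (1 + B)) ^ 3 * e ^ 3) + e ^ 3 := by
      ring
    rw [h6]; linarith
  have h4 : (2 * (3 * W + 1) + 5) ^ 2 ≤ (6 * (B * M) + 7) ^ 2 * e ^ 2 := by
    rw [← mul_pow]
    refine pow_le_pow_left₀ (by linarith) ?_ 2
    have h5 : (6 * (B * M) + 7) * e = 6 * W + 7 * e := by rw [hW]; ring
    rw [h5]; linarith
  have h5 : (1 / (e / 100)) ^ 6 = 100 ^ 6 / e ^ 6 := by field_simp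
  rw [h5]
  obtain ⟨KK, hK⟩ : ∃ KK : ℝ, KK = (Cb * (M * (1 + B)) ^ 3 + 1) * (6 * (B * M) + 7) ^ 2 *
    (Cc * 100 ^ 6) := ⟨_, rfl⟩
  rw [← hK] at hKK
  have h6 : (n + 1) * (2 * (3 * W + 1) + 5) ^ 2 * (Cc * (100 ^ 6 / e ^ 6)) ≤ KK / e := by
    have h7 : (n + 1) * (2 * (3 * W + 1) + 5) ^ 2 ≤
        (Cb * (M * (1 + B)) ^ 3 + 1) * e ^ 3 * ((6 * (B * M) + 7) ^ 2 * e ^ 2) :=
      mul_le_mul h3 h4 (by positivity) (by positivity)
    refine (mul_le_mul_of_nonneg_right h7 (by positivity)).trans (le_of_eq ?_)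
    rw [hK]
    field_simp
  refine h6.trans ?_
  rw [div_le_iff₀ he0]
  linarith

/-- **the renormalisation inequality** -/
theorem renorm (H : Inputs G s α β a) : ∃ Cs B : ℝ, 1 ≤ Cs ∧ 1 ≤ B ∧ ∃ M0 : ℕ,
    ∀ M : ℕ, M0 ≤ M → ∃ e0 : ℝ, ∀ m : ℕ, 1 ≤ m → ∀ e : ℝ, e0 ≤ e →
      Sgd G s α β B (M * e) (M * m) → Sgd G s α β B (Cs * e) m := by
  have ha := H.a_pos
  obtain ⟨ν, hν0, hν1, M0, hM0⟩ := exists_nu (c := 1 / 100) (by norm_num) (by norm_num)
  obtain ⟨C, K0, L0, hC0, hconn⟩ := H.conn (1 / 100) (by norm_num)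
  obtain ⟨K', hK'⟩ := H.short (1 / 10) (by norm_num) K0
  obtain ⟨Cb, b1, hCb0, hbase⟩ := base H
  obtain ⟨Cc, hCc0, hcolOK⟩ := prob_colOK H
  obtain ⟨c3, hc3⟩ : ∃ c3 : ℝ, c3 = 3 / ν * (2 + 3 / a) := ⟨_, rfl⟩
  have hc36 : 6 ≤ c3 := by
    have h1 : 3 ≤ 3 / ν := by rw [le_div_iff₀ hν0]; linarith
    have h2 : 2 ≤ 2 + 3 / a := by
      have : 0 < 3 / a := by positivity
      linarith
    rw [hc3]
    calc (6 : ℝ) = 3 * 2 := by norm_num
      _ ≤ 3 / ν * (2 + 3 / a) := mul_le_mul h1 h2 (by norm_num) (by positivity)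
  obtain ⟨q1, q2, q5, q6, qD, q8, B, hq11, hq21, hq56, hq65, hq80, hB1, hBc3, hBq1, hBq2, hBq8,
    k1, k2, k3, k4, k5, k6⟩ := exists_consts ha hC0 (abs_nonneg β) hc36
  refine ⟨q5 + 1, B, by linarith, hB1, max M0 1, fun M hM => ?_⟩
  have hMM0 : M0 ≤ M := (le_max_left _ _).trans hM
  have hM1 : 1 ≤ M := (le_max_right _ _).trans hM
  have hM1r : (1 : ℝ) ≤ M := by exact_mod_cast hM1
  have hBM : 1 ≤ B * M := one_le_mul_of_one_le_of_one_le hB1 hM1r
  obtain ⟨l, hl, hnu⟩ := hM0 M hMM0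
  obtain ⟨b0, hb0⟩ := H.hw (1 / (1000 * (B * M))) (by positivity)
    (min (1 / (20 * (M : ℝ))) (1 / 100)) (lt_min (by positivity) (by norm_num))
  obtain ⟨e0, h01, h02, h03, h04, h05, h06⟩ : ∃ e0 : ℝ, 1 ≤ e0 ∧ b0 ≤ e0 ∧ b1 ≤ e0 ∧ L0 ≤ e0 ∧
      K' ≤ e0 ∧ 100 * ((Cb * (M * (1 + B)) ^ 3 + 1) * (6 * (B * M) + 7) ^ 2 *
        (Cc * 100 ^ 6)) ≤ e0 := by
    obtain ⟨KK, hKK⟩ : ∃ KK : ℝ, KK = 100 * ((Cb * (M * (1 + B)) ^ 3 + 1) *
      (6 * (B * M) + 7) ^ 2 * (Cc * 100 ^ 6)) := ⟨_, rfl⟩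
    rw [← hKK]
    refine ⟨max 1 (max b0 (max b1 (max L0 (max K' KK)))), le_max_left _ _, ?_, ?_, ?_, ?_, ?_⟩ <;>
    simp only [le_max_iff, le_refl, true_or, or_true]
  refine ⟨e0, fun m hm e he hlong => ?_⟩
  have he1 : 1 ≤ e := h01.trans he
  have he0 : 0 < e := by linarith
  obtain ⟨W, hW⟩ : ∃ W : ℝ, W = B * (M * e) := ⟨_, rfl⟩
  have hW' : W = (B * M) * e := by rw [hW]; ring
  have hWe : e ≤ W := by
    rw [hW']; exact le_mul_of_one_le_left he0.le hBM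
  have hBBM : B ≤ B * M := le_mul_of_one_le_right (by linarith) hM1r
  have hcoef : ∀ q : ℝ, q ≤ B → q * e ≤ W := by
    intro q hq
    rw [hW']
    exact mul_le_mul_of_nonneg_right (hq.trans hBBM) he0.le
  have heq : ∀ q : ℝ, 1 ≤ q → e ≤ q * e := fun q hq => le_mul_of_one_le_left he0.le hq
  have hq5e : e ≤ (q5 + 1) * e := heq _ (by linarith)
  have hBe : ∀ x : ℝ, 0 ≤ x → x ≤ B * x := fun x hx => le_mul_of_one_le_left hx hB1
  -- the case of short blocks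
  rcases lt_or_ge m K0 with hmK0 | hmK0
  · intro u
    have h1 := hK' m hm hmK0.le u
    have h3 : K' ≤ (q5 + 1) * e := (h05.trans he).trans hq5e
    have h4 : K' ≤ B * ((q5 + 1) * e) := h3.trans (hBe _ (by linarith))
    have h2 := measureReal_mono (μ := iidLaw G) (Apt_mono (n := m) (s := s) (α := α) (β := β)
      (u := u) h4 h3) (measure_ne_top _ _)
    linarith
  -- columns
  have hcol : ∀ u, (iidLaw G).real (ColOK s β (a / 2) u (3 * W + 1) (e / 100) (M * m))ᶜ ≤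
      1 / 100 := by
    intro u
    have h1 := hcolOK (M * m) u (3 * W + 1) (e / 100) (by linarith) (by positivity)
    have h2 := hbase (M * m) (Nat.mul_pos hM1 hm) W (M * e) 0
      ((h03.trans he).trans hWe) (by positivity)
      (by have h3 := hlong 0; rw [← hW] at h3; exact h3)
    exact h1.trans (col_arith hCb0 hCc0 he1 hM1r hB1 hW (by positivity) h2 (h06.trans he))
  have hq60 : 1 ≤ q6 := by linarith
  have hres := renorm_step H (M := M) (m := m) (e := e) (B := B) (W := W) (w4 := 3 * W + 1)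
    (δ := e / 100) (Λ := c3 * e) (c3 := c3) (l1 := q1 * e) (l2 := q2 * e) (v5 := q5 * e)
    (v6 := q6 * e) (D := qD * e) (w' := q8 * e) (C := C) (l := l) (ν := ν) (K0 := K0)
    (K' := K') (N := M * m) hM1 hm he1 hν0 hB1 hW (by linarith) rfl rfl rfl hc3.ge
    (hcoef c3 hBc3) (k1 e he1)
    (by have := hcoef q1 hBq1; linarith)
    (k2 e he1) (k3 e he1)
    (by have := hcoef q2 hBq2; linarith)
    (k4 e he1)
    (mul_le_mul_of_nonneg_right hq65 he0.le) (by positivity)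
    (k5 e he1) (k6 e he1)
    hl hnu rfl
    (by
      intro b hb1 hb2 n hn u
      refine (measureReal_mono (HWbad_mono le_rfl ?_) (measure_ne_top _ _)).trans
        (hb0 b ((h02.trans he).trans (hWe.trans hb1)) n hn u)
      have h1 : 1 / (1000 * (B * M)) * b ≤ 1 / (1000 * (B * M)) * (9 * W) :=
        mul_le_mul_of_nonneg_left hb2 (by positivity)
      have h2 : 1 / (1000 * (B * M)) * (9 * W) = 9 / 1000 * e := by
        rw [hW']; field_simp
      linarith)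
    hcol
    (by
      intro n hn1 hn2 u
      exact hconn (q1 * e) ((h04.trans he).trans (heq _ hq11)) n hn1 hn2 u)
    (by
      intro n hn1 hn2 u
      exact (hconn (q2 * e) ((h04.trans he).trans (heq _ hq21)) n hn1 hn2 u).2)
    hK' (by linarith [h05.trans he]) ((h05.trans he).trans (heq _ hq60)) hmK0
    (fun u => hlong u)
  intro u
  refine (hres u).trans (measureReal_mono (Apt_mono ?_ ?_) (measure_ne_top _ _))
  · calc q8 * e ≤ B * e := mul_le_mul_of_nonneg_right hBq8 he0.le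
      _ ≤ B * ((q5 + 1) * e) := mul_le_mul_of_nonneg_left hq5e (by linarith)
  · exact mul_le_mul_of_nonneg_right (by linarith) he0.le

lemma Sgd_mono {B v v' : ℝ} {n : ℕ} (hB : 0 ≤ B) (hv : v ≤ v') (h : Sgd G s α β B v n) :
    Sgd G s α β B v' n := fun u => (h u).trans
  (measureReal_mono (Apt_mono (mul_le_mul_of_nonneg_left hv hB) hv) (measure_ne_top _ _))

/-- **No corners**: the inputs are contradictory. -/
theorem no_corner (H : Inputs G s α β a) : False := by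
  obtain ⟨Cs, B, hCs, hB, M0, hren⟩ := renorm H
  obtain ⟨Cb, b1, hCb0, hbase⟩ := base H
  obtain ⟨N0, hub⟩ := H.ub (1 / 10) (by norm_num)
  -- the scale
  obtain ⟨P, hP1, hP2, hP3⟩ : ∃ P : ℕ, 2 ≤ P ∧ Cs ≤ P ∧ M0 ≤ P ^ 40 := by
    obtain ⟨P, hP⟩ := exists_nat_ge (max Cs (max M0 2 : ℝ))
    have h1 : Cs ≤ P := (le_max_left _ _).trans hP
    have h2 : (M0 : ℝ) ≤ P := ((le_max_left _ _).trans (le_max_right _ _)).trans hP
    have h3 : (2 : ℝ) ≤ P := ((le_max_right _ _).trans (le_max_right _ _)).trans hP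
    have h2' : M0 ≤ P := by exact_mod_cast h2
    have h3' : 2 ≤ P := by exact_mod_cast h3
    exact ⟨P, h3', h1, h2'.trans (Nat.le_self_pow (by norm_num) P)⟩
  have hP0 : (0 : ℝ) < P := by positivity
  have hP1r : (1 : ℝ) < P := by exact_mod_cast (show 1 < P by omega)
  obtain ⟨e0, he0⟩ := hren (P ^ 40) hP3
  obtain ⟨r, hr⟩ : ∃ r : ℕ, 1 ≤ r ∧ e0 ≤ (P : ℝ) ^ (39 * r - 1) ∧ b1 ≤ (P : ℝ) ^ (39 * r) := by
    have h1 : Tendsto (fun r : ℕ => (P : ℝ) ^ r) atTop atTop :=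
      tendsto_pow_atTop_atTop_of_one_lt hP1r
    obtain ⟨r0, hr0⟩ := (h1.eventually (eventually_ge_atTop (max e0 b1))).exists_forall_of_atTop
    refine ⟨r0 + 1, by omega, (le_max_left _ _).trans (hr0 _ (by omega)),
      (le_max_right _ _).trans (hr0 _ (by omega))⟩
  obtain ⟨hr1, hr2, hr3⟩ := hr
  -- downward induction
  have hdown : ∀ q : ℕ, N0 ≤ P ^ (40 * (39 * q)) → r ≤ 38 * q →
      Sgd G s α β B ((P : ℝ) ^ (39 * r)) (P ^ (40 * (q + r))) := by
    intro q hq hrq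
    -- induction on `j = 38 q - i`
    have key : ∀ j : ℕ, j + r ≤ 38 * q →
        Sgd G s α β B ((P : ℝ) ^ (39 * (38 * q - j))) (P ^ (40 * (q + (38 * q - j)))) := by
      intro j
      induction j with
      | zero =>
        intro _
        simp only [Nat.sub_zero]
        intro u
        have h1 := hub (P ^ (40 * (39 * q))) hq u
        have h2 : (((P ^ (40 * (39 * q)) : ℕ) : ℝ)) ^ (19 / 20 : ℝ) = (P : ℝ) ^ (39 * (38 * q)) := by
          push_cast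
          rw [← Real.rpow_natCast, ← Real.rpow_mul hP0.le, ← Real.rpow_natCast]
          congr 1
          push_cast
          ring
        rw [h2] at h1
        have h3 : 40 * (q + 38 * q) = 40 * (39 * q) := by ring
        rw [h3]
        have h4 : (1 : ℝ) - 1 / 10 = 9 / 10 := by norm_num
        rw [h4] at h1
        refine h1.trans (measureReal_mono (Apt_mono ?_ le_rfl) (measure_ne_top _ _))
        have h5 : 0 ≤ (P : ℝ) ^ (39 * (38 * q)) := by positivity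
        exact le_mul_of_one_le_left h5 hB
      | succ j ih =>
        intro hj
        have h1 := ih (by omega)
        obtain ⟨i, hi⟩ : ∃ i : ℕ, 38 * q - (j + 1) = i := ⟨_, rfl⟩
        have hi' : 38 * q - j = i + 1 := by omega
        have hir : r ≤ i := by omega
        rw [hi]
        rw [hi'] at h1
        have h2 := he0 (P ^ (40 * (q + i))) (Nat.one_le_iff_ne_zero.2 (by positivity))
          ((P : ℝ) ^ (39 * i - 1)) (by
            refine hr2.trans (pow_le_pow_right₀ hP1r.le ?_)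
            omega) (by
            have e1 : ((P ^ 40 : ℕ) : ℝ) * (P : ℝ) ^ (39 * i - 1) = (P : ℝ) ^ (39 * (i + 1)) := by
              push_cast
              rw [← pow_add]
              congr 1
              omega
            have e2 : P ^ 40 * P ^ (40 * (q + i)) = P ^ (40 * (q + (i + 1))) := by
              rw [← pow_add]
              congr 1
              ring
            rw [e1, e2]
            exact h1)
        refine Sgd_mono (by linarith) ?_ h2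
        calc Cs * (P : ℝ) ^ (39 * i - 1) ≤ P * (P : ℝ) ^ (39 * i - 1) :=
              mul_le_mul_of_nonneg_right hP2 (by positivity)
          _ = (P : ℝ) ^ (39 * i) := by
              rw [← pow_succ']
              congr 1
              omega
    have h1 := key (38 * q - r) (by omega)
    have h2 : 38 * q - (38 * q - r) = r := by omega
    rw [h2] at h1
    exact h1
  -- contradiction with the base estimate
  set V : ℝ := (P : ℝ) ^ (39 * r) with hV
  have hV0 : 0 ≤ V := by positivity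
  have hbound : ∀ q : ℕ, N0 ≤ P ^ (40 * (39 * q)) → r ≤ 38 * q →
      (P : ℝ) ^ (40 * (q + r)) ≤ Cb * (V + B * V) ^ 3 := by
    intro q h1 h2
    have h3 := hbase (P ^ (40 * (q + r))) (Nat.one_le_iff_ne_zero.2 (by positivity)) (B * V) V 0
      (hr3.trans (le_mul_of_one_le_left hV0 hB)) hV0 (hdown q h1 h2 0)
    push_cast at h3
    exact h3
  have h1 : Tendsto (fun n : ℕ => (P : ℝ) ^ n) atTop atTop :=
    tendsto_pow_atTop_atTop_of_one_lt hP1r
  obtain ⟨n1, hn1⟩ := (h1.eventually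
    (eventually_gt_atTop (max (Cb * (V + B * V) ^ 3) (N0 : ℝ)))).exists_forall_of_atTop
  have h2 := hbound (n1 + r) (by
    have h3 := hn1 (40 * (39 * (n1 + r))) (by omega)
    have h4 : (N0 : ℝ) ≤ ((P ^ (40 * (39 * (n1 + r))) : ℕ) : ℝ) := by
      push_cast
      exact ((le_max_right _ _).trans h3.le)
    exact_mod_cast h4) (by omega)
  have h3 := hn1 (40 * (n1 + r + r)) (by omega)
  have h4 := (le_max_left (Cb * (V + B * V) ^ 3) (N0 : ℝ)).trans_lt h3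
  linarith

end Crest.Agent.R151.X
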