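import Crest.Agent.R151.N6
import Crest.Agent.R151.W5b
import Crest.Agent.R151.K9d
import Crest.Agent.R151.A565j
import Crest.Agent.R151.X684j

/-!
# R151, block N (helper792): the inputs of the no-corner argument for the law of S0213
-/

set_option autoImplicit false

open MeasureTheory ProbabilityTheory Filter Topology
open Crest.ProbabilityR.FirstPassage
open Crest.Agent.R151.K (toR IsTC1 Mom)
open Crest.Agent.R151.X (HWbad Apt Inputs)
open Crest.Agent.R151.M51 (Law213)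
open scoped ENNReal

namespace Crest.Agent.R151.N

variable {G : Measure ℝ} [IsProbabilityMeasure G] {μ : ℝ × ℝ → ℝ} {m s p0 q0 a : ℝ}

lemma mu_low (hM : Mom G m) (hμ : IsTC1 G μ) (L y : ℤ) (hL : 0 ≤ L) :
    μ (0, 1) * L ≤ μ (toR (L, y)) := by
  have hLR : (0 : ℝ) ≤ (L : ℝ) := by exact_mod_cast hL
  have h1 : μ (((L : ℝ), (y : ℝ)) + ((L : ℝ), -(y : ℝ))) ≤
      μ ((L : ℝ), (y : ℝ)) + μ ((L : ℝ), -(y : ℝ)) := hM.mu_add_le hμ _ _
  have h3 : μ ((L : ℝ), -(y : ℝ)) = μ ((L : ℝ), (y : ℝ)) := by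
    have e1 := hM.mu_neg hμ ((L : ℝ), -(y : ℝ))
    have e2 := hM.mu_neg_fst hμ ((L : ℝ), (y : ℝ))
    simp only [Prod.neg_mk, neg_neg] at e1
    rw [← e1]
    exact e2
  have h4 : ((L : ℝ), (y : ℝ)) + ((L : ℝ), -(y : ℝ)) = (2 * (L : ℝ)) • ((1 : ℝ), (0 : ℝ)) := by
    ext <;> simp; ring
  have h5 := hM.mu_smul hμ (c := 2 * (L : ℝ)) (by linarith) (1, 0)
  have h6 : μ ((1 : ℝ), (0 : ℝ)) = μ (0, 1) := by
    have := hM.mu_swap hμ (0, 1)
    simpa using this
  rw [h4, h5, h3, h6] at h1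
  have h7 : toR (L, y) = ((L : ℝ), (y : ℝ)) := rfl
  rw [h7]
  linarith

/-- at a corner `|q0| + a ≤ μ (0, 1)` -/
lemma Corner.col_le (h : Corner μ s p0 q0 a) (hneg : ∀ v, μ (-v) = μ v) :
    |q0| + a ≤ μ (0, 1) := by
  have h1 := h.lower 0 1
  have h2 := h.lower 0 (-1)
  have h3 : μ ((0 : ℝ), (-1 : ℝ)) = μ (0, 1) := by
    have := hneg (0, 1)
    simpa using this
  rw [h3] at h2
  simp only [mul_zero, zero_add, mul_one, sub_zero, abs_one, mul_neg, abs_neg] at h1 h2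
  rcases abs_cases q0 with h4 | h4 <;> rw [h4.1] <;> linarith

/-- the upper bound of the no-corner argument (block UB of helper750) -/
def UB (G : Measure ℝ) (s p0 q0 : ℝ) : Prop :=
  ∀ ε > 0, ∃ N0 : ℕ, ∀ N : ℕ, N0 ≤ N → ∀ u,
    1 - ε ≤ (iidLaw G).real
      (Apt s p0 q0 u ((N : ℝ) ^ (19 / 20 : ℝ)) ((N : ℝ) ^ (19 / 20 : ℝ)) N)

/-- THE INPUTS of the no-corner argument for the law of S0213, from the upper bound -/
theorem inputs_of_corner (hG : Law213 G) [NullSingletonClass G] (hM : Mom G m)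
    (hμ : IsTC1 G μ) (hc : Corner μ s p0 q0 a) (hub : UB G s p0 q0) :
    Inputs G s p0 q0 a where
  nn := hG.h0
  a_pos := hc.a_pos
  hw := by
    intro η hη ε hε
    obtain ⟨b0, hb0⟩ := A.prob_HWbad_corner hG hM hμ hc hη hε
    exact ⟨b0, fun b hb n hn u => hb0 b hb 0 n (by exact_mod_cast hn) u⟩
  col := by
    have hz : G {0} = 0 := measure_singleton 0
    have hN := hM.normLike hμ hz
    have h1 := hc.col_le hN.neg
    have hm : 0 < μ (0, 1) := hN.pos (by simp)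
    refine W.col_poly_of hG.h0 hz hm (W.blockRare_of_shape hG.h0 hz (mu_low hM hμ)
      fun ε hε => hM.uniform_shape_prob hμ (K.locCtl_of_law213 hG) hε) ?_
    linarith [hc.a_pos]
  conn := inputs_conn hG s
  short := inputs_short G s p0 q0
  ac := inputs_ac G hG.h0 s p0 q0
  ub := hub

/-- NO CORNERS for the law of S0213, given the upper bound -/
theorem differentiableAt_of_ub (hG : Law213 G) [NullSingletonClass G] (hM : Mom G m)
    (hμ : IsTC1 G μ) (hub : ∀ s p0 q0 a, Corner μ s p0 q0 a → UB G s p0 q0) (v : ℝ × ℝ)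
    (hv : v ≠ 0) : DifferentiableAt ℝ μ v :=
  differentiableAt_of_noCorner (hM.normLike hμ (measure_singleton 0)) (hM.mu_swap hμ)
    (fun s p0 q0 a hc => X.no_corner (inputs_of_corner hG hM hμ hc (hub s p0 q0 a hc))) v hv

end Crest.Agent.R151.N
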