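import Crest.Agent.R151.C710m
import Crest.Agent.R151.G338g
import Crest.Agent.R151.M192f

/-!
# R151 / S0214 part 2, NF0 — common parameters and ORDER OF CONSTANTS (owner helper710)

`Num` = the numerical parameters, in the order in which they are chosen:
`n, δ, v, e` (as in E191A), `v'` (window `L = 2 v' W`), `δ'` (gap `g = δ' W`), `δ0` (width
`δ0 W` of the strips of the highways), `J` (`h / W ≥ J`, `l ≤ W / J`), `W` (good scale).
`Ev P` = `P` holds for all parameters, chosen in this order.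
`Cf` = a configuration: highways and the selected height `y` (`= h` of the paper).
-/

set_option autoImplicit false

open MeasureTheory Filter ProbabilityTheory Topology Set
open Crest.ProbabilityR.FirstPassage
open Crest.Agent.R151.K Crest.Agent.R151.Q

namespace Crest.Agent.R151.NF

open B710 (FlatData)
open C710 (GoodScale)

/-- the numerical parameters -/
structure Num where
  n : ℕ
  δ : ℝ
  v : ℝ
  e : ℝ
  v' : ℝ
  δ' : ℝ
  δ0 : ℝ
  J : ℝ
  W : ℝ

/-- `P` holds for all parameters chosen in the order `n, δ, v, e, v', δ', δ0, J, W` -/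
def Ev (P : Num → Prop) : Prop :=
  ∀ᶠ n : ℕ in atTop, ∀ᶠ δ : ℝ in 𝓝[>] 0, ∀ᶠ v : ℝ in atTop, ∀ᶠ e : ℝ in 𝓝[>] 0,
  ∀ᶠ v' : ℝ in atTop, ∀ᶠ δ' : ℝ in 𝓝[>] 0, ∀ᶠ δ0 : ℝ in 𝓝[>] 0, ∀ᶠ J : ℝ in atTop,
  ∀ᶠ W : ℝ in atTop, P ⟨n, δ, v, e, v', δ', δ0, J, W⟩

lemma Ev.mono {P Q : Num → Prop} (h : Ev P) (hPQ : ∀ p, P p → Q p) : Ev Q := by
  unfold Ev at *
  filter_upwards [h] with n h
  filter_upwards [h] with δ h
  filter_upwards [h] with v h
  filter_upwards [h] with e h
  filter_upwards [h] with v' h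
  filter_upwards [h] with δ' h
  filter_upwards [h] with δ0 h
  filter_upwards [h] with J h
  filter_upwards [h] with W h
  exact hPQ _ h

lemma Ev.and {P Q : Num → Prop} (h1 : Ev P) (h2 : Ev Q) : Ev fun p => P p ∧ Q p := by
  unfold Ev at *
  filter_upwards [h1, h2] with n h1 h2
  filter_upwards [h1, h2] with δ h1 h2
  filter_upwards [h1, h2] with v h1 h2
  filter_upwards [h1, h2] with e h1 h2
  filter_upwards [h1, h2] with v' h1 h2
  filter_upwards [h1, h2] with δ' h1 h2
  filter_upwards [h1, h2] with δ0 h1 h2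
  filter_upwards [h1, h2] with J h1 h2
  filter_upwards [h1, h2] with W h1 h2
  exact ⟨h1, h2⟩

lemma Ev.of_forall {P : Num → Prop} (h : ∀ p, P p) : Ev P := by
  unfold Ev
  exact Eventually.of_forall fun n => Eventually.of_forall fun δ => Eventually.of_forall fun v =>
    Eventually.of_forall fun e => Eventually.of_forall fun v' => Eventually.of_forall fun δ' =>
    Eventually.of_forall fun δ0 => Eventually.of_forall fun J => Eventually.of_forall fun W =>
    h _

/-- standing numerical facts -/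
lemma Ev.pos : Ev fun p => 1 ≤ p.n ∧ 0 < p.δ ∧ 0 < p.v ∧ 0 < p.e ∧ 0 < p.v' ∧ 0 < p.δ' ∧
    0 < p.δ0 ∧ 0 < p.J ∧ 0 < p.W := by
  unfold Ev
  filter_upwards [eventually_ge_atTop 1] with n hn
  filter_upwards [self_mem_nhdsWithin] with δ hδ
  filter_upwards [eventually_gt_atTop 0] with v hv
  filter_upwards [self_mem_nhdsWithin] with e he
  filter_upwards [eventually_gt_atTop 0] with v' hv'
  filter_upwards [self_mem_nhdsWithin] with δ' hδ'
  filter_upwards [self_mem_nhdsWithin] with δ0 hδ0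
  filter_upwards [eventually_gt_atTop 0] with J hJ
  filter_upwards [eventually_gt_atTop 0] with W hW
  exact ⟨hn, hδ, hv, he, hv', hδ', hδ0, hJ, hW⟩

/-- the law of one row: `((θ, t), (u, u'))` -/
noncomputable def nuR (G : Measure ℝ) : Measure (((ℝ × ℝ) × Environment) × (ℝ × ℝ)) :=
  (P0 G).prod (UU.prod UU)

variable {μ : ℝ × ℝ → ℝ}

/-- `Qm h W y L c` : the median of the lane fall `0 → - W / 8` (half width `7/32 W` of the lane,
gauge over the whole plane between the labels `-L`, `L`) at height `y` is `≤ c` -/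
def Qm (G : Measure ℝ) {F : FlatData μ} (h : Hwy F) (W y L c : ℝ) : Prop :=
  1 / 2 ≤ (nuR G).real {q | h.sk (y • F.b) (Icc (-(7 / 32 * W)) (7 / 32 * W)) univ L 0 (-(W / 8))
    q.1.1 q.1.2 q.2 ≤ c}

/-- A configuration: a good scale `W`, highways in strips of width `δ0 W`, and a height `y` such that
the median of the fall `W / 8` is `≤ n ^ 5 l` at height `y` but not at height `y / 2`. -/
structure Cf (G : Measure ℝ) (F : FlatData μ) (w0 c0 K : ℝ) (p : Num) where
  h : Hwy F
  ε : ℝ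
  y : ℝ
  good : GoodScale G F w0 p.W
  low : ∀ w, w0 ≤ w → c0 / w ^ 2 ≤ rate G F w
  wH : h.wH = p.δ0 * p.W
  κ_le : h.κ ≤ K * (p.δ0 * p.W)
  mean : HwyMean G h ε
  ε_le : ε ≤ rate G F.swap (p.δ0 * p.W) + 1 / (p.δ0 * p.W) ^ 3
  q_le : Qm G h p.W y (2 * p.v' * p.W) (p.n ^ 5 * (y * rate G F p.W))
  q_gt : ¬ Qm G h p.W (y / 2) (2 * p.v' * p.W) (p.n ^ 5 * (y / 2 * rate G F p.W))
  y_ge : p.J * p.W ≤ y
  y_le : y * rate G F p.W ≤ p.W / p.J

namespace Cf

variable {G : Measure ℝ} {F : FlatData μ} {w0 c0 K : ℝ} {p : Num}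

/-- gap between a highway and the base line of its row -/
noncomputable def g (_c : Cf G F w0 c0 K p) : ℝ := p.δ' * p.W

/-- gauge labels `-L`, `L` -/
noncomputable def L (_c : Cf G F w0 c0 K p) : ℝ := 2 * p.v' * p.W

/-- height of the A-rows (distance of the two highways) -/
noncomputable def yA (c : Cf G F w0 c0 K p) : ℝ := c.y / 2 + 2 * c.g

/-- pitch of the A-rows -/
noncomputable def P (c : Cf G F w0 c0 K p) : ℝ := c.yA + 2 * c.g

/-- height of the B-rows; pitch `2 P` -/
noncomputable def yB (c : Cf G F w0 c0 K p) : ℝ := c.y + 6 * c.g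

/-- the unit of cost -/
noncomputable def l (c : Cf G F w0 c0 K p) : ℝ := c.P * rate G F p.W

/-- slack of the fences (in units of length) -/
noncomputable def sl (_c : Cf G F w0 c0 K p) : ℝ := (K + 1) * (p.δ0 * p.W)

/-- the RowA of E191A on the space of one row (law `nuR G`), typical set `T` (192's `rowA`) -/
noncomputable def rowA (c : Cf G F w0 c0 K p) (T : Set (M192.Row (ℝ × ℝ))) :
    E191.RowA (M192.Row (ℝ × ℝ)) :=
  M192.rowA c.h p.W c.L c.yA c.l c.sl p.δ T

/-- base point of row `k` (a lower highway sits `g` above the base line `k P`) -/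
noncomputable def B (c : Cf G F w0 c0 K p) (k : ℕ) : ℝ × ℝ := (k * c.P + c.g) • F.b

/-- edges read by an A-row -/
def E (c : Cf G F w0 c0 K p) (θ : ℝ × ℝ) : Set (Sym2 (ℤ × ℤ)) :=
  edgesIn (c.h.band (c.yA • F.b) θ)

/-- sigma-algebra of an A-row -/
@[instance_reducible] noncomputable def mB (c : Cf G F w0 c0 K p) : MeasurableSpace (M192.Row (ℝ × ℝ)) :=
  M192.mB c.h (c.yA • F.b)

/-- law of the stack -/
noncomputable def PSt (_c : Cf G F w0 c0 K p) : Measure (M192.St (ℝ × ℝ)) :=
  M192.PS G (UU.prod UU)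

/-- the rows of the stack -/
noncomputable def rows (c : Cf G F w0 c0 K p) (T : Set (M192.Row (ℝ × ℝ))) (k : ℕ) :
    E191.RowA (M192.St (ℝ × ℝ)) := (c.rowA T).comap (M192.rq c.B k)

/-- sigma-algebra of row `k` of the stack -/
@[instance_reducible] noncomputable def mSt (c : Cf G F w0 c0 K p) (k : ℕ) :
    MeasurableSpace (M192.St (ℝ × ℝ)) := M192.mrow (ℝ × ℝ) c.B c.E k

end Cf

end Crest.Agent.R151.NF
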