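import Crest.Agent.R151.V13

/-!
# R151 / S0214 part 2, NF4 — unconditional means from conditional log-concavity (helper710)

For EVERY state `p` of the strips (typical or not): if `Z ≥ 0`, `X` has a log-concave survival
function and `Z ≤ t + err` with probability `≥ q`, then `E Z ≤ C_q (t + E err + E |Z - X|)`.
-/

set_option autoImplicit false

open MeasureTheory ProbabilityTheory Set Filter
open scoped ENNReal Topology

namespace Crest.Agent.R151.NF

open V (LC)

section one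

variable {Ω : Type*} [MeasurableSpace Ω] {Q : Measure Ω} [IsProbabilityMeasure Q]

omit [IsProbabilityMeasure Q] in
/-- Markov's inequality in the form used -/
lemma markov_real {f : Ω → ℝ} (hf : Measurable f) {q m : ℝ} (hq : 0 < q) (hm : 0 < m)
    (h : ∫⁻ ω, ENNReal.ofReal (f ω) ∂Q ≤ ENNReal.ofReal m) :
    Q.real {ω | m / q < f ω} ≤ q := by
  have h1 : ENNReal.ofReal (m / q) * Q {ω | m / q < f ω} ≤ ENNReal.ofReal m := by
    refine le_trans ?_ h
    refine le_trans ?_ (mul_meas_ge_le_lintegral₀ (hf.ennreal_ofReal.aemeasurable)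
      (ENNReal.ofReal (m / q)))
    gcongr
    exact fun hx => ENNReal.ofReal_le_ofReal hx.le
  have hmq : 0 < m / q := div_pos hm hq
  have h2 : Q {ω | m / q < f ω} ≤ ENNReal.ofReal q := by
    have h3 : ENNReal.ofReal m = ENNReal.ofReal (m / q) * ENNReal.ofReal q := by
      rw [← ENNReal.ofReal_mul hmq.le, div_mul_cancel₀ _ hq.ne']
    rw [h3] at h1
    exact (ENNReal.mul_le_mul_iff_right (by simpa using hmq) ENNReal.ofReal_ne_top).1 h1
  unfold Measure.real
  exact ENNReal.toReal_le_of_le_ofReal hq.le h2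

/-- **mean bound for a fixed state of the strips** -/
theorem mean_le {X Z err : Ω → ℝ} (h : LC Q X) (hX : Measurable X) (hZ : Measurable Z)
    (herr : Measurable err) (hZ0 : ∀ᵐ ω ∂Q, 0 ≤ Z ω) {t q : ℝ} (ht : 0 < t) (hq0 : 0 < q)
    (hq1 : q ≤ 1) (hq : q ≤ Q.real {ω | Z ω ≤ t + err ω}) :
    ∫⁻ ω, ENNReal.ofReal (Z ω) ∂Q ≤ ENNReal.ofReal (300 / q ^ 2) *
      (ENNReal.ofReal t + ∫⁻ ω, ENNReal.ofReal (err ω) ∂Q +
        ∫⁻ ω, ENNReal.ofReal |Z ω - X ω| ∂Q) := by
  set E := ∫⁻ ω, ENNReal.ofReal (err ω) ∂Q with hE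
  set D := ∫⁻ ω, ENNReal.ofReal |Z ω - X ω| ∂Q with hD
  have hC : 0 < 300 / q ^ 2 := by positivity
  by_cases hE1 : E = ⊤
  · rw [hE1]
    simp only [add_top, top_add]
    rw [ENNReal.mul_top (by simpa using hC)]
    exact le_top
  by_cases hD1 : D = ⊤
  · rw [hD1]
    simp only [add_top]
    rw [ENNReal.mul_top (by simpa using hC)]
    exact le_top
  set Er := E.toReal with hEr
  set Dr := D.toReal with hDr
  have hEe : E = ENNReal.ofReal Er := (ENNReal.ofReal_toReal hE1).symm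
  have hDe : D = ENNReal.ofReal Dr := (ENNReal.ofReal_toReal hD1).symm
  have hEr0 : 0 ≤ Er := ENNReal.toReal_nonneg
  have hDr0 : 0 ≤ Dr := ENNReal.toReal_nonneg
  -- Markov
  have hq8 : 0 < q / 8 := by positivity
  have m1 : Q.real {ω | (Er + t) / (q / 8) < err ω} ≤ q / 8 := by
    refine markov_real herr hq8 (by positivity) ?_
    rw [← hE, hEe]
    exact ENNReal.ofReal_le_ofReal (by linarith)
  have m2 : Q.real {ω | (Dr + t) / (q / 8) < |Z ω - X ω|} ≤ q / 8 := by
    refine markov_real (f := fun ω => |Z ω - X ω|) (hZ.sub hX).abs hq8 (by positivity) ?_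
    rw [← hD, hDe]
    exact ENNReal.ofReal_le_ofReal (by linarith)
  set d : ℝ := (Dr + t) / (q / 8) with hd
  set b : ℝ := (Er + t) / (q / 8) with hb
  have hd0 : 0 < d := by positivity
  have hb0 : 0 < b := by positivity
  have k1 : Q.real {ω | ¬ (|Z ω - X ω| ≤ d ∧ 0 ≤ Z ω)} ≤ q / 8 := by
    refine le_trans ?_ m2
    unfold Measure.real
    refine ENNReal.toReal_mono (measure_ne_top _ _) (measure_mono_ae ?_)
    filter_upwards [hZ0] with ω hω h1
    have h1' : ¬ (|Z ω - X ω| ≤ d ∧ 0 ≤ Z ω) := h1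
    show d < |Z ω - X ω|
    by_contra hcon
    exact h1' ⟨not_lt.1 hcon, hω⟩
  have k2 : q / 2 ≤ Q.real {ω | Z ω ≤ t + b} := by
    have h3 : Q.real {ω | Z ω ≤ t + err ω} ≤ Q.real {ω | Z ω ≤ t + b} +
        Q.real {ω | b < err ω} := by
      refine (measureReal_mono ?_ (measure_ne_top _ _)).trans (measureReal_union_le _ _)
      intro ω hω
      by_cases hb' : b < err ω
      · exact Or.inr hb'
      · left
        have hω' : Z ω ≤ t + err ω := hω
        show Z ω ≤ t + b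
        linarith [not_lt.1 hb']
    linarith
  have key := h.pert_mean hX hZ (d := d) (δ := q / 8) (t := t + b) (q := q / 2) hd0
    (by linarith) (by linarith) (by positivity) (by linarith) k1 k2
  refine key.trans ?_
  rw [← hD, hDe, hEe, ← ENNReal.ofReal_add hDr0 (by positivity),
    ← ENNReal.ofReal_add ht.le hEr0, ← ENNReal.ofReal_add (by positivity) hDr0,
    ← ENNReal.ofReal_mul hC.le]
  refine ENNReal.ofReal_le_ofReal ?_
  have e1 : 4 / (q / 2) * (t + b + 3 * d) =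
      8 / q * t + 64 / q ^ 2 * (Er + t) + 192 / q ^ 2 * (Dr + t) := by
    rw [hb, hd]; field_simp; ring
  rw [e1]
  have h1q : 1 ≤ 1 / q := by rw [le_div_iff₀ hq0]; linarith
  have h1q2 : 1 / q ≤ 1 / q ^ 2 := by
    rw [div_le_div_iff₀ hq0 (by positivity)]
    nlinarith
  have a1 : 8 / q * t ≤ 8 / q ^ 2 * t := by
    have : 8 / q ≤ 8 / q ^ 2 := by
      calc 8 / q = 8 * (1 / q) := by ring
        _ ≤ 8 * (1 / q ^ 2) := by linarith
        _ = 8 / q ^ 2 := by ring
    exact mul_le_mul_of_nonneg_right this ht.le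
  have a2 : Dr ≤ 1 / q ^ 2 * Dr := by nlinarith
  have e2 : 300 / q ^ 2 * (t + Er + Dr) = 300 * (1 / q ^ 2 * t) + 300 * (1 / q ^ 2 * Er) +
      300 * (1 / q ^ 2 * Dr) := by ring
  have e3 : 8 / q ^ 2 * t = 8 * (1 / q ^ 2 * t) := by ring
  have e4 : 64 / q ^ 2 * (Er + t) = 64 * (1 / q ^ 2 * Er) + 64 * (1 / q ^ 2 * t) := by ring
  have e5 : 192 / q ^ 2 * (Dr + t) = 192 * (1 / q ^ 2 * Dr) + 192 * (1 / q ^ 2 * t) := by ring
  rw [e2, e4, e5]
  rw [e3] at a1
  have p1 : 0 ≤ 1 / q ^ 2 * t := by positivity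
  have p2 : 0 ≤ 1 / q ^ 2 * Er := by positivity
  have p3 : 0 ≤ 1 / q ^ 2 * Dr := by positivity
  linarith

end one

section two

variable {S : Type*} [MeasurableSpace S] {ν : Measure S}
  {Ω : Type*} [MeasurableSpace Ω] {Q : Measure Ω} [IsProbabilityMeasure Q]

/-- **unconditional mean bound on an event of the strips**: `A` = any measurable set of states
(`univ` for the mean, the atypical states for uniform integrability) -/
theorem mean_le_prod {X Z err : S → Ω → ℝ} {A : Set S}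
    (hXm : Measurable (Function.uncurry X)) (hZm : Measurable (Function.uncurry Z))
    (herr : Measurable (Function.uncurry err))
    (h : ∀ᵐ p ∂ν, LC Q (X p)) (hZ0 : ∀ᵐ p ∂ν, ∀ᵐ ω ∂Q, 0 ≤ Z p ω)
    {t q : ℝ} (ht : 0 < t) (hq0 : 0 < q) (hq1 : q ≤ 1)
    (hq : ∀ᵐ p ∂ν, q ≤ Q.real {ω | Z p ω ≤ t + err p ω}) :
    ∫⁻ p in A, ∫⁻ ω, ENNReal.ofReal (Z p ω) ∂Q ∂ν ≤ ENNReal.ofReal (300 / q ^ 2) *
      (ENNReal.ofReal t * ν A + ∫⁻ p in A, ∫⁻ ω, ENNReal.ofReal (err p ω) ∂Q ∂ν +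
        ∫⁻ p in A, ∫⁻ ω, ENNReal.ofReal |Z p ω - X p ω| ∂Q ∂ν) := by
  have m1 : Measurable fun p => ∫⁻ ω, ENNReal.ofReal (err p ω) ∂Q :=
    Measurable.lintegral_prod_right (f := fun p ω => ENNReal.ofReal (err p ω))
      herr.ennreal_ofReal
  have m2 : Measurable fun p => ∫⁻ ω, ENNReal.ofReal |Z p ω - X p ω| ∂Q :=
    Measurable.lintegral_prod_right (f := fun p ω => ENNReal.ofReal |Z p ω - X p ω|)
      (measurable_abs.comp (hZm.sub hXm)).ennreal_ofReal
  have h1 : ∀ᵐ p ∂ν.restrict A, ∫⁻ ω, ENNReal.ofReal (Z p ω) ∂Q ≤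
      ENNReal.ofReal (300 / q ^ 2) * (ENNReal.ofReal t + ∫⁻ ω, ENNReal.ofReal (err p ω) ∂Q +
        ∫⁻ ω, ENNReal.ofReal |Z p ω - X p ω| ∂Q) := by
    refine ae_restrict_of_ae ?_
    filter_upwards [h, hZ0, hq] with p h1 h2 h3
    exact mean_le h1 hXm.of_uncurry_left hZm.of_uncurry_left herr.of_uncurry_left h2 ht hq0 hq1 h3
  refine (lintegral_mono_ae h1).trans (le_of_eq ?_)
  have m3 : Measurable fun p => ENNReal.ofReal t + ∫⁻ ω, ENNReal.ofReal (err p ω) ∂Q :=
    measurable_const.add m1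
  have m4 : Measurable fun p => ENNReal.ofReal t + ∫⁻ ω, ENNReal.ofReal (err p ω) ∂Q +
      ∫⁻ ω, ENNReal.ofReal |Z p ω - X p ω| ∂Q := m3.add m2
  rw [lintegral_const_mul _ m4, lintegral_add_right _ m2, lintegral_add_right _ m1,
    lintegral_const, Measure.restrict_apply_univ]

end two

end Crest.Agent.R151.NF
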