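import Crest.Agent.R151.NF7
import Crest.Agent.R151.G338p

/-!
# R151 / S0214 part 2, NF8 — the failure events are improbable (helper710)
-/

set_option autoImplicit false

open MeasureTheory Filter ProbabilityTheory Topology Set
open Crest.ProbabilityR.FirstPassage
open Crest.Agent.R151.K Crest.Agent.R151.Q

namespace Crest.Agent.R151.NF

open B710 (FlatData)
open M56 (mg one_le_mg)

variable {μ : ℝ × ℝ → ℝ} {G : Measure ℝ} {F : FlatData μ} {w0 c0 K : ℝ}

section means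

variable [IsProbabilityMeasure G]

/-- Markov for an observable with small mean -/
lemma prob_of_mean {f : Ob} (hi : Integrable (fun q : M192.RowS × ((ℝ × ℝ) × (ℝ × ℝ)) =>
      f q.1.1.1 q.1.1.2 q.1.2 q.2) ((nuR G).prod PF)) {b l A a : ℝ} (hl : 0 < l) (hb : 0 < b)
    (ha : 0 < a) (hm : ∫ q, |f q.1.1.1 q.1.1.2 q.1.2 q.2| ∂((nuR G).prod PF) ≤ A)
    (hA : 1 / (b * a) * A ≤ l) : ((nuR G).prod PF).real (NS f (b * l)) ≤ a := by
  refine (prob_NS_le hi (mul_pos hb hl)).trans ?_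
  rw [div_le_iff₀ (mul_pos hb hl)]
  refine hm.trans ?_
  have h1 : 1 / (b * a) * A * (b * a) ≤ l * (b * a) :=
    mul_le_mul_of_nonneg_right hA (by positivity)
  have h2 : 1 / (b * a) * A * (b * a) = A := by field_simp
  rw [h2] at h1
  linarith

/-- the gauge differences -/
theorem prob_obK (h0 : G (Iio 0) = 0) (h2 : Integrable (fun x : ℝ => x ^ 2) G) (hμ : IsTC G μ)
    (hc0 : 0 < c0) (A b a : ℕ → ℝ → ℝ → ℝ → ℝ) :
    Ev fun p => 0 < b p.n p.δ p.v p.e → 0 < a p.n p.δ p.v p.e → ∀ c : Cf G F w0 c0 K p,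
      ∀ y g : ℝ, c.Ht y g → ∀ x : ℝ, |x| ≤ A p.n p.δ p.v p.e * p.W →
      ((nuR G).prod PF).real (NS (obK c.h y g x c.lam c.L) (b p.n p.δ p.v p.e * c.l)) ≤
        a p.n p.δ p.v p.e := by
  refine (((ev_lens (G := G) (F := F) (w0 := w0) (c0 := c0) (K := K)).and
    (obK_le (F := F) (w0 := w0) (c0 := c0) (K := K) h0 h2 hμ A)).and
    (Bf_small (G := G) (F := F) (w0 := w0) (K := K) hc0
      fun n δ v e => 1 / (b n δ v e * a n δ v e) * 2)).mono ?_
  rintro p ⟨⟨hl, hK⟩, hB⟩ hb ha c y g hyg x hx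
  have hl := hl c
  obtain ⟨k1, k2⟩ := hK c y g hyg x hx
  refine prob_of_mean k1 hl.l_pos hb ha k2 ?_
  have := hB c
  linarith

/-- the window -/
theorem prob_obJ (h0 : G (Iio 0) = 0) (h2 : Integrable (fun x : ℝ => x ^ 2) G) (hμ : IsTC G μ)
    (hc0 : 0 < c0) (b a : ℕ → ℝ → ℝ → ℝ → ℝ) :
    Ev fun p => 0 < b p.n p.δ p.v p.e → 0 < a p.n p.δ p.v p.e → ∀ c : Cf G F w0 c0 K p,
      ∀ y g : ℝ, c.Ht y g →
      ((nuR G).prod PF).real (NS (obJ c.h y g c.lam c.L) (b p.n p.δ p.v p.e * c.l)) ≤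
        a p.n p.δ p.v p.e := by
  refine (((ev_lens (G := G) (F := F) (w0 := w0) (c0 := c0) (K := K)).and
    (obJ_le (F := F) (w0 := w0) (c0 := c0) (K := K) h0 h2 hμ)).and
    (Bf_small (G := G) (F := F) (w0 := w0) (K := K) hc0
      fun n δ v e => 1 / (b n δ v e * a n δ v e))).mono ?_
  rintro p ⟨⟨hl, hK⟩, hB⟩ hb ha c y g hyg
  have hl := hl c
  obtain ⟨k1, k2⟩ := hK c y g hyg
  exact prob_of_mean k1 hl.l_pos hb ha k2 (hB c)

/-- the gauge and its `S`-measurable version -/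
theorem prob_obG (h0 : G (Iio 0) = 0) (h2 : Integrable (fun x : ℝ => x ^ 2) G) (hμ : IsTC G μ)
    (hc0 : 0 < c0) (b a : ℕ → ℝ → ℝ → ℝ → ℝ) :
    Ev fun p => 0 < b p.n p.δ p.v p.e → 0 < a p.n p.δ p.v p.e → ∀ c : Cf G F w0 c0 K p,
      ∀ y g : ℝ, c.Ht y g →
      ((nuR G).prod PF).real
        (NS (obG c.h y g c.L (c.rho (dOv F y g))) (b p.n p.δ p.v p.e * c.l)) ≤
          a p.n p.δ p.v p.e ∧
      (nuR G).real {q | b p.n p.δ p.v p.e * c.l <
        |V.hkR c.h (dOv F y g) univ (-c.L) c.L q - c.rho (dOv F y g) q|} ≤ a p.n p.δ p.v p.e := by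
  refine (((ev_lens (G := G) (F := F) (w0 := w0) (c0 := c0) (K := K)).and
    (rho_spec (F := F) (w0 := w0) (c0 := c0) (K := K) h0 h2 hμ)).and
    (Bf_small (G := G) (F := F) (w0 := w0) (K := K) hc0
      fun n δ v e => 1 / (b n δ v e * a n δ v e) * 3)).mono ?_
  rintro p ⟨⟨hl, hK⟩, hB⟩ hb ha c y g hyg
  have hl := hl c
  have hρ := hK c y g hyg
  have hB := hB c
  have k1 : Integrable (fun q : M192.RowS × ((ℝ × ℝ) × (ℝ × ℝ)) =>
      obG c.h y g c.L (c.rho (dOv F y g)) q.1.1.1 q.1.1.2 q.1.2 q.2) ((nuR G).prod PF) :=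
    hρ.int.comp_fst PF
  have mp : MeasurePreserving (Prod.fst : M192.RowS × ((ℝ × ℝ) × (ℝ × ℝ)) → _)
    ((nuR G).prod PF) (nuR G) := measurePreserving_fst
  have k2 : ∫ q, |obG c.h y g c.L (c.rho (dOv F y g)) q.1.1.1 q.1.1.2 q.1.2 q.2|
      ∂((nuR G).prod PF) ≤ 3 * c.Bf := by
    refine le_trans (le_of_eq ?_) hρ.mean
    exact mp_integral mp hρ.int.abs.aestronglyMeasurable
  have k3 := prob_of_mean k1 hl.l_pos hb ha k2 (by linarith)
  refine ⟨k3, ?_⟩
  have hm : MeasurableSet {q | b p.n p.δ p.v p.e * c.l <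
        |V.hkR c.h (dOv F y g) univ (-c.L) c.L q - c.rho (dOv F y g) q|} := by
    have : Measurable fun q => V.hkR c.h (dOv F y g) univ (-c.L) c.L q :=
      V.measurable_hkR c.h _ MeasurableSet.univ _ _
    exact measurableSet_lt measurable_const ((this.sub hρ.meas).abs)
  rw [← mp.measureReal_preimage hm.nullMeasurableSet]
  exact k3

/-- the fences of the gaps -/
theorem prob_fence (h0 : G (Iio 0) = 0) (h2 : Integrable (fun x : ℝ => x ^ 2) G)
    (hμ : IsTC G μ) (hc0 : 0 < c0) (z A b a : ℕ → ℝ → ℝ → ℝ → ℝ) :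
    Ev fun p => 0 < z p.n p.δ p.v p.e → 0 < b p.n p.δ p.v p.e → 0 < a p.n p.δ p.v p.e →
      ∀ c : Cf G F w0 c0 K p, ∀ y g : ℝ, c.Ht y g → ∀ x f : ℝ,
      |x| ≤ A p.n p.δ p.v p.e * p.W → |f| ≤ A p.n p.δ p.v p.e * p.W →
      ((nuR G).prod PF).real (NS (fLo c g x f (z p.n p.δ p.v p.e * p.W))
        (b p.n p.δ p.v p.e * c.l)) ≤ a p.n p.δ p.v p.e ∧
      ((nuR G).prod PF).real (NS (fUp c y g x f (z p.n p.δ p.v p.e * p.W))
        (b p.n p.δ p.v p.e * c.l)) ≤ a p.n p.δ p.v p.e := by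
  refine ((((ev_lens (G := G) (F := F) (w0 := w0) (c0 := c0) (K := K)).and
    (obLo_le (F := F) (w0 := w0) (K := K) h0 h2 hμ hc0 (fun n δ v e _ _ _ => z n δ v e)
      fun n δ v e _ _ _ => 1 / (b n δ v e * a n δ v e))).and
    (obUp_le (F := F) (w0 := w0) (K := K) h0 h2 hμ hc0 (fun n δ v e _ _ _ => z n δ v e)
      fun n δ v e _ _ _ => 1 / (b n δ v e * a n δ v e))).and
    (le_v' fun n δ v e => 2 * A n δ v e + z n δ v e + 1)).mono ?_
  rintro p ⟨⟨⟨hl, hLo⟩, hUp⟩, hv⟩ hz hb ha c y g hyg x f hx hf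
  have hl := hl c
  have hW : 0 < p.W := zero_lt_one.trans_le hl.W
  generalize z p.n p.δ p.v p.e = zz at *
  generalize b p.n p.δ p.v p.e = bb at *
  generalize a p.n p.δ p.v p.e = aa at *
  generalize A p.n p.δ p.v p.e = AA at *
  have hL : c.L = 2 * (p.v' * p.W) := hl.lam_eq
  have h5 := mul_le_mul_of_nonneg_right hv hW.le
  have h6 := abs_le.1 hx
  have h7 := abs_le.1 hf
  have h8 : g ≤ 3 * c.g := hyg.g_le
  have h9 := hl.gW
  have h10 := hl.sl_le
  have h11 := hl.sl_nonneg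
  have h12 := hl.κ_le'
  have h13 := hl.mg_le
  have h14 := one_le_mg F
  have h15 := cF_nonneg F
  have h16 := hyg.g_ge
  have h17 : 0 < zz * p.W := mul_pos hz hW
  have h18 : 0 ≤ AA * p.W := (abs_nonneg x).trans hx
  have h19 : 0 < p.v' * p.W := mul_pos (by linarith [hl.v']) hW
  have h20 : |1 / (bb * aa)| = 1 / (bb * aa) := abs_of_pos (by positivity)
  have h21 : (2 * AA + zz + 1) * p.W = 2 * (AA * p.W) + zz * p.W + p.W := by ring
  rw [h21] at h5
  constructor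
  · obtain ⟨k1, k2⟩ := hLo hz c y g hyg x f (f + zz * p.W) f (f + zz * p.W + g - x)
      (hx.trans (by linarith)) le_rfl (by linarith) (by linarith) (by linarith) (by linarith)
    rw [h20] at k2
    exact prob_of_mean k1 hl.l_pos hb ha le_rfl k2
  · obtain ⟨k1, k2⟩ := hUp hz c y g hyg x f (f + zz * p.W) (f - x - g) (f + zz * p.W + g)
      (hx.trans (by linarith)) (by linarith) (by linarith) (by linarith) (by linarith)
      (by linarith)
    rw [h20] at k2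
    exact prob_of_mean k1 hl.l_pos hb ha le_rfl k2

end means

end Crest.Agent.R151.NF
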