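import Crest.Agent.R151.NF8
import Crest.Agent.R151.E191H

/-!
# R151 / S0214 part 2, NF9 — typical rows have probability close to one (helper710)
-/

set_option autoImplicit false

open MeasureTheory Filter ProbabilityTheory Topology Set
open Crest.ProbabilityR.FirstPassage
open Crest.Agent.R151.K Crest.Agent.R151.Q

namespace Crest.Agent.R151.NF

open B710 (FlatData)
open M56 (mg one_le_mg)

variable {μ : ℝ × ℝ → ℝ} {G : Measure ℝ} {F : FlatData μ} {w0 c0 K : ℝ}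

/-- cardinality of the index set, as a function of `δ, v, e` -/
noncomputable def cardF (δ v e : ℝ) : ℝ :=
  (((Finset.univ : Finset (Fin 6)) ×ˢ
    (Finset.Icc (-⌈(v + 1 / e + 4) / (δ / 128)⌉) ⌈(v + 1 / e + 4) / (δ / 128)⌉ ×ˢ
      Finset.Icc (-⌈(v + 1 / e + 4) / (δ / 128)⌉) ⌈(v + 1 / e + 4) / (δ / 128)⌉)).card : ℝ)

lemma cardF_eq (p : Num) : (p.idx.card : ℝ) = cardF p.δ p.v p.e := rfl

lemma cardF_nonneg (δ v e : ℝ) : 0 ≤ cardF δ v e := Nat.cast_nonneg _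

/-- **each failure event is improbable** -/
theorem ev_ob_small [IsProbabilityMeasure G] (h0 : G (Iio 0) = 0)
    (h2 : Integrable (fun x : ℝ => x ^ 2) G) (hμ : IsTC G μ) {m : ℝ} (hM : Mom G m)
    (hL : LocCtl G) (hc0 : 0 < c0) (a : ℕ → ℝ → ℝ → ℝ → ℝ) :
    Ev fun p => 0 < a p.n p.δ p.v p.e → ∀ c : Cf G F w0 c0 K p, ∀ k ∈ p.idx,
      ((nuR G).prod PF).real (NS (c.ob k) (c.thr k)) ≤ a p.n p.δ p.v p.e := by
  have a0 := ev_lens (G := G) (F := F) (w0 := w0) (c0 := c0) (K := K)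
  have a1 := prob_obK (F := F) (w0 := w0) (K := K) h0 h2 hμ hc0
    (fun _ _ v e => v + 1 / e + 5) (fun _ _ _ e => e ^ 2) a
  have a2 := prob_obJ (F := F) (w0 := w0) (K := K) h0 h2 hμ hc0 (fun _ _ _ e => e ^ 2) a
  have a3 := prob_obG (F := F) (w0 := w0) (K := K) h0 h2 hμ hc0 (fun _ _ _ e => e ^ 2) a
  have a4 := prob_fence (F := F) (w0 := w0) (K := K) h0 h2 hμ hc0 (fun _ δ _ _ => δ / 16)
    (fun _ _ v e => v + 1 / e + 5) (fun _ _ _ e => e ^ 2) a
  have a5 := obD_small (F := F) h0 h2 hμ hM hL (fun _ _ _ e _ _ _ _ => e ^ 2)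
    (fun n δ v e _ _ _ _ => a n δ v e)
  refine (((((a0.and a1).and a2).and a3).and a4).and a5).mono ?_
  rintro p ⟨⟨⟨⟨⟨hl, b1⟩, b2⟩, b3⟩, b4⟩, b5⟩ ha c k hk
  have hl := hl c
  have hp : p.Std := hl.toStd
  have : IsProbabilityMeasure (nuR G) := by unfold nuR; infer_instance
  have he : 0 < p.e ^ 2 := pow_pos hp.e_pos 2
  have hyg : c.Ht (c.y / 2) c.g := Cf.htA hl.toC
  obtain ⟨k1, i, j⟩ := k
  unfold Num.idx at hk
  simp only [Finset.mem_product, Finset.mem_univ, true_and] at hk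
  obtain ⟨hi, hj⟩ := hk
  have gi := gr_abs hp hi
  have gj := gr_abs hp hj
  fin_cases k1
  · exact b5 he ha (c.y / 2) c.g
  · exact (b3 he ha c _ _ hyg).1
  · exact b2 he ha c _ _ hyg
  · exact b1 he ha c _ _ hyg _ gi
  · exact (b4 (by have := hp.δ_pos; positivity) he ha c _ _ hyg _ _ gi gj).1
  · exact (b4 (by have := hp.δ_pos; positivity) he ha c _ _ hyg _ _ gi gj).2

/-- **T_prob**: typical rows have probability close to one -/
theorem T_prob [IsProbabilityMeasure G] (h0 : G (Iio 0) = 0)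
    (h2 : Integrable (fun x : ℝ => x ^ 2) G) (hμ : IsTC G μ) {m : ℝ} (hM : Mom G m)
    (hL : LocCtl G) (hc0 : 0 < c0) (B : ℕ → ℝ → ℝ → ℝ → ℝ) :
    Ev fun p => ∀ c : Cf G F w0 c0 K p,
      B p.n p.δ p.v p.e * (nuR G).real (c.TSA)ᶜ ≤ 1 ∧
      B p.n p.δ p.v p.e * (nuR G).real (c.typA)ᶜ ≤ 1 := by
  have a0 := ev_lens (G := G) (F := F) (w0 := w0) (c0 := c0) (K := K)
  have a1 := ev_ob_small (F := F) (w0 := w0) (K := K) h0 h2 hμ hM hL hc0
    (fun n δ v e => e ^ 2 / (2 * (|B n δ v e| + 1) * (cardF δ v e + 1)))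
  have a2 := prob_obG (F := F) (w0 := w0) (K := K) h0 h2 hμ hc0 (fun _ _ _ e => e ^ 2)
    (fun n δ v e => 1 / (2 * (|B n δ v e| + 1)))
  have a3 := ev_rhoA (F := F) (w0 := w0) (c0 := c0) (K := K) h0 h2 hμ
  refine (((a0.and a1).and a2).and a3).mono ?_
  rintro p ⟨⟨⟨hl, b1⟩, b2⟩, b3⟩ c
  have hl := hl c
  have hp : p.Std := hl.toStd
  have : IsProbabilityMeasure (nuR G) := by unfold nuR; infer_instance
  have he : 0 < p.e ^ 2 := pow_pos hp.e_pos 2
  have hρ := b3 c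
  have hyg : c.Ht (c.y / 2) c.g := Cf.htA hl.toC
  have hN0 := cardF_nonneg p.δ p.v p.e
  obtain ⟨b, hb⟩ : ∃ b, b = |B p.n p.δ p.v p.e| + 1 := ⟨_, rfl⟩
  have hb0 : 0 < b := by rw [hb]; positivity
  have hbB : B p.n p.δ p.v p.e ≤ b := by
    rw [hb]; linarith [le_abs_self (B p.n p.δ p.v p.e)]
  have h1 : (nuR G).real (c.TSA)ᶜ ≤ 1 / (2 * b) := by
    have h3 : (nuR G).real (c.TSA)ᶜ ≤
        (∑ k ∈ p.idx, ((nuR G).prod PF).real (NS (c.ob k) (c.thr k))) / p.e ^ 2 :=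
      V.TSet_compl_le _ _ h0 (fun k _ => measurableSet_NS (Cf.meas_ob hρ.meas k) _) he
    refine h3.trans ?_
    rw [div_le_iff₀ he]
    have h4 : ∑ k ∈ p.idx, ((nuR G).prod PF).real (NS (c.ob k) (c.thr k)) ≤
        ∑ _k ∈ p.idx, p.e ^ 2 / (2 * b * (cardF p.δ p.v p.e + 1)) := by
      refine Finset.sum_le_sum fun k hk => ?_
      rw [hb]
      exact b1 (by positivity) c k hk
    refine h4.trans ?_
    rw [Finset.sum_const, nsmul_eq_mul, cardF_eq]
    have h5 : cardF p.δ p.v p.e * (p.e ^ 2 / (2 * b * (cardF p.δ p.v p.e + 1))) =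
        1 / (2 * b) * p.e ^ 2 * (cardF p.δ p.v p.e / (cardF p.δ p.v p.e + 1)) := by
      have : cardF p.δ p.v p.e + 1 ≠ 0 := by positivity
      field_simp
    rw [h5]
    have h6 : cardF p.δ p.v p.e / (cardF p.δ p.v p.e + 1) ≤ 1 := by
      rw [div_le_one (by positivity)]; linarith
    exact mul_le_of_le_one_right (by positivity) h6
  have h7 : (nuR G).real (c.typA)ᶜ ≤ 1 / b := by
    have h8 : (c.typA)ᶜ ⊆ (c.TSA)ᶜ ∪ {q | p.e ^ 2 * c.l <
        |V.hkR c.h (dOv F (c.y / 2) c.g) univ (-c.L) c.L q - c.rho (dOv F (c.y / 2) c.g) q|} := by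
      intro q hq
      by_cases h : q ∈ c.TSA
      · right
        by_contra hcon
        have hcon' : ¬ (p.e ^ 2 * c.l < |V.hkR c.h (dOv F (c.y / 2) c.g) univ (-c.L) c.L q -
          c.rho (dOv F (c.y / 2) c.g) q|) := hcon
        exact hq ⟨h, not_lt.1 hcon'⟩
      · left; exact h
    have h9 := (b2 he (by positivity) c _ _ hyg).2
    rw [← hb] at h9
    calc (nuR G).real (c.typA)ᶜ ≤ _ := measureReal_mono h8
      _ ≤ _ := measureReal_union_le _ _
      _ ≤ 1 / (2 * b) + 1 / (2 * b) := add_le_add h1 h9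
      _ = 1 / b := by field_simp; ring
  constructor
  · calc B p.n p.δ p.v p.e * (nuR G).real (c.TSA)ᶜ ≤ b * (1 / (2 * b)) :=
          mul_le_mul hbB h1 measureReal_nonneg hb0.le
      _ ≤ 1 := by
          have : b * (1 / (2 * b)) = 1 / 2 := by field_simp
          rw [this]; norm_num
  · calc B p.n p.δ p.v p.e * (nuR G).real (c.typA)ᶜ ≤ b * (1 / b) :=
          mul_le_mul hbB h7 measureReal_nonneg hb0.le
      _ ≤ 1 := by
          have : b * (1 / b) = 1 := by field_simp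
          rw [this]

end Crest.Agent.R151.NF
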