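import Crest.Agent.R151.C710l
import Crest.Agent.R151.M192h
import Crest.Agent.R151.M56a
import Crest.Agent.R151.J69f

/-!
# R151 / S0214 part 2, PA821a — the path independent sum of the stack (owner helper821)

* `integral_stack'`, `integrable_stack'`: law of a row functional on the stack;
* `Cf.sumY_integrable`, `Cf.sumY_mean : -(4 L ε N) ≤ E sumY`, from `HwyMean`, `gY_nonneg` and the
  hypothesis that `hkY` is integrable with nonnegative mean on the row space (56's R3);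
* `Cf.cstL_integrable`, `Cf.cstU_integrable`, `Cf.cst_bound`.
-/

set_option autoImplicit false

open MeasureTheory Filter ProbabilityTheory Topology Set
open Crest.ProbabilityR.FirstPassage
open Crest.Agent.R151.K Crest.Agent.R151.Q

namespace Crest.Agent.R151.PA

open R78 (V Wk IsHwy hc hp hull routes IsOpen shp hullY ptY SUMY gapK)
open M192 (St Row PS rq measurable_rq)
open B710 (FlatData)

variable {G : Measure ℝ} [IsProbabilityMeasure G]

/-! ### Law of the row functionals -/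

section rowlaw

variable {Φ : Type*} [MeasurableSpace Φ] {ν : Measure Φ} [IsProbabilityMeasure ν]

theorem integral_stack' (B : ℕ → ℝ × ℝ) (k : ℕ) {X : ℝ × ℝ → Environment → Φ → ℝ}
    (hX : Measurable fun q : Row Φ => X q.1.1 q.1.2 q.2) (hinv : ∀ φ, Inv fun θ t => X θ t φ) :
    ∫ ω, X (ω.1.1 - B k - (ω.2 k).1) ω.1.2 (ω.2 k).2 ∂(PS G ν) =
      ∫ q, X q.1.1 q.1.2 q.2 ∂((P0 G).prod ν) := by
  have h := J69.map_stack (G := G) (I := ℕ) ν k hX hinv (B k)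
  have hm : Measurable fun ω : St Φ => X (ω.1.1 - B k - (ω.2 k).1) ω.1.2 (ω.2 k).2 :=
    hX.comp (measurable_rq B k)
  have h1 := integral_map (μ := PS G ν) hm.aemeasurable (f := fun x : ℝ => x)
    aestronglyMeasurable_id
  have h2 := integral_map (μ := (P0 G).prod ν) hX.aemeasurable (f := fun x : ℝ => x)
    aestronglyMeasurable_id
  rw [← h1, ← h2]
  unfold PS
  rw [h]

theorem integrable_stack' (B : ℕ → ℝ × ℝ) (k : ℕ) {X : ℝ × ℝ → Environment → Φ → ℝ}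
    (hX : Measurable fun q : Row Φ => X q.1.1 q.1.2 q.2) (hinv : ∀ φ, Inv fun θ t => X θ t φ)
    (hi : Integrable (fun q => X q.1.1 q.1.2 q.2) ((P0 G).prod ν)) :
    Integrable (fun ω : St Φ => X (ω.1.1 - B k - (ω.2 k).1) ω.1.2 (ω.2 k).2) (PS G ν) := by
  have h := J69.map_stack (G := G) (I := ℕ) ν k hX hinv (B k)
  have hm : Measurable fun ω : St Φ => X (ω.1.1 - B k - (ω.2 k).1) ω.1.2 (ω.2 k).2 :=
    hX.comp (measurable_rq B k)
  have h2 : Integrable (fun x : ℝ => x) (((P0 G).prod ν).map fun q => X q.1.1 q.1.2 q.2) :=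
    (integrable_map_measure aestronglyMeasurable_id hX.aemeasurable).2 hi
  rw [← h] at h2
  exact (integrable_map_measure aestronglyMeasurable_id hm.aemeasurable).1 h2

end rowlaw

/-! ### Two coordinates of a product measure -/

lemma mp_of_comp {α β γ : Type*} [MeasurableSpace α] [MeasurableSpace β] [MeasurableSpace γ]
    {μa : Measure α} {μb : Measure β} {μc : Measure γ} {f : β → γ} {g : α → β}
    (hg : MeasurePreserving g μa μb) (hf : Measurable f)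
    (hfg : MeasurePreserving (f ∘ g) μa μc) : MeasurePreserving f μb μc := by
  refine ⟨hf, ?_⟩
  rw [← hg.map_eq, Measure.map_map hf hg.measurable]
  exact hfg.map_eq

lemma mp_pair {X : Type*} [MeasurableSpace X] (ν : Measure X) [IsProbabilityMeasure ν] {j k : ℕ}
    (hjk : j ≠ k) : MeasurePreserving (fun ψ : ℕ → X => (ψ j, ψ k))
      (Measure.infinitePi fun _ : ℕ => ν) (ν.prod ν) := by
  refine mp_of_comp (V.mp_update (I := ℕ) ν j)
    ((measurable_pi_apply j).prodMk (measurable_pi_apply k)) ?_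
  have e : ((fun ψ : ℕ → X => (ψ j, ψ k)) ∘ fun p : (ℕ → X) × X => Function.update p.1 j p.2) =
      fun p => (p.2, p.1 k) := by
    funext p
    simp only [Function.comp, Function.update_self, Function.update_of_ne hjk.symm]
  rw [e]
  have h1 : MeasurePreserving (fun p : (ℕ → X) × X => (p.2, p.1))
      ((Measure.infinitePi fun _ : ℕ => ν).prod ν) (ν.prod (Measure.infinitePi fun _ : ℕ => ν)) :=
    Measure.measurePreserving_swap
  have h2 : MeasurePreserving (Prod.map (id : X → X) (fun ψ : ℕ → X => ψ k))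
      (ν.prod (Measure.infinitePi fun _ : ℕ => ν)) (ν.prod ν) :=
    (MeasurePreserving.id ν).prod (measurePreserving_eval_infinitePi (fun _ : ℕ => ν) k)
  exact h2.comp h1

/-- `((a, b), (c, d)) ↦ ((a, c), (b, d))` -/
lemma mp_comm4 {α β γ δ : Type*} [MeasurableSpace α] [MeasurableSpace β] [MeasurableSpace γ]
    [MeasurableSpace δ] (μa : Measure α) (μb : Measure β) (μc : Measure γ) (μd : Measure δ)
    [IsProbabilityMeasure μa] [IsProbabilityMeasure μb] [IsProbabilityMeasure μc]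
    [IsProbabilityMeasure μd] : MeasurePreserving
    (fun x : (α × β) × (γ × δ) => ((x.1.1, x.2.1), (x.1.2, x.2.2)))
    ((μa.prod μb).prod (μc.prod μd)) ((μa.prod μc).prod (μb.prod μd)) := by
  have h1 : MeasurePreserving (fun x : (α × β) × (γ × δ) => (x.1.1, (x.1.2, x.2)))
      ((μa.prod μb).prod (μc.prod μd)) (μa.prod (μb.prod (μc.prod μd))) :=
    measurePreserving_prodAssoc μa μb (μc.prod μd)
  have h2 : MeasurePreserving (fun x : β × (γ × δ) => ((x.1, x.2.1), x.2.2))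
      (μb.prod (μc.prod μd)) ((μb.prod μc).prod μd) :=
    (measurePreserving_prodAssoc μb μc μd).symm
  have h3 : MeasurePreserving (fun x : (β × γ) × δ => ((x.1.2, x.1.1), x.2))
      ((μb.prod μc).prod μd) ((μc.prod μb).prod μd) :=
    (Measure.measurePreserving_swap (μ := μb) (ν := μc)).prod (MeasurePreserving.id μd)
  have h4 : MeasurePreserving (fun x : (γ × β) × δ => (x.1.1, (x.1.2, x.2)))
      ((μc.prod μb).prod μd) (μc.prod (μb.prod μd)) :=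
    measurePreserving_prodAssoc μc μb μd
  have h5 : MeasurePreserving (fun x : α × (γ × (β × δ)) => ((x.1, x.2.1), x.2.2))
      (μa.prod (μc.prod (μb.prod μd))) ((μa.prod μc).prod (μb.prod μd)) :=
    (measurePreserving_prodAssoc μa μc (μb.prod μd)).symm
  exact h5.comp (((MeasurePreserving.id μa).prod ((h4.comp h3).comp h2)).comp h1)

/-- `((η, (u₁, u₂)), (η', (u₁', u₂'))) ↦ ((η, η'), (u₂, u₁'))` -/
lemma mp_rearr : MeasurePreserving
    (fun x : ((ℝ × ℝ) × (ℝ × ℝ)) × ((ℝ × ℝ) × (ℝ × ℝ)) => ((x.1.1, x.2.1), (x.1.2.2, x.2.2.1)))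
    ((UU2.prod (UU.prod UU)).prod (UU2.prod (UU.prod UU))) ((UU2.prod UU2).prod (UU.prod UU)) := by
  have h1 : MeasurePreserving (Prod.map
      (Prod.map (id : ℝ × ℝ → ℝ × ℝ) (Prod.snd : ℝ × ℝ → ℝ))
      (Prod.map (id : ℝ × ℝ → ℝ × ℝ) (Prod.fst : ℝ × ℝ → ℝ)))
      ((UU2.prod (UU.prod UU)).prod (UU2.prod (UU.prod UU)))
      ((UU2.prod UU).prod (UU2.prod UU)) :=
    ((MeasurePreserving.id UU2).prod measurePreserving_snd).prod
      ((MeasurePreserving.id UU2).prod measurePreserving_fst)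
  exact (mp_comm4 UU2 UU UU2 UU).comp h1

/-- `(p, (j, u)) ↦ (j, (p, u))` -/
lemma mp_left {α β γ : Type*} [MeasurableSpace α] [MeasurableSpace β] [MeasurableSpace γ]
    (μa : Measure α) (μb : Measure β) (μc : Measure γ)
    [IsProbabilityMeasure μa] [IsProbabilityMeasure μb] [IsProbabilityMeasure μc] :
    MeasurePreserving (fun x : α × (β × γ) => (x.2.1, (x.1, x.2.2)))
    (μa.prod (μb.prod μc)) (μb.prod (μa.prod μc)) := by
  have h2 : MeasurePreserving (fun x : α × (β × γ) => ((x.1, x.2.1), x.2.2))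
      (μa.prod (μb.prod μc)) ((μa.prod μb).prod μc) :=
    (measurePreserving_prodAssoc μa μb μc).symm
  have h3 : MeasurePreserving (fun x : (α × β) × γ => ((x.1.2, x.1.1), x.2))
      ((μa.prod μb).prod μc) ((μb.prod μa).prod μc) :=
    (Measure.measurePreserving_swap (μ := μa) (ν := μb)).prod (MeasurePreserving.id μc)
  have h4 : MeasurePreserving (fun x : (β × α) × γ => (x.1.1, (x.1.2, x.2)))
      ((μb.prod μa).prod μc) (μb.prod (μa.prod μc)) :=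
    measurePreserving_prodAssoc μb μa μc
  exact h4.comp (h3.comp h2)

/-! ### Integrability of excesses between random vertices of a box -/

theorem integrable_ptY_box {μ : ℝ × ℝ → ℝ} (F : FlatData μ) {Ψ : Type*} [MeasurableSpace Ψ]
    (π : Measure Ψ) [IsProbabilityMeasure π]
    (h0 : G (Set.Iio 0) = 0) (h2 : Integrable (fun x : ℝ => x ^ 2) G) {M : ℕ}
    {X Y : ((ℝ × ℝ) × Environment) × Ψ → ℤ × ℤ} (hX : Measurable X) (hY : Measurable Y)
    (hXY : ∀ᵐ q ∂((P0 G).prod π), X q ∈ box M ∧ Y q ∈ box M) :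
    Integrable (fun q => ptY q.1.2 (phi F) (X q) (Y q)) ((P0 G).prod π) := by
  have i0 : Integrable (fun q : ((ℝ × ℝ) × Environment) × Ψ => BB M q.1.2)
      ((P0 G).prod π) := by
    have ha : Integrable (fun p : (ℝ × ℝ) × Environment => BB M p.2) (P0 G) := by
      unfold P0
      exact (integrable_BB h0 h2 M).comp_snd UU2
    exact ha.comp_fst π
  have i1 : Integrable (fun q : ((ℝ × ℝ) × Environment) × Ψ => passageTime q.1.2 (X q) (Y q))
      ((P0 G).prod π) := by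
    refine i0.mono' (measurable_ptr (measurable_snd.comp measurable_fst) hX hY).aestronglyMeasurable
      ?_
    filter_upwards [ae_P0_Nn (Ψ := Ψ) (ν := π) h0, hXY] with q hq hq'
    rw [Real.norm_eq_abs, abs_of_nonneg (pt_nonneg hq.1 _ _)]
    exact le_BB hq.1 hq'.1 hq'.2
  have i2 := J69.integrable_fun_box hX (hXY.mono fun q hq => hq.1) (phi F)
  have i3 := J69.integrable_fun_box hY (hXY.mono fun q hq => hq.2) (phi F)
  exact i1.sub (i3.sub i2)

end Crest.Agent.R151.PA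

namespace Crest.Agent.R151.NF

open B710 (FlatData)
open R78 (ptY)
open M192 (St Row PS rq measurable_rq)

variable {μ : ℝ × ℝ → ℝ}

namespace Cf

variable {G : Measure ℝ} {F : FlatData μ} {w0 c0 K : ℝ} {p : Num} (c : Cf G F w0 c0 K p)

/-! ### Invariance of the highway functionals -/

lemma cst_inv (h : Hwy F) (s s' u : ℝ) : Inv fun θ t => h.cst s s' u θ t := by
  intro m θ t
  have e : h.H u (θ + toR m) (act (tr m) t) = fun k => h.H u θ t k - m := by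
    funext k; exact h.cov u θ t m k
  unfold Hwy.cst
  simp only
  rw [M192.ix_cov, M192.ix_cov, e, M192.hc_tr, M192.hc_tr]

lemma inv_sub {α : Type*} {f : ℝ × ℝ → Environment → α} (hf : Inv f) (d : ℝ × ℝ) :
    Inv fun θ t => f (θ - d) t := by
  intro m θ t
  have e : θ + toR m - d = θ - d + toR m := by abel
  simp only [e]
  exact hf m (θ - d) t

section meas

variable {Ω : Type*} [MeasurableSpace Ω] {θ' : Ω → ℝ × ℝ} {u : Ω → ℝ} {t : Ω → Environment}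

lemma meas_cst (h : Hwy F) (hθ' : Measurable θ') (hu : Measurable u) (ht : Measurable t)
    (s s' : ℝ) : Measurable fun ω => h.cst s s' (u ω) (θ' ω) (t ω) := by
  unfold Hwy.cst
  have hH : ∀ k, Measurable fun ω => h.H (u ω) (θ' ω) (t ω) k := h.meas_H hu hθ' ht
  refine Measurable.sub ?_ ?_
  · exact measurable_at (fun k => measurable_hc ht hH k) (h.meas_ix s' hu hθ' ht)
  · exact measurable_at (fun k => measurable_hc ht hH k) (h.meas_ix s hu hθ' ht)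

end meas

variable [IsProbabilityMeasure G]

/-- `(p, (u, u')) ↦ (u, p)` -/
lemma mp_fst_swap : MeasurePreserving
    (fun q : ((ℝ × ℝ) × Environment) × (ℝ × ℝ) => (q.2.1, q.1))
    ((P0 G).prod (UU.prod UU)) (UU.prod (P0 G)) := by
  have h1 : MeasurePreserving (fun q : ((ℝ × ℝ) × Environment) × (ℝ × ℝ) => (q.1, q.2.1))
      ((P0 G).prod (UU.prod UU)) ((P0 G).prod UU) :=
    (MeasurePreserving.id _).prod measurePreserving_fst
  exact (Measure.measurePreserving_swap (μ := P0 G) (ν := UU)).comp h1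

/-- `(p, (u, u')) ↦ (u', p)` -/
lemma mp_snd_swap : MeasurePreserving
    (fun q : ((ℝ × ℝ) × Environment) × (ℝ × ℝ) => (q.2.2, q.1))
    ((P0 G).prod (UU.prod UU)) (UU.prod (P0 G)) := by
  have h1 : MeasurePreserving (fun q : ((ℝ × ℝ) × Environment) × (ℝ × ℝ) => (q.1, q.2.2))
      ((P0 G).prod (UU.prod UU)) ((P0 G).prod UU) :=
    (MeasurePreserving.id _).prod measurePreserving_snd
  exact (Measure.measurePreserving_swap (μ := P0 G) (ν := UU)).comp h1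

/-- a functional of ONE highway on the row space and on the stack -/
theorem hwy_stack {f : ℝ → ℝ × ℝ → Environment → ℝ}
    (hm : Measurable fun q : ℝ × (ℝ × ℝ) × Environment => f q.1 q.2.1 q.2.2)
    (hinv : ∀ u, Inv (f u))
    (hi : Integrable (fun q : ℝ × (ℝ × ℝ) × Environment => f q.1 q.2.1 q.2.2) (UU.prod (P0 G)))
    (k : ℕ) (d : ℝ × ℝ) :
    (Integrable (fun ω : St (ℝ × ℝ) => f (ω.2 k).2.1 (c.th k ω) ω.1.2) c.PSt ∧
      ∫ ω, f (ω.2 k).2.1 (c.th k ω) ω.1.2 ∂c.PSt =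
        ∫ q, f q.1 q.2.1 q.2.2 ∂(UU.prod (P0 G))) ∧
    (Integrable (fun ω : St (ℝ × ℝ) => f (ω.2 k).2.2 (c.th k ω - d) ω.1.2) c.PSt ∧
      ∫ ω, f (ω.2 k).2.2 (c.th k ω - d) ω.1.2 ∂c.PSt =
        ∫ q, f q.1 q.2.1 q.2.2 ∂(UU.prod (P0 G))) := by
  have m1 : Measurable fun q : Row (ℝ × ℝ) => f q.2.1 q.1.1 q.1.2 :=
    hm.comp (by fun_prop : Measurable fun q : Row (ℝ × ℝ) => (q.2.1, q.1.1, q.1.2))
  have m2 : Measurable fun q : Row (ℝ × ℝ) => f q.2.2 q.1.1 q.1.2 :=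
    hm.comp (by fun_prop : Measurable fun q : Row (ℝ × ℝ) => (q.2.2, q.1.1, q.1.2))
  have m3 : Measurable fun q : Row (ℝ × ℝ) => f q.2.2 (q.1.1 - d) q.1.2 :=
    hm.comp (by fun_prop : Measurable fun q : Row (ℝ × ℝ) => (q.2.2, q.1.1 - d, q.1.2))
  have j1 : Integrable (fun q : Row (ℝ × ℝ) => f q.2.1 q.1.1 q.1.2) ((P0 G).prod (UU.prod UU)) :=
    (mp_fst_swap (G := G)).integrable_comp_of_integrable hi
  have j2 : Integrable (fun q : Row (ℝ × ℝ) => f q.2.2 q.1.1 q.1.2) ((P0 G).prod (UU.prod UU)) :=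
    (mp_snd_swap (G := G)).integrable_comp_of_integrable hi
  have j3 : Integrable (fun q : Row (ℝ × ℝ) => f q.2.2 (q.1.1 - d) q.1.2)
      ((P0 G).prod (UU.prod UU)) := by
    have := integrable_shift_prod (G := G) (ν := UU.prod UU)
      (F := fun θ t (φ : ℝ × ℝ) => f φ.2 θ t) (fun φ => hinv φ.2) (-d) j2
    simpa [sub_eq_add_neg] using this
  have k1 : ∫ q : Row (ℝ × ℝ), f q.2.1 q.1.1 q.1.2 ∂((P0 G).prod (UU.prod UU)) =
      ∫ q, f q.1 q.2.1 q.2.2 ∂(UU.prod (P0 G)) :=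
    mp_integral (mp_fst_swap (G := G)) hi.aestronglyMeasurable
  have k2 : ∫ q : Row (ℝ × ℝ), f q.2.2 q.1.1 q.1.2 ∂((P0 G).prod (UU.prod UU)) =
      ∫ q, f q.1 q.2.1 q.2.2 ∂(UU.prod (P0 G)) :=
    mp_integral (mp_snd_swap (G := G)) hi.aestronglyMeasurable
  have k3 : ∫ q : Row (ℝ × ℝ), f q.2.2 (q.1.1 - d) q.1.2 ∂((P0 G).prod (UU.prod UU)) =
      ∫ q : Row (ℝ × ℝ), f q.2.2 q.1.1 q.1.2 ∂((P0 G).prod (UU.prod UU)) := by
    have := integral_shift_prod (G := G) (ν := UU.prod UU)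
      (F := fun θ t (φ : ℝ × ℝ) => f φ.2 θ t) (fun φ => hinv φ.2) m2 (-d)
    simpa [sub_eq_add_neg] using this
  refine ⟨⟨?_, ?_⟩, ?_, ?_⟩
  · exact PA.integrable_stack' (G := G) (ν := UU.prod UU) c.B k
      (X := fun θ t (φ : ℝ × ℝ) => f φ.1 θ t) m1 (fun φ => hinv φ.1) j1
  · rw [← k1]
    exact PA.integral_stack' (G := G) (ν := UU.prod UU) c.B k
      (X := fun θ t (φ : ℝ × ℝ) => f φ.1 θ t) m1 (fun φ => hinv φ.1)
  · exact PA.integrable_stack' (G := G) (ν := UU.prod UU) c.B k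
      (X := fun θ t (φ : ℝ × ℝ) => f φ.2 (θ - d) t) m3 (fun φ => inv_sub (hinv φ.2) d) j3
  · rw [← k2, ← k3]
    exact PA.integral_stack' (G := G) (ν := UU.prod UU) c.B k
      (X := fun θ t (φ : ℝ × ℝ) => f φ.2 (θ - d) t) m3 (fun φ => inv_sub (hinv φ.2) d)

/-! ### (P3) costs of the highways between the gauge points -/

theorem cstL_spec (k : ℕ) : Integrable (c.cstL k) c.PSt ∧ ∫ ω, c.cstL k ω ∂c.PSt =
    ∫ q, c.h.cst (-c.L) c.L q.1 q.2.1 q.2.2 ∂(UU.prod (P0 G)) :=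
  (c.hwy_stack (f := fun u θ t => c.h.cst (-c.L) c.L u θ t)
    (meas_cst c.h (by fun_prop) (by fun_prop) (by fun_prop) _ _)
    (fun u => cst_inv c.h _ _ u) (c.mean.int_cst _ _) k c.dA).1

theorem cstU_spec (k : ℕ) : Integrable (c.cstU k) c.PSt ∧ ∫ ω, c.cstU k ω ∂c.PSt =
    ∫ q, c.h.cst (-c.L) c.L q.1 q.2.1 q.2.2 ∂(UU.prod (P0 G)) :=
  (c.hwy_stack (f := fun u θ t => c.h.cst (-c.L) c.L u θ t)
    (meas_cst c.h (by fun_prop) (by fun_prop) (by fun_prop) _ _)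
    (fun u => cst_inv c.h _ _ u) (c.mean.int_cst _ _) k c.dA).2

/-- the boundary costs have a mean that does not depend on the row -/
theorem cst_bound : ∃ C : ℝ, ∀ k, ∫ ω, c.cstL k ω ∂c.PSt ≤ C ∧ ∫ ω, c.cstU k ω ∂c.PSt ≤ C :=
  ⟨_, fun k => ⟨(c.cstL_spec k).2.le, (c.cstU_spec k).2.le⟩⟩

/-! ### (P1) the path independent sum -/

theorem YL_spec (k : ℕ) :
    Integrable (fun ω : St (ℝ × ℝ) => c.h.Y (-c.L) c.L (ω.2 k).2.1 (c.th k ω) ω.1.2) c.PSt ∧
    ∫ ω, c.h.Y (-c.L) c.L (ω.2 k).2.1 (c.th k ω) ω.1.2 ∂c.PSt = 2 * c.L * c.ε := by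
  obtain ⟨h1, h2⟩ := (c.hwy_stack (f := fun u θ t => c.h.Y (-c.L) c.L u θ t)
    (J69.meas_Y c.h (by fun_prop) (by fun_prop) (by fun_prop) _ _)
    (fun u => J69.Y_inv c.h _ _ u) (c.mean.int _ _) k c.dA).1
  refine ⟨h1, h2.trans ?_⟩
  rw [c.mean.mean]
  ring

theorem YU_spec (k : ℕ) :
    Integrable (fun ω : St (ℝ × ℝ) => c.h.Y (-c.L) c.L (ω.2 k).2.2 (c.th k ω - c.dA) ω.1.2)
      c.PSt ∧
    ∫ ω, c.h.Y (-c.L) c.L (ω.2 k).2.2 (c.th k ω - c.dA) ω.1.2 ∂c.PSt = 2 * c.L * c.ε := by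
  obtain ⟨h1, h2⟩ := (c.hwy_stack (f := fun u θ t => c.h.Y (-c.L) c.L u θ t)
    (J69.meas_Y c.h (by fun_prop) (by fun_prop) (by fun_prop) _ _)
    (fun u => J69.Y_inv c.h _ _ u) (c.mean.int _ _) k c.dA).2
  refine ⟨h1, h2.trans ?_⟩
  rw [c.mean.mean]
  ring

/-- the row terms -/
theorem hkY_spec
    (hR3 : Integrable (fun q : Row (ℝ × ℝ) => c.h.hkY c.dA univ (-c.L) c.L q.1.1 q.1.2 q.2)
      (nuR G) ∧
      0 ≤ ∫ q : Row (ℝ × ℝ), c.h.hkY c.dA univ (-c.L) c.L q.1.1 q.1.2 q.2 ∂(nuR G)) (k : ℕ) :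
    Integrable (fun ω : St (ℝ × ℝ) => c.h.hkY c.dA univ (-c.L) c.L (c.th k ω) ω.1.2 (ω.2 k).2)
      c.PSt ∧
    0 ≤ ∫ ω, c.h.hkY c.dA univ (-c.L) c.L (c.th k ω) ω.1.2 (ω.2 k).2 ∂c.PSt := by
  have hm : Measurable fun q : Row (ℝ × ℝ) => c.h.hkY c.dA univ (-c.L) c.L q.1.1 q.1.2 q.2 :=
    c.h.meas_hkY (by fun_prop) (by fun_prop) (by fun_prop) c.dA MeasurableSet.univ _ _
  refine ⟨PA.integrable_stack' (G := G) (ν := UU.prod UU) c.B k
    (X := fun θ t (φ : ℝ × ℝ) => c.h.hkY c.dA univ (-c.L) c.L θ t φ) hm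
    (fun φ => c.h.hkY_inv _ _ _ _ φ) hR3.1, ?_⟩
  have := PA.integral_stack' (G := G) (ν := UU.prod UU) c.B k
    (X := fun θ t (φ : ℝ × ℝ) => c.h.hkY c.dA univ (-c.L) c.L θ t φ) hm
    (fun φ => c.h.hkY_inv _ _ _ _ φ)
  refine hR3.2.trans (le_of_eq ?_)
  exact this.symm

/-- the gap term of the stack -/
noncomputable def gapT (k : ℕ) (ω : St (ℝ × ℝ)) : ℝ :=
  c.h.gY ((2 * c.g) • F.b + (ω.2 (k + 1)).1 - (ω.2 k).1) (-c.L) c.L
      (c.th k ω - c.dA) ω.1.2 ((ω.2 k).2.2, (ω.2 (k + 1)).2.1)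

/-- the gap term as a function of `(p, ((η, η'), (u, u')))` -/
noncomputable def gapQ (k : ℕ)
    (q : ((ℝ × ℝ) × Environment) × (((ℝ × ℝ) × (ℝ × ℝ)) × (ℝ × ℝ))) : ℝ :=
  c.h.gY ((2 * c.g) • F.b + q.2.1.2 - q.2.1.1) (-c.L) c.L
      (q.1.1 - c.B k - q.2.1.1 - c.dA) q.1.2 q.2.2

omit [IsProbabilityMeasure G] in
lemma gapQ_eq (k : ℕ) (q : ((ℝ × ℝ) × Environment) × (((ℝ × ℝ) × (ℝ × ℝ)) × (ℝ × ℝ))) :
    c.gapQ k q = ptY q.1.2 (phi F)
      (c.h.x (-c.L) q.2.2.1 (q.1.1 - (c.B k + c.dA) - q.2.1.1) q.1.2)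
      (c.h.x c.L q.2.2.2 (q.1.1 - (c.B k + c.dA + (2 * c.g) • F.b) - q.2.1.2) q.1.2) := by
  unfold gapQ
  have e1 : q.1.1 - c.B k - q.2.1.1 - c.dA = q.1.1 - (c.B k + c.dA) - q.2.1.1 := by abel
  have e2 : q.1.1 - (c.B k + c.dA) - q.2.1.1 - ((2 * c.g) • F.b + q.2.1.2 - q.2.1.1) =
      q.1.1 - (c.B k + c.dA + (2 * c.g) • F.b) - q.2.1.2 := by abel
  rw [e1]
  simp only [Hwy.gY, Hwy.Lo, Hwy.Up, Hwy.iL, Hwy.iU, e2]
  rfl

lemma mp_gap (k : ℕ) : MeasurePreserving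
    (fun ω : St (ℝ × ℝ) => (ω.1, (((ω.2 k).1, (ω.2 (k + 1)).1),
      ((ω.2 k).2.2, (ω.2 (k + 1)).2.1)))) c.PSt
    ((P0 G).prod ((UU2.prod UU2).prod (UU.prod UU))) := by
  have h1 := PA.mp_rearr.comp (PA.mp_pair (UU2.prod (UU.prod UU)) (j := k) (k := k + 1) (by omega))
  exact (MeasurePreserving.id (P0 G)).prod h1

/-- vertices of highways with small jitter are in a fixed box -/
lemma x_mem_box (h : Hwy F) (s u : ℝ) {ξ η v : ℝ × ℝ} (t : Environment)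
    (hξ : ξ ∈ Set.Ico (0 : ℝ) 1 ×ˢ Set.Ico (0 : ℝ) 1)
    (hη : η ∈ Set.Ico (0 : ℝ) 1 ×ˢ Set.Ico (0 : ℝ) 1) {N : ℕ}
    (hN : M56.Rx h s + 1 + ‖v‖ + 1 ≤ N) : h.x s u (ξ - v - η) t ∈ box N := by
  refine mem_box_of_pos (v := v) hξ (R := M56.Rx h s + 1) ?_ hN
  have h1 := M56.norm_x h s u (ξ - v - η) t
  have h2 : pos (ξ - v) (h.x s u (ξ - v - η) t) = pos (ξ - v - η) (h.x s u (ξ - v - η) t) + η := by
    unfold pos; abel
  rw [h2]
  exact (norm_add_le _ _).trans (add_le_add h1 (norm_jitter hη))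

theorem gapQ_integrable (h0 : G (Set.Iio 0) = 0) (h2 : Integrable (fun x : ℝ => x ^ 2) G)
    (k : ℕ) : Integrable (c.gapQ k) ((P0 G).prod ((UU2.prod UU2).prod (UU.prod UU))) := by
  have e : c.gapQ k = fun q => ptY q.1.2 (phi F)
      (c.h.x (-c.L) q.2.2.1 (q.1.1 - (c.B k + c.dA) - q.2.1.1) q.1.2)
      (c.h.x c.L q.2.2.2 (q.1.1 - (c.B k + c.dA + (2 * c.g) • F.b) - q.2.1.2) q.1.2) := by
    funext q; exact c.gapQ_eq k q
  rw [e]
  obtain ⟨N, hN⟩ := exists_nat_ge (max (M56.Rx c.h (-c.L) + 1 + ‖c.B k + c.dA‖ + 1)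
    (M56.Rx c.h c.L + 1 + ‖c.B k + c.dA + (2 * c.g) • F.b‖ + 1))
  refine PA.integrable_ptY_box F ((UU2.prod UU2).prod (UU.prod UU)) h0 h2 (M := N)
    (M56.measurable_x c.h (by fun_prop) (by fun_prop) (by fun_prop) _)
    (M56.measurable_x c.h (by fun_prop) (by fun_prop) (by fun_prop) _) ?_
  have a1 : ∀ᵐ q : ((ℝ × ℝ) × Environment) × (((ℝ × ℝ) × (ℝ × ℝ)) × (ℝ × ℝ))
      ∂((P0 G).prod ((UU2.prod UU2).prod (UU.prod UU))),
      q.2.1.1 ∈ Set.Ico (0 : ℝ) 1 ×ˢ Set.Ico (0 : ℝ) 1 := by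
    have hmp : MeasurePreserving
        (fun q : ((ℝ × ℝ) × Environment) × (((ℝ × ℝ) × (ℝ × ℝ)) × (ℝ × ℝ)) => q.2.1.1)
        ((P0 G).prod ((UU2.prod UU2).prod (UU.prod UU))) UU2 :=
      measurePreserving_fst.comp (measurePreserving_fst.comp measurePreserving_snd)
    exact hmp.quasiMeasurePreserving.ae ae_UU2
  have a2 : ∀ᵐ q : ((ℝ × ℝ) × Environment) × (((ℝ × ℝ) × (ℝ × ℝ)) × (ℝ × ℝ))
      ∂((P0 G).prod ((UU2.prod UU2).prod (UU.prod UU))),
      q.2.1.2 ∈ Set.Ico (0 : ℝ) 1 ×ˢ Set.Ico (0 : ℝ) 1 := by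
    have hmp : MeasurePreserving
        (fun q : ((ℝ × ℝ) × Environment) × (((ℝ × ℝ) × (ℝ × ℝ)) × (ℝ × ℝ)) => q.2.1.2)
        ((P0 G).prod ((UU2.prod UU2).prod (UU.prod UU))) UU2 :=
      measurePreserving_snd.comp (measurePreserving_fst.comp measurePreserving_snd)
    exact hmp.quasiMeasurePreserving.ae ae_UU2
  filter_upwards [ae_P0_Nn (G := G) (Ψ := ((ℝ × ℝ) × (ℝ × ℝ)) × (ℝ × ℝ))
    (ν := (UU2.prod UU2).prod (UU.prod UU)) h0, a1, a2] with q hq hq1 hq2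
  exact ⟨x_mem_box c.h _ _ _ hq.2 hq1 ((le_max_left _ _).trans hN),
    x_mem_box c.h _ _ _ hq.2 hq2 ((le_max_right _ _).trans hN)⟩

theorem gapT_spec (h0 : G (Set.Iio 0) = 0) (h2 : Integrable (fun x : ℝ => x ^ 2) G)
    (hμ : IsTC G μ) (k : ℕ) :
    Integrable (c.gapT k) c.PSt ∧ 0 ≤ ∫ ω, c.gapT k ω ∂c.PSt := by
  have hi := c.gapQ_integrable h0 h2 k
  have hmp := c.mp_gap k
  refine ⟨hmp.integrable_comp_of_integrable hi, ?_⟩
  have e1 : ∫ ω, c.gapT k ω ∂c.PSt =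
      ∫ q, c.gapQ k q ∂((P0 G).prod ((UU2.prod UU2).prod (UU.prod UU))) :=
    mp_integral hmp hi.aestronglyMeasurable
  rw [e1]
  -- exchange
  have hmp2 := PA.mp_left (UU2.prod UU2) (P0 G) (UU.prod UU)
  let g' : ((ℝ × ℝ) × (ℝ × ℝ)) × (((ℝ × ℝ) × Environment) × (ℝ × ℝ)) → ℝ := fun x =>
    c.gapQ k (x.2.1, (x.1, x.2.2))
  have i2 : Integrable g' ((UU2.prod UU2).prod ((P0 G).prod (UU.prod UU))) :=
    hmp2.integrable_comp_of_integrable hi
  have e2 : ∫ x, g' x ∂((UU2.prod UU2).prod ((P0 G).prod (UU.prod UU))) =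
      ∫ q, c.gapQ k q ∂((P0 G).prod ((UU2.prod UU2).prod (UU.prod UU))) :=
    mp_integral hmp2 hi.aestronglyMeasurable
  rw [← e2, integral_prod _ i2]
  refine integral_nonneg fun j => ?_
  show 0 ≤ ∫ x : ((ℝ × ℝ) × Environment) × (ℝ × ℝ), c.gapQ k (x.1, (j, x.2))
    ∂((P0 G).prod (UU.prod UU))
  have e3 : ∫ x : ((ℝ × ℝ) × Environment) × (ℝ × ℝ), c.gapQ k (x.1, (j, x.2))
      ∂((P0 G).prod (UU.prod UU)) =
      ∫ x : ((ℝ × ℝ) × Environment) × (ℝ × ℝ), c.h.gY ((2 * c.g) • F.b + j.2 - j.1) (-c.L) c.L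
        x.1.1 x.1.2 x.2 ∂((P0 G).prod (UU.prod UU)) := by
    have := integral_shift_prod (G := G) (ν := UU.prod UU)
      (F := fun θ t (φ : ℝ × ℝ) => c.h.gY ((2 * c.g) • F.b + j.2 - j.1) (-c.L) c.L θ t φ)
      (fun φ => c.h.gY_inv _ _ _ φ)
      (c.h.meas_gY (by fun_prop) (by fun_prop) (by fun_prop) _ _ _)
      (-(c.B k + j.1 + c.dA))
    rw [← this]
    refine integral_congr_ae (ae_of_all _ fun x => ?_)
    have e4 : x.1.1 - c.B k - j.1 - c.dA = x.1.1 + -(c.B k + j.1 + c.dA) := by abel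
    simp only [gapQ, e4]
  rw [e3]
  exact M56.gY_nonneg c.h h0 h2 hμ _ _ _

/-- **(P1)** integrability of the path independent sum -/
theorem sumY_integrable (h0 : G (Set.Iio 0) = 0) (h2 : Integrable (fun x : ℝ => x ^ 2) G)
    (hμ : IsTC G μ)
    (hR3 : Integrable (fun q : Row (ℝ × ℝ) => c.h.hkY c.dA univ (-c.L) c.L q.1.1 q.1.2 q.2)
      (nuR G) ∧
      0 ≤ ∫ q : Row (ℝ × ℝ), c.h.hkY c.dA univ (-c.L) c.L q.1.1 q.1.2 q.2 ∂(nuR G)) (N : ℕ) :
    Integrable (c.sumY N) c.PSt := by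
  have e : c.sumY N = fun ω => ∑ k ∈ Finset.range (N + 1),
        c.h.hkY c.dA univ (-c.L) c.L (c.th k ω) ω.1.2 (ω.2 k).2 +
      ∑ k ∈ Finset.range N, c.gapT k ω -
      ∑ k ∈ Finset.range N, c.h.Y (-c.L) c.L (ω.2 k).2.2 (c.th k ω - c.dA) ω.1.2 -
      ∑ k ∈ Finset.range N, c.h.Y (-c.L) c.L (ω.2 (k + 1)).2.1 (c.th (k + 1) ω) ω.1.2 := by
    funext ω; exact c.sumY_eq N ω
  rw [e]
  exact (((integrable_finsetSum _ fun k _ => (c.hkY_spec hR3 k).1).add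
    (integrable_finsetSum _ fun k _ => (c.gapT_spec h0 h2 hμ k).1)).sub
    (integrable_finsetSum _ fun k _ => (c.YU_spec k).1)).sub
    (integrable_finsetSum _ fun k _ => (c.YL_spec (k + 1)).1)

/-- **(P1)** mean of the path independent sum -/
theorem sumY_mean (h0 : G (Set.Iio 0) = 0) (h2 : Integrable (fun x : ℝ => x ^ 2) G)
    (hμ : IsTC G μ)
    (hR3 : Integrable (fun q : Row (ℝ × ℝ) => c.h.hkY c.dA univ (-c.L) c.L q.1.1 q.1.2 q.2)
      (nuR G) ∧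
      0 ≤ ∫ q : Row (ℝ × ℝ), c.h.hkY c.dA univ (-c.L) c.L q.1.1 q.1.2 q.2 ∂(nuR G)) (N : ℕ) :
    -(4 * c.L * c.ε * N) ≤ ∫ ω, c.sumY N ω ∂c.PSt := by
  have e : c.sumY N = fun ω => ∑ k ∈ Finset.range (N + 1),
        c.h.hkY c.dA univ (-c.L) c.L (c.th k ω) ω.1.2 (ω.2 k).2 +
      ∑ k ∈ Finset.range N, c.gapT k ω -
      ∑ k ∈ Finset.range N, c.h.Y (-c.L) c.L (ω.2 k).2.2 (c.th k ω - c.dA) ω.1.2 -
      ∑ k ∈ Finset.range N, c.h.Y (-c.L) c.L (ω.2 (k + 1)).2.1 (c.th (k + 1) ω) ω.1.2 := by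
    funext ω; exact c.sumY_eq N ω
  have i1 := integrable_finsetSum (μ := c.PSt) (Finset.range (N + 1))
    fun k _ => (c.hkY_spec hR3 k).1
  have i2 := integrable_finsetSum (μ := c.PSt) (Finset.range N)
    fun k _ => (c.gapT_spec h0 h2 hμ k).1
  have i3 := integrable_finsetSum (μ := c.PSt) (Finset.range N) fun k _ => (c.YU_spec k).1
  have i4 := integrable_finsetSum (μ := c.PSt) (Finset.range N) fun k _ => (c.YL_spec (k + 1)).1
  have a1 := integral_sub ((i1.add i2).sub i3) i4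
  have a2 := integral_sub (i1.add i2) i3
  have a3 := integral_add i1 i2
  simp only [Pi.add_apply, Pi.sub_apply] at a1 a2 a3
  rw [e]
  simp only
  rw [a1, a2, a3,
    integral_finsetSum _ fun k _ => (c.hkY_spec hR3 k).1,
    integral_finsetSum _ fun k _ => (c.gapT_spec h0 h2 hμ k).1,
    integral_finsetSum _ fun k _ => (c.YU_spec k).1,
    integral_finsetSum _ fun k _ => (c.YL_spec (k + 1)).1,
    Finset.sum_congr rfl fun k _ => (c.YU_spec k).2,
    Finset.sum_congr rfl fun k _ => (c.YL_spec (k + 1)).2]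
  have s1 : 0 ≤ ∑ k ∈ Finset.range (N + 1),
      ∫ ω, c.h.hkY c.dA univ (-c.L) c.L (c.th k ω) ω.1.2 (ω.2 k).2 ∂c.PSt :=
    Finset.sum_nonneg fun k _ => (c.hkY_spec hR3 k).2
  have s2 : 0 ≤ ∑ k ∈ Finset.range N, ∫ ω, c.gapT k ω ∂c.PSt :=
    Finset.sum_nonneg fun k _ => (c.gapT_spec h0 h2 hμ k).2
  simp only [Finset.sum_const, Finset.card_range, nsmul_eq_mul]
  linarith

end Cf

end Crest.Agent.R151.NF
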