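import Crest.Agent.R151.PA821b
import Crest.Agent.R151.M56d
import Crest.Agent.R151.NF3

/-!
# R151 / S0214 part 2, PA821c — the integral inputs of `Paths` (owner helper821)

`PathInt c w` (192's list) and `pathInt`, `ev_pathInt`.
-/

set_option autoImplicit false

open MeasureTheory Filter ProbabilityTheory Topology Set
open Crest.ProbabilityR.FirstPassage
open Crest.Agent.R151.K Crest.Agent.R151.Q

namespace Crest.Agent.R151.NF

open B710 (FlatData)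
open C710 (fn)
open M192 (St Row PS rq measurable_rq)

variable {μ : ℝ × ℝ → ℝ} {G : Measure ℝ} {F : FlatData μ} {w0 c0 K : ℝ} {p : Num}

/-- the integral inputs of `Paths`, for the lane of width `w` -/
structure PathInt (c : Cf G F w0 c0 K p) (w : ℝ) : Prop where
  sum_int : ∀ N, Integrable (c.sumY N) c.PSt
  sum_ge : ∀ N : ℕ, -(4 * c.L * c.ε * N) ≤ ∫ x, c.sumY N x ∂c.PSt
  lane_int : ∀ H : ℝ, 0 ≤ H → Integrable (c.laneX w H) c.PSt
  lane_rate : ∀ η : ℝ, 0 < η → ∃ C' : ℝ, ∀ H : ℝ, 0 ≤ H →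
    ∫ x, c.laneX w H x ∂c.PSt ≤ (rate G F w + η) * H + C'
  walk : ∀ H : ℝ, 0 ≤ H → ∀ᵐ x ∂c.PSt, ∃ g : R78.Wk (nr x.1.1) (nr (x.1.1 - H • F.b)),
    (∀ v ∈ g.support, v ∈ laneB F w x.1.1) ∧ R78.exc x.1.2 (phi F) g ≤ c.laneX w H x + 1
  cstL_int : ∀ k, Integrable (c.cstL k) c.PSt
  cstU_int : ∀ k, Integrable (c.cstU k) c.PSt
  cst_le : ∃ B : ℝ, ∀ k, ∫ x, c.cstL k x ∂c.PSt ≤ B ∧ ∫ x, c.cstU k x ∂c.PSt ≤ B

variable [IsProbabilityMeasure G]

/-- 56's R3 for the gauge row -/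
theorem Cf.R3 (h0 : G (Set.Iio 0) = 0) (h2 : Integrable (fun x : ℝ => x ^ 2) G)
    (hμ : IsTC G μ) (c : Cf G F w0 c0 K p) (hd : c.h.wH + 2 * M56.mg F < c.yA)
    (hL : M56.mg F + c.h.κ < c.L) :
    Integrable (fun q : Row (ℝ × ℝ) => c.h.hkY c.dA univ (-c.L) c.L q.1.1 q.1.2 q.2)
      (nuR G) ∧
      0 ≤ ∫ q : Row (ℝ × ℝ), c.h.hkY c.dA univ (-c.L) c.L q.1.1 q.1.2 q.2 ∂(nuR G) := by
  have hκ := c.h.κ_nonneg
  have e1 : F.be c.dA = c.yA := M192.be_smul_b F c.yA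
  have e2 : F.al c.dA = 0 := by unfold Cf.dA; rw [map_smul, F.al_b, smul_zero]
  have hd' : c.h.wH + 2 * M56.mg F < F.be c.dA := by rw [e1]; exact hd
  have hs : -c.L + M56.mg F ≤ 0 := by linarith
  have hs' : (0 : ℝ) + M56.mg F + c.h.κ < c.L + F.al c.dA := by rw [e2]; linarith
  exact ⟨M56.hkY_integrable c.mean h0 h2 hd' MeasurableSet.univ hs hs' (subset_univ _),
    M56.hkY_nonneg c.mean h0 h2 hd' MeasurableSet.univ hs hs' (subset_univ _) hμ⟩

/-- **the integral inputs of `Paths`** -/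
theorem pathInt (h0 : G (Set.Iio 0) = 0) (h2 : Integrable (fun x : ℝ => x ^ 2) G)
    (hμ : IsTC G μ) (c : Cf G F w0 c0 K p) (hd : c.h.wH + 2 * M56.mg F < c.yA)
    (hL : M56.mg F + c.h.κ < c.L) {w : ℝ} (hw : 2 * fn F.al ≤ w) : PathInt c w where
  sum_int := c.sumY_integrable h0 h2 hμ (c.R3 h0 h2 hμ hd hL)
  sum_ge := c.sumY_mean h0 h2 hμ (c.R3 h0 h2 hμ hd hL)
  lane_int H _ := c.laneX_integrable h0 h2 hw H
  lane_rate η hη := by
    obtain ⟨C', hC⟩ := NF.lane_rate (G := G) (F := F) h0 h2 hμ hw hη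
    exact ⟨C', fun H hH => by rw [c.laneX_mean h0 h2 hw H]; exact hC H hH⟩
  walk H _ := ae_of_all _ fun x => c.exists_walk h0 h2 hw H one_pos x
  cstL_int k := (c.cstL_spec k).1
  cstU_int k := (c.cstU_spec k).1
  cst_le := c.cst_bound

omit [IsProbabilityMeasure G] in
/-- the geometric hypotheses of `pathInt` hold in the order of constants -/
theorem ev_pathGeo : Ev fun p => ∀ c : Cf G F w0 c0 K p,
    c.h.wH + 2 * M56.mg F < c.yA ∧ M56.mg F + c.h.κ < c.L := by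
  refine ((((ev_std (G := G) (F := F) (w0 := w0) (c0 := c0) (K := K)).and
    (le_w (M56.mg F))).and (strip_le_gap fun _ _ _ _ _ _ => 1)).and
    (strip_le_gap fun _ _ _ _ _ _ => K + 1)).mono ?_
  rintro p ⟨⟨⟨hS, h1⟩, h2⟩, h3⟩ c
  have hc := hS c
  have hg : c.g = p.δ' * p.W := c.g_eq
  have hL : c.L = 2 * p.v' * p.W := c.L_eq
  have hwH := hc.wH_eq
  have hκ := c.κ_le
  have h4 := hc.half
  have h5 := hc.g_le
  have h6 := hc.g_pos
  have h7 : p.δ' * p.W ≤ 1 * p.W := mul_le_mul_of_nonneg_right hc.δ'_le (zero_le_one.trans hc.W)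
  have h8 : 1 * p.W ≤ p.v' * p.W := mul_le_mul_of_nonneg_right hc.v' (zero_le_one.trans hc.W)
  have h9 := hc.W
  constructor
  · linarith
  · rw [hL]; nlinarith

/-- **the integral inputs of `Paths`, in the order of constants** -/
theorem ev_pathInt (h0 : G (Set.Iio 0) = 0) (h2 : Integrable (fun x : ℝ => x ^ 2) G)
    (hμ : IsTC G μ) : Ev fun p => ∀ c : Cf G F w0 c0 K p, ∀ w : ℝ, 2 * fn F.al ≤ w →
      PathInt c w :=
  (ev_pathGeo (G := G) (F := F) (w0 := w0) (c0 := c0) (K := K)).mono fun _ h c _ hw =>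
    pathInt h0 h2 hμ c (h c).1 (h c).2 hw

end Crest.Agent.R151.NF
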