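import Crest.Prelude.Def_PlanarFPP

/-!
# R151, planarity toolkit, part 1: the key identity for vertex-disjoint walks of the square lattice

For a walk `β` of the square lattice and a point `p`, `W β p` is the net number of upward
traversals by `β` of the slab between the heights `p.2 - 1` and `p.2` at abscissae `≥ p.1`; for a
walk `α` and a point `u`, `L α u` is the net number of upward traversals by `α` of the slab between
`u.2` and `u.2 + 1` at abscissae `≤ u.1`.

`key` : if `α : a → d` and `β : b → c` are vertex-disjoint then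
`W β d - W β a = L α b - L α c`.
-/

set_option autoImplicit false

open Crest.ProbabilityR.FirstPassage

namespace Crest.Agent.R151.Pl

abbrev Pt : Type := ℤ × ℤ

theorem adj_iff {x y : Pt} : squareLattice.Adj x y ↔
    y = (x.1 + 1, x.2) ∨ y = (x.1 - 1, x.2) ∨ y = (x.1, x.2 + 1) ∨ y = (x.1, x.2 - 1) := by
  obtain ⟨x1, x2⟩ := x
  obtain ⟨y1, y2⟩ := y
  simp only [squareLattice, SimpleGraph.fromRel_adj, ne_eq, Prod.mk.injEq]
  omega

/-- signed crossing of the slab `[p.2 - 1, p.2]` at abscissae `≥ p.1` by the step `x → y` -/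
def wS (p x y : Pt) : ℤ :=
  if p.1 ≤ x.1 then
    (if x.2 + 1 = p.2 ∧ y.2 = p.2 then 1 else if x.2 = p.2 ∧ y.2 + 1 = p.2 then -1 else 0)
  else 0

/-- signed crossing of the slab `[u.2, u.2 + 1]` at abscissae `≤ u.1` by the step `x → y` -/
def lS (u x y : Pt) : ℤ :=
  if x.1 ≤ u.1 then
    (if x.2 = u.2 ∧ y.2 = u.2 + 1 then 1 else if x.2 = u.2 + 1 ∧ y.2 = u.2 then -1 else 0)
  else 0

/-- net crossings of the slab `[p.2 - 1, p.2]` at abscissae `≥ p.1` -/
def W {b c : Pt} (β : squareLattice.Walk b c) (p : Pt) : ℤ :=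
  (β.darts.map fun d => wS p d.fst d.snd).sum

/-- net crossings of the slab `[u.2, u.2 + 1]` at abscissae `≤ u.1` -/
def L {b c : Pt} (β : squareLattice.Walk b c) (u : Pt) : ℤ :=
  (β.darts.map fun d => lS u d.fst d.snd).sum

@[simp] theorem W_nil (b p : Pt) : W (SimpleGraph.Walk.nil : squareLattice.Walk b b) p = 0 := rfl
@[simp] theorem L_nil (b p : Pt) : L (SimpleGraph.Walk.nil : squareLattice.Walk b b) p = 0 := rfl

@[simp] theorem W_cons {a b c : Pt} (h : squareLattice.Adj a b) (w : squareLattice.Walk b c)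
    (p : Pt) : W (SimpleGraph.Walk.cons h w) p = wS p a b + W w p := by
  simp [W]

@[simp] theorem L_cons {a b c : Pt} (h : squareLattice.Adj a b) (w : squareLattice.Walk b c)
    (p : Pt) : L (SimpleGraph.Walk.cons h w) p = lS p a b + L w p := by
  simp [L]

theorem W_append {a b c : Pt} (v : squareLattice.Walk a b) (w : squareLattice.Walk b c) (p : Pt) :
    W (v.append w) p = W v p + W w p := by
  simp [W, SimpleGraph.Walk.darts_append]

theorem L_append {a b c : Pt} (v : squareLattice.Walk a b) (w : squareLattice.Walk b c) (p : Pt) :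
    L (v.append w) p = L v p + L w p := by
  simp [L, SimpleGraph.Walk.darts_append]

theorem wS_h {p x y : Pt} (h : x.2 = y.2) : wS p x y = 0 := by
  unfold wS; split_ifs <;> omega

theorem lS_h {u x y : Pt} (h : x.2 = y.2) : lS u x y = 0 := by
  unfold lS; split_ifs <;> omega

theorem wS_r (p x : Pt) : wS p x (x.1 + 1, x.2) = 0 := wS_h rfl
theorem wS_l (p x : Pt) : wS p x (x.1 - 1, x.2) = 0 := wS_h rfl
theorem lS_r (p x : Pt) : lS p x (x.1 + 1, x.2) = 0 := lS_h rfl
theorem lS_l (p x : Pt) : lS p x (x.1 - 1, x.2) = 0 := lS_h rfl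

theorem wS_up (p x : Pt) : wS p x (x.1, x.2 + 1) = if p.1 ≤ x.1 ∧ x.2 + 1 = p.2 then 1 else 0 := by
  unfold wS; simp only; split_ifs <;> omega

theorem wS_dn (p x : Pt) : wS p x (x.1, x.2 - 1) = if p.1 ≤ x.1 ∧ x.2 = p.2 then -1 else 0 := by
  unfold wS; simp only; split_ifs <;> omega

theorem lS_up (u x : Pt) : lS u x (x.1, x.2 + 1) = if x.1 ≤ u.1 ∧ x.2 = u.2 then 1 else 0 := by
  unfold lS; simp only; split_ifs <;> omega

theorem lS_dn (u x : Pt) : lS u x (x.1, x.2 - 1) = if x.1 ≤ u.1 ∧ x.2 = u.2 + 1 then -1 else 0 := by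
  unfold lS; simp only; split_ifs <;> omega

/-- the elementary identity -/
theorem step_step {a a' b b' : Pt} (ha : squareLattice.Adj a a') (hb : squareLattice.Adj b b')
    (h1 : a ≠ b) (h2 : a ≠ b') (h3 : a' ≠ b) (h4 : a' ≠ b') :
    wS a' b b' - wS a b b' = lS b a a' - lS b' a a' := by
  have e : ∀ x y : Pt, x ≠ y ↔ ¬ (x.1 = y.1 ∧ x.2 = y.2) := fun x y => by
    rw [ne_eq, Prod.ext_iff]
  rw [e] at h1 h2 h3 h4
  rw [adj_iff] at ha hb
  rcases ha with rfl | rfl | rfl | rfl <;> rcases hb with rfl | rfl | rfl | rfl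
  · rw [wS_r, wS_r, lS_r, lS_r]
  · rw [wS_l, wS_l, lS_r, lS_r]
  · rw [wS_up, wS_up, lS_r, lS_r]; simp only at *; split_ifs <;> omega
  · rw [wS_dn, wS_dn, lS_r, lS_r]; simp only at *; split_ifs <;> omega
  · rw [wS_r, wS_r, lS_l, lS_l]
  · rw [wS_l, wS_l, lS_l, lS_l]
  · rw [wS_up, wS_up, lS_l, lS_l]; simp only at *; split_ifs <;> omega
  · rw [wS_dn, wS_dn, lS_l, lS_l]; simp only at *; split_ifs <;> omega
  · rw [wS_r, wS_r, lS_up, lS_up]; simp only at *; split_ifs <;> omega
  · rw [wS_l, wS_l, lS_up, lS_up]; simp only at *; split_ifs <;> omega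
  · rw [wS_up, wS_up, lS_up, lS_up]; simp only at *; split_ifs <;> omega
  · rw [wS_dn, wS_dn, lS_up, lS_up]; simp only at *; split_ifs <;> omega
  · rw [wS_r, wS_r, lS_dn, lS_dn]; simp only at *; split_ifs <;> omega
  · rw [wS_l, wS_l, lS_dn, lS_dn]; simp only at *; split_ifs <;> omega
  · rw [wS_up, wS_up, lS_dn, lS_dn]; simp only at *; split_ifs <;> omega
  · rw [wS_dn, wS_dn, lS_dn, lS_dn]; simp only at *; split_ifs <;> omega

theorem step_walk {a a' b c : Pt} (ha : squareLattice.Adj a a') (β : squareLattice.Walk b c)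
    (h1 : a ∉ β.support) (h2 : a' ∉ β.support) :
    W β a' - W β a = lS b a a' - lS c a a' := by
  induction β with
  | nil => simp
  | @cons b b' c hb w ih =>
    simp only [SimpleGraph.Walk.support_cons, List.mem_cons, not_or] at h1 h2
    have h3 : a ≠ b' := fun h => h1.2 (h ▸ w.start_mem_support)
    have h4 : a' ≠ b' := fun h => h2.2 (h ▸ w.start_mem_support)
    have e1 := ih h1.2 h2.2
    have e2 := step_step ha hb h1.1 h3 h2.1 h4
    simp only [W_cons]
    linarith

/-- THE KEY IDENTITY for vertex-disjoint walks -/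
theorem key {a d b c : Pt} (α : squareLattice.Walk a d) (β : squareLattice.Walk b c)
    (hd : ∀ x ∈ α.support, x ∉ β.support) : W β d - W β a = L α b - L α c := by
  induction α with
  | nil => simp
  | @cons a a' d ha w ih =>
    have h1 : a ∉ β.support := hd a (by simp)
    have h2 : a' ∉ β.support := hd a' (by simp)
    have e1 := step_walk ha β h1 h2
    have e2 := ih (fun x hx => hd x (by simp [hx]))
    simp only [L_cons]
    linarith

/-! ### evaluation of `W` and `L` -/

open Classical in
/-- indicator -/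
noncomputable def ind (P : Prop) : ℤ := if P then 1 else 0

theorem ind_pos {P : Prop} (h : P) : ind P = 1 := by unfold ind; exact if_pos h
theorem ind_neg {P : Prop} (h : ¬ P) : ind P = 0 := by unfold ind; exact if_neg h

theorem W_left {b c : Pt} (β : squareLattice.Walk b c) (p : Pt) (h : ∀ x ∈ β.support, p.1 ≤ x.1) :
    W β p = ind (p.2 ≤ c.2) - ind (p.2 ≤ b.2) := by
  induction β with
  | nil => simp
  | @cons b b' c hb w ih =>
    have h1 : p.1 ≤ b.1 := h b (by simp)
    have e := ih (fun x hx => h x (by simp [hx]))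
    simp only [W_cons, e, wS, h1, if_true]
    rw [adj_iff] at hb
    obtain ⟨b1, b2⟩ := b
    rcases hb with rfl | rfl | rfl | rfl <;> simp only [ind] <;> split_ifs <;> omega

theorem W_right {b c : Pt} (β : squareLattice.Walk b c) (p : Pt) (h : ∀ x ∈ β.support, x.1 < p.1) :
    W β p = 0 := by
  induction β with
  | nil => simp
  | @cons b b' c hb w ih =>
    have h1 : b.1 < p.1 := h b (by simp)
    have e := ih (fun x hx => h x (by simp [hx]))
    simp only [W_cons, e, wS]
    rw [if_neg (by omega)]
    rfl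

theorem W_above {b c : Pt} (β : squareLattice.Walk b c) (p : Pt) (h : ∀ x ∈ β.support, x.2 < p.2) :
    W β p = 0 := by
  induction β with
  | nil => simp
  | @cons b b' c hb w ih =>
    have h1 : b.2 < p.2 := h b (by simp)
    have h2 : b'.2 < p.2 := h b' (by simp)
    have e := ih (fun x hx => h x (by simp [hx]))
    simp only [W_cons, e, wS]
    split_ifs <;> omega

theorem W_below {b c : Pt} (β : squareLattice.Walk b c) (p : Pt) (h : ∀ x ∈ β.support, p.2 ≤ x.2) :
    W β p = 0 := by
  induction β with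
  | nil => simp
  | @cons b b' c hb w ih =>
    have h1 : p.2 ≤ b.2 := h b (by simp)
    have h2 : p.2 ≤ b'.2 := h b' (by simp)
    have e := ih (fun x hx => h x (by simp [hx]))
    simp only [W_cons, e, wS]
    split_ifs <;> omega

theorem L_right {b c : Pt} (β : squareLattice.Walk b c) (u : Pt) (h : ∀ x ∈ β.support, x.1 ≤ u.1) :
    L β u = ind (u.2 < c.2) - ind (u.2 < b.2) := by
  induction β with
  | nil => simp
  | @cons b b' c hb w ih =>
    have h1 : b.1 ≤ u.1 := h b (by simp)
    have e := ih (fun x hx => h x (by simp [hx]))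
    simp only [L_cons, e, lS, h1, if_true]
    rw [adj_iff] at hb
    obtain ⟨b1, b2⟩ := b
    rcases hb with rfl | rfl | rfl | rfl <;> simp only [ind] <;> split_ifs <;> omega

theorem L_left {b c : Pt} (β : squareLattice.Walk b c) (u : Pt) (h : ∀ x ∈ β.support, u.1 < x.1) :
    L β u = 0 := by
  induction β with
  | nil => simp
  | @cons b b' c hb w ih =>
    have h1 : u.1 < b.1 := h b (by simp)
    have e := ih (fun x hx => h x (by simp [hx]))
    simp only [L_cons, e, lS]
    rw [if_neg (by omega)]
    rfl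

theorem L_above {b c : Pt} (β : squareLattice.Walk b c) (u : Pt) (h : ∀ x ∈ β.support, x.2 ≤ u.2) :
    L β u = 0 := by
  induction β with
  | nil => simp
  | @cons b b' c hb w ih =>
    have h1 : b.2 ≤ u.2 := h b (by simp)
    have h2 : b'.2 ≤ u.2 := h b' (by simp)
    have e := ih (fun x hx => h x (by simp [hx]))
    simp only [L_cons, e, lS]
    split_ifs <;> omega

theorem L_below {b c : Pt} (β : squareLattice.Walk b c) (u : Pt) (h : ∀ x ∈ β.support, u.2 < x.2) :
    L β u = 0 := by
  induction β with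
  | nil => simp
  | @cons b b' c hb w ih =>
    have h1 : u.2 < b.2 := h b (by simp)
    have h2 : u.2 < b'.2 := h b' (by simp)
    have e := ih (fun x hx => h x (by simp [hx]))
    simp only [L_cons, e, lS]
    split_ifs <;> omega

/-! ### straight walks -/

/-- the horizontal walk to the right -/
def hR (x y : ℤ) : (n : ℕ) → squareLattice.Walk (x, y) (x + n, y)
  | 0 => (SimpleGraph.Walk.nil : squareLattice.Walk (x, y) (x, y)).copy rfl (by simp)
  | n + 1 => ((hR x y n).concat (w := (x + n + 1, y)) (adj_iff.2 (Or.inl rfl))).copy rfl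
      (by push_cast; rw [add_assoc])

/-- the vertical walk upwards -/
def vU (x y : ℤ) : (n : ℕ) → squareLattice.Walk (x, y) (x, y + n)
  | 0 => (SimpleGraph.Walk.nil : squareLattice.Walk (x, y) (x, y)).copy rfl (by simp)
  | n + 1 => ((vU x y n).concat (w := (x, y + n + 1)) (adj_iff.2 (Or.inr (Or.inr (Or.inl rfl))))).copy
      rfl (by push_cast; rw [add_assoc])

theorem mem_hR {x y : ℤ} {n : ℕ} {z : Pt} (h : z ∈ (hR x y n).support) :
    z.2 = y ∧ x ≤ z.1 ∧ z.1 ≤ x + n := by
  induction n with
  | zero =>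
    simp only [hR, SimpleGraph.Walk.support_copy, SimpleGraph.Walk.support_nil,
      List.mem_singleton] at h
    subst h; simp
  | succ n ih =>
    simp only [hR, SimpleGraph.Walk.support_copy, SimpleGraph.Walk.support_concat,
      List.mem_append, List.mem_singleton] at h
    rcases h with h | h
    · have := ih h; push_cast; omega
    · subst h; push_cast; refine ⟨rfl, ?_, ?_⟩ <;> omega

theorem mem_vU {x y : ℤ} {n : ℕ} {z : Pt} (h : z ∈ (vU x y n).support) :
    z.1 = x ∧ y ≤ z.2 ∧ z.2 ≤ y + n := by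
  induction n with
  | zero =>
    simp only [vU, SimpleGraph.Walk.support_copy, SimpleGraph.Walk.support_nil,
      List.mem_singleton] at h
    subst h; simp
  | succ n ih =>
    simp only [vU, SimpleGraph.Walk.support_copy, SimpleGraph.Walk.support_concat,
      List.mem_append, List.mem_singleton] at h
    rcases h with h | h
    · have := ih h; push_cast; omega
    · subst h; push_cast; refine ⟨rfl, ?_, ?_⟩ <;> omega

/-- every walk stays in a box -/
theorem exists_box {a d : Pt} (α : squareLattice.Walk a d) :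
    ∃ N : ℕ, ∀ x ∈ α.support, |x.1| ≤ N ∧ |x.2| ≤ N := by
  induction α with
  | @nil a =>
    refine ⟨(|a.1| + |a.2|).toNat, fun x hx => ?_⟩
    simp only [SimpleGraph.Walk.support_nil, List.mem_singleton] at hx
    subst hx
    have h1 := abs_nonneg x.1
    have h2 := abs_nonneg x.2
    rw [Int.toNat_of_nonneg (by omega)]
    omega
  | @cons a a' d ha w ih =>
    obtain ⟨N, hN⟩ := ih
    refine ⟨N + (|a.1| + |a.2|).toNat, fun x hx => ?_⟩
    have h1 := abs_nonneg a.1
    have h2 := abs_nonneg a.2
    push_cast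
    rw [Int.toNat_of_nonneg (by omega)]
    simp only [SimpleGraph.Walk.support_cons, List.mem_cons] at hx
    rcases hx with rfl | hx
    · omega
    · have := hN x hx; omega

end Crest.Agent.R151.Pl
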