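import Crest.Agent.R151.Pl2

/-!
# R151, planarity toolkit, part 3: crossing theorem for two real linear functionals

`cross` : let `l1, l2` be two linearly independent real linear functionals on the plane,
`α : a → d` and `β : b → c` walks of the square lattice with `l1 a < l1 x < l1 d` for all `x ∈ β`
and `l2 b < l2 y < l2 c` for all `y ∈ α`. Then `α` and `β` share a vertex.
-/

set_option autoImplicit false

open Crest.ProbabilityR.FirstPassage

namespace Crest.Agent.R151.Pl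

/-- a real linear functional on lattice points -/
def lin (p q : ℝ) (x : Pt) : ℝ := p * (x.1 : ℝ) + q * (x.2 : ℝ)

theorem aux_det {n11 n12 n21 n22 s t : ℝ} (h1 : 0 < n11) (h2 : 0 < n22)
    (hdet : 0 < n11 * n22 - n12 * n21) (hs : 0 ≤ s) (ht : 0 ≤ t)
    (hA : n11 * t < n12 * s) (hB : n22 * s < n21 * t) : False := by
  have e1 : 0 ≤ n11 * t := mul_nonneg h1.le ht
  have e2 : 0 ≤ n22 * s := mul_nonneg h2.le hs
  have e3 : 0 < n21 * t := lt_of_le_of_lt e2 hB
  have e4 : 0 < (n12 * s - n11 * t) * (n21 * t) := mul_pos (sub_pos.2 hA) e3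
  have e5 : 0 ≤ (n21 * t - n22 * s) * (n11 * t) := mul_nonneg (sub_pos.2 hB).le e1
  have e6 : 0 ≤ (n11 * n22 - n12 * n21) * (s * t) := mul_nonneg hdet.le (mul_nonneg hs ht)
  nlinarith

theorem cross_base {n11 n12 n21 n22 : ℝ} (h1 : 0 < n11) (h2 : 0 < n22)
    (hdet : 0 < n11 * n22 - n12 * n21) {a d b c : Pt} (α : squareLattice.Walk a d)
    (β : squareLattice.Walk b c)
    (hβ : ∀ x ∈ β.support, lin n11 n12 a < lin n11 n12 x ∧ lin n11 n12 x < lin n11 n12 d)
    (hα : ∀ y ∈ α.support, lin n21 n22 b < lin n21 n22 y ∧ lin n21 n22 y < lin n21 n22 c) :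
    ∃ x, x ∈ α.support ∧ x ∈ β.support := by
  have Ha := hα a α.start_mem_support
  have Hd := hα d α.end_mem_support
  have Hb := hβ b β.start_mem_support
  have Hc := hβ c β.end_mem_support
  unfold lin at Ha Hd Hb Hc
  refine ray_theorem α β .lf .rt .dn .up ?_ ?_ ?_ ?_ ?_ ?_ ?_ ?_ ?_
  · rintro x hx ⟨e1, e2⟩
    have h := (hβ x hx).1
    unfold lin at h
    have e2' : (x.1 : ℝ) ≤ a.1 := by exact_mod_cast e2
    rw [e1] at h
    nlinarith
  · rintro x hx ⟨e1, e2⟩
    have h := (hβ x hx).2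
    unfold lin at h
    have e2' : (d.1 : ℝ) ≤ x.1 := by exact_mod_cast e2
    rw [e1] at h
    nlinarith
  · rintro x hx ⟨e1, e2⟩
    have h := (hα x hx).1
    unfold lin at h
    have e2' : (x.2 : ℝ) ≤ b.2 := by exact_mod_cast e2
    rw [e1] at h
    nlinarith
  · rintro x hx ⟨e1, e2⟩
    have h := (hα x hx).2
    unfold lin at h
    have e2' : (c.2 : ℝ) ≤ x.2 := by exact_mod_cast e2
    rw [e1] at h
    nlinarith
  · rintro x ⟨e1, e2⟩ ⟨e3, e4⟩
    have f1 : (b.1 : ℝ) ≤ a.1 := by exact_mod_cast (e3 ▸ e2)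
    have f2 : (a.2 : ℝ) ≤ b.2 := by exact_mod_cast (e1 ▸ e4)
    exact aux_det (s := (b.2 : ℝ) - a.2) (t := (a.1 : ℝ) - b.1) h1 h2 hdet (by linarith)
      (by linarith) (by nlinarith [Hb.1]) (by nlinarith [Ha.1])
  · rintro x ⟨e1, e2⟩ ⟨e3, e4⟩
    have f1 : (c.1 : ℝ) ≤ a.1 := by exact_mod_cast (e3 ▸ e2)
    have f2 : (c.2 : ℝ) ≤ a.2 := by exact_mod_cast (e1 ▸ e4)
    exact aux_det (n12 := -n12) (n21 := -n21) (s := (a.2 : ℝ) - c.2) (t := (a.1 : ℝ) - c.1) h1 h2
      (by linarith) (by linarith) (by linarith) (by nlinarith [Hc.1]) (by nlinarith [Ha.2])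
  · rintro x ⟨e1, e2⟩ ⟨e3, e4⟩
    have f1 : (d.1 : ℝ) ≤ b.1 := by exact_mod_cast (e3 ▸ e2)
    have f2 : (d.2 : ℝ) ≤ b.2 := by exact_mod_cast (e1 ▸ e4)
    exact aux_det (n12 := -n12) (n21 := -n21) (s := (b.2 : ℝ) - d.2) (t := (b.1 : ℝ) - d.1) h1 h2
      (by linarith) (by linarith) (by linarith) (by nlinarith [Hb.2]) (by nlinarith [Hd.1])
  · rintro x ⟨e1, e2⟩ ⟨e3, e4⟩
    have f1 : (d.1 : ℝ) ≤ c.1 := by exact_mod_cast (e3 ▸ e2)
    have f2 : (c.2 : ℝ) ≤ d.2 := by exact_mod_cast (e1 ▸ e4)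
    exact aux_det (s := (d.2 : ℝ) - c.2) (t := (c.1 : ℝ) - d.1) h1 h2 hdet (by linarith)
      (by linarith) (by nlinarith [Hc.2]) (by nlinarith [Hd.2])
  · rw [ind_neg, ind_neg, ind_pos, ind_neg]
    · norm_num
    all_goals simp [prec, rk]

/-- rotation by 90 degrees -/
def rotHom : squareLattice →g squareLattice where
  toFun x := (-x.2, x.1)
  map_rel' := by
    intro x y h
    rw [adj_iff] at h ⊢
    obtain ⟨x1, x2⟩ := x
    rcases h with rfl | rfl | rfl | rfl
    · exact Or.inr (Or.inr (Or.inl rfl))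
    · exact Or.inr (Or.inr (Or.inr rfl))
    · exact Or.inr (Or.inl (Prod.ext (by simp only; ring) rfl))
    · exact Or.inl (Prod.ext (by simp only; ring) rfl)

@[simp] theorem rotHom_apply (x : Pt) : rotHom x = (-x.2, x.1) := rfl

theorem rotHom_inj : Function.Injective rotHom := by
  rintro ⟨x1, x2⟩ ⟨y1, y2⟩ h
  simp only [rotHom_apply, Prod.mk.injEq] at h ⊢
  omega

/-- the crossing statement for the functionals with these coefficients -/
def CrossP (n11 n12 n21 n22 : ℝ) : Prop :=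
  ∀ {a d b c : Pt} (α : squareLattice.Walk a d) (β : squareLattice.Walk b c),
    (∀ x ∈ β.support, lin n11 n12 a < lin n11 n12 x ∧ lin n11 n12 x < lin n11 n12 d) →
    (∀ y ∈ α.support, lin n21 n22 b < lin n21 n22 y ∧ lin n21 n22 y < lin n21 n22 c) →
    ∃ x, x ∈ α.support ∧ x ∈ β.support

theorem CrossP.rot {n11 n12 n21 n22 : ℝ} (h : CrossP (-n12) n11 (-n22) n21) :
    CrossP n11 n12 n21 n22 := by
  intro a d b c α β hβ hα
  have key : ∀ (p q : ℝ) (x : Pt), lin (-q) p (rotHom x) = lin p q x := by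
    intro p q x
    simp only [lin, rotHom_apply]
    push_cast
    ring
  have H := h (α.map rotHom) (β.map rotHom) (fun x hx => by
    rw [SimpleGraph.Walk.support_map, List.mem_map] at hx
    obtain ⟨y, hy, rfl⟩ := hx
    rw [key, key, key]
    exact hβ y hy) (fun x hx => by
    rw [SimpleGraph.Walk.support_map, List.mem_map] at hx
    obtain ⟨y, hy, rfl⟩ := hx
    rw [key, key, key]
    exact hα y hy)
  obtain ⟨x, hx1, hx2⟩ := H
  rw [SimpleGraph.Walk.support_map, List.mem_map] at hx1 hx2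
  obtain ⟨y, hy, rfl⟩ := hx1
  obtain ⟨z, hz, e⟩ := hx2
  exact ⟨y, hy, (rotHom_inj e) ▸ hz⟩

theorem crossP_of_pos {n11 n12 n21 n22 : ℝ} (hdet : 0 < n11 * n22 - n12 * n21) :
    CrossP n11 n12 n21 n22 := by
  rcases lt_or_ge 0 (n11 * n22) with h | h
  · rcases pos_and_pos_or_neg_and_neg_of_mul_pos h with ⟨h1, h2⟩ | ⟨h1, h2⟩
    · exact fun α β hβ hα => cross_base h1 h2 hdet α β hβ hα
    · apply CrossP.rot
      apply CrossP.rot
      exact fun α β hβ hα => cross_base (by linarith) (by linarith) (by linarith) α β hβ hα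
  · have h' : 0 < -(n12 * n21) := by linarith
    have h'' : 0 < (-n12) * n21 := by linarith
    rcases pos_and_pos_or_neg_and_neg_of_mul_pos h'' with ⟨h1, h2⟩ | ⟨h1, h2⟩
    · apply CrossP.rot
      exact fun α β hβ hα => cross_base h1 h2 (by linarith) α β hβ hα
    · apply CrossP.rot
      apply CrossP.rot
      apply CrossP.rot
      exact fun α β hβ hα => cross_base (by linarith) (by linarith) (by linarith) α β hβ hα

/-- CROSSING THEOREM for two linearly independent real linear functionals -/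
theorem cross {n11 n12 n21 n22 : ℝ} (hdet : n11 * n22 - n12 * n21 ≠ 0) {a d b c : Pt}
    (α : squareLattice.Walk a d) (β : squareLattice.Walk b c)
    (hβ : ∀ x ∈ β.support, lin n11 n12 a < lin n11 n12 x ∧ lin n11 n12 x < lin n11 n12 d)
    (hα : ∀ y ∈ α.support, lin n21 n22 b < lin n21 n22 y ∧ lin n21 n22 y < lin n21 n22 c) :
    ∃ x, x ∈ α.support ∧ x ∈ β.support := by
  rcases lt_or_gt_of_ne hdet with h | h
  · have key : ∀ x : Pt, lin (-n11) (-n12) x = - lin n11 n12 x := fun x => by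
      simp only [lin]; ring
    obtain ⟨x, hx1, hx2⟩ := crossP_of_pos (n11 := -n11) (n12 := -n12) (n21 := n21) (n22 := n22)
      (by linarith) α.reverse β (fun x hx => by
        have := hβ x hx
        rw [key, key, key]; constructor <;> linarith [this.1, this.2]) (fun x hx => by
        rw [SimpleGraph.Walk.support_reverse, List.mem_reverse] at hx
        exact hα x hx)
    rw [SimpleGraph.Walk.support_reverse, List.mem_reverse] at hx1
    exact ⟨x, hx1, hx2⟩
  · exact crossP_of_pos h α β hβ hα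

end Crest.Agent.R151.Pl
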