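import Crest.Agent.R151.Pl6

/-!
# R151, planarity toolkit, part 7: the order at infinity of proper rays of a half-plane

`HRay lo v` : `v : ℕ → Pt` is a proper (for instance injective) nearest-neighbour ray of the
half-plane `{lo ≤ y}` (no simplicity is needed). `EndLT v v'` : at infinity `v` is to the left of
`v'`. For eventually disjoint rays exactly one of `EndLT v v'`, `EndLT v' v` holds, the relation is
transitive and depends only on the tails; rays starting on the boundary in the order opposite to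
the order of their ends meet.
-/

set_option autoImplicit false

open Crest.ProbabilityR.FirstPassage Filter

namespace Crest.Agent.R151.Pl

/-- signed crossing of the vertical slab `[z.1, z.1 + 1]` at heights `≤ z.2` by the step `x → y` -/
def dS (z x y : Pt) : ℤ :=
  if x.2 ≤ z.2 then
    (if x.1 = z.1 ∧ y.1 = z.1 + 1 then 1 else if x.1 = z.1 + 1 ∧ y.1 = z.1 then -1 else 0)
  else 0

/-- proper rays of the half-plane `{lo ≤ y}` -/
structure HRay (lo : ℤ) (v : ℕ → Pt) : Prop where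
  mem : ∀ n, lo ≤ (v n).2
  adj : ∀ n, squareLattice.Adj (v n) (v (n + 1))
  proper : ∀ z, ∀ᶠ n in atTop, v n ≠ z

theorem proper_of_injective {v : ℕ → Pt} (h : Function.Injective v) (z : Pt) :
    ∀ᶠ n in atTop, v n ≠ z := by
  by_cases hz : ∃ m, v m = z
  · obtain ⟨m, rfl⟩ := hz
    filter_upwards [eventually_gt_atTop m] with n hn h'
    have := h h'; omega
  · push Not at hz
    exact Eventually.of_forall hz

/-- the range of `v`, extended by the vertical ray below `v 0` -/
def xr (v : ℕ → Pt) : Set Pt := {x | (∃ n, v n = x) ∨ (x.1 = (v 0).1 ∧ x.2 < (v 0).2)}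

/-- the side function -/
def sd (v : ℕ → Pt) (N : ℕ) (z : Pt) : ℤ :=
  (if (v 0).1 ≤ z.1 then 1 else 0) - ∑ n ∈ Finset.range N, dS z (v n) (v (n + 1))

/-- eventual value of the side function -/
def Val (v : ℕ → Pt) (z : Pt) (k : ℤ) : Prop := ∀ᶠ N in atTop, sd v N z = k

variable {lo : ℤ} {v v' : ℕ → Pt}

theorem Val.unique {z : Pt} {k k' : ℤ} (h : Val v z k) (h' : Val v z k') : k = k' := by
  obtain ⟨N, h1, h2⟩ := (h.and h').exists
  rw [← h1, ← h2]

theorem HRay.finite (hv : HRay lo v) {S : Set Pt} (hS : S.Finite) :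
    ∀ᶠ n in atTop, v n ∉ S := by
  have : ∀ᶠ n in atTop, ∀ z ∈ S, v n ≠ z := (eventually_all_finite hS).2 (fun z _ => hv.proper z)
  filter_upwards [this] with n hn h
  exact hn _ h rfl

theorem HRay.eventually_col (hv : HRay lo v) (c h : ℤ) :
    ∀ᶠ n in atTop, ¬ ((v n).1 = c ∧ (v n).2 ≤ h) := by
  have hf : (({c} : Set ℤ) ×ˢ (Set.Icc lo h)).Finite :=
    (Set.finite_singleton c).prod (Set.finite_Icc lo h)
  filter_upwards [hv.finite hf] with n hn hc
  exact hn ⟨hc.1, hv.mem n, hc.2⟩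

theorem dS_up {z x y : Pt} (h : squareLattice.Adj x y) (hx : x ≠ (z.1, z.2 + 1))
    (hy : y ≠ (z.1, z.2 + 1)) : dS (z.1, z.2 + 1) x y = dS z x y := by
  rw [adj_iff] at h
  rw [ne_eq, Prod.ext_iff] at hx hy
  rcases h with rfl | rfl | rfl | rfl <;> unfold dS <;> simp only at * <;> split_ifs <;> omega

theorem dS_right {z x y : Pt} (h : squareLattice.Adj x y) (hx : x ≠ (z.1 + 1, z.2))
    (hy : y ≠ (z.1 + 1, z.2)) : dS (z.1 + 1, z.2) x y = dS z x y +
      ((if x.1 = z.1 + 1 ∧ x.2 ≤ z.2 then 1 else 0) -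
        (if y.1 = z.1 + 1 ∧ y.2 ≤ z.2 then 1 else 0)) := by
  rw [adj_iff] at h
  rw [ne_eq, Prod.ext_iff] at hx hy
  rcases h with rfl | rfl | rfl | rfl <;> unfold dS <;> simp only at * <;> split_ifs <;> omega

theorem sd_up (hv : HRay lo v) {z : Pt} (hz : (z.1, z.2 + 1) ∉ xr v) (N : ℕ) :
    sd v N (z.1, z.2 + 1) = sd v N z := by
  have hn : ∀ n, v n ≠ (z.1, z.2 + 1) := fun n h => hz (Or.inl ⟨n, h⟩)
  unfold sd
  simp only
  congr 1
  exact Finset.sum_congr rfl (fun n _ => dS_up (hv.adj n) (hn n) (hn (n + 1)))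

theorem sd_right (hv : HRay lo v) {z : Pt} (hz : (z.1 + 1, z.2) ∉ xr v) :
    ∀ᶠ N in atTop, sd v N (z.1 + 1, z.2) = sd v N z := by
  have hn : ∀ n, v n ≠ (z.1 + 1, z.2) := fun n h => hz (Or.inl ⟨n, h⟩)
  have hd : ¬ ((z.1 + 1 = (v 0).1) ∧ z.2 < (v 0).2) := fun h => hz (Or.inr h)
  filter_upwards [hv.eventually_col (z.1 + 1) z.2] with N hN
  have e : ∀ N, ∑ n ∈ Finset.range N, dS (z.1 + 1, z.2) (v n) (v (n + 1)) =
      ∑ n ∈ Finset.range N, dS z (v n) (v (n + 1)) +
      ((if (v 0).1 = z.1 + 1 ∧ (v 0).2 ≤ z.2 then 1 else 0) -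
        (if (v N).1 = z.1 + 1 ∧ (v N).2 ≤ z.2 then 1 else 0)) := by
    intro N
    induction N with
    | zero => simp
    | succ N ih =>
      rw [Finset.sum_range_succ, Finset.sum_range_succ, ih, dS_right (hv.adj N) (hn N) (hn (N + 1))]
      ring
  unfold sd
  rw [e N, if_neg hN]
  simp only
  split_ifs <;> omega

theorem sd_step (hv : HRay lo v) {z z' : Pt} (h : squareLattice.Adj z z') (hz : z ∉ xr v)
    (hz' : z' ∉ xr v) : ∀ᶠ N in atTop, sd v N z = sd v N z' := by
  rw [adj_iff] at h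
  rcases h with rfl | rfl | rfl | rfl
  · filter_upwards [sd_right hv hz'] with N hN using hN.symm
  · have e : ((((z.1 - 1, z.2) : Pt).1 + 1, ((z.1 - 1, z.2) : Pt).2) : Pt) = z := by
      simp
    have := sd_right hv (z := (z.1 - 1, z.2)) (by rw [e]; exact hz)
    rw [e] at this
    exact this
  · exact Eventually.of_forall (fun N => (sd_up hv hz' N).symm)
  · have e : ((((z.1, z.2 - 1) : Pt).1, ((z.1, z.2 - 1) : Pt).2 + 1) : Pt) = z := by
      simp
    have := fun N => sd_up hv (z := (z.1, z.2 - 1)) (by rw [e]; exact hz) N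
    rw [e] at this
    exact Eventually.of_forall this

theorem Val.step (hv : HRay lo v) {z z' : Pt} {k : ℤ} (hk : Val v z k)
    (h : squareLattice.Adj z z') (hz : z ∉ xr v) (hz' : z' ∉ xr v) : Val v z' k := by
  filter_upwards [hk, sd_step hv h hz hz'] with N h1 h2
  rw [← h2, h1]

theorem Val.walk (hv : HRay lo v) {a b : Pt} {k : ℤ} (w : squareLattice.Walk a b)
    (hw : ∀ x ∈ w.support, x ∉ xr v) (hk : Val v a k) : Val v b k := by
  induction w with
  | nil => exact hk
  | @cons a a' b h w ih =>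
    exact ih (fun x hx => hw x (by simp [hx]))
      (hk.step hv h (hw a (by simp)) (hw a' (by simp)))

theorem val_below (hv : HRay lo v) {z : Pt} (hz : z.2 < lo) :
    Val v z (if (v 0).1 ≤ z.1 then 1 else 0) := by
  refine Eventually.of_forall (fun N => ?_)
  have : ∑ n ∈ Finset.range N, dS z (v n) (v (n + 1)) = 0 := by
    refine Finset.sum_eq_zero (fun n _ => ?_)
    have := hv.mem n
    unfold dS
    rw [if_neg (by omega)]
  unfold sd
  rw [this, sub_zero]

/-- the value at a boundary point off the ray, if the ray starts on the boundary -/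
theorem val_bdry (hv : HRay lo v) {z : Pt} (hz : z.2 = lo) (hz' : z ∉ xr v) :
    Val v z (if (v 0).1 ≤ z.1 then 1 else 0) := by
  have e : ((((z.1, z.2 - 1) : Pt).1, ((z.1, z.2 - 1) : Pt).2 + 1) : Pt) = z := by
    simp
  have h1 := fun N => sd_up hv (z := (z.1, z.2 - 1)) (by rw [e]; exact hz') N
  rw [e] at h1
  have h2 := val_below hv (z := (z.1, z.2 - 1)) (by simp only; omega)
  filter_upwards [h2] with N hN
  rw [h1, hN]

/-- first hit of a family of rays by a walk -/
theorem first_hit {ι : Type} (v : ι → ℕ → Pt) (hv : ∀ i, HRay lo (v i)) {a b : Pt}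
    (w : squareLattice.Walk a b) (k : ι → ℤ) (ha : ∀ i, a ∉ xr (v i))
    (hk : ∀ i, Val (v i) a (k i)) :
    (∀ i, Val (v i) b (k i)) ∨
      ∃ x ∈ w.support, ∃ i, x ∈ xr (v i) ∧ ∀ j, x ∉ xr (v j) → Val (v j) x (k j) := by
  induction w with
  | nil => exact Or.inl hk
  | @cons a a' b h w ih =>
    by_cases h' : ∃ i, a' ∈ xr (v i)
    · obtain ⟨i, hi⟩ := h'
      exact Or.inr ⟨a', by simp, i, hi, fun j hj => (hk j).step (hv j) h (ha j) hj⟩
    · push Not at h'
      rcases ih h' (fun j => (hk j).step (hv j) h (ha j) (h' j)) with h1 | ⟨x, hx, h1⟩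
      · exact Or.inl h1
      · exact Or.inr ⟨x, by simp [hx], h1⟩

theorem exists_arc (lo M : ℤ) (h : lo ≤ M) (h0 : 0 ≤ M) :
    ∃ w : squareLattice.Walk (-M, lo) (M, lo),
      ∀ x ∈ w.support, x.1 = -M ∨ x.1 = M ∨ x.2 = M := by
  obtain ⟨u, hu⟩ := exists_up (-M, lo) M h
  obtain ⟨r, hr⟩ := exists_rt (-M, M) M (by simp only; omega)
  obtain ⟨d, hd⟩ := exists_dn (M, M) lo h
  refine ⟨(u.append r).append d, fun x hx => ?_⟩
  rw [SimpleGraph.Walk.mem_support_append_iff, SimpleGraph.Walk.mem_support_append_iff] at hx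
  rcases hx with (hx | hx) | hx
  · exact Or.inl (hu x hx).1
  · exact Or.inr (Or.inr (hr x hx).1)
  · exact Or.inr (Or.inl (hd x hx).1)

theorem exists_bound_seq (v : ℕ → Pt) (N : ℕ) :
    ∃ M : ℤ, 0 ≤ M ∧ ∀ M' ≥ M, ∀ n < N, |(v n).1| < M' ∧ |(v n).2| < M' := by
  induction N with
  | zero => exact ⟨0, le_rfl, fun M' _ n hn => absurd hn (Nat.not_lt_zero n)⟩
  | succ N ih =>
    obtain ⟨M, h0, hM⟩ := ih
    refine ⟨max M (max |(v N).1| |(v N).2| + 1), by positivity, fun M' hM' n hn => ?_⟩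
    rcases Nat.lt_succ_iff_lt_or_eq.1 hn with h | rfl
    · exact hM M' (le_trans (le_max_left _ _) hM') n h
    · have h1 := le_max_left |(v n).1| |(v n).2|
      have h2 := le_max_right |(v n).1| |(v n).2|
      have h3 := le_max_right M (max |(v n).1| |(v n).2| + 1)
      omega

/-- eventually disjoint rays -/
def EvDisj (v v' : ℕ → Pt) : Prop := ∃ N, ∀ n ≥ N, ∀ m ≥ N, v n ≠ v' m

theorem EvDisj.symm (h : EvDisj v v') : EvDisj v' v := by
  obtain ⟨N, h⟩ := h
  exact ⟨N, fun n hn m hm e => h m hm n hn e.symm⟩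

theorem EvDisj.notMem (h : EvDisj v v') (hv : HRay lo v) : ∀ᶠ n in atTop, v n ∉ xr v' := by
  obtain ⟨N, h⟩ := h
  have h1 : ∀ᶠ n in atTop, v n ∉ v' '' (Set.Iio N) := hv.finite ((Set.finite_Iio N).image v')
  filter_upwards [h1, eventually_ge_atTop N, hv.eventually_col (v' 0).1 (v' 0).2] with n h2 h3 h4 h5
  rcases h5 with ⟨m, hm⟩ | h5
  · by_cases hmN : m < N
    · exact h2 ⟨m, hmN, hm⟩
    · exact h n h3 m (by omega) hm.symm
  · exact h4 ⟨h5.1, h5.2.le⟩

/-- points of a tail off `v'` have the same side -/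
theorem Val.tail (hv : HRay lo v) (hv' : HRay lo v') {N : ℕ} (h : ∀ n ≥ N, v n ∉ xr v')
    {k : ℤ} {m : ℕ} (hm : N ≤ m) (hk : Val v' (v m) k) : ∀ n ≥ N, Val v' (v n) k := by
  have up : ∀ j, ∀ m, N ≤ m → Val v' (v m) k → Val v' (v (m + j)) k := by
    intro j
    induction j with
    | zero => intro m _ h; exact h
    | succ j ih =>
      intro m hm hk
      exact (ih m hm hk).step hv' (hv.adj (m + j)) (h _ (by omega)) (h _ (by omega))
  have down : ∀ j, ∀ m, N ≤ m → Val v' (v (m + j)) k → Val v' (v m) k := by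
    intro j
    induction j with
    | zero => intro m _ h; exact h
    | succ j ih =>
      intro m hm hk
      exact ih m hm (hk.step hv' (hv.adj (m + j)).symm (h _ (by omega)) (h _ (by omega)))
  intro n hn
  rcases le_total m n with h' | h'
  · obtain ⟨j, rfl⟩ := Nat.exists_eq_add_of_le h'
    exact up j m hm hk
  · obtain ⟨j, rfl⟩ := Nat.exists_eq_add_of_le h'
    exact down j n hn hk

/-- `v` is to the left of `v'` at infinity -/
def EndLT (v v' : ℕ → Pt) : Prop :=
  (∀ᶠ n in atTop, v n ∉ xr v' ∧ Val v' (v n) 0) ∧ (∀ᶠ n in atTop, v' n ∉ xr v ∧ Val v (v' n) 1)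

theorem EndLT.asymm (h : EndLT v v') (h' : EndLT v' v) : False := by
  obtain ⟨n, h1, h2⟩ := (h.1.and h'.2).exists
  exact zero_ne_one (h1.2.unique h2.2)

/-- the arc argument: along an arc around a large box, starting and ending far below -/
theorem arc_hit {ι : Type} [Finite ι] [Nonempty ι] (v : ι → ℕ → Pt) (hv : ∀ i, HRay lo (v i))
    (N : ℕ) :
    (∃ i, ∃ n ≥ N, ∀ j, v i n ∉ xr (v j) → Val (v j) (v i n) 0) ∧
    (∃ i, ∃ n ≥ N, ∀ j, v i n ∉ xr (v j) → Val (v j) (v i n) 1) := by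
  classical
  have := Fintype.ofFinite ι
  choose M h0 hM using fun i => exists_bound_seq (v i) (N + 1)
  obtain ⟨B, hB0, hB1, hB⟩ : ∃ B : ℤ, 0 ≤ B ∧ lo ≤ B ∧ ∀ i, M i ≤ B := by
    refine ⟨|lo| + ∑ i, M i, add_nonneg (abs_nonneg _) (Finset.sum_nonneg fun i _ => h0 i),
      (le_abs_self lo).trans (le_add_of_nonneg_right (Finset.sum_nonneg fun i _ => h0 i)),
      fun i => ?_⟩
    exact (Finset.single_le_sum (fun j _ => h0 j) (Finset.mem_univ i)).trans
      (le_add_of_nonneg_left (abs_nonneg _))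
  have hb : ∀ i, ∀ n ≤ N, |(v i n).1| < B ∧ |(v i n).2| < B := fun i n hn =>
    hM i B (hB i) n (by omega)
  obtain ⟨w, hw⟩ := exists_arc (lo - 1) B (by omega) hB0
  have hout : ∀ x ∈ w.support, ∀ i, x ∈ xr (v i) → ∃ n ≥ N, v i n = x := by
    intro x hx i hi
    have hx' := hw x hx
    rcases hi with ⟨n, hn⟩ | hi
    · refine ⟨n, ?_, hn⟩
      by_contra hlt
      have := hb i n (by omega)
      rw [hn, abs_lt, abs_lt] at this
      omega
    · have := hb i 0 (Nat.zero_le _)
      rw [abs_lt, abs_lt] at this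
      omega
  have hl : ∀ i, ((-B, lo - 1) : Pt) ∉ xr (v i) := by
    intro i hi
    have h1 := hb i 0 (Nat.zero_le _)
    rw [abs_lt, abs_lt] at h1
    rcases hi with ⟨n, hn⟩ | hi
    · have := (hv i).mem n
      rw [hn] at this
      simp only at this
      omega
    · simp only at hi; omega
  have hr : ∀ i, ((B, lo - 1) : Pt) ∉ xr (v i) := by
    intro i hi
    have h1 := hb i 0 (Nat.zero_le _)
    rw [abs_lt, abs_lt] at h1
    rcases hi with ⟨n, hn⟩ | hi
    · have := (hv i).mem n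
      rw [hn] at this
      simp only at this
      omega
    · simp only at hi; omega
  have vl : ∀ i, Val (v i) (-B, lo - 1) 0 := by
    intro i
    have h1 := hb i 0 (Nat.zero_le _)
    rw [abs_lt, abs_lt] at h1
    have := val_below (hv i) (z := (-B, lo - 1)) (by simp only; omega)
    rwa [if_neg (by simp only; omega)] at this
  have vr : ∀ i, Val (v i) (B, lo - 1) 1 := by
    intro i
    have h1 := hb i 0 (Nat.zero_le _)
    rw [abs_lt, abs_lt] at h1
    have := val_below (hv i) (z := (B, lo - 1)) (by simp only; omega)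
    rwa [if_pos (by simp only; omega)] at this
  constructor
  · rcases first_hit v hv w (fun _ => 0) hl vl with h | ⟨x, hx, i, hi, h⟩
    · obtain ⟨i⟩ := ‹Nonempty ι›
      exact absurd ((h i).unique (vr i)) zero_ne_one
    · obtain ⟨n, hn, rfl⟩ := hout x hx i hi
      exact ⟨i, n, hn, h⟩
  · rcases first_hit v hv w.reverse (fun _ => 1) hr vr with h | ⟨x, hx, i, hi, h⟩
    · obtain ⟨i⟩ := ‹Nonempty ι›
      exact absurd ((h i).unique (vl i)) one_ne_zero
    · rw [SimpleGraph.Walk.support_reverse, List.mem_reverse] at hx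
      obtain ⟨n, hn, rfl⟩ := hout x hx i hi
      exact ⟨i, n, hn, h⟩

/-- TRICHOTOMY -/
theorem endLT_or (hv : HRay lo v) (hv' : HRay lo v') (h : EvDisj v v') :
    EndLT v v' ∨ EndLT v' v := by
  obtain ⟨N, hN⟩ := eventually_atTop.1 ((h.notMem hv).and (h.symm.notMem hv'))
  have ev : ∀ {P : ℕ → Prop}, (∀ n ≥ N, P n) → ∀ᶠ n in atTop, P n := fun h =>
    eventually_atTop.2 ⟨N, h⟩
  obtain ⟨⟨i, n, hn, h1⟩, ⟨j, m, hm, h2⟩⟩ :=
    arc_hit (lo := lo) (fun i : Bool => if i then v else v')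
      (fun i => by cases i <;> simpa) N
  cases i <;> cases j
  · -- both hits on `v'`
    exfalso
    have e1 := h1 true (hN n hn).2
    have e2 := h2 true (hN m hm).2
    simp only [if_true, Bool.false_eq_true, if_false] at e1 e2
    have e3 := Val.tail hv' hv (fun n hn => (hN n hn).2) hn e1 m hm
    exact zero_ne_one (e3.unique e2)
  · -- from the left `v'`, from the right `v`
    right
    have e1 := h1 true (hN n hn).2
    have e2 := h2 false (hN m hm).1
    simp only [if_true, Bool.false_eq_true, if_false] at e1 e2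
    exact ⟨ev fun k hk => ⟨(hN k hk).2, Val.tail hv' hv (fun n hn => (hN n hn).2) hn e1 k hk⟩,
      ev fun k hk => ⟨(hN k hk).1, Val.tail hv hv' (fun n hn => (hN n hn).1) hm e2 k hk⟩⟩
  · left
    have e1 := h1 false (hN n hn).1
    have e2 := h2 true (hN m hm).2
    simp only [if_true, Bool.false_eq_true, if_false] at e1 e2
    exact ⟨ev fun k hk => ⟨(hN k hk).1, Val.tail hv hv' (fun n hn => (hN n hn).1) hn e1 k hk⟩,
      ev fun k hk => ⟨(hN k hk).2, Val.tail hv' hv (fun n hn => (hN n hn).2) hm e2 k hk⟩⟩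
  · exfalso
    have e1 := h1 false (hN n hn).1
    have e2 := h2 false (hN m hm).1
    simp only [if_true, Bool.false_eq_true, if_false] at e1 e2
    have e3 := Val.tail hv hv' (fun n hn => (hN n hn).1) hn e1 m hm
    exact zero_ne_one (e3.unique e2)

/-- equality of tails -/
def SameTail (v w : ℕ → Pt) : Prop := ∃ a b, ∀ n, v (a + n) = w (b + n)

theorem SameTail.symm {v w : ℕ → Pt} (h : SameTail v w) : SameTail w v := by
  obtain ⟨a, b, h⟩ := h
  exact ⟨b, a, fun n => (h n).symm⟩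

theorem SameTail.eventually {v w : ℕ → Pt} (h : SameTail v w) {P : Pt → Prop}
    (hv : ∀ᶠ n in atTop, P (v n)) : ∀ᶠ n in atTop, P (w n) := by
  obtain ⟨a, b, h⟩ := h
  obtain ⟨N, hN⟩ := eventually_atTop.1 hv
  refine eventually_atTop.2 ⟨b + N, fun n hn => ?_⟩
  obtain ⟨j, rfl⟩ := Nat.exists_eq_add_of_le (show b ≤ n by omega)
  rw [← h]
  exact hN _ (by omega)

theorem EndLT.evDisj (h : EndLT v v') : EvDisj v v' := by
  obtain ⟨N, hN⟩ := eventually_atTop.1 h.1
  exact ⟨N, fun n hn m _ e => (hN n hn).1 (Or.inl ⟨m, e.symm⟩)⟩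

theorem EvDisj.congr_left {w : ℕ → Pt} (h : EvDisj v v') (hv' : HRay lo v')
    (hvw : SameTail v w) : EvDisj w v' := by
  obtain ⟨N, hN⟩ := h
  obtain ⟨a, b, hab⟩ := hvw
  obtain ⟨N', hN'⟩ := eventually_atTop.1 (hv'.finite ((Set.finite_Iio (b + N)).image w))
  refine ⟨b + N + N', fun n hn m hm e => ?_⟩
  obtain ⟨j, rfl⟩ := Nat.exists_eq_add_of_le (show b ≤ n by omega)
  rw [← hab] at e
  exact hN (a + j) (by omega) m (by omega) e

/-- the order at infinity depends only on the tails -/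
theorem EndLT.congr_left {w : ℕ → Pt} (h : EndLT v v') (hw : HRay lo w) (hv' : HRay lo v')
    (hvw : SameTail v w) : EndLT w v' := by
  rcases endLT_or hw hv' (h.evDisj.congr_left hv' hvw) with h1 | h1
  · exact h1
  · exfalso
    obtain ⟨n, h2, h3⟩ := ((hvw.eventually (P := fun x => x ∉ xr v' ∧ Val v' x 0) h.1).and h1.2).exists
    exact zero_ne_one (h2.2.unique h3.2)

theorem EndLT.congr_right {w' : ℕ → Pt} (h : EndLT v v') (hv : HRay lo v) (hw' : HRay lo w')
    (hvw : SameTail v' w') : EndLT v w' := by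
  rcases endLT_or hv hw' (h.evDisj.symm.congr_left hv hvw).symm with h1 | h1
  · exact h1
  · exfalso
    obtain ⟨n, h2, h3⟩ := ((hvw.eventually (P := fun x => x ∉ xr v ∧ Val v x 1) h.2).and h1.1).exists
    exact zero_ne_one (h3.2.unique h2.2)

/-- TRANSITIVITY -/
theorem EndLT.trans {v'' : ℕ → Pt} (hv : HRay lo v) (hv' : HRay lo v') (hv'' : HRay lo v'')
    (h : EndLT v v') (h' : EndLT v' v'') : EndLT v v'' := by
  have hd : EvDisj v v'' := by
    obtain ⟨N, hN⟩ := eventually_atTop.1 (h.1.and h'.2)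
    refine ⟨N, fun n hn m hm e => ?_⟩
    have h1 := (hN n hn).1.2
    have h2 := (hN m hm).2.2
    rw [e] at h1
    exact zero_ne_one (h1.unique h2)
  rcases endLT_or hv hv'' hd with h1 | h1
  · exact h1
  · exfalso
    obtain ⟨N, hN⟩ := eventually_atTop.1 ((h.2.and h'.2).and h1.2)
    obtain ⟨⟨i, n, hn, h2⟩, -⟩ :=
      arc_hit (lo := lo) (fun i : Fin 3 => ![v, v', v''] i) (fun i => by
        fin_cases i
        · exact hv
        · exact hv'
        · exact hv'') N
    have hN' := hN n hn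
    fin_cases i
    · exact zero_ne_one ((h2 2 hN'.2.1).unique hN'.2.2)
    · exact zero_ne_one ((h2 0 hN'.1.1.1).unique hN'.1.1.2)
    · exact zero_ne_one ((h2 1 hN'.1.2.1).unique hN'.1.2.2)

/-- rays starting on the boundary in the order opposite to the order of their ends meet -/
theorem EndLT.meet {r r' : ℕ → Pt} (hr : HRay lo r) (hr' : HRay lo r') (h : EndLT r r')
    (h0 : (r 0).2 = lo) (h0' : (r' 0).2 = lo) (hle : (r' 0).1 ≤ (r 0).1) :
    ∃ n m, r n = r' m := by
  by_contra hno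
  push Not at hno
  have hne : (r' 0).1 ≠ (r 0).1 := fun e => hno 0 0 (Prod.ext e.symm (h0.trans h0'.symm))
  have hoff : ∀ n, r n ∉ xr r' := by
    intro n hn
    rcases hn with ⟨m, hm⟩ | hn
    · exact hno n m hm.symm
    · have := hr.mem n; omega
  have h1 : Val r' (r 0) 1 := by
    have := val_bdry hr' h0 (hoff 0)
    rwa [if_pos hle] at this
  have h2 := Val.tail hr hr' (N := 0) (fun n _ => hoff n) le_rfl h1
  obtain ⟨n, h3⟩ := h.1.exists
  exact zero_ne_one (h3.2.unique (h2 n (Nat.zero_le n)))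

end Crest.Agent.R151.Pl
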