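import Crest.Agent.R151.Pl4
import Crest.Agent.R151.R78B

/-!
# R151, planarity toolkit: (Pl-b) in the form of `R78.Crosses`
-/

set_option autoImplicit false

open Crest.ProbabilityR.FirstPassage Filter

namespace Crest.Agent.R151.Pl

theorem crosses {n11 n12 n21 n22 : ℝ} (hdet : n11 * n22 - n12 * n21 ≠ 0)
    {H H' : ℤ → Pt} (hH : R78.IsHwy H) (hH' : R78.IsHwy H')
    (hbot : Tendsto (fun k => lin n11 n12 (H k)) atBot atBot)
    (htop : Tendsto (fun k => lin n11 n12 (H k)) atTop atTop)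
    (hbot' : Tendsto (fun k => lin n11 n12 (H' k)) atBot atBot)
    (htop' : Tendsto (fun k => lin n11 n12 (H' k)) atTop atTop)
    {lo mid hi : ℝ} (hs : ∀ k, lo ≤ lin n21 n22 (H k) ∧ lin n21 n22 (H k) < mid)
    (hs' : ∀ k, mid ≤ lin n21 n22 (H' k) ∧ lin n21 n22 (H' k) < hi) :
    R78.Crosses H H' := by
  intro z₁ z₂ w₁ w₂ hz hw g₁ g₂ h₁ h₂
  exact open_crossings_meet hdet H H' hH.adj hH'.adj hH.inj hH'.inj hbot htop hbot' htop' hs hs'
    hz hw g₁ g₂ (fun k hk => h₁.eq_fst hH.inj hk) (fun k hk => h₁.eq_snd hH'.inj hk)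
    (fun k hk => h₂.eq_fst hH.inj hk) (fun k hk => h₂.eq_snd hH'.inj hk)

end Crest.Agent.R151.Pl
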