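import Crest.Agent.R151.Q2

/-!
# R151 / S0214 part 2, Q3 — definition of the highway blocks (owner helper777)

`bt h κ l` : the list `l` has backtracking at most `κ` with respect to the height `h`.
`pathsBT Q x y h κ` : simple lattice paths (as lists of vertices) from `x` to `y` in the finite set
`Q` with backtracking at most `κ`.
`geoL` : a cheapest such path (first one in a fixed enumeration).
`Qbox F w n0 θ` : half-open box of the strip `|be| ≤ w/2` between the node `nr θ` and the next node.
`blkCost` : cost of the cheapest path of the block.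
-/

set_option autoImplicit false

open MeasureTheory Filter ProbabilityTheory Topology
open Crest.ProbabilityR.FirstPassage
open Crest.Agent.R151.K

namespace Crest.Agent.R151.Q

open B710 (FlatData)
open R78 (IsHwy hc hp)

/-- cost of a list of vertices (sum over the consecutive pairs) -/
def lcost (t : Environment) : List (ℤ × ℤ) → ℝ
  | [] => 0
  | [_] => 0
  | x :: y :: l => t s(x, y) + lcost t (y :: l)

/-- realizes the equation lemmas of `lcost` in this file (they are used in several files) -/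
lemma lcost_eqns (t : Environment) (l : List (ℤ × ℤ)) :
    lcost t [] = 0 ∧ (∀ x, lcost t [x] = 0) ∧
      (∀ x y, lcost t (x :: y :: l) = t s(x, y) + lcost t (y :: l)) ∧
      lcost t l = match l with
        | [] => 0
        | [_] => 0
        | x :: y :: l => t s(x, y) + lcost t (y :: l) := by
  refine ⟨?_, fun x => ?_, fun x y => ?_, ?_⟩
  · simp only [lcost]
  · simp only [lcost]
  · simp only [lcost]
  · exact lcost.eq_def t l

/-- backtracking at most `κ` -/
def bt (h : ℤ × ℤ → ℝ) (κ : ℝ) (l : List (ℤ × ℤ)) : Prop :=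
  l.Pairwise fun a b => h a ≤ h b + κ

/-- simple lattice paths in `Q` from `x` to `y` with backtracking at most `κ` -/
def pathsBT (Q : Finset (ℤ × ℤ)) (x y : ℤ × ℤ) (h : ℤ × ℤ → ℝ) (κ : ℝ) : Set (List (ℤ × ℤ)) :=
  {l | l.Nodup ∧ l.IsChain squareLattice.Adj ∧ (∀ z ∈ l, z ∈ Q) ∧ l.head? = some x ∧
    l.getLast? = some y ∧ bt h κ l}

/-- next node, relative to a node at the origin with offset `θ` -/
noncomputable def nxt {μ : ℝ × ℝ → ℝ} (F : FlatData μ) (n0 : ℝ) (θ : ℝ × ℝ) : ℤ × ℤ :=
  nr (θ - n0 • F.a)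

/-- a bound for the coordinates of the vertices of the boxes -/
noncomputable def bxN {μ : ℝ × ℝ → ℝ} (F : FlatData μ) (w n0 : ℝ) : ℕ :=
  ⌈(|n0| + ‖F.al‖ + 1) * ‖F.a‖ + (|w| + 1) * ‖F.b‖⌉₊ + 1

open Classical in
/-- half-open box between the node `0` (offset `θ`) and the next node, in the strip of width `w` -/
noncomputable def Qbox {μ : ℝ × ℝ → ℝ} (F : FlatData μ) (w n0 : ℝ) (θ : ℝ × ℝ) :
    Finset (ℤ × ℤ) :=
  insert (nxt F n0 θ) ((box (bxN F w n0)).filter fun z =>
    |F.be (pos θ z)| ≤ w / 2 ∧ F.al (pos θ 0) ≤ F.al (pos θ z) ∧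
      F.al (pos θ z) < F.al (pos θ (nxt F n0 θ)))

/-- cost of the cheapest path of the block starting at the node `0` (offset `θ`) -/
noncomputable def blkCost {μ : ℝ × ℝ → ℝ} (F : FlatData μ) (w n0 κ : ℝ) (θ : ℝ × ℝ)
    (t : Environment) : ℝ :=
  sInf (lcost t '' pathsBT (Qbox F w n0 θ) 0 (nxt F n0 θ) (fun z => F.al (toR z)) κ)

/-- TARGET BT (open for a helper): with backtracking allowed up to `K * w`, the mean cost of a block
of length `n0 = w ^ 4` is at most `n0 * (1 + rate of the a-lane) + w`.  Here the node is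
`nr ξ` and everything is translated to the origin: `θ = ξ + toR (nr ξ)`,
`t' = act (tr (nr ξ)) t`. -/
def BlockBound (G : Measure ℝ) {μ : ℝ × ℝ → ℝ} (F : FlatData μ) : Prop :=
  ∃ K w0 C : ℝ, 0 < K ∧ 0 < w0 ∧ ∀ w ≥ w0,
    ∫ p, blkCost F w (w ^ 5) (K * w) (p.1 + toR (nr p.1)) (act (tr (nr p.1)) p.2) ∂(P0 G)
      ≤ w ^ 5 * (1 + rate G F.swap w) + C * w

end Crest.Agent.R151.Q
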