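import Crest.Agent.R151.Q6a

/-!
# R151 / S0214 part 2, Q6b — the mean excess of a highway is linear (owner helper777)
-/

set_option autoImplicit false

open MeasureTheory Filter ProbabilityTheory Topology
open Crest.ProbabilityR.FirstPassage
open Crest.Agent.R151.K

namespace Crest.Agent.R151.Q

open B710 (FlatData)
open R78 (IsHwy hc hp stepc hc_zero hc_succ hc_sub_eq_sum hc_mono)

/-- an additive function bounded on `[0,1]` is linear -/
lemma additive_linear {g : ℝ → ℝ} (hadd : ∀ x y, g (x + y) = g x + g y) {C : ℝ}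
    (hb : ∀ x, 0 ≤ x → x ≤ 1 → |g x| ≤ C) (x : ℝ) : g x = x * g 1 := by
  have h0 : g 0 = 0 := by
    have := hadd 0 0
    rw [add_zero] at this
    linarith
  set φ : ℝ → ℝ := fun x => g x - x * g 1 with hφ
  have hφadd : ∀ x y, φ (x + y) = φ x + φ y := by
    intro x y; simp only [hφ]; rw [hadd]; ring
  have hφ1 : φ 1 = 0 := by simp [hφ]
  have hφ0 : φ 0 = 0 := by simp [hφ, h0]
  have hnat : ∀ (n : ℕ) (x : ℝ), φ (n * x) = n * φ x := by
    intro n x
    induction n with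
    | zero => simp [hφ0]
    | succ n ih =>
      push_cast
      rw [add_mul, one_mul, hφadd, ih]; ring
  have hneg : ∀ x, φ (-x) = -φ x := by
    intro x
    have := hφadd x (-x)
    rw [add_neg_cancel, hφ0] at this
    linarith
  have hint : ∀ n : ℤ, φ n = 0 := by
    intro n
    obtain ⟨m, rfl | rfl⟩ := n.eq_nat_or_neg
    · have := hnat m 1
      rw [mul_one, hφ1, mul_zero] at this
      exact_mod_cast this
    · have := hnat m 1
      rw [mul_one, hφ1, mul_zero] at this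
      push_cast
      rw [hneg, this, neg_zero]
  have hC : 0 ≤ C := (abs_nonneg _).trans (hb 0 le_rfl zero_le_one)
  have hbd : ∀ x, |φ x| ≤ C + |g 1| := by
    intro x
    have h1 : φ x = φ (Int.fract x) := by
      have h2 := hφadd (⌊x⌋ : ℝ) (Int.fract x)
      rw [Int.floor_add_fract, hint, zero_add] at h2
      exact h2
    rw [h1]
    simp only [hφ]
    have h3 := hb (Int.fract x) (Int.fract_nonneg x) (Int.fract_lt_one x).le
    have h4 : |Int.fract x * g 1| ≤ |g 1| := by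
      rw [abs_mul, abs_of_nonneg (Int.fract_nonneg x)]
      exact mul_le_of_le_one_left (abs_nonneg _) (Int.fract_lt_one x).le
    exact (abs_sub _ _).trans (add_le_add h3 h4)
  have hzero : φ x = 0 := by
    by_contra hne
    have hpos : 0 < |φ x| := abs_pos.2 hne
    obtain ⟨n, hn⟩ := exists_nat_gt ((C + |g 1|) / |φ x|)
    rw [div_lt_iff₀ hpos] at hn
    have h1 := hbd (n * x)
    rw [hnat, abs_mul, Nat.abs_cast] at h1
    linarith
  simp only [hφ] at hzero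
  linarith

namespace Hwy

variable {G : Measure ℝ} [IsProbabilityMeasure G] {μ : ℝ × ℝ → ℝ} {F : FlatData μ} (h : Hwy F)

/-- `UU.prod (P0 G)`: a.s. nonnegative environment and phase in `[0,1)` -/
lemma ae_UP (h0 : G (Set.Iio 0) = 0) :
    ∀ᵐ q ∂(UU.prod (P0 G)), Nn q.2.2 ∧ q.2.1 ∈ Set.Ico (0 : ℝ) 1 ×ˢ Set.Ico (0 : ℝ) 1 ∧
      q.1 ∈ Set.Ico (0 : ℝ) 1 := by
  have h1 : ∀ᵐ p ∂(P0 G), Nn p.2 ∧ p.1 ∈ Set.Ico (0 : ℝ) 1 ×ˢ Set.Ico (0 : ℝ) 1 := by
    have ha : ∀ᵐ p ∂(P0 G), Nn p.2 := by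
      unfold P0
      exact (Measure.quasiMeasurePreserving_snd (μ := UU2) (ν := iidLaw G)).ae (ae_Nn h0)
    have hb : ∀ᵐ p ∂(P0 G), p.1 ∈ Set.Ico (0 : ℝ) 1 ×ˢ Set.Ico (0 : ℝ) 1 := by
      unfold P0
      exact (Measure.quasiMeasurePreserving_fst (μ := UU2) (ν := iidLaw G)).ae ae_UU2
    filter_upwards [ha, hb] with p h h' using ⟨h, h'⟩
  have h2 := (Measure.quasiMeasurePreserving_snd (μ := UU) (ν := P0 G)).ae h1
  have h3 := (Measure.quasiMeasurePreserving_fst (μ := UU) (ν := P0 G)).ae ae_UU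
  filter_upwards [h2, h3] with q hq hq'
  exact ⟨hq.1, hq.2, hq'⟩

lemma abs_phi_sub_x (s s' u : ℝ) (θ : ℝ × ℝ) (t : Environment) :
    |phi F (h.x s' u θ t) - phi F (h.x s u θ t)| ≤
      ‖F.ρ‖ * (((|s'| + ‖F.al‖) * ‖F.a‖ + h.wH / 2 * ‖F.b‖) +
        ((|s| + ‖F.al‖) * ‖F.a‖ + h.wH / 2 * ‖F.b‖)) := by
  rw [phiq_sub θ]
  refine (abs_sub _ _).trans ?_
  have h1 := (F.ρ.le_opNorm (pos θ (h.x s' u θ t))).trans
    (mul_le_mul_of_nonneg_left (h.norm_pos_x s' u θ t) (norm_nonneg F.ρ))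
  have h2 := (F.ρ.le_opNorm (pos θ (h.x s u θ t))).trans
    (mul_le_mul_of_nonneg_left (h.norm_pos_x s u θ t) (norm_nonneg F.ρ))
  rw [Real.norm_eq_abs] at h1 h2
  linarith

lemma integrable_Y {s s' : ℝ} (hi : Integrable (fun q : ℝ × (ℝ × ℝ) × Environment =>
    h.cst s s' q.1 q.2.1 q.2.2) (UU.prod (P0 G))) :
    Integrable (fun q : ℝ × (ℝ × ℝ) × Environment => h.Y s s' q.1 q.2.1 q.2.2)
      (UU.prod (P0 G)) := by
  have e : (fun q : ℝ × (ℝ × ℝ) × Environment => h.Y s s' q.1 q.2.1 q.2.2) = fun q =>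
      h.cst s s' q.1 q.2.1 q.2.2 -
        (phi F (h.x s' q.1 q.2.1 q.2.2) - phi F (h.x s q.1 q.2.1 q.2.2)) := by
    funext q; exact h.Y_eq _ _ _ _ _
  rw [e]
  refine hi.sub ?_
  exact Integrable.of_bound ((h.measurable_phi_x s').sub
    (h.measurable_phi_x s)).aestronglyMeasurable
    (‖F.ρ‖ * (((|s'| + ‖F.al‖) * ‖F.a‖ + h.wH / 2 * ‖F.b‖) +
        ((|s| + ‖F.al‖) * ‖F.a‖ + h.wH / 2 * ‖F.b‖)))
    (ae_of_all _ fun q => h.abs_phi_sub_x s s' q.1 q.2.1 q.2.2)

/-- the mean excess only depends on the difference of the labels -/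
lemma integral_Y_shift (c s s' : ℝ) :
    ∫ q, h.Y (s + c) (s' + c) q.1 q.2.1 q.2.2 ∂(UU.prod (P0 G)) =
      ∫ q, h.Y s s' q.1 q.2.1 q.2.2 ∂(UU.prod (P0 G)) := by
  have m1 : MeasurePreserving (Prod.map (fun u : ℝ => Int.fract (u + c / h.n0))
      (id : (ℝ × ℝ) × Environment → _)) (UU.prod (P0 G)) (UU.prod (P0 G)) :=
    (mp_fract _).prod (MeasurePreserving.id _)
  have m2 : MeasurePreserving (Prod.map (id : ℝ → ℝ) (S (-(c • F.a)))) (UU.prod (P0 G))
      (UU.prod (P0 G)) := (MeasurePreserving.id _).prod (mp_S _)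
  rw [← mp_integral m1 (h.measurable_Y (s + c) (s' + c)).aestronglyMeasurable,
    ← mp_integral m2 (h.measurable_Y s s').aestronglyMeasurable]
  refine integral_congr_ae (ae_of_all _ fun q => ?_)
  simp only [Prod.map_fst, Prod.map_snd, id_eq]
  rw [h.Y_ash]
  have hinv : Inv fun θ t => h.Y s s' q.1 θ t := fun m θ t => h.Y_cov s s' q.1 θ t m
  rw [sub_eq_add_neg]
  exact hinv.shift (-(c • F.a)) q.2

lemma integral_cst_shift (c s s' : ℝ) :
    ∫ q, h.cst (s + c) (s' + c) q.1 q.2.1 q.2.2 ∂(UU.prod (P0 G)) =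
      ∫ q, h.cst s s' q.1 q.2.1 q.2.2 ∂(UU.prod (P0 G)) := by
  have m1 : MeasurePreserving (Prod.map (fun u : ℝ => Int.fract (u + c / h.n0))
      (id : (ℝ × ℝ) × Environment → _)) (UU.prod (P0 G)) (UU.prod (P0 G)) :=
    (mp_fract _).prod (MeasurePreserving.id _)
  have m2 : MeasurePreserving (Prod.map (id : ℝ → ℝ) (S (-(c • F.a)))) (UU.prod (P0 G))
      (UU.prod (P0 G)) := (MeasurePreserving.id _).prod (mp_S _)
  rw [← mp_integral m1 (h.measurable_cst (s + c) (s' + c)).aestronglyMeasurable,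
    ← mp_integral m2 (h.measurable_cst s s').aestronglyMeasurable]
  refine integral_congr_ae (ae_of_all _ fun q => ?_)
  simp only [Prod.map_fst, Prod.map_snd, id_eq]
  rw [h.cst_ash]
  have hinv : Inv fun θ t => h.cst s s' q.1 θ t := fun m θ t => h.cst_cov s s' q.1 θ t m
  rw [sub_eq_add_neg]
  exact hinv.shift (-(c • F.a)) q.2

variable (hint : ∀ s s' : ℝ, Integrable (fun q : ℝ × (ℝ × ℝ) × Environment =>
    h.cst s s' q.1 q.2.1 q.2.2) (UU.prod (P0 G)))
include hint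

/-- **linearity of the mean excess** -/
theorem integral_Y_linear (h0 : G (Set.Iio 0) = 0) (s s' : ℝ) :
    ∫ q, h.Y s s' q.1 q.2.1 q.2.2 ∂(UU.prod (P0 G)) =
      (s' - s) * ∫ q, h.Y 0 1 q.1 q.2.1 q.2.2 ∂(UU.prod (P0 G)) := by
  set g : ℝ → ℝ := fun x => ∫ q, h.Y 0 x q.1 q.2.1 q.2.2 ∂(UU.prod (P0 G)) with hg
  have hadd3 : ∀ s s' s'' : ℝ, (∫ q, h.Y s s' q.1 q.2.1 q.2.2 ∂(UU.prod (P0 G))) +
      ∫ q, h.Y s' s'' q.1 q.2.1 q.2.2 ∂(UU.prod (P0 G)) =
      ∫ q, h.Y s s'' q.1 q.2.1 q.2.2 ∂(UU.prod (P0 G)) := by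
    intro s s' s''
    rw [← integral_add (h.integrable_Y (hint s s')) (h.integrable_Y (hint s' s''))]
    refine integral_congr_ae (ae_of_all _ fun q => ?_)
    exact h.Y_add s s' s'' q.1 q.2.1 q.2.2
  have hadd : ∀ x y, g (x + y) = g x + g y := by
    intro x y
    have h1 := hadd3 0 x (x + y)
    have h2 := h.integral_Y_shift (G := G) x 0 y
    rw [zero_add, add_comm y x] at h2
    simp only [hg]
    linarith
  have hbd : ∀ x, 0 ≤ x → x ≤ 1 → |g x| ≤
      (∫ q, h.cst 0 1 q.1 q.2.1 q.2.2 ∂(UU.prod (P0 G))) +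
        ‖F.ρ‖ * (((1 + ‖F.al‖) * ‖F.a‖ + h.wH / 2 * ‖F.b‖) +
        ((|0| + ‖F.al‖) * ‖F.a‖ + h.wH / 2 * ‖F.b‖)) := by
    intro x hx0 hx1
    simp only [hg]
    have hi2 : Integrable (fun q : ℝ × (ℝ × ℝ) × Environment => h.cst 0 1 q.1 q.2.1 q.2.2 +
        ‖F.ρ‖ * (((1 + ‖F.al‖) * ‖F.a‖ + h.wH / 2 * ‖F.b‖) +
        ((|0| + ‖F.al‖) * ‖F.a‖ + h.wH / 2 * ‖F.b‖))) (UU.prod (P0 G)) :=
      (hint 0 1).add (integrable_const _)
    refine (abs_integral_le_integral_abs).trans ?_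
    refine (integral_mono_ae (h.integrable_Y (hint 0 x)).abs hi2 ?_).trans ?_
    · filter_upwards [ae_UP h0] with q hq
      rw [h.Y_eq]
      have h1 := h.cst_nonneg hx0 q.1 q.2.1 hq.1
      have h2 := h.cst_nonneg hx1 q.1 q.2.1 hq.1
      have h3 := h.cst_add 0 x 1 q.1 q.2.1 q.2.2
      have h4 := h.abs_phi_sub_x 0 x q.1 q.2.1 q.2.2
      refine (abs_sub _ _).trans ?_
      rw [abs_of_nonneg h1]
      refine add_le_add (by linarith) (h4.trans ?_)
      rw [abs_of_nonneg hx0]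
      have := norm_nonneg F.a
      have := norm_nonneg F.al
      gcongr
    · rw [integral_add (hint 0 1) (integrable_const _), integral_const]
      simp
  have hlin := additive_linear hadd hbd
  have h1 := hadd3 0 s s'
  have h2 := hlin s
  have h3 := hlin s'
  simp only [hg] at h2 h3
  rw [h2, h3] at h1
  linarith

/-- the rate is nonnegative -/
theorem rate_nonneg (h0 : G (Set.Iio 0) = 0) (h2 : Integrable (fun x : ℝ => x ^ 2) G)
    (hμ : IsTC G μ) : 0 ≤ ∫ q, h.Y 0 1 q.1 q.2.1 q.2.2 ∂(UU.prod (P0 G)) := by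
  have hlin := h.integral_Y_linear hint h0 0 h.n0
  rw [sub_zero] at hlin
  have hn := h.n0_pos
  suffices hs : 0 ≤ ∫ q, h.Y 0 h.n0 q.1 q.2.1 q.2.2 ∂(UU.prod (P0 G)) by
    rw [hlin] at hs
    exact nonneg_of_mul_nonneg_right hs hn
  have hiY := h.integrable_Y (hint 0 h.n0)
  rw [integral_prod _ hiY]
  refine integral_nonneg_of_ae ?_
  filter_upwards [ae_UU, hiY.prod_right_ae] with u hu hint1
  -- fixed phase `u`
  have hX : CovV (Φ := Unit) (fun θ t _ => h.x 0 u θ t)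
      ((|0| + ‖F.al‖) * ‖F.a‖ + h.wH / 2 * ‖F.b‖) :=
    { meas := by
        have h2 : Measurable fun q : ((ℝ × ℝ) × Environment) × Unit => (u, q.1.1, q.1.2) := by
          fun_prop
        have := (h.measurable_x 0).comp h2
        exact this
      cov := fun m θ t _ => h.x_cov 0 u θ t m
      bdd := fun θ t _ => h.norm_pos_x 0 u θ t }
  obtain ⟨ha, hb⟩ := hX.zero_le (π := Measure.dirac ()) h0 h2 hμ F (h.n0 • F.a)
  have hu' : Int.fract (u + h.n0 / h.n0) = u := by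
    rw [div_self hn.ne', Int.fract_add_one, Int.fract_eq_self]; exact hu
  have hx : ∀ θ t, h.x 0 u (θ - h.n0 • F.a) t = h.x h.n0 u θ t := by
    intro θ t
    have := h.x_ash h.n0 0 u θ t
    rw [hu', zero_add] at this
    exact this.symm
  refine hb.trans ?_
  have mfst : MeasurePreserving (Prod.fst : ((ℝ × ℝ) × Environment) × (Unit × Unit) → _)
      ((P0 G).prod ((Measure.dirac ()).prod (Measure.dirac ()))) (P0 G) := measurePreserving_fst
  rw [← mp_integral mfst hint1.aestronglyMeasurable]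
  refine integral_mono_ae ha (mfst.integrable_comp_of_integrable hint1) ?_
  filter_upwards [ae_P0_Nn (Ψ := Unit × Unit)
    (ν := (Measure.dirac ()).prod (Measure.dirac ())) h0] with q hq
  simp only [hx]
  rw [h.Y_eq]
  have h5 := (h.isHwy u q.1.1 q.1.2).pt_le hq.1 (h.ixq_mono hn.le u q.1.1 q.1.2)
  unfold cst x
  linarith

/-- **means of the highways** -/
theorem hwyMean (h0 : G (Set.Iio 0) = 0) (h2 : Integrable (fun x : ℝ => x ^ 2) G)
    (hμ : IsTC G μ) : HwyMean G h (∫ q, h.Y 0 1 q.1 q.2.1 q.2.2 ∂(UU.prod (P0 G))) where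
  nonneg := h.rate_nonneg hint h0 h2 hμ
  int s s' := h.integrable_Y (hint s s')
  int_cst := hint
  mean s s' := h.integral_Y_linear hint h0 s s'

end Hwy

end Crest.Agent.R151.Q
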