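import Crest.Agent.R151.Q6b

/-!
# R151 / S0214 part 2, Q6c — means for the constructed highways (owner helper777)
-/

set_option autoImplicit false

open MeasureTheory Filter ProbabilityTheory Topology
open Crest.ProbabilityR.FirstPassage
open Crest.Agent.R151.K

namespace Crest.Agent.R151.Q

open B710 (FlatData)
open R78 (IsHwy hc hp stepc hc_zero hc_succ hc_sub_eq_sum hc_mono)

/-! ### Costs of the blocks -/

lemma lcost_eq_sum (t : Environment) (l : List (ℤ × ℤ)) :
    lcost t l = ∑ i ∈ Finset.range (l.length - 1), t s(l.getD i 0, l.getD (i + 1) 0) := by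
  induction l with
  | nil => rfl
  | cons x l ih =>
    cases l with
    | nil => rfl
    | cons y l =>
      simp only [lcost]
      rw [ih]
      simp only [List.length_cons, Nat.add_sub_cancel]
      rw [Finset.sum_range_succ']
      simp only [List.getD_cons_succ, List.getD_cons_zero]
      rw [add_comm]

lemma Blocks.hc_block {L : ℤ → List (ℤ × ℤ)} {nd : ℤ → ℤ × ℤ} (hL : Blocks L nd)
    (t : Environment) (j : ℤ) :
    hc t (cat L) (cum (len L) (j + 1)) - hc t (cat L) (cum (len L) j) = lcost t (L j) := by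
  have hlen := hL.one_le_len j
  rw [hc_sub_eq_sum t (cat L) (by rw [cum_succ]; omega), cum_succ, lcost_eq_sum]
  have hn : ((L j).length - 1 : ℕ) = (len L j).toNat := by unfold len; omega
  rw [hn]
  have himg : Finset.Ico (cum (len L) j) (cum (len L) j + len L j) =
      (Finset.range (len L j).toNat).map
        ⟨fun i : ℕ => cum (len L) j + (i : ℤ), fun a b hab => by simpa using hab⟩ := by
    ext k
    simp only [Finset.mem_Ico, Finset.mem_map, Finset.mem_range, Function.Embedding.coeFn_mk]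
    constructor
    · rintro ⟨h1, h2⟩
      exact ⟨(k - cum (len L) j).toNat, by omega, by omega⟩
    · rintro ⟨i, hi, rfl⟩
      omega
  rw [himg, Finset.sum_map]
  refine Finset.sum_congr rfl fun i hi => ?_
  rw [Finset.mem_range] at hi
  simp only [Function.Embedding.coeFn_mk, stepc]
  have e : cum (len L) j + (i : ℤ) + 1 = cum (len L) j + ((i + 1 : ℕ) : ℤ) := by push_cast; ring
  rw [e, hL.cat_add j i (by omega), hL.cat_add j (i + 1) (by push_cast; omega)]

/-- crude bound for the cost of a simple list inside a finite set -/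
lemma lcost_le_sum {t : Environment} (ht : Nn t) {Q : Finset (ℤ × ℤ)} {l : List (ℤ × ℤ)}
    (hnd : l.Nodup) (hl : ∀ z ∈ l, z ∈ Q) :
    lcost t l ≤ ∑ x ∈ Q, ∑ y ∈ Q, t s(x, y) := by
  classical
  have key : ∀ l : List (ℤ × ℤ), l.Nodup → (∀ z ∈ l, z ∈ Q) →
      lcost t l ≤ ∑ x ∈ l.toFinset, ∑ y ∈ Q, t s(x, y) := by
    intro l
    induction l with
    | nil => intro _ _; simp [lcost]
    | cons x l ih =>
      intro h1 h2
      rw [List.toFinset_cons, Finset.sum_insert (by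
        rw [List.mem_toFinset]; exact (List.nodup_cons.1 h1).1)]
      have ih' := ih (List.nodup_cons.1 h1).2 fun z hz => h2 z (List.mem_cons_of_mem _ hz)
      cases l with
      | nil =>
        simp only [lcost, List.toFinset_nil, Finset.sum_empty, add_zero]
        exact Finset.sum_nonneg fun y _ => ht _
      | cons y l =>
        simp only [lcost]
        refine add_le_add ?_ ih'
        exact Finset.single_le_sum (f := fun y => t s(x, y)) (fun y _ => ht _) (h2 y (by simp))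
  refine (key l hnd hl).trans ?_
  refine Finset.sum_le_sum_of_subset_of_nonneg ?_ fun x _ _ => Finset.sum_nonneg fun y _ => ht _
  intro z hz
  exact hl z (List.mem_toFinset.1 hz)

lemma lcost_nonneg {t : Environment} (ht : Nn t) (l : List (ℤ × ℤ)) : 0 ≤ lcost t l := by
  rw [lcost_eq_sum]
  exact Finset.sum_nonneg fun i _ => ht _

lemma lcost_map_add (t : Environment) (n : ℤ × ℤ) (l : List (ℤ × ℤ)) :
    lcost t (l.map (· + n)) = lcost (act (tr n) t) l := by
  induction l with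
  | nil => rfl
  | cons x l ih =>
    cases l with
    | nil => rfl
    | cons y l =>
      simp only [List.map_cons, lcost] at ih ⊢
      rw [ih]
      rfl

/-! ### Random shifts depending on the phase -/

variable {G : Measure ℝ} [IsProbabilityMeasure G] {μ : ℝ × ℝ → ℝ} {F : FlatData μ} {w n0 κ : ℝ}

lemma measurable_S_var : Measurable fun q : (ℝ × ℝ) × ((ℝ × ℝ) × Environment) => S q.1 q.2 := by
  unfold S
  have h1 : Measurable fun q : (ℝ × ℝ) × ((ℝ × ℝ) × Environment) => q.2.1 + q.1 := by fun_prop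
  have h2 : Measurable frac2 := by
    unfold frac2
    exact (measurable_fract.comp measurable_fst).prodMk (measurable_fract.comp measurable_snd)
  have h3 : Measurable fun q : (ℝ × ℝ) × ((ℝ × ℝ) × Environment) =>
      (-flo2 (q.2.1 + q.1), q.2.2) :=
    ((measurable_flo2.comp h1).neg).prodMk (by fun_prop)
  have h4 := measurable_act_tr.comp h3
  exact (h2.comp h1).prodMk h4

lemma mp_Su {v : ℝ → ℝ × ℝ} (hv : Measurable v) :
    MeasurePreserving (fun q : ℝ × ((ℝ × ℝ) × Environment) => (q.1, S (v q.1) q.2))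
      (UU.prod (P0 G)) (UU.prod (P0 G)) := by
  refine (MeasurePreserving.id UU).skew_product (g := fun u p => S (v u) p) ?_
    (ae_of_all _ fun u => (mp_S (v u)).map_eq)
  have h1 : Measurable fun q : ℝ × ((ℝ × ℝ) × Environment) => (v q.1, q.2) :=
    (hv.comp measurable_fst).prodMk measurable_snd
  have := measurable_S_var.comp h1
  exact this

lemma Inv.integrable_Su {f : ℝ × ℝ → Environment → ℝ} (hf : Inv f) {v : ℝ → ℝ × ℝ}
    (hv : Measurable v) (hi : Integrable (fun p : (ℝ × ℝ) × Environment => f p.1 p.2) (P0 G)) :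
    Integrable (fun q : ℝ × ((ℝ × ℝ) × Environment) => f (q.2.1 + v q.1) q.2.2)
      (UU.prod (P0 G)) := by
  have h1 : Integrable (fun q : ℝ × ((ℝ × ℝ) × Environment) => f q.2.1 q.2.2)
      (UU.prod (P0 G)) := hi.comp_snd UU
  refine ((mp_Su (G := G) hv).integrable_comp_of_integrable h1).congr (ae_of_all _ fun q => ?_)
  exact (hf.shift (v q.1) q.2).symm

lemma Inv.integral_Su {f : ℝ × ℝ → Environment → ℝ} (hf : Inv f) {v : ℝ → ℝ × ℝ}
    (hv : Measurable v) (hm : Measurable (fun p : (ℝ × ℝ) × Environment => f p.1 p.2)) :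
    ∫ q : ℝ × ((ℝ × ℝ) × Environment), f (q.2.1 + v q.1) q.2.2 ∂(UU.prod (P0 G)) =
      ∫ p, f p.1 p.2 ∂(P0 G) := by
  have h1 : Measurable (fun q : ℝ × ((ℝ × ℝ) × Environment) => f q.2.1 q.2.2) :=
    hm.comp measurable_snd
  have h2 : ∫ p, f p.1 p.2 ∂(P0 G) = ∫ q : ℝ × ((ℝ × ℝ) × Environment), f q.2.1 q.2.2
      ∂(UU.prod (P0 G)) :=
    (mp_integral (measurePreserving_snd (μ := UU) (ν := P0 G)) hm.aestronglyMeasurable).symm
  rw [h2, ← mp_integral (mp_Su (G := G) hv) h1.aestronglyMeasurable]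
  refine integral_congr_ae (ae_of_all _ fun q => ?_)
  exact hf.shift (v q.1) q.2

/-! ### The block cost -/

/-- cost of the segment starting at the node `nr θ` -/
noncomputable def sgc (F : FlatData μ) (w n0 κ : ℝ) (θ : ℝ × ℝ) (t : Environment) : ℝ :=
  lcost t (seg F w n0 κ θ t)

lemma sgc_eq_blkCost (h : Adm F w n0 κ) (θ : ℝ × ℝ) (t : Environment) :
    sgc F w n0 κ θ t = blkCost F w n0 κ (θ + toR (nr θ)) (act (tr (nr θ)) t) := by
  unfold sgc seg blkCost
  rw [lcost_map_add, lcost_geoL (h.ne' θ)]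
  rfl

lemma sgc_inv : Inv fun θ t => sgc F w n0 κ θ t := by
  intro m θ t
  show sgc F w n0 κ (θ + toR m) (act (tr m) t) = sgc F w n0 κ θ t
  unfold sgc
  rw [seg_cov]
  have h := lcost_map_add (act (tr m) t) (-m) (seg F w n0 κ θ t)
  have e : (fun z : ℤ × ℤ => z - m) = (· + -m) := by funext z; rw [sub_eq_add_neg]
  rw [e, h]
  congr 1
  funext a
  show t (Sym2.map (tr m) (Sym2.map (tr (-m)) a)) = t a
  rw [Sym2.map_map]
  have : (⇑(tr m) ∘ ⇑(tr (-m))) = id := by
    funext z; show z + -m + m = z; abel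
  rw [this, Sym2.map_id]
  rfl

lemma measurable_sgc : Measurable fun q : (ℝ × ℝ) × Environment => sgc F w n0 κ q.1 q.2 := by
  have h1 : Measurable fun q : List (ℤ × ℤ) × Environment => lcost q.2 q.1 :=
    measurable_from_prod_countable_right fun l => measurable_lcost l
  have h2 : Measurable fun q : (ℝ × ℝ) × Environment => (seg F w n0 κ q.1 q.2, q.2) :=
    (measurable_seg F w n0 κ).prodMk measurable_snd
  have := h1.comp h2
  exact this

lemma Adm.norm_pos_seg (h : Adm F w n0 κ) {θ : ℝ × ℝ} {t : Environment} {z : ℤ × ℤ}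
    (hz : z ∈ seg F w n0 κ θ t) :
    ‖pos θ z‖ ≤ (n0 + ‖F.al‖) * ‖F.a‖ + w / 2 * ‖F.b‖ := by
  have hn0 : |F.al (pos θ (nr θ))| ≤ ‖F.al‖ / 2 := by
    have := abs_al_nods (F := F) n0 θ 0
    unfold nods at this
    simpa using this
  have hn1 : |F.al (pos θ (nr (θ - n0 • F.a))) - n0| ≤ ‖F.al‖ / 2 := by
    have := abs_al_nods (F := F) n0 θ 1
    unfold nods at this
    simpa using this
  have hb1 : |F.be (pos θ (nr (θ - n0 • F.a)))| ≤ ‖F.be‖ / 2 := by
    have := abs_be_nods (F := F) n0 θ 1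
    unfold nods at this
    simpa using this
  have hN := norm_nonneg F.al
  have hw := h.w_be
  have hn := h.n0_pos
  rw [abs_le] at hn0 hn1
  have key : |F.al (pos θ z)| ≤ n0 + ‖F.al‖ ∧ |F.be (pos θ z)| ≤ w / 2 := by
    rcases h.mem_seg hz with rfl | ⟨h1, h2, h3⟩
    · exact ⟨by rw [abs_le]; constructor <;> linarith [hn1.1, hn1.2], by linarith⟩
    · exact ⟨by rw [abs_le]; constructor <;> linarith [hn0.1, hn0.2, hn1.1, hn1.2], h1⟩
  refine (norm_le_of_coord F _).trans (add_le_add ?_ ?_)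
  · exact mul_le_mul_of_nonneg_right key.1 (norm_nonneg _)
  · exact mul_le_mul_of_nonneg_right key.2 (norm_nonneg _)

lemma integrable_edgeSum (h2 : Integrable (fun x : ℝ => x ^ 2) G) (Q : Finset (ℤ × ℤ)) :
    Integrable (fun t : Environment => ∑ x ∈ Q, ∑ y ∈ Q, t s(x, y)) (iidLaw G) :=
  integrable_finsetSum _ fun x _ => integrable_finsetSum _ fun y _ =>
    (mp_eval (G := G) s(x, y)).integrable_comp_of_integrable (integrable_id_of_sq h2)

lemma integrable_sgc (h : Adm F w n0 κ) (h0 : G (Set.Iio 0) = 0)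
    (h2 : Integrable (fun x : ℝ => x ^ 2) G) :
    Integrable (fun p : (ℝ × ℝ) × Environment => sgc F w n0 κ p.1 p.2) (P0 G) := by
  obtain ⟨N, hN⟩ := exists_nat_ge ((n0 + ‖F.al‖) * ‖F.a‖ + w / 2 * ‖F.b‖ + 1)
  have hi : Integrable (fun p : (ℝ × ℝ) × Environment =>
      ∑ x ∈ box N, ∑ y ∈ box N, p.2 s(x, y)) (P0 G) := by
    unfold P0; exact (integrable_edgeSum h2 (box N)).comp_snd UU2
  refine hi.mono' measurable_sgc.aestronglyMeasurable ?_
  have hae : ∀ᵐ p ∂(P0 G), Nn p.2 ∧ p.1 ∈ Set.Ico (0 : ℝ) 1 ×ˢ Set.Ico (0 : ℝ) 1 := by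
    have ha : ∀ᵐ p ∂(P0 G), Nn p.2 := by
      unfold P0
      exact (Measure.quasiMeasurePreserving_snd (μ := UU2) (ν := iidLaw G)).ae (ae_Nn h0)
    have hb : ∀ᵐ p ∂(P0 G), p.1 ∈ Set.Ico (0 : ℝ) 1 ×ˢ Set.Ico (0 : ℝ) 1 := by
      unfold P0
      exact (Measure.quasiMeasurePreserving_fst (μ := UU2) (ν := iidLaw G)).ae ae_UU2
    filter_upwards [ha, hb] with p h h' using ⟨h, h'⟩
  filter_upwards [hae] with p hp
  unfold sgc
  rw [Real.norm_eq_abs, abs_of_nonneg (lcost_nonneg hp.1 _)]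
  refine lcost_le_sum hp.1 (h.seg_nodup _ _) fun z hz => ?_
  refine mem_box_of_pos (v := 0) hp.2 (R := (n0 + ‖F.al‖) * ‖F.a‖ + w / 2 * ‖F.b‖) ?_ ?_
  · rw [sub_zero]; exact h.norm_pos_seg hz
  · rw [norm_zero]; linarith

/-- cost of the block `j` of the highway of phase `u` -/
lemma Adm.hc_block (h : Adm F w n0 κ) (u : ℝ) (θ : ℝ × ℝ) (t : Environment) (j : ℤ) :
    hc t (h.hwy.H u θ t) (cum (len (segs F w n0 κ (θ - (u * n0) • F.a) t)) (j + 1)) -
      hc t (h.hwy.H u θ t) (cum (len (segs F w n0 κ (θ - (u * n0) • F.a) t)) j) =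
      sgc F w n0 κ (θ + (-((u + j) * n0)) • F.a) t := by
  have := (h.blocks (θ - (u * n0) • F.a) t).hc_block t j
  have e : θ - (u * n0) • F.a - ((j : ℝ) * n0) • F.a = θ + (-((u + j) * n0)) • F.a := by
    rw [sub_sub, ← add_smul, neg_smul, sub_eq_add_neg]
    congr 3
    ring
  unfold sgc
  rw [← e]
  exact this

/-- location of the labels in terms of the nodes -/
lemma Adm.ix_between (h : Adm F w n0 κ) {u : ℝ} (hu : u ∈ Set.Ico (0 : ℝ) 1) (θ : ℝ × ℝ)
    (t : Environment) {s : ℝ} {J0 J1 : ℤ} (hJ0 : ((J0 : ℝ) + 1) * n0 + ‖F.al‖ + κ < s)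
    (hJ1 : s ≤ J1 * n0 - ‖F.al‖) :
    cum (len (segs F w n0 κ (θ - (u * n0) • F.a) t)) J0 ≤ h.hwy.ix s u θ t ∧
      h.hwy.ix s u θ t ≤ cum (len (segs F w n0 κ (θ - (u * n0) • F.a) t)) J1 := by
  have hN := norm_nonneg F.al
  have hn := h.n0_pos
  have hnode : ∀ j : ℤ, |F.al (pos θ (h.hwy.H u θ t
      (cum (len (segs F w n0 κ (θ - (u * n0) • F.a) t)) j))) - (j + u) * n0| ≤ ‖F.al‖ / 2 := by
    intro j
    have h1 : h.hwy.H u θ t (cum (len (segs F w n0 κ (θ - (u * n0) • F.a) t)) j) =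
        nods F n0 (θ - (u * n0) • F.a) j := h.HH_node (θ - (u * n0) • F.a) t j
    rw [h1]
    have h2 := abs_al_nods (F := F) n0 (θ - (u * n0) • F.a) j
    rw [al_pos_sub] at h2
    have e : F.al (pos θ (nods F n0 (θ - (u * n0) • F.a) j)) - (j + u) * n0 =
        F.al (pos θ (nods F n0 (θ - (u * n0) • F.a) j)) - u * n0 - j * n0 := by ring
    rw [e]; exact h2
  constructor
  · refine (lt_firstGe (h.hwy.top u θ t) (h.hwy.bot u θ t) fun j hj => ?_).le
    have h1 := h.hwy.back u θ t j _ hj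
    have h2 := hnode J0
    rw [abs_le] at h2
    have h3 : ((J0 : ℝ) + u) * n0 ≤ ((J0 : ℝ) + 1) * n0 :=
      mul_le_mul_of_nonneg_right (by linarith [hu.2]) hn.le
    have h4 : h.hwy.κ = κ := rfl
    rw [h4] at h1
    linarith [h2.2]
  · refine firstGe_le (h.hwy.top u θ t) (h.hwy.bot u θ t) ?_
    have h2 := hnode J1
    rw [abs_le] at h2
    have h3 : (J1 : ℝ) * n0 ≤ ((J1 : ℝ) + u) * n0 :=
      mul_le_mul_of_nonneg_right (by linarith [hu.1]) hn.le
    linarith [h2.1]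

/-- bound for the cost between two indices located between two nodes -/
lemma Adm.hc_range (h : Adm F w n0 κ) (u : ℝ) (θ : ℝ × ℝ) (t : Environment) {J0 J1 : ℤ}
    (hJ : J0 ≤ J1) :
    hc t (h.hwy.H u θ t) (cum (len (segs F w n0 κ (θ - (u * n0) • F.a) t)) J1) -
      hc t (h.hwy.H u θ t) (cum (len (segs F w n0 κ (θ - (u * n0) • F.a) t)) J0) =
      ∑ j ∈ Finset.Ico J0 J1, sgc F w n0 κ (θ + (-((u + j) * n0)) • F.a) t := by
  obtain ⟨n, rfl⟩ := Int.le.dest hJ
  clear hJ
  induction n with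
  | zero => simp
  | succ n ih =>
    have e : J0 + ((n + 1 : ℕ) : ℤ) = J0 + n + 1 := by push_cast; ring
    have e2 : Finset.Ico J0 (J0 + n + 1) = insert (J0 + n) (Finset.Ico J0 (J0 + n)) := by
      ext k; simp only [Finset.mem_Ico, Finset.mem_insert]; omega
    rw [e, e2, Finset.sum_insert (by simp), ← ih, ← h.hc_block u θ t (J0 + n)]
    ring

/-- the dominating function -/
lemma Adm.integrable_sumSgc (h : Adm F w n0 κ) (h0 : G (Set.Iio 0) = 0)
    (h2 : Integrable (fun x : ℝ => x ^ 2) G) (J0 J1 : ℤ) :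
    Integrable (fun q : ℝ × (ℝ × ℝ) × Environment => ∑ j ∈ Finset.Ico J0 J1,
      sgc F w n0 κ (q.2.1 + (-((q.1 + j) * n0)) • F.a) q.2.2) (UU.prod (P0 G)) := by
  refine integrable_finsetSum _ fun j _ => ?_
  have hv : Measurable fun u : ℝ => (-((u + j) * n0)) • F.a :=
    (((measurable_id.add_const _).mul_const _).neg).smul_const _
  have := Inv.integrable_Su (G := G) (f := fun θ t => sgc F w n0 κ θ t)
    (v := fun u : ℝ => (-((u + j) * n0)) • F.a) sgc_inv hv (integrable_sgc h h0 h2)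
  exact this

lemma exists_J0 (n0 : ℝ) (hn : 0 < n0) (c : ℝ) : ∃ J : ℤ, (J : ℝ) * n0 < c := by
  obtain ⟨J, hJ⟩ := exists_int_lt (c / n0)
  exact ⟨J, by rwa [lt_div_iff₀ hn] at hJ⟩

lemma exists_J1 (n0 : ℝ) (hn : 0 < n0) (c : ℝ) : ∃ J : ℤ, c < (J : ℝ) * n0 := by
  obtain ⟨J, hJ⟩ := exists_int_gt (c / n0)
  exact ⟨J, by rwa [div_lt_iff₀ hn] at hJ⟩

/-- integrability of the difference of the cost potential between a label and the origin index -/
lemma Adm.integrable_hc_ix (h : Adm F w n0 κ) (h0 : G (Set.Iio 0) = 0)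
    (h2 : Integrable (fun x : ℝ => x ^ 2) G) (s : ℝ) :
    Integrable (fun q : ℝ × (ℝ × ℝ) × Environment =>
      hc q.2.2 (h.hwy.H q.1 q.2.1 q.2.2) (h.hwy.ix s q.1 q.2.1 q.2.2)) (UU.prod (P0 G)) := by
  obtain ⟨J0', hJ0'⟩ := exists_J0 n0 h.n0_pos (s - ‖F.al‖ - κ - n0)
  obtain ⟨J1', hJ1'⟩ := exists_J1 n0 h.n0_pos (s + ‖F.al‖)
  set J0 := min J0' 0 with hJ0def
  set J1 := max J1' 0 with hJ1def
  have hn := h.n0_pos
  have hJ0 : ((J0 : ℝ) + 1) * n0 + ‖F.al‖ + κ < s := by
    have : (J0 : ℝ) ≤ J0' := by exact_mod_cast min_le_left J0' 0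
    have := mul_le_mul_of_nonneg_right this hn.le
    linarith
  have hJ1 : s ≤ J1 * n0 - ‖F.al‖ := by
    have : (J1' : ℝ) ≤ J1 := by exact_mod_cast le_max_left J1' 0
    have := mul_le_mul_of_nonneg_right this hn.le
    linarith
  have h00 : J0 ≤ 0 := min_le_right _ _
  have h01 : 0 ≤ J1 := le_max_right _ _
  refine (h.integrable_sumSgc h0 h2 J0 J1).mono' (h.hwy.measurable_hc_ix s).aestronglyMeasurable ?_
  filter_upwards [Hwy.ae_UP h0] with q hq
  obtain ⟨ht, -, hu⟩ := hq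
  obtain ⟨a1, a2⟩ := h.ix_between hu q.2.1 q.2.2 hJ0 hJ1
  have hL := (h.blocks (q.2.1 - (q.1 * n0) • F.a) q.2.2).one_le_len
  have b0 := cum_le hL h00
  have b1 := cum_le hL h01
  rw [cum_zero] at b0 b1
  have hr := h.hc_range q.1 q.2.1 q.2.2 (h00.trans h01)
  have c1 := hc_mono ht (h.hwy.H q.1 q.2.1 q.2.2) a1
  have c2 := hc_mono ht (h.hwy.H q.1 q.2.1 q.2.2) a2
  have c3 := hc_mono ht (h.hwy.H q.1 q.2.1 q.2.2) b0
  have c4 := hc_mono ht (h.hwy.H q.1 q.2.1 q.2.2) b1
  rw [hc_zero] at c3 c4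
  rw [← hr, Real.norm_eq_abs, abs_le]
  constructor <;> linarith

lemma Adm.integrable_cst (h : Adm F w n0 κ) (h0 : G (Set.Iio 0) = 0)
    (h2 : Integrable (fun x : ℝ => x ^ 2) G) (s s' : ℝ) :
    Integrable (fun q : ℝ × (ℝ × ℝ) × Environment => h.hwy.cst s s' q.1 q.2.1 q.2.2)
      (UU.prod (P0 G)) :=
  (h.integrable_hc_ix h0 h2 s').sub (h.integrable_hc_ix h0 h2 s)

end Crest.Agent.R151.Q
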