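import Crest.Agent.R151.Q6c

/-!
# R151 / S0214 part 2, Q6d — the rate of the constructed highways (owner helper777)
-/

set_option autoImplicit false

open MeasureTheory Filter ProbabilityTheory Topology
open Crest.ProbabilityR.FirstPassage
open Crest.Agent.R151.K

namespace Crest.Agent.R151.Q

open B710 (FlatData)
open R78 (IsHwy hc hp stepc hc_zero hc_succ hc_sub_eq_sum hc_mono)

variable {G : Measure ℝ} [IsProbabilityMeasure G] {μ : ℝ × ℝ → ℝ} {F : FlatData μ} {w n0 κ : ℝ}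

/-- displacement of `φ` between two consecutive nodes -/
noncomputable def dphi (F : FlatData μ) (n0 : ℝ) (θ : ℝ × ℝ) (_t : Environment) : ℝ :=
  phi F (nr (θ - n0 • F.a)) - phi F (nr θ)

lemma measurable_pos_nr (v : ℝ × ℝ) : Measurable fun p : (ℝ × ℝ) × Environment =>
    F.ρ (pos (p.1 - v) (nr (p.1 - v))) := by
  have h1 : Measurable fun p : (ℝ × ℝ) × Environment => p.1 - v := by fun_prop
  have h2 : Measurable fun θ : ℝ × ℝ => pos θ (nr θ) := by
    unfold pos
    exact ((measurable_of_countable toR).comp measurable_nr).add measurable_id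
  have := F.ρ.continuous.measurable.comp (h2.comp h1)
  exact this

lemma integrable_pos_nr (v : ℝ × ℝ) : Integrable (fun p : (ℝ × ℝ) × Environment =>
    F.ρ (pos (p.1 - v) (nr (p.1 - v)))) (P0 G) := by
  refine Integrable.of_bound (measurable_pos_nr v).aestronglyMeasurable (‖F.ρ‖ * (1 / 2))
    (ae_of_all _ fun p => ?_)
  exact (F.ρ.le_opNorm _).trans (mul_le_mul_of_nonneg_left (norm_pos_nr _) (norm_nonneg _))

lemma dphi_eq (θ : ℝ × ℝ) (t : Environment) : dphi F n0 θ t =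
    F.ρ (pos (θ - n0 • F.a) (nr (θ - n0 • F.a))) - F.ρ (pos (θ - 0) (nr (θ - 0))) + n0 := by
  unfold dphi phi pos
  simp only [map_add, map_sub, map_smul, F.ρ_a, smul_eq_mul, sub_zero]
  ring

lemma integral_dphi : Integrable (fun p : (ℝ × ℝ) × Environment => dphi F n0 p.1 p.2) (P0 G) ∧
    ∫ p, dphi F n0 p.1 p.2 ∂(P0 G) = n0 := by
  simp only [dphi_eq]
  have i1 := integrable_pos_nr (G := G) (F := F) (n0 • F.a)
  have i2 := integrable_pos_nr (G := G) (F := F) 0
  have i3 : Integrable (fun p : (ℝ × ℝ) × Environment =>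
      F.ρ (pos (p.1 - n0 • F.a) (nr (p.1 - n0 • F.a))) - F.ρ (pos (p.1 - 0) (nr (p.1 - 0))))
      (P0 G) := i1.sub i2
  refine ⟨i3.add (integrable_const _), ?_⟩
  rw [integral_add i3 (integrable_const _), integral_sub i1 i2]
  have hinv : Inv fun θ (_ : Environment) => F.ρ (pos θ (nr θ)) := by
    intro m θ t
    show F.ρ (pos (θ + toR m) (nr (θ + toR m))) = F.ρ (pos θ (nr θ))
    rw [nr_add, pos_rel, sub_add_cancel]
  have hm : Measurable (Function.uncurry fun θ (_ : Environment) => F.ρ (pos θ (nr θ))) := by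
    have := measurable_pos_nr (F := F) 0
    simp only [sub_zero] at this
    exact this
  have e := hinv.integral_shift (G := G) hm (-(n0 • F.a))
  simp only [← sub_eq_add_neg] at e
  rw [e]
  simp

lemma dphi_inv : Inv fun θ t => dphi F n0 θ t := by
  intro m θ t
  show dphi F n0 (θ + toR m) (act (tr m) t) = dphi F n0 θ t
  rw [dphi_eq, dphi_eq]
  have e : θ + toR m - n0 • F.a = θ - n0 • F.a + toR m := by abel
  rw [sub_zero, sub_zero, e, nr_add, nr_add, pos_rel, pos_rel, sub_add_cancel, sub_add_cancel]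

lemma measurable_dphi : Measurable fun p : (ℝ × ℝ) × Environment => dphi F n0 p.1 p.2 := by
  simp only [dphi_eq]
  exact ((measurable_pos_nr _).sub (measurable_pos_nr _)).add_const _

namespace Adm

variable (h : Adm F w n0 κ)
include h

/-- potential between the origin index (a node) and the label `0` -/
lemma H_zero (u : ℝ) (θ : ℝ × ℝ) (t : Environment) :
    h.hwy.H u θ t 0 = nr (θ - (u * n0) • F.a) := by
  have h1 := h.HH_node (θ - (u * n0) • F.a) t 0
  rw [cum_zero] at h1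
  unfold nods at h1
  simp only [Int.cast_zero, zero_mul, zero_smul, sub_zero] at h1
  exact h1

lemma norm_pos_H_zero {u : ℝ} (hu : u ∈ Set.Ico (0 : ℝ) 1) (θ : ℝ × ℝ) (t : Environment) :
    ‖pos θ (h.hwy.H u θ t 0)‖ ≤ 1 / 2 + n0 * ‖F.a‖ := by
  rw [h.H_zero]
  have h1 := norm_pos_nr (θ - (u * n0) • F.a)
  have e : pos θ (nr (θ - (u * n0) • F.a)) =
      pos (θ - (u * n0) • F.a) (nr (θ - (u * n0) • F.a)) + (u * n0) • F.a := by
    unfold pos; abel
  rw [e]
  refine (norm_add_le _ _).trans (add_le_add h1 ?_)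
  rw [norm_smul, Real.norm_eq_abs]
  refine mul_le_mul_of_nonneg_right ?_ (norm_nonneg _)
  have hn := h.n0_pos
  rw [abs_mul, abs_of_nonneg hu.1, abs_of_pos hn]
  exact mul_le_of_le_one_left hn.le hu.2.le

/-- potential difference between the label `0` and the origin index -/
noncomputable def Z (u : ℝ) (θ : ℝ × ℝ) (t : Environment) : ℝ :=
  hp t (phi F) (h.hwy.H u θ t) (h.hwy.ix 0 u θ t) - hp t (phi F) (h.hwy.H u θ t) 0

lemma Z_eq (u : ℝ) (θ : ℝ × ℝ) (t : Environment) : h.Z u θ t =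
    hc t (h.hwy.H u θ t) (h.hwy.ix 0 u θ t) -
      (phi F (h.hwy.x 0 u θ t) - phi F (h.hwy.H u θ t 0)) := by
  unfold Z hp
  rw [hc_zero]
  unfold Hwy.x
  ring

lemma measurable_Z : Measurable fun q : ℝ × (ℝ × ℝ) × Environment => h.Z q.1 q.2.1 q.2.2 := by
  simp only [h.Z_eq]
  exact (h.hwy.measurable_hc_ix 0).sub ((h.hwy.measurable_phi_x 0).sub
    ((measurable_of_countable (phi F)).comp (h.hwy.meas 0)))

lemma integrable_Z (h0 : G (Set.Iio 0) = 0) (h2 : Integrable (fun x : ℝ => x ^ 2) G) :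
    Integrable (fun q : ℝ × (ℝ × ℝ) × Environment => h.Z q.1 q.2.1 q.2.2) (UU.prod (P0 G)) := by
  simp only [h.Z_eq]
  refine (h.integrable_hc_ix h0 h2 0).sub ?_
  have hm : Measurable fun q : ℝ × (ℝ × ℝ) × Environment =>
      phi F (h.hwy.x 0 q.1 q.2.1 q.2.2) - phi F (h.hwy.H q.1 q.2.1 q.2.2 0) :=
    (h.hwy.measurable_phi_x 0).sub ((measurable_of_countable (phi F)).comp (h.hwy.meas 0))
  refine Integrable.of_bound hm.aestronglyMeasurable
    (‖F.ρ‖ * ((|0| + ‖F.al‖) * ‖F.a‖ + h.hwy.wH / 2 * ‖F.b‖) +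
      ‖F.ρ‖ * (1 / 2 + n0 * ‖F.a‖)) ?_
  filter_upwards [Hwy.ae_UP h0] with q hq
  rw [Hwy.phiq_sub q.2.1]
  refine (norm_sub_le _ _).trans (add_le_add ?_ ?_)
  · exact (F.ρ.le_opNorm _).trans
      (mul_le_mul_of_nonneg_left (h.hwy.norm_pos_x 0 _ _ _) (norm_nonneg _))
  · exact (F.ρ.le_opNorm _).trans
      (mul_le_mul_of_nonneg_left (h.norm_pos_H_zero hq.2.2 _ _) (norm_nonneg _))

lemma Z_cov (u : ℝ) : Inv fun θ t => h.Z u θ t := by
  intro m θ t
  show h.Z u (θ + toR m) (act (tr m) t) = h.Z u θ t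
  rw [h.Z_eq, h.Z_eq, h.hwy.ix_cov, h.hwy.hc_cov, h.hwy.x_cov, h.hwy.cov]
  congr 1
  rw [Hwy.phiq_sub (θ + toR m), Hwy.phiq_sub θ, pos_rel, pos_rel, sub_add_cancel, sub_add_cancel]

lemma integral_Z_shift :
    ∫ q, h.Z q.1 (q.2.1 - n0 • F.a) q.2.2 ∂(UU.prod (P0 G)) =
      ∫ q, h.Z q.1 q.2.1 q.2.2 ∂(UU.prod (P0 G)) := by
  have m2 : MeasurePreserving (Prod.map (id : ℝ → ℝ) (S (-(n0 • F.a)))) (UU.prod (P0 G))
      (UU.prod (P0 G)) := (MeasurePreserving.id _).prod (mp_S _)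
  rw [← mp_integral m2 h.measurable_Z.aestronglyMeasurable]
  refine integral_congr_ae (ae_of_all _ fun q => ?_)
  simp only [Prod.map_fst, Prod.map_snd, id_eq]
  rw [sub_eq_add_neg]
  exact (h.Z_cov q.1).shift (-(n0 • F.a)) q.2

lemma integrable_Z_shift (h0 : G (Set.Iio 0) = 0) (h2 : Integrable (fun x : ℝ => x ^ 2) G) :
    Integrable (fun q : ℝ × (ℝ × ℝ) × Environment => h.Z q.1 (q.2.1 - n0 • F.a) q.2.2)
      (UU.prod (P0 G)) := by
  have m2 : MeasurePreserving (Prod.map (id : ℝ → ℝ) (S (-(n0 • F.a)))) (UU.prod (P0 G))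
      (UU.prod (P0 G)) := (MeasurePreserving.id _).prod (mp_S _)
  refine (m2.integrable_comp_of_integrable (h.integrable_Z h0 h2)).congr
    (ae_of_all _ fun q => ?_)
  simp only [Function.comp_apply, Prod.map_fst, Prod.map_snd, id_eq]
  rw [sub_eq_add_neg]
  exact ((h.Z_cov q.1).shift (-(n0 • F.a)) q.2).symm

/-- decomposition of the excess over one period -/
lemma Y_period {u : ℝ} (hu : u ∈ Set.Ico (0 : ℝ) 1) (θ : ℝ × ℝ) (t : Environment) :
    h.hwy.Y 0 n0 u θ t = h.Z u (θ - n0 • F.a) t +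
      (sgc F w n0 κ (θ + (-(u * n0)) • F.a) t - dphi F n0 (θ + (-(u * n0)) • F.a) t) -
        h.Z u θ t := by
  have hn := h.n0_pos
  have hu' : Int.fract (u + n0 / h.hwy.n0) = u := by
    have e : h.hwy.n0 = n0 := rfl
    rw [e, div_self hn.ne', Int.fract_add_one, Int.fract_eq_self]; exact hu
  set N := cum (len (segs F w n0 κ (θ - (u * n0) • F.a) t)) 1 with hN
  -- the shifted highway
  have hH : ∀ k, h.hwy.H u (θ - n0 • F.a) t k = h.hwy.H u θ t (k + N) := by
    intro k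
    have h1 := h.HH_shift (θ - (u * n0) • F.a) t 1 k
    have e : θ - (u * n0) • F.a - (((1 : ℤ) : ℝ) * n0) • F.a =
        θ - n0 • F.a - (u * n0) • F.a := by
      push_cast; rw [one_mul]; abel
    rw [e] at h1
    exact h1
  have hHf : h.hwy.H u (θ - n0 • F.a) t = fun k => h.hwy.H u θ t (k + N) := by
    funext k; exact hH k
  have hix : h.hwy.ix 0 u (θ - n0 • F.a) t = h.hwy.ix n0 u θ t - N := by
    unfold Hwy.ix
    have e : (fun k => F.al (pos (θ - n0 • F.a) (h.hwy.H u (θ - n0 • F.a) t k))) =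
        fun k => (fun k => F.al (pos θ (h.hwy.H u θ t k)) - n0) (k + N) := by
      funext k
      simp only
      rw [hH, al_pos_sub]
    have ht' : Tendsto (fun k => F.al (pos θ (h.hwy.H u θ t k)) - n0) atTop atTop := by
      simpa [sub_eq_add_neg] using tendsto_atTop_add_const_right atTop (-n0) (h.hwy.top u θ t)
    have hb' : Tendsto (fun k => F.al (pos θ (h.hwy.H u θ t k)) - n0) atBot atBot := by
      simpa [sub_eq_add_neg] using tendsto_atBot_add_const_right atBot (-n0) (h.hwy.bot u θ t)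
    rw [e, firstGe_shift ht' hb', firstGe_sub (h.hwy.top u θ t) (h.hwy.bot u θ t), zero_add]
  have hblock := h.hc_block u θ t 0
  rw [cum_zero, zero_add, hc_zero, ← hN] at hblock
  simp only [Int.cast_zero, add_zero, sub_zero] at hblock
  have hx : h.hwy.x 0 u (θ - n0 • F.a) t = h.hwy.x n0 u θ t := by
    unfold Hwy.x
    rw [hix, hH, sub_add_cancel]
  have hnode : h.hwy.H u (θ - n0 • F.a) t 0 = nr (θ + (-(u * n0)) • F.a - n0 • F.a) := by
    rw [h.H_zero]
    congr 1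
    rw [neg_smul]; abel
  have hnode0 : h.hwy.H u θ t 0 = nr (θ + (-(u * n0)) • F.a) := by
    rw [h.H_zero]
    congr 1
    rw [neg_smul]; abel
  rw [h.Z_eq, h.Z_eq, hx, hnode, hnode0, Hwy.Y_eq, hix, hHf, hc_shift, sub_add_cancel, hblock]
  unfold dphi Hwy.cst
  ring

/-- **the rate** -/
theorem rate_eq (h0 : G (Set.Iio 0) = 0) (h2 : Integrable (fun x : ℝ => x ^ 2) G) :
    n0 * ∫ q, h.hwy.Y 0 1 q.1 q.2.1 q.2.2 ∂(UU.prod (P0 G)) =
      (∫ p, sgc F w n0 κ p.1 p.2 ∂(P0 G)) - n0 := by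
  have hlin := h.hwy.integral_Y_linear (h.integrable_cst h0 h2) h0 0 n0
  rw [sub_zero] at hlin
  rw [← hlin]
  have hv : Measurable fun u : ℝ => (-(u * n0)) • F.a :=
    ((measurable_id.mul_const _).neg).smul_const _
  have i1 := h.integrable_Z_shift h0 h2
  have i2 := h.integrable_Z h0 h2
  have i3 : Integrable (fun q : ℝ × (ℝ × ℝ) × Environment =>
      sgc F w n0 κ (q.2.1 + (-(q.1 * n0)) • F.a) q.2.2) (UU.prod (P0 G)) := by
    have := Inv.integrable_Su (G := G) (f := fun θ t => sgc F w n0 κ θ t)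
      (v := fun u : ℝ => (-(u * n0)) • F.a) sgc_inv hv (integrable_sgc h h0 h2)
    exact this
  have i4 : Integrable (fun q : ℝ × (ℝ × ℝ) × Environment =>
      dphi F n0 (q.2.1 + (-(q.1 * n0)) • F.a) q.2.2) (UU.prod (P0 G)) := by
    have := Inv.integrable_Su (G := G) (f := fun θ t => dphi F n0 θ t)
      (v := fun u : ℝ => (-(u * n0)) • F.a) dphi_inv hv integral_dphi.1
    exact this
  have e3 : ∫ q : ℝ × (ℝ × ℝ) × Environment,
      sgc F w n0 κ (q.2.1 + (-(q.1 * n0)) • F.a) q.2.2 ∂(UU.prod (P0 G)) =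
      ∫ p, sgc F w n0 κ p.1 p.2 ∂(P0 G) := by
    have := Inv.integral_Su (G := G) (f := fun θ t => sgc F w n0 κ θ t)
      (v := fun u : ℝ => (-(u * n0)) • F.a) sgc_inv hv measurable_sgc
    exact this
  have e4 : ∫ q : ℝ × (ℝ × ℝ) × Environment,
      dphi F n0 (q.2.1 + (-(q.1 * n0)) • F.a) q.2.2 ∂(UU.prod (P0 G)) = n0 := by
    have := Inv.integral_Su (G := G) (f := fun θ t => dphi F n0 θ t)
      (v := fun u : ℝ => (-(u * n0)) • F.a) dphi_inv hv measurable_dphi
    rw [integral_dphi.2] at this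
    exact this
  have i34 : Integrable (fun q : ℝ × (ℝ × ℝ) × Environment =>
      sgc F w n0 κ (q.2.1 + (-(q.1 * n0)) • F.a) q.2.2 -
        dphi F n0 (q.2.1 + (-(q.1 * n0)) • F.a) q.2.2) (UU.prod (P0 G)) := i3.sub i4
  have i134 : Integrable (fun q : ℝ × (ℝ × ℝ) × Environment =>
      h.Z q.1 (q.2.1 - n0 • F.a) q.2.2 + (sgc F w n0 κ (q.2.1 + (-(q.1 * n0)) • F.a) q.2.2 -
        dphi F n0 (q.2.1 + (-(q.1 * n0)) • F.a) q.2.2)) (UU.prod (P0 G)) := i1.add i34
  have e : ∫ q, h.hwy.Y 0 n0 q.1 q.2.1 q.2.2 ∂(UU.prod (P0 G)) =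
      ∫ q : ℝ × (ℝ × ℝ) × Environment, (h.Z q.1 (q.2.1 - n0 • F.a) q.2.2 +
        (sgc F w n0 κ (q.2.1 + (-(q.1 * n0)) • F.a) q.2.2 -
        dphi F n0 (q.2.1 + (-(q.1 * n0)) • F.a) q.2.2) - h.Z q.1 q.2.1 q.2.2)
        ∂(UU.prod (P0 G)) := by
    refine integral_congr_ae ?_
    filter_upwards [Hwy.ae_UP h0] with q hq
    exact h.Y_period hq.2.2 q.2.1 q.2.2
  rw [e, integral_sub i134 i2, integral_add i1 i34, integral_sub i3 i4, h.integral_Z_shift, e3, e4]
  ring

end Adm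

/-- **existence of the highways, given the bound for the blocks** -/
theorem highwaysExist (h0 : G (Set.Iio 0) = 0) (h2 : Integrable (fun x : ℝ => x ^ 2) G)
    (hμ : IsTC G μ) (F : FlatData μ) (hB : BlockBound G F) : HighwaysExist G F := by
  obtain ⟨K, w0, C, hK, hw0, hb⟩ := hB
  obtain ⟨w1, n00, hadm⟩ := exists_adm F
  refine ⟨K, max (max (max w0 w1) (max n00 1)) (max (3 * ‖F.al‖ / K) C), hK, ?_, ?_⟩
  · exact lt_of_lt_of_le hw0 ((le_max_left _ _).trans ((le_max_left _ _).trans (le_max_left _ _)))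
  · intro w hw
    have a1 : w0 ≤ w := ((le_max_left _ _).trans ((le_max_left _ _).trans (le_max_left _ _))).trans hw
    have a2 : w1 ≤ w := ((le_max_right _ _).trans ((le_max_left _ _).trans (le_max_left _ _))).trans hw
    have a3 : n00 ≤ w := ((le_max_left _ _).trans ((le_max_right _ _).trans (le_max_left _ _))).trans hw
    have a4 : 1 ≤ w := ((le_max_right _ _).trans ((le_max_right _ _).trans (le_max_left _ _))).trans hw
    have a5 : 3 * ‖F.al‖ / K ≤ w := ((le_max_left _ _).trans (le_max_right _ _)).trans hw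
    have a6 : C ≤ w := ((le_max_right _ _).trans (le_max_right _ _)).trans hw
    have hwpos : 0 < w := by linarith
    have a7 : n00 ≤ w ^ 5 := a3.trans (by
      calc w = w ^ 1 := (pow_one w).symm
        _ ≤ w ^ 5 := pow_le_pow_right₀ a4 (by norm_num))
    have a8 : 3 * ‖F.al‖ ≤ K * w := by
      rw [div_le_iff₀ hK] at a5; linarith
    have h := hadm w a2 (w ^ 5) a7 (K * w) a8
    refine ⟨h.hwy, rfl, le_rfl, _, h.hwy.hwyMean (h.integrable_cst h0 h2) h0 h2 hμ, ?_⟩
    have hr := h.rate_eq h0 h2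
    have hb' := hb w a1
    have e : ∫ p, sgc F w (w ^ 5) (K * w) p.1 p.2 ∂(P0 G) =
        ∫ p, blkCost F w (w ^ 5) (K * w) (p.1 + toR (nr p.1)) (act (tr (nr p.1)) p.2) ∂(P0 G) :=
      integral_congr_ae (ae_of_all _ fun p => sgc_eq_blkCost h p.1 p.2)
    rw [e] at hr
    set ε := ∫ q, h.hwy.Y 0 1 q.1 q.2.1 q.2.2 ∂(UU.prod (P0 G)) with hε
    have h5 : 0 < w ^ 5 := by positivity
    have h6 : w ^ 5 * ε ≤ w ^ 5 * rate G F.swap w + C * w := by
      rw [hr]; linarith
    have h7 : ε ≤ rate G F.swap w + C / w ^ 4 := by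
      have : w ^ 5 * ε ≤ w ^ 5 * (rate G F.swap w + C / w ^ 4) := by
        have e2 : w ^ 5 * (rate G F.swap w + C / w ^ 4) = w ^ 5 * rate G F.swap w + C * w := by
          field_simp
        rw [e2]; exact h6
      exact le_of_mul_le_mul_left this h5
    have h8 : C / w ^ 4 ≤ 1 / w ^ 3 := by
      rw [div_le_div_iff₀ (by positivity) (by positivity)]
      have : C * w ^ 3 ≤ w * w ^ 3 := mul_le_mul_of_nonneg_right a6 (by positivity)
      calc C * w ^ 3 ≤ w * w ^ 3 := this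
        _ = 1 * w ^ 4 := by ring
    linarith

end Crest.Agent.R151.Q
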