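import Mathlib
import Crest.Agent.R151.R78B

/-!
# R151/R78C — deterministic row layer, part C: chains of rows (F3, F4)
(owner helper78)
-/

set_option autoImplicit false

open Crest.ProbabilityR.FirstPassage

namespace Crest.Agent.R151.R78

open Crest.Agent.R151.K

variable {t : Environment} {φ : V → ℝ}

/-- **F3, structural form**: a walk from `H 0` to `H N` decomposed at the first visits of the
highways `H (k+1)` and the last visits of `H k` before them. -/
theorem exists_chain (N : ℕ) : ∀ (H : ℕ → ℤ → V)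
    (_ : ∀ k < N, ∀ (i j : ℤ) (g : Wk (H k i) (H N j)), ∃ m, H (k + 1) m ∈ g.support)
    (i j : ℤ) (g : Wk (H 0 i) (H N j)),
    ∃ z w : ℕ → ℤ, w 0 = i ∧ z N = j ∧ ∃ C O : ℕ → Environment → ℝ,
      (∀ k ≤ N, ∃ c : Wk (H k (w k)) (H k (z k)), (∀ t, walkCost t c = C k t) ∧
        ∀ v ∈ c.support, v ∈ g.support) ∧
      (∀ k < N, ∃ o : Wk (H k (z k)) (H (k + 1) (w (k + 1))), (∀ t, walkCost t o = O k t) ∧
        IsOpen (H k) (H (k + 1)) {v | v ∈ g.support} o) ∧
      ∀ t, walkCost t g = ∑ k ∈ Finset.range (N + 1), C k t + ∑ k ∈ Finset.range N, O k t := by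
  induction N with
  | zero =>
    intro H _ i j g
    refine ⟨fun _ => j, fun _ => i, rfl, rfl, fun _ t => walkCost t g, fun _ _ => 0, ?_, ?_, ?_⟩
    · intro k hk
      have : k = 0 := by omega
      subst this
      exact ⟨g, fun _ => rfl, fun v hv => hv⟩
    · intro k hk; omega
    · intro t; simp
  | succ N ih =>
    intro H hP i j g
    obtain ⟨m, hm⟩ := hP 0 (by omega) i j g
    obtain ⟨u, v, a, o, b, e, ⟨z0, rfl⟩, ⟨w1, rfl⟩, ha, ho, ho'⟩ :=
      exists_last_first g (Set.range (H 0)) (Set.range (H 1)) ⟨i, rfl⟩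
        ⟨H 1 m, hm, ⟨m, rfl⟩⟩
    obtain ⟨z, w, hw, hz, C, O, hC, hO, hsum⟩ := ih (fun k => H (k + 1))
      (fun k hk i j g => hP (k + 1) (by omega) i j g) w1 j b
    have hb : ∀ v ∈ b.support, v ∈ g.support := fun v hv => by
      rw [e, mem_support_append]; exact Or.inr hv
    have hoo : ∀ v ∈ o.support, v ∈ g.support := fun v hv => by
      rw [e, mem_support_append, mem_support_append]; exact Or.inl (Or.inr hv)
    have haa : ∀ v ∈ a.support, v ∈ g.support := fun v hv => by
      rw [e, mem_support_append, mem_support_append]; exact Or.inl (Or.inl hv)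
    let C' : ℕ → Environment → ℝ := fun k => Nat.casesOn k (fun t => walkCost t a) C
    let O' : ℕ → Environment → ℝ := fun k => Nat.casesOn k (fun t => walkCost t o) O
    refine ⟨fun k => Nat.casesOn k z0 z, fun k => Nat.casesOn k i w, rfl, hz, C', O', ?_, ?_, ?_⟩
    · intro k hk
      rcases k with _ | k
      · exact ⟨a, fun _ => rfl, haa⟩
      · obtain ⟨c, hc, hc'⟩ := hC k (by omega)
        exact ⟨c, hc, fun v hv => hb v (hc' v hv)⟩
    · intro k hk
      rcases k with _ | k
      · subst hw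
        refine ⟨o, fun _ => rfl, hoo, ?_, ?_⟩
        · intro k hk; exact ho' _ hk ⟨k, rfl⟩
        · intro k hk; exact ho _ hk ⟨k, rfl⟩
      · obtain ⟨c, hc, hc'⟩ := hO k (by omega)
        exact ⟨c, hc, hc'.mono fun v hv => hb v hv⟩
    · intro t
      rw [e, walkCost_append, walkCost_append, hsum t,
        Finset.sum_range_succ' (fun k => C' k t) (N + 1),
        Finset.sum_range_succ' (fun k => O' k t) N]
      change _ = ∑ k ∈ Finset.range (N + 1), C k t + walkCost t a +
        (∑ k ∈ Finset.range N, O k t + walkCost t o)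
      ring

/-- **F3**: the excess of a walk from `H 0` to `H N` inside `A` is at least the sum of the hull
costs of its rows, minus the defects of highway segments containing all the visited points, plus
twice the passage times of the backward moves along the highways. -/
theorem chain_lower (ht : Nn t) {N : ℕ} {H : ℕ → ℤ → V} (hH : ∀ k, IsHwy (H k))
    (hP : ∀ k < N, ∀ (i j : ℤ) (g : Wk (H k i) (H N j)), ∃ m, H (k + 1) m ∈ g.support)
    {A : Set V} (hb : ∀ k < N, ∀ i j, BddBelow (routes t (H k) (H (k + 1)) A i j))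
    {a b : ℕ → ℤ} (hab : ∀ k ≤ N, ∀ m, H k m ∈ A → a k ≤ m ∧ m ≤ b k)
    {i j : ℤ} (g : Wk (H 0 i) (H N j)) (hg : ∀ v ∈ g.support, v ∈ A) :
    ∃ z w : ℕ → ℤ, w 0 = i ∧ z N = j ∧
      (∀ k ≤ N, H k (w k) ∈ g.support ∧ H k (z k) ∈ g.support) ∧
      (∀ k < N, ∃ o : Wk (H k (z k)) (H (k + 1) (w (k + 1))),
        IsOpen (H k) (H (k + 1)) {v | v ∈ g.support} o) ∧
      ∑ k ∈ Finset.range N, hull t (H k) (H (k + 1)) A (z k) (w (k + 1)) +
          (hp t φ (H N) j - hp t φ (H 0) i) -
          ∑ k ∈ Finset.range (N + 1), defect t (H k) (a k) (b k) +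
          ∑ k ∈ Finset.range (N + 1), loopc t (H k) (w k) (z k) ≤ exc t φ g := by
  obtain ⟨z, w, hw, hz, C, O, hC, hO, hsum⟩ := exists_chain N H hP i j g
  have hpts : ∀ k ≤ N, H k (w k) ∈ g.support ∧ H k (z k) ∈ g.support := by
    intro k hk
    obtain ⟨c, -, hc⟩ := hC k hk
    exact ⟨hc _ c.start_mem_support, hc _ c.end_mem_support⟩
  refine ⟨z, w, hw, hz, hpts, ?_, ?_⟩
  · intro k hk
    obtain ⟨o, -, ho⟩ := hO k hk
    exact ⟨o, ho⟩
  have h1 : ∑ k ∈ Finset.range (N + 1), (hp t φ (H k) (z k) - hp t φ (H k) (w k) -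
      defect t (H k) (a k) (b k) + loopc t (H k) (w k) (z k) + (φ (H k (z k)) - φ (H k (w k)))) ≤
      ∑ k ∈ Finset.range (N + 1), C k t := by
    refine Finset.sum_le_sum fun k hk => ?_
    have hk' : k ≤ N := by rw [Finset.mem_range] at hk; omega
    obtain ⟨c, hc, -⟩ := hC k hk'
    obtain ⟨p1, p2⟩ := hpts k hk'
    have q1 := hab k hk' _ (hg _ p1)
    have q2 := hab k hk' _ (hg _ p2)
    have := (hH k).le_exc (φ := φ) ht q1.1 q1.2 q2.1 q2.2 c
    rw [← hc t]
    unfold exc at this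
    linarith
  have h2 : ∑ k ∈ Finset.range N, (hull t (H k) (H (k + 1)) A (z k) (w (k + 1)) -
      hc t (H k) (z k) + hc t (H (k + 1)) (w (k + 1))) ≤ ∑ k ∈ Finset.range N, O k t := by
    refine Finset.sum_le_sum fun k hk => ?_
    rw [Finset.mem_range] at hk
    obtain ⟨o, ho, ho'⟩ := hO k hk
    have := hull_le (hb k hk (z k) (w (k + 1))) le_rfl le_rfl o (ho'.mono fun v hv => hg v hv)
    rw [← ho t]
    linarith
  have h3 : exc t φ g = ∑ k ∈ Finset.range (N + 1), C k t + ∑ k ∈ Finset.range N, O k t -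
      (φ (H N j) - φ (H 0 i)) := by unfold exc; rw [hsum t]
  have h4 : ∑ k ∈ Finset.range (N + 1), (hp t φ (H k) (z k) - hp t φ (H k) (w k) +
      (φ (H k (z k)) - φ (H k (w k)))) = hc t (H N) j - hc t (H 0) i +
        ∑ k ∈ Finset.range N, (hc t (H k) (z k) - hc t (H (k + 1)) (w (k + 1))) := by
    have e : ∀ k, hp t φ (H k) (z k) - hp t φ (H k) (w k) +
      (φ (H k (z k)) - φ (H k (w k))) = hc t (H k) (z k) - hc t (H k) (w k) := by
      intro k; unfold hp; ring
    rw [Finset.sum_congr rfl fun k _ => e k, Finset.sum_sub_distrib, Finset.sum_range_succ,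
      Finset.sum_range_succ' (fun k => hc t (H k) (w k)), Finset.sum_sub_distrib, hw, hz]
    ring
  rw [h3]
  have h5 : hp t φ (H N) j - hp t φ (H 0) i = hc t (H N) j - hc t (H 0) i -
    (φ (H N j) - φ (H 0 i)) := by unfold hp; ring
  rw [h5]
  simp only [Finset.sum_add_distrib, Finset.sum_sub_distrib] at h1 h2 h4 ⊢
  linarith

end Crest.Agent.R151.R78
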