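import Mathlib
import Crest.Agent.R151.R78L

/-!
# R151/R78M — deterministic row layer, part M: exit lemma in terms of labels (owner helper78)
-/

set_option autoImplicit false

open Crest.ProbabilityR.FirstPassage Filter

namespace Crest.Agent.R151.R78

open Crest.Agent.R151.K Crest.Agent.R151.Pl

variable {t : Environment} {H H' : ℤ → V}

/-- a fence in the lane `[s, r]`: `x` = position `s` on `H`, `x'` = position `r` on `H'`, and there
is a route from `x` to `x'` inside the lane -/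
structure IsFence (F : Frame) (t : Environment) (H H' : ℤ → V) (s r : ℝ) (x x' : ℤ) : Prop where
  pos : IsPos F H s x
  pos' : IsPos F H' r x'
  ne : (routes t H H' (F.lane s r) x x').Nonempty

/-- gauged cost with gauge region `univ` -/
noncomputable def sh (t : Environment) (H H' : ℤ → V) (a b : ℤ) (A : Set V) (i j : ℤ) : ℝ :=
  shp t H H' Set.univ a b A i j

section

variable {F : Frame} {lo hi lo' hi' κ : ℝ}

/-- optimal fence walk -/
lemma IsFence.exists_opt {s r : ℝ} {x x' : ℤ} (hfe : IsFence F t H H' s r x x')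
    (h : IsStrip F lo hi H) (h' : IsStrip F lo' hi' H') (hlt : hi < lo') (ht : Nn t) :
    ∃ z w : ℤ, x ≤ z ∧ w ≤ x' ∧ ∃ f : Wk (H z) (H' w), IsOpen H H' (F.lane s r) f ∧
      hull t H H' (F.lane s r) x x' = val t H H' f := by
  obtain ⟨z, w, hz, hw, g, -, hg, e⟩ := h.exists_hull h' hlt ht (subset_rfl) hfe.ne
  exact ⟨z, w, hz, hw, g, hg, e⟩

/-- the lower bound of a leftward crossing of the cell between two fences -/
noncomputable def cellLB (F : Frame) (t : Environment) (H H' : ℤ → V) (κ : ℝ) (a b : ℤ)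
    (s₀ r₀ s₁ r₁ : ℝ) (x₀ x₀' x₁ x₁' : ℤ) : ℝ :=
  sh t H H' a b (F.lane (s₀ - κ - F.esc) (r₁ + κ + F.esc)) x₁ x₀' -
    sh t H H' a b (F.lane s₀ r₀) x₀ x₀' - sh t H H' a b (F.lane s₁ r₁) x₁ x₁'

/-- **Exit lemma**: if the lane-restricted cost of `i → j` is larger than the cost in `A`, then
the latter is at least the cost of a leftward crossing of the left or of the right cell. -/
theorem exit_label (h : IsStrip F lo hi H) (h' : IsStrip F lo' hi' H') (hlt : hi < lo')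
    (hbk : Back F κ H) (hbk' : Back F κ H') (ht : Nn t)
    {s₀ r₀ s₁ r₁ u₀ v₀ u₁ v₁ : ℝ} {x₀ x₀' x₁ x₁' y₀ y₀' y₁ y₁' : ℤ}
    (hL₀ : IsFence F t H H' s₀ r₀ x₀ x₀') (hL₁ : IsFence F t H H' s₁ r₁ x₁ x₁')
    (hLlt : r₀ + κ < s₁)
    (hR₀ : IsFence F t H H' u₀ v₀ y₀ y₀') (hR₁ : IsFence F t H H' u₁ v₁ y₁ y₁')
    (hRlt : v₀ + κ < u₁)
    {S R σ σ' lL lR : ℝ} {a b i j : ℤ} (ha : IsPos F H S a) (hb : IsPos F H' R b)
    (hi : IsPos F H σ i) (hj : IsPos F H' σ' j) (hSs : S ≤ s₀) (hSσ : S ≤ σ) (hSu : S ≤ u₀)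
    (hRr : r₁ ≤ R) (hRv : v₁ ≤ R) (hRσ : σ' ≤ R)
    (hσ : r₁ + κ < σ) (hσ' : σ' + F.stp ≤ u₀) (hlL : lL ≤ s₀ - κ - F.esc)
    (hlR : v₁ + κ + F.esc ≤ lR) {A : Set V} (hne : (routes t H H' A i j).Nonempty)
    (hex : hull t H H' A i j < hull t H H' (A ∩ F.lane lL lR) i j) :
    cellLB F t H H' κ a b s₀ r₀ s₁ r₁ x₀ x₀' x₁ x₁' ≤ sh t H H' a b A i j ∨
      cellLB F t H H' κ a b u₀ v₀ u₁ v₁ y₀ y₀' y₁ y₁' ≤ sh t H H' a b A i j := by
  have hκ : 0 ≤ κ := by have := hbk 0 0 le_rfl; linarith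
  obtain ⟨z₀, w₀, hz₀, hw₀, f₀, hf₀, e₀⟩ := hL₀.exists_opt h h' hlt ht
  obtain ⟨z₁, w₁, hz₁, hw₁, f₁, hf₁, e₁⟩ := hL₁.exists_opt h h' hlt ht
  obtain ⟨m₀, n₀, hm₀, hn₀, g₀, hg₀, d₀⟩ := hR₀.exists_opt h h' hlt ht
  obtain ⟨m₁, n₁, hm₁, hn₁, g₁, hg₁, d₁⟩ := hR₁.exists_opt h h' hlt ht
  have hPL : IsPair F κ H H' f₀ f₁ s₀ r₀ s₁ r₁ := ⟨hf₀, hf₁, hLlt⟩
  have hPR : IsPair F κ H H' g₀ g₁ u₀ v₀ u₁ v₁ := ⟨hg₀, hg₁, hRlt⟩
  -- lower bound for all cheap routes
  have key : ∀ c, hull t H H' A i j < c → c ≤ hull t H H' (A ∩ F.lane lL lR) i j →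
      (cellLB F t H H' κ a b s₀ r₀ s₁ r₁ x₀ x₀' x₁ x₁' < c - hull t H H' Set.univ a b ∨
        cellLB F t H H' κ a b u₀ v₀ u₁ v₁ y₀ y₀' y₁ y₁' < c - hull t H H' Set.univ a b) := by
    intro c hc hc'
    obtain ⟨x, y, hx, hy, g, hg, hgc⟩ := exists_route_lt hne hc
    have hout : ¬ ∀ v ∈ g.support, v ∈ F.lane lL lR := by
      intro hall
      have := hull_le (bddBelow_routes ht H H' (A ∩ F.lane lL lR) i j) hx hy g
        (hg.inter hall)
      linarith
    push Not at hout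
    obtain ⟨v, hv, hvl⟩ := hout
    have hax : a ≤ x := (ha.mono hi hSσ).trans hx
    have hyb : y ≤ b := hy.trans (hj.mono hb hRσ)
    have hvl' : F.al v < lL ∨ lR < F.al v := by
      by_contra hc
      push Not at hc
      exact hvl ⟨hc.1, hc.2⟩
    rcases hvl' with hvl' | hvl'
    · left
      have hzx : z₁ < x := by
        refine lt_of_lt_of_le (hi.lt_of_lt hbk ?_) hx
        have := (hf₁.sub _ f₁.start_mem_support).2
        linarith
      obtain ⟨p, p', k₁, k₂, k₃, rfl, hp, hp', hk, hk'⟩ := left_exit h h' hlt hbk hbk' hPL g hg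
        hzx hv (by linarith)
      have := window_one (t := t) (a := a) (b := b) h h' hlt hbk hbk' ht hPL k₁ k₂ k₃ hg hp hp'
        hk hk' hax ((ha.mono hL₀.pos hSs).trans hz₀) hyb
        (hw₁.trans (hL₁.pos'.mono hb hRr)) hz₁ hw₀
      unfold cellLB sh shp
      rw [e₀, e₁]
      unfold val at this ⊢
      linarith
    · right
      have hyn : y < n₀ := by
        by_contra hc
        push Not at hc
        have h1 := hj.al_le_of_le h'.hwy (hc.trans hy)
        have h2 := (hg₀.sub _ g₀.end_mem_support).1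
        linarith
      obtain ⟨p, p', k₁, k₂, k₃, rfl, hp, hp', hk, hk'⟩ := right_exit h h' hlt hbk hbk' hPR g hg
        hyn hv (by linarith)
      have := window_one (t := t) (a := a) (b := b) h h' hlt hbk hbk' ht hPR k₁ k₂ k₃ hg hp hp'
        hk hk' hax ((ha.mono hR₀.pos hSu).trans hm₀) hyb
        (hn₁.trans (hR₁.pos'.mono hb hRv)) hm₁ hn₀
      unfold cellLB sh shp
      rw [d₀, d₁]
      unfold val at this ⊢
      linarith
  -- let `c` tend to the hull
  by_contra hcon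
  push Not at hcon
  obtain ⟨h1, h2⟩ := hcon
  set L := cellLB F t H H' κ a b s₀ r₀ s₁ r₁ x₀ x₀' x₁ x₁' with hL
  set R' := cellLB F t H H' κ a b u₀ v₀ u₁ v₁ y₀ y₀' y₁ y₁' with hR
  have hsh : sh t H H' a b A i j = hull t H H' A i j - hull t H H' Set.univ a b := rfl
  rw [hsh] at h1 h2
  set c := min (hull t H H' (A ∩ F.lane lL lR) i j)
    (min (L + hull t H H' Set.univ a b) (R' + hull t H H' Set.univ a b)) with hc
  have hc1 : hull t H H' A i j < c := by
    rw [hc]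
    exact lt_min hex (lt_min (by linarith) (by linarith))
  have hc2 : c ≤ hull t H H' (A ∩ F.lane lL lR) i j := min_le_left _ _
  have hc3 : c ≤ L + hull t H H' Set.univ a b := (min_le_right _ _).trans (min_le_left _ _)
  have hc4 : c ≤ R' + hull t H H' Set.univ a b := (min_le_right _ _).trans (min_le_right _ _)
  rcases key c hc1 hc2 with hk | hk <;> linarith

end

end Crest.Agent.R151.R78
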