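import Mathlib
import Crest.Agent.R151.R78M

/-!
# R151/R78N — deterministic row layer, part N: exit through several consecutive cells
(owner helper78)
-/

set_option autoImplicit false

open Crest.ProbabilityR.FirstPassage Filter

namespace Crest.Agent.R151.R78

open Crest.Agent.R151.K Crest.Agent.R151.Pl

variable {t : Environment} {H H' : ℤ → V}

section step

variable {F : Frame} {lo hi lo' hi' κ : ℝ} {z₀ w₀ z₁ w₁ : ℤ}
  {f₀ : Wk (H z₀) (H' w₀)} {f₁ : Wk (H z₁) (H' w₁)} {s₀ r₀ s₁ r₁ : ℝ} {a b : ℤ}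

/-- **one cell, with remainder**: an open crossing `g₁ ++ g₂ ++ g₃` with `g₂` starting on fence `1`
and visiting fence `0`. -/
theorem window_step (h : IsStrip F lo hi H) (h' : IsStrip F lo' hi' H') (hlt : hi < lo')
    (hbk : Back F κ H) (hbk' : Back F κ H') (ht : Nn t)
    (hf : IsPair F κ H H' f₀ f₁ s₀ r₀ s₁ r₁)
    {x y : ℤ} {p p' : V} {A : Set V} (g₁ : Wk (H x) p) (g₂ : Wk p p') (g₃ : Wk p' (H' y))
    (hg : IsOpen H H' A ((g₁.append g₂).append g₃)) (hp : p ∈ f₁.support)
    (hmeet : ∃ v ∈ g₂.support, v ∈ f₀.support) (hg₂H : ∀ k, H k ∉ g₂.support)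
    (hg₂H' : ∀ k, H' k ∉ g₂.support) (hax : a ≤ x) (hwb : w₁ ≤ b) {i j : ℤ} (hi₁ : i ≤ z₁)
    (hj₀ : w₀ ≤ j) :
    ∃ (p'' : V) (v₁ : Wk (H z₀) p'') (k₂ : Wk p'' p'), p'' ∈ f₀.support ∧
      (∀ k, H k ∉ k₂.support) ∧ (∀ k, H' k ∉ k₂.support) ∧
      IsOpen H H' Set.univ ((v₁.append k₂).append g₃) ∧
      hull t H H' Set.univ a b +
        hull t H H' (F.lane (s₀ - κ - F.esc) (r₁ + κ + F.esc)) i j +
        val t H H' ((v₁.append k₂).append g₃) ≤
      val t H H' ((g₁.append g₂).append g₃) + val t H H' f₁ + val t H H' f₀ := by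
  have hκ : 0 ≤ κ := by have := hbk 0 0 le_rfl; linarith
  -- first hit `p''` of fence `0` in `g₂`, last visit `q` of fence `1` before it
  obtain ⟨p'', k₁, k₂, rfl, hp'', hk₁⟩ := exists_first g₂ {x | x ∈ f₀.support} hmeet
  obtain ⟨q, c, d, rfl, hq, hd⟩ := exists_last k₁ {x | x ∈ f₁.support}
    ⟨p, k₁.start_mem_support, hp⟩
  obtain ⟨u₁, u₂, eu⟩ := exists_split f₁ hq
  obtain ⟨v₁, v₂, ev⟩ := exists_split f₀ hp''
  have ho₀ := hf.open₀
  have ho₁ := hf.open₁
  have hdH : ∀ k, H k ∉ d.support := fun k hk =>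
    hg₂H k (by rw [mem_support_append, mem_support_append]; exact Or.inl (Or.inr hk))
  have hdH' : ∀ k, H' k ∉ d.support := fun k hk =>
    hg₂H' k (by rw [mem_support_append, mem_support_append]; exact Or.inl (Or.inr hk))
  have hdreg : ∀ x ∈ d.support, s₀ - κ - F.esc ≤ F.al x ∧ F.al x ≤ r₁ + κ + F.esc := by
    intro x hx
    have hC0 := F.esc_nonneg
    obtain ⟨d₁, d₂, rfl⟩ := exists_split d hx
    constructor
    · by_cases hxp : x ∈ f₀.support
      · have := (ho₀.sub x hxp).1
        linarith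
      · refine stay_left h h' hlt hbk hbk' (fun v K => F.esc_spec v K) ho₀.univ ho₁.univ
          (hf.disj hκ) (hf.z_lt hbk) (hf.w_lt hbk') (fun x hx => (ho₀.sub x hx).1) hq d₁.reverse
          (fun k hk => hdH k (by rw [mem_support_append]; exact Or.inl (by simpa using hk)))
          (fun k hk => hdH' k (by rw [mem_support_append]; exact Or.inl (by simpa using hk))) ?_
        intro x' hx' hx'f
        have hx'' : x' ∈ d₁.support := by simpa using hx'
        rw [mem_support_iff_dropLast] at hx''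
        rcases hx'' with hx'' | rfl
        · exact hk₁ x' (by
            rw [mem_dropLast_append, mem_dropLast_append]; exact Or.inr (Or.inl hx'')) hx'f
        · exact hxp hx'f
    · by_cases hxp : x ∈ f₁.support
      · have := (ho₁.sub x hxp).2
        linarith
      · refine stay_right h h' hlt hbk hbk' (fun v K => F.esc_spec v K) ho₁.univ ho₀.univ
          (fun x hx hx' => hf.disj hκ x hx' hx) (hf.z_lt hbk) (hf.w_lt hbk')
          (fun x hx => (ho₁.sub x hx).2) hp'' d₂
          (fun k hk => hdH k (by rw [mem_support_append]; exact Or.inr hk))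
          (fun k hk => hdH' k (by rw [mem_support_append]; exact Or.inr hk)) ?_
        intro x' hx' hx'f
        rw [mem_support_iff_tail] at hx'
        rcases hx' with rfl | hx'
        · exact hxp hx'f
        · exact hd x' (by rw [mem_tail_append]; exact Or.inr hx') hx'f
  have mono : ∀ {x y : V} {u : Wk x y} {v : V}, v ∈ u.support.tail → v ∈ u.support :=
    fun h => List.mem_of_mem_tail h
  have mono' : ∀ {x y : V} {u : Wk x y} {v : V}, v ∈ u.support.dropLast → v ∈ u.support :=
    fun h => List.mem_of_mem_dropLast h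
  rw [eu] at ho₁
  rw [ev] at ho₀
  -- route (A): `g` to `q`, then fence `1`
  have hA : IsOpen H H' Set.univ ((g₁.append c).append u₂) := by
    refine ⟨fun _ _ => trivial, fun m hm => ?_, fun m hm => ?_⟩
    · rw [mem_tail_append, mem_tail_append] at hm
      rcases hm with (hm | hm) | hm
      · exact hg.fst m (by rw [mem_tail_append, mem_tail_append]; exact Or.inl (Or.inl hm))
      · exact hg₂H m (by
          rw [mem_support_append, mem_support_append]; exact Or.inl (Or.inl (mono hm)))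
      · exact ho₁.fst m (by rw [mem_tail_append]; exact Or.inr hm)
    · rw [mem_dropLast_append, mem_dropLast_append] at hm
      rcases hm with (hm | hm) | hm
      · exact hg.snd m (by rw [mem_dropLast_append, mem_dropLast_append]; exact Or.inl (Or.inl hm))
      · exact hg₂H' m (by
          rw [mem_support_append, mem_support_append]; exact Or.inl (Or.inl (mono' hm)))
      · exact ho₁.snd m (by rw [mem_dropLast_append]; exact Or.inr hm)
  -- route (B): fence `1` to `q`, then `d`, then fence `0`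
  have hB : IsOpen H H' (F.lane (s₀ - κ - F.esc) (r₁ + κ + F.esc)) ((u₁.append d).append v₂) := by
    refine ⟨fun x hx => ?_, fun m hm => ?_, fun m hm => ?_⟩
    · have hC0 := F.esc_nonneg
      have hlt' := hf.lt
      rw [mem_support_append, mem_support_append] at hx
      rcases hx with (hx | hx) | hx
      · have h1 := ho₁.sub x (by rw [mem_support_append]; exact Or.inl hx)
        have h2 := ho₀.sub _ (v₁.append v₂).start_mem_support
        constructor
        · have := h1.1; have := h2.1; have := h2.2; linarith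
        · have := h1.2; linarith
      · exact hdreg x hx
      · have h1 := ho₀.sub x (by rw [mem_support_append]; exact Or.inr hx)
        have h2 := ho₁.sub _ (u₁.append u₂).start_mem_support
        constructor
        · have := h1.1; linarith
        · have := h1.2; have := h2.1; have := h2.2; linarith
    · rw [mem_tail_append, mem_tail_append] at hm
      rcases hm with (hm | hm) | hm
      · exact ho₁.fst m (by rw [mem_tail_append]; exact Or.inl hm)
      · exact hdH m (mono hm)
      · exact ho₀.fst m (by rw [mem_tail_append]; exact Or.inr hm)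
    · rw [mem_dropLast_append, mem_dropLast_append] at hm
      rcases hm with (hm | hm) | hm
      · exact ho₁.snd m (by rw [mem_dropLast_append]; exact Or.inl hm)
      · exact hdH' m (mono' hm)
      · exact ho₀.snd m (by rw [mem_dropLast_append]; exact Or.inr hm)
  -- route (C): fence `0` to `p''`, then `g`
  have hCr : IsOpen H H' Set.univ ((v₁.append k₂).append g₃) := by
    refine ⟨fun _ _ => trivial, fun m hm => ?_, fun m hm => ?_⟩
    · rw [mem_tail_append, mem_tail_append] at hm
      rcases hm with (hm | hm) | hm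
      · exact ho₀.fst m (by rw [mem_tail_append]; exact Or.inl hm)
      · exact hg₂H m (by rw [mem_support_append]; exact Or.inr (mono hm))
      · exact hg.fst m (by rw [mem_tail_append]; exact Or.inr hm)
    · rw [mem_dropLast_append, mem_dropLast_append] at hm
      rcases hm with (hm | hm) | hm
      · exact ho₀.snd m (by rw [mem_dropLast_append]; exact Or.inl hm)
      · exact hg₂H' m (by rw [mem_support_append]; exact Or.inr (mono' hm))
      · exact hg.snd m (by rw [mem_dropLast_append]; exact Or.inr hm)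
  have kA := hull_le (bddBelow_routes ht H H' Set.univ a b) hax hwb _ hA
  have kB := hull_le (bddBelow_routes ht H H' (F.lane (s₀ - κ - F.esc) (r₁ + κ + F.esc)) i j)
    hi₁ hj₀ _ hB
  have e1 : val t H H' f₁ = hc t H z₁ + (walkCost t u₁ + walkCost t u₂) - hc t H' w₁ := by
    unfold val; rw [eu, walkCost_append]
  have e0 : val t H H' f₀ = hc t H z₀ + (walkCost t v₁ + walkCost t v₂) - hc t H' w₀ := by
    unfold val; rw [ev, walkCost_append]
  refine ⟨p'', v₁, k₂, hp'', fun k hk => hg₂H k (by rw [mem_support_append]; exact Or.inr hk),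
    fun k hk => hg₂H' k (by rw [mem_support_append]; exact Or.inr hk), hCr, ?_⟩
  rw [e1, e0]
  unfold val
  simp only [walkCost_append] at kA kB ⊢
  linarith

end step

namespace IsFences

variable {F : Frame} {κ : ℝ} {m : ℕ} {s r : ℕ → ℝ} {z w : ℕ → ℤ}
  {f : (l : ℕ) → Wk (H (z l)) (H' (w l))}

lemma isPair (hf : IsFences F κ H H' m s r z w f) {l : ℕ} (hl : l < m) :
    IsPair F κ H H' (f l) (f (l + 1)) (s l) (r l) (s (l + 1)) (r (l + 1)) :=
  ⟨hf.isOpen l hl.le, hf.isOpen (l + 1) hl, hf.lt l hl⟩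

lemma lane_le (hf : IsFences F κ H H' m s r z w f) {l : ℕ} (hl : l ≤ m) : s l ≤ r l := by
  have := (hf.isOpen l hl).sub _ (f l).start_mem_support
  exact this.1.trans this.2

/-- the fences `0` and `n ≥ 1` are at distance `> κ` -/
lemma lt_zero (hf : IsFences F κ H H' m s r z w f) (hκ : 0 ≤ κ) : ∀ n, n + 1 ≤ m →
    r 0 + κ < s (n + 1)
  | 0, h => hf.lt 0 h
  | n + 1, h => by
    have h1 := hf.lt_zero hκ n (by omega)
    have h2 := hf.lane_le (l := n + 1) (by omega)
    have h3 := hf.lt (n + 1) h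
    linarith

lemma w_lt_zero (hf : IsFences F κ H H' m s r z w f) (hb : Back F κ H') {n : ℕ}
    (hn : n + 1 ≤ m) : w 0 < w (n + 1) :=
  lt_of_le_of_lt (hf.w_le hb (l := n) (by omega)) (hf.w_lt hb (by omega))

end IsFences

section multi

variable {F : Frame} {lo hi lo' hi' κ : ℝ} {m : ℕ} {s r : ℕ → ℝ} {z w : ℕ → ℤ}
  {f : (l : ℕ) → Wk (H (z l)) (H' (w l))} {a b : ℤ} {i j : ℕ → ℤ}

/-- **several cells**: an open crossing `g₁ ++ g₂ ++ g₃` where `g₂` goes from fence `n` to
fence `0` avoiding the highways. -/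
theorem window_multi (h : IsStrip F lo hi H) (h' : IsStrip F lo' hi' H') (hlt : hi < lo')
    (hbk : Back F κ H) (hbk' : Back F κ H') (ht : Nn t)
    (hf : IsFences F κ H H' m s r z w f)
    (haz : ∀ l ≤ m, a ≤ z l) (hwb : ∀ l ≤ m, w l ≤ b)
    (hi : ∀ l ≤ m, i l ≤ z l) (hj : ∀ l ≤ m, w l ≤ j l) (n : ℕ) (hn : n ≤ m) :
    ∀ {x y : ℤ} (_ : a ≤ x) (_ : y ≤ b) {p p' : V} (g₁ : Wk (H x) p) (g₂ : Wk p p')
      (g₃ : Wk p' (H' y)) {A : Set V} (_ : IsOpen H H' A ((g₁.append g₂).append g₃))
      (_ : p ∈ (f n).support) (_ : p' ∈ (f 0).support) (_ : ∀ k, H k ∉ g₂.support)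
      (_ : ∀ k, H' k ∉ g₂.support),
      ∑ l ∈ Finset.range n, ((hull t H H' (F.lane (s l - κ - F.esc) (r (l + 1) + κ + F.esc))
        (i (l + 1)) (j l) - hull t H H' Set.univ a b) - (val t H H' (f l) -
        hull t H H' Set.univ a b) - (val t H H' (f (l + 1)) - hull t H H' Set.univ a b)) ≤
      val t H H' ((g₁.append g₂).append g₃) - hull t H H' Set.univ a b := by
  have hκ : 0 ≤ κ := by have := hbk 0 0 le_rfl; linarith
  induction n with
  | zero =>
    intro x y hax hyb p p' g₁ g₂ g₃ A hg _ _ _ _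
    have := hull_le (bddBelow_routes ht H H' Set.univ a b) hax hyb _ hg.univ
    simp only [Finset.range_zero, Finset.sum_empty]
    unfold val
    linarith
  | succ n ih =>
    intro x y hax hyb p p' g₁ g₂ g₃ A hg hp hp' hg₂H hg₂H'
    have hnm : n < m := hn
    have hfo := hf.isOpen (n + 1) hn
    have hfo' := hf.isOpen n hnm.le
    have hf0 := hf.isOpen 0 (Nat.zero_le _)
    have hmeet : ∃ v ∈ g₂.support, v ∈ (f n).support := by
      rcases Nat.eq_zero_or_pos n with rfl | hn0
      · exact ⟨p', g₂.end_mem_support, hp'⟩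
      · obtain ⟨k, rfl⟩ : ∃ k, n = k + 1 := ⟨n - 1, by omega⟩
        obtain ⟨c₁, c₂, ec⟩ := exists_split (f (k + 1 + 1)) hp
        obtain ⟨d₁, d₂, ed⟩ := exists_split (f 0) hp'
        have hopen : IsOpen H H' Set.univ ((c₁.append g₂).append d₂) := by
          have h1 := hfo
          have h2 := hf0
          rw [ec] at h1
          rw [ed] at h2
          refine ⟨fun _ _ => trivial, fun q hq => ?_, fun q hq => ?_⟩
          · rw [mem_tail_append, mem_tail_append] at hq
            rcases hq with (hq | hq) | hq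
            · exact h1.fst q (by rw [mem_tail_append]; exact Or.inl hq)
            · exact hg₂H q (List.mem_of_mem_tail hq)
            · exact h2.fst q (by rw [mem_tail_append]; exact Or.inr hq)
          · rw [mem_dropLast_append, mem_dropLast_append] at hq
            rcases hq with (hq | hq) | hq
            · exact h1.snd q (by rw [mem_dropLast_append]; exact Or.inl hq)
            · exact hg₂H' q (List.mem_of_mem_dropLast hq)
            · exact h2.snd q (by rw [mem_dropLast_append]; exact Or.inr hq)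
        obtain ⟨v, hv, hv'⟩ := (h.crosses h' hlt) (hf.z_lt hbk hnm)
          (hf.w_lt_zero hbk' (n := k) hnm.le) (f (k + 1)) ((c₁.append g₂).append d₂)
          hfo'.univ hopen
        rw [mem_support_append, mem_support_append] at hv'
        rcases hv' with (hv' | hv') | hv'
        · exact absurd (by rw [ec, mem_support_append]; exact Or.inl hv') (hf.disj hκ hnm v hv)
        · exact ⟨v, hv', hv⟩
        · exfalso
          have h1 := (hf0.sub v (by rw [ed, mem_support_append]; exact Or.inr hv')).2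
          have h2 := (hfo'.sub v hv).1
          have h3 := hf.lt_zero hκ k hnm.le
          linarith
    obtain ⟨p'', v₁, k₂, hp'', hkH, hkH', hopen, hval⟩ := window_step (a := a) (b := b)
      (i := i (n + 1)) (j := j n) h h' hlt hbk hbk' ht (hf.isPair hnm) g₁ g₂ g₃ hg hp hmeet
      hg₂H hg₂H' hax (hwb _ hn) (hi _ hn) (hj _ hnm.le)
    have kI := ih hnm.le (haz n hnm.le) hyb v₁ k₂ g₃ hopen hp'' hp' hkH hkH'
    rw [Finset.sum_range_succ]
    linarith

end multi

/-! ### Families of fences in terms of labels -/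

/-- fences `0, …, m` from left to right in the lanes `[s l, r l]`; `x l` = position `s l` on `H`,
`x' l` = position `r l` on `H'` -/
structure FenceFam (F : Frame) (κ : ℝ) (t : Environment) (H H' : ℤ → V) (m : ℕ) (s r : ℕ → ℝ)
    (x x' : ℕ → ℤ) : Prop where
  lt : ∀ l < m, r l + κ < s (l + 1)
  pos : ∀ l ≤ m, IsPos F H (s l) (x l)
  pos' : ∀ l ≤ m, IsPos F H' (r l) (x' l)
  ne : ∀ l ≤ m, (routes t H H' (F.lane (s l) (r l)) (x l) (x' l)).Nonempty

/-- lower bound for a leftward crossing of the `m` cells between the fences -/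
noncomputable def famLB (F : Frame) (κ : ℝ) (t : Environment) (H H' : ℤ → V) (a b : ℤ) (m : ℕ)
    (s r : ℕ → ℝ) (x x' : ℕ → ℤ) : ℝ :=
  ∑ l ∈ Finset.range m, sh t H H' a b (F.lane (s l - κ - F.esc) (r (l + 1) + κ + F.esc))
      (x (l + 1)) (x' l) -
    2 * ∑ l ∈ Finset.range (m + 1), sh t H H' a b (F.lane (s l) (r l)) (x l) (x' l)

namespace FenceFam

variable {F : Frame} {lo hi lo' hi' κ : ℝ} {m : ℕ} {s r : ℕ → ℝ} {x x' : ℕ → ℤ} {a b : ℤ}

/-- optimal fences -/
lemma exists_opt (hF : FenceFam F κ t H H' m s r x x')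
    (h : IsStrip F lo hi H) (h' : IsStrip F lo' hi' H') (hlt : hi < lo') (ht : Nn t) :
    ∃ (z w : ℕ → ℤ) (f : (l : ℕ) → Wk (H (z l)) (H' (w l))),
      IsFences F κ H H' m s r z w f ∧ (∀ l ≤ m, x l ≤ z l) ∧ (∀ l ≤ m, w l ≤ x' l) ∧
      ∀ l ≤ m, hull t H H' (F.lane (s l) (r l)) (x l) (x' l) = val t H H' (f l) := by
  classical
  have hex : ∀ l, ∃ z w : ℤ, ∃ g : Wk (H z) (H' w), l ≤ m → (x l ≤ z ∧ w ≤ x' l ∧
      IsOpen H H' (F.lane (s l) (r l)) g ∧
      hull t H H' (F.lane (s l) (r l)) (x l) (x' l) = val t H H' g) := by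
    intro l
    by_cases hl : l ≤ m
    · obtain ⟨z, w, hz, hw, g, -, hg, e⟩ := h.exists_hull h' hlt ht (subset_rfl) (hF.ne l hl)
      exact ⟨z, w, g, fun _ => ⟨hz, hw, hg, e⟩⟩
    · obtain ⟨g⟩ : Nonempty (Wk (H 0) (H' 0)) := inferInstance
      exact ⟨0, 0, g, fun h => absurd h hl⟩
  choose z w f hf using hex
  exact ⟨z, w, f, ⟨fun l hl => (hf l hl).2.2.1, hF.lt⟩, fun l hl => (hf l hl).1,
    fun l hl => (hf l hl).2.1, fun l hl => (hf l hl).2.2.2⟩

/-- the gauged fence costs are nonnegative -/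
lemma sh_nonneg (hF : FenceFam F κ t H H' m s r x x') (ht : Nn t) {S R : ℝ}
    (ha : IsPos F H S a) (hb : IsPos F H' R b) (hS : ∀ l ≤ m, S ≤ s l) (hR : ∀ l ≤ m, r l ≤ R)
    {l : ℕ} (hl : l ≤ m) : 0 ≤ sh t H H' a b (F.lane (s l) (r l)) (x l) (x' l) :=
  shp_nonneg (bddBelow_routes ht H H' Set.univ a b) (hF.ne l hl) (Set.subset_univ _)
    (ha.mono (hF.pos l hl) (hS l hl)) ((hF.pos' l hl).mono hb (hR l hl))

/-- a crossing `g₁ ++ g₂ ++ g₃` with `g₂` from (optimal) fence `m` to (optimal) fence `0` -/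
lemma le_val (hF : FenceFam F κ t H H' m s r x x')
    (h : IsStrip F lo hi H) (h' : IsStrip F lo' hi' H') (hlt : hi < lo')
    (hbk : Back F κ H) (hbk' : Back F κ H') (ht : Nn t) {S R : ℝ}
    (ha : IsPos F H S a) (hb : IsPos F H' R b) (hS : ∀ l ≤ m, S ≤ s l) (hR : ∀ l ≤ m, r l ≤ R)
    {z w : ℕ → ℤ} {f : (l : ℕ) → Wk (H (z l)) (H' (w l))}
    (hf : IsFences F κ H H' m s r z w f) (hz : ∀ l ≤ m, x l ≤ z l) (hw : ∀ l ≤ m, w l ≤ x' l)
    (hv : ∀ l ≤ m, hull t H H' (F.lane (s l) (r l)) (x l) (x' l) = val t H H' (f l))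
    {x₀ y : ℤ} (hax : a ≤ x₀) (hyb : y ≤ b) {p p' : V} (g₁ : Wk (H x₀) p) (g₂ : Wk p p')
    (g₃ : Wk p' (H' y)) {A : Set V} (hg : IsOpen H H' A ((g₁.append g₂).append g₃))
    (hp : p ∈ (f m).support) (hp' : p' ∈ (f 0).support) (hg₂H : ∀ k, H k ∉ g₂.support)
    (hg₂H' : ∀ k, H' k ∉ g₂.support) :
    famLB F κ t H H' a b m s r x x' ≤
      val t H H' ((g₁.append g₂).append g₃) - hull t H H' Set.univ a b := by
  have key := window_multi (a := a) (b := b) (i := x) (j := x') h h' hlt hbk hbk' ht hf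
    (fun l hl => (ha.mono (hF.pos l hl) (hS l hl)).trans (hz l hl))
    (fun l hl => (hw l hl).trans ((hF.pos' l hl).mono hb (hR l hl))) hz hw m le_rfl hax hyb
    g₁ g₂ g₃ hg hp hp' hg₂H hg₂H'
  refine le_trans ?_ key
  unfold famLB
  have e1 : ∀ l ≤ m, sh t H H' a b (F.lane (s l) (r l)) (x l) (x' l) =
      val t H H' (f l) - hull t H H' Set.univ a b := fun l hl => by
    unfold sh shp; rw [hv l hl]
  have e2 : ∑ l ∈ Finset.range m, ((hull t H H' (F.lane (s l - κ - F.esc)
      (r (l + 1) + κ + F.esc)) (x (l + 1)) (x' l) - hull t H H' Set.univ a b) -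
      (val t H H' (f l) - hull t H H' Set.univ a b) -
      (val t H H' (f (l + 1)) - hull t H H' Set.univ a b)) =
      ∑ l ∈ Finset.range m, sh t H H' a b (F.lane (s l - κ - F.esc) (r (l + 1) + κ + F.esc))
        (x (l + 1)) (x' l) -
      ∑ l ∈ Finset.range m, sh t H H' a b (F.lane (s l) (r l)) (x l) (x' l) -
      ∑ l ∈ Finset.range m, sh t H H' a b (F.lane (s (l + 1)) (r (l + 1)))
        (x (l + 1)) (x' (l + 1)) := by
    rw [← Finset.sum_sub_distrib, ← Finset.sum_sub_distrib]
    refine Finset.sum_congr rfl fun l hl => ?_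
    rw [Finset.mem_range] at hl
    rw [← e1 l hl.le, ← e1 (l + 1) hl]
    rfl
  rw [e2]
  have h1 := Finset.sum_range_succ
    (fun l => sh t H H' a b (F.lane (s l) (r l)) (x l) (x' l)) m
  have h2 := Finset.sum_range_succ'
    (fun l => sh t H H' a b (F.lane (s l) (r l)) (x l) (x' l)) m
  have p0 := hF.sh_nonneg ht ha hb hS hR (l := 0) (Nat.zero_le _)
  have pm := hF.sh_nonneg ht ha hb hS hR (l := m) le_rfl
  linarith

end FenceFam

section fam

variable {F : Frame} {lo hi lo' hi' κ : ℝ}

/-- **window inequality (8.1), gauge region `univ`** -/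
theorem window_fam (h : IsStrip F lo hi H) (h' : IsStrip F lo' hi' H') (hlt : hi < lo')
    (hbk : Back F κ H) (hbk' : Back F κ H') (ht : Nn t) {m : ℕ} {s r : ℕ → ℝ} {x x' : ℕ → ℤ}
    (hF : FenceFam F κ t H H' m s r x x') {S R σ σ' : ℝ} {a b i j : ℤ}
    (ha : IsPos F H S a) (hb : IsPos F H' R b) (hS : ∀ l ≤ m, S ≤ s l) (hR : ∀ l ≤ m, r l ≤ R)
    (hi : IsPos F H σ i) (hj : IsPos F H' σ' j) (hSσ : S ≤ σ) (hRσ : σ' ≤ R)
    (hσ : r m + κ < σ) (hσ' : σ' + F.stp ≤ s 0) {A : Set V}
    (hne : (routes t H H' A i j).Nonempty) :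
    famLB F κ t H H' a b m s r x x' ≤ sh t H H' a b A i j := by
  have hκ : 0 ≤ κ := by have := hbk 0 0 le_rfl; linarith
  obtain ⟨z, w, f, hf, hz, hw, hv⟩ := hF.exists_opt h h' hlt ht
  suffices key : ∀ c ∈ routes t H H' A i j,
      famLB F κ t H H' a b m s r x x' + hull t H H' Set.univ a b ≤ c by
    have := le_csInf hne key
    unfold sh shp hull at *
    linarith
  rintro _ ⟨x₀, y, hx₀, hy, g, hg, rfl⟩
  have hax : a ≤ x₀ := (ha.mono hi hSσ).trans hx₀
  have hyb : y ≤ b := hy.trans (hj.mono hb hRσ)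
  have hzm : z m < x₀ := by
    refine lt_of_lt_of_le (hi.lt_of_lt hbk ?_) hx₀
    have := ((hf.isOpen m le_rfl).sub _ (f m).start_mem_support).2
    linarith
  have hw0 : y < w 0 := by
    by_contra hc
    push Not at hc
    have h1 := hj.al_le_of_le h'.hwy (hc.trans hy)
    have h2 := ((hf.isOpen 0 (Nat.zero_le _)).sub _ (f 0).end_mem_support).1
    linarith
  -- `g` meets fence `m`
  have hfm := hf.isOpen m le_rfl
  have hf0 := hf.isOpen 0 (Nat.zero_le _)
  obtain ⟨q, hq, hq'⟩ := (h.crosses h' hlt) hzm (lt_of_lt_of_le hw0 (hf.w_le hbk' le_rfl)) (f m) g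
    hfm.univ hg.univ
  obtain ⟨p, k₁, k₂, rfl, hp, -⟩ := exists_first g {x | x ∈ (f m).support} ⟨q, hq', hq⟩
  -- `k₂` meets fence `0`
  obtain ⟨c₁, c₂, ec⟩ := exists_split (f m) hp
  have hopen : IsOpen H H' Set.univ (c₁.append k₂) := by
    have h1 := hfm
    rw [ec] at h1
    refine ⟨fun _ _ => trivial, fun q hq => ?_, fun q hq => ?_⟩
    · rw [mem_tail_append] at hq
      rcases hq with hq | hq
      · exact h1.fst q (by rw [mem_tail_append]; exact Or.inl hq)
      · exact hg.fst q (by rw [mem_tail_append]; exact Or.inr hq)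
    · rw [mem_dropLast_append] at hq
      rcases hq with hq | hq
      · exact h1.snd q (by rw [mem_dropLast_append]; exact Or.inl hq)
      · exact hg.snd q (by rw [mem_dropLast_append]; exact Or.inr hq)
  have hmeet : ∃ v ∈ k₂.support, v ∈ (f 0).support := by
    rcases Nat.eq_zero_or_pos m with rfl | hm
    · exact ⟨p, k₂.start_mem_support, hp⟩
    · obtain ⟨k, rfl⟩ : ∃ k, m = k + 1 := ⟨m - 1, by omega⟩
      have hz0 : z 0 < z (k + 1) := by
        have : ∀ n, n + 1 ≤ k + 1 → z 0 < z (n + 1) := by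
          intro n
          induction n with
          | zero => intro _; exact hf.z_lt hbk (by omega)
          | succ n ih => intro hn; exact (ih (by omega)).trans (hf.z_lt hbk (by omega))
        exact this k le_rfl
      obtain ⟨v, hv1, hv2⟩ := (h.crosses h' hlt) hz0 hw0 (f 0) (c₁.append k₂) hf0.univ hopen
      rw [mem_support_append] at hv2
      rcases hv2 with hv2 | hv2
      · exfalso
        have h1 := (hfm.sub v (by rw [ec, mem_support_append]; exact Or.inl hv2)).1
        have h2 := (hf0.sub v hv1).2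
        have h3 := hf.lt_zero hκ k le_rfl
        linarith
      · exact ⟨v, hv2, hv1⟩
  obtain ⟨p', l₁, l₂, rfl, hp', -⟩ := exists_first k₂ {x | x ∈ (f 0).support} hmeet
  have hpH : ∀ k, H k ∉ l₁.support := by
    intro k hk
    rw [mem_support_iff_tail] at hk
    rcases hk with hk | hk
    · have h1 : k = x₀ := hg.eq_fst h.hwy.inj (by
        rw [mem_support_append]; exact Or.inl (by rw [hk]; exact k₁.end_mem_support))
      have h2 : k = z m := hfm.eq_fst h.hwy.inj (by rw [hk]; exact hp)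
      omega
    · exact hg.fst k (by
        rw [mem_tail_append, mem_tail_append]; exact Or.inr (Or.inl hk))
  have hpH' : ∀ k, H' k ∉ l₁.support := by
    intro k hk
    rw [mem_support_iff_dropLast] at hk
    rcases hk with hk | hk
    · exact hg.snd k (by
        rw [mem_dropLast_append, mem_dropLast_append]; exact Or.inr (Or.inl hk))
    · have h1 : k = y := hg.eq_snd h'.hwy.inj (by
        rw [mem_support_append, mem_support_append]
        exact Or.inr (Or.inl (by rw [hk]; exact l₁.end_mem_support)))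
      have h2 : k = w 0 := hf0.eq_snd h'.hwy.inj (by rw [hk]; exact hp')
      omega
  have e : k₁.append (l₁.append l₂) = (k₁.append l₁).append l₂ :=
    (SimpleGraph.Walk.append_assoc _ _ _)
  rw [e] at hg
  have := hF.le_val h h' hlt hbk hbk' ht ha hb hS hR hf hz hw hv hax hyb k₁ l₁ l₂ hg hp hp'
    hpH hpH'
  rw [e]
  unfold val at this
  linarith

/-- **Exit lemma with families of fences**: if the lane-restricted cost of `i → j` is larger than
the cost in `A`, then the latter is at least the cost of a leftward crossing of the left family or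
of the right family of cells. -/
theorem exit_fam (h : IsStrip F lo hi H) (h' : IsStrip F lo' hi' H') (hlt : hi < lo')
    (hbk : Back F κ H) (hbk' : Back F κ H') (ht : Nn t) {m : ℕ} (hm : 1 ≤ m)
    {s r : ℕ → ℝ} {x x' : ℕ → ℤ} (hL : FenceFam F κ t H H' m s r x x')
    {u v : ℕ → ℝ} {y y' : ℕ → ℤ} (hR : FenceFam F κ t H H' m u v y y')
    {S R σ σ' lL lR : ℝ} {a b i j : ℤ} (ha : IsPos F H S a) (hb : IsPos F H' R b)
    (hi : IsPos F H σ i) (hj : IsPos F H' σ' j) (hSs : ∀ l ≤ m, S ≤ s l) (hSσ : S ≤ σ)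
    (hSu : ∀ l ≤ m, S ≤ u l) (hRr : ∀ l ≤ m, r l ≤ R) (hRv : ∀ l ≤ m, v l ≤ R) (hRσ : σ' ≤ R)
    (hσ : r m + κ < σ) (hσ' : σ' + F.stp ≤ u 0) (hlL : lL ≤ s 0 - κ - F.esc)
    (hlR : v m + κ + F.esc ≤ lR) {A : Set V} (hne : (routes t H H' A i j).Nonempty)
    (hex : hull t H H' A i j < hull t H H' (A ∩ F.lane lL lR) i j) :
    famLB F κ t H H' a b m s r x x' ≤ sh t H H' a b A i j ∨
      famLB F κ t H H' a b m u v y y' ≤ sh t H H' a b A i j := by
  have hκ : 0 ≤ κ := by have := hbk 0 0 le_rfl; linarith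
  obtain ⟨k, rfl⟩ : ∃ k, m = k + 1 := ⟨m - 1, by omega⟩
  obtain ⟨zL, wL, fL, hfL, hzL, hwL, hvL⟩ := hL.exists_opt h h' hlt ht
  obtain ⟨zR, wR, fR, hfR, hzR, hwR, hvR⟩ := hR.exists_opt h h' hlt ht
  have hPL : IsPair F κ H H' (fL 0) (fL (k + 1)) (s 0) (r 0) (s (k + 1)) (r (k + 1)) :=
    ⟨hfL.isOpen 0 (Nat.zero_le _), hfL.isOpen (k + 1) le_rfl, hfL.lt_zero hκ k le_rfl⟩
  have hPR : IsPair F κ H H' (fR 0) (fR (k + 1)) (u 0) (v 0) (u (k + 1)) (v (k + 1)) :=
    ⟨hfR.isOpen 0 (Nat.zero_le _), hfR.isOpen (k + 1) le_rfl, hfR.lt_zero hκ k le_rfl⟩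
  -- lower bound for all cheap routes
  have key : ∀ c, hull t H H' A i j < c → c ≤ hull t H H' (A ∩ F.lane lL lR) i j →
      (famLB F κ t H H' a b (k + 1) s r x x' < c - hull t H H' Set.univ a b ∨
        famLB F κ t H H' a b (k + 1) u v y y' < c - hull t H H' Set.univ a b) := by
    intro c hc hc'
    obtain ⟨x₀, y₀, hx, hy, g, hg, hgc⟩ := exists_route_lt hne hc
    have hout : ¬ ∀ q ∈ g.support, q ∈ F.lane lL lR := by
      intro hall
      have := hull_le (bddBelow_routes ht H H' (A ∩ F.lane lL lR) i j) hx hy g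
        (hg.inter hall)
      linarith
    push Not at hout
    obtain ⟨q, hq, hql⟩ := hout
    have hax : a ≤ x₀ := (ha.mono hi hSσ).trans hx
    have hyb : y₀ ≤ b := hy.trans (hj.mono hb hRσ)
    have hql' : F.al q < lL ∨ lR < F.al q := by
      by_contra hc
      push Not at hc
      exact hql ⟨hc.1, hc.2⟩
    rcases hql' with hql' | hql'
    · left
      have hzx : zL (k + 1) < x₀ := by
        refine lt_of_lt_of_le (hi.lt_of_lt hbk ?_) hx
        have := ((hfL.isOpen (k + 1) le_rfl).sub _ (fL (k + 1)).start_mem_support).2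
        linarith
      obtain ⟨p, p', k₁, k₂, k₃, rfl, hp, hp', hk, hk'⟩ := left_exit h h' hlt hbk hbk' hPL g hg
        hzx hq (by linarith)
      have := hL.le_val h h' hlt hbk hbk' ht ha hb hSs hRr hfL hzL hwL hvL hax hyb k₁ k₂ k₃ hg
        hp hp' hk hk'
      unfold val at this
      linarith
    · right
      have hyn : y₀ < wR 0 := by
        by_contra hc
        push Not at hc
        have h1 := hj.al_le_of_le h'.hwy (hc.trans hy)
        have h2 := ((hfR.isOpen 0 (Nat.zero_le _)).sub _ (fR 0).end_mem_support).1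
        linarith
      obtain ⟨p, p', k₁, k₂, k₃, rfl, hp, hp', hk, hk'⟩ := right_exit h h' hlt hbk hbk' hPR g hg
        hyn hq (by linarith)
      have := hR.le_val h h' hlt hbk hbk' ht ha hb hSu hRv hfR hzR hwR hvR hax hyb k₁ k₂ k₃ hg
        hp hp' hk hk'
      unfold val at this
      linarith
  -- let `c` tend to the hull
  by_contra hcon
  push Not at hcon
  obtain ⟨h1, h2⟩ := hcon
  set LL := famLB F κ t H H' a b (k + 1) s r x x' with hLL
  set RR := famLB F κ t H H' a b (k + 1) u v y y' with hRR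
  have hsh : sh t H H' a b A i j = hull t H H' A i j - hull t H H' Set.univ a b := rfl
  rw [hsh] at h1 h2
  set c := min (hull t H H' (A ∩ F.lane lL lR) i j)
    (min (LL + hull t H H' Set.univ a b) (RR + hull t H H' Set.univ a b)) with hc
  have hc1 : hull t H H' A i j < c := by
    rw [hc]
    exact lt_min hex (lt_min (by linarith) (by linarith))
  have hc2 : c ≤ hull t H H' (A ∩ F.lane lL lR) i j := min_le_left _ _
  have hc3 : c ≤ LL + hull t H H' Set.univ a b := (min_le_right _ _).trans (min_le_left _ _)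
  have hc4 : c ≤ RR + hull t H H' Set.univ a b := (min_le_right _ _).trans (min_le_right _ _)
  rcases key c hc1 hc2 with hk | hk <;> linarith

end fam

end Crest.Agent.R151.R78
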