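import Crest.Agent.R151.R78N
import Crest.Agent.R151.M192f
import Crest.Agent.R151.M56a

/-!
# R151/R78O — the planar fields `window`, `lane` of `E191.RowA.Law` for the row instance `rowA`,
and the exit inequality through `m` cells (owner helper78)
-/

set_option autoImplicit false

open MeasureTheory Filter ProbabilityTheory Topology Set
open Crest.ProbabilityR.FirstPassage

namespace Crest.Agent.R151.R78

open Crest.Agent.R151.K
open Q (pos Hwy Inv rg)
open B710 (FlatData)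
open M192 (frame frame_al frame_be al_pos be_pos isStrip pe pe_nn Routable skp rowA RowOK Row
  sk_le_sk be_smul_b)

variable {μ : ℝ × ℝ → ℝ} {F : FlatData μ} {h : Hwy F}

/-! ### Labels of the row instance -/

lemma al_smul_b (F : FlatData μ) (y : ℝ) : F.al (y • F.b) = 0 := by
  rw [map_smul, F.al_b, smul_zero]

lemma rg_univ (F : FlatData μ) (θ : ℝ × ℝ) : rg F univ θ = univ := by
  ext z; simp [rg]

lemma lane_eq_rg (F : FlatData μ) (θ : ℝ × ℝ) (s r : ℝ) :
    (frame F).lane (s - F.al θ) (r - F.al θ) = rg F (Icc s r) θ := by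
  ext z
  simp only [Frame.lane, rg, Set.mem_ofPred_eq, Set.mem_Icc, frame_al, al_pos]
  constructor
  · rintro ⟨h1, h2⟩; exact ⟨by linarith, by linarith⟩
  · rintro ⟨h1, h2⟩; exact ⟨by linarith, by linarith⟩

lemma sh_eq_sk (h : Hwy F) (d : ℝ × ℝ) (I : Set ℝ) (L s s' : ℝ) (θ : ℝ × ℝ) (t : Environment)
    (φ : ℝ × ℝ) :
    sh t (h.Lo θ t φ) (h.Up d θ t φ) (h.iL (-L) θ t φ) (h.iU d L θ t φ) (rg F I θ)
      (h.iL s θ t φ) (h.iU d s' θ t φ) = h.sk d I univ L s s' θ t φ := by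
  unfold sh shp Hwy.sk Hwy.hk
  rw [rg_univ]

lemma isPos_iL (h : Hwy F) (s : ℝ) (θ : ℝ × ℝ) (t : Environment) (φ : ℝ × ℝ) :
    IsPos (frame F) (h.Lo θ t φ) (s - F.al θ) (h.iL s θ t φ) := M56.isPos_ix h s φ.1 θ t

lemma isPos_iU (h : Hwy F) (y s : ℝ) (θ : ℝ × ℝ) (t : Environment) (φ : ℝ × ℝ) :
    IsPos (frame F) (h.Up (y • F.b) θ t φ) (s - F.al θ) (h.iU (y • F.b) s θ t φ) := by
  have := M56.isPos_ix h s φ.2 (θ - y • F.b) t
  rw [map_sub, al_smul_b, sub_zero] at this
  exact this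

lemma strip_Lo (h : Hwy F) (θ : ℝ × ℝ) (t : Environment) (φ : ℝ × ℝ) :
    IsStrip (frame F) (-(h.wH / 2) - F.be θ) (h.wH / 2 - F.be θ) (h.Lo θ t φ) :=
  isStrip h φ.1 θ t

lemma strip_Up (h : Hwy F) (d θ : ℝ × ℝ) (t : Environment) (φ : ℝ × ℝ) :
    IsStrip (frame F) (-(h.wH / 2) - F.be (θ - d)) (h.wH / 2 - F.be (θ - d)) (h.Up d θ t φ) :=
  isStrip h φ.2 (θ - d) t

lemma back_Lo (h : Hwy F) (θ : ℝ × ℝ) (t : Environment) (φ : ℝ × ℝ) :
    Back (frame F) h.κ (h.Lo θ t φ) := M56.back h φ.1 θ t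

lemma back_Up (h : Hwy F) (d θ : ℝ × ℝ) (t : Environment) (φ : ℝ × ℝ) :
    Back (frame F) h.κ (h.Up d θ t φ) := M56.back h φ.2 (θ - d) t

/-- fences at the labels `S l → R l` -/
lemma fenceFam_of {y C : ℝ} (hR : Routable h (y • F.b) C) {m : ℕ} {S R : ℕ → ℝ}
    (hlt : ∀ l < m, R l + h.κ < S (l + 1)) (hw : ∀ l ≤ m, S l + 2 * C + h.κ ≤ R l)
    (θ : ℝ × ℝ) (t : Environment) (φ : ℝ × ℝ) :
    FenceFam (frame F) h.κ t (h.Lo θ t φ) (h.Up (y • F.b) θ t φ) m (fun l => S l - F.al θ)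
      (fun l => R l - F.al θ) (fun l => h.iL (S l) θ t φ) (fun l => h.iU (y • F.b) (R l) θ t φ) where
  lt l hl := by have := hlt l hl; linarith
  pos l _ := isPos_iL h (S l) θ t φ
  pos' l _ := isPos_iU h y (R l) θ t φ
  ne l hl := by
    have h1 := hw l hl
    have hκ := h.κ_nonneg
    rw [lane_eq_rg]
    refine hR (Icc (S l) (R l)) (S l + C) (S l + C) θ t φ _ _ ?_ ?_ ?_
    · rw [min_self, max_self]
      exact Icc_subset_Icc (by linarith) (by linarith)
    · exact M192.iL_mono h (by linarith) θ t φ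
    · exact M192.iU_mono h (y • F.b) (by linarith) θ t φ

/-- the lower bound of a family of cells in terms of `sk` -/
lemma famLB_eq (h : Hwy F) (y L : ℝ) (m : ℕ) (S R : ℕ → ℝ) (θ : ℝ × ℝ) (t : Environment)
    (φ : ℝ × ℝ) :
    famLB (frame F) h.κ t (h.Lo θ t φ) (h.Up (y • F.b) θ t φ) (h.iL (-L) θ t φ)
      (h.iU (y • F.b) L θ t φ) m (fun l => S l - F.al θ) (fun l => R l - F.al θ)
      (fun l => h.iL (S l) θ t φ) (fun l => h.iU (y • F.b) (R l) θ t φ) =
    ∑ l ∈ Finset.range m, h.sk (y • F.b) (Icc (S l - h.κ - (frame F).esc)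
        (R (l + 1) + h.κ + (frame F).esc)) univ L (S (l + 1)) (R l) θ t φ -
      2 * ∑ l ∈ Finset.range (m + 1), h.sk (y • F.b) (Icc (S l) (R l)) univ L (S l) (R l)
        θ t φ := by
  unfold famLB
  congr 1
  · refine Finset.sum_congr rfl fun l _ => ?_
    rw [← sh_eq_sk, ← lane_eq_rg]
    have e1 : S l - F.al θ - h.κ - (frame F).esc = S l - h.κ - (frame F).esc - F.al θ := by ring
    have e2 : R (l + 1) - F.al θ + h.κ + (frame F).esc =
        R (l + 1) + h.κ + (frame F).esc - F.al θ := by ring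
    simp only
    rw [e1, e2]
  · congr 1
    refine Finset.sum_congr rfl fun l _ => ?_
    rw [← sh_eq_sk, ← lane_eq_rg]

/-! ### The fields `window` and `lane` -/

/-- the slack conditions used by the planar fields -/
structure Slack (h : Hwy F) (W c : ℝ) : Prop where
  gt : (frame F).esc + h.κ < c
  stp : (frame F).stp ≤ c
  small : 4 * c ≤ 1 / 32 * W

section fields

variable {W L y l c δ v C : ℝ} {T : Set (Row (ℝ × ℝ))}
  (hO : RowOK h W L y l c δ v C) (hs : Slack h W c)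
include hO hs

/-- `cross` is below the lower bound of the family of fences -/
lemma cross_le (x : ℝ) (m : ℕ) (q : Row (ℝ × ℝ)) :
    (rowA h W L y l c δ T).cross x m q ≤
      famLB (frame F) h.κ (pe q.1.2) (h.Lo q.1.1 (pe q.1.2) q.2)
        (h.Up (y • F.b) q.1.1 (pe q.1.2) q.2) (h.iL (-L) q.1.1 (pe q.1.2) q.2)
        (h.iU (y • F.b) L q.1.1 (pe q.1.2) q.2) m
        (fun l => (x + 3 * l / 16) * W + c - F.al q.1.1)
        (fun l => (x + 3 * l / 16 + 1 / 32) * W - c - F.al q.1.1)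
        (fun l => h.iL ((x + 3 * l / 16) * W + c) q.1.1 (pe q.1.2) q.2)
        (fun l => h.iU (y • F.b) ((x + 3 * l / 16 + 1 / 32) * W - c) q.1.1 (pe q.1.2) q.2) / l := by
  have e := famLB_eq h y L m (fun l => (x + 3 * l / 16) * W + c)
    (fun l => (x + 3 * l / 16 + 1 / 32) * W - c) q.1.1 (pe q.1.2) q.2
  rw [e]
  have hl := hO.l_pos
  have hC := hO.C_nonneg
  have hκ := h.κ_nonneg
  have hcg := hO.c_ge
  have hesc := (frame F).esc_nonneg
  have h1 := hs.gt
  have h2 := hs.small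
  unfold E191.RowA.cross
  rw [sub_div, Finset.sum_div, mul_div_assoc, Finset.sum_div]
  refine sub_le_sub ?_ (mul_le_mul_of_nonneg_left ?_ (by norm_num))
  · refine Finset.sum_le_sum fun k _ => ?_
    refine div_le_div_of_nonneg_right ?_ hl.le
    have e1 : (x + 3 * ((k + 1 : ℕ) : ℝ) / 16) * W + c =
        (x + 3 * (k : ℝ) / 16 + 6 / 32) * W + c := by push_cast; ring
    have e2 : (x + 3 * ((k + 1 : ℕ) : ℝ) / 16 + 1 / 32) * W - c =
        (x + 3 * (k : ℝ) / 16 + 7 / 32) * W - c := by push_cast; ring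
    rw [e1, e2]
    set x' := x + 3 * (k : ℝ) / 16 with hx'
    have e3 : (x' + 6 / 32) * W = x' * W + 6 / 32 * W := by ring
    have e4 : (x' + 7 / 32) * W = x' * W + 7 / 32 * W := by ring
    have e5 : (x' + 1 / 32) * W = x' * W + 1 / 32 * W := by ring
    refine sk_le_sk hO.routable (Icc_subset_Icc ?_ ?_) ?_ ?_
      (σ₁ := (x' + 6 / 32) * W + c + C) (σ₂ := (x' + 1 / 32) * W - c - C - h.κ)
      (Icc_subset_Icc ?_ ?_) (by linarith) (by linarith) (pe_nn _) _
    · linarith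
    · linarith
    · linarith
    · linarith
    · rw [le_sub_iff_add_le, le_min_iff]
      constructor <;> rw [e3] at * <;> rw [e5] at * <;> linarith
    · rw [← le_sub_iff_add_le, max_le_iff]
      constructor <;> rw [e4] at * <;> linarith
  · refine Finset.sum_le_sum fun k _ => ?_
    set x' := x + 3 * (k : ℝ) / 16 with hx'
    have : (rowA h W L y l c δ T).F (1 / 32) x' q =
        skp h y l L (Icc (x' * W + c) ((x' + 1 / 32) * W - c)) (x' * W + c)
          ((x' + 1 / 32) * W - c) q := by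
      exact if_pos ⟨h2, by norm_num⟩
    rw [this]
    exact le_rfl

/-- the family of fences of `cross x m` -/
lemma fam_cross (x : ℝ) (m : ℕ) (θ : ℝ × ℝ) (t : Environment) (φ : ℝ × ℝ) :
    FenceFam (frame F) h.κ t (h.Lo θ t φ) (h.Up (y • F.b) θ t φ) m
      (fun l => (x + 3 * l / 16) * W + c - F.al θ)
      (fun l => (x + 3 * l / 16 + 1 / 32) * W - c - F.al θ)
      (fun l => h.iL ((x + 3 * l / 16) * W + c) θ t φ)
      (fun l => h.iU (y • F.b) ((x + 3 * l / 16 + 1 / 32) * W - c) θ t φ) := by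
  have hW := hO.W_pos
  have hC := hO.C_nonneg
  have hκ := h.κ_nonneg
  have hcg := hO.c_ge
  have hesc := (frame F).esc_nonneg
  have h1 := hs.gt
  have h2 := hs.small
  refine fenceFam_of (S := fun l => (x + 3 * l / 16) * W + c)
    (R := fun l => (x + 3 * l / 16 + 1 / 32) * W - c) hO.routable (fun k _ => ?_)
    (fun k _ => ?_) θ t φ
  · push_cast
    nlinarith
  · have e5 : (x + 3 * (k : ℝ) / 16 + 1 / 32) * W = (x + 3 * (k : ℝ) / 16) * W + 1 / 32 * W := by
      ring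
    rw [e5]
    linarith

/-- **field `window`** -/
theorem window_rowA (q : Row (ℝ × ℝ)) (s t x : ℝ) (m : ℕ) (hs' : |s| ≤ v) (ht : |t| ≤ v)
    (htx : t ≤ x) (hxs : x + 3 * m / 16 + 1 / 32 ≤ s) :
    (rowA h W L y l c δ T).cross x m q ≤ (rowA h W L y l c δ T).K s t q := by
  have hW := hO.W_pos
  have hC := hO.C_nonneg
  have hκ := h.κ_nonneg
  have hcg := hO.c_ge
  have hesc := (frame F).esc_nonneg
  have g1 := hs.gt
  have g2 := hs.small
  have g3 := hs.stp
  have hl := hO.l_pos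
  rw [abs_le] at hs' ht
  have a1 := hO.lab (x := s) (by rw [abs_le]; constructor <;> linarith)
  have a2 := hO.lab (x := t) (by rw [abs_le]; constructor <;> linarith)
  have b1 : t * W ≤ x * W := mul_le_mul_of_nonneg_right htx hW.le
  have b2 : (x + 3 * m / 16 + 1 / 32) * W ≤ s * W := mul_le_mul_of_nonneg_right hxs hW.le
  refine (cross_le hO hs x m q).trans ?_
  show _ ≤ skp h y l L univ (s * W) (t * W) q
  unfold skp
  refine div_le_div_of_nonneg_right ?_ hl.le
  have hd : h.wH < F.be (y • F.b) := by rw [be_smul_b]; exact hO.wH_lt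
  have key := window_fam (strip_Lo h q.1.1 (pe q.1.2) q.2)
    (strip_Up h (y • F.b) q.1.1 (pe q.1.2) q.2) (h.strips_lt hd q.1.1)
    (back_Lo h q.1.1 (pe q.1.2) q.2) (back_Up h (y • F.b) q.1.1 (pe q.1.2) q.2)
    (pe_nn _) (fam_cross hO hs x m q.1.1 (pe q.1.2) q.2)
    (isPos_iL h (-L) q.1.1 (pe q.1.2) q.2) (isPos_iU h y L q.1.1 (pe q.1.2) q.2)
    (fun k hk => ?_) (fun k hk => ?_)
    (isPos_iL h (s * W) q.1.1 (pe q.1.2) q.2) (isPos_iU h y (t * W) q.1.1 (pe q.1.2) q.2)
    (by linarith) (by linarith) ?_ ?_ (A := rg F univ q.1.1) ?_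
  · rw [sh_eq_sk] at key
    exact key
  · have hk' : (0 : ℝ) ≤ 3 * k / 16 * W := by positivity
    have e : (x + 3 * (k : ℝ) / 16) * W = x * W + 3 * k / 16 * W := by ring
    rw [e]; linarith
  · have hk' : (3 * (k : ℝ) / 16 * W) ≤ 3 * m / 16 * W := by
      have : (k : ℝ) ≤ m := by exact_mod_cast hk
      have := mul_le_mul_of_nonneg_right this hW.le
      linarith
    have e : (x + 3 * (k : ℝ) / 16 + 1 / 32) * W = (x + 1 / 32) * W + 3 * k / 16 * W := by ring
    have e' : (x + 3 * (m : ℝ) / 16 + 1 / 32) * W = (x + 1 / 32) * W + 3 * m / 16 * W := by ring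
    rw [e]; rw [e'] at b2; linarith
  · linarith
  · have e : (x + 3 * ((0 : ℕ) : ℝ) / 16) * W = x * W := by push_cast; ring
    rw [e]; linarith
  · exact hO.routable univ (s * W + C) (t * W - C - h.κ) _ _ _ _ _ (subset_univ _)
      (M192.iL_mono h (by linarith) _ _ _) (M192.iU_mono h _ (by linarith) _ _ _)

/-- **exit inequality through `m` cells**: an (almost) optimal crossing `s → t` stays in
`lL ≤ al ≤ lR`, or crosses leftwards the `m` cells from `xR`, or the `m` cells from `xL`. -/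
theorem exit_rowA (q : Row (ℝ × ℝ)) (s t xL xR lL lR : ℝ) {m : ℕ} (hm : 1 ≤ m)
    (htx : t ≤ xR) (hxs : xL + 3 * m / 16 + 1 / 32 ≤ s) (hlL : lL ≤ xL * W)
    (hlR : (xR + 3 * m / 16 + 1 / 32) * W ≤ lR) (hLL : -L ≤ xL * W) (hLs : -L ≤ t * W)
    (hLR : (xR + 3 * m / 16 + 1 / 32) * W ≤ L) (hLt : s * W ≤ L) :
    min (skp h y l L (Icc lL lR) (s * W) (t * W) q)
      (min ((rowA h W L y l c δ T).cross xR m q) ((rowA h W L y l c δ T).cross xL m q)) ≤
      (rowA h W L y l c δ T).K s t q := by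
  have hW := hO.W_pos
  have hC := hO.C_nonneg
  have hκ := h.κ_nonneg
  have hcg := hO.c_ge
  have hesc := (frame F).esc_nonneg
  have g1 := hs.gt
  have g2 := hs.small
  have g3 := hs.stp
  have hl := hO.l_pos
  have b1 : t * W ≤ xR * W := mul_le_mul_of_nonneg_right htx hW.le
  have b2 : (xL + 3 * m / 16 + 1 / 32) * W ≤ s * W := mul_le_mul_of_nonneg_right hxs hW.le
  have hmW : 0 ≤ 3 * (m : ℝ) / 16 * W := by positivity
  have eL : (xL + 3 * (m : ℝ) / 16 + 1 / 32) * W = xL * W + 3 * m / 16 * W + 1 / 32 * W := by ring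
  have eR : (xR + 3 * (m : ℝ) / 16 + 1 / 32) * W = xR * W + 3 * m / 16 * W + 1 / 32 * W := by ring
  rw [eL] at b2
  rw [eR] at hlR hLR
  have hd : h.wH < F.be (y • F.b) := by rw [be_smul_b]; exact hO.wH_lt
  have hne : (routes (pe q.1.2) (h.Lo q.1.1 (pe q.1.2) q.2) (h.Up (y • F.b) q.1.1 (pe q.1.2) q.2)
      (rg F univ q.1.1) (h.iL (s * W) q.1.1 (pe q.1.2) q.2)
      (h.iU (y • F.b) (t * W) q.1.1 (pe q.1.2) q.2)).Nonempty :=
    hO.routable univ (s * W + C) (t * W - C - h.κ) _ _ _ _ _ (subset_univ _)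
      (M192.iL_mono h (by linarith) _ _ _) (M192.iU_mono h _ (by linarith) _ _ _)
  have hreg : rg F univ q.1.1 ∩ (frame F).lane (lL - F.al q.1.1) (lR - F.al q.1.1) =
      rg F (Icc lL lR) q.1.1 := by
    rw [rg_univ, univ_inter, lane_eq_rg]
  by_cases hex : hull (pe q.1.2) (h.Lo q.1.1 (pe q.1.2) q.2)
      (h.Up (y • F.b) q.1.1 (pe q.1.2) q.2) (rg F univ q.1.1)
      (h.iL (s * W) q.1.1 (pe q.1.2) q.2) (h.iU (y • F.b) (t * W) q.1.1 (pe q.1.2) q.2) <
      hull (pe q.1.2) (h.Lo q.1.1 (pe q.1.2) q.2)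
      (h.Up (y • F.b) q.1.1 (pe q.1.2) q.2)
      (rg F univ q.1.1 ∩ (frame F).lane (lL - F.al q.1.1) (lR - F.al q.1.1))
      (h.iL (s * W) q.1.1 (pe q.1.2) q.2) (h.iU (y • F.b) (t * W) q.1.1 (pe q.1.2) q.2)
  · have hk1 : ∀ k : ℕ, k ≤ m → (0 : ℝ) ≤ 3 * k / 16 * W := fun k _ => by positivity
    have hk2 : ∀ k : ℕ, k ≤ m → (3 * (k : ℝ) / 16 * W) ≤ 3 * m / 16 * W := fun k hk => by
      have : (k : ℝ) ≤ m := by exact_mod_cast hk
      have := mul_le_mul_of_nonneg_right this hW.le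
      linarith
    have e1 : ∀ (x : ℝ) (k : ℕ), (x + 3 * (k : ℝ) / 16) * W = x * W + 3 * k / 16 * W :=
      fun x k => by ring
    have e2 : ∀ (x : ℝ) (k : ℕ), (x + 3 * (k : ℝ) / 16 + 1 / 32) * W =
        x * W + 3 * k / 16 * W + 1 / 32 * W := fun x k => by ring
    have key := exit_fam (strip_Lo h q.1.1 (pe q.1.2) q.2)
      (strip_Up h (y • F.b) q.1.1 (pe q.1.2) q.2) (h.strips_lt hd q.1.1)
      (back_Lo h q.1.1 (pe q.1.2) q.2) (back_Up h (y • F.b) q.1.1 (pe q.1.2) q.2)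
      (pe_nn _) hm (fam_cross hO hs xL m q.1.1 (pe q.1.2) q.2)
      (fam_cross hO hs xR m q.1.1 (pe q.1.2) q.2)
      (lL := lL - F.al q.1.1) (lR := lR - F.al q.1.1)
      (isPos_iL h (-L) q.1.1 (pe q.1.2) q.2) (isPos_iU h y L q.1.1 (pe q.1.2) q.2)
      (isPos_iL h (s * W) q.1.1 (pe q.1.2) q.2) (isPos_iU h y (t * W) q.1.1 (pe q.1.2) q.2)
      (fun k hk => by
        have := hk1 k hk; rw [e1]; linarith)
      (by linarith)
      (fun k hk => by
        have := hk1 k hk; rw [e1]; linarith)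
      (fun k hk => by
        have := hk2 k hk; rw [e2]; linarith)
      (fun k hk => by
        have := hk2 k hk; rw [e2]; linarith)
      (by linarith)
      (by rw [e2]; linarith)
      (by
        have e0 : (xR + 3 * ((0 : ℕ) : ℝ) / 16) * W = xR * W := by push_cast; ring
        rw [e0]; linarith)
      (by
        have e0 : (xL + 3 * ((0 : ℕ) : ℝ) / 16) * W = xL * W := by push_cast; ring
        rw [e0]; linarith)
      (by rw [e2]; linarith) hne hex
    rw [sh_eq_sk] at key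
    rcases key with key | key
    · refine (min_le_right _ _).trans ((min_le_right _ _).trans ?_)
      refine (cross_le hO hs xL m q).trans ?_
      show _ ≤ skp h y l L univ (s * W) (t * W) q
      unfold skp
      exact div_le_div_of_nonneg_right key hl.le
    · refine (min_le_right _ _).trans ((min_le_left _ _).trans ?_)
      refine (cross_le hO hs xR m q).trans ?_
      show _ ≤ skp h y l L univ (s * W) (t * W) q
      unfold skp
      exact div_le_div_of_nonneg_right key hl.le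
  · push Not at hex
    rw [hreg] at hex
    refine (min_le_left _ _).trans ?_
    show _ ≤ skp h y l L univ (s * W) (t * W) q
    unfold skp Hwy.sk Hwy.hk
    refine div_le_div_of_nonneg_right ?_ hl.le
    linarith

/-- **field `lane`** -/
theorem lane_rowA (hδ : δ ≤ 1 / 160) (q : Row (ℝ × ℝ)) (x : ℝ) (hx1 : -(1 / 16) ≤ x)
    (hx2 : x < 1 / 8) :
    min ((rowA h W L y l c δ T).KL x q) (min ((rowA h W L y l c δ T).cross (5 / 32) 1 q)
      ((rowA h W L y l c δ T).cross (-(11 / 32)) 1 q)) ≤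
      (rowA h W L y l c δ T).K x (x + 5 * δ) q := by
  have hW := hO.W_pos
  have hL := hO.L_ge
  have hv := hO.v_ge
  have hvW : 2 * W ≤ (v + 1) * W := mul_le_mul_of_nonneg_right (by linarith) hW.le
  have hδ0 := hO.δ_nonneg
  have b1 : -(1 / 16) * W ≤ x * W := mul_le_mul_of_nonneg_right hx1 hW.le
  have b2 : x * W ≤ 1 / 8 * W := mul_le_mul_of_nonneg_right hx2.le hW.le
  have b3 : 0 ≤ 5 * δ * W := by positivity
  have e : (x + 5 * δ) * W = x * W + 5 * δ * W := by ring
  refine exit_rowA (T := T) hO hs q x (x + 5 * δ) (-(11 / 32)) (5 / 32) (-(7 / 16 * W))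
    (7 / 16 * W) (m := 1) le_rfl (by linarith) (by push_cast; linarith) (by linarith)
    (by push_cast; linarith) (by linarith) (by rw [e]; linarith) (by push_cast; linarith)
    (by linarith)

end fields

end Crest.Agent.R151.R78
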