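import Crest.Agent.R151.Y635D

/-!
# R151/RFL890A — transport of structure along bijections of the vertices (owner helper890)

`σ : V ≃ V'` with `Trans σ H H'` (`σ` maps the graph `H` onto `H'`), `pull σ t = t ∘ Sym2.map σ`.
Everything deterministic of F1 and Y635A-D for `(pull σ t, H)` is the same thing for `(t, H')`:
passage times, geodesics, rays, two-sided rays, Busemann functions, gradients, coalescence, ties.
-/

set_option autoImplicit false

open Filter Topology

namespace Crest.Agent.R151.RFL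

open Crest.Agent.R151 Crest.Agent.R151.Y

variable {V V' : Type*} {σ : V ≃ V'} {H H₂ : SimpleGraph V} {H' H₂' : SimpleGraph V'}
  {t : Sym2 V' → ℝ}

/-- pull back of an environment -/
def pull (σ : V ≃ V') (t : Sym2 V' → ℝ) : Sym2 V → ℝ := fun e => t (Sym2.map σ e)

@[simp] theorem pull_mk (σ : V ≃ V') (t : Sym2 V' → ℝ) (x y : V) :
    pull σ t s(x, y) = t s(σ x, σ y) := rfl

theorem pull_symm_pull (σ : V ≃ V') (t : Sym2 V' → ℝ) : pull σ.symm (pull σ t) = t := by
  funext e
  induction e with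
  | _ a b => simp

theorem pull_pull_symm (σ : V ≃ V') (t : Sym2 V → ℝ) : pull σ (pull σ.symm t) = t := by
  funext e
  induction e with
  | _ a b => simp

theorem pull_inj (σ : V ≃ V') {t t' : Sym2 V' → ℝ} : pull σ t = pull σ t' ↔ t = t' := by
  refine ⟨fun h => ?_, fun h => by rw [h]⟩
  rw [← pull_symm_pull σ t, h, pull_symm_pull]

/-- quantification over all edges -/
theorem forall_pull {p : ℝ → Prop} : (∀ e, p (pull σ t e)) ↔ ∀ e, p (t e) := by
  constructor
  · intro h e
    have := h (Sym2.map σ.symm e)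
    have e1 : pull σ t (Sym2.map σ.symm e) = t e := by
      change pull σ.symm (pull σ t) e = t e
      rw [pull_symm_pull]
    rwa [e1] at this
  · exact fun h e => h _

theorem nonneg_pull : (∀ e, 0 ≤ pull σ t e) ↔ ∀ e, 0 ≤ t e := forall_pull (p := fun r => 0 ≤ r)

theorem pos_pull : (∀ e, 0 < pull σ t e) ↔ ∀ e, 0 < t e := forall_pull (p := fun r => 0 < r)

/-- `σ` maps the graph `H` onto the graph `H'`. -/
def Trans (σ : V ≃ V') (H : SimpleGraph V) (H' : SimpleGraph V') : Prop :=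
  ∀ x y, H.Adj x y ↔ H'.Adj (σ x) (σ y)

namespace Trans

theorem symm (h : Trans σ H H') : Trans σ.symm H' H := by
  intro x y
  rw [h, σ.apply_symm_apply, σ.apply_symm_apply]

theorem refl (H : SimpleGraph V) : Trans (Equiv.refl V) H H := fun _ _ => Iff.rfl

/-- the graph isomorphism -/
def iso (h : Trans σ H H') : H ≃g H' := ⟨σ, fun {a b} => (h a b).symm⟩

@[simp] theorem iso_apply (h : Trans σ H H') (x : V) : h.iso x = σ x := rfl

/-- the graph homomorphism -/
def hom (h : Trans σ H H') : H →g H' := h.iso.toHom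

@[simp] theorem hom_apply (h : Trans σ H H') (x : V) : h.hom x = σ x := rfl

theorem wcost (h : Trans σ H H') {x y : V} (w : H.Walk x y) :
    wcost (pull σ t) w = R151.wcost t (w.map h.hom) := by
  unfold R151.wcost
  rw [SimpleGraph.Walk.edges_map, List.map_map]
  rfl

/-- every walk of `H'` comes from a walk of `H` -/
theorem exists_map (h : Trans σ H H') {x y : V} (w : H'.Walk (σ x) (σ y)) :
    ∃ w' : H.Walk x y, w'.map h.hom = w := by
  have hx : h.symm.hom (σ x) = x := σ.symm_apply_apply x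
  have hy : h.symm.hom (σ y) = y := σ.symm_apply_apply y
  refine ⟨(w.map h.symm.hom).copy hx hy, ?_⟩
  apply SimpleGraph.Walk.ext_support
  rw [SimpleGraph.Walk.support_map, SimpleGraph.Walk.support_copy,
    SimpleGraph.Walk.support_map, List.map_map]
  refine (List.map_congr_left fun a _ => ?_).trans (List.map_id _)
  change σ (σ.symm a) = a
  simp

theorem reachable (h : Trans σ H H') {x y : V} :
    H.Reachable x y ↔ H'.Reachable (σ x) (σ y) := by
  constructor
  · rintro ⟨w⟩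
    exact ⟨w.map h.hom⟩
  · rintro ⟨w⟩
    obtain ⟨w', -⟩ := h.exists_map w
    exact ⟨w'⟩

theorem pt (h : Trans σ H H') (t : Sym2 V' → ℝ) (x y : V) :
    pt H (pull σ t) x y = R151.pt H' t (σ x) (σ y) := by
  unfold R151.pt
  refine Function.Surjective.iInf_congr (fun w : H.Walk x y => w.map h.hom) ?_ ?_
  · intro w
    exact h.exists_map w
  · intro w
    exact (h.wcost w).symm

theorem isGeo (h : Trans σ H H') {x y : V} (w : H.Walk x y) :
    IsGeo (pull σ t) w ↔ IsGeo t (w.map h.hom) := by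
  unfold IsGeo
  rw [h.wcost, h.pt]
  rfl

theorem isPath (h : Trans σ H H') {x y : V} (w : H.Walk x y) :
    (w.map h.hom).IsPath ↔ w.IsPath :=
  SimpleGraph.Walk.isPath_map_iff_of_injective σ.injective

theorem geoFin (h : Trans σ H H') {x : V} : GeoFin H (pull σ t) x ↔ GeoFin H' t (σ x) := by
  constructor
  · intro hg M
    obtain ⟨n, hn⟩ := hg M
    refine ⟨n, fun y w hw hl => ?_⟩
    obtain ⟨y, rfl⟩ := σ.surjective y
    obtain ⟨w', rfl⟩ := h.exists_map w
    have h1 : n ≤ w'.length := hl.trans_eq (SimpleGraph.Walk.length_map h.hom w')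
    have h2 := hn y w' ((h.isPath w').1 hw) h1
    rw [h.wcost] at h2
    exact h2
  · intro hg M
    obtain ⟨n, hn⟩ := hg M
    refine ⟨n, fun y w hw hl => ?_⟩
    rw [h.wcost]
    exact hn (σ y) (w.map h.hom) ((h.isPath w).2 hw)
      (hl.trans_eq (SimpleGraph.Walk.length_map h.hom w).symm)

theorem isRay (h : Trans σ H H') {v : ℕ → V} :
    IsRay (pull σ t) H v ↔ IsRay t H' fun k => σ (v k) := by
  constructor
  · intro hv
    refine ⟨fun k => (h _ _).1 (hv.adj k), fun i j hij => ?_⟩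
    rw [← h.pt, ← hv.geo i j hij]
    rfl
  · intro hv
    refine ⟨fun k => (h _ _).2 (hv.adj k), fun i j hij => ?_⟩
    rw [h.pt, ← hv.geo i j hij]
    rfl

theorem isBiRay (h : Trans σ H H') {v : ℤ → V} :
    IsBiRay (pull σ t) H v ↔ IsBiRay t H' fun k => σ (v k) := by
  constructor
  · intro hv
    refine ⟨fun k => (h _ _).1 (hv.adj k), fun i j hij => ?_⟩
    rw [← h.pt, ← hv.geo i j hij]
    rfl
  · intro hv
    refine ⟨fun k => (h _ _).2 (hv.adj k), fun i j hij => ?_⟩
    rw [h.pt, ← hv.geo i j hij]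
    rfl

theorem bus (h : Trans σ H H') (t : Sym2 V' → ℝ) (v : ℕ → V) (x : V) :
    bus (pull σ t) H v x = Y.bus t H' (fun k => σ (v k)) (σ x) := by
  unfold Y.bus
  refine iInf_congr fun n => ?_
  rw [h.pt, h.pt]

theorem isLip (h : Trans σ H H') {f : V' → ℝ} :
    IsLip (pull σ t) H (fun x => f (σ x)) ↔ IsLip t H' f := by
  constructor
  · intro hf x y hxy
    obtain ⟨x, rfl⟩ := σ.surjective x
    obtain ⟨y, rfl⟩ := σ.surjective y
    exact hf x y ((h x y).2 hxy)
  · exact fun hf x y hxy => hf _ _ ((h x y).1 hxy)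

theorem gradStep (h : Trans σ H H') {f : V' → ℝ} {x y : V} :
    GradStep (pull σ t) H (fun x => f (σ x)) x y ↔ GradStep t H' f (σ x) (σ y) := by
  unfold GradStep
  rw [h x y]
  rfl

theorem grad (h : Trans σ H H') {f : V' → ℝ} {x y : V} :
    Grad (pull σ t) H (fun x => f (σ x)) x y ↔ Grad t H' f (σ x) (σ y) := by
  unfold Grad
  rw [h.reachable, h.pt]

theorem isGrad (h : Trans σ H H') {f : V' → ℝ} {v : ℕ → V} :
    IsGrad (pull σ t) H (fun x => f (σ x)) v ↔ IsGrad t H' f fun k => σ (v k) :=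
  forall_congr' fun _ => h.gradStep

theorem hasGrad (h : Trans σ H H') {f : V' → ℝ} {S : Set V'} :
    HasGrad (pull σ t) H (fun x => f (σ x)) (σ ⁻¹' S) ↔ HasGrad t H' f S := by
  constructor
  · intro hg x hx
    obtain ⟨x, rfl⟩ := σ.surjective x
    obtain ⟨y, hy, hxy⟩ := hg x hx
    exact ⟨σ y, hy, h.gradStep.1 hxy⟩
  · intro hg x hx
    obtain ⟨y, hy, hxy⟩ := hg (σ x) hx
    obtain ⟨y, rfl⟩ := σ.surjective y
    exact ⟨y, hy, h.gradStep.2 hxy⟩

theorem distTo (h : Trans σ H H') (t : Sym2 V' → ℝ) (L : Set V') (c : V' → ℝ) (x : V) :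
    distTo (pull σ t) H (σ ⁻¹' L) (fun x => c (σ x)) x = Y.distTo t H' L c (σ x) := by
  unfold Y.distTo
  refine Function.Surjective.iInf_congr (fun w : (σ ⁻¹' L) => (⟨σ w.1, w.2⟩ : L)) ?_ ?_
  · rintro ⟨w, hw⟩
    exact ⟨⟨σ.symm w, by simpa using hw⟩, Subtype.ext (by simp)⟩
  · intro w
    rw [h.pt]

theorem le_iff (h : Trans σ H H') (h₂ : Trans σ H₂ H₂') : H ≤ H₂ ↔ H' ≤ H₂' := by
  constructor
  · intro hl x y hxy
    obtain ⟨x, rfl⟩ := σ.surjective x
    obtain ⟨y, rfl⟩ := σ.surjective y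
    exact (h₂ x y).1 (hl ((h x y).2 hxy))
  · intro hl x y hxy
    exact (h₂ x y).2 (hl ((h x y).1 hxy))

theorem mem_edgeSet (h : Trans σ H H') {e : Sym2 V} :
    Sym2.map σ e ∈ H'.edgeSet ↔ e ∈ H.edgeSet := by
  induction e with
  | _ a b => exact (h a b).symm

theorem sep (h : Trans σ H H') (h₂ : Trans σ H₂ H₂') {A L : Set V'} :
    Sep H H₂ (σ ⁻¹' A) (σ ⁻¹' L) ↔ Sep H' H₂' A L := by
  constructor
  · rintro ⟨h1, h2, h3⟩
    refine ⟨(h₂.le_iff h).1 h1, fun x hx => ?_, fun a b hab hb hb' => ?_⟩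
    · obtain ⟨x, rfl⟩ := σ.surjective x
      exact h2 hx
    · obtain ⟨a, rfl⟩ := σ.surjective a
      obtain ⟨b, rfl⟩ := σ.surjective b
      obtain ⟨h4, h5⟩ := h3 a b ((h a b).2 hab) hb hb'
      exact ⟨(h₂ a b).1 h4, h5⟩
  · rintro ⟨h1, h2, h3⟩
    refine ⟨(h₂.le_iff h).2 h1, fun x hx => h2 hx, fun a b hab hb hb' => ?_⟩
    obtain ⟨h4, h5⟩ := h3 _ _ ((h a b).1 hab) hb hb'
    exact ⟨(h₂ a b).2 h4, h5⟩

end Trans

/-! ### coalescence, ties -/

theorem coal_map (σ : V ≃ V') {v w : ℕ → V} :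
    Coal (fun k => σ (v k)) (fun k => σ (w k)) ↔ Coal v w := by
  unfold Coal
  simp

theorem sum_pull (σ : V ≃ V') (t : Sym2 V' → ℝ) (A : Finset (Sym2 V)) :
    ∑ e ∈ A, pull σ t e = ∑ e ∈ A.map ⟨Sym2.map σ, Sym2.map.injective σ.injective⟩, t e := by
  rw [Finset.sum_map]
  rfl

theorem NoTies.pull (h : NoTies t) (σ : V ≃ V') : NoTies (pull σ t) := by
  intro A B hAB
  rw [sum_pull, sum_pull] at hAB
  exact Finset.map_injective _ (h _ _ hAB)

theorem noTies_pull : NoTies (pull σ t) ↔ NoTies t := by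
  refine ⟨fun h => ?_, fun h => NoTies.pull h σ⟩
  have := NoTies.pull h σ.symm
  rwa [pull_symm_pull] at this

end Crest.Agent.R151.RFL
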