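import Crest.Agent.R151.RFL890B
import Crest.Agent.R151.L763f
import Crest.Agent.R151.L763s
import Crest.Agent.R151.H617f

/-!
# R151/RFL890C — the lower label functions (owner helper890)

The lower family of the half plane `Lk k = {y ≤ k}` is the upper family (763's `fl`, `FH`) of the
reflected environment: with `τ` replaced by `-τ` (far point `(-τ N, -N)`)

* `flD f0 τ k t x = fl f0 (-τ) (-k) (N.refl t) x`  (row `k`),
* `FHD f0 τ k t z = FH f0 (-τ) (-k) (N.refl t) (z.1, -z.2)`,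
* `GoodD f0 m1 τ Ns t = Good f0 m1 (-τ) Ns (N.refl t)`.

Every statement of L763e/f is stated here for `{y ≤ k}`.
-/

set_option autoImplicit false

open MeasureTheory Filter Topology
open Crest.ProbabilityR.FirstPassage

namespace Crest.Agent.R151.RFL

open Crest.Agent.R151 Crest.Agent.R151.LIN
open Crest.Agent.R151.K (act sw ng tr mp_act pR Conn edgesIn Nn pR_symm)

/-- the lower half plane `{y ≤ k}` -/
def Lk (k : ℤ) : Set (ℤ × ℤ) := {z | z.2 ≤ k}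

theorem mem_Lk {k : ℤ} {z : ℤ × ℤ} : z ∈ Lk k ↔ z.2 ≤ k := Iff.rfl

theorem mir_Hk (k : ℤ) : Mir ry (Hk (-k)) (Lk k) := mir_up' k

theorem mir_Lk (k : ℤ) : Mir ry (Lk (-k)) (Hk k) := mir_dn' k

theorem mir_Sp (a b : ℤ) : Mir ry (Sp (-b) (-a)) (Sp a b) := fun z => by
  simp only [mem_Sp, ry_apply]
  omega

theorem ry_mem_Hk {k : ℤ} {z : ℤ × ℤ} (hz : z ∈ Lk k) : ((z.1, -z.2) : ℤ × ℤ) ∈ Hk (-k) := by
  rw [mem_Lk] at hz
  rw [mem_Hk]
  simpa using hz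

/-- lower label function on row `k` -/
noncomputable def flD (f0 : ℝ → Environment → ℤ → ℝ) (τ : ℝ) (k : ℤ) (t : Environment)
    (x : ℤ) : ℝ := fl f0 (-τ) (-k) (N.refl t) x

/-- lower half-plane function of `{y ≤ k}` -/
noncomputable def FHD (f0 : ℝ → Environment → ℤ → ℝ) (τ : ℝ) (k : ℤ) (t : Environment)
    (z : ℤ × ℤ) : ℝ := FH f0 (-τ) (-k) (N.refl t) (z.1, -z.2)

/-- good environments for the lower family -/
def GoodD (f0 : ℝ → Environment → ℤ → ℝ) (m1 τ : ℝ) (Ns : ℕ → ℕ) (t : Environment) : Prop :=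
  Good f0 m1 (-τ) Ns (N.refl t)

theorem flD_refl (f0 : ℝ → Environment → ℤ → ℝ) (τ : ℝ) (k : ℤ) (t : Environment) (x : ℤ) :
    flD f0 τ k (N.refl t) x = fl f0 (-τ) (-k) t x := by
  unfold flD
  rw [N.refl_refl]

theorem FHD_refl (f0 : ℝ → Environment → ℤ → ℝ) (τ : ℝ) (k : ℤ) (t : Environment) (z : ℤ × ℤ) :
    FHD f0 τ k (N.refl t) z = FH f0 (-τ) (-k) t (z.1, -z.2) := by
  unfold FHD
  rw [N.refl_refl]

theorem flD_zero (f0 : ℝ → Environment → ℤ → ℝ) (τ : ℝ) (k : ℤ) (t : Environment) :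
    flD f0 τ k t 0 = 0 := fl_zero _ _ _

section good

variable {m1 : ℝ} {f0 : ℝ → Environment → ℤ → ℝ} {τ : ℝ} {Ns : ℕ → ℕ} {t : Environment}
  {k j : ℤ} {z z' : ℤ × ℤ}

theorem GoodD.nn (h : GoodD f0 m1 τ Ns t) : Nn t := nn_refl.1 (Good.nn h)

theorem FHD_base : FHD f0 τ k t (0, k) = 0 := FH_base

theorem GoodD.FHD_row (h : GoodD f0 m1 τ Ns t) (x : ℤ) : FHD f0 τ k t (x, k) = flD f0 τ k t x :=
  Good.FH_row h x

/-- limits of strip differences with the far points `(⌊-τ N⌋, -N)` -/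
theorem GoodD.lim_sub (h : GoodD f0 m1 τ Ns t) (hz : z ∈ Lk k) (hz' : z' ∈ Lk k) :
    Tendsto (fun i => pR t (Sp (-(Ns i : ℤ)) k) z (⌊-τ * ((Ns i : ℤ) : ℝ)⌋, -(Ns i : ℤ)) -
      pR t (Sp (-(Ns i : ℤ)) k) z' (⌊-τ * ((Ns i : ℤ) : ℝ)⌋, -(Ns i : ℤ))) atTop
      (𝓝 (FHD f0 τ k t z - FHD f0 τ k t z')) := by
  refine (Good.lim_sub h (ry_mem_Hk hz) (ry_mem_Hk hz')).congr fun i => ?_
  have hm : Mir ry (Sp (-k) (Ns i)) (Sp (-(Ns i : ℤ)) k) := by
    have := mir_Sp (-(Ns i : ℤ)) k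
    rwa [neg_neg] at this
  rw [pR_refl hm, pR_refl hm]
  simp [bt]

theorem GoodD.FHD_sub_le (h : GoodD f0 m1 τ Ns t) (hz : z ∈ Lk k) (hz' : z' ∈ Lk k) :
    FHD f0 τ k t z - FHD f0 τ k t z' ≤ pR t (Lk k) z z' := by
  rw [pR_refl (mir_Hk k)]
  exact Good.FH_sub_le h (ry_mem_Hk hz) (ry_mem_Hk hz')

theorem GoodD.abs_FHD_sub_le (h : GoodD f0 m1 τ Ns t) (hz : z ∈ Lk k) (hz' : z' ∈ Lk k) :
    |FHD f0 τ k t z - FHD f0 τ k t z'| ≤ pR t (Lk k) z z' := by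
  rw [pR_refl (mir_Hk k)]
  exact Good.abs_FH_sub_le h (ry_mem_Hk hz) (ry_mem_Hk hz')

/-- Hopf–Lax for lower half planes, from row `k` to the lower row `j ≤ k` -/
theorem GoodD.hopfLax (h : GoodD f0 m1 τ Ns t) (hjk : j ≤ k) : ∃ κ : ℝ, ∀ z ∈ Lk k, j ≤ z.2 →
    (∀ q : ℤ, FHD f0 τ k t z ≤ κ + pR t (Lk k) z (q, j) + FHD f0 τ j t (q, j)) ∧
      ∃ q : ℤ, FHD f0 τ k t z = κ + pR t (Lk k) z (q, j) + FHD f0 τ j t (q, j) := by
  obtain ⟨κ, hκ⟩ := Good.hopfLax h (k := -k) (j := -j) (by omega)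
  refine ⟨κ, fun z hz hzj => ?_⟩
  obtain ⟨h1, q, h2⟩ := hκ (z.1, -z.2) (ry_mem_Hk hz) (by simpa using hzj)
  refine ⟨fun q => ?_, q, ?_⟩
  · have := h1 q
    rw [pR_refl (mir_Hk k)]
    exact this
  · rw [pR_refl (mir_Hk k)]
    exact h2

theorem GoodD.exists_grad (h : GoodD f0 m1 τ Ns t) (hjk : j ≤ k) (hz : z ∈ Lk k) (hzj : j ≤ z.2) :
    ∃ q : ℤ, FHD f0 τ k t z = pR t (Lk k) z (q, j) + FHD f0 τ k t (q, j) := by
  obtain ⟨q, hq⟩ := Good.exists_grad h (k := -k) (j := -j) (z := (z.1, -z.2)) (by omega)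
    (ry_mem_Hk hz) (by simpa using hzj)
  refine ⟨q, ?_⟩
  rw [pR_refl (mir_Hk k)]
  exact hq

theorem GoodD.isLip (h : GoodD f0 m1 τ Ns t) (k : ℤ) :
    Y.IsLip t (reg (Lk k)) (FHD f0 τ k t) := by
  rw [isLip_refl (mir_Hk k)]
  intro x y hxy
  have := Good.isLip h (-k) x y hxy
  unfold FHD
  simpa using this

theorem GoodD.hasGrad (h : GoodD f0 m1 τ Ns t)
    (hgeo : ∀ x y, (reg (Lk k)).Reachable x y → ∃ w : (reg (Lk k)).Walk x y, IsGeo t w) :
    Y.HasGrad t (reg (Lk k)) (FHD f0 τ k t) (Lk k) := by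
  have hm := mir_Hk k
  have h1 : Y.HasGrad (N.refl t) (reg (Hk (-k))) (FH f0 (-τ) (-k) (N.refl t)) (Hk (-k)) := by
    refine Good.hasGrad h fun x y hxy => ?_
    obtain ⟨w, hw⟩ := hgeo _ _ (hm.reachable.1 hxy)
    obtain ⟨w', rfl⟩ := hm.trans.exists_map w
    exact ⟨w', (hm.trans.isGeo w').2 hw⟩
  rw [← hm.hasGrad hm]
  refine cast ?_ h1
  congr 1
  funext x
  simp [FHD]

end good

/-! ### almost sure statements -/

section ae

variable {G : Measure ℝ} [IsProbabilityMeasure G] {D : Set ℝ} {cc : ℝ → ℝ} {m1 : ℝ}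
  {f0 : ℝ → Environment → ℤ → ℝ} {τ τ' : ℝ}

theorem ae_goodD (L : LineFns G D cc m1 f0) (h0 : G (Set.Iio 0) = 0) (hz : G {0} = 0)
    (hm : 0 < m1) (hB : W.BlockRare G m1) (hτ : -τ ∈ D) :
    ∃ Ns : ℕ → ℕ, ∀ᵐ t ∂(iidLaw G), GoodD f0 m1 τ Ns t := by
  obtain ⟨Ns, h⟩ := ae_good L h0 hz hm hB hτ
  exact ⟨Ns, ae_refl_of h⟩

/-- covariance of the lower label functions of all rows under all shifts -/
theorem flD_cov (L : LineFns G D cc m1 f0) (hτ : -τ ∈ D) :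
    ∀ᵐ t ∂(iidLaw G), ∀ (a : ℤ × ℤ) (k x : ℤ),
      flD f0 τ k (A.shift a t) x =
        flD f0 τ (k + a.2) t (x + a.1) - flD f0 τ (k + a.2) t a.1 := by
  filter_upwards [ae_refl_of (L.cov hτ)] with t ht a k x
  have h1 := ht (a.1, -a.2) (-k) x
  have h2 : N.refl (A.shift a t) = A.shift (a.1, -a.2) (N.refl t) := by
    rw [shift_refl]; simp
  unfold flD
  rw [h2, h1, neg_add]

/-- the lower label functions are decreasing in the direction: with `τ ≤ τ'` the increments of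
`τ'` are LARGER (far points `(-τ N, -N)`) -/
theorem flD_mono (L : LineFns G D cc m1 f0) (h0 : G (Set.Iio 0) = 0) (hτ : -τ ∈ D)
    (hτ' : -τ' ∈ D) (hle : τ ≤ τ') : ∀ᵐ t ∂(iidLaw G), ∀ k x y : ℤ, x ≤ y →
      flD f0 τ k t y - flD f0 τ k t x ≤ flD f0 τ' k t y - flD f0 τ' k t x := by
  filter_upwards [ae_refl_of (L.fl_mono h0 hτ' hτ (neg_le_neg hle))] with t ht k x y hxy
  exact ht (-k) x y hxy

theorem flD_slopes (L : LineFns G D cc m1 f0) (hτ : -τ ∈ D) :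
    ∀ᵐ t ∂(iidLaw G), ∀ k : ℤ,
      Tendsto (fun x : ℕ => flD f0 τ k t x / x) atTop (𝓝 (-cc (-τ))) ∧
      Tendsto (fun x : ℕ => flD f0 τ k t (-x) / x) atTop (𝓝 (cc (-τ))) := by
  filter_upwards [ae_refl_of (L.slopes hτ)] with t ht k
  exact ht (-k)

theorem flD_meas (M : LineMeas f0) (τ : ℝ) (k x : ℤ) : Measurable fun t => flD f0 τ k t x :=
  (M.fl_meas (-τ) (-k) x).comp N.measurable_refl

theorem FHD_meas (M : LineMeas f0) (τ : ℝ) (k : ℤ) (z : ℤ × ℤ) :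
    Measurable fun t => FHD f0 τ k t z :=
  (M.FH_meas (-τ) (-k) (z.1, -z.2)).comp N.measurable_refl

theorem refl_agree {k : ℤ} {t t' : Environment} (h : ∀ e ∈ edgesIn (Lk k), t e = t' e) :
    ∀ e ∈ edgesIn (Hk (-k)), N.refl t e = N.refl t' e := by
  intro e he
  exact h _ ((mir_Hk k).mem_edgesIn.2 he)

theorem flD_dep (M : LineMeas f0) (τ : ℝ) (k : ℤ) {t t' : Environment}
    (h : ∀ e ∈ edgesIn (Lk k), t e = t' e) : flD f0 τ k t = flD f0 τ k t' :=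
  M.fl_dep (-τ) (-k) (refl_agree h)

theorem FHD_dep (M : LineMeas f0) (τ : ℝ) (k : ℤ) {t t' : Environment}
    (h : ∀ e ∈ edgesIn (Lk k), t e = t' e) : FHD f0 τ k t = FHD f0 τ k t' := by
  unfold FHD
  rw [M.FH_dep (-τ) (-k) (refl_agree h)]

end ae

/-! ### 617's families -/

section families

variable {G : Measure ℝ} [IsProbabilityMeasure G] {D : Set ℝ}

open Crest.Agent.R151.H

/-- reflected family: decreasing becomes increasing -/
theorem MeanFam.low {f : ℝ → Environment → ℤ → ℝ} {c : ℝ} (H : MeanFam (iidLaw G) D f c (-1)) :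
    MeanFam (iidLaw G) {p | -p ∈ D} (fun p t => f (-p) (N.refl t)) c 1 where
  sign := Or.inl rfl
  meas p hp x := (H.meas (-p) hp x).comp N.measurable_refl
  int p hp x := integrable_refl.2 (H.int (-p) hp x)
  mean p hp x := by
    have h1 := H.mean (-p) hp x
    have h2 := integral_refl (G := G) fun t => inc (f (-p) t) x
    rw [h2, h1]
    ring
  mono p hp q hq hpq := by
    filter_upwards [ae_refl_of (H.mono (-q) hq (-p) hp (neg_lt_neg hpq))] with t ht x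
    have := ht x
    linarith

/-- dependence on the edges of a lower half plane -/
theorem dependsOn_low {α : Type*} {F : Environment → α} {k : ℤ}
    (hF : DependsOn F (edgesIn (Hk (-k)))) :
    DependsOn (fun t => F (N.refl t)) (edgesIn (Lk k)) :=
  (mir_Hk k).dependsOn hF

end families

end Crest.Agent.R151.RFL
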