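import Crest.Agent.R151.Y96B

/-!
# R151, block G (helper96): the abstract mass argument

`Sys` : a countable family of labels (selected bigeodesics), stationary under `ℤ × ℤ`, with
slopes, places on every level and increments on every level.
`Sys.same_inc` : almost surely the increments of a label and of its successor agree.
-/

set_option autoImplicit false

open MeasureTheory Filter Topology
open scoped ENNReal

namespace Crest.Agent.R151.Y96

/-- The abstract system of labels. `pres ω i`: the label `i = (x, k)` (number `x` of level `k`) is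
present; `slope`: its slope; `loc k`: its place on the level `k`; `inc k ω i e`: the increment of
its function over the edge `e` of the level `k`; `TT k ω e`: the passage time of that edge;
`succ ω x`: the successor of the label `(x, 0)`. -/
structure Sys (Ω : Type*) [MeasurableSpace Ω] (P : Measure Ω) where
  τ : ℤ × ℤ → Ω → Ω
  τz : ∀ ω, τ 0 ω = ω
  τadd : ∀ a b ω, τ a (τ b ω) = τ (a + b) ω
  mp : ∀ a, MeasurePreserving (τ a) P P
  pres : Ω → ℤ × ℤ → Prop
  slope : Ω → ℤ × ℤ → ℝ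
  loc : ℤ → Ω → ℤ × ℤ → ℤ
  inc : ℤ → Ω → ℤ × ℤ → ℤ → ℝ
  TT : ℤ → Ω → ℤ → ℝ
  succ : Ω → ℤ → ℤ
  pres_meas : ∀ i, MeasurableSet {ω | pres ω i}
  slope_meas : ∀ i, Measurable fun ω => slope ω i
  loc_meas : ∀ k i, Measurable fun ω => loc k ω i
  inc_meas : ∀ k i e, Measurable fun ω => inc k ω i e
  TT_meas : ∀ k e, Measurable fun ω => TT k ω e
  succ_meas : ∀ x, Measurable fun ω => succ ω x
  pres_cov : ∀ a ω i, pres (τ a ω) i ↔ pres ω (i + a)
  slope_cov : ∀ a ω i, slope (τ a ω) i = slope ω (i + a)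
  loc_cov : ∀ a k ω i, loc k (τ a ω) i = loc (k + a.2) ω (i + a) - a.1
  inc_cov : ∀ a k ω i e, inc k (τ a ω) i e = inc (k + a.2) ω (i + a) (e + a.1)
  TT_cov : ∀ a k ω e, TT k (τ a ω) e = TT (k + a.2) ω (e + a.1)
  succ_cov : ∀ (a : ℤ) ω x, succ (τ (a, 0) ω) x = succ ω (x + a) - a
  TT_fin : ∫⁻ ω, ENNReal.ofReal (TT 0 ω 0) ∂P ≠ ∞
  /-- (o1) -/
  inc_le : ∀ᵐ ω ∂P, ∀ k i e, pres ω i → |inc k ω i e| ≤ TT k ω e
  /-- (o2) -/
  slope_lt : ∀ᵐ ω ∂P, ∀ k i j, pres ω i → pres ω j → slope ω i < slope ω j →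
    ∀ e, inc k ω j e ≤ inc k ω i e
  /-- (o3) -/
  loc_lt : ∀ᵐ ω ∂P, ∀ k i₀ j₀ e₀, pres ω i₀ → pres ω j₀ → slope ω i₀ = slope ω j₀ →
    inc k ω i₀ e₀ ≠ inc k ω j₀ e₀ → ∀ i j, pres ω i → pres ω j → slope ω i = slope ω i₀ →
    slope ω j = slope ω i₀ → loc k ω i < loc k ω j → ∀ e, inc k ω j e ≤ inc k ω i e
  /-- (o5) -/
  osc : ∀ᵐ ω ∂P, ∀ i j, pres ω i → pres ω j → slope ω i = slope ω j →
    (∀ e, inc 0 ω j e ≤ inc 0 ω i e) → ∀ n : ℕ,
    ∑' e, ENNReal.ofReal (inc 0 ω i e - inc 0 ω j e) ≤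
      ∑' e, ENNReal.ofReal (inc (-n) ω i e - inc (-n) ω j e)
  /-- (o7): the order of the labels does not depend on the level -/
  order : ∀ᵐ ω ∂P, ∀ i j, pres ω i → pres ω j → slope ω i = slope ω j →
    (∀ e, inc 0 ω j e ≤ inc 0 ω i e) → ∀ (n : ℕ) e, inc (-n) ω j e ≤ inc (-n) ω i e
  /-- (o6) -/
  coal : ∀ᵐ ω ∂P, ∀ i₀ j₀ e₀, pres ω i₀ → pres ω j₀ → slope ω i₀ = slope ω j₀ →
    inc 0 ω i₀ e₀ ≠ inc 0 ω j₀ e₀ → ∀ i j, pres ω i → pres ω j → slope ω i = slope ω i₀ →
    slope ω j = slope ω i₀ → ∀ᶠ n : ℕ in atTop, loc (-n) ω i = loc (-n) ω j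
  succ_pres : ∀ᵐ ω ∂P, ∀ x, pres ω (x, 0) → pres ω (succ ω x, 0)
  succ_inj : ∀ᵐ ω ∂P, ∀ x y, pres ω (x, 0) → pres ω (y, 0) → succ ω x = succ ω y → x = y
  succ_slope : ∀ᵐ ω ∂P, ∀ x, pres ω (x, 0) → slope ω (succ ω x, 0) = slope ω (x, 0)
  succ_le : ∀ᵐ ω ∂P, ∀ x, pres ω (x, 0) → ∀ e, inc 0 ω (succ ω x, 0) e ≤ inc 0 ω (x, 0) e
  succ_next : ∀ᵐ ω ∂P, ∀ x y, pres ω (x, 0) → pres ω (y, 0) → x ≠ y →
    slope ω (x, 0) = slope ω (y, 0) →
    (∀ e, inc 0 ω (y, 0) e ≤ inc 0 ω (succ ω x, 0) e) ∨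
      (∀ e, inc 0 ω (x, 0) e ≤ inc 0 ω (succ ω y, 0) e)

namespace Sys

variable {Ω : Type*} [MeasurableSpace Ω] {P : Measure Ω} (S : Sys Ω P)

/-- the set of the increments between two labels of the same slope at the place `z` -/
def A (k : ℤ) (ω : Ω) (z e : ℤ) : Set ℝ :=
  {r | ∃ i j, S.pres ω i ∧ S.pres ω j ∧ S.loc k ω i = z ∧ S.loc k ω j = z ∧
    S.slope ω i = S.slope ω j ∧ S.inc k ω i e < r ∧ r < S.inc k ω j e}

/-- the mass which the edge `e` sends to the place `z` -/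
noncomputable def mm (k : ℤ) (ω : Ω) (z e : ℤ) : ℝ≥0∞ := volume (S.A k ω z e)

/-- the mass at the place `z` -/
noncomputable def MM (k : ℤ) (ω : Ω) (z : ℤ) : ℝ≥0∞ := ∑' e, S.mm k ω z e

theorem isOpen_A (k : ℤ) (ω : Ω) (z e : ℤ) : IsOpen (S.A k ω z e) := by
  have : S.A k ω z e = ⋃ i, ⋃ j, ⋃ (_ : S.pres ω i ∧ S.pres ω j ∧ S.loc k ω i = z ∧
      S.loc k ω j = z ∧ S.slope ω i = S.slope ω j), Set.Ioo (S.inc k ω i e) (S.inc k ω j e) := by
    ext r
    simp only [A, Set.mem_ofPred_eq, Set.mem_iUnion, Set.mem_Ioo, exists_prop]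
    constructor
    · rintro ⟨i, j, h1, h2, h3, h4, h5, h6, h7⟩
      exact ⟨i, j, ⟨h1, h2, h3, h4, h5⟩, h6, h7⟩
    · rintro ⟨i, j, ⟨h1, h2, h3, h4, h5⟩, h6, h7⟩
      exact ⟨i, j, h1, h2, h3, h4, h5, h6, h7⟩
  rw [this]
  exact isOpen_iUnion fun i => isOpen_iUnion fun j => isOpen_iUnion fun _ => isOpen_Ioo

theorem measurable_mm (k z e : ℤ) : Measurable fun ω => S.mm k ω z e := by
  have hset : MeasurableSet {p : Ω × ℝ | p.2 ∈ S.A k p.1 z e} := by
    have : {p : Ω × ℝ | p.2 ∈ S.A k p.1 z e} = ⋃ i, ⋃ j,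
        ((Prod.fst ⁻¹' ({ω | S.pres ω i} ∩ {ω | S.pres ω j} ∩ {ω | S.loc k ω i = z} ∩
          {ω | S.loc k ω j = z} ∩ {ω | S.slope ω i = S.slope ω j})) ∩
          ({p | S.inc k p.1 i e < p.2} ∩ {p | p.2 < S.inc k p.1 j e})) := by
      ext p
      simp only [A, Set.mem_ofPred_eq, Set.mem_iUnion, Set.mem_inter_iff, Set.mem_preimage]
      constructor
      · rintro ⟨i, j, h1, h2, h3, h4, h5, h6, h7⟩
        exact ⟨i, j, ⟨⟨⟨⟨h1, h2⟩, h3⟩, h4⟩, h5⟩, h6, h7⟩
      · rintro ⟨i, j, ⟨⟨⟨⟨h1, h2⟩, h3⟩, h4⟩, h5⟩, h6, h7⟩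
        exact ⟨i, j, h1, h2, h3, h4, h5, h6, h7⟩
    rw [this]
    refine MeasurableSet.iUnion fun i => MeasurableSet.iUnion fun j => ?_
    refine MeasurableSet.inter (measurable_fst ?_) (MeasurableSet.inter ?_ ?_)
    · refine ((((S.pres_meas i).inter (S.pres_meas j)).inter
        (S.loc_meas k i (measurableSet_singleton z))).inter
        (S.loc_meas k j (measurableSet_singleton z))).inter ?_
      exact measurableSet_eq_fun (S.slope_meas i) (S.slope_meas j)
    · exact measurableSet_lt ((S.inc_meas k i e).comp measurable_fst) measurable_snd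
    · exact measurableSet_lt measurable_snd ((S.inc_meas k j e).comp measurable_fst)
  exact measurable_measure_prodMk_left (ν := (volume : Measure ℝ)) hset

theorem measurable_MM (k z : ℤ) : Measurable fun ω => S.MM k ω z :=
  Measurable.tsum fun e => S.measurable_mm k z e

theorem A_cov (a : ℤ × ℤ) (k : ℤ) (ω : Ω) (z e : ℤ) :
    S.A k (S.τ a ω) z e = S.A (k + a.2) ω (z + a.1) (e + a.1) := by
  ext r
  simp only [A, Set.mem_ofPred_eq, S.pres_cov, S.loc_cov, S.slope_cov, S.inc_cov,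
    sub_eq_iff_eq_add]
  constructor
  · rintro ⟨i, j, h⟩
    exact ⟨i + a, j + a, h⟩
  · rintro ⟨i, j, h⟩
    refine ⟨i - a, j - a, ?_⟩
    simpa using h

theorem mm_cov (a : ℤ × ℤ) (k : ℤ) (ω : Ω) (z e : ℤ) :
    S.mm k (S.τ a ω) z e = S.mm (k + a.2) ω (z + a.1) (e + a.1) := by
  rw [mm, A_cov, ← mm]

theorem MM_cov (a : ℤ × ℤ) (k : ℤ) (ω : Ω) (z : ℤ) :
    S.MM k (S.τ a ω) z = S.MM (k + a.2) ω (z + a.1) := by
  unfold MM
  simp only [mm_cov]
  exact (Equiv.addRight a.1).tsum_eq fun e => S.mm (k + a.2) ω (z + a.1) e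

/-- The masses sent by one edge to different places are carried by disjoint sets. -/
theorem disjoint_A : ∀ᵐ ω ∂P, ∀ k z z' e, z ≠ z' → Disjoint (S.A k ω z e) (S.A k ω z' e) := by
  filter_upwards [S.slope_lt, S.loc_lt] with ω h2 h3 k z z' e hz
  rw [Set.disjoint_left]
  rintro r ⟨i, j, hi, hj, hiz, hjz, hs, h1r, hr1⟩ ⟨i', j', hi', hj', hiz', hjz', hs', h2r, hr2⟩
  rcases lt_trichotomy (S.slope ω i) (S.slope ω i') with hlt | heq | hgt
  · -- the primed increments are smaller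
    have h := h2 k i j' hi hj' (by rwa [← hs']) e
    linarith
  · have hne : S.inc k ω i e ≠ S.inc k ω j e := by
      intro h; linarith
    rcases lt_or_gt_of_ne hz with hlt | hgt
    · have h := h3 k i j e hi hj hs hne i j' hi hj' rfl (by rw [← hs', heq])
        (by rw [hiz, hjz']; exact hlt) e
      linarith
    · have h := h3 k i j e hi hj hs hne i' j hi' hj heq.symm hs.symm
        (by rw [hiz', hjz]; exact hgt) e
      linarith
  · have h := h2 k i' j hi' hj (by rwa [← hs]) e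
    linarith

theorem tsum_mm_le : ∀ᵐ ω ∂P, ∀ k e, ∑' z, S.mm k ω z e ≤ ENNReal.ofReal (2 * S.TT k ω e) := by
  filter_upwards [S.disjoint_A, S.inc_le] with ω hd hle k e
  have h1 : ∑' z, S.mm k ω z e = volume (⋃ z, S.A k ω z e) := by
    rw [measure_iUnion]
    · rfl
    · intro z z' hz
      exact hd k z z' e hz
    · intro z
      exact (S.isOpen_A k ω z e).measurableSet
  rw [h1]
  have h2 : (⋃ z, S.A k ω z e) ⊆ Set.Ioo (-S.TT k ω e) (S.TT k ω e) := by
    intro r hr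
    rw [Set.mem_iUnion] at hr
    obtain ⟨z, i, j, hi, hj, -, -, -, h1, h2⟩ := hr
    have a1 := abs_le.1 (hle k i e hi)
    have a2 := abs_le.1 (hle k j e hj)
    exact ⟨by linarith, by linarith⟩
  refine (measure_mono h2).trans ?_
  rw [Real.volume_Ioo]
  refine ENNReal.ofReal_le_ofReal ?_
  linarith

theorem lintegral_MM : ∫⁻ ω, S.MM 0 ω 0 ∂P ≠ ∞ := by
  have h := mtp (P := P) (fun a : ℤ => S.τ (a, 0)) (fun a => S.mp _) (fun ω x y => S.mm 0 ω x y)
    (fun x y => S.measurable_mm 0 x y) (fun a ω x y => by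
      have := S.mm_cov (a, 0) 0 ω x y
      simpa using this)
  unfold MM
  rw [h]
  refine ne_top_of_le_ne_top ?_ (lintegral_mono_ae (g := fun ω =>
    ENNReal.ofReal (2 * S.TT 0 ω 0)) ?_)
  · have : ∀ ω, ENNReal.ofReal (2 * S.TT 0 ω 0) = 2 * ENNReal.ofReal (S.TT 0 ω 0) := by
      intro ω
      rw [ENNReal.ofReal_mul (by norm_num)]
      simp
    simp only [this]
    rw [lintegral_const_mul _ (S.TT_meas 0 0).ennreal_ofReal]
    exact ENNReal.mul_ne_top (by simp) S.TT_fin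
  · filter_upwards [S.tsum_mm_le] with ω hω
    exact hω 0 0

/-- the mass between a label of level `0` and its successor -/
noncomputable def M (ω : Ω) (x : ℤ) : ℝ≥0∞ :=
  open Classical in
  if S.pres ω (x, 0) then ∑' e, ENNReal.ofReal (S.inc 0 ω (x, 0) e - S.inc 0 ω (S.succ ω x, 0) e)
  else 0

theorem measurable_inc_succ (x e : ℤ) : Measurable fun ω => S.inc 0 ω (S.succ ω x, 0) e := by
  have : Measurable fun p : Ω × ℤ => S.inc 0 p.1 (p.2, 0) e :=
    measurable_from_prod_countable_left fun y => S.inc_meas 0 (y, 0) e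
  exact this.comp (measurable_id.prodMk (S.succ_meas x))

theorem measurable_M (x : ℤ) : Measurable fun ω => S.M ω x := by
  unfold M
  refine Measurable.ite (S.pres_meas _) (Measurable.tsum fun e => ?_) measurable_const
  exact ((S.inc_meas 0 (x, 0) e).sub (S.measurable_inc_succ x e)).ennreal_ofReal

theorem M_cov (a : ℤ) (ω : Ω) (x : ℤ) : S.M (S.τ (a, 0) ω) x = S.M ω (x + a) := by
  unfold M
  have h1 : S.pres (S.τ (a, 0) ω) (x, 0) ↔ S.pres ω (x + a, 0) := by
    rw [S.pres_cov]; simp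
  by_cases hp : S.pres ω (x + a, 0)
  · rw [if_pos hp, if_pos (h1.2 hp), ← (Equiv.addRight a).tsum_eq fun e => ENNReal.ofReal
      (S.inc 0 ω (x + a, 0) e - S.inc 0 ω (S.succ ω (x + a), 0) e)]
    refine tsum_congr fun e => ?_
    rw [S.inc_cov, S.inc_cov, S.succ_cov]
    simp
  · rw [if_neg hp, if_neg fun h => hp (h1.1 h)]

theorem M_ne_zero {ω : Ω} {x : ℤ} (h : S.M ω x ≠ 0) : S.pres ω (x, 0) ∧
    ∃ e, S.inc 0 ω (S.succ ω x, 0) e < S.inc 0 ω (x, 0) e := by
  unfold M at h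
  split_ifs at h with hp
  · refine ⟨hp, ?_⟩
    by_contra hcon
    push Not at hcon
    apply h
    rw [ENNReal.tsum_eq_zero]
    intro e
    rw [ENNReal.ofReal_eq_zero]
    linarith [hcon e]
  · exact absurd rfl h

/-- telescoping sums of nonincreasing sequences -/
theorem ofReal_telescope {a : ℕ → ℝ} (ha : ∀ j, a (j + 1) ≤ a j) (J : ℕ) :
    ∑ j ∈ Finset.range J, ENNReal.ofReal (a j - a (j + 1)) = ENNReal.ofReal (a 0 - a J) := by
  induction J with
  | zero => simp
  | succ J ih =>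
    have hanti : a J ≤ a 0 := antitone_nat_of_succ_le ha (Nat.zero_le J)
    rw [Finset.sum_range_succ, ih, ← ENNReal.ofReal_add (by linarith) (by linarith [ha J])]
    congr 1
    ring

/-- The masses between labels at the place `z` of the level `-n` and their successors. -/
theorem tsum_M_le : ∀ᵐ ω ∂P, ∀ (n : ℕ) (z : ℤ), ∑' x : ℤ, (open Classical in
    if (S.pres ω (x, 0) ∧ S.loc (-n) ω (x, 0) = S.loc (-n) ω (S.succ ω x, 0)) ∧
      S.loc (-n) ω (x, 0) = z then S.M ω x else 0) ≤ S.MM (-n) ω z := by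
  classical
  filter_upwards [S.slope_lt, S.osc, S.order, S.succ_pres, S.succ_slope, S.succ_le, S.succ_next]
    with ω hslt hosc hord hpres hsl hle hnext n z
  let good : ℤ → Prop := fun x =>
    (S.pres ω (x, 0) ∧ S.loc (-n) ω (x, 0) = S.loc (-n) ω (S.succ ω x, 0)) ∧
      S.loc (-n) ω (x, 0) = z
  let I : ℤ → ℤ → Set ℝ := fun e x => if good x then
    Set.Ioo (S.inc (-n) ω (S.succ ω x, 0) e) (S.inc (-n) ω (x, 0) e) else ∅
  have hstep : ∀ x, (if good x then S.M ω x else 0) ≤ ∑' e, volume (I e x) := by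
    intro x
    by_cases hx : good x
    · rw [if_pos hx]
      have hp := hx.1.1
      unfold M
      rw [if_pos hp]
      refine (hosc (x, 0) (S.succ ω x, 0) hp (hpres x hp) (hsl x hp).symm (hle x hp) n).trans ?_
      refine le_of_eq (tsum_congr fun e => ?_)
      simp only [I, if_pos hx, Real.volume_Ioo]
    · rw [if_neg hx]
      exact zero_le
  refine (ENNReal.tsum_le_tsum hstep).trans ?_
  rw [ENNReal.tsum_comm]
  unfold MM
  refine ENNReal.tsum_le_tsum fun e => ?_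
  have hdisj : Pairwise (Function.onFun Disjoint (I e)) := by
    intro x y hxy
    simp only [Function.onFun]
    by_cases hx : good x
    swap
    · simp only [I, if_neg hx]; exact Set.empty_disjoint _
    by_cases hy : good y
    swap
    · simp only [I, if_neg hy]; exact Set.disjoint_empty _
    simp only [I, if_pos hx, if_pos hy]
    have hpx := hx.1.1
    have hpy := hy.1.1
    have hsx := hpres x hpx
    have hsy := hpres y hpy
    rw [Set.disjoint_left]
    rintro r ⟨h1, h2⟩ ⟨h3, h4⟩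
    rcases lt_trichotomy (S.slope ω (x, 0)) (S.slope ω (y, 0)) with hlt | heq | hgt
    · have h := hslt (-n) (S.succ ω x, 0) (y, 0) hsx hpy (by rwa [hsl x hpx]) e
      linarith
    · rcases hnext x y hpx hpy hxy heq with h | h
      · have h' := hord (S.succ ω x, 0) (y, 0) hsx hpy (by rw [hsl x hpx, heq]) h n e
        linarith
      · have h' := hord (S.succ ω y, 0) (x, 0) hsy hpx (by rw [hsl y hpy, heq]) h n e
        linarith
    · have h := hslt (-n) (S.succ ω y, 0) (x, 0) hsy hpx (by rwa [hsl y hpy]) e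
      linarith
  have hmeas : ∀ x, MeasurableSet (I e x) := by
    intro x
    simp only [I]
    split_ifs
    · exact measurableSet_Ioo
    · exact MeasurableSet.empty
  rw [← measure_iUnion hdisj hmeas]
  refine measure_mono ?_
  intro r hr
  rw [Set.mem_iUnion] at hr
  obtain ⟨x, hx⟩ := hr
  by_cases hg : good x
  · simp only [I, if_pos hg] at hx
    exact ⟨(S.succ ω x, 0), (x, 0), hpres x hg.1.1, hg.1.1, by rw [← hg.1.2]; exact hg.2, hg.2,
      hsl x hg.1.1, hx.1, hx.2⟩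
  · simp only [I, if_neg hg] at hx
    exact absurd hx (Set.notMem_empty r)

theorem map_MM (n : ℕ) : P.map (fun ω => S.MM (-n) ω 0) = P.map (fun ω => S.MM 0 ω 0) := by
  have h : (fun ω => S.MM (-n) ω 0) = (fun ω => S.MM 0 ω 0) ∘ S.τ (0, -(n : ℤ)) := by
    funext ω
    simp [S.MM_cov]
  rw [h, ← Measure.map_map (S.measurable_MM 0 0) (S.mp _).measurable, (S.mp _).map_eq]

/-- The masses at the places of the label tend to infinity. -/
theorem eventually_MM [IsFiniteMeasure P] : ∀ᵐ ω ∂P, ∀ x, S.M ω x ≠ 0 → ∀ A : ℕ,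
    ∀ᶠ n : ℕ in atTop, (S.pres ω (x, 0) ∧
      S.loc (-n) ω (x, 0) = S.loc (-n) ω (S.succ ω x, 0)) ∧
      (A : ℝ≥0∞) ≤ S.MM (-n) ω (S.loc (-n) ω (x, 0)) := by
  classical
  have hrec := exists_sum_ge (P := P) (τ := fun a : ℤ => S.τ (a, 0))
    (X := fun ω x => S.pres ω (x, 0)) (succ := S.succ) (fun a => S.mp _) (fun ω => S.τz ω)
    (fun a b ω => by rw [S.τadd]; simp) (fun x => S.pres_meas _) S.succ_meas
    (fun a ω x => by rw [S.pres_cov]; simp) S.succ_cov S.succ_pres S.succ_inj S.M S.measurable_M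
    S.M_cov (fun ω x h => (S.M_ne_zero h).1)
  filter_upwards [hrec, S.coal, S.osc, S.order, S.succ_pres, S.succ_slope, S.succ_le] with
    ω hω hcoal hosc hord hpres hsl hle x hx A
  obtain ⟨hp, e₀, he₀⟩ := S.M_ne_zero hx
  obtain ⟨J, hJ⟩ := hω x hx A
  set o : ℕ → ℤ := fun j => (S.succ ω)^[j] x with ho
  have ho0 : o 0 = x := rfl
  have hos : ∀ j, o (j + 1) = S.succ ω (o j) := fun j => Function.iterate_succ_apply' _ _ _
  have hop : ∀ j, S.pres ω (o j, 0) := by
    intro j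
    induction j with
    | zero => exact hp
    | succ j ih => rw [hos]; exact hpres _ ih
  have hosl : ∀ j, S.slope ω (o j, 0) = S.slope ω (x, 0) := by
    intro j
    induction j with
    | zero => rfl
    | succ j ih => rw [hos, hsl _ (hop j), ih]
  have hc := hcoal (x, 0) (S.succ ω x, 0) e₀ hp (hpres x hp) (hsl x hp).symm he₀.ne'
  have hall : ∀ᶠ n : ℕ in atTop, ∀ j ∈ Finset.range (J + 1 + 1),
      S.loc (-n) ω (x, 0) = S.loc (-n) ω (o j, 0) := by
    rw [Filter.eventually_all_finset]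
    intro j _
    exact hc (x, 0) (o j, 0) hp (hop j) rfl (hosl j)
  filter_upwards [hall] with n hn
  refine ⟨⟨hp, ?_⟩, ?_⟩
  · have := hn 1 (by simp)
    rwa [hos, ho0] at this
  · refine hJ.trans ?_
    -- pass to the level -n
    have hlev : ∀ j, S.M ω (o j) ≤ ∑' e, ENNReal.ofReal (S.inc (-n) ω (o j, 0) e -
        S.inc (-n) ω (o (j + 1), 0) e) := by
      intro j
      unfold M
      rw [if_pos (hop j), hos j]
      exact hosc (o j, 0) (S.succ ω (o j), 0) (hop j) (hpres _ (hop j)) (hsl _ (hop j)).symm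
        (hle _ (hop j)) n
    refine (Finset.sum_le_sum fun j _ => hlev j).trans ?_
    rw [← Summable.tsum_finsetSum fun _ _ => ENNReal.summable]
    unfold MM
    refine ENNReal.tsum_le_tsum fun e => ?_
    have hanti : ∀ j, S.inc (-n) ω (o (j + 1), 0) e ≤ S.inc (-n) ω (o j, 0) e := by
      intro j
      rw [hos]
      exact hord (o j, 0) (S.succ ω (o j), 0) (hop j) (hpres _ (hop j)) (hsl _ (hop j)).symm
        (hle _ (hop j)) n e
    rw [ofReal_telescope (a := fun j => S.inc (-n) ω (o j, 0) e) hanti, ho0, mm, ← Real.volume_Ioo]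
    refine measure_mono ?_
    intro r hr
    refine ⟨(o J, 0), (x, 0), hop J, hp, (hn J (by simp)).symm, rfl, hosl J, hr.1, hr.2⟩

/-- **The mass argument**: a label and its successor have the same increments. -/
theorem same_inc [IsFiniteMeasure P] : ∀ᵐ ω ∂P, ∀ x, S.pres ω (x, 0) → ∀ e,
    S.inc 0 ω (S.succ ω x, 0) e = S.inc 0 ω (x, 0) e := by
  classical
  have h := mass_vanish (P := P) (fun a : ℤ => S.τ (a, 0)) (fun a => S.mp _) S.M S.measurable_M
    S.M_cov (fun n ω x => S.loc (-n) ω (x, 0)) (fun n x => S.loc_meas _ _)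
    (fun n a ω x => by rw [S.loc_cov]; simp)
    (fun n ω x => S.pres ω (x, 0) ∧ S.loc (-n) ω (x, 0) = S.loc (-n) ω (S.succ ω x, 0))
    (fun n x => ?_) (fun n a ω x => ?_) (fun n ω z => S.MM (-n) ω z)
    (fun n z => S.measurable_MM _ _) (fun n a ω z => by rw [S.MM_cov]; simp)
    (fun n => ?_) ?_ ?_ ?_
  · filter_upwards [h, S.succ_le] with ω hω hle x hp e
    have h0 := hω x
    unfold M at h0
    rw [if_pos hp, ENNReal.tsum_eq_zero] at h0
    have h1 := h0 e
    rw [ENNReal.ofReal_eq_zero] at h1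
    exact le_antisymm (hle x hp e) (by linarith)
  · refine (S.pres_meas _).inter ?_
    have hm : Measurable fun ω => S.loc (-n) ω (S.succ ω x, 0) := by
      have : Measurable fun p : Ω × ℤ => S.loc (-n) p.1 (p.2, 0) :=
        measurable_from_prod_countable_left fun y => S.loc_meas (-n) (y, 0)
      exact this.comp (measurable_id.prodMk (S.succ_meas x))
    exact measurableSet_eq_fun (S.loc_meas _ _) hm
  · rw [S.pres_cov, S.loc_cov, S.loc_cov, S.succ_cov]
    simp
  · have h0 := S.map_MM n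
    simpa using h0
  · simpa using S.lintegral_MM
  · filter_upwards [S.tsum_M_le] with ω hω n
    convert hω n 0
  · filter_upwards [S.eventually_MM] with ω hω h0 A
    exact hω 0 h0 A

end Sys

end Crest.Agent.R151.Y96
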