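import Mathlib
import Crest.Prelude.Def_PlanarFPP
import Crest.Agent.R151.S113F
import Crest.Agent.R151.K9e
import Crest.Agent.R151.Y96C
import Crest.Agent.R151.D411d

/-!
# R151, SEL G (helper113): slopes and the `Sys` instance of helper96's mass argument

* `slp t k v` : slope of the label function of the path `v` on the row `k`,
  `limsup_n -(f (x+n) - f x) / n`, `x` = place of the last entrance to `{y ≥ k}`; measurable along
  measurable paths and covariant; equal to `s` if `f n / n → -s`.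
* `slopeR C R z t` : the slope of `gamR C R z t` on the row of `z`.
* `SysHyp`, `sysR` : the instance of `Y96.Sys` on `iidLaw G` with all the measurability,
  covariance and (o1), `TT_fin` fields proved.
-/

set_option autoImplicit false

open MeasureTheory Filter Topology
open Crest.ProbabilityR.FirstPassage

namespace Crest.Agent.R151.SEL

open Crest.Agent.R151 Crest.Agent.R151.Y

/-! ## the slope -/

/-- place of the last entrance to the row `k` -/
noncomputable def locU (k : ℤ) (v : ℤ → ℤ × ℤ) : ℤ := (tailU k v 0).1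

/-- place of the first exit from the row `k` -/
noncomputable def locD (k : ℤ) (v : ℤ → ℤ × ℤ) : ℤ := (tailD k v 0).1

/-- increments of the upper label function on the row `k` -/
noncomputable def incU (t : Environment) (k : ℤ) (v : ℤ → ℤ × ℤ) (e : ℤ) : ℝ :=
  fU t k v (e + 1, k) - fU t k v (e, k)

/-- increments of the lower label function on the row `k` -/
noncomputable def incD (t : Environment) (k : ℤ) (v : ℤ → ℤ × ℤ) (e : ℤ) : ℝ :=
  fD t k v (e + 1, k) - fD t k v (e, k)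

/-- the slope of the upper label function on the row `k` -/
noncomputable def slp (t : Environment) (k : ℤ) (v : ℤ → ℤ × ℤ) : ℝ :=
  limsup (fun n : ℕ => -((fU t k v (locU k v + n, k) - fU t k v (locU k v, k)) / n)) atTop

theorem locU_add (k : ℤ) (v : ℤ → ℤ × ℤ) (a : ℤ × ℤ) :
    locU (k + a.2) (fun n => v n + a) = locU k v + a.1 := by
  unfold locU
  rw [tailU_add, Prod.fst_add]

theorem locD_add (k : ℤ) (v : ℤ → ℤ × ℤ) (a : ℤ × ℤ) :
    locD (k + a.2) (fun n => v n + a) = locD k v + a.1 := by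
  unfold locD
  rw [tailD_add, Prod.fst_add]

theorem fU_add (a : ℤ × ℤ) (t : Environment) (k x : ℤ) (v : ℤ → ℤ × ℤ) :
    fU t (k + a.2) (fun n => v n + a) (x + a.1, k + a.2) = fU (A.shift a t) k v (x, k) := by
  exact fU_shift a t k v (x, k)

theorem fD_add (a : ℤ × ℤ) (t : Environment) (k x : ℤ) (v : ℤ → ℤ × ℤ) :
    fD t (k + a.2) (fun n => v n + a) (x + a.1, k + a.2) = fD (A.shift a t) k v (x, k) := by
  exact fD_shift a t k v (x, k)

theorem incU_add (a : ℤ × ℤ) (t : Environment) (k : ℤ) (v : ℤ → ℤ × ℤ) (e : ℤ) :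
    incU t (k + a.2) (fun n => v n + a) (e + a.1) = incU (A.shift a t) k v e := by
  unfold incU
  rw [fU_add, show e + a.1 + 1 = (e + 1) + a.1 by ring, fU_add]

theorem incD_add (a : ℤ × ℤ) (t : Environment) (k : ℤ) (v : ℤ → ℤ × ℤ) (e : ℤ) :
    incD t (k + a.2) (fun n => v n + a) (e + a.1) = incD (A.shift a t) k v e := by
  unfold incD
  rw [fD_add, show e + a.1 + 1 = (e + 1) + a.1 by ring, fD_add]

theorem slp_add (a : ℤ × ℤ) (t : Environment) (k : ℤ) (v : ℤ → ℤ × ℤ) :
    slp t (k + a.2) (fun n => v n + a) = slp (A.shift a t) k v := by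
  unfold slp
  congr 1
  funext n
  rw [locU_add, fU_add, show locU k v + a.1 + (n : ℤ) = (locU k v + n) + a.1 by ring, fU_add]

section meas

variable {Ω : Type*} [MeasurableSpace Ω] {γ : Ω → ℤ → ℤ × ℤ} {τ : Ω → Environment}

theorem measurable_locU (hγ : ∀ n, Measurable fun ω => γ ω n) (k : ℤ) :
    Measurable fun ω => locU k (γ ω) :=
  measurable_fst.comp (measurable_tailU hγ k 0)

theorem measurable_locD (hγ : ∀ n, Measurable fun ω => γ ω n) (k : ℤ) :
    Measurable fun ω => locD k (γ ω) :=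
  measurable_fst.comp (measurable_tailD hγ k 0)

theorem measurable_incU (hτ : Measurable τ) (hγ : ∀ n, Measurable fun ω => γ ω n) (k e : ℤ) :
    Measurable fun ω => incU (τ ω) k (γ ω) e :=
  (measurable_fU hτ hγ k _).sub (measurable_fU hτ hγ k _)

theorem measurable_incD (hτ : Measurable τ) (hγ : ∀ n, Measurable fun ω => γ ω n) (k e : ℤ) :
    Measurable fun ω => incD (τ ω) k (γ ω) e :=
  (measurable_fD hτ hγ k _).sub (measurable_fD hτ hγ k _)

theorem measurable_slp (hτ : Measurable τ) (hγ : ∀ n, Measurable fun ω => γ ω n) (k : ℤ) :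
    Measurable fun ω => slp (τ ω) k (γ ω) := by
  unfold slp
  have h : ∀ m : ℤ, Measurable fun ω => fU (τ ω) k (γ ω) (locU k (γ ω) + m, k) := fun m =>
    measurable_eval (f := fun ω (x : ℤ) => fU (τ ω) k (γ ω) (x + m, k))
      (fun x => measurable_fU hτ hγ k _) (measurable_locU hγ k)
  refine Measurable.limsup fun n => ?_
  have h0 := h 0
  simp only [add_zero] at h0
  exact (((h n).sub h0).div_const _).neg

end meas

/-- the slope is `s` as soon as `f n / n → -s` -/
theorem slp_eq {t : Environment} {k : ℤ} {v : ℤ → ℤ × ℤ} {s : ℝ}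
    (h : Tendsto (fun n : ℤ => fU t k v (n, k) / n) atTop (𝓝 (-s))) : slp t k v = s := by
  unfold slp
  refine Tendsto.limsup_eq ?_
  obtain ⟨x, hx⟩ : ∃ x, x = locU k v := ⟨_, rfl⟩
  rw [← hx]
  have h1 : Tendsto (fun n : ℕ => x + (n : ℤ)) atTop atTop :=
    tendsto_atTop_add_const_left _ _ tendsto_natCast_atTop_atTop
  have h2 := h.comp h1
  have h3 : Tendsto (fun n : ℕ => ((x + (n : ℤ) : ℤ) : ℝ) / n) atTop (𝓝 1) := by
    have h4 : Tendsto (fun n : ℕ => (x : ℝ) / n) atTop (𝓝 0) :=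
      tendsto_const_nhds.div_atTop tendsto_natCast_atTop_atTop
    have h5 := h4.add_const 1
    rw [zero_add] at h5
    refine h5.congr' ?_
    filter_upwards [eventually_gt_atTop 0] with n hn
    have hn' : (n : ℝ) ≠ 0 := by exact_mod_cast hn.ne'
    push_cast
    field_simp
  have h6 : Tendsto (fun n : ℕ => fU t k v (x, k) / n) atTop (𝓝 0) :=
    tendsto_const_nhds.div_atTop tendsto_natCast_atTop_atTop
  have h7 := ((h2.mul h3).sub h6).neg
  have e : -(-s * 1 - 0) = s := by ring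
  rw [e] at h7
  refine h7.congr' ?_
  filter_upwards [eventually_gt_atTop (max 0 (-x).toNat)] with n hn
  have hn' : (n : ℝ) ≠ 0 := by
    have : 0 < n := lt_of_le_of_lt (le_max_left _ _) hn
    exact_mod_cast this.ne'
  have hn2 : ((x + (n : ℤ) : ℤ) : ℝ) ≠ 0 := by
    have : (-x).toNat < n := lt_of_le_of_lt (le_max_right _ _) hn
    have : x + (n : ℤ) ≠ 0 := by omega
    exact_mod_cast this
  simp only [Function.comp_apply]
  rw [div_mul_div_cancel₀ hn2, ← sub_div]

/-! ## the selected bigeodesic -/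

section gamD

variable (D : ℤ → Set (ℤ × ℤ))

/-- the slope of the selected bigeodesic on the row of its base point -/
noncomputable def slopeD (z : ℤ × ℤ) (t : Environment) : ℝ := slp t z.2 (gamD D z t)

theorem measurable_slopeD (z : ℤ × ℤ) : Measurable fun t => slopeD D z t :=
  measurable_slp (τ := fun t => t) measurable_id (measurable_gamD D z) z.2

theorem slopeD_add (z a : ℤ × ℤ) (t : Environment) :
    slopeD D (z + a) t = slopeD D z (A.shift a t) := by
  unfold slopeD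
  rw [gamD_add', Prod.snd_add, slp_add]

end gamD

/-- the slope of `gamR` -/
noncomputable def slopeR (C : ℝ) (R : ℕ) (z : ℤ × ℤ) (t : Environment) : ℝ :=
  slp t z.2 (gamR C R z t)

theorem measurable_slopeR (C : ℝ) (R : ℕ) (z : ℤ × ℤ) : Measurable fun t => slopeR C R z t :=
  measurable_slopeD _ z

theorem slopeR_add (C : ℝ) (R : ℕ) (z a : ℤ × ℤ) (t : Environment) :
    slopeR C R (z + a) t = slopeR C R z (A.shift a t) := slopeD_add _ z a t

/-! ## the instance of `Y96.Sys` -/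

/-- boundary passage time of the row `k` in `{y ≥ k}` -/
noncomputable def TTU (t : Environment) (k e : ℤ) : ℝ := pt (reg (Up k)) t (e, k) (e + 1, k)

theorem TTU_add (a : ℤ × ℤ) (t : Environment) (k e : ℤ) :
    TTU (A.shift a t) k e = TTU t (k + a.2) (e + a.1) := by
  unfold TTU
  rw [pt_shift a t (adj_Up_add k a)]
  congr 1
  ext
  · simp
    ring
  · simp

theorem measurable_TTU (k e : ℤ) : Measurable fun t => TTU t k e := measurable_pt' _ _ _

theorem abs_incU_le {t : Environment} (ht : ∀ e, 0 ≤ t e) {v : ℤ → ℤ × ℤ} (h : IsBigeodesic t v)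
    (hv : UpDown v) (k e : ℤ) : |incU t k v e| ≤ TTU t k e := by
  have hlip : IsLip t (reg (Up k)) (fU t k v) := isLip_bus ht (isRay_tailU h ht hv k)
  have hadj : (reg (Up k)).Adj (e, k) (e + 1, k) := by
    rw [reg_adj]
    exact ⟨K.adj_right e k, le_refl k, le_refl k⟩
  have := hlip.abs_sub_le_pt hadj.reachable
  unfold incU TTU
  rwa [abs_sub_comm]

variable {G : Measure ℝ} [IsProbabilityMeasure G]

theorem lintegral_TTU (hG : M51.Law213 G) (k e : ℤ) :
    ∫⁻ t, ENNReal.ofReal (TTU t k e) ∂(iidLaw G) ≠ ⊤ := by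
  have rU := K.regMom_row hG (M51.thick_Ici k) Set.ordConnected_Ici
  have h1 : Integrable (fun t => K.pR t {z : ℤ × ℤ | z.2 ∈ Set.Ici k} (e, k) (e + 1, k))
      (iidLaw G) := rU.int _ (by simp) _ (by simp)
  have h2 : ∀ t : Environment, TTU t k e =
      K.pR t {z : ℤ × ℤ | z.2 ∈ Set.Ici k} (e, k) (e + 1, k) := by
    intro t
    rw [pR_eq_pt (by simp)]
    rfl
  simp only [h2]
  exact (h1.lintegral_lt_top).ne

/-- the class of paths: bigeodesics of `t` which are `ProperUp C` -/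
def Kc (C : ℝ) (t : Environment) (v : ℤ → ℤ × ℤ) : Prop := IsBigeodesic t v ∧ D411.ProperUp C v

theorem Kc.updown {C : ℝ} {t : Environment} {v : ℤ → ℤ × ℤ} (h : Kc C t v) : UpDown v :=
  ⟨h.2.2.2.1, h.2.2.2.2⟩

theorem kc_gamR {C C' : ℝ} (hC : C < C') {R : ℕ} {z : ℤ × ℤ} {t : Environment}
    (h : CrR C R z t) : Kc C' t (gamR C R z t) :=
  ⟨gamR_bigeodesic h, (gamR_cone h hC).1, (gamR_cone h hC).2, (updown_gamR h).1, (updown_gamR h).2⟩

theorem Kc.exists_crR {C : ℝ} {t : Environment} {v : ℤ → ℤ × ℤ} (h : Kc C t v) (k : ℤ) :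
    ∃ (R : ℕ) (x : ℤ), v (entU k v) = (x, k) ∧ CrR C R (x, k) t :=
  exists_crR_of_proper h.1 h.updown h.2.1 h.2.2.1 k

/-- The geometric inputs of the mass argument, for the class `Kc C` (almost surely for all paths
of the class at once). -/
structure GeomAE (G : Measure ℝ) (C : ℝ) : Prop where
  /-- the slope does not depend on the row -/
  slp_const : ∀ᵐ t ∂(iidLaw G), ∀ v, Kc C t v → ∀ k, slp t k v = slp t 0 v
  /-- (o2) -/
  slope_lt : ∀ᵐ t ∂(iidLaw G), ∀ v w, Kc C t v → Kc C t w → slp t 0 v < slp t 0 w →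
    ∀ k e, incU t k w e ≤ incU t k v e
  /-- (o3) -/
  loc_lt : ∀ᵐ t ∂(iidLaw G), ∀ (k : ℤ) v₀ w₀ (e₀ : ℤ), Kc C t v₀ → Kc C t w₀ →
    slp t 0 v₀ = slp t 0 w₀ → incU t k v₀ e₀ ≠ incU t k w₀ e₀ →
    ∀ v w, Kc C t v → Kc C t w → slp t 0 v = slp t 0 v₀ → slp t 0 w = slp t 0 v₀ →
    locU k v < locU k w → ∀ e, incU t k w e ≤ incU t k v e
  /-- (o5) -/
  osc : ∀ᵐ t ∂(iidLaw G), ∀ v w, Kc C t v → Kc C t w → slp t 0 v = slp t 0 w →
    (∀ e, incU t 0 w e ≤ incU t 0 v e) → ∀ n : ℕ,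
    ∑' e, ENNReal.ofReal (incU t 0 v e - incU t 0 w e) ≤
      ∑' e, ENNReal.ofReal (incU t (-n) v e - incU t (-n) w e)
  /-- (o7) -/
  order : ∀ᵐ t ∂(iidLaw G), ∀ v w, Kc C t v → Kc C t w → slp t 0 v = slp t 0 w →
    (∀ e, incU t 0 w e ≤ incU t 0 v e) → ∀ (n : ℕ) e, incU t (-n) w e ≤ incU t (-n) v e
  /-- (o6) -/
  coal : ∀ᵐ t ∂(iidLaw G), ∀ v₀ w₀ (e₀ : ℤ), Kc C t v₀ → Kc C t w₀ →
    slp t 0 v₀ = slp t 0 w₀ → incU t 0 v₀ e₀ ≠ incU t 0 w₀ e₀ →
    ∀ v w, Kc C t v → Kc C t w → slp t 0 v = slp t 0 v₀ → slp t 0 w = slp t 0 v₀ →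
    ∀ᶠ n : ℕ in atTop, locU (-n) v = locU (-n) w

/-- the data of `sysR`: goodness and successor -/
structure SysData (G : Measure ℝ) (C : ℝ) (R : ℕ) where
  /-- goodness -/
  Gd : ℤ × ℤ → Environment → Prop
  Gd_meas : ∀ i, MeasurableSet {t | Gd i t}
  Gd_cov : ∀ a t i, Gd i (A.shift a t) ↔ Gd (i + a) t
  /-- the successor of `x` on the row `0` -/
  succ : Environment → ℤ → ℤ
  succ_meas : ∀ x, Measurable fun t => succ t x
  succ_cov : ∀ (a : ℤ) t x, succ (A.shift (a, 0) t) x = succ t (x + a) - a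

namespace SysData

variable {C C' : ℝ} {R : ℕ} (H : SysData G C R)

/-- presence -/
def pres (t : Environment) (i : ℤ × ℤ) : Prop := CrR C R i t ∧ H.Gd i t

/-- the almost sure properties of the successor -/
structure SuccAE (H : SysData G C R) : Prop where
  succ_pres : ∀ᵐ t ∂(iidLaw G), ∀ x, H.pres t (x, 0) → H.pres t (H.succ t x, 0)
  succ_inj : ∀ᵐ t ∂(iidLaw G), ∀ x y, H.pres t (x, 0) → H.pres t (y, 0) →
    H.succ t x = H.succ t y → x = y
  succ_slope : ∀ᵐ t ∂(iidLaw G), ∀ x, H.pres t (x, 0) →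
    slopeR C R (H.succ t x, 0) t = slopeR C R (x, 0) t
  succ_le : ∀ᵐ t ∂(iidLaw G), ∀ x, H.pres t (x, 0) → ∀ e,
    incU t 0 (gamR C R (H.succ t x, 0) t) e ≤ incU t 0 (gamR C R (x, 0) t) e
  succ_next : ∀ᵐ t ∂(iidLaw G), ∀ x y, H.pres t (x, 0) → H.pres t (y, 0) → x ≠ y →
    slopeR C R (x, 0) t = slopeR C R (y, 0) t →
    (∀ e, incU t 0 (gamR C R (y, 0) t) e ≤ incU t 0 (gamR C R (H.succ t x, 0) t) e) ∨
      (∀ e, incU t 0 (gamR C R (x, 0) t) e ≤ incU t 0 (gamR C R (H.succ t y, 0) t) e)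

include H in
theorem pres_meas (i : ℤ × ℤ) : MeasurableSet {t | H.pres t i} :=
  (measurableSet_crR C R i).inter (H.Gd_meas i)

theorem pres_cov (a : ℤ × ℤ) (t : Environment) (i : ℤ × ℤ) :
    H.pres (A.shift a t) i ↔ H.pres t (i + a) := by
  unfold pres
  rw [crR_add, H.Gd_cov]

/-- **the instance of `Y96.Sys`** -/
noncomputable def sysR (hG : M51.Law213 G) (hC : C < C') (Ge : GeomAE G C') (hs : H.SuccAE) :
    Y96.Sys Environment (iidLaw G) where
  τ a t := A.shift a t
  τz t := A.shift_zero t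
  τadd a b t := A.shift_shift a b t
  mp a := A.mp_shift G a
  pres t i := H.pres t i
  slope t i := slopeR C R i t
  loc k t i := locU k (gamR C R i t)
  inc k t i e := incU t k (gamR C R i t) e
  TT k t e := TTU t k e
  succ := H.succ
  pres_meas := H.pres_meas
  slope_meas i := measurable_slopeR C R i
  loc_meas k i := measurable_locU (measurable_gamR C R i) k
  inc_meas k i e := measurable_incU (τ := fun t => t) measurable_id (measurable_gamR C R i) k e
  TT_meas k e := measurable_TTU k e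
  succ_meas := H.succ_meas
  pres_cov a t i := H.pres_cov a t i
  slope_cov a t i := (slopeR_add C R i a t).symm
  loc_cov a k t i := by
    rw [gamR_add', locU_add]
    ring
  inc_cov a k t i e := by
    rw [gamR_add', incU_add]
  TT_cov a k t e := TTU_add a t k e
  succ_cov := H.succ_cov
  TT_fin := lintegral_TTU hG 0 0
  inc_le := by
    filter_upwards [K.ae_Nn hG.h0] with t ht k i e hi
    exact abs_incU_le ht (gamR_bigeodesic hi.1) (updown_gamR hi.1) k e
  slope_lt := by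
    filter_upwards [Ge.slp_const, Ge.slope_lt] with t h1 h2 k i j hi hj hij e
    have ki := kc_gamR hC hi.1
    have kj := kc_gamR hC hj.1
    refine h2 _ _ ki kj ?_ k e
    rw [← h1 _ ki i.2, ← h1 _ kj j.2]
    exact hij
  loc_lt := by
    filter_upwards [Ge.slp_const, Ge.loc_lt] with t h1 h2 k i₀ j₀ e₀ hi₀ hj₀ hs0 hne i j hi hj
      hsi hsj hlt e
    have e1 : ∀ i, H.pres t i → slopeR C R i t = slp t 0 (gamR C R i t) := fun i hi =>
      h1 _ (kc_gamR hC hi.1) i.2
    rw [e1 _ hi₀, e1 _ hj₀] at hs0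
    rw [e1 _ hi₀, e1 _ hi] at hsi
    rw [e1 _ hi₀, e1 _ hj] at hsj
    exact h2 k _ _ e₀ (kc_gamR hC hi₀.1) (kc_gamR hC hj₀.1) hs0 hne _ _ (kc_gamR hC hi.1)
      (kc_gamR hC hj.1) hsi hsj hlt e
  osc := by
    filter_upwards [Ge.slp_const, Ge.osc] with t h1 h2 i j hi hj hs0 hle n
    have e1 : ∀ i, H.pres t i → slopeR C R i t = slp t 0 (gamR C R i t) := fun i hi =>
      h1 _ (kc_gamR hC hi.1) i.2
    rw [e1 _ hi, e1 _ hj] at hs0
    exact h2 _ _ (kc_gamR hC hi.1) (kc_gamR hC hj.1) hs0 hle n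
  order := by
    filter_upwards [Ge.slp_const, Ge.order] with t h1 h2 i j hi hj hs0 hle n e
    have e1 : ∀ i, H.pres t i → slopeR C R i t = slp t 0 (gamR C R i t) := fun i hi =>
      h1 _ (kc_gamR hC hi.1) i.2
    rw [e1 _ hi, e1 _ hj] at hs0
    exact h2 _ _ (kc_gamR hC hi.1) (kc_gamR hC hj.1) hs0 hle n e
  coal := by
    filter_upwards [Ge.slp_const, Ge.coal] with t h1 h2 i₀ j₀ e₀ hi₀ hj₀ hs0 hne i j hi hj
      hsi hsj
    have e1 : ∀ i, H.pres t i → slopeR C R i t = slp t 0 (gamR C R i t) := fun i hi =>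
      h1 _ (kc_gamR hC hi.1) i.2
    rw [e1 _ hi₀, e1 _ hj₀] at hs0
    rw [e1 _ hi₀, e1 _ hi] at hsi
    rw [e1 _ hi₀, e1 _ hj] at hsj
    exact h2 _ _ e₀ (kc_gamR hC hi₀.1) (kc_gamR hC hj₀.1) hs0 hne _ _ (kc_gamR hC hi.1)
      (kc_gamR hC hj.1) hsi hsj
  succ_pres := hs.succ_pres
  succ_inj := hs.succ_inj
  succ_slope := hs.succ_slope
  succ_le := hs.succ_le
  succ_next := hs.succ_next

/-- the conclusion of the mass argument for the selected bigeodesics -/
theorem same_inc (hG : M51.Law213 G) (hC : C < C') (Ge : GeomAE G C') (hs : H.SuccAE) :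
    ∀ᵐ t ∂(iidLaw G), ∀ x, H.pres t (x, 0) → ∀ e,
      incU t 0 (gamR C R (H.succ t x, 0) t) e = incU t 0 (gamR C R (x, 0) t) e :=
  (H.sysR hG hC Ge hs).same_inc

end SysData

end Crest.Agent.R151.SEL
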