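import Mathlib
import Crest.Prelude.Def_PlanarFPP
import Crest.Agent.R151.S113G
import Crest.Agent.R151.RFL890B

/-!
# R151, SEL H (helper113): the mass argument for both label functions of the same family

* `ae_surj`: a covariant injective self-map of a stationary subset of `ℤ` is a.s. onto;
  `predOf`: its measurable covariant inverse.
* `rs t`, `rw v`: reflection in the line `y = -1/2` (with time reversal of the path).
* `SuccLab`: the successor at the level of labels (upper function on the row `0`, lower function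
  on the row `-1`).
* `same_both`: upper and lower label functions of `γ_x` and `γ_{succ x}` have the same increments.
-/

set_option autoImplicit false

open MeasureTheory Filter Topology
open Crest.ProbabilityR.FirstPassage
open scoped ENNReal

namespace Crest.Agent.R151.SEL

open Crest.Agent.R151 Crest.Agent.R151.Y

/-! ## bijectivity and the inverse -/

section surj

variable {Ω : Type*} [MeasurableSpace Ω] {P : Measure Ω}
  {τ : ℤ → Ω → Ω} {X : Ω → ℤ → Prop} {succ : Ω → ℤ → ℤ}

theorem ae_surj [IsFiniteMeasure P] (mp : ∀ a, MeasurePreserving (τ a) P P)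
    (hX : ∀ x, MeasurableSet {ω | X ω x}) (hs : ∀ x, Measurable fun ω => succ ω x)
    (hXc : ∀ a ω x, X (τ a ω) x ↔ X ω (x + a))
    (hsc : ∀ a ω x, succ (τ a ω) x = succ ω (x + a) - a)
    (hmap : ∀ᵐ ω ∂P, ∀ x, X ω x → X ω (succ ω x))
    (hinj : ∀ᵐ ω ∂P, ∀ x y, X ω x → X ω y → succ ω x = succ ω y → x = y) :
    ∀ᵐ ω ∂P, ∀ y, X ω y → ∃ x, X ω x ∧ succ ω x = y := by
  classical
  let m : Ω → ℤ → ℤ → ℝ≥0∞ := fun ω x y => if X ω x ∧ succ ω x = y then 1 else 0
  have hmm : ∀ x y, Measurable fun ω => m ω x y := fun x y =>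
    Measurable.ite ((hX x).inter (hs x (measurableSet_singleton y)))
      measurable_const measurable_const
  have hmc : ∀ a ω x y, m (τ a ω) x y = m ω (x + a) (y + a) := by
    intro a ω x y
    simp only [m, hXc, hsc]
    have : (succ ω (x + a) - a = y) ↔ (succ ω (x + a) = y + a) := by omega
    simp only [this]
  have h := Y96.mtp τ mp m hmm hmc
  -- outgoing mass
  have e1 : ∀ ω, ∑' y, m ω 0 y = if X ω 0 then 1 else 0 := by
    intro ω
    rw [tsum_eq_single (succ ω 0)]
    · simp [m]
    · intro y hy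
      simp only [m]
      rw [if_neg]
      rintro ⟨-, h⟩
      exact hy h.symm
  -- incoming mass
  have e2 : ∀ᵐ ω ∂P, ∑' y, m ω y 0 ≤ if X ω 0 then 1 else 0 := by
    filter_upwards [hmap, hinj] with ω h1 h2
    by_cases hex : ∃ x, X ω x ∧ succ ω x = 0
    · obtain ⟨x, hx, hx0⟩ := hex
      rw [tsum_eq_single x]
      · have : X ω 0 := by
          have := h1 x hx
          rwa [hx0] at this
        simp [m, hx, hx0, this]
      · intro y hy
        simp only [m]
        rw [if_neg]
        rintro ⟨h3, h4⟩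
        exact hy (h2 y x h3 hx (h4.trans hx0.symm))
    · have : ∀ y, m ω y 0 = 0 := fun y => by
        simp only [m]
        rw [if_neg]
        exact fun h3 => hex ⟨y, h3⟩
      simp [this]
  have hXm : Measurable fun ω => (if X ω 0 then 1 else 0 : ℝ≥0∞) :=
    Measurable.ite (hX 0) measurable_const measurable_const
  have hNm : Measurable fun ω => ∑' y, m ω y 0 := Measurable.tsum fun y => hmm y 0
  have hfin : ∫⁻ ω, ∑' y, m ω y 0 ∂P ≠ ∞ := by
    rw [← h, lintegral_congr e1]
    refine ne_of_lt (lt_of_le_of_lt (lintegral_mono (g := fun _ => 1) fun ω => ?_) ?_)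
    · dsimp only
      split_ifs
      · exact le_rfl
      · exact zero_le
    · simp
  have e3 : (fun ω => ∑' y, m ω y 0) =ᵐ[P] fun ω => if X ω 0 then 1 else 0 := by
    refine ae_eq_of_ae_le_of_lintegral_le e2 hfin hXm.aemeasurable ?_
    rw [← h, lintegral_congr e1]
  have e4 : ∀ᵐ ω ∂P, X ω 0 → ∃ x, X ω x ∧ succ ω x = 0 := by
    filter_upwards [e3] with ω hω h0
    by_contra hex
    have : ∀ y, m ω y 0 = 0 := fun y => by
      simp only [m]
      rw [if_neg]
      exact fun h3 => hex ⟨y, h3⟩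
    rw [if_pos h0] at hω
    simp [this] at hω
  have e5 : ∀ᵐ ω ∂P, ∀ y : ℤ, X (τ y ω) 0 → ∃ x, X (τ y ω) x ∧ succ (τ y ω) x = 0 := by
    rw [ae_all_iff]
    exact fun y => (mp y).quasiMeasurePreserving.ae e4
  filter_upwards [e5] with ω hω y hy
  obtain ⟨x, hx1, hx2⟩ := hω y (by rw [hXc, zero_add]; exact hy)
  rw [hXc] at hx1
  rw [hsc] at hx2
  exact ⟨x + y, hx1, by omega⟩

/-- the set of codes of preimages -/
def PredSet (X : Ω → ℤ → Prop) (succ : Ω → ℤ → ℤ) (ω : Ω) (y : ℤ) (n : ℕ) : Prop :=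
  X ω (y + Equiv.intEquivNat.symm n) ∧ succ ω (y + Equiv.intEquivNat.symm n) = y

/-- the inverse map -/
noncomputable def predOf (X : Ω → ℤ → Prop) (succ : Ω → ℤ → ℤ) (ω : Ω) (y : ℤ) : ℤ :=
  y + Equiv.intEquivNat.symm (sInf {n | PredSet X succ ω y n})

theorem predOf_spec {ω : Ω} {y : ℤ} (h : ∃ x, X ω x ∧ succ ω x = y) :
    X ω (predOf X succ ω y) ∧ succ ω (predOf X succ ω y) = y := by
  obtain ⟨x, hx1, hx2⟩ := h
  have hne : {n | PredSet X succ ω y n}.Nonempty := by
    refine ⟨Equiv.intEquivNat (x - y), ?_⟩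
    simp only [PredSet, Equiv.symm_apply_apply, Set.mem_ofPred_eq, add_sub_cancel]
    exact ⟨hx1, hx2⟩
  exact Nat.sInf_mem hne

theorem measurable_predOf (hX : ∀ x, MeasurableSet {ω | X ω x})
    (hs : ∀ x, Measurable fun ω => succ ω x) (y : ℤ) : Measurable fun ω => predOf X succ ω y := by
  have h1 : Measurable fun ω => sInf {n | PredSet X succ ω y n} := by
    refine measurable_sInf_nat fun n => ?_
    exact (hX _).inter (hs _ (measurableSet_singleton y))
  exact (measurable_of_countable fun n : ℕ => y + Equiv.intEquivNat.symm n).comp h1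

theorem predOf_cov (hXc : ∀ a ω x, X (τ a ω) x ↔ X ω (x + a))
    (hsc : ∀ a ω x, succ (τ a ω) x = succ ω (x + a) - a) (a : ℤ) (ω : Ω) (y : ℤ) :
    predOf X succ (τ a ω) y = predOf X succ ω (y + a) - a := by
  have h : ∀ n, PredSet X succ (τ a ω) y n ↔ PredSet X succ ω (y + a) n := by
    intro n
    unfold PredSet
    rw [hXc, hsc]
    have e : y + Equiv.intEquivNat.symm n + a = y + a + Equiv.intEquivNat.symm n := by ring
    rw [e]
    refine and_congr_right fun _ => ?_
    omega
  unfold predOf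
  simp only [h]
  ring

end surj

/-! ## the reflection in `y = -1/2` -/

/-- the reflected environment -/
def rs (t : Environment) : Environment := A.shift (0, 1) (N.refl t)

/-- the reflected and reversed path -/
def rw' (v : ℤ → ℤ × ℤ) (n : ℤ) : ℤ × ℤ := rv v n - (0, 1)

theorem rw'_add (v : ℤ → ℤ × ℤ) : (fun n => rw' v n + (0, 1)) = rv v := by
  funext n
  simp [rw']

theorem mp_rs (G : Measure ℝ) [IsProbabilityMeasure G] :
    MeasurePreserving rs (iidLaw G) (iidLaw G) :=
  (A.mp_shift G (0, 1)).comp (N.mp_refl (G := G))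

variable {t : Environment} {v : ℤ → ℤ × ℤ}

theorem incU_rw (hv : UpDown v) (k e : ℤ) : incU (rs t) k (rw' v) e = incD t (-1 - k) v e := by
  have h1 := incU_add (0, 1) (N.refl t) k (rw' v) e
  rw [rw'_add] at h1
  unfold rs
  rw [← h1]
  unfold incU incD
  rw [RFL.fD_eq hv, RFL.fD_eq hv]
  simp only [add_zero, neg_sub, sub_neg_eq_add]

theorem locU_rw (hv : UpDown v) (k : ℤ) : locU k (rw' v) = locD (-1 - k) v := by
  have h1 := locU_add k (rw' v) (0, 1)
  rw [rw'_add] at h1
  have h2 : locU (k + 1) (rv v) = locD (-1 - k) v := by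
    unfold locU locD
    have := hv.tailU_rv (k := -1 - k) 0
    rw [show -(-1 - k) = k + 1 by ring] at this
    rw [this]
  simp only [add_zero] at h1
  rw [← h1]
  exact h2

theorem slp_rw (k : ℤ) : slp (rs t) k (rw' v) = slp (N.refl t) (k + 1) (rv v) := by
  have h1 := slp_add (0, 1) (N.refl t) k (rw' v)
  rw [rw'_add] at h1
  exact h1.symm

theorem kc_rv {C : ℝ} (h : Kc C t v) : Kc C (N.refl t) (rv v) := by
  refine ⟨RFL.isBigeodesic_rv h.1, ?_, ?_, h.updown.rv.1, h.updown.rv.2⟩
  · have := tendsto_neg_atTop_atBot.eventually h.2.2.1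
    filter_upwards [this] with n hn
    simp only [rv, Int.cast_neg]
    linarith
  · have := tendsto_neg_atBot_atTop.eventually h.2.1
    filter_upwards [this] with n hn
    simp only [rv, Int.cast_neg]
    linarith

theorem kc_shift {C C' : ℝ} (hC : C < C') (a : ℤ × ℤ) (h : Kc C t v) :
    Kc C' (A.shift a t) (fun n => v n - a) := by
  have hup := h.updown
  have hb : IsBigeodesic (A.shift a t) (fun n => v n - a) := by
    rw [isBigeodesic_shift]
    simpa using h.1
  obtain ⟨M, hM⟩ := exists_int_gt ((|(a.1 : ℝ)| + |C'| * |(a.2 : ℝ)|) / (C' - C))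
  rw [div_lt_iff₀ (by linarith)] at hM
  have ha1 := neg_abs_le (a.1 : ℝ)
  have ha2 := le_abs_self (a.1 : ℝ)
  have hz2 : C' * (a.2 : ℝ) ≤ |C'| * |(a.2 : ℝ)| := by
    rw [← abs_mul]; exact le_abs_self _
  have hz3 : -(|C'| * |(a.2 : ℝ)|) ≤ C' * (a.2 : ℝ) := by
    rw [← abs_mul]; exact neg_abs_le _
  refine ⟨hb, ?_, ?_, ?_, ?_⟩
  · filter_upwards [h.2.1, hup.1.eventually (eventually_ge_atTop M)] with n h1 h2
    have h2' : (M : ℝ) ≤ (v n).2 := by exact_mod_cast h2
    have h3 : (C' - C) * M ≤ (C' - C) * (v n).2 := mul_le_mul_of_nonneg_left h2' (by linarith)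
    simp only [Prod.fst_sub, Prod.snd_sub, Int.cast_sub]
    rw [abs_le] at h1 ⊢
    constructor <;> nlinarith [h1.1, h1.2]
  · filter_upwards [h.2.2.1, hup.2.eventually (eventually_le_atBot (-M))] with n h1 h2
    have h2' : (M : ℝ) ≤ -((v n).2 : ℝ) := by
      have : ((v n).2 : ℝ) ≤ ((-M : ℤ) : ℝ) := by exact_mod_cast h2
      push_cast at this
      linarith
    have h3 : (C' - C) * M ≤ (C' - C) * -((v n).2 : ℝ) :=
      mul_le_mul_of_nonneg_left h2' (by linarith)
    simp only [Prod.fst_sub, Prod.snd_sub, Int.cast_sub]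
    rw [abs_le] at h1 ⊢
    constructor <;> nlinarith [h1.1, h1.2]
  · have := tendsto_atTop_add_const_right atTop (-a.2) hup.1
    simpa [sub_eq_add_neg] using this
  · have := tendsto_atBot_add_const_right atBot (-a.2) hup.2
    simpa [sub_eq_add_neg] using this

theorem kc_rw {C C' : ℝ} (hC : C < C') (h : Kc C t v) : Kc C' (rs t) (rw' v) :=
  kc_shift hC (0, 1) (kc_rv h)

/-! ## boundary passage times of the lower half planes -/

/-- boundary passage time of the row `k` in `{y ≤ k}` -/
noncomputable def TTD (t : Environment) (k e : ℤ) : ℝ := pt (reg (Dn k)) t (e, k) (e + 1, k)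

theorem TTD_add (a : ℤ × ℤ) (t : Environment) (k e : ℤ) :
    TTD (A.shift a t) k e = TTD t (k + a.2) (e + a.1) := by
  unfold TTD
  rw [pt_shift a t (adj_Dn_add k a)]
  congr 1
  ext
  · simp
    ring
  · simp

theorem measurable_TTD (k e : ℤ) : Measurable fun t => TTD t k e := measurable_pt' _ _ _

theorem abs_incD_le (ht : ∀ e, 0 ≤ t e) (h : IsBigeodesic t v)
    (hv : UpDown v) (k e : ℤ) : |incD t k v e| ≤ TTD t k e := by
  have hlip : IsLip t (reg (Dn k)) (fD t k v) := isLip_bus ht (isRay_tailD h ht hv k)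
  have hadj : (reg (Dn k)).Adj (e, k) (e + 1, k) := by
    rw [reg_adj]
    exact ⟨K.adj_right e k, le_refl k, le_refl k⟩
  have := hlip.abs_sub_le_pt hadj.reachable
  unfold incD TTD
  rwa [abs_sub_comm]

variable {G : Measure ℝ} [IsProbabilityMeasure G]

theorem lintegral_TTD (hG : M51.Law213 G) (k e : ℤ) :
    ∫⁻ t, ENNReal.ofReal (TTD t k e) ∂(iidLaw G) ≠ ⊤ := by
  have rU := K.regMom_row hG (M51.thick_Iic k) Set.ordConnected_Iic
  have h1 : Integrable (fun t => K.pR t {z : ℤ × ℤ | z.2 ∈ Set.Iic k} (e, k) (e + 1, k))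
      (iidLaw G) := rU.int _ (by simp) _ (by simp)
  have h2 : ∀ t : Environment, TTD t k e =
      K.pR t {z : ℤ × ℤ | z.2 ∈ Set.Iic k} (e, k) (e + 1, k) := by
    intro t
    rw [pR_eq_pt (by simp)]
    rfl
  simp only [h2]
  exact (h1.lintegral_lt_top).ne

/-! ## the successor of labels and the conclusion -/

/-- the order of the labels `(fU on the row 0, fD on the row -1)`: `w` is at or after `v` -/
def LabLeP (t : Environment) (v w : ℤ → ℤ × ℤ) : Prop :=
  (∀ e, incU t 0 w e ≤ incU t 0 v e) ∧ ∀ e, incD t (-1) v e ≤ incD t (-1) w e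

namespace SysData

variable {C C' : ℝ} {R : ℕ} (H : SysData G C R)

/-- almost sure properties of the successor, on the level of labels -/
structure SuccLab (H : SysData G C R) : Prop where
  succ_pres : ∀ᵐ t ∂(iidLaw G), ∀ x, H.pres t (x, 0) → H.pres t (H.succ t x, 0)
  succ_inj : ∀ᵐ t ∂(iidLaw G), ∀ x y, H.pres t (x, 0) → H.pres t (y, 0) →
    H.succ t x = H.succ t y → x = y
  succ_slope : ∀ᵐ t ∂(iidLaw G), ∀ x, H.pres t (x, 0) →
    slopeR C R (H.succ t x, 0) t = slopeR C R (x, 0) t
  succ_le : ∀ᵐ t ∂(iidLaw G), ∀ x, H.pres t (x, 0) →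
    LabLeP t (gamR C R (x, 0) t) (gamR C R (H.succ t x, 0) t)
  succ_next : ∀ᵐ t ∂(iidLaw G), ∀ x y, H.pres t (x, 0) → H.pres t (y, 0) → x ≠ y →
    slopeR C R (x, 0) t = slopeR C R (y, 0) t →
    LabLeP t (gamR C R (H.succ t x, 0) t) (gamR C R (y, 0) t) ∨
      LabLeP t (gamR C R (H.succ t y, 0) t) (gamR C R (x, 0) t)

theorem SuccLab.succAE {H : SysData G C R} (hs : H.SuccLab) : H.SuccAE where
  succ_pres := hs.succ_pres
  succ_inj := hs.succ_inj
  succ_slope := hs.succ_slope
  succ_le := by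
    filter_upwards [hs.succ_le] with t h x hx
    exact (h x hx).1
  succ_next := by
    filter_upwards [hs.succ_next] with t h x y hx hy hxy hsl
    rcases h x y hx hy hxy hsl with h1 | h1
    · exact Or.inl h1.1
    · exact Or.inr h1.1

/-- the row `0` part of the presence -/
def presR (t : Environment) (x : ℤ) : Prop := H.pres t (x, 0)

/-- the predecessor -/
noncomputable def pred (t : Environment) (y : ℤ) : ℤ := predOf H.presR H.succ t y

theorem presR_cov (a : ℤ) (t : Environment) (x : ℤ) :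
    H.presR (A.shift (a, 0) t) x ↔ H.presR t (x + a) := by
  unfold presR
  rw [H.pres_cov]
  simp

theorem ae_pred (hs : H.SuccLab) : ∀ᵐ t ∂(iidLaw G), ∀ y, H.presR t y →
    H.presR t (H.pred t y) ∧ H.succ t (H.pred t y) = y := by
  have h := ae_surj (P := iidLaw G) (τ := fun a t => A.shift (a, 0) t) (X := H.presR)
    (succ := H.succ) (fun a => A.mp_shift G (a, 0)) (fun x => H.pres_meas (x, 0)) H.succ_meas
    H.presR_cov H.succ_cov hs.succ_pres hs.succ_inj
  filter_upwards [h] with t ht y hy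
  exact predOf_spec (ht y hy)

/-- **the reflected instance of `Y96.Sys`** -/
noncomputable def sysD (hG : M51.Law213 G) (hC : C < C') (Ge : GeomAE G C')
    (hlow : ∀ᵐ t ∂(iidLaw G), ∀ v, Kc C' t v → slp (N.refl t) 0 (rv v) = -slp t 0 v)
    (hs : H.SuccLab) : Y96.Sys Environment (iidLaw G) :=
  have hgeo : ∀ᵐ t ∂(iidLaw G), ∀ i, H.pres t i →
      Kc C' (rs t) (rw' (gamR C R i t)) ∧ UpDown (gamR C R i t) ∧
      slp (rs t) 0 (rw' (gamR C R i t)) = -slopeR C R i t := by
    filter_upwards [hlow, Ge.slp_const, (N.mp_refl (G := G)).quasiMeasurePreserving.ae Ge.slp_const] with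
      t h1 h2 h3 i hi
    have k1 : Kc ((C + C') / 2) t (gamR C R i t) := kc_gamR (by linarith) hi.1
    have k2 : Kc C' t (gamR C R i t) := kc_gamR hC hi.1
    refine ⟨kc_rw (by linarith) k1, k1.updown, ?_⟩
    rw [slp_rw, h3 _ (kc_rv k2), h1 _ k2, ← h2 _ k2 i.2]
    rfl
  have hinc : ∀ t, ∀ i, UpDown (gamR C R i t) → ∀ k e,
      incD t (-1 - k) (gamR C R i t) e = incU (rs t) k (rw' (gamR C R i t)) e :=
    fun t i hv k e => (incU_rw hv k e).symm
  have hloc : ∀ t, ∀ i, UpDown (gamR C R i t) → ∀ k,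
      locD (-1 - k) (gamR C R i t) = locU k (rw' (gamR C R i t)) :=
    fun t i hv k => (locU_rw hv k).symm
  { τ := fun a t => A.shift (a.1, -a.2) t
    τz := fun t => by
      have : (((0 : ℤ × ℤ).1, -(0 : ℤ × ℤ).2) : ℤ × ℤ) = 0 := by simp
      rw [this]
      exact A.shift_zero t
    τadd := fun a b t => by
      rw [A.shift_shift]
      congr 1
      ext
      · simp
      · simp
        ring
    mp := fun a => A.mp_shift G _
    pres := fun t i => H.pres t (i.1, -i.2)
    slope := fun t i => -slopeR C R (i.1, -i.2) t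
    loc := fun k t i => locD (-1 - k) (gamR C R (i.1, -i.2) t)
    inc := fun k t i e => incD t (-1 - k) (gamR C R (i.1, -i.2) t) e
    TT := fun k t e => TTD t (-1 - k) e
    succ := H.pred
    pres_meas := fun i => H.pres_meas _
    slope_meas := fun i => (measurable_slopeR C R _).neg
    loc_meas := fun k i => measurable_locD (measurable_gamR C R _) _
    inc_meas := fun k i e =>
      measurable_incD (τ := fun t => t) measurable_id (measurable_gamR C R _) _ e
    TT_meas := fun k e => measurable_TTD _ e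
    succ_meas := fun x => measurable_predOf (fun x => H.pres_meas (x, 0)) H.succ_meas x
    pres_cov := fun a t i => by
      rw [H.pres_cov]
      have : ((i.1, -i.2) : ℤ × ℤ) + (a.1, -a.2) = ((i + a).1, -(i + a).2) := by
        ext
        · simp
        · simp
          ring
      rw [this]
    slope_cov := fun a t i => by
      rw [← slopeR_add]
      have : ((i.1, -i.2) : ℤ × ℤ) + (a.1, -a.2) = ((i + a).1, -(i + a).2) := by
        ext
        · simp
        · simp
          ring
      rw [this]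
    loc_cov := fun a k t i => by
      have : (((i + a).1, -(i + a).2) : ℤ × ℤ) = (i.1, -i.2) + (a.1, -a.2) := by
        ext
        · simp
        · simp
          ring
      rw [this, gamR_add', show -1 - (k + a.2) = -1 - k + ((a.1, -a.2) : ℤ × ℤ).2 by simp; ring,
        locD_add]
      simp
    inc_cov := fun a k t i e => by
      have : (((i + a).1, -(i + a).2) : ℤ × ℤ) = (i.1, -i.2) + (a.1, -a.2) := by
        ext
        · simp
        · simp
          ring
      rw [this, gamR_add', show -1 - (k + a.2) = -1 - k + ((a.1, -a.2) : ℤ × ℤ).2 by simp; ring,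
        show e + a.1 = e + ((a.1, -a.2) : ℤ × ℤ).1 by simp, incD_add]
    TT_cov := fun a k t e => by
      rw [TTD_add]
      congr 1
      simp
      ring
    succ_cov := fun a t x => by
      have h1 : ((((a, 0) : ℤ × ℤ).1, -((a, 0) : ℤ × ℤ).2) : ℤ × ℤ) = (a, 0) := by simp
      rw [h1]
      exact predOf_cov (τ := fun a t => A.shift (a, 0) t) H.presR_cov H.succ_cov a t x
    TT_fin := lintegral_TTD hG _ 0
    inc_le := by
      filter_upwards [K.ae_Nn hG.h0] with t ht k i e hi
      exact abs_incD_le ht (gamR_bigeodesic hi.1) (updown_gamR hi.1) _ e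
    slope_lt := by
      filter_upwards [hgeo, (mp_rs G).quasiMeasurePreserving.ae Ge.slope_lt] with
        t h1 h2 k i j hi hj hij e
      obtain ⟨ki, ui, si⟩ := h1 _ hi
      obtain ⟨kj, uj, sj⟩ := h1 _ hj
      rw [hinc t _ ui, hinc t _ uj]
      refine h2 _ _ ki kj ?_ k e
      rw [si, sj]
      exact hij
    loc_lt := by
      filter_upwards [hgeo, (mp_rs G).quasiMeasurePreserving.ae Ge.loc_lt] with
        t h1 h2 k i₀ j₀ e₀ hi₀ hj₀ hs0 hne i j hi hj hsi hsj hlt e
      obtain ⟨ki₀, ui₀, si₀⟩ := h1 _ hi₀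
      obtain ⟨kj₀, uj₀, sj₀⟩ := h1 _ hj₀
      obtain ⟨ki, ui, si⟩ := h1 _ hi
      obtain ⟨kj, uj, sj⟩ := h1 _ hj
      rw [hinc t _ ui₀, hinc t _ uj₀] at hne
      rw [hloc t _ ui, hloc t _ uj] at hlt
      rw [hinc t _ ui, hinc t _ uj]
      rw [← si₀, ← sj₀] at hs0
      rw [← si₀, ← si] at hsi
      rw [← si₀, ← sj] at hsj
      exact h2 k _ _ e₀ ki₀ kj₀ hs0 hne _ _ ki kj hsi hsj hlt e
    osc := by
      filter_upwards [hgeo, (mp_rs G).quasiMeasurePreserving.ae Ge.osc] with
        t h1 h2 i j hi hj hs0 hle n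
      obtain ⟨ki, ui, si⟩ := h1 _ hi
      obtain ⟨kj, uj, sj⟩ := h1 _ hj
      rw [← si, ← sj] at hs0
      simp only [hinc t _ ui, hinc t _ uj] at hle ⊢
      exact h2 _ _ ki kj hs0 hle n
    order := by
      filter_upwards [hgeo, (mp_rs G).quasiMeasurePreserving.ae Ge.order] with
        t h1 h2 i j hi hj hs0 hle n e
      obtain ⟨ki, ui, si⟩ := h1 _ hi
      obtain ⟨kj, uj, sj⟩ := h1 _ hj
      rw [← si, ← sj] at hs0
      simp only [hinc t _ ui, hinc t _ uj] at hle ⊢
      exact h2 _ _ ki kj hs0 hle n e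
    coal := by
      filter_upwards [hgeo, (mp_rs G).quasiMeasurePreserving.ae Ge.coal] with
        t h1 h2 i₀ j₀ e₀ hi₀ hj₀ hs0 hne i j hi hj hsi hsj
      obtain ⟨ki₀, ui₀, si₀⟩ := h1 _ hi₀
      obtain ⟨kj₀, uj₀, sj₀⟩ := h1 _ hj₀
      obtain ⟨ki, ui, si⟩ := h1 _ hi
      obtain ⟨kj, uj, sj⟩ := h1 _ hj
      rw [hinc t _ ui₀, hinc t _ uj₀] at hne
      rw [← si₀, ← sj₀] at hs0
      rw [← si₀, ← si] at hsi
      rw [← si₀, ← sj] at hsj
      simp only [hloc t _ ui, hloc t _ uj]
      exact h2 _ _ e₀ ki₀ kj₀ hs0 hne _ _ ki kj hsi hsj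
    succ_pres := by
      filter_upwards [H.ae_pred hs] with t h x hx
      exact (h x (by simpa [presR] using hx)).1
    succ_inj := by
      filter_upwards [H.ae_pred hs] with t h x y hx hy hxy
      have h1 := (h x (by simpa [presR] using hx)).2
      have h2 := (h y (by simpa [presR] using hy)).2
      rw [← h1, ← h2, hxy]
    succ_slope := by
      filter_upwards [H.ae_pred hs, hs.succ_slope] with t h h' x hx
      obtain ⟨h1, h2⟩ := h x (by simpa [presR] using hx)
      have h3 := h' _ h1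
      rw [h2] at h3
      simp only [neg_zero, neg_inj]
      exact h3.symm
    succ_le := by
      filter_upwards [H.ae_pred hs, hs.succ_le] with t h h' x hx e
      obtain ⟨h1, h2⟩ := h x (by simpa [presR] using hx)
      have h3 := (h' _ h1).2 e
      rw [h2] at h3
      simpa using h3
    succ_next := by
      filter_upwards [H.ae_pred hs, hs.succ_next, hs.succ_slope] with t h h' h'' x y hx hy hxy hsl
      obtain ⟨h1, h2⟩ := h x (by simpa [presR] using hx)
      obtain ⟨h3, h4⟩ := h y (by simpa [presR] using hy)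
      have hne : H.pred t x ≠ H.pred t y := by
        intro h5
        rw [h5, h4] at h2
        exact hxy h2.symm
      have s1 := h'' _ h1
      have s2 := h'' _ h3
      rw [h2] at s1
      rw [h4] at s2
      simp only [neg_zero, neg_inj] at hsl
      rcases h' _ _ h1 h3 hne (by rw [← s1, ← s2, hsl]) with h5 | h5
      · right
        intro e
        have := h5.2 e
        rw [h2] at this
        simpa using this
      · left
        intro e
        have := h5.2 e
        rw [h4] at this
        simpa using this }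

/-- **(G) for both functions of the same family** -/
theorem same_both (hG : M51.Law213 G) (hC : C < C') (Ge : GeomAE G C')
    (hlow : ∀ᵐ t ∂(iidLaw G), ∀ v, Kc C' t v → slp (N.refl t) 0 (rv v) = -slp t 0 v)
    (hs : H.SuccLab) :
    ∀ᵐ t ∂(iidLaw G), ∀ x, H.pres t (x, 0) →
      (∀ e, incU t 0 (gamR C R (H.succ t x, 0) t) e = incU t 0 (gamR C R (x, 0) t) e) ∧
      (∀ e, incD t (-1) (gamR C R (H.succ t x, 0) t) e = incD t (-1) (gamR C R (x, 0) t) e) := by
  have h1 := H.same_inc hG hC Ge hs.succAE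
  have h2 := (H.sysD hG hC Ge hlow hs).same_inc
  filter_upwards [h1, h2, H.ae_pred hs, hs.succ_pres, hs.succ_inj] with t a1 a2 a3 a4 a5 x hx
  refine ⟨a1 x hx, fun e => ?_⟩
  have hy := a4 x hx
  obtain ⟨b1, b2⟩ := a3 (H.succ t x) hy
  have b3 : H.pred t (H.succ t x) = x := a5 _ _ b1 hx b2
  have b4 := a2 (H.succ t x) (by simpa [sysD] using hy) e
  simp only [sysD] at b4
  rw [b3] at b4
  simpa using b4.symm

end SysData

end Crest.Agent.R151.SEL
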