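import Crest.Agent.R151.Y96E
import Crest.Agent.R151.RFL890B

/-!
# R151, block (Z) (helper96): the reflected family and the lower functions

* `mirror F` : the family `F` seen from the reflected environment;
* `same_both` : a label and its successor have the same upper and the same lower increments.
-/

set_option autoImplicit false

open MeasureTheory Filter Topology
open scoped ENNReal

namespace Crest.Agent.R151.Y96

open Crest.ProbabilityR.FirstPassage
open Crest.Agent.R151 Crest.Agent.R151.SEL Crest.Agent.R151.Y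
open Crest.Agent.R151.F592 (STO IsSucc LField)

theorem incD_eq {v : ℤ → ℤ × ℤ} (h : UpDown v) (t : Environment) (k e : ℤ) :
    incD t k v e = incU (N.refl t) (-k) (rv v) e := by
  unfold incD incU
  rw [RFL.fD_eq h, RFL.fD_eq h]

theorem incU_eq {v : ℤ → ℤ × ℤ} (h : UpDown v) (t : Environment) (k e : ℤ) :
    incU t k v e = incD (N.refl t) (-k) (rv v) e := by
  unfold incD incU
  rw [RFL.fU_eq h, RFL.fU_eq h]

theorem LE_refl_iff {v w : ℤ → ℤ × ℤ} (hv : UpDown v) (hw : UpDown w) (t : Environment) :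
    LE (N.refl t) (rv v) (rv w) ↔ LE t w v := by
  unfold LE
  have h1 : ∀ (u : ℤ → ℤ × ℤ), UpDown u → ∀ k e, incU (N.refl t) k (rv u) e = incD t (-k) u e :=
    fun u hu k e => by rw [incD_eq hu, neg_neg]
  have h2 : ∀ (u : ℤ → ℤ × ℤ), UpDown u → ∀ k e, incD (N.refl t) k (rv u) e = incU t (-k) u e :=
    fun u hu k e => by rw [incU_eq hu, neg_neg]
  simp only [h1 v hv, h1 w hw, h2 v hv, h2 w hw]
  constructor
  · rintro ⟨a, b⟩
    refine ⟨fun k e => ?_, fun k e => ?_⟩
    · have := b (-k) e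
      rwa [neg_neg] at this
    · have := a (-k) e
      rwa [neg_neg] at this
  · rintro ⟨a, b⟩
    exact ⟨fun k e => b _ _, fun k e => a _ _⟩

/-- reflection of the index -/
def rI (i : ℤ × ℤ) : ℤ × ℤ := (i.1, -i.2)

theorem rI_add (i a : ℤ × ℤ) : rI (i + a) = rI i + rI a := by
  ext
  · rfl
  · simp [rI]
    ring

@[simp] theorem rI_rI (i : ℤ × ℤ) : rI (rI i) = i := by
  ext <;> simp [rI]

theorem shift_rI_refl (a : ℤ × ℤ) (t : Environment) :
    A.shift (rI a) (N.refl t) = N.refl (A.shift a t) := by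
  have := RFL.shift_refl (rI a) t
  rw [this]
  simp [rI]

/-- the reflected family -/
noncomputable def mirror (F : BFam) : BFam where
  g i t := rv (F.g (rI i) (N.refl t))
  pres i t := F.pres (rI i) (N.refl t)
  sl i t := -F.sl (rI i) (N.refl t)
  g_meas i n := by
    have h := (F.g_meas (rI i) (-n)).comp N.measurable_refl
    have h2 : Measurable fun z : ℤ × ℤ => ((z.1, -z.2) : ℤ × ℤ) := Measurable.of_discrete
    exact h2.comp h
  pres_meas i := N.measurable_refl (F.pres_meas (rI i))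
  sl_meas i := ((F.sl_meas (rI i)).comp N.measurable_refl).neg
  g_add i a t n := by
    have h := F.g_add (rI i) (rI a) (N.refl t) (-n)
    rw [shift_rI_refl] at h
    change ((F.g (rI (i + a)) (N.refl t) (-n)).1, -(F.g (rI (i + a)) (N.refl t) (-n)).2) =
      ((F.g (rI i) (N.refl (A.shift a t)) (-n)).1,
        -(F.g (rI i) (N.refl (A.shift a t)) (-n)).2) + a
    rw [rI_add, h]
    ext
    · simp [rI]
    · simp [rI]
      ring
  pres_add i a t := by
    have h := F.pres_add (rI i) (rI a) (N.refl t)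
    rwa [shift_rI_refl, ← rI_add] at h
  sl_add i a t := by
    have h := F.sl_add (rI i) (rI a) (N.refl t)
    rw [shift_rI_refl, ← rI_add] at h
    rw [h]

section main

variable {G : Measure ℝ} [IsProbabilityMeasure G] {F : BFam}
  {lt : Environment → ℤ → ℤ → Prop}

theorem mem_mirror_AX (t : Environment) (x : ℤ) : x ∈ (mirror F).AX t ↔ x ∈ F.AX (N.refl t) := by
  change F.pres (x, -0) (N.refl t) ↔ F.pres (x, 0) (N.refl t)
  rw [neg_zero]

theorem mirror_AX (t : Environment) : (mirror F).AX t = F.AX (N.refl t) :=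
  Set.ext fun x => mem_mirror_AX t x

theorem isSucc_swap {A : Set ℤ} {lt : ℤ → ℤ → Prop} {x j : ℤ} :
    IsSucc A (fun a b => lt b a) x j ↔ IsSucc A lt j x := by
  unfold IsSucc
  constructor
  · rintro ⟨h1, h2, h3, h4⟩
    exact ⟨h2, h1, h3, fun k hk h => h4 k hk ⟨h.2, h.1⟩⟩
  · rintro ⟨h1, h2, h3, h4⟩
    exact ⟨h2, h1, h3, fun k hk h => h4 k hk ⟨h.2, h.1⟩⟩

theorem shift_zero_refl (z : ℤ) (t : Environment) :
    N.refl (A.shift (z, 0) t) = A.shift (z, 0) (N.refl t) := by
  have := shift_rI_refl (z, 0) t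
  rw [← this]
  simp [rI]

/-- **lower functions**: a label and its successor have the same increments -/
theorem same_incD (hG : M51.Law213 G) (hm : ∀ x y, MeasurableSet {t | lt t x y})
    (hc : ∀ (z : ℤ) t x y, lt (A.shift (z, 0) t) x y ↔ lt t (x + z) (y + z))
    (hsto : ∀ᵐ t ∂(iidLaw G), STO (F.AX t) (lt t))
    (hUD : ∀ᵐ t ∂(iidLaw G), ∀ i, F.pres i t → UpDown (F.g i t))
    (hup : ∀ᵐ t ∂(iidLaw G), UpFacts (mirror F) t)
    (hlt : ∀ᵐ t ∂(iidLaw G), ∀ x ∈ F.AX t, ∀ y ∈ F.AX t, lt t x y →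
      (∀ e, incD t 0 (F.g (x, 0) t) e ≤ incD t 0 (F.g (y, 0) t) e) ∧
        F.sl (x, 0) t ≤ F.sl (y, 0) t)
    {B : ℝ} (hB0 : 0 ≤ B) (hB : ∀ᵐ t ∂(iidLaw G), ∀ x ∈ F.AX t, |F.sl (x, 0) t| ≤ B)
    (hsucc : ∀ᵐ t ∂(iidLaw G), ∀ x ∈ F.AX t, ∃ j, IsSucc (F.AX t) (lt t) x j) :
    ∀ᵐ t ∂(iidLaw G), ∀ x j, IsSucc (F.AX t) (lt t) x j → ∀ e,
      incD t 0 (F.g (j, 0) t) e = incD t 0 (F.g (x, 0) t) e := by
  have D := lfield (G := G) F lt hm hc hsto
  have hpred := D.ae_exists_pred hsucc
  have key := same_incU (G := G) (F := mirror F) (lt := fun t x y => lt (N.refl t) y x) hG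
    (fun x y => N.measurable_refl (hm y x))
    (fun z t x y => by rw [shift_zero_refl]; exact hc z (N.refl t) y x)
    (by
      filter_upwards [RFL.ae_refl.2 hsto] with t ht
      rw [mirror_AX]
      exact ht.swap)
    hup
    (by
      filter_upwards [RFL.ae_refl.2 hlt, RFL.ae_refl.2 hUD] with t ht hU x hx y hy hxy
      rw [mem_mirror_AX] at hx hy
      obtain ⟨h1, h2⟩ := ht y hy x hx hxy
      have hgx : (mirror F).g (x, 0) t = rv (F.g (x, 0) (N.refl t)) := by
        change rv (F.g (x, -0) (N.refl t)) = _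
        rw [neg_zero]
      have hgy : (mirror F).g (y, 0) t = rv (F.g (y, 0) (N.refl t)) := by
        change rv (F.g (y, -0) (N.refl t)) = _
        rw [neg_zero]
      have e1 : ∀ z ∈ F.AX (N.refl t), ∀ e, incU t 0 (rv (F.g (z, 0) (N.refl t))) e =
          incD (N.refl t) 0 (F.g (z, 0) (N.refl t)) e := by
        intro z hz e
        rw [incD_eq (hU (z, 0) hz), N.refl_refl, neg_zero]
      constructor
      · intro e
        rw [hgx, hgy, e1 x hx, e1 y hy]
        exact h1 e
      · change -F.sl (x, -0) (N.refl t) ≤ -F.sl (y, -0) (N.refl t)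
        rw [neg_zero]
        linarith)
    hB0
    (by
      filter_upwards [RFL.ae_refl.2 hB] with t ht x hx
      rw [mem_mirror_AX] at hx
      change |-F.sl (x, -0) (N.refl t)| ≤ B
      rw [abs_neg, neg_zero]
      exact ht x hx)
    (by
      filter_upwards [RFL.ae_refl.2 hpred] with t ht x hx
      rw [mem_mirror_AX] at hx
      obtain ⟨j, hj⟩ := ht x hx
      rw [mirror_AX]
      exact ⟨j, isSucc_swap.2 hj⟩)
  have key' := RFL.ae_refl.2 key
  filter_upwards [key', hUD] with t ht hU x j hj e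
  have hx := hj.1
  have hj' := hj.2.1
  have h1 := ht j x (by
    rw [mirror_AX, N.refl_refl]
    exact isSucc_swap.2 hj) e
  have e1 : ∀ z ∈ F.AX t, incU (N.refl t) 0 ((mirror F).g (z, 0) (N.refl t)) e =
      incD t 0 (F.g (z, 0) t) e := by
    intro z hz
    rw [incD_eq (hU (z, 0) hz), neg_zero]
    congr 1
    change rv (F.g (z, -0) (N.refl (N.refl t))) = _
    rw [neg_zero, N.refl_refl]
  rw [e1 x hx, e1 j hj'] at h1
  exact h1.symm

end main

end Crest.Agent.R151.Y96
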