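import Mathlib
import Crest.Prelude.Def_PlanarFPP
import Crest.Agent.R151.S113G
import Crest.Agent.R151.Y96F

/-!
# R151, SEL I (helper113): the family `famR C R : Y96.BFam` of the selected bigeodesics
-/

set_option autoImplicit false

open MeasureTheory Filter Topology
open Crest.ProbabilityR.FirstPassage

namespace Crest.Agent.R151.SEL

open Crest.Agent.R151 Crest.Agent.R151.Y

/-- the family of the selected bigeodesics of the cone class -/
noncomputable def famR (C : ℝ) (R : ℕ) : Y96.BFam where
  g i t := gamR C R i t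
  pres i t := CrR C R i t
  sl i t := slopeR C R i t
  g_meas i n := measurable_gamR C R i n
  pres_meas i := measurableSet_crR C R i
  sl_meas i := measurable_slopeR C R i
  g_add i a t n := gamR_add C R i a t n
  pres_add i a t := crR_add C R i a t
  sl_add i a t := slopeR_add C R i a t

variable {C C' : ℝ} {R : ℕ} {i : ℤ × ℤ} {t : Environment}

theorem famR_mem_big (hC : C < C') (h : (famR C R).pres i t) :
    (famR C R).g i t ∈ Y96.Big C' t := kc_gamR hC h

theorem famR_updown (h : (famR C R).pres i t) : UpDown ((famR C R).g i t) := updown_gamR h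

theorem famR_zero (h : (famR C R).pres i t) : (famR C R).g i t 0 = i := gamR_zero h

theorem famR_entU (h : (famR C R).pres i t) : entU i.2 ((famR C R).g i t) = 0 := entU_gamR h

theorem famR_tailU (h : (famR C R).pres i t) (n : ℕ) :
    tailU i.2 ((famR C R).g i t) n = (famR C R).g i t n := tailU_gamR h n

/-- the slope function of the family is the slope -/
theorem famR_sl {s : ℝ} (h : Y96.HasSl t ((famR C R).g i t) s) : (famR C R).sl i t = s := by
  exact slp_eq (h.up i.2).top

/-- localisation of the selected bigeodesic on its own row: the last entrance to `{y ≥ i.2}` is at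
`i`, the first exit from `{y ≤ i.2 - 1}` is within `C + R` of it. -/
theorem famR_locU (h : (famR C R).pres i t) : locU i.2 ((famR C R).g i t) = i.1 := by
  unfold locU
  rw [famR_tailU h]
  have := famR_zero h
  simp only [Nat.cast_zero]
  rw [this]

theorem famR_locD (h : (famR C R).pres i t) :
    |((locD (i.2 - 1) ((famR C R).g i t) : ℤ) : ℝ) - i.1| ≤ |C| + R := by
  have hv := famR_updown h
  have hs := gamR_spec h
  obtain ⟨m, hm⟩ : ∃ m, m = entD (i.2 - 1) ((famR C R).g i t) := ⟨_, rfl⟩
  have h1 : (locD (i.2 - 1) ((famR C R).g i t)) = ((famR C R).g i t m).1 := by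
    unfold locD tailD
    rw [← hm]
    simp
  have hm2 : ((famR C R).g i t m).2 = i.2 - 1 := by
    rw [hm]
    exact hv.entD_snd hs.2.1.2.1
  have hm0 : m < 0 := by
    have := hv.entD_lt_entU (k := i.2 - 1) (l := i.2) (by omega)
    rw [← hm, famR_entU h] at this
    exact this
  have h2 := (hs.2.2 m).2.2 hm0
  have h3 := h2.2
  have e1 : (gamR C R i t m).2 = i.2 - 1 := hm2
  simp only [Prod.fst_sub, Prod.snd_sub, e1] at h3
  rw [h1]
  have e2 : |((i.2 - 1 - i.2 : ℤ) : ℝ)| = 1 := by
    have : i.2 - 1 - i.2 = -1 := by ring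
    rw [this]
    simp
  rw [e2] at h3
  have h4 : |(((famR C R).g i t m).1 : ℝ) - i.1| ≤ C * 1 + R := by
    have : ((gamR C R i t m).1 - i.1 : ℤ) = (((famR C R).g i t m).1 - i.1 : ℤ) := rfl
    rw [this] at h3
    push_cast at h3
    exact h3
  have := le_abs_self C
  linarith

variable {G : Measure ℝ} [IsProbabilityMeasure G]

/-- if the selection is a.s. empty at `0` for every `R`, there are no proper bigeodesics -/
theorem ae_big_empty (h : ∀ R, iidLaw G {t | (0 : ℤ) ∈ (famR C R).AX t} = 0) :
    ∀ᵐ t ∂(iidLaw G), ∀ v, v ∉ Y96.Big C t := by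
  rw [ae_iff]
  by_contra hcon
  obtain ⟨R, hR⟩ := measure_crR_pos (P := iidLaw G) (C := C)
    (fun a => (A.mp_shift G a).map_eq) (v0 := {t | ¬ ∀ v, v ∉ Y96.Big C t}) hcon
    (fun t ht => by
      simp only [Set.mem_ofPred_eq, not_forall, not_not] at ht
      obtain ⟨v, hv⟩ := ht
      exact ⟨v, hv.1, ⟨hv.2.2.2.1, hv.2.2.2.2⟩, hv.2.1, hv.2.2.1⟩)
  exact hR (h R)

end Crest.Agent.R151.SEL
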