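import Mathlib
import Crest.Prelude.Def_PlanarFPP
import Crest.Agent.R151.S113I
import Crest.Agent.R151.Y635I
import Crest.Agent.R151.F592f

/-!
# R151, SEL J (helper113): `famR` as a `Sel0` of helper592
-/

set_option autoImplicit false

open MeasureTheory Filter Topology
open Crest.ProbabilityR.FirstPassage

namespace Crest.Agent.R151.SEL

open Crest.Agent.R151 Crest.Agent.R151.Y

variable {G : Measure ℝ} [IsProbabilityMeasure G] {m C C' : ℝ} {R : ℕ}

/-- order of labels on all rows implies order on the rows `0`, `-1` -/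
theorem labLe_of_LE {t : Environment} {v w : ℤ → ℤ × ℤ} (h : Y96.LE t v w) (k j : ℤ) :
    H.LabLe (H.lab t k j v) (H.lab t k j w) :=
  ⟨fun x => h.1 k x, fun x => h.2 j x⟩

/-- **the selected family is a `Sel0`** -/
theorem sel0_famR (hC : C < C') (hF : ∀ᵐ t ∂(iidLaw G), Y96.Facts m C' t) :
    F592.Sel0 (iidLaw G) (fun x t => (famR C R).g (x, 0) t) (famR C R).AX (⌈|C|⌉₊ + R) where
  measγ x n := (famR C R).g_meas (x, 0) n
  measX x := (famR C R).measurableSet_AX x
  covγ z x t n := by
    have := (famR C R).g_add (x, 0) (z, 0) t n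
    simpa using this
  covX z t x := (famR C R).AX_shift z t x
  mp z := A.mp_shift G (z, 0)
  pos := by
    filter_upwards [hF] with t ht e
    exact ht.nt.pos ht.nn e
  big := by
    filter_upwards with t x hx
    exact gamR_bigeodesic hx
  ud := by
    filter_upwards with t x hx
    exact famR_updown hx
  locU := by
    filter_upwards with t x hx
    have h1 : entU 0 ((famR C R).g (x, 0) t) = 0 := famR_entU hx
    have h2 : (famR C R).g (x, 0) t 0 = (x, 0) := famR_zero hx
    unfold F592.pu
    rw [h1, h2]
  locD := by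
    filter_upwards with t x hx
    have h1 := famR_locD hx
    have h2 : locD (-1) ((famR C R).g (x, 0) t) = F592.pd (-1) ((famR C R).g (x, 0) t) := by
      unfold locD tailD F592.pd
      simp
    have h3 : (((x, 0) : ℤ × ℤ).2 - 1) = -1 := by simp
    rw [h3, h2] at h1
    have h4 : |((F592.pd (-1) ((famR C R).g (x, 0) t) - x : ℤ) : ℝ)| ≤ ((⌈|C|⌉₊ + R : ℕ) : ℝ) := by
      push_cast
      refine h1.trans ?_
      have := Nat.le_ceil |C|
      linarith
    rw [← Int.cast_abs] at h4
    exact_mod_cast h4
  tot := by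
    filter_upwards [hF] with t ht x hx y hy
    rcases ht.le_total (famR_mem_big hC hx) (famR_mem_big hC hy) with h | h
    · exact Or.inl (labLe_of_LE h 0 (-1))
    · exact Or.inr (labLe_of_LE h 0 (-1))

/-- the slopes of the family -/
theorem famR_hasSl (hC : C < C') {t : Environment} (hF : Y96.Facts m C' t) {i : ℤ × ℤ}
    (h : (famR C R).pres i t) :
    |(famR C R).sl i t| < m ∧ Y96.HasSl t ((famR C R).g i t) ((famR C R).sl i t) := by
  obtain ⟨s, hs, hsl⟩ := hF.slope _ (famR_mem_big hC h)
  rw [famR_sl hsl]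
  exact ⟨hs, hsl⟩

end Crest.Agent.R151.SEL
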