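import Mathlib
import Crest.Agent.R151.R78M

/-!
# R151/S113M — (M): m-cell exit (owner helper113; builds on helper78's R78A-R78M)

Routes of a row which leave the window have to cross `m` cells leftwards.
-/

set_option autoImplicit false

open Crest.ProbabilityR.FirstPassage Filter

namespace Crest.Agent.R151.R78

open Crest.Agent.R151.K Crest.Agent.R151.Pl

variable {t : Environment} {H H' : ℤ → V}

section window

variable {F : Frame} {lo hi lo' hi' κ : ℝ} {m : ℕ} {s r : ℕ → ℝ} {z w : ℕ → ℤ}
  {f : (l : ℕ) → Wk (H (z l)) (H' (w l))} {A B : Set V} {Ln : ℕ → Set V} {a b : ℤ}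
  {i j : ℕ → ℤ}

namespace IsFences

lemma z_le (hf : IsFences F κ H H' m s r z w f) (hb : Back F κ H) {n : ℕ} :
    ∀ {l : ℕ}, n ≤ l → l ≤ m → z n ≤ z l := by
  intro l
  induction l with
  | zero => intro h1 _; rw [Nat.le_zero.1 h1]
  | succ l ih =>
    intro h1 h2
    rcases Nat.lt_or_ge n (l + 1) with h3 | h3
    · exact (ih (by omega) (by omega)).trans (hf.z_lt hb (by omega)).le
    · rw [Nat.le_antisymm h1 h3]

lemma lt_of_lt (hf : IsFences F κ H H' m s r z w f) (hκ : 0 ≤ κ) {n : ℕ} :
    ∀ {l : ℕ}, n < l → l ≤ m → r n + κ < s l := by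
  intro l
  induction l with
  | zero => intro h1 _; omega
  | succ l ih =>
    intro h1 h2
    rcases Nat.lt_or_ge n l with h3 | h3
    · have h4 := ih h3 (by omega)
      have h5 := hf.lt l (by omega)
      have h6 := ((hf.isOpen l (by omega)).sub _ (f l).start_mem_support)
      have h7 := h6.1
      have h8 := h6.2
      linarith
    · have : n = l := by omega
      subst this
      exact hf.lt n (by omega)

lemma pair (hf : IsFences F κ H H' m s r z w f) (hκ : 0 ≤ κ) (hm : 0 < m) :
    IsPair F κ H H' (f 0) (f m) (s 0) (r 0) (s m) (r m) :=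
  ⟨hf.isOpen 0 (Nat.zero_le _), hf.isOpen m le_rfl, hf.lt_of_lt hκ hm le_rfl⟩

end IsFences

/-- mirror image of `window_aux`: a walk `k` from `H x`, `x > z m`, to a point `p` of fence `n`. -/
theorem window_aux_left (h : IsStrip F lo hi H) (h' : IsStrip F lo' hi' H') (hlt : hi < lo')
    (hbk : Back F κ H) (hbk' : Back F κ H')
    (hf : IsFences F κ H H' m s r z w f)
    (hfB : ∀ l ≤ m, ∀ x ∈ (f l).support, x ∈ B) (hAB : A ⊆ B)
    (hLn : ∀ l < m, ∀ x ∈ B, s l - κ - F.esc ≤ F.al x → F.al x ≤ r (l + 1) + κ + F.esc →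
      x ∈ Ln l)
    (hbd : BddBelow (routes t H H' B a b))
    (hbdl : ∀ l < m, BddBelow (routes t H H' (Ln l) (i (l + 1)) (j l)))
    (haz : ∀ l ≤ m, a ≤ z l) (hwb : ∀ l ≤ m, w l ≤ b)
    (hi : ∀ l ≤ m, i l ≤ z l) (hj : ∀ l ≤ m, w l ≤ j l) {x : ℤ} (hx : z m < x) (hax : a ≤ x)
    (d' : ℕ) : ∀ (n : ℕ) (_ : n + d' = m) (p : V) (f₁ : Wk (H (z n)) p) (f₂ : Wk p (H' (w n)))
      (_ : f n = f₁.append f₂) (k : Wk (H x) p) (_ : ∀ v ∈ k.support, v ∈ A)
      (_ : ∀ q, H q ∉ k.support.tail) (_ : ∀ q, H' q ∉ k.support),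
      hull t H H' B a b + ∑ l ∈ Finset.Ico n m, (hull t H H' (Ln l) (i (l + 1)) (j l) -
        val t H H' (f (l + 1)) - (val t H H' (f l) - hull t H H' B a b)) ≤
      hc t H x + walkCost t k + walkCost t f₂ - hc t H' (w n) := by
  have hκ : 0 ≤ κ := by have := hbk 0 0 le_rfl; linarith
  induction d' with
  | zero =>
    intro n hn p f₁ f₂ e k hkA hkH hkH'
    have hnm : n = m := by omega
    subst hnm
    have hopen : IsOpen H H' B (k.append f₂) := by
      have hf0 := hf.isOpen n le_rfl
      rw [e] at hf0
      refine ⟨fun v hv => ?_, fun q hq => ?_, fun q hq => ?_⟩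
      · rw [mem_support_append] at hv
        rcases hv with hv | hv
        · exact hAB (hkA v hv)
        · exact hfB n le_rfl v (by rw [e, mem_support_append]; exact Or.inr hv)
      · rw [mem_tail_append] at hq
        rcases hq with hq | hq
        · exact hkH q hq
        · exact hf0.fst q (by rw [mem_tail_append]; exact Or.inr hq)
      · rw [mem_dropLast_append] at hq
        rcases hq with hq | hq
        · exact hkH' q (List.mem_of_mem_dropLast hq)
        · exact hf0.snd q (by rw [mem_dropLast_append]; exact Or.inr hq)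
    have := hull_le hbd hax (hwb n le_rfl) _ hopen
    rw [walkCost_append] at this
    simp only [Finset.Ico_self, Finset.sum_empty]
    linarith
  | succ d' ih =>
    intro n hn p f₁ f₂ e k hkA hkH hkH'
    have hnm : n < m := by omega
    have hfo := hf.isOpen (n + 1) hnm
    have hfo' := hf.isOpen n hnm.le
    -- `k` meets fence `n + 1`
    have hopen : IsOpen H H' Set.univ (k.append f₂) := by
      have hf0 := hfo'
      rw [e] at hf0
      refine ⟨fun v _ => trivial, fun q hq => ?_, fun q hq => ?_⟩
      · rw [mem_tail_append] at hq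
        rcases hq with hq | hq
        · exact hkH q hq
        · exact hf0.fst q (by rw [mem_tail_append]; exact Or.inr hq)
      · rw [mem_dropLast_append] at hq
        rcases hq with hq | hq
        · exact hkH' q (List.mem_of_mem_dropLast hq)
        · exact hf0.snd q (by rw [mem_dropLast_append]; exact Or.inr hq)
    have hzx : z (n + 1) < x := lt_of_le_of_lt (hf.z_le hbk (by omega) le_rfl) hx
    obtain ⟨x', hx', hx''⟩ := (h.crosses h' hlt) hzx (hf.w_lt hbk' hnm) (f (n + 1))
      (k.append f₂) hfo.univ hopen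
    have hxk : x' ∈ k.support := by
      rw [mem_support_append] at hx''
      rcases hx'' with hx'' | hx''
      · exact hx''
      · exact absurd hx' (hf.disj hκ hnm x' (by rw [e, mem_support_append]; exact Or.inr hx''))
    -- last visit `q` of fence `n + 1`
    obtain ⟨q, k₁, k₂, rfl, hq, hk₂⟩ := exists_last k {x | x ∈ (f (n + 1)).support}
      ⟨x', hxk, hx'⟩
    -- first hit `p'` of fence `n` after it
    obtain ⟨p', d, c, rfl, hp', hd⟩ := exists_first k₂ {x | x ∈ (f n).support}
      ⟨p, k₂.end_mem_support, by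
        change p ∈ (f n).support
        rw [e, mem_support_append]; exact Or.inl f₁.end_mem_support⟩
    obtain ⟨g₁, g₂, eg⟩ := exists_split (f (n + 1)) hq
    obtain ⟨h₁, h₂, eh⟩ := exists_split (f n) hp'
    have hd1 : ∀ v ∈ d.support, v ∈ (k₁.append (d.append c)).support := fun v hv => by
      rw [mem_support_append, mem_support_append]; exact Or.inr (Or.inl hv)
    have hdH : ∀ l, H l ∉ d.support := by
      intro l hl
      rw [mem_support_iff_tail] at hl
      rcases hl with hl | hl
      · -- `q = H l` on fence `n + 1`, so `l = z (n + 1)`; and `k` has it only at its start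
        have h1 : l = z (n + 1) := hfo.eq_fst h.hwy.inj (by rw [hl]; exact hq)
        have h2 : H l ∈ (k₁.append (d.append c)).support := by
          rw [hl, mem_support_append]; exact Or.inl k₁.end_mem_support
        rw [mem_support_iff_tail] at h2
        rcases h2 with h2 | h2
        · have := h.hwy.inj h2
          omega
        · exact hkH l h2
      · exact hkH l (by
          rw [mem_tail_append, mem_tail_append]; exact Or.inr (Or.inl hl))
    have hdH' : ∀ l, H' l ∉ d.support := fun l hl => hkH' l (hd1 _ hl)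
    -- the region of `d`
    have hdreg : ∀ v ∈ d.support, s n - κ - F.esc ≤ F.al v ∧ F.al v ≤ r (n + 1) + κ + F.esc := by
      intro v hv
      have hC0 := F.esc_nonneg
      obtain ⟨d₁, d₂, rfl⟩ := exists_split d hv
      constructor
      · by_cases hxp : v ∈ (f n).support
        · have := (hfo'.sub v hxp).1
          linarith
        · refine stay_left h h' hlt hbk hbk' (fun v K => F.esc_spec v K) hfo'.univ hfo.univ
            (hf.disj hκ hnm) (hf.z_lt hbk hnm) (hf.w_lt hbk' hnm)
            (fun x hx => (hfo'.sub x hx).1) hq d₁.reverse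
            (fun k hk => hdH k (by rw [mem_support_append]; exact Or.inl (by simpa using hk)))
            (fun k hk => hdH' k (by rw [mem_support_append]; exact Or.inl (by simpa using hk))) ?_
          intro y hy hyf
          have hy' : y ∈ d₁.support := by simpa using hy
          rw [mem_support_iff_dropLast] at hy'
          rcases hy' with hy' | rfl
          · exact hd y (by rw [mem_dropLast_append]; exact Or.inl hy') hyf
          · exact hxp hyf
      · by_cases hxp : v ∈ (f (n + 1)).support
        · have := (hfo.sub v hxp).2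
          linarith
        · refine stay_right h h' hlt hbk hbk' (fun v K => F.esc_spec v K) hfo.univ hfo'.univ
            (fun x hx hx' => hf.disj hκ hnm x hx' hx) (hf.z_lt hbk hnm) (hf.w_lt hbk' hnm)
            (fun x hx => (hfo.sub x hx).2) hp' d₂
            (fun k hk => hdH k (by rw [mem_support_append]; exact Or.inr hk))
            (fun k hk => hdH' k (by rw [mem_support_append]; exact Or.inr hk)) ?_
          intro y hy hyf
          rw [mem_support_iff_tail] at hy
          rcases hy with rfl | hy
          · exact hxp hyf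
          · exact hk₂ y (by
              rw [mem_tail_append, mem_tail_append]; exact Or.inl (Or.inr hy)) hyf
    have hmm : ∀ {x y : V} {u : Wk x y} {v : V}, v ∈ u.support.tail → v ∈ u.support :=
      fun h => List.mem_of_mem_tail h
    have hmd : ∀ {x y : V} {u : Wk x y} {v : V}, v ∈ u.support.dropLast → v ∈ u.support :=
      fun h => List.mem_of_mem_dropLast h
    have hfe : IsOpen H H' {v | s n ≤ F.al v ∧ F.al v ≤ r n} (f₁.append f₂) := by
      rw [← e]; exact hfo'
    rw [eg] at hfo
    rw [eh] at hfo'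
    -- route C : along fence `n` to `p'`, then `c`, then fence `n` from `p`
    have hC : IsOpen H H' B ((h₁.append c).append f₂) := by
      refine ⟨fun v hv => ?_, fun q' hq' => ?_, fun q' hq' => ?_⟩
      · rw [mem_support_append, mem_support_append] at hv
        rcases hv with (hv | hv) | hv
        · exact hfB n hnm.le v (by rw [eh, mem_support_append]; exact Or.inl hv)
        · exact hAB (hkA v (by
            rw [mem_support_append, mem_support_append]; exact Or.inr (Or.inr hv)))
        · exact hfB n hnm.le v (by rw [e, mem_support_append]; exact Or.inr hv)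
      · rw [mem_tail_append, mem_tail_append] at hq'
        rcases hq' with (hq' | hq') | hq'
        · exact hfo'.fst q' (by rw [mem_tail_append]; exact Or.inl hq')
        · exact hkH q' (by
            rw [mem_tail_append, mem_tail_append]; exact Or.inr (Or.inr hq'))
        · exact hfe.fst q' (by rw [mem_tail_append]; exact Or.inr hq')
      · rw [mem_dropLast_append, mem_dropLast_append] at hq'
        rcases hq' with (hq' | hq') | hq'
        · exact hfo'.snd q' (by rw [mem_dropLast_append]; exact Or.inl hq')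
        · exact hkH' q' (by
            rw [mem_support_append, mem_support_append]; exact Or.inr (Or.inr (hmd hq')))
        · exact hfe.snd q' (by rw [mem_dropLast_append]; exact Or.inr hq')
    -- route D : along fence `n+1` to `q`, then `d`, then fence `n` from `p'`
    have hD : IsOpen H H' (Ln n) ((g₁.append d).append h₂) := by
      have hC0 := F.esc_nonneg
      refine ⟨fun v hv => ?_, fun q' hq' => ?_, fun q' hq' => ?_⟩
      · have hlt' := hf.lt n hnm
        rw [mem_support_append, mem_support_append] at hv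
        rcases hv with (hv | hv) | hv
        · have h1 := hfo.sub v (by rw [mem_support_append]; exact Or.inl hv)
          have h2 := hfo'.sub _ (h₁.append h₂).start_mem_support
          refine hLn n hnm v (hfB (n + 1) hnm v (by
            rw [eg, mem_support_append]; exact Or.inl hv)) ?_ ?_
          · have := h1.1; have := h2.1; have := h2.2; linarith
          · have := h1.2; linarith
        · refine hLn n hnm v (hAB (hkA v (hd1 v hv))) (hdreg v hv).1 (hdreg v hv).2
        · have h1 := hfo'.sub v (by rw [mem_support_append]; exact Or.inr hv)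
          have h2 := hfo.sub _ (g₁.append g₂).start_mem_support
          refine hLn n hnm v (hfB n hnm.le v (by
            rw [eh, mem_support_append]; exact Or.inr hv)) ?_ ?_
          · have := h1.1; linarith
          · have := h1.2; have := h2.1; have := h2.2; linarith
      · rw [mem_tail_append, mem_tail_append] at hq'
        rcases hq' with (hq' | hq') | hq'
        · exact hfo.fst q' (by rw [mem_tail_append]; exact Or.inl hq')
        · exact hdH q' (hmm hq')
        · exact hfo'.fst q' (by rw [mem_tail_append]; exact Or.inr hq')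
      · rw [mem_dropLast_append, mem_dropLast_append] at hq'
        rcases hq' with (hq' | hq') | hq'
        · exact hfo.snd q' (by rw [mem_dropLast_append]; exact Or.inl hq')
        · exact hdH' q' (hmd hq')
        · exact hfo'.snd q' (by rw [mem_dropLast_append]; exact Or.inr hq')
    have kC := hull_le hbd (haz n hnm.le) (hwb n hnm.le) _ hC
    have kD := hull_le (hbdl n hnm) (hi (n + 1) hnm) (hj n hnm.le) _ hD
    have kS := ih (n + 1) (by omega) q g₁ g₂ eg k₁
      (fun v hv => hkA v (by rw [mem_support_append]; exact Or.inl hv))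
      (fun q' hq' => hkH q' (by rw [mem_tail_append]; exact Or.inl hq'))
      (fun q' hq' => hkH' q' (by rw [mem_support_append]; exact Or.inl hq'))
    rw [Finset.sum_eq_sum_Ico_succ_bot hnm]
    have v1 : val t H H' (f (n + 1)) =
        hc t H (z (n + 1)) + (walkCost t g₁ + walkCost t g₂) - hc t H' (w (n + 1)) := by
      unfold val; rw [eg, walkCost_append]
    have v2 : val t H H' (f n) =
        hc t H (z n) + (walkCost t h₁ + walkCost t h₂) - hc t H' (w n) := by
      unfold val; rw [eh, walkCost_append]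
    rw [walkCost_append, walkCost_append] at kC kD
    rw [walkCost_append, walkCost_append]
    linarith

/-- **m-cell exit to the left**, value form. -/
theorem left_exit_val (h : IsStrip F lo hi H) (h' : IsStrip F lo' hi' H') (hlt : hi < lo')
    (hbk : Back F κ H) (hbk' : Back F κ H')
    (hf : IsFences F κ H H' m s r z w f) (hm : 0 < m)
    (hfB : ∀ l ≤ m, ∀ x ∈ (f l).support, x ∈ B) (hAB : A ⊆ B)
    (hLn : ∀ l < m, ∀ x ∈ B, s l - κ - F.esc ≤ F.al x → F.al x ≤ r (l + 1) + κ + F.esc →
      x ∈ Ln l)
    (hbd : BddBelow (routes t H H' B a b))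
    (hbdl : ∀ l < m, BddBelow (routes t H H' (Ln l) (i (l + 1)) (j l)))
    (haz : ∀ l ≤ m, a ≤ z l) (hwb : ∀ l ≤ m, w l ≤ b)
    (hi : ∀ l ≤ m, i l ≤ z l) (hj : ∀ l ≤ m, w l ≤ j l) {x y : ℤ} (hx : z m < x) (hax : a ≤ x)
    (hyb : y ≤ b) (g : Wk (H x) (H' y)) (hg : IsOpen H H' A g)
    {v : V} (hv : v ∈ g.support) (hvl : F.al v < s 0 - κ - F.esc) :
    ∑ l ∈ Finset.range m, (hull t H H' (Ln l) (i (l + 1)) (j l) - hull t H H' B a b) -
      ∑ l ∈ Finset.range m, (val t H H' (f (l + 1)) - hull t H H' B a b) -
      ∑ l ∈ Finset.range m, (val t H H' (f l) - hull t H H' B a b) -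
      (val t H H' (f 0) - hull t H H' B a b) ≤
    val t H H' g - hull t H H' B a b := by
  have hκ : 0 ≤ κ := by have := hbk 0 0 le_rfl; linarith
  obtain ⟨p, p', g₁, g₂, g₃, rfl, hp, hp', hgH, hgH'⟩ :=
    left_exit h h' hlt hbk hbk' (hf.pair hκ hm) g hg hx hv hvl
  obtain ⟨f₁, f₂, e⟩ := exists_split (f 0) hp'
  have hmd : ∀ {x y : V} {u : Wk x y} {v : V}, v ∈ u.support.dropLast → v ∈ u.support :=
    fun h => List.mem_of_mem_dropLast h
  have key := window_aux_left (t := t) h h' hlt hbk hbk' hf hfB hAB hLn hbd hbdl haz hwb hi hj hx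
    hax m 0 (by omega) p' f₁ f₂ e (g₁.append g₂)
    (fun v hv => hg.sub v (by rw [mem_support_append]; exact Or.inl hv))
    (fun q hq => hg.fst q (by rw [mem_tail_append]; exact Or.inl hq))
    (fun q hq => by
      rw [mem_support_append] at hq
      rcases hq with hq | hq
      · rw [mem_support_iff_dropLast] at hq
        rcases hq with hq | hq
        · exact hg.snd q (by rw [mem_dropLast_append, mem_dropLast_append]; exact Or.inl (Or.inl hq))
        · exact hgH' q (by rw [hq]; exact g₂.start_mem_support)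
      · exact hgH' q hq)
  have hf0 := hf.isOpen 0 (Nat.zero_le _)
  rw [e] at hf0
  have hopen : IsOpen H H' B (f₁.append g₃) := by
    refine ⟨fun v hv => ?_, fun q hq => ?_, fun q hq => ?_⟩
    · rw [mem_support_append] at hv
      rcases hv with hv | hv
      · exact hfB 0 (Nat.zero_le _) v (by rw [e, mem_support_append]; exact Or.inl hv)
      · exact hAB (hg.sub v (by rw [mem_support_append]; exact Or.inr hv))
    · rw [mem_tail_append] at hq
      rcases hq with hq | hq
      · exact hf0.fst q (by rw [mem_tail_append]; exact Or.inl hq)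
      · exact hg.fst q (by rw [mem_tail_append]; exact Or.inr hq)
    · rw [mem_dropLast_append] at hq
      rcases hq with hq | hq
      · exact hf0.snd q (by rw [mem_dropLast_append]; exact Or.inl hq)
      · exact hg.snd q (by rw [mem_dropLast_append]; exact Or.inr hq)
  have kA := hull_le hbd (haz 0 (Nat.zero_le _)) hyb _ hopen
  have v1 : val t H H' (f 0) =
      hc t H (z 0) + (walkCost t f₁ + walkCost t f₂) - hc t H' (w 0) := by
    unfold val; rw [e, walkCost_append]
  have v2 : val t H H' ((g₁.append g₂).append g₃) =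
      hc t H x + (walkCost t (g₁.append g₂) + walkCost t g₃) - hc t H' y := by
    unfold val; rw [walkCost_append]
  rw [walkCost_append] at kA
  rw [← Finset.range_eq_Ico] at key
  have e1 : ∑ l ∈ Finset.range m, (hull t H H' (Ln l) (i (l + 1)) (j l) -
      val t H H' (f (l + 1)) - (val t H H' (f l) - hull t H H' B a b)) =
      ∑ l ∈ Finset.range m, (hull t H H' (Ln l) (i (l + 1)) (j l) - hull t H H' B a b) -
      ∑ l ∈ Finset.range m, (val t H H' (f (l + 1)) - hull t H H' B a b) -
      ∑ l ∈ Finset.range m, (val t H H' (f l) - hull t H H' B a b) := by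
    simp only [Finset.sum_sub_distrib]; ring
  rw [e1] at key
  linarith

/-- **m-cell exit to the right**, value form. -/
theorem right_exit_val (h : IsStrip F lo hi H) (h' : IsStrip F lo' hi' H') (hlt : hi < lo')
    (hbk : Back F κ H) (hbk' : Back F κ H')
    (hf : IsFences F κ H H' m s r z w f) (hm : 0 < m)
    (hfB : ∀ l ≤ m, ∀ x ∈ (f l).support, x ∈ B) (hAB : A ⊆ B)
    (hLn : ∀ l < m, ∀ x ∈ B, s l - κ - F.esc ≤ F.al x → F.al x ≤ r (l + 1) + κ + F.esc →
      x ∈ Ln l)
    (hbd : BddBelow (routes t H H' B a b))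
    (hbdl : ∀ l < m, BddBelow (routes t H H' (Ln l) (i (l + 1)) (j l)))
    (haz : ∀ l ≤ m, a ≤ z l) (hwb : ∀ l ≤ m, w l ≤ b)
    (hi : ∀ l ≤ m, i l ≤ z l) (hj : ∀ l ≤ m, w l ≤ j l) {x y : ℤ} (hax : a ≤ x) (hy : y < w 0)
    (hyb : y ≤ b) (g : Wk (H x) (H' y)) (hg : IsOpen H H' A g)
    {v : V} (hv : v ∈ g.support) (hvr : r m + κ + F.esc < F.al v) :
    ∑ l ∈ Finset.range m, (hull t H H' (Ln l) (i (l + 1)) (j l) - hull t H H' B a b) -
      ∑ l ∈ Finset.range m, (val t H H' (f l) - hull t H H' B a b) -
      ∑ l ∈ Finset.range m, (val t H H' (f (l + 1)) - hull t H H' B a b) -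
      (val t H H' (f m) - hull t H H' B a b) ≤
    val t H H' g - hull t H H' B a b := by
  have hκ : 0 ≤ κ := by have := hbk 0 0 le_rfl; linarith
  obtain ⟨p, p', g₁, g₂, g₃, rfl, hp, hp', hgH, hgH'⟩ :=
    right_exit h h' hlt hbk hbk' (hf.pair hκ hm) g hg hy hv hvr
  obtain ⟨f₁, f₂, e⟩ := exists_split (f m) hp
  have key := window_aux (t := t) h h' hlt hbk hbk' (fun v K => F.esc_spec v K) F.esc_nonneg hf hfB
    hAB hLn hbd hbdl haz hwb hi hj hy hyb m le_rfl p f₁ f₂ e (g₂.append g₃)
    (fun v hv => hg.sub v (by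
      rw [mem_support_append] at hv
      rw [mem_support_append, mem_support_append]
      rcases hv with hv | hv
      · exact Or.inl (Or.inr hv)
      · exact Or.inr hv))
    (fun q hq => by
      rw [mem_support_append] at hq
      rcases hq with hq | hq
      · exact hgH q hq
      · rw [mem_support_iff_tail] at hq
        rcases hq with hq | hq
        · exact hgH q (by rw [hq]; exact g₂.end_mem_support)
        · exact hg.fst q (by rw [mem_tail_append]; exact Or.inr hq))
    (fun q hq => by
      rw [mem_dropLast_append] at hq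
      rcases hq with hq | hq
      · exact hg.snd q (by rw [mem_dropLast_append, mem_dropLast_append]; exact Or.inl (Or.inr hq))
      · exact hg.snd q (by rw [mem_dropLast_append]; exact Or.inr hq))
  have hf0 := hf.isOpen m le_rfl
  rw [e] at hf0
  have hopen : IsOpen H H' B (g₁.append f₂) := by
    refine ⟨fun v hv => ?_, fun q hq => ?_, fun q hq => ?_⟩
    · rw [mem_support_append] at hv
      rcases hv with hv | hv
      · exact hAB (hg.sub v (by
          rw [mem_support_append, mem_support_append]; exact Or.inl (Or.inl hv)))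
      · exact hfB m le_rfl v (by rw [e, mem_support_append]; exact Or.inr hv)
    · rw [mem_tail_append] at hq
      rcases hq with hq | hq
      · exact hg.fst q (by rw [mem_tail_append, mem_tail_append]; exact Or.inl (Or.inl hq))
      · exact hf0.fst q (by rw [mem_tail_append]; exact Or.inr hq)
    · rw [mem_dropLast_append] at hq
      rcases hq with hq | hq
      · exact hg.snd q (by rw [mem_dropLast_append, mem_dropLast_append]; exact Or.inl (Or.inl hq))
      · exact hf0.snd q (by rw [mem_dropLast_append]; exact Or.inr hq)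
  have kA := hull_le hbd hax (hwb m le_rfl) _ hopen
  have v1 : val t H H' (f m) =
      hc t H (z m) + (walkCost t f₁ + walkCost t f₂) - hc t H' (w m) := by
    unfold val; rw [e, walkCost_append]
  have v2 : val t H H' ((g₁.append g₂).append g₃) =
      hc t H x + (walkCost t g₁ + walkCost t (g₂.append g₃)) - hc t H' y := by
    unfold val; rw [walkCost_append, walkCost_append, walkCost_append]; ring
  rw [walkCost_append] at kA
  have e1 : ∑ l ∈ Finset.range m, (hull t H H' (Ln l) (i (l + 1)) (j l) -
      val t H H' (f l) - (val t H H' (f (l + 1)) - hull t H H' B a b)) =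
      ∑ l ∈ Finset.range m, (hull t H H' (Ln l) (i (l + 1)) (j l) - hull t H H' B a b) -
      ∑ l ∈ Finset.range m, (val t H H' (f l) - hull t H H' B a b) -
      ∑ l ∈ Finset.range m, (val t H H' (f (l + 1)) - hull t H H' B a b) := by
    simp only [Finset.sum_sub_distrib]; ring
  rw [e1] at key
  linarith

end window

section labels

variable {F : Frame} {lo hi lo' hi' κ : ℝ}

/-- the lower bound of the cost of a leftward crossing of the `m` cells between the fences
`0, …, m`, gauge region `univ` -/
noncomputable def cellsLB (F : Frame) (t : Environment) (H H' : ℤ → V) (κ : ℝ) (a b : ℤ) (m : ℕ)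
    (s r : ℕ → ℝ) (x x' : ℕ → ℤ) : ℝ :=
  ∑ l ∈ Finset.range m, sh t H H' a b
      (F.lane (s l - κ - F.esc) (r (l + 1) + κ + F.esc)) (x (l + 1)) (x' l) -
    2 * ∑ l ∈ Finset.range (m + 1), sh t H H' a b (F.lane (s l) (r l)) (x l) (x' l)

/-- a family of fences -/
structure IsFam (F : Frame) (κ : ℝ) (t : Environment) (H H' : ℤ → V) (m : ℕ) (s r : ℕ → ℝ)
    (x x' : ℕ → ℤ) : Prop where
  fence : ∀ l ≤ m, IsFence F t H H' (s l) (r l) (x l) (x' l)
  lt : ∀ l < m, r l + κ < s (l + 1)

theorem IsFam.exists_opt {m : ℕ} {s r : ℕ → ℝ} {x x' : ℕ → ℤ} (hF : IsFam F κ t H H' m s r x x')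
    (h : IsStrip F lo hi H) (h' : IsStrip F lo' hi' H') (hlt : hi < lo') (ht : Nn t) :
    ∃ (z w : ℕ → ℤ) (f : (l : ℕ) → Wk (H (z l)) (H' (w l))),
      IsFences F κ H H' m s r z w f ∧ (∀ l ≤ m, x l ≤ z l) ∧ (∀ l ≤ m, w l ≤ x' l) ∧
      ∀ l ≤ m, hull t H H' (F.lane (s l) (r l)) (x l) (x' l) = val t H H' (f l) := by
  classical
  have hex : ∀ l, ∃ z w : ℤ, ∃ g : Wk (H z) (H' w), l ≤ m → (x l ≤ z ∧ w ≤ x' l ∧
      IsOpen H H' (F.lane (s l) (r l)) g ∧
      hull t H H' (F.lane (s l) (r l)) (x l) (x' l) = val t H H' g) := by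
    intro l
    by_cases hl : l ≤ m
    · obtain ⟨z, w, hz, hw, g, -, hg, e⟩ :=
        h.exists_hull h' hlt ht (subset_rfl) (hF.fence l hl).ne
      exact ⟨z, w, g, fun _ => ⟨hz, hw, hg, e⟩⟩
    · obtain ⟨g⟩ : Nonempty (Wk (H 0) (H' 0)) := inferInstance
      exact ⟨0, 0, g, fun h => absurd h hl⟩
  choose z w f hf using hex
  exact ⟨z, w, f, ⟨fun l hl => (hf l hl).2.2.1, hF.lt⟩, fun l hl => (hf l hl).1,
    fun l hl => (hf l hl).2.1, fun l hl => (hf l hl).2.2.2⟩

/-- **(M), m-cell exit lemma**: if the cost of `i → j` in the region `A ∩ lane` is larger than the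
cost in `A`, then the latter is at least the cost of a leftward crossing of the `m₁` cells of the
left family (between the start and the left side of the window) or of the `m₂` cells of the right
family (between the end and the right side of the window). -/
theorem exit_cells (h : IsStrip F lo hi H) (h' : IsStrip F lo' hi' H') (hlt : hi < lo')
    (hbk : Back F κ H) (hbk' : Back F κ H') (ht : Nn t)
    {m₁ m₂ : ℕ} (hm₁ : 0 < m₁) (hm₂ : 0 < m₂) {s r u v : ℕ → ℝ} {x x' y y' : ℕ → ℤ}
    (hL : IsFam F κ t H H' m₁ s r x x') (hR : IsFam F κ t H H' m₂ u v y y')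
    {S R σ σ' lL lR : ℝ} {a b i j : ℤ} (ha : IsPos F H S a) (hb : IsPos F H' R b)
    (hi : IsPos F H σ i) (hj : IsPos F H' σ' j)
    (hSs : ∀ l ≤ m₁, S ≤ s l) (hSσ : S ≤ σ) (hSu : ∀ l ≤ m₂, S ≤ u l)
    (hRr : ∀ l ≤ m₁, r l ≤ R) (hRv : ∀ l ≤ m₂, v l ≤ R) (hRσ : σ' ≤ R)
    (hσ : r m₁ + κ < σ) (hσ' : σ' + F.stp ≤ u 0) (hlL : lL ≤ s 0 - κ - F.esc)
    (hlR : v m₂ + κ + F.esc ≤ lR) {A : Set V} (hne : (routes t H H' A i j).Nonempty)
    (hex : hull t H H' A i j < hull t H H' (A ∩ F.lane lL lR) i j) :
    cellsLB F t H H' κ a b m₁ s r x x' ≤ sh t H H' a b A i j ∨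
      cellsLB F t H H' κ a b m₂ u v y y' ≤ sh t H H' a b A i j := by
  have hκ : 0 ≤ κ := by have := hbk 0 0 le_rfl; linarith
  obtain ⟨z, w, f, hf, hz, hw, he⟩ := hL.exists_opt h h' hlt ht
  obtain ⟨p, q, g, hg, hp, hq, hd⟩ := hR.exists_opt h h' hlt ht
  -- the fence terms are nonnegative
  have hFn : ∀ {m : ℕ} {s r : ℕ → ℝ} {x x' : ℕ → ℤ}, IsFam F κ t H H' m s r x x' →
      (∀ l ≤ m, S ≤ s l) → (∀ l ≤ m, r l ≤ R) → ∀ l ≤ m,
      0 ≤ sh t H H' a b (F.lane (s l) (r l)) (x l) (x' l) := by
    intro m s r x x' hF hS hR l hl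
    exact shp_nonneg (bddBelow_routes ht _ _ _ _ _) (hF.fence l hl).ne (Set.subset_univ _)
      (ha.mono (hF.fence l hl).pos (hS l hl)) ((hF.fence l hl).pos'.mono hb (hR l hl))
  -- lower bound for all cheap routes
  have key : ∀ c, hull t H H' A i j < c → c ≤ hull t H H' (A ∩ F.lane lL lR) i j →
      (cellsLB F t H H' κ a b m₁ s r x x' < c - hull t H H' Set.univ a b ∨
        cellsLB F t H H' κ a b m₂ u v y y' < c - hull t H H' Set.univ a b) := by
    intro c hcc hcc'
    obtain ⟨x₀, y₀, hx₀, hy₀, g₀, hg₀, hgc⟩ := exists_route_lt hne hcc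
    have hout : ¬ ∀ v ∈ g₀.support, v ∈ F.lane lL lR := by
      intro hall
      have := hull_le (bddBelow_routes ht H H' (A ∩ F.lane lL lR) i j) hx₀ hy₀ g₀
        (hg₀.inter hall)
      linarith
    push Not at hout
    obtain ⟨v₀, hv₀, hvl⟩ := hout
    have hax : a ≤ x₀ := (ha.mono hi hSσ).trans hx₀
    have hyb : y₀ ≤ b := hy₀.trans (hj.mono hb hRσ)
    have hvl' : F.al v₀ < lL ∨ lR < F.al v₀ := by
      by_contra hc
      push Not at hc
      exact hvl ⟨hc.1, hc.2⟩
    rcases hvl' with hvl' | hvl'
    · left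
      have hzx : z m₁ < x₀ := by
        refine lt_of_lt_of_le (hi.lt_of_lt hbk ?_) hx₀
        have := ((hf.isOpen m₁ le_rfl).sub _ (f m₁).start_mem_support).2
        linarith
      have := left_exit_val (t := t) (a := a) (b := b) (B := Set.univ)
        (Ln := fun l => F.lane (s l - κ - F.esc) (r (l + 1) + κ + F.esc)) (i := x) (j := x')
        h h' hlt hbk hbk' hf hm₁ (fun _ _ _ _ => trivial) (Set.subset_univ A)
        (fun l _ v _ h1 h2 => ⟨h1, h2⟩) (bddBelow_routes ht _ _ _ _ _)
        (fun l _ => bddBelow_routes ht _ _ _ _ _)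
        (fun l hl => (ha.mono (hL.fence l hl).pos (hSs l hl)).trans (hz l hl))
        (fun l hl => (hw l hl).trans ((hL.fence l hl).pos'.mono hb (hRr l hl)))
        hz hw hzx hax hyb g₀ hg₀ hv₀ (by linarith)
      have hFm := hFn hL hSs hRr m₁ le_rfl
      unfold cellsLB
      have e1 : ∑ l ∈ Finset.range (m₁ + 1), sh t H H' a b (F.lane (s l) (r l)) (x l) (x' l) =
          ∑ l ∈ Finset.range m₁, (val t H H' (f l) - hull t H H' Set.univ a b) +
            sh t H H' a b (F.lane (s m₁) (r m₁)) (x m₁) (x' m₁) := by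
        rw [Finset.sum_range_succ]
        congr 1
        refine Finset.sum_congr rfl fun l hl => ?_
        rw [Finset.mem_range] at hl
        unfold sh shp; rw [he l (by omega)]
      have e2 : ∑ l ∈ Finset.range (m₁ + 1), sh t H H' a b (F.lane (s l) (r l)) (x l) (x' l) =
          ∑ l ∈ Finset.range m₁, (val t H H' (f (l + 1)) - hull t H H' Set.univ a b) +
            (val t H H' (f 0) - hull t H H' Set.univ a b) := by
        rw [Finset.sum_range_succ']
        congr 1
        · refine Finset.sum_congr rfl fun l hl => ?_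
          rw [Finset.mem_range] at hl
          unfold sh shp; rw [he (l + 1) (by omega)]
        · unfold sh shp; rw [he 0 (by omega)]
      have e3 : ∑ l ∈ Finset.range m₁, sh t H H' a b
          (F.lane (s l - κ - F.esc) (r (l + 1) + κ + F.esc)) (x (l + 1)) (x' l) =
          ∑ l ∈ Finset.range m₁, (hull t H H'
            (F.lane (s l - κ - F.esc) (r (l + 1) + κ + F.esc)) (x (l + 1)) (x' l) -
            hull t H H' Set.univ a b) := rfl
      rw [two_mul, e3]
      nth_rewrite 2 [e1]
      rw [e2]
      have hv' : val t H H' g₀ = hc t H x₀ + walkCost t g₀ - hc t H' y₀ := rfl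
      rw [hv'] at this
      linarith
    · right
      have hyn : y₀ < q 0 := by
        by_contra hc
        push Not at hc
        have h1 := hj.al_le_of_le h'.hwy (hc.trans hy₀)
        have h2 := ((hg.isOpen 0 (Nat.zero_le _)).sub _ (g 0).end_mem_support).1
        linarith
      have := right_exit_val (t := t) (a := a) (b := b) (B := Set.univ)
        (Ln := fun l => F.lane (u l - κ - F.esc) (v (l + 1) + κ + F.esc)) (i := y) (j := y')
        h h' hlt hbk hbk' hg hm₂ (fun _ _ _ _ => trivial) (Set.subset_univ A)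
        (fun l _ v _ h1 h2 => ⟨h1, h2⟩) (bddBelow_routes ht _ _ _ _ _)
        (fun l _ => bddBelow_routes ht _ _ _ _ _)
        (fun l hl => (ha.mono (hR.fence l hl).pos (hSu l hl)).trans (hp l hl))
        (fun l hl => (hq l hl).trans ((hR.fence l hl).pos'.mono hb (hRv l hl)))
        hp hq hax hyn hyb g₀ hg₀ hv₀ (by linarith)
      have hFm := hFn hR hSu hRv 0 (Nat.zero_le _)
      unfold cellsLB
      have e1 : ∑ l ∈ Finset.range (m₂ + 1), sh t H H' a b (F.lane (u l) (v l)) (y l) (y' l) =
          ∑ l ∈ Finset.range m₂, (val t H H' (g l) - hull t H H' Set.univ a b) +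
            (val t H H' (g m₂) - hull t H H' Set.univ a b) := by
        rw [Finset.sum_range_succ]
        congr 1
        · refine Finset.sum_congr rfl fun l hl => ?_
          rw [Finset.mem_range] at hl
          unfold sh shp; rw [hd l (by omega)]
        · unfold sh shp; rw [hd m₂ le_rfl]
      have e2 : ∑ l ∈ Finset.range (m₂ + 1), sh t H H' a b (F.lane (u l) (v l)) (y l) (y' l) =
          ∑ l ∈ Finset.range m₂, (val t H H' (g (l + 1)) - hull t H H' Set.univ a b) +
            sh t H H' a b (F.lane (u 0) (v 0)) (y 0) (y' 0) := by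
        rw [Finset.sum_range_succ']
        congr 1
        refine Finset.sum_congr rfl fun l hl => ?_
        rw [Finset.mem_range] at hl
        unfold sh shp; rw [hd (l + 1) (by omega)]
      have e3 : ∑ l ∈ Finset.range m₂, sh t H H' a b
          (F.lane (u l - κ - F.esc) (v (l + 1) + κ + F.esc)) (y (l + 1)) (y' l) =
          ∑ l ∈ Finset.range m₂, (hull t H H'
            (F.lane (u l - κ - F.esc) (v (l + 1) + κ + F.esc)) (y (l + 1)) (y' l) -
            hull t H H' Set.univ a b) := rfl
      rw [two_mul, e3]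
      nth_rewrite 2 [e1]
      rw [e2]
      have hv' : val t H H' g₀ = hc t H x₀ + walkCost t g₀ - hc t H' y₀ := rfl
      rw [hv'] at this
      linarith
  -- let `c` tend to the hull
  by_contra hcon
  push Not at hcon
  obtain ⟨h1, h2⟩ := hcon
  set L := cellsLB F t H H' κ a b m₁ s r x x' with hLdef
  set R' := cellsLB F t H H' κ a b m₂ u v y y' with hRdef
  have hsh : sh t H H' a b A i j = hull t H H' A i j - hull t H H' Set.univ a b := rfl
  rw [hsh] at h1 h2
  set c := min (hull t H H' (A ∩ F.lane lL lR) i j)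
    (min (L + hull t H H' Set.univ a b) (R' + hull t H H' Set.univ a b)) with hc
  have hc1 : hull t H H' A i j < c := by
    rw [hc]
    exact lt_min hex (lt_min (by linarith) (by linarith))
  have hc2 : c ≤ hull t H H' (A ∩ F.lane lL lR) i j := min_le_left _ _
  have hc3 : c ≤ L + hull t H H' Set.univ a b := (min_le_right _ _).trans (min_le_left _ _)
  have hc4 : c ≤ R' + hull t H H' Set.univ a b := (min_le_right _ _).trans (min_le_right _ _)
  rcases key c hc1 hc2 with hk | hk <;> linarith

/-- the same as a minimum -/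
theorem min_exit_cells (h : IsStrip F lo hi H) (h' : IsStrip F lo' hi' H') (hlt : hi < lo')
    (hbk : Back F κ H) (hbk' : Back F κ H') (ht : Nn t)
    {m₁ m₂ : ℕ} (hm₁ : 0 < m₁) (hm₂ : 0 < m₂) {s r u v : ℕ → ℝ} {x x' y y' : ℕ → ℤ}
    (hL : IsFam F κ t H H' m₁ s r x x') (hR : IsFam F κ t H H' m₂ u v y y')
    {S R σ σ' lL lR : ℝ} {a b i j : ℤ} (ha : IsPos F H S a) (hb : IsPos F H' R b)
    (hi : IsPos F H σ i) (hj : IsPos F H' σ' j)
    (hSs : ∀ l ≤ m₁, S ≤ s l) (hSσ : S ≤ σ) (hSu : ∀ l ≤ m₂, S ≤ u l)
    (hRr : ∀ l ≤ m₁, r l ≤ R) (hRv : ∀ l ≤ m₂, v l ≤ R) (hRσ : σ' ≤ R)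
    (hσ : r m₁ + κ < σ) (hσ' : σ' + F.stp ≤ u 0) (hlL : lL ≤ s 0 - κ - F.esc)
    (hlR : v m₂ + κ + F.esc ≤ lR) {A : Set V} (hne : (routes t H H' A i j).Nonempty) :
    min (sh t H H' a b (A ∩ F.lane lL lR) i j)
      (min (cellsLB F t H H' κ a b m₁ s r x x') (cellsLB F t H H' κ a b m₂ u v y y')) ≤
    sh t H H' a b A i j := by
  rcases lt_or_ge (hull t H H' A i j) (hull t H H' (A ∩ F.lane lL lR) i j) with hlt' | hge
  · rcases exit_cells h h' hlt hbk hbk' ht hm₁ hm₂ hL hR ha hb hi hj hSs hSσ hSu hRr hRv hRσ hσ hσ'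
      hlL hlR hne hlt' with h1 | h1
    · exact (min_le_right _ _).trans ((min_le_left _ _).trans h1)
    · exact (min_le_right _ _).trans ((min_le_right _ _).trans h1)
  · refine (min_le_left _ _).trans ?_
    unfold sh shp
    linarith

end labels

end Crest.Agent.R151.R78
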