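import Crest.Agent.R151.K9b
import Crest.Agent.R151.K9d
import Crest.Agent.R151.N4
import Crest.Agent.R151.Y635A

/-!
# R151/Z213 (owner helper113) — final reduction of S0213 ([T1] of #10226)

The swap of the coordinates and the time reversal reduce the non-existence of bigeodesics to the
non-existence of bigeodesics in an upward cone (`ProperUp`), and the choice of the time constant,
its differentiability and the width of the cone are put together: `s0213_of`.
-/

set_option autoImplicit false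

open MeasureTheory Filter Topology
open Crest.ProbabilityR.FirstPassage

namespace Crest.Agent.R151.Z113

open Crest.Agent.R151.K (act mp_act sw pt_act Nn ae_Nn)

variable {G : Measure ℝ} [IsProbabilityMeasure G]

/-- the coordinate swap on sites -/
def swp (z : ℤ × ℤ) : ℤ × ℤ := (z.2, z.1)

theorem isBigeodesic_act (φ : squareLattice ≃g squareLattice) {t : Environment}
    {v : ℤ → ℤ × ℤ} : IsBigeodesic (act φ t) v ↔ IsBigeodesic t (fun n => φ (v n)) := by
  unfold IsBigeodesic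
  have h1 : Function.Injective v ↔ Function.Injective (fun n => φ (v n)) := by
    constructor
    · intro h
      exact φ.injective.comp h
    · intro h a b hab
      exact h (by simp only [hab])
  have h2 : ∀ i, squareLattice.Adj (φ (v i)) (φ (v (i + 1))) ↔
      squareLattice.Adj (v i) (v (i + 1)) := fun i => φ.map_rel_iff
  simp only [h2, pt_act]
  rw [h1]
  simp only [act, Sym2.map_mk]

/-- every statement about all bigeodesics of `t` also holds for the swapped ones -/
theorem ae_swap {Q : (ℤ → ℤ × ℤ) → Prop}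
    (h : ∀ᵐ t ∂(iidLaw G), ∀ v, IsBigeodesic t v → Q v) :
    ∀ᵐ t ∂(iidLaw G), ∀ v, IsBigeodesic t v → Q (fun n => swp (v n)) := by
  have h1 := (mp_act (G := G) sw).quasiMeasurePreserving.ae h
  filter_upwards [h1] with t ht v hv
  refine ht _ ?_
  rw [isBigeodesic_act]
  simpa [swp, K.sw_apply] using hv

omit [IsProbabilityMeasure G] in
/-- every statement about all bigeodesics of `t` also holds for the reversed ones -/
theorem ae_reverse {Q : (ℤ → ℤ × ℤ) → Prop}
    (h : ∀ᵐ t ∂(iidLaw G), ∀ v, IsBigeodesic t v → Q v) :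
    ∀ᵐ t ∂(iidLaw G), ∀ v, IsBigeodesic t v → Q (fun n => v (-n)) := by
  filter_upwards [h] with t ht v hv
  exact ht _ (Y.isBigeodesic_neg hv)

/-- RED213, the abstract form: `P` is any class of paths such that (a) every bigeodesic is in `P`
after time reversal and/or swap of the coordinates, (b) no bigeodesic is in `P`. -/
theorem red213 {P : (ℤ → ℤ × ℤ) → Prop}
    (hdir : ∀ᵐ t ∂(iidLaw G), ∀ v, IsBigeodesic t v →
      P v ∨ P (fun n => v (-n)) ∨ P (fun n => swp (v n)) ∨ P (fun n => swp (v (-n))))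
    (hup : ∀ᵐ t ∂(iidLaw G), ∀ v, IsBigeodesic t v → P v → False) :
    iidLaw G {t | ∃ v : ℤ → ℤ × ℤ, IsBigeodesic t v} = 0 := by
  have h1 : ∀ᵐ t ∂(iidLaw G), ∀ v, IsBigeodesic t v → ¬ P v := hup
  have h2 := ae_reverse h1
  have h3 := ae_swap h1
  have h4 := ae_swap h2
  have h5 : ∀ᵐ t ∂(iidLaw G), ¬ ∃ v : ℤ → ℤ × ℤ, IsBigeodesic t v := by
    filter_upwards [hdir, h1, h2, h3, h4] with t a1 a2 a3 a4 a5
    rintro ⟨v, hv⟩
    rcases a1 v hv with b | b | b | b
    · exact a2 v hv b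
    · exact a3 v hv b
    · exact a4 v hv b
    · exact a5 v hv b
  have h6 := ae_iff.1 h5
  simpa only [not_not] using h6

/-- `v` is eventually in the upward cone `|x| ≤ C y` and comes from the downward one. -/
structure ProperUp (C : ℝ) (v : ℤ → ℤ × ℤ) : Prop where
  up : ∀ᶠ n in atTop, |((v n).1 : ℝ)| ≤ C * ((v n).2 : ℝ)
  dn : ∀ᶠ n in atBot, |((v n).1 : ℝ)| ≤ -(C * ((v n).2 : ℝ))
  tendsto_up : Tendsto (fun n => (v n).2) atTop atTop
  tendsto_dn : Tendsto (fun n => (v n).2) atBot atBot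

/-- the cone of width `C` avoids the facet of `(1, 0)`: `φ' (C) < μ1`, `φ x = μ (x, 1)`. -/
def Slow (μ : ℝ × ℝ → ℝ) (C : ℝ) : Prop :=
  0 < C ∧ ∃ d : ℝ, HasDerivAt (fun x : ℝ => μ (x, 1)) d C ∧ d < μ (1, 0)

/-- The final assembly of S0213. `hnc` = NOCORNER; `hdir` = 411/821 (DIR3), `hup` = 96 (Z). -/
theorem s0213_of
    (hnc : ∀ (G : Measure ℝ) [IsProbabilityMeasure G] [NullSingletonClass G],
      M51.Law213 G → ∀ μ, K.IsTC1 G μ → ∀ s p0 q0 a, ¬ N.Corner μ s p0 q0 a)
    (hdir : ∀ (G : Measure ℝ) [IsProbabilityMeasure G] [NullSingletonClass G],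
      M51.Law213 G → ∀ μ, K.IsTC1 G μ → (∀ v : ℝ × ℝ, v ≠ 0 → DifferentiableAt ℝ μ v) →
      ∃ C, Slow μ C ∧ ∀ᵐ t ∂(iidLaw G), ∀ v, IsBigeodesic t v →
        ProperUp C v ∨ ProperUp C (fun n => v (-n)) ∨ ProperUp C (fun n => swp (v n)) ∨
          ProperUp C (fun n => swp (v (-n))))
    (hup : ∀ (G : Measure ℝ) [IsProbabilityMeasure G] [NullSingletonClass G],
      M51.Law213 G → ∀ μ, K.IsTC1 G μ → (∀ v : ℝ × ℝ, v ≠ 0 → DifferentiableAt ℝ μ v) →
      ∀ C, Slow μ C → ∀ᵐ t ∂(iidLaw G), ∀ v, IsBigeodesic t v → ProperUp C v → False)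
    (G : Measure ℝ) [IsProbabilityMeasure G] [NullSingletonClass G]
    (hG : G (Set.Iio 0) = 0)
    (hmom : ∫⁻ x, ENNReal.ofReal ((⨅ i, x i) ^ 2) ∂(Measure.pi fun _ : Fin 4 => G) < ⊤) :
    iidLaw G {t | ∃ v : ℤ → ℤ × ℤ, IsBigeodesic t v} = 0 := by
  have hL : M51.Law213 G := ⟨hG, hmom⟩
  obtain ⟨m, μ, hM, hμ, -⟩ := K.law213_all hL
  have hz : G {0} = 0 := by simp
  have hN : B710.NormLike μ := hM.normLike hμ hz
  have hdiff : ∀ v : ℝ × ℝ, v ≠ 0 → DifferentiableAt ℝ μ v := fun v hv =>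
    N.differentiableAt_of_noCorner hN (hM.mu_swap hμ) (hnc G hL μ hμ) v hv
  obtain ⟨C, hC, h1⟩ := hdir G hL μ hμ hdiff
  exact red213 h1 (hup G hL μ hμ hdiff C hC)

end Crest.Agent.R151.Z113
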