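import Crest.Agent.R151.Pl2

/-!
# R151, block DIR (helper821), part a: sectors at infinity (deterministic planarity)

Four barrier curves from one vertex, one in each open quadrant (inside a cone).  A walk between two
different strict axis regions, both far away, meets one of the barriers.
-/

set_option autoImplicit false

open Crest.ProbabilityR.FirstPassage

namespace Crest.Agent.R151.T821

open Crest.Agent.R151.Pl

/-- cone inside the open quadrant with signs `e1, e2` -/
def Quad (e1 e2 : ℤ) (s : ℝ) (x : Pt) : Prop :=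
  0 < e1 * x.1 ∧ 0 < e2 * x.2 ∧ s * |(x.1 : ℝ)| ≤ |(x.2 : ℝ)| ∧ s * |(x.2 : ℝ)| ≤ |(x.1 : ℝ)|

/-- strict region around an axis direction -/
def Reg (s : ℝ) : Dir → Pt → Prop
  | .rt, x => |(x.2 : ℝ)| < s * x.1
  | .up, x => |(x.1 : ℝ)| < s * x.2
  | .lf, x => |(x.2 : ℝ)| < s * (-x.1)
  | .dn, x => |(x.1 : ℝ)| < s * (-x.2)

/-- main coordinate in a direction -/
def mc : Dir → Pt → ℤ
  | .rt, x => x.1
  | .up, x => x.2
  | .lf, x => -x.1
  | .dn, x => -x.2

/-- closed cone around an axis direction -/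
def Cone (s : ℝ) : Dir → Pt → Prop
  | .rt, x => s * |(x.2 : ℝ)| ≤ x.1
  | .up, x => s * |(x.1 : ℝ)| ≤ x.2
  | .lf, x => s * |(x.2 : ℝ)| ≤ -x.1
  | .dn, x => s * |(x.1 : ℝ)| ≤ -x.2

variable {s : ℝ}

theorem Reg.not_quad (hs : 0 < s) {δ : Dir} {x : Pt} (h : Reg s δ x) {e1 e2 : ℤ} :
    ¬ Quad e1 e2 s x := by
  rintro ⟨-, -, h1, h2⟩
  cases δ <;> simp only [Reg] at h
  · have := neg_le_abs (x.2 : ℝ)
    nlinarith
  · have := neg_le_abs (x.1 : ℝ)
    nlinarith
  · have := le_abs_self (x.2 : ℝ)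
    nlinarith
  · have := le_abs_self (x.1 : ℝ)
    nlinarith

theorem Reg.mc_pos (hs : 0 < s) {δ : Dir} {x : Pt} (h : Reg s δ x) : 0 < mc δ x := by
  cases δ <;> simp only [Reg, mc] at h ⊢
  · have h1 := (abs_nonneg (x.1 : ℝ)).trans_lt h
    have : (0 : ℝ) < -x.2 := by
      by_contra hc
      push Not at hc
      nlinarith
    exact_mod_cast this
  · have h1 := (abs_nonneg (x.2 : ℝ)).trans_lt h
    have : (0 : ℝ) < -x.1 := by
      by_contra hc
      push Not at hc
      nlinarith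
    exact_mod_cast this
  · have h1 := (abs_nonneg (x.1 : ℝ)).trans_lt h
    have : (0 : ℝ) < x.2 := by
      by_contra hc
      push Not at hc
      nlinarith
    exact_mod_cast this
  · have h1 := (abs_nonneg (x.2 : ℝ)).trans_lt h
    have : (0 : ℝ) < x.1 := by
      by_contra hc
      push Not at hc
      nlinarith
    exact_mod_cast this

/-- the axis ray from a point of the region stays in the region and moves outwards -/
theorem Reg.onRay (hs : 0 < s) {δ : Dir} {x z : Pt} (h : Reg s δ x) (hz : onRay δ x z) :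
    Reg s δ z ∧ mc δ x ≤ mc δ z := by
  cases δ <;> simp only [Reg, mc, Pl.onRay] at h hz ⊢ <;> obtain ⟨h1, h2⟩ := hz
  · refine ⟨?_, by omega⟩
    rw [h1]
    have : (z.2 : ℝ) ≤ x.2 := by exact_mod_cast h2
    nlinarith
  · refine ⟨?_, by omega⟩
    rw [h1]
    have : (z.1 : ℝ) ≤ x.1 := by exact_mod_cast h2
    nlinarith
  · refine ⟨?_, by omega⟩
    rw [h1]
    have : (x.2 : ℝ) ≤ z.2 := by exact_mod_cast h2
    nlinarith
  · refine ⟨?_, by omega⟩
    rw [h1]
    have : (x.1 : ℝ) ≤ z.1 := by exact_mod_cast h2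
    nlinarith

/-- a walk along a sequence -/
theorem exists_walk_seq {γ : ℕ → Pt} (hγ : ∀ k, squareLattice.Adj (γ k) (γ (k + 1))) (m : ℕ) :
    ∃ w : squareLattice.Walk (γ 0) (γ m), ∀ x ∈ w.support, ∃ k, γ k = x := by
  induction m with
  | zero =>
    refine ⟨.nil, fun x hx => ⟨0, ?_⟩⟩
    rw [SimpleGraph.Walk.support_nil, List.mem_singleton] at hx
    exact hx.symm
  | succ m ih =>
    obtain ⟨w, hw⟩ := ih
    refine ⟨w.concat (hγ m), fun x hx => ?_⟩
    rw [SimpleGraph.Walk.support_concat, List.mem_append, List.mem_singleton] at hx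
    rcases hx with hx | hx
    · exact hw x hx
    · exact ⟨m + 1, hx.symm⟩

/-- a curve eventually in a quadrant cone which leaves every finite set -/
structure Barrier (e1 e2 : ℤ) (s : ℝ) (γ : ℕ → Pt) : Prop where
  adj : ∀ k, squareLattice.Adj (γ k) (γ (k + 1))
  quad : ∃ k0, ∀ k, k0 ≤ k → Quad e1 e2 s (γ k)
  far : ∀ B : ℤ, ∃ k, B < |(γ k).1| ∧ B < |(γ k).2| ∧ Quad e1 e2 s (γ k)

theorem Barrier.radius {e1 e2 : ℤ} {γ : ℕ → Pt} (h : Barrier e1 e2 s γ) :
    ∃ R : ℤ, ∀ x, (∃ k, γ k = x) → Quad e1 e2 s x ∨ (|x.1| < R ∧ |x.2| < R) := by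
  obtain ⟨k0, hk0⟩ := h.quad
  have : ∀ n : ℕ, ∃ R : ℤ, ∀ k, k < n → |(γ k).1| < R ∧ |(γ k).2| < R := by
    intro n
    induction n with
    | zero => exact ⟨0, fun k hk => absurd hk (Nat.not_lt_zero k)⟩
    | succ n ih =>
      obtain ⟨R, hR⟩ := ih
      refine ⟨|R| + |(γ n).1| + |(γ n).2| + 1, fun k hk => ?_⟩
      have e1 := abs_nonneg (γ n).1
      have e2 := abs_nonneg (γ n).2
      have e3 := le_abs_self R
      have e4 := abs_nonneg R
      rcases Nat.lt_succ_iff_lt_or_eq.1 hk with h | rfl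
      · have := hR k h
        omega
      · omega
  obtain ⟨R, hR⟩ := this k0
  refine ⟨R, fun x hx => ?_⟩
  obtain ⟨k, rfl⟩ := hx
  rcases lt_or_ge k k0 with h | h
  · exact Or.inr (hR k h)
  · exact Or.inl (hk0 k h)

/-- the axis ray of a far point of a region avoids a barrier -/
theorem Reg.ray_avoids (hs : 0 < s) {δ : Dir} {x : Pt} (h : Reg s δ x) {R : ℤ} (hR : R ≤ mc δ x)
    {e1 e2 : ℤ} {z : Pt} (hz : Quad e1 e2 s z ∨ (|z.1| < R ∧ |z.2| < R)) : ¬ Pl.onRay δ x z := by
  intro hon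
  obtain ⟨h1, h2⟩ := h.onRay hs hon
  rcases hz with hz | hz
  · exact h1.not_quad hs hz
  · have e1 := le_abs_self z.1
    have e2 := neg_le_abs z.1
    have e3 := le_abs_self z.2
    have e4 := neg_le_abs z.2
    cases δ <;> simp only [mc] at hR h2 <;> omega

section

variable {γ γ' : ℕ → Pt}

/-- barriers NE and SW separate `{E, S}` from `{N, W}` -/
theorem sep_diag (hs : 0 < s) (h : Barrier 1 1 s γ) (h' : Barrier (-1) (-1) s γ')
    (h0 : γ 0 = γ' 0) :
    ∃ R : ℤ, ∀ (a b : Pt) (α : squareLattice.Walk a b) (δ δ' : Dir), (δ = .rt ∨ δ = .dn) →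
      (δ' = .up ∨ δ' = .lf) → Reg s δ a → Reg s δ' b → R ≤ mc δ a → R ≤ mc δ' b →
      ∃ x ∈ α.support, (∃ k, γ k = x) ∨ (∃ k, γ' k = x) := by
  obtain ⟨R1, hR1⟩ := h.radius
  obtain ⟨R2, hR2⟩ := h'.radius
  refine ⟨max R1 R2, fun a b α δ δ' hδ hδ' ha hb hRa hRb => ?_⟩
  obtain ⟨B, hB⟩ := exists_box α
  have ba := hB a α.start_mem_support
  have bb := hB b α.end_mem_support
  obtain ⟨m, m1, m2, m3, m4, -, -⟩ := h.far B
  obtain ⟨m', m1', m2', m3', m4', -, -⟩ := h'.far B
  obtain ⟨w, hw⟩ := exists_walk_seq h.adj m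
  obtain ⟨w', hw'⟩ := exists_walk_seq h'.adj m'
  have hβs : ∀ x ∈ (w'.reverse.append (w.copy h0 rfl)).support,
      (∃ k, γ k = x) ∨ (∃ k, γ' k = x) := by
    intro x hx
    rw [SimpleGraph.Walk.mem_support_append_iff, SimpleGraph.Walk.support_reverse,
      List.mem_reverse, SimpleGraph.Walk.support_copy] at hx
    rcases hx with hx | hx
    · exact Or.inr (hw' x hx)
    · exact Or.inl (hw x hx)
  have hm1 : (B : ℤ) < (γ m).1 := by
    rw [abs_of_pos (by omega)] at m1; exact m1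
  have hm2 : (B : ℤ) < (γ m).2 := by
    rw [abs_of_pos (by omega)] at m2; exact m2
  have hm1' : (γ' m').1 < -(B : ℤ) := by
    rw [abs_of_neg (by omega)] at m1'; omega
  have hm2' : (γ' m').2 < -(B : ℤ) := by
    rw [abs_of_neg (by omega)] at m2'; omega
  have avoid : ∀ (δ : Dir) (p : Pt), Reg s δ p → max R1 R2 ≤ mc δ p →
      ∀ x ∈ (w'.reverse.append (w.copy h0 rfl)).support, ¬ onRay δ p x := by
    intro δ p hp hR x hx
    rcases hβs x hx with hx | hx
    · exact hp.ray_avoids hs ((le_max_left _ _).trans hR) (hR1 x hx)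
    · exact hp.ray_avoids hs ((le_max_right _ _).trans hR) (hR2 x hx)
  rw [abs_le, abs_le] at ba bb
  obtain ⟨x, hx, hx'⟩ := ray_theorem α (w'.reverse.append (w.copy h0 rfl)) δ δ' .lf .rt
    (avoid δ a ha hRa) (avoid δ' b hb hRb)
    (fun x hx hon => by
      have := hB x hx; rw [abs_le, abs_le] at this; simp only [onRay] at hon; omega)
    (fun x hx hon => by
      have := hB x hx; rw [abs_le, abs_le] at this; simp only [onRay] at hon; omega)
    (fun x hx hx' => by
      rcases hδ with rfl | rfl <;> simp only [onRay] at hx hx' <;> omega)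
    (fun x hx hx' => by
      rcases hδ with rfl | rfl <;> simp only [onRay] at hx hx' <;> omega)
    (fun x hx hx' => by
      rcases hδ' with rfl | rfl <;> simp only [onRay] at hx hx' <;> omega)
    (fun x hx hx' => by
      rcases hδ' with rfl | rfl <;> simp only [onRay] at hx hx' <;> omega)
    (by
      rcases hδ with rfl | rfl <;> rcases hδ' with rfl | rfl <;>
        simp only [prec, rk, co, ind] <;> split_ifs <;> omega)
  exact ⟨x, hx, hβs x hx'⟩

/-- barriers NW and SE separate `{E, N}` from `{W, S}` -/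
theorem sep_anti (hs : 0 < s) (h : Barrier (-1) 1 s γ) (h' : Barrier 1 (-1) s γ')
    (h0 : γ 0 = γ' 0) :
    ∃ R : ℤ, ∀ (a b : Pt) (α : squareLattice.Walk a b) (δ δ' : Dir), (δ = .rt ∨ δ = .up) →
      (δ' = .dn ∨ δ' = .lf) → Reg s δ a → Reg s δ' b → R ≤ mc δ a → R ≤ mc δ' b →
      ∃ x ∈ α.support, (∃ k, γ k = x) ∨ (∃ k, γ' k = x) := by
  obtain ⟨R1, hR1⟩ := h.radius
  obtain ⟨R2, hR2⟩ := h'.radius
  refine ⟨max R1 R2, fun a b α δ δ' hδ hδ' ha hb hRa hRb => ?_⟩
  obtain ⟨B, hB⟩ := exists_box α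
  have ba := hB a α.start_mem_support
  have bb := hB b α.end_mem_support
  obtain ⟨m, m1, m2, m3, m4, -, -⟩ := h.far B
  obtain ⟨m', m1', m2', m3', m4', -, -⟩ := h'.far B
  obtain ⟨w, hw⟩ := exists_walk_seq h.adj m
  obtain ⟨w', hw'⟩ := exists_walk_seq h'.adj m'
  have hβs : ∀ x ∈ (w.reverse.append (w'.copy h0.symm rfl)).support,
      (∃ k, γ k = x) ∨ (∃ k, γ' k = x) := by
    intro x hx
    rw [SimpleGraph.Walk.mem_support_append_iff, SimpleGraph.Walk.support_reverse,
      List.mem_reverse, SimpleGraph.Walk.support_copy] at hx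
    rcases hx with hx | hx
    · exact Or.inl (hw x hx)
    · exact Or.inr (hw' x hx)
  have hm1 : (γ m).1 < -(B : ℤ) := by
    rw [abs_of_neg (by omega)] at m1; omega
  have hm2 : (B : ℤ) < (γ m).2 := by
    rw [abs_of_pos (by omega)] at m2; exact m2
  have hm1' : (B : ℤ) < (γ' m').1 := by
    rw [abs_of_pos (by omega)] at m1'; exact m1'
  have hm2' : (γ' m').2 < -(B : ℤ) := by
    rw [abs_of_neg (by omega)] at m2'; omega
  have avoid : ∀ (δ : Dir) (p : Pt), Reg s δ p → max R1 R2 ≤ mc δ p →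
      ∀ x ∈ (w.reverse.append (w'.copy h0.symm rfl)).support, ¬ onRay δ p x := by
    intro δ p hp hR x hx
    rcases hβs x hx with hx | hx
    · exact hp.ray_avoids hs ((le_max_left _ _).trans hR) (hR1 x hx)
    · exact hp.ray_avoids hs ((le_max_right _ _).trans hR) (hR2 x hx)
  rw [abs_le, abs_le] at ba bb
  obtain ⟨x, hx, hx'⟩ := ray_theorem α (w.reverse.append (w'.copy h0.symm rfl)) δ δ' .lf .rt
    (avoid δ a ha hRa) (avoid δ' b hb hRb)
    (fun x hx hon => by
      have := hB x hx; rw [abs_le, abs_le] at this; simp only [onRay] at hon; omega)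
    (fun x hx hon => by
      have := hB x hx; rw [abs_le, abs_le] at this; simp only [onRay] at hon; omega)
    (fun x hx hx' => by
      rcases hδ with rfl | rfl <;> simp only [onRay] at hx hx' <;> omega)
    (fun x hx hx' => by
      rcases hδ with rfl | rfl <;> simp only [onRay] at hx hx' <;> omega)
    (fun x hx hx' => by
      rcases hδ' with rfl | rfl <;> simp only [onRay] at hx hx' <;> omega)
    (fun x hx hx' => by
      rcases hδ' with rfl | rfl <;> simp only [onRay] at hx hx' <;> omega)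
    (by
      have e1 : ind (prec δ a .lf (γ m)) = 0 := ind_neg (by
        rcases hδ with rfl | rfl <;>
          simp [prec, rk, co] <;> omega)
      have e2 : ind (prec δ' b .rt (γ' m')) = 1 := ind_pos (by
        rcases hδ' with rfl | rfl <;>
          simp [prec, rk, co] <;> omega)
      have e3 : ind (prec δ a .rt (γ' m')) = 1 := ind_pos (by
        rcases hδ with rfl | rfl <;>
          simp [prec, rk, co] <;> omega)
      have e4 : ind (prec δ' b .lf (γ m)) = 1 := ind_pos (by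
        rcases hδ' with rfl | rfl <;>
          simp [prec, rk, co] <;> omega)
      rw [e1, e2, e3, e4]
      norm_num)
  exact ⟨x, hx, hβs x hx'⟩

end

end Crest.Agent.R151.T821
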