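import Mathlib
import Crest.Agent.R151.T821f
import Crest.Agent.R151.D411d
import Crest.Agent.R151.K9h

/-!
# R151, block DIR (helper821), part h: barriers in helper411's form
-/

set_option autoImplicit false

open MeasureTheory ProbabilityTheory Filter Topology
open Crest.ProbabilityR.FirstPassage

namespace Crest.Agent.R151.T821

open Crest.Agent.R151
open Crest.Agent.R151.K (toR n1 box dev l1)
open Crest.Agent.R151.Y (IsRay)

variable {G : Measure ℝ} [IsProbabilityMeasure G] {μ : ℝ × ℝ → ℝ}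

theorem MuD.of_smooth (h : D411.SmoothNorm μ) : MuD μ where
  norm := h.norm
  swap v := h.swap v.1 v.2
  refl v := by
    have h1 := h.refl (-v.1) v.2
    rw [neg_neg] at h1
    have h2 := h.norm.neg (v.1, -v.2)
    have h3 : -((v.1, -v.2) : ℝ × ℝ) = (-v.1, v.2) := by ext <;> simp
    rw [h3] at h2
    rw [← h2, ← h1]
  diff := h.diff

/-- **Barrier rays exist almost surely**, in the form used by `D411.exists_properUp`. -/
theorem ae_barriers (hμ : D411.SmoothNorm μ) (hS : ShapeIn G μ) (hat : ∀ x, G {x} = 0) :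
    ∀ᵐ t ∂(iidLaw G), D411.Barriers μ t := by
  have hM := MuD.of_smooth hμ
  have key : ∀ᵐ t ∂(iidLaw G), ∀ m : ℕ, ∀ e1 e2 : ℤ, IsSgn e1 → IsSgn e2 →
      ∃ v : ℕ → ℤ × ℤ, IsRay t squareLattice v ∧ v 0 = 0 ∧
        ∃ K0, ∀ k, K0 ≤ n1 (v k) → ex μ e1 e2 (v k) ≤ 1 / ((m : ℝ) + 1) * n1 (v k) := by
    rw [ae_all_iff]
    intro m
    rw [ae_all_iff]
    intro e1
    rw [ae_all_iff]
    intro e2
    by_cases h1 : IsSgn e1
    · by_cases h2 : IsSgn e2
      · filter_upwards [ae_exists_ray hM hS hat h1 h2 (η := 1 / ((m : ℝ) + 1)) (by positivity)]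
          with t ht _ _ using ht
      · exact Eventually.of_forall fun t _ h => absurd h h2
    · exact Eventually.of_forall fun t h => absurd h h1
  filter_upwards [key, ae_goodEnv (G := G) hS.h0 hat] with t ht hg η hη σ τ hσ hτ
  obtain ⟨m, hm⟩ := exists_nat_gt (1 / η)
  have hm' : 1 / ((m : ℝ) + 1) ≤ η := by
    rw [div_le_iff₀ (by positivity)]
    rw [div_lt_iff₀ hη] at hm
    nlinarith
  have sgn : ∀ x : ℝ, |x| = 1 → ∃ e : ℤ, IsSgn e ∧ (e : ℝ) = x := by
    intro x hx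
    rcases abs_cases x with ⟨h1, -⟩ | ⟨h1, -⟩
    · exact ⟨1, Or.inl rfl, by push_cast; linarith⟩
    · exact ⟨-1, Or.inr rfl, by push_cast; linarith⟩
  obtain ⟨e1, h1, rfl⟩ := sgn σ hσ
  obtain ⟨e2, h2, rfl⟩ := sgn τ hτ
  obtain ⟨v, hv, hv0, K0, hK0⟩ := ht m e1 e2 h1 h2
  obtain ⟨N, hN⟩ := ray_far hg hv K0
  refine ⟨v, hv, ?_⟩
  filter_upwards [eventually_ge_atTop N] with k hk
  have h3 := hK0 k (hN k hk).le
  rw [K.l1_toR]
  refine (show ex μ e1 e2 (v k) ≤ _ from h3).trans ?_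
  exact mul_le_mul_of_nonneg_right hm' (Nat.cast_nonneg _)

/-- the inputs hold for the law of S0213 -/
theorem shapeIn_of_law213 (hG : M51.Law213 G) {m : ℝ} (hM : K.Mom G m) (hμ : K.IsTC1 G μ) :
    ShapeIn G μ where
  h0 := hG.h0
  int x y := M51.integrable_pt' hG x y
  mean w := by
    have h := hM.ET_tendsto_nat hμ (toR w)
    refine h.congr fun k => ?_
    rw [K.fl_natCast, natCast_zsmul]
  sh2 ε hε := by
    filter_upwards [hM.as_ushape hμ hG] with t ht using ht ε hε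

/-- **DIR1 for the law of S0213.** -/
theorem ae_barriers_213 (hG : M51.Law213 G) {m : ℝ} (hM : K.Mom G m) (hμ : K.IsTC1 G μ)
    (hsm : D411.SmoothNorm μ) (hat : ∀ x, G {x} = 0) : ∀ᵐ t ∂(iidLaw G), D411.Barriers μ t :=
  ae_barriers hsm (shapeIn_of_law213 hG hM hμ) hat

/-- **Every bigeodesic is proper, almost surely** (law of S0213, given differentiability of `μ`). -/
theorem ae_properUp_213 (hG : M51.Law213 G) {m : ℝ} (hM : K.Mom G m) (hμ : K.IsTC1 G μ)
    (hsm : D411.SmoothNorm μ) (hat : ∀ x, G {x} = 0) :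
    ∃ C0 : ℝ, 0 < C0 ∧ μ (1, 0) * C0 < μ (C0, 1) ∧ ∀ᵐ t ∂(iidLaw G), ∀ v, IsBigeodesic t v →
      D411.ProperUp C0 v ∨ D411.ProperUp C0 (fun n => v (-n)) ∨
        D411.ProperUp C0 (fun n => (v n).swap) ∨ D411.ProperUp C0 (fun n => (v (-n)).swap) := by
  obtain ⟨C0, h1, h2, h3⟩ := D411.exists_properUp hsm
  refine ⟨C0, h1, h2, ?_⟩
  filter_upwards [ae_barriers_213 hG hM hμ hsm hat, hM.as_ushape hμ hG,
    ae_goodEnv (G := G) hG.h0 hat] with t hb hu hg v hv
  exact h3 t hg.nn hg.nt hu hb v hv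

end Crest.Agent.R151.T821
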