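import Crest.Agent.R151.Q3
import Crest.Agent.R151.K5

/-!
# R151/U450a — deterministic geometry of the lanes: chain walks, band connections (owner helper450)

Positions: `pos θ z = toR z + θ`; nodes: `nr (θ - p)` is a vertex at position `p` up to `1/2`.
`GG F` : a constant dominating the geometry of the flat data.
-/

set_option autoImplicit false

open MeasureTheory Filter ProbabilityTheory Topology
open Crest.ProbabilityR.FirstPassage
open Crest.Agent.R151.K
open Crest.Agent.R151.Q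

namespace Crest.Agent.R151.U450

open B710 (FlatData)

variable {μ : ℝ × ℝ → ℝ}

/-! ### Positions and nodes -/

lemma pos_sub (θ : ℝ × ℝ) (z z' : ℤ × ℤ) : pos θ z - pos θ z' = toR z - toR z' := by
  unfold pos; abel

lemma toR_neg (z : ℤ × ℤ) : toR (-z) = -toR z := by
  simp [toR]

lemma norm_le_of {v : ℝ × ℝ} {c : ℝ} (h1 : |v.1| ≤ c) (h2 : |v.2| ≤ c) : ‖v‖ ≤ c := by
  rw [Prod.norm_def]
  exact max_le (by rwa [Real.norm_eq_abs]) (by rwa [Real.norm_eq_abs])

lemma abs_fst_le (v : ℝ × ℝ) : |v.1| ≤ ‖v‖ := by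
  rw [← Real.norm_eq_abs]; exact norm_fst_le v

lemma abs_snd_le (v : ℝ × ℝ) : |v.2| ≤ ‖v‖ := by
  rw [← Real.norm_eq_abs]; exact norm_snd_le v

/-- the node `nr (θ - p)` is at distance at most `1/2` from `p` -/
lemma norm_pos_nr (θ p : ℝ × ℝ) : ‖pos θ (nr (θ - p)) - p‖ ≤ 1 / 2 := by
  have h1 := abs_sub_round (θ.1 - p.1)
  have h2 := abs_sub_round (θ.2 - p.2)
  refine norm_le_of ?_ ?_
  · simp only [pos, nr, toR, Prod.fst_add, Prod.fst_sub]
    push_cast
    rw [show -(round (θ.1 - p.1) : ℝ) + θ.1 - p.1 = θ.1 - p.1 - round (θ.1 - p.1) by ring]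
    exact h1
  · simp only [pos, nr, toR, Prod.snd_add, Prod.snd_sub]
    push_cast
    rw [show -(round (θ.2 - p.2) : ℝ) + θ.2 - p.2 = θ.2 - p.2 - round (θ.2 - p.2) by ring]
    exact h2

lemma nr_pos (θ : ℝ × ℝ) (z : ℤ × ℤ) : nr (θ - pos θ z) = z := by
  unfold nr pos toR
  simp only [Prod.fst_sub, Prod.fst_add, Prod.snd_sub, Prod.snd_add]
  rw [show θ.1 - ((z.1 : ℝ) + θ.1) = ((-z.1 : ℤ) : ℝ) by push_cast; ring,
    show θ.2 - ((z.2 : ℝ) + θ.2) = ((-z.2 : ℤ) : ℝ) by push_cast; ring, round_intCast,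
    round_intCast, neg_neg, neg_neg]

lemma nr_add (θ : ℝ × ℝ) (m : ℤ × ℤ) : nr (θ + toR m) = nr θ - m := by
  unfold nr toR
  simp only [Prod.fst_add, Prod.snd_add, round_add_intCast]
  ext <;> simp <;> ring

/-! ### Lattice steps -/

lemma norm_adj {x y : ℤ × ℤ} (h : squareLattice.Adj x y) : ‖toR y - toR x‖ ≤ 1 := by
  obtain ⟨d, rfl⟩ := exists_dir h
  rw [show toR (x + dir d) - toR x = toR (dir d) by rw [toR_add]; abel]
  fin_cases d <;> simp [dir, toR, Prod.norm_def]

/-! ### L-shaped walks -/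

lemma exists_row_walk (a b c : ℤ) : ∃ w : squareLattice.Walk (a, b) (c, b),
    ∀ z ∈ w.support, z.2 = b ∧ |z.1 - a| ≤ |c - a| := by
  have key : ∀ (n : ℕ) (a : ℤ), ∃ w : squareLattice.Walk (a, b) (a + n, b),
      ∀ z ∈ w.support, z.2 = b ∧ a ≤ z.1 ∧ z.1 ≤ a + n := by
    intro n
    induction n with
    | zero =>
      intro a
      refine ⟨(SimpleGraph.Walk.nil : squareLattice.Walk (a, b) (a, b)).copy rfl (by simp), ?_⟩
      intro z hz
      simp only [SimpleGraph.Walk.support_copy, SimpleGraph.Walk.support_nil,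
        List.mem_singleton] at hz
      subst hz
      simp
    | succ n ih =>
      intro a
      obtain ⟨w, hw⟩ := ih a
      refine ⟨(w.append (SimpleGraph.Walk.cons (adj_right (a + n) b)
        SimpleGraph.Walk.nil)).copy rfl (by push_cast; ring_nf), ?_⟩
      intro z hz
      simp only [SimpleGraph.Walk.support_copy, SimpleGraph.Walk.mem_support_append_iff,
        SimpleGraph.Walk.support_cons, SimpleGraph.Walk.support_nil, List.mem_cons,
        List.not_mem_nil, or_false] at hz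
      rcases hz with hz | rfl | rfl
      · obtain ⟨h1, h2, h3⟩ := hw z hz
        exact ⟨h1, h2, by push_cast; omega⟩
      · exact ⟨rfl, by simp, by push_cast; omega⟩
      · exact ⟨rfl, by simp; omega, by push_cast; omega⟩
  rcases le_total a c with h | h
  · obtain ⟨w, hw⟩ := key (c - a).toNat a
    refine ⟨w.copy rfl (by rw [Int.toNat_of_nonneg (by omega), add_sub_cancel]), ?_⟩
    intro z hz
    rw [SimpleGraph.Walk.support_copy] at hz
    obtain ⟨h1, h2, h3⟩ := hw z hz
    rw [Int.toNat_of_nonneg (by omega)] at h3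
    refine ⟨h1, ?_⟩
    rw [abs_of_nonneg (by omega), abs_of_nonneg (by omega)]
    omega
  · obtain ⟨w, hw⟩ := key (a - c).toNat c
    refine ⟨(w.copy rfl (by rw [Int.toNat_of_nonneg (by omega), add_sub_cancel])).reverse, ?_⟩
    intro z hz
    rw [SimpleGraph.Walk.support_reverse, List.mem_reverse, SimpleGraph.Walk.support_copy] at hz
    obtain ⟨h1, h2, h3⟩ := hw z hz
    rw [Int.toNat_of_nonneg (by omega)] at h3
    refine ⟨h1, ?_⟩
    rw [abs_of_nonpos (by omega), abs_of_nonpos (by omega)]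
    omega

lemma exists_col_walk (a b d : ℤ) : ∃ w : squareLattice.Walk (a, b) (a, d),
    ∀ z ∈ w.support, z.1 = a ∧ |z.2 - b| ≤ |d - b| := by
  obtain ⟨w, hw⟩ := exists_row_walk b a d
  have e1 : sw.toHom (b, a) = (a, b) := rfl
  have e2 : sw.toHom (d, a) = (a, d) := rfl
  refine ⟨(w.map sw.toHom).copy e1 e2, ?_⟩
  intro z hz
  rw [SimpleGraph.Walk.support_copy, SimpleGraph.Walk.support_map, List.mem_map] at hz
  obtain ⟨u, hu, rfl⟩ := hz
  exact hw u hu

/-- an L-shaped walk: all vertices within `‖y - x‖` of `x` -/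
lemma exists_L (x y : ℤ × ℤ) : ∃ w : squareLattice.Walk x y,
    ∀ z ∈ w.support, ‖toR z - toR x‖ ≤ ‖toR y - toR x‖ := by
  obtain ⟨a, b⟩ := x
  obtain ⟨c, d⟩ := y
  obtain ⟨w1, h1⟩ := exists_row_walk a b c
  obtain ⟨w2, h2⟩ := exists_col_walk c b d
  have e1 : |(c : ℝ) - a| ≤ ‖toR (c, d) - toR (a, b)‖ := by
    exact abs_fst_le (toR (c, d) - toR (a, b))
  have e2 : |(d : ℝ) - b| ≤ ‖toR (c, d) - toR (a, b)‖ := by
    exact abs_snd_le (toR (c, d) - toR (a, b))
  refine ⟨w1.append w2, ?_⟩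
  intro z hz
  rw [SimpleGraph.Walk.mem_support_append_iff] at hz
  rcases hz with hz | hz
  · obtain ⟨h3, h4⟩ := h1 z hz
    refine norm_le_of ?_ ?_
    · simp only [toR, Prod.fst_sub] at e1 ⊢
      refine le_trans ?_ e1
      exact_mod_cast h4
    · simp only [toR, Prod.snd_sub, h3, sub_self, abs_zero]
      exact norm_nonneg _
  · obtain ⟨h3, h4⟩ := h2 z hz
    refine norm_le_of ?_ ?_
    · simp only [toR, Prod.fst_sub, h3] at e1 ⊢
      exact e1
    · simp only [toR, Prod.snd_sub] at e2 ⊢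
      refine le_trans ?_ e2
      exact_mod_cast h4

/-! ### Chain walks -/

/-- A walk following the points `p + j v`, `j ≤ n`: every vertex is within `5/2` of one of the
points, and the walk does not backtrack by more than `5 C` for every functional `ℓ` of norm at most
`C` which is nonnegative at `v`. -/
lemma chain_walk (θ p v : ℝ × ℝ) (hv : ‖v‖ ≤ 1) (n : ℕ) :
    ∃ w : squareLattice.Walk (nr (θ - p)) (nr (θ - (p + (n : ℝ) • v))),
      (∀ z ∈ w.support, ∃ j : ℕ, j ≤ n ∧ ‖pos θ z - (p + (j : ℝ) • v)‖ ≤ 5 / 2) ∧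
      ∀ (ℓ : ℝ × ℝ →L[ℝ] ℝ) (C : ℝ), (∀ u, |ℓ u| ≤ C * ‖u‖) → 0 ≤ ℓ v →
        w.support.Pairwise fun a b => ℓ (pos θ a) ≤ ℓ (pos θ b) + 5 * C := by
  induction n with
  | zero =>
    refine ⟨(SimpleGraph.Walk.nil : squareLattice.Walk (nr (θ - p)) (nr (θ - p))).copy rfl
      (by simp), ?_, ?_⟩
    · intro z hz
      simp only [SimpleGraph.Walk.support_copy, SimpleGraph.Walk.support_nil,
        List.mem_singleton] at hz
      subst hz
      refine ⟨0, le_rfl, ?_⟩
      have := norm_pos_nr θ p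
      simp only [CharP.cast_eq_zero, zero_smul, add_zero]
      linarith
    · intro ℓ C _ _
      simp
  | succ n ih =>
    obtain ⟨q, hq⟩ : ∃ q : ℝ × ℝ, q = p + (n : ℝ) • v := ⟨_, rfl⟩
    rw [← hq] at ih
    obtain ⟨w, h1, h2⟩ := ih
    have hq' : p + ((n + 1 : ℕ) : ℝ) • v = q + v := by
      rw [hq]; push_cast; rw [add_smul, one_smul, add_assoc]
    obtain ⟨w', h3⟩ := exists_L (nr (θ - q)) (nr (θ - (q + v)))
    have hb1 := norm_pos_nr θ q
    have hb2 := norm_pos_nr θ (q + v)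
    have h4 : ∀ z ∈ w'.support, ‖pos θ z - q‖ ≤ 5 / 2 := by
      intro z hz
      have e1 := h3 z hz
      rw [← pos_sub θ, ← pos_sub θ] at e1
      have e2 : ‖pos θ (nr (θ - (q + v))) - pos θ (nr (θ - q))‖ ≤ 2 := by
        have : pos θ (nr (θ - (q + v))) - pos θ (nr (θ - q))
            = (pos θ (nr (θ - (q + v))) - (q + v)) + v - (pos θ (nr (θ - q)) - q) := by abel
        rw [this]
        refine (norm_sub_le _ _).trans ?_
        have := norm_add_le (pos θ (nr (θ - (q + v))) - (q + v)) v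
        linarith
      have e3 : pos θ z - q = (pos θ z - pos θ (nr (θ - q))) + (pos θ (nr (θ - q)) - q) := by abel
      rw [e3]
      refine (norm_add_le _ _).trans ?_
      linarith
    refine ⟨(w.append w').copy rfl (by rw [hq']), ?_, ?_⟩
    · intro z hz
      rw [SimpleGraph.Walk.support_copy, SimpleGraph.Walk.mem_support_append_iff] at hz
      rcases hz with hz | hz
      · obtain ⟨j, hj, hj2⟩ := h1 z hz
        exact ⟨j, by omega, hj2⟩
      · exact ⟨n, by omega, by rw [← hq]; exact h4 z hz⟩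
    · intro ℓ C hC hv0
      have hCz : ∀ (u u' : ℝ × ℝ), ‖u - u'‖ ≤ 5 / 2 → |ℓ u - ℓ u'| ≤ 5 / 2 * C := by
        intro u u' hu
        rw [← map_sub]
        have hC0 : 0 ≤ C := by
          have := hC (1, 0)
          have h5 : ‖((1 : ℝ), (0 : ℝ))‖ = 1 := by simp [Prod.norm_def]
          rw [h5, mul_one] at this
          exact (abs_nonneg _).trans this
        calc |ℓ (u - u')| ≤ C * ‖u - u'‖ := hC _
          _ ≤ C * (5 / 2) := by gcongr
          _ = 5 / 2 * C := by ring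
      rw [SimpleGraph.Walk.support_copy, SimpleGraph.Walk.support_append, List.pairwise_append]
      refine ⟨h2 ℓ C hC hv0, ?_, ?_⟩
      · have hall : ∀ z ∈ w'.support, |ℓ (pos θ z) - ℓ q| ≤ 5 / 2 * C :=
          fun z hz => hCz _ _ (h4 z hz)
        refine List.Pairwise.imp_of_mem (R := fun _ _ => True) ?_ (List.pairwise_of_forall
          fun _ _ => trivial)
        intro a b ha hb _
        have h5 := hall a (List.mem_of_mem_tail ha)
        have h6 := hall b (List.mem_of_mem_tail hb)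
        rw [abs_le] at h5 h6
        linarith
      · intro a ha b hb
        obtain ⟨j, hj, hj2⟩ := h1 a ha
        have h5 := hCz _ _ hj2
        have h6 := hCz _ _ (h4 b (List.mem_of_mem_tail hb))
        have h7 : ℓ (p + (j : ℝ) • v) ≤ ℓ q := by
          rw [hq, map_add, map_add, map_smul, map_smul, smul_eq_mul, smul_eq_mul]
          have : (j : ℝ) ≤ n := by exact_mod_cast hj
          nlinarith
        rw [abs_le] at h5 h6
        linarith

/-- straight walk between two points of the plane, not too long steps -/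
lemma seg_walk (θ p q : ℝ × ℝ) :
    ∃ w : squareLattice.Walk (nr (θ - p)) (nr (θ - q)),
      (∀ z ∈ w.support, ∃ s : ℝ, 0 ≤ s ∧ s ≤ 1 ∧ ‖pos θ z - (p + s • (q - p))‖ ≤ 5 / 2) ∧
      ∀ (ℓ : ℝ × ℝ →L[ℝ] ℝ) (C : ℝ), (∀ u, |ℓ u| ≤ C * ‖u‖) → ℓ p ≤ ℓ q →
        w.support.Pairwise fun a b => ℓ (pos θ a) ≤ ℓ (pos θ b) + 5 * C := by
  obtain ⟨n, hn⟩ := exists_nat_ge ‖q - p‖
  have hn1 : (0 : ℝ) < ((n + 1 : ℕ) : ℝ) := by positivity
  set v : ℝ × ℝ := (((n + 1 : ℕ) : ℝ))⁻¹ • (q - p) with hv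
  have hv1 : ‖v‖ ≤ 1 := by
    rw [hv, norm_smul, norm_inv, Real.norm_natCast, inv_mul_le_iff₀ hn1]
    push_cast
    linarith
  obtain ⟨w, h1, h2⟩ := chain_walk θ p v hv1 (n + 1)
  have hend : p + ((n + 1 : ℕ) : ℝ) • v = q := by
    rw [hv, smul_smul, mul_inv_cancel₀ hn1.ne', one_smul, add_sub_cancel]
  refine ⟨w.copy rfl (by rw [hend]), ?_, ?_⟩
  · intro z hz
    rw [SimpleGraph.Walk.support_copy] at hz
    obtain ⟨j, hj, hj2⟩ := h1 z hz
    refine ⟨j * (((n + 1 : ℕ) : ℝ))⁻¹, by positivity, ?_, ?_⟩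
    · rw [← div_eq_mul_inv, div_le_one hn1]
      exact_mod_cast hj
    · rw [hv, smul_smul] at hj2
      exact hj2
  · intro ℓ C hC hpq
    rw [SimpleGraph.Walk.support_copy]
    refine h2 ℓ C hC ?_
    rw [hv, map_smul, map_sub, smul_eq_mul]
    have : 0 ≤ ℓ q - ℓ p := by linarith
    positivity

/-! ### The constant of the flat data -/

/-- a constant dominating the geometry of the flat data -/
noncomputable def GG (F : FlatData μ) : ℝ := ‖F.al‖ + ‖F.be‖ + ‖F.a‖ + ‖F.b‖ + 1

lemma one_le_GG (F : FlatData μ) : 1 ≤ GG F := by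
  unfold GG
  have := norm_nonneg F.al
  have := norm_nonneg F.be
  have := norm_nonneg F.a
  have := norm_nonneg F.b
  linarith

lemma al_le (F : FlatData μ) (v : ℝ × ℝ) : |F.al v| ≤ GG F * ‖v‖ := by
  rw [← Real.norm_eq_abs]
  refine (F.al.le_opNorm v).trans ?_
  have : ‖F.al‖ ≤ GG F := by
    unfold GG
    have := norm_nonneg F.be
    have := norm_nonneg F.a
    have := norm_nonneg F.b
    linarith
  gcongr

lemma be_le (F : FlatData μ) (v : ℝ × ℝ) : |F.be v| ≤ GG F * ‖v‖ := by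
  rw [← Real.norm_eq_abs]
  refine (F.be.le_opNorm v).trans ?_
  have : ‖F.be‖ ≤ GG F := by
    unfold GG
    have := norm_nonneg F.al
    have := norm_nonneg F.a
    have := norm_nonneg F.b
    linarith
  gcongr

lemma norm_a_le (F : FlatData μ) : ‖F.a‖ ≤ GG F := by
  unfold GG
  have := norm_nonneg F.al
  have := norm_nonneg F.be
  have := norm_nonneg F.b
  linarith

lemma norm_b_le (F : FlatData μ) : ‖F.b‖ ≤ GG F := by
  unfold GG
  have := norm_nonneg F.al
  have := norm_nonneg F.be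
  have := norm_nonneg F.a
  linarith

lemma norm_le_al_be (F : FlatData μ) (v : ℝ × ℝ) : ‖v‖ ≤ GG F * (|F.al v| + |F.be v|) := by
  conv_lhs => rw [← F.decomp v]
  refine (norm_add_le _ _).trans ?_
  rw [norm_smul, norm_smul, Real.norm_eq_abs, Real.norm_eq_abs, mul_add]
  have h1 := norm_a_le F
  have h2 := norm_b_le F
  have h3 := abs_nonneg (F.al v)
  have h4 := abs_nonneg (F.be v)
  nlinarith

end Crest.Agent.R151.U450
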