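import Crest.Agent.R151.U450a

/-!
# R151/U450b — band connections and start connections in the lane (owner helper450)

`Bnd F θ s C w` : vertices of the lane `|be| ≤ w/2` with `|al - s| ≤ C`.
-/

set_option autoImplicit false

open MeasureTheory Filter ProbabilityTheory Topology
open Crest.ProbabilityR.FirstPassage
open Crest.Agent.R151.K
open Crest.Agent.R151.Q

namespace Crest.Agent.R151.U450

open B710 (FlatData)

variable {μ : ℝ × ℝ → ℝ}

/-- the piece of the lane near level `s` -/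
def Bnd (F : FlatData μ) (θ : ℝ × ℝ) (s C w : ℝ) : Set (ℤ × ℤ) :=
  {z | |F.al (pos θ z) - s| ≤ C ∧ |F.be (pos θ z)| ≤ w / 2}

lemma norm_dir (d : Fin 4) : ‖toR (dir d)‖ = 1 := by
  fin_cases d <;> simp [dir, toR, Prod.norm_def]

lemma exists_dir_pm (ℓ : ℝ × ℝ →L[ℝ] ℝ) {v : ℝ × ℝ} (hv : ℓ v ≠ 0) :
    ∃ η : ℝ, 0 < η ∧ (∃ d, ℓ (toR (dir d)) = η) ∧ ∃ d, ℓ (toR (dir d)) = -η := by
  have h0 : toR (dir 0) = (1, 0) := by simp [dir, toR]
  have h1 : toR (dir 1) = -(1, 0) := by simp [dir, toR]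
  have h2 : toR (dir 2) = (0, 1) := by simp [dir, toR]
  have h3 : toR (dir 3) = -(0, 1) := by simp [dir, toR]
  by_cases hx : ℓ (1, 0) = 0
  · have hy : ℓ (0, 1) ≠ 0 := by
      intro hy
      apply hv
      have : v = v.1 • ((1 : ℝ), (0 : ℝ)) + v.2 • ((0 : ℝ), (1 : ℝ)) := by
        ext <;> simp
      rw [this, map_add, map_smul, map_smul, hx, hy]
      simp
    rcases lt_or_gt_of_ne hy with hy | hy
    · exact ⟨-ℓ (0, 1), by linarith, ⟨3, by rw [h3, map_neg]⟩, ⟨2, by rw [h2, neg_neg]⟩⟩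
    · exact ⟨ℓ (0, 1), hy, ⟨2, by rw [h2]⟩, ⟨3, by rw [h3, map_neg]⟩⟩
  · rcases lt_or_gt_of_ne hx with hy | hy
    · exact ⟨-ℓ (1, 0), by linarith, ⟨1, by rw [h1, map_neg]⟩, ⟨0, by rw [h0, neg_neg]⟩⟩
    · exact ⟨ℓ (1, 0), hy, ⟨0, by rw [h0]⟩, ⟨1, by rw [h1, map_neg]⟩⟩

lemma adj_dir (x : ℤ × ℤ) (d : Fin 4) : squareLattice.Adj x (x + dir d) := by
  obtain ⟨a, b⟩ := x
  fin_cases d
  · have := adj_right a b
    simpa [dir] using this
  · have := (adj_right (a - 1) b).symm
    rw [sub_add_cancel] at this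
    simpa [dir, sub_eq_add_neg] using this
  · have := adj_up a b
    simpa [dir] using this
  · have := (adj_up a (b - 1)).symm
    rw [sub_add_cancel] at this
    simpa [dir, sub_eq_add_neg] using this

/-- straight walk in a coordinate direction -/
lemma straight (u : ℤ × ℤ) (d : Fin 4) (k : ℕ) :
    ∃ w : squareLattice.Walk u (u + k • dir d),
      ∀ z ∈ w.support, ∃ j : ℕ, j ≤ k ∧ z = u + j • dir d := by
  induction k with
  | zero =>
    refine ⟨(SimpleGraph.Walk.nil : squareLattice.Walk u u).copy rfl (by simp), ?_⟩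
    intro z hz
    simp only [SimpleGraph.Walk.support_copy, SimpleGraph.Walk.support_nil,
      List.mem_singleton] at hz
    exact ⟨0, le_rfl, by simp [hz]⟩
  | succ k ih =>
    obtain ⟨w, hw⟩ := ih
    have e : u + k • dir d + dir d = u + (k + 1) • dir d := by rw [succ_nsmul, add_assoc]
    refine ⟨(w.append (SimpleGraph.Walk.cons (adj_dir (u + k • dir d) d)
      SimpleGraph.Walk.nil)).copy rfl e, ?_⟩
    intro z hz
    simp only [SimpleGraph.Walk.support_copy, SimpleGraph.Walk.mem_support_append_iff,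
      SimpleGraph.Walk.support_cons, SimpleGraph.Walk.support_nil, List.mem_cons,
      List.not_mem_nil, or_false] at hz
    rcases hz with hz | rfl | rfl
    · obtain ⟨j, hj, rfl⟩ := hw z hz
      exact ⟨j, by omega, rfl⟩
    · exact ⟨k, by omega, rfl⟩
    · exact ⟨k + 1, le_rfl, e⟩

lemma toR_nsmul (k : ℕ) (z : ℤ × ℤ) : toR (k • z) = (k : ℝ) • toR z := by
  simp [toR]

lemma pos_add_nsmul (θ : ℝ × ℝ) (u : ℤ × ℤ) (j : ℕ) (d : Fin 4) :
    pos θ (u + j • dir d) = pos θ u + (j : ℝ) • toR (dir d) := by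
  unfold pos
  rw [toR_add, toR_nsmul]
  abel

/-- **Band connection**: a vertex of the lane near level `s` is connected to the central node of
level `s`, inside the lane and near the level. -/
lemma band_conn (F : FlatData μ) : ∃ C w0 : ℝ, 0 < C ∧ 0 < w0 ∧ ∀ w ≥ w0, ∀ (θ : ℝ × ℝ) (s : ℝ)
    (u : ℤ × ℤ), |F.al (pos θ u) - s| ≤ GG F → |F.be (pos θ u)| ≤ w / 2 →
    Conn (Bnd F θ s C w) u (nr (θ - s • F.a)) := by
  obtain ⟨η, hη, ⟨dp, hdp⟩, dm, hdm⟩ := exists_dir_pm F.be (v := F.b) (by simp)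
  have hG := one_le_GG F
  obtain ⟨k, hk⟩ := exists_nat_ge (3 * GG F / η)
  have hk' : 3 * GG F ≤ k * η := by rwa [div_le_iff₀ hη] at hk
  have hk0 : (0 : ℝ) ≤ k := Nat.cast_nonneg k
  have hηG : η ≤ GG F := by
    have := be_le F (toR (dir dp))
    rw [norm_dir, mul_one, hdp, abs_of_pos hη] at this
    exact this
  refine ⟨(k + 4) * GG F, 2 * (k + 3) * GG F, by positivity, by positivity, ?_⟩
  intro w hw θ s u hu1 hu2
  -- the inward direction
  obtain ⟨d, hd1, hd2⟩ : ∃ d, (∀ j : ℕ, j ≤ k →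
      |F.be (pos θ u) + j * F.be (toR (dir d))| ≤ w / 2) ∧
      |F.be (pos θ u) + k * F.be (toR (dir d))| ≤ w / 2 - 3 * GG F := by
    have hkG : (k : ℝ) * η ≤ k * GG F := by gcongr
    rcases le_total 0 (F.be (pos θ u)) with h | h
    · refine ⟨dm, ?_, ?_⟩
      · intro j hj
        have hj' : (j : ℝ) ≤ k := by exact_mod_cast hj
        have hj1 : (j : ℝ) * η ≤ k * η := by gcongr
        have hj0 : 0 ≤ (j : ℝ) * η := by positivity
        rw [hdm]
        rw [abs_of_nonneg h] at hu2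
        rw [abs_le]
        constructor <;> nlinarith
      · rw [hdm]
        rw [abs_of_nonneg h] at hu2
        rw [abs_le]
        constructor <;> nlinarith
    · refine ⟨dp, ?_, ?_⟩
      · intro j hj
        have hj' : (j : ℝ) ≤ k := by exact_mod_cast hj
        have hj1 : (j : ℝ) * η ≤ k * η := by gcongr
        have hj0 : 0 ≤ (j : ℝ) * η := by positivity
        rw [hdp]
        rw [abs_of_nonpos h] at hu2
        rw [abs_le]
        constructor <;> nlinarith
      · rw [hdp]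
        rw [abs_of_nonpos h] at hu2
        rw [abs_le]
        constructor <;> nlinarith
  have hal : |F.al (toR (dir d))| ≤ GG F := by
    have := al_le F (toR (dir d))
    rwa [norm_dir, mul_one] at this
  set u1 := u + k • dir d with hu1def
  have hu1pos : pos θ u1 = pos θ u + (k : ℝ) • toR (dir d) := pos_add_nsmul θ u k d
  have halj : ∀ j : ℕ, j ≤ k → |F.al (pos θ u) + j * F.al (toR (dir d)) - s| ≤ (k + 1) * GG F := by
    intro j hj
    have hj' : (j : ℝ) ≤ k := by exact_mod_cast hj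
    have h1 : |(j : ℝ) * F.al (toR (dir d))| ≤ k * GG F := by
      rw [abs_mul, abs_of_nonneg (Nat.cast_nonneg j)]
      gcongr
    have e : F.al (pos θ u) + j * F.al (toR (dir d)) - s
        = (F.al (pos θ u) - s) + j * F.al (toR (dir d)) := by ring
    rw [e]
    refine (abs_add_le _ _).trans ?_
    linarith
  have c1 : Conn (Bnd F θ s ((k + 4) * GG F) w) u u1 := by
    obtain ⟨W, hW⟩ := straight u d k
    refine ⟨W, fun z hz => ?_⟩
    obtain ⟨j, hj, rfl⟩ := hW z hz
    have hp := pos_add_nsmul θ u j d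
    refine ⟨?_, ?_⟩
    · rw [hp, map_add, map_smul, smul_eq_mul]
      refine (halj j hj).trans ?_
      nlinarith
    · rw [hp, map_add, map_smul, smul_eq_mul]
      exact hd1 j hj
  have c2 : Conn (Bnd F θ s ((k + 4) * GG F) w) u1 (nr (θ - s • F.a)) := by
    obtain ⟨W, hW, -⟩ := seg_walk θ (pos θ u1) (s • F.a)
    refine ⟨W.copy (nr_pos θ u1) rfl, fun z hz => ?_⟩
    rw [SimpleGraph.Walk.support_copy] at hz
    obtain ⟨r, hr0, hr1, hr⟩ := hW z hz
    have e1 : pos θ z = (pos θ u1 + r • (s • F.a - pos θ u1))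
        + (pos θ z - (pos θ u1 + r • (s • F.a - pos θ u1))) := by abel
    set err := pos θ z - (pos θ u1 + r • (s • F.a - pos θ u1)) with herr
    have a1 := (al_le F err).trans (mul_le_mul_of_nonneg_left hr (by linarith : 0 ≤ GG F))
    have a2 := (be_le F err).trans (mul_le_mul_of_nonneg_left hr (by linarith : 0 ≤ GG F))
    have b1 := halj k le_rfl
    rw [← smul_eq_mul, ← map_smul, ← map_add, ← hu1pos] at b1
    have b2 := hd2
    rw [← smul_eq_mul, ← map_smul, ← map_add, ← hu1pos] at b2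
    refine ⟨?_, ?_⟩
    · rw [e1]
      simp only [map_add, map_smul, map_sub, smul_eq_mul, F.al_a, mul_one]
      have e2 : F.al (pos θ u1) + r * (s - F.al (pos θ u1)) + F.al err - s
          = (1 - r) * (F.al (pos θ u1) - s) + F.al err := by ring
      rw [e2]
      refine (abs_add_le _ _).trans ?_
      rw [abs_mul, abs_of_nonneg (by linarith : 0 ≤ 1 - r)]
      have : (1 - r) * |F.al (pos θ u1) - s| ≤ 1 * |F.al (pos θ u1) - s| := by
        gcongr; linarith
      linarith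
    · rw [e1]
      simp only [map_add, map_smul, map_sub, smul_eq_mul, F.be_a, mul_zero, zero_sub]
      have e2 : F.be (pos θ u1) + r * -F.be (pos θ u1) + F.be err
          = (1 - r) * (F.be (pos θ u1)) + F.be err := by ring
      rw [e2]
      refine (abs_add_le _ _).trans ?_
      rw [abs_mul, abs_of_nonneg (by linarith : 0 ≤ 1 - r)]
      have : (1 - r) * |F.be (pos θ u1)| ≤ 1 * |F.be (pos θ u1)| := by
        gcongr; linarith
      linarith
  exact c1.trans c2

/-- **Start connection.** -/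
lemma start_conn (F : FlatData μ) : ∃ L C w0 : ℝ, 4 * GG F < L ∧ 0 < C ∧ 0 < w0 ∧
    ∀ σ : ℝ, σ = 1 ∨ σ = -1 → ∀ w ≥ w0, ∀ (θ : ℝ × ℝ) (x0 u : ℤ × ℤ),
      |F.be (pos θ x0)| ≤ GG F → |F.be (pos θ u)| ≤ w / 2 →
      |F.al (pos θ u) - (F.al (pos θ x0) + σ * L)| ≤ GG F →
      Conn {z | |F.be (pos θ z)| ≤ w / 2 ∧ (z = x0 ∨ 0 < σ * (F.al (pos θ z) - F.al (pos θ x0))) ∧
        σ * (F.al (pos θ z) - F.al (pos θ x0)) ≤ C} x0 u := by
  obtain ⟨C1, w1, hC1, hw1, hb⟩ := band_conn F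
  obtain ⟨ζ, hζ, ⟨dp, hdp⟩, dm, hdm⟩ := exists_dir_pm F.al (v := F.a) (by simp)
  have hG := one_le_GG F
  obtain ⟨k, hk⟩ := exists_nat_gt ((C1 + 4 * GG F) / ζ)
  have hk' : C1 + 4 * GG F < k * ζ := by rwa [div_lt_iff₀ hζ] at hk
  have hk0 : (0 : ℝ) ≤ k := Nat.cast_nonneg k
  refine ⟨k * ζ, k * ζ + C1, max w1 (2 * (k + 1) * GG F), by linarith, by positivity,
    lt_max_of_lt_left hw1, ?_⟩
  intro σ hσ w hw θ x0 u hx0 hu1 hu2
  have hww1 : w1 ≤ w := (le_max_left _ _).trans hw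
  have hww2 : 2 * (k + 1) * GG F ≤ w := (le_max_right _ _).trans hw
  have hσ2 : σ * σ = 1 := by rcases hσ with rfl | rfl <;> norm_num
  obtain ⟨d, hd⟩ : ∃ d, F.al (toR (dir d)) = σ * ζ := by
    rcases hσ with rfl | rfl
    · exact ⟨dp, by rw [hdp, one_mul]⟩
    · exact ⟨dm, by rw [hdm]; ring⟩
  have hbe : |F.be (toR (dir d))| ≤ GG F := by
    have := be_le F (toR (dir d))
    rwa [norm_dir, mul_one] at this
  set s := F.al (pos θ x0) + σ * (k * ζ) with hs
  set x1 := x0 + k • dir d with hx1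
  have hbej : ∀ j : ℕ, j ≤ k → |F.be (pos θ x0) + j * F.be (toR (dir d))| ≤ w / 2 := by
    intro j hj
    have hj' : (j : ℝ) ≤ k := by exact_mod_cast hj
    have h1 : |(j : ℝ) * F.be (toR (dir d))| ≤ k * GG F := by
      rw [abs_mul, abs_of_nonneg (Nat.cast_nonneg j)]
      gcongr
    refine (abs_add_le _ _).trans ?_
    linarith
  have hx1pos : pos θ x1 = pos θ x0 + (k : ℝ) • toR (dir d) := pos_add_nsmul θ x0 k d
  have hx1al : F.al (pos θ x1) = s := by
    rw [hx1pos, map_add, map_smul, smul_eq_mul, hd, hs]; ring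
  have hx1be : |F.be (pos θ x1)| ≤ w / 2 := by
    rw [hx1pos, map_add, map_smul, smul_eq_mul]
    exact hbej k le_rfl
  have hsub : Bnd F θ s C1 w ⊆ {z | |F.be (pos θ z)| ≤ w / 2 ∧
      (z = x0 ∨ 0 < σ * (F.al (pos θ z) - F.al (pos θ x0))) ∧
        σ * (F.al (pos θ z) - F.al (pos θ x0)) ≤ k * ζ + C1} := by
    rintro z ⟨hz1, hz2⟩
    have e : σ * (F.al (pos θ z) - F.al (pos θ x0)) = k * ζ + σ * (F.al (pos θ z) - s) := by
      rw [hs]
      linear_combination ((k : ℝ) * ζ) * hσ2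
    have hz3 : |σ * (F.al (pos θ z) - s)| ≤ C1 := by
      rw [abs_mul]
      rcases hσ with rfl | rfl
      · simpa using hz1
      · simpa using hz1
    rw [abs_le] at hz3
    refine ⟨hz2, Or.inr ?_, ?_⟩
    · rw [e]; linarith
    · rw [e]; linarith
  have c1 : Conn {z | |F.be (pos θ z)| ≤ w / 2 ∧
      (z = x0 ∨ 0 < σ * (F.al (pos θ z) - F.al (pos θ x0))) ∧
        σ * (F.al (pos θ z) - F.al (pos θ x0)) ≤ k * ζ + C1} x0 x1 := by
    obtain ⟨W, hW⟩ := straight x0 d k
    refine ⟨W, fun z hz => ?_⟩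
    obtain ⟨j, hj, rfl⟩ := hW z hz
    have hj' : (j : ℝ) ≤ k := by exact_mod_cast hj
    have hp := pos_add_nsmul θ x0 j d
    have e : σ * (F.al (pos θ (x0 + j • dir d)) - F.al (pos θ x0)) = j * ζ := by
      rw [hp, map_add, map_smul, smul_eq_mul, hd]
      linear_combination ((j : ℝ) * ζ) * hσ2
    refine ⟨?_, ?_, ?_⟩
    · rw [hp, map_add, map_smul, smul_eq_mul]
      exact hbej j hj
    · rcases Nat.eq_zero_or_pos j with h0 | h0
      · left; rw [h0]; simp
      · right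
        rw [e]
        have : (0 : ℝ) < j := by exact_mod_cast h0
        positivity
    · rw [e]
      have : (j : ℝ) * ζ ≤ k * ζ := by gcongr
      linarith
  have c2 := (hb w hww1 θ s x1 (by rw [hx1al, sub_self, abs_zero]; linarith) hx1be).mono hsub
  have c3 := (hb w hww1 θ s u (by rw [hs]; exact hu2) hu1).mono hsub
  exact (c1.trans c2).trans c3.symm

end Crest.Agent.R151.U450
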