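import Crest.Agent.R151.U450b
import Crest.Agent.R151.R78A

/-!
# R151/U450c — band sums, glueing of a lane walk into a block path (owner helper450)
-/

set_option autoImplicit false

open MeasureTheory Filter ProbabilityTheory Topology
open Crest.ProbabilityR.FirstPassage
open Crest.Agent.R151.K
open Crest.Agent.R151.Q

namespace Crest.Agent.R151.U450

open B710 (FlatData)

variable {μ : ℝ × ℝ → ℝ} {t : Environment}

/-! ### Lists of vertices and walks -/

lemma lcost_support {x y : ℤ × ℤ} (w : squareLattice.Walk x y) :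
    lcost t w.support = walkCost t w := by
  induction w with
  | nil => simp [lcost, walkCost]
  | @cons u v w h p ih =>
    have e : walkCost t (SimpleGraph.Walk.cons h p) = t s(u, v) + walkCost t p := by
      simp [walkCost]
    rw [e, ← ih, SimpleGraph.Walk.support_cons]
    have h2 := SimpleGraph.Walk.cons_tail_support p
    rw [← h2]
    rfl

lemma lcost_nonneg (ht : Nn t) : ∀ l : List (ℤ × ℤ), 0 ≤ lcost t l
  | [] => le_rfl
  | [_] => le_rfl
  | x :: y :: l => by
    have := lcost_nonneg ht (y :: l)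
    have := ht s(x, y)
    simp only [lcost]
    linarith

lemma mem_pathsBT {Q : Finset (ℤ × ℤ)} {x y : ℤ × ℤ} {h : ℤ × ℤ → ℝ} {κ : ℝ}
    (w : squareLattice.Walk x y) (hw : w.IsPath) (hQ : ∀ z ∈ w.support, z ∈ Q)
    (hbt : bt h κ w.support) : w.support ∈ pathsBT Q x y h κ := by
  refine ⟨hw.support_nodup, w.isChain_adj_support, hQ, ?_, ?_, hbt⟩
  · rw [← SimpleGraph.Walk.cons_tail_support w]; rfl
  · rw [List.getLast?_eq_some_getLast w.support_ne_nil, SimpleGraph.Walk.getLast_support]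

lemma sInf_paths_le (ht : Nn t) {Q : Finset (ℤ × ℤ)} {x y : ℤ × ℤ} {h : ℤ × ℤ → ℝ} {κ : ℝ}
    {l : List (ℤ × ℤ)} (hl : l ∈ pathsBT Q x y h κ) :
    sInf (lcost t '' pathsBT Q x y h κ) ≤ lcost t l :=
  csInf_le ⟨0, by rintro _ ⟨l', -, rfl⟩; exact lcost_nonneg ht l'⟩ ⟨l, hl, rfl⟩

lemma blkCost_nonneg (ht : Nn t) (F : FlatData μ) (w n0 κ : ℝ) (θ : ℝ × ℝ) :
    0 ≤ blkCost F w n0 κ θ t := by
  unfold blkCost
  refine Real.sInf_nonneg ?_
  rintro _ ⟨l, -, rfl⟩
  exact lcost_nonneg ht l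

/-! ### Sets of edges -/

/-- the lattice edges starting at the points of `Z` (to the right and upwards) -/
noncomputable def ED (Z : Finset (ℤ × ℤ)) : Finset (Sym2 (ℤ × ℤ)) := by
  classical
  exact Z.image (fun z => s(z, z + (1, 0))) ∪ Z.image (fun z => s(z, z + (0, 1)))

lemma card_ED_le (Z : Finset (ℤ × ℤ)) : (ED Z).card ≤ 2 * Z.card := by
  classical
  unfold ED
  refine (Finset.card_union_le _ _).trans ?_
  have h1 := Finset.card_image_le (s := Z) (f := fun z => s(z, z + ((1 : ℤ), (0 : ℤ))))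
  have h2 := Finset.card_image_le (s := Z) (f := fun z => s(z, z + ((0 : ℤ), (1 : ℤ))))
  omega

lemma mem_ED_of_adj {Z : Finset (ℤ × ℤ)} {x y : ℤ × ℤ} (h : squareLattice.Adj x y) (hx : x ∈ Z)
    (hy : y ∈ Z) : s(x, y) ∈ ED Z := by
  classical
  unfold ED
  rw [Finset.mem_union, Finset.mem_image, Finset.mem_image]
  obtain ⟨d, rfl⟩ := exists_dir h
  fin_cases d
  · left; exact ⟨x, hx, by simp [dir]⟩
  · left
    refine ⟨_, hy, ?_⟩
    simp only [dir]
    rw [Sym2.eq_swap]
    congr 1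
    rw [add_assoc]
    simp
  · right; exact ⟨x, hx, by simp [dir]⟩
  · right
    refine ⟨_, hy, ?_⟩
    simp only [dir]
    rw [Sym2.eq_swap]
    congr 1
    rw [add_assoc]
    simp

lemma walkCost_le_sum (ht : Nn t) {x y : ℤ × ℤ} (w : squareLattice.Walk x y)
    (hw : w.edges.Nodup) {Z : Finset (ℤ × ℤ)} (hZ : ∀ z ∈ w.support, z ∈ Z) :
    walkCost t w ≤ ∑ e ∈ ED Z, t e := by
  classical
  have h1 : walkCost t w = ∑ e ∈ w.edges.toFinset, t e := (List.sum_toFinset _ hw).symm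
  rw [h1]
  refine Finset.sum_le_sum_of_subset_of_nonneg ?_ fun e _ _ => ht e
  intro e he
  rw [List.mem_toFinset] at he
  induction e with
  | h a b =>
    exact mem_ED_of_adj (w.adj_of_mem_edges he)
      (hZ a (SimpleGraph.Walk.fst_mem_support_of_mem_edges _ he))
      (hZ b (SimpleGraph.Walk.snd_mem_support_of_mem_edges _ he))

/-- a connection inside a region contained in `Z`, as a path, with its cost -/
lemma Conn.exists_path {R : Set (ℤ × ℤ)} {x y : ℤ × ℤ} (h : Conn R x y) :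
    ∃ w : squareLattice.Walk x y, w.IsPath ∧ ∀ z ∈ w.support, z ∈ R := by
  obtain ⟨w, hw⟩ := h
  exact ⟨w.bypass, w.bypass_isPath, fun z hz => hw z (w.support_bypass_subset_support hz)⟩

/-- the lattice points of a parallelogram around the origin -/
noncomputable def BZ (F : FlatData μ) (c w : ℝ) : Finset (ℤ × ℤ) := by
  classical
  exact (box ⌈GG F * (c + w)⌉₊).filter fun z => |F.al (toR z)| ≤ c ∧ |F.be (toR z)| ≤ w

lemma mem_box_of_norm {n : ℕ} {z : ℤ × ℤ} (h : ‖toR z‖ ≤ n) : z ∈ box n := by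
  have h1 := (abs_fst_le (toR z)).trans h
  have h2 := (abs_snd_le (toR z)).trans h
  simp only [toR, abs_le] at h1 h2
  rw [mem_box]
  refine ⟨⟨?_, ?_⟩, ⟨?_, ?_⟩⟩
  · exact_mod_cast h1.1
  · exact_mod_cast h1.2
  · exact_mod_cast h2.1
  · exact_mod_cast h2.2

lemma mem_BZ {F : FlatData μ} {c w : ℝ} {z : ℤ × ℤ} :
    z ∈ BZ F c w ↔ |F.al (toR z)| ≤ c ∧ |F.be (toR z)| ≤ w := by
  classical
  unfold BZ
  rw [Finset.mem_filter]
  refine ⟨fun h => h.2, fun h => ⟨mem_box_of_norm ?_, h⟩⟩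
  refine le_trans ?_ (Nat.le_ceil _)
  refine (norm_le_al_be F _).trans ?_
  have := one_le_GG F
  gcongr
  · exact h.1
  · exact h.2

/-- the sum of the weights of the edges of the parallelogram around `z` -/
noncomputable def DD (F : FlatData μ) (c w : ℝ) (z : ℤ × ℤ) (t : Environment) : ℝ := by
  classical
  exact ∑ e ∈ ED ((BZ F c w).image (· + z)), t e

lemma DD_nonneg (ht : Nn t) (F : FlatData μ) (c w : ℝ) (z : ℤ × ℤ) : 0 ≤ DD F c w z t :=
  Finset.sum_nonneg fun e _ => ht e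

/-- cost of a path of the parallelogram around `z0` -/
lemma walkCost_le_DD (ht : Nn t) (F : FlatData μ) {c w : ℝ} {z0 x y : ℤ × ℤ}
    (W : squareLattice.Walk x y) (hW : W.IsPath)
    (h : ∀ z ∈ W.support, |F.al (toR z - toR z0)| ≤ c ∧ |F.be (toR z - toR z0)| ≤ w) :
    walkCost t W ≤ DD F c w z0 t := by
  classical
  unfold DD
  refine walkCost_le_sum ht W hW.isTrail.edges_nodup fun z hz => ?_
  rw [Finset.mem_image]
  refine ⟨z - z0, mem_BZ.2 ?_, sub_add_cancel z z0⟩
  rw [toR_sub]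
  exact h z hz

/-! ### The properties proved in U450b, as Props -/

/-- conclusion of `band_conn` -/
def BandProp (F : FlatData μ) (C w0 : ℝ) : Prop :=
  0 < C ∧ 0 < w0 ∧ ∀ w ≥ w0, ∀ (θ : ℝ × ℝ) (s : ℝ)
    (u : ℤ × ℤ), |F.al (pos θ u) - s| ≤ GG F → |F.be (pos θ u)| ≤ w / 2 →
    Conn (Bnd F θ s C w) u (nr (θ - s • F.a))

/-- conclusion of `start_conn` -/
def StartProp (F : FlatData μ) (L C w0 : ℝ) : Prop :=
  4 * GG F < L ∧ 0 < C ∧ 0 < w0 ∧
    ∀ σ : ℝ, σ = 1 ∨ σ = -1 → ∀ w ≥ w0, ∀ (θ : ℝ × ℝ) (x0 u : ℤ × ℤ),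
      |F.be (pos θ x0)| ≤ GG F → |F.be (pos θ u)| ≤ w / 2 →
      |F.al (pos θ u) - (F.al (pos θ x0) + σ * L)| ≤ GG F →
      Conn {z | |F.be (pos θ z)| ≤ w / 2 ∧ (z = x0 ∨ 0 < σ * (F.al (pos θ z) - F.al (pos θ x0))) ∧
        σ * (F.al (pos θ z) - F.al (pos θ x0)) ≤ C} x0 u

/-! ### The half-open box -/

lemma norm_pos_nxt (F : FlatData μ) (n0 : ℝ) (θ : ℝ × ℝ) :
    ‖pos θ (nxt F n0 θ) - n0 • F.a‖ ≤ 1 / 2 := norm_pos_nr θ _

lemma pos_zero (θ : ℝ × ℝ) : pos θ 0 = θ := by simp [pos, toR]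

lemma al_nxt (F : FlatData μ) (n0 : ℝ) (θ : ℝ × ℝ) :
    |F.al (pos θ (nxt F n0 θ)) - n0| ≤ ‖F.al‖ / 2 := by
  have h := (F.al.le_opNorm (pos θ (nxt F n0 θ) - n0 • F.a)).trans
    (mul_le_mul_of_nonneg_left (norm_pos_nxt F n0 θ) (norm_nonneg F.al))
  rw [map_sub, map_smul, F.al_a, smul_eq_mul, mul_one, Real.norm_eq_abs] at h
  linarith

lemma be_nxt (F : FlatData μ) (n0 : ℝ) (θ : ℝ × ℝ) :
    |F.be (pos θ (nxt F n0 θ))| ≤ GG F / 2 := by
  have h := (be_le F (pos θ (nxt F n0 θ) - n0 • F.a)).trans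
    (mul_le_mul_of_nonneg_left (norm_pos_nxt F n0 θ) (by linarith [one_le_GG F]))
  rw [map_sub, map_smul, F.be_a, smul_eq_mul, mul_zero, sub_zero] at h
  linarith

lemma norm_al_le (F : FlatData μ) : ‖F.al‖ ≤ GG F := by
  unfold GG
  have := norm_nonneg F.be
  have := norm_nonneg F.a
  have := norm_nonneg F.b
  linarith

lemma mem_box_bxN (F : FlatData μ) {w n0 : ℝ} {θ : ℝ × ℝ} {z : ℤ × ℤ} (hθ : ‖θ‖ ≤ 1 / 2)
    (hw : 0 ≤ w) (h1 : |F.be (pos θ z)| ≤ w / 2) (h2 : F.al (pos θ 0) ≤ F.al (pos θ z))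
    (h3 : F.al (pos θ z) ≤ F.al (pos θ (nxt F n0 θ))) : z ∈ box (bxN F w n0) := by
  refine mem_box_of_norm ?_
  have e1 : toR z = F.al (pos θ z) • F.a + F.be (pos θ z) • F.b - θ := by
    rw [F.decomp]; unfold pos; abel
  have h4 : |F.al (pos θ z)| ≤ |n0| + ‖F.al‖ := by
    have h5 := al_nxt F n0 θ
    have h6 : |F.al (pos θ 0)| ≤ ‖F.al‖ / 2 := by
      rw [pos_zero, ← Real.norm_eq_abs]
      refine (F.al.le_opNorm θ).trans ?_
      have := norm_nonneg F.al
      nlinarith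
    rw [abs_le] at h5 h6 ⊢
    have h7 := le_abs_self n0
    have h8 := abs_nonneg n0
    have := norm_nonneg F.al
    constructor <;> linarith
  have hle : ‖toR z‖ ≤ (|n0| + ‖F.al‖) * ‖F.a‖ + w / 2 * ‖F.b‖ + 1 / 2 := by
    rw [e1]
    refine (norm_sub_le _ _).trans (add_le_add ((norm_add_le _ _).trans ?_) hθ)
    rw [norm_smul, norm_smul, Real.norm_eq_abs, Real.norm_eq_abs]
    gcongr
  refine hle.trans ?_
  unfold bxN
  push_cast
  have h9 := Nat.le_ceil ((|n0| + ‖F.al‖ + 1) * ‖F.a‖ + (|w| + 1) * ‖F.b‖)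
  have := norm_nonneg F.a
  have := norm_nonneg F.b
  rw [abs_of_nonneg hw] at h9 ⊢
  nlinarith

lemma mem_Qbox_of (F : FlatData μ) {w n0 : ℝ} {θ : ℝ × ℝ} {z : ℤ × ℤ} (hθ : ‖θ‖ ≤ 1 / 2)
    (hw : 0 ≤ w) (h : z = nxt F n0 θ ∨ (|F.be (pos θ z)| ≤ w / 2 ∧
      F.al (pos θ 0) ≤ F.al (pos θ z) ∧ F.al (pos θ z) < F.al (pos θ (nxt F n0 θ)))) :
    z ∈ Qbox F w n0 θ := by
  unfold Qbox
  rw [Finset.mem_insert, Finset.mem_filter]
  rcases h with h | h
  · exact Or.inl h
  · exact Or.inr ⟨mem_box_bxN F hθ hw h.1 h.2.1 h.2.2.le, h⟩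

/-- target node of the block, up to `3/2` -/
noncomputable def zEnd (F : FlatData μ) (n0 : ℝ) : ℤ × ℤ := nr (0 - n0 • F.a)

lemma norm_zEnd (F : FlatData μ) (n0 : ℝ) : ‖toR (zEnd F n0) - n0 • F.a‖ ≤ 1 / 2 := by
  have := norm_pos_nr 0 (n0 • F.a)
  simpa [pos, zEnd] using this

/-- **Glueing.** A walk `o` in the interior of the block, from near the start to near the end, is
completed to a path of the block. -/
lemma glue (F : FlatData μ) {L C w0 : ℝ} (hS : StartProp F L C w0) {w n0 κ : ℝ} {θ : ℝ × ℝ}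
    (hθ : ‖θ‖ ≤ 1 / 2) (hw : w0 ≤ w) (hw2 : 2 * GG F ≤ w) (hn0 : C + GG F < n0)
    (hκ : C ≤ κ) {u v : ℤ × ℤ} (o : squareLattice.Walk u v)
    (hu : |F.al (pos θ u) - (F.al (pos θ 0) + L)| ≤ GG F)
    (hv : |F.al (pos θ v) - (F.al (pos θ (nxt F n0 θ)) - L)| ≤ GG F)
    (ho : ∀ z ∈ o.support, |F.be (pos θ z)| ≤ w / 2 ∧
      F.al (pos θ 0) + L - 3 * GG F ≤ F.al (pos θ z) ∧
      F.al (pos θ z) ≤ F.al (pos θ (nxt F n0 θ)) - L + 3 * GG F)
    (hbt : bt (fun z => F.al (toR z)) κ o.support) :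
    ∃ l ∈ pathsBT (Qbox F w n0 θ) 0 (nxt F n0 θ) (fun z => F.al (toR z)) κ,
      ∀ t, Nn t → lcost t l ≤
        walkCost t o + DD F (C + 2 * GG F) w 0 t + DD F (C + 2 * GG F) w (zEnd F n0) t := by
  obtain ⟨hL, hC, hw0, hS⟩ := hS
  have hG := one_le_GG F
  have hwpos : 0 ≤ w := by linarith
  have hθal : |F.al (pos θ 0)| ≤ GG F / 2 := by
    rw [pos_zero]
    have := (al_le F θ).trans (mul_le_mul_of_nonneg_left hθ (by linarith : 0 ≤ GG F))
    linarith
  have hθbe : |F.be (pos θ 0)| ≤ GG F / 2 := by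
    rw [pos_zero]
    have := (be_le F θ).trans (mul_le_mul_of_nonneg_left hθ (by linarith : 0 ≤ GG F))
    linarith
  have hnal := al_nxt F n0 θ
  have hnbe := be_nxt F n0 θ
  have hnG := norm_al_le F
  -- the two ends
  obtain ⟨A, hA1, hA2⟩ := Conn.exists_path (hS 1 (Or.inl rfl) w hw θ 0 u (by linarith)
    (ho u o.start_mem_support).1 (by rw [one_mul]; exact hu))
  obtain ⟨B, hB1, hB2⟩ := Conn.exists_path (hS (-1) (Or.inr rfl) w hw θ (nxt F n0 θ) v
    (by linarith) (ho v o.end_mem_support).1 (by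
      rw [neg_one_mul, ← sub_eq_add_neg]; exact hv))
  have hB3 : ∀ z ∈ B.reverse.support, z ∈ B.support := by
    intro z hz
    rwa [SimpleGraph.Walk.support_reverse, List.mem_reverse] at hz
  rw [abs_le] at hθal hnal
  have hA3 : ∀ z ∈ A.support, F.al (pos θ 0) ≤ F.al (pos θ z) ∧
      F.al (pos θ z) ≤ F.al (pos θ 0) + C := by
    intro z hz
    obtain ⟨h1, h2, h3⟩ := hA2 z hz
    rw [one_mul] at h2 h3
    rcases h2 with rfl | h2
    · exact ⟨le_rfl, by linarith⟩
    · exact ⟨by linarith, by linarith⟩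
  have hB4 : ∀ z ∈ B.reverse.support, F.al (pos θ (nxt F n0 θ)) - C ≤ F.al (pos θ z) ∧
      F.al (pos θ z) ≤ F.al (pos θ (nxt F n0 θ)) ∧ (z = nxt F n0 θ ∨ F.al (pos θ z) < F.al (pos θ (nxt F n0 θ))) := by
    intro z hz
    obtain ⟨h1, h2, h3⟩ := hB2 z (hB3 z hz)
    rw [neg_one_mul] at h2 h3
    rcases h2 with rfl | h2
    · exact ⟨by linarith, le_rfl, Or.inl rfl⟩
    · exact ⟨by linarith, by linarith, Or.inr (by linarith)⟩
  set W := (A.append o).append B.reverse with hW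
  have hbtW : bt (fun z => F.al (toR z)) κ W.support := by
    have key : ∀ a b : ℤ × ℤ, F.al (pos θ a) ≤ F.al (pos θ b) + κ →
        F.al (toR a) ≤ F.al (toR b) + κ := by
      intro a b h
      unfold pos at h
      rw [map_add, map_add] at h
      linarith
    unfold bt at hbt ⊢
    rw [hW, SimpleGraph.Walk.support_append, SimpleGraph.Walk.support_append,
      List.pairwise_append, List.pairwise_append]
    refine ⟨⟨?_, hbt.sublist (List.tail_sublist _), ?_⟩, ?_, ?_⟩
    · refine List.Pairwise.imp_of_mem (R := fun _ _ => True) ?_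
        (List.pairwise_of_forall fun _ _ => trivial)
      intro a b ha hb _
      have h1 := hA3 a ha
      have h2 := hA3 b hb
      exact key a b (by linarith)
    · intro a ha b hb
      have h1 := hA3 a ha
      have h2 := ho b (List.mem_of_mem_tail hb)
      exact key a b (by linarith)
    · refine List.Pairwise.imp_of_mem (R := fun _ _ => True) ?_
        (List.pairwise_of_forall fun _ _ => trivial)
      intro a b ha hb _
      have h1 := hB4 a (List.mem_of_mem_tail ha)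
      have h2 := hB4 b (List.mem_of_mem_tail hb)
      exact key a b (by linarith)
    · intro a ha b hb
      have h2 := hB4 b (List.mem_of_mem_tail hb)
      rw [List.mem_append] at ha
      rcases ha with ha | ha
      · have h1 := hA3 a ha
        exact key a b (by linarith)
      · have h1 := ho a (List.mem_of_mem_tail ha)
        exact key a b (by linarith)
  have hQ : ∀ z ∈ W.support, z ∈ Qbox F w n0 θ := by
    intro z hz
    rw [hW, SimpleGraph.Walk.mem_support_append_iff, SimpleGraph.Walk.mem_support_append_iff] at hz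
    refine mem_Qbox_of F hθ hwpos ?_
    rcases hz with (hz | hz) | hz
    · right
      have h1 := hA3 z hz
      exact ⟨(hA2 z hz).1, h1.1, by linarith⟩
    · right
      have h1 := ho z hz
      exact ⟨h1.1, by linarith, by linarith⟩
    · have h1 := hB4 z hz
      rcases h1.2.2 with h2 | h2
      · exact Or.inl h2
      · exact Or.inr ⟨(hB2 z (hB3 z hz)).1, by linarith, h2⟩
  refine ⟨W.bypass.support, mem_pathsBT W.bypass W.bypass_isPath
    (fun z hz => hQ z (W.support_bypass_subset_support hz)) ?_, ?_⟩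
  · exact hbtW.sublist W.support_bypass_sublist_support
  · intro t ht
    rw [lcost_support]
    refine (walkCost_bypass_le ht W).trans ?_
    rw [hW, walkCost_append, walkCost_append, walkCost_reverse]
    have c1 : walkCost t A ≤ DD F (C + 2 * GG F) w 0 t := by
      refine walkCost_le_DD ht F A hA1 fun z hz => ?_
      have h1 := hA3 z hz
      rw [← pos_sub θ, map_sub, map_sub]
      refine ⟨?_, ?_⟩
      · rw [abs_of_nonneg (by linarith)]; linarith
      · refine (abs_sub _ _).trans ?_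
        have := (hA2 z hz).1
        linarith
    have c2 : walkCost t B ≤ DD F (C + 2 * GG F) w (zEnd F n0) t := by
      refine walkCost_le_DD ht F B hB1 fun z hz => ?_
      have h1 := hB4 z (by rwa [SimpleGraph.Walk.support_reverse, List.mem_reverse])
      have h2 := (hB2 z hz).1
      have e1 : toR z - toR (zEnd F n0) = pos θ z - pos θ (nxt F n0 θ) +
          ((pos θ (nxt F n0 θ) - n0 • F.a) - θ - (toR (zEnd F n0) - n0 • F.a)) := by
        unfold pos; abel
      have e2 : ‖(pos θ (nxt F n0 θ) - n0 • F.a) - θ - (toR (zEnd F n0) - n0 • F.a)‖ ≤ 3 / 2 := by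
        refine (norm_sub_le _ _).trans ?_
        have h3 := norm_sub_le (pos θ (nxt F n0 θ) - n0 • F.a) θ
        have h4 := norm_pos_nxt F n0 θ
        have h5 := norm_zEnd F n0
        linarith
      set err := (pos θ (nxt F n0 θ) - n0 • F.a) - θ - (toR (zEnd F n0) - n0 • F.a) with herr
      have a1 := (al_le F err).trans (mul_le_mul_of_nonneg_left e2 (by linarith : 0 ≤ GG F))
      refine ⟨?_, ?_⟩
      · rw [e1, map_add, map_sub]
        refine (abs_add_le _ _).trans ?_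
        rw [abs_of_nonpos (by linarith)]
        linarith
      · have e3 : toR z - toR (zEnd F n0) =
            pos θ z - θ - (toR (zEnd F n0) - n0 • F.a) - n0 • F.a := by
          unfold pos; abel
        have h5 := (be_le F (toR (zEnd F n0) - n0 • F.a)).trans
          (mul_le_mul_of_nonneg_left (norm_zEnd F n0) (by linarith : 0 ≤ GG F))
        rw [e3, map_sub, map_sub, map_sub, map_smul, F.be_a, smul_eq_mul, mul_zero, sub_zero]
        rw [pos_zero] at hθbe
        have h6 := abs_sub (F.be (pos θ z) - F.be θ) (F.be (toR (zEnd F n0) - n0 • F.a))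
        have h7 := abs_sub (F.be (pos θ z)) (F.be θ)
        linarith
    linarith

end Crest.Agent.R151.U450
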