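import Crest.Agent.R151.U450c

/-!
# R151/U450d — deterministic bound of the block cost (owner helper450)

`main_det` : outside a bad event, `blkCost ≤ pR (lane) 0 (nxt) + 1 + D(0) + D(end)`.
`fallback` : always `blkCost ≤ D(0) + D(end) + (sum of all the weights of the box)`.
-/

set_option autoImplicit false

open MeasureTheory Filter ProbabilityTheory Topology
open Crest.ProbabilityR.FirstPassage
open Crest.Agent.R151.K
open Crest.Agent.R151.Q

namespace Crest.Agent.R151.U450

open B710 (FlatData)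
open R78 (exists_first exists_last mem_support_append mem_tail_append mem_dropLast_append)

variable {μ : ℝ × ℝ → ℝ} {t : Environment}

/-! ### Walks and heights -/

lemma pairwise_support {x y : ℤ × ℤ} (w : squareLattice.Walk x y) (R : ℤ × ℤ → ℤ × ℤ → Prop)
    (H : ∀ (p q : ℤ × ℤ) (w1 : squareLattice.Walk x p) (w2 : squareLattice.Walk p q)
      (w3 : squareLattice.Walk q y), w = (w1.append w2).append w3 → R p q) :
    w.support.Pairwise R := by
  classical
  induction w with
  | nil => simp
  | @cons u v y h p ih =>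
    rw [SimpleGraph.Walk.support_cons, List.pairwise_cons]
    constructor
    · intro z hz
      refine H u z SimpleGraph.Walk.nil (SimpleGraph.Walk.cons h (p.takeUntil z hz))
        (p.dropUntil z hz) ?_
      rw [SimpleGraph.Walk.nil_append, SimpleGraph.Walk.cons_append, SimpleGraph.Walk.take_spec]
    · refine ih fun p' q' w1 w2 w3 e => H p' q' (SimpleGraph.Walk.cons h w1) w2 w3 ?_
      rw [e, SimpleGraph.Walk.cons_append, SimpleGraph.Walk.cons_append]

lemma exists_pred {x u : ℤ × ℤ} (a : squareLattice.Walk x u) :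
    x = u ∨ ∃ v ∈ a.support.dropLast, squareLattice.Adj v u := by
  induction a with
  | nil => exact Or.inl rfl
  | @cons x v' u h p ih =>
    right
    rw [SimpleGraph.Walk.support_cons, List.dropLast_cons_of_ne_nil p.support_ne_nil]
    rcases ih with rfl | ⟨v, hv, hadj⟩
    · exact ⟨x, List.mem_cons_self, h⟩
    · exact ⟨v, List.mem_cons_of_mem _ hv, hadj⟩

lemma exists_succ {u y : ℤ × ℤ} (b : squareLattice.Walk u y) :
    u = y ∨ ∃ v ∈ b.support.tail, squareLattice.Adj u v := by
  cases b with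
  | nil => exact Or.inl rfl
  | @cons _ v _ h p =>
    right
    exact ⟨v, by simp, h⟩

lemma abs_sub_le_length {h : ℤ × ℤ → ℝ} {C : ℝ}
    (hadj : ∀ x y, squareLattice.Adj x y → |h y - h x| ≤ C) {x y : ℤ × ℤ}
    (w : squareLattice.Walk x y) : |h y - h x| ≤ C * w.length := by
  induction w with
  | nil => simp
  | @cons u v y hh p ih =>
    have h1 := hadj _ _ hh
    rw [SimpleGraph.Walk.length_cons]
    push_cast
    have e : h y - h u = (h y - h v) + (h v - h u) := by ring
    rw [e]
    refine (abs_add_le _ _).trans ?_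
    linarith

/-- a walk crosses every intermediate level -/
lemma exists_cross {h : ℤ × ℤ → ℝ} {C : ℝ} (hC : 0 ≤ C)
    (hadj : ∀ x y, squareLattice.Adj x y → |h y - h x| ≤ C) {x y : ℤ × ℤ}
    (w : squareLattice.Walk x y) {s : ℝ} (hx : h x ≤ s) (hy : s ≤ h y) :
    ∃ (u : ℤ × ℤ) (w1 : squareLattice.Walk x u) (w2 : squareLattice.Walk u y),
      w = w1.append w2 ∧ |h u - s| ≤ C := by
  obtain ⟨u, a, b, e, hu, ha⟩ := exists_first w {z | s ≤ h z} ⟨y, w.end_mem_support, hy⟩
  refine ⟨u, a, b, e, ?_⟩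
  have hu' : s ≤ h u := hu
  rw [abs_of_nonneg (by linarith)]
  rcases exists_pred a with rfl | ⟨v, hv, hvu⟩
  · linarith
  · have h1 := ha v hv
    have h1' : h v < s := lt_of_not_ge h1
    have h2 := hadj v u hvu
    rw [abs_le] at h2
    linarith

lemma al_adj (F : FlatData μ) (θ : ℝ × ℝ) (x y : ℤ × ℤ) (h : squareLattice.Adj x y) :
    |F.al (pos θ y) - F.al (pos θ x)| ≤ GG F := by
  rw [← map_sub, pos_sub]
  have h1 := al_le F (toR y - toR x)
  have h2 := norm_adj h
  have := one_le_GG F
  nlinarith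

lemma Nodup_edges_of_append {x p q y : ℤ × ℤ} {w : squareLattice.Walk x y}
    {w1 : squareLattice.Walk x p} {w2 : squareLattice.Walk p q} {w3 : squareLattice.Walk q y}
    (e : w = (w1.append w2).append w3) (hw : w.edges.Nodup) : w2.edges.Nodup := by
  rw [e, SimpleGraph.Walk.edges_append, SimpleGraph.Walk.edges_append] at hw
  exact (List.Nodup.of_append_right (List.Nodup.of_append_left hw))

lemma lane_mem {F : FlatData μ} {w : ℝ} {θ : ℝ × ℝ} {z : ℤ × ℤ} :
    z ∈ laneB F.swap w θ ↔ |F.be (pos θ z)| ≤ w / 2 := by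
  unfold laneB
  rw [Set.mem_ofPred_eq, F.al_swap]

/-- central nodes of the lane are connected in the lane -/
lemma lane_conn (F : FlatData μ) {w : ℝ} (hw : 5 * GG F ≤ w) (θ : ℝ × ℝ) (s s' : ℝ) :
    Conn (laneB F.swap w θ) (nr (θ - s • F.a)) (nr (θ - s' • F.a)) := by
  obtain ⟨W, h1, -⟩ := seg_walk θ (s • F.a) (s' • F.a)
  refine ⟨W, fun z hz => ?_⟩
  obtain ⟨r, -, -, hr⟩ := h1 z hz
  rw [lane_mem]
  have h2 := (be_le F _).trans (mul_le_mul_of_nonneg_left hr
    (by linarith [one_le_GG F] : 0 ≤ GG F))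
  simp only [map_sub, map_add, map_smul, F.be_a, smul_eq_mul, mul_zero, sub_zero, add_zero] at h2
  linarith

/-- cost of the lane connection of two vertices of nearly the same level -/
lemma pR_le_DD (F : FlatData μ) {C1 w1 : ℝ} (hB : BandProp F C1 w1) (ht : Nn t) {w : ℝ}
    (hw : w1 ≤ w) {θ : ℝ × ℝ} {a q : ℤ × ℤ} (ha : |F.be (pos θ a)| ≤ w / 2)
    (hq : |F.be (pos θ q)| ≤ w / 2) (haq : |F.al (pos θ a) - F.al (pos θ q)| ≤ GG F) :
    Conn (laneB F.swap w θ) a q ∧ pR t (laneB F.swap w θ) a q ≤ DD F C1 w q t := by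
  obtain ⟨hC1, hw1, hB⟩ := hB
  have c1 := hB w hw θ (F.al (pos θ q)) a haq ha
  have c2 := hB w hw θ (F.al (pos θ q)) q (by
    rw [sub_self, abs_zero]; linarith [one_le_GG F]) hq
  obtain ⟨P, hP1, hP2⟩ := Conn.exists_path (c1.trans c2.symm)
  have hPl : ∀ z ∈ P.support, z ∈ laneB F.swap w θ := fun z hz => lane_mem.2 (hP2 z hz).2
  refine ⟨⟨P, hPl⟩, (pR_le ht P hPl).trans ?_⟩
  refine walkCost_le_DD ht F P hP1 fun z hz => ?_
  have h1 := hP2 z hz
  rw [← pos_sub θ, map_sub, map_sub]
  refine ⟨h1.1, ?_⟩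
  refine (abs_sub _ _).trans ?_
  have := h1.2
  linarith

/-- a sub-walk of a nearly optimal walk is nearly optimal -/
lemma near_opt (ht : Nn t) {R : Set (ℤ × ℤ)} {x p q y : ℤ × ℤ} {w : squareLattice.Walk x y}
    {w1 : squareLattice.Walk x p} {w2 : squareLattice.Walk p q} {w3 : squareLattice.Walk q y}
    (e : w = (w1.append w2).append w3) (hR : ∀ z ∈ w.support, z ∈ R) {ε : ℝ}
    (hw : walkCost t w < pR t R x y + ε) (hc : Conn R p q) :
    walkCost t w2 < pR t R p q + ε := by
  have h1 : pR t R x y - walkCost t w1 - walkCost t w3 ≤ pR t R p q := by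
    refine le_pR hc fun r hr => ?_
    have h2 := pR_le (R := R) ht ((w1.append r).append w3) (fun z hz => by
      rw [SimpleGraph.Walk.mem_support_append_iff, SimpleGraph.Walk.mem_support_append_iff] at hz
      rcases hz with (hz | hz) | hz
      · apply hR; rw [e, SimpleGraph.Walk.mem_support_append_iff,
          SimpleGraph.Walk.mem_support_append_iff]; exact Or.inl (Or.inl hz)
      · exact hr z hz
      · apply hR; rw [e, SimpleGraph.Walk.mem_support_append_iff]; exact Or.inr hz)
    rw [walkCost_append, walkCost_append] at h2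
    linarith
  rw [e, walkCost_append, walkCost_append] at hw
  linarith

/-- **Main deterministic estimate.** -/
lemma main_det (F : FlatData μ) {L C w0 C1 w1 : ℝ} (hS : StartProp F L C w0)
    (hB : BandProp F C1 w1) (ht : Nn t) {w n0 κ c0 : ℝ} {m : ℕ} {θ : ℝ × ℝ} (hθ : nr θ = 0)
    (hw : w0 ≤ w) (hw1 : w1 ≤ w) (hw2 : 5 * GG F ≤ w) (hn0 : C + 2 * L + 2 * GG F < n0)
    (hκ : C ≤ κ) (hm : GG F * m + GG F ≤ κ)
    (hgood : ∀ z ∈ box (bxN F w n0), DD F C1 w z t + 1 < c0 * m ∧ t ∉ Bad c0 m z) :
    blkCost F w n0 κ θ t ≤ pR t (laneB F.swap w θ) 0 (nxt F n0 θ) + 1 +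
      (DD F (C + 2 * GG F) w 0 t + DD F (C + 2 * GG F) w (zEnd F n0) t) := by
  have hG := one_le_GG F
  have hL : 4 * GG F < L := hS.1
  have hC : 0 < C := hS.2.1
  have hwpos : 0 ≤ w := by linarith
  have hθn : ‖θ‖ ≤ 1 / 2 := by
    have h := norm_pos_nr θ 0
    simp only [sub_zero] at h
    rw [hθ, pos_zero] at h
    exact h
  have hθal : |F.al (pos θ 0)| ≤ GG F / 2 := by
    rw [pos_zero]
    have := (al_le F θ).trans (mul_le_mul_of_nonneg_left hθn (by linarith : 0 ≤ GG F))
    linarith
  have hnal := al_nxt F n0 θ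
  have hnG := norm_al_le F
  rw [abs_le] at hθal hnal
  -- the nearly optimal path of the lane
  have hconn : Conn (laneB F.swap w θ) 0 (nxt F n0 θ) := by
    have := lane_conn F hw2 θ 0 n0
    rw [zero_smul, sub_zero, hθ] at this
    exact this
  obtain ⟨g0, hg0, hg0c⟩ := exists_walk_lt_pR hconn
    (show pR t (laneB F.swap w θ) 0 (nxt F n0 θ) < pR t (laneB F.swap w θ) 0 (nxt F n0 θ) + 1 by
      linarith)
  obtain ⟨g, hgp, hgR, hgc⟩ : ∃ g : squareLattice.Walk 0 (nxt F n0 θ), g.IsPath ∧
      (∀ z ∈ g.support, z ∈ laneB F.swap w θ) ∧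
      walkCost t g < pR t (laneB F.swap w θ) 0 (nxt F n0 θ) + 1 :=
    ⟨g0.bypass, g0.bypass_isPath, fun z hz => hg0 z (g0.support_bypass_subset_support hz),
      (walkCost_bypass_le ht g0).trans_lt hg0c⟩
  have hs12 : F.al (pos θ 0) + L < F.al (pos θ (nxt F n0 θ)) - L := by linarith
  -- the middle piece
  obtain ⟨u, a, b', e1, hu, hb'⟩ := exists_last g {z | F.al (pos θ z) ≤ F.al (pos θ 0) + L}
    ⟨0, g.start_mem_support, by
      rw [Set.mem_ofPred_eq]; linarith⟩
  obtain ⟨v, o, c, e2, hv, ho⟩ := exists_first b'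
    {z | F.al (pos θ (nxt F n0 θ)) - L ≤ F.al (pos θ z)}
    ⟨nxt F n0 θ, b'.end_mem_support, by
      rw [Set.mem_ofPred_eq]; linarith⟩
  rw [Set.mem_ofPred_eq] at hu hv
  have hb2 : ∀ z ∈ b'.support.tail, F.al (pos θ 0) + L < F.al (pos θ z) :=
    fun z hz => lt_of_not_ge (hb' z hz)
  have ho2 : ∀ z ∈ o.support.dropLast, F.al (pos θ z) < F.al (pos θ (nxt F n0 θ)) - L :=
    fun z hz => lt_of_not_ge (ho z hz)
  have ho3 : ∀ z ∈ o.support.tail, F.al (pos θ 0) + L < F.al (pos θ z) := by
    intro z hz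
    apply hb2
    rw [e2, mem_tail_append]
    exact Or.inl hz
  have hu2 : F.al (pos θ 0) + L - GG F ≤ F.al (pos θ u) := by
    rcases exists_succ b' with h | ⟨z, hz, hadj⟩
    · exfalso
      rw [h] at hu
      linarith
    · have h1 := hb2 z hz
      have h2 := al_adj F θ u z hadj
      rw [abs_le] at h2
      linarith
  have hv2 : F.al (pos θ v) ≤ F.al (pos θ (nxt F n0 θ)) - L + GG F := by
    rcases exists_pred o with h | ⟨z, hz, hadj⟩
    · exfalso
      rw [h] at hu
      linarith
    · have h1 := ho2 z hz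
      have h2 := al_adj F θ z v hadj
      rw [abs_le] at h2
      linarith
  have ho4 : ∀ z ∈ o.support, F.al (pos θ 0) + L - GG F ≤ F.al (pos θ z) ∧
      F.al (pos θ z) ≤ F.al (pos θ (nxt F n0 θ)) - L + GG F := by
    intro z hz
    constructor
    · rcases (R78.mem_support_iff_tail o).1 hz with rfl | hz
      · exact hu2
      · linarith [ho3 z hz]
    · rcases (R78.mem_support_iff_dropLast o).1 hz with hz | rfl
      · linarith [ho2 z hz]
      · exact hv2
  have eg : g = (a.append o).append c := by rw [e1, e2, SimpleGraph.Walk.append_assoc]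
  have hoR : ∀ z ∈ o.support, |F.be (pos θ z)| ≤ w / 2 := by
    intro z hz
    refine lane_mem.1 (hgR z ?_)
    rw [eg, mem_support_append, mem_support_append]
    exact Or.inl (Or.inr hz)
  have hobox : ∀ z ∈ o.support, z ∈ box (bxN F w n0) := by
    intro z hz
    have h1 := ho4 z hz
    exact mem_box_bxN F hθn hwpos (hoR z hz) (by linarith) (by linarith)
  -- no backtracking
  have hbt : bt (fun z => F.al (toR z)) κ o.support := by
    refine pairwise_support o _ ?_
    intro p q o1 o2 o3 eo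
    by_contra hcon
    rw [not_le] at hcon
    have hcon' : F.al (pos θ q) + κ < F.al (pos θ p) := by
      unfold pos
      rw [map_add, map_add]
      linarith
    have hqo : q ∈ o.support := by
      rw [eo, mem_support_append]; exact Or.inr o3.start_mem_support
    have hcross : ∃ (a' : ℤ × ℤ) (o11 : squareLattice.Walk u a') (o12 : squareLattice.Walk a' p),
        o1 = o11.append o12 ∧ |F.al (pos θ a') - F.al (pos θ q)| ≤ GG F := by
      rcases le_total (F.al (pos θ u)) (F.al (pos θ q)) with h | h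
      · exact exists_cross (h := fun z => F.al (pos θ z)) (by linarith) (al_adj F θ) o1 h
          (by linarith)
      · refine ⟨u, SimpleGraph.Walk.nil, o1, rfl, ?_⟩
        have := (ho4 q hqo).1
        rw [abs_of_nonneg (by linarith)]
        linarith
    obtain ⟨a', o11, o12, e3, ha'⟩ := hcross
    have ha'o : a' ∈ o.support := by
      rw [eo, e3, mem_support_append, mem_support_append, mem_support_append]
      exact Or.inl (Or.inl (Or.inr o12.start_mem_support))
    obtain ⟨hc1, hc2⟩ := pR_le_DD F hB ht hw1 (hoR a' ha'o) (hoR q hqo) ha'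
    have eg2 : g = ((a.append o11).append (o12.append o2)).append (o3.append c) := by
      rw [eg, eo, e3]
      simp only [SimpleGraph.Walk.append_assoc]
    have hopt := near_opt ht eg2 hgR hgc hc1
    have hnd := Nodup_edges_of_append eg2 hgp.isTrail.edges_nodup
    have hlen : m ≤ (o12.append o2).length := by
      have h1 := abs_sub_le_length (h := fun z => F.al (pos θ z)) (al_adj F θ) o12
      rw [SimpleGraph.Walk.length_append]
      have h2 : GG F * m ≤ GG F * o12.length := by
        refine le_trans ?_ h1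
        rw [abs_le] at ha'
        refine le_trans ?_ (le_abs_self _)
        linarith
      have h3 : (m : ℝ) ≤ o12.length := le_of_mul_le_mul_left h2 (by linarith)
      have h4 : m ≤ o12.length := by exact_mod_cast h3
      omega
    have hg1 := hgood q (hobox q hqo)
    have hg2 := hgood a' (hobox a' ha'o)
    have h5 := cost_ge_of_not_Bad ht hg2.2 (o12.append o2) hnd hlen
    linarith
  obtain ⟨l, hl, hlc⟩ := glue F (n0 := n0) hS hθn hw (by linarith) (by linarith) hκ o
    (by rw [abs_le]; constructor <;> linarith) (by rw [abs_le]; constructor <;> linarith)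
    (fun z hz => ⟨hoR z hz, by linarith [(ho4 z hz).1], by linarith [(ho4 z hz).2]⟩) hbt
  refine (sInf_paths_le ht hl).trans ((hlc t ht).trans ?_)
  have h6 : walkCost t o ≤ walkCost t g := by
    rw [eg, walkCost_append, walkCost_append]
    have := walkCost_nonneg ht a
    have := walkCost_nonneg ht c
    linarith
  linarith

/-- **Fallback.** -/
lemma fallback (F : FlatData μ) {L C w0 : ℝ} (hS : StartProp F L C w0)
    (ht : Nn t) {w n0 κ : ℝ} {θ : ℝ × ℝ} (hθ : nr θ = 0)
    (hw : w0 ≤ w) (hw2 : 5 * GG F ≤ w) (hn0 : C + 2 * L + 2 * GG F < n0)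
    (hκ : C ≤ κ) (hκ2 : 5 * GG F ≤ κ) :
    blkCost F w n0 κ θ t ≤ ∑ e ∈ ED (box (bxN F w n0)), t e +
      (DD F (C + 2 * GG F) w 0 t + DD F (C + 2 * GG F) w (zEnd F n0) t) := by
  have hG := one_le_GG F
  have hL : 4 * GG F < L := hS.1
  have hC : 0 < C := hS.2.1
  have hwpos : 0 ≤ w := by linarith
  have hθn : ‖θ‖ ≤ 1 / 2 := by
    have h := norm_pos_nr θ 0
    simp only [sub_zero] at h
    rw [hθ, pos_zero] at h
    exact h
  have hθal : |F.al (pos θ 0)| ≤ GG F / 2 := by
    rw [pos_zero]
    have := (al_le F θ).trans (mul_le_mul_of_nonneg_left hθn (by linarith : 0 ≤ GG F))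
    linarith
  have hnal := al_nxt F n0 θ
  have hnG := norm_al_le F
  rw [abs_le] at hθal hnal
  set s1 := F.al (pos θ 0) + L with hs1
  set s2 := F.al (pos θ (nxt F n0 θ)) - L with hs2
  have hs12 : s1 < s2 := by linarith
  obtain ⟨W0, h1, h2⟩ := seg_walk θ (s1 • F.a) (s2 • F.a)
  have hbt0 : bt (fun z => F.al (toR z)) κ W0.support := by
    have h3 := h2 F.al (GG F) (al_le F) (by
      rw [map_smul, map_smul, F.al_a, smul_eq_mul, smul_eq_mul, mul_one, mul_one]; exact hs12.le)
    refine h3.imp ?_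
    intro a b hab
    unfold pos at hab
    rw [map_add, map_add] at hab
    linarith
  have hW0 : ∀ z ∈ W0.bypass.support, |F.be (pos θ z)| ≤ w / 2 ∧
      s1 - 3 * GG F ≤ F.al (pos θ z) ∧ F.al (pos θ z) ≤ s2 + 3 * GG F := by
    intro z hz
    obtain ⟨r, hr0, hr1, hr⟩ := h1 z (W0.support_bypass_subset_support hz)
    have h3 := (be_le F _).trans (mul_le_mul_of_nonneg_left hr (by linarith : 0 ≤ GG F))
    have h4 := (al_le F _).trans (mul_le_mul_of_nonneg_left hr (by linarith : 0 ≤ GG F))
    simp only [map_sub, map_add, map_smul, F.be_a, F.al_a, smul_eq_mul, mul_zero, sub_zero,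
      add_zero, mul_one] at h3 h4
    rw [abs_le] at h4
    refine ⟨by linarith, ?_, ?_⟩ <;> nlinarith
  have hu : |F.al (pos θ (nr (θ - s1 • F.a))) - s1| ≤ GG F := by
    have h3 := (al_le F _).trans (mul_le_mul_of_nonneg_left (norm_pos_nr θ (s1 • F.a))
      (by linarith : 0 ≤ GG F))
    rw [map_sub, map_smul, F.al_a, smul_eq_mul, mul_one] at h3
    linarith
  have hv : |F.al (pos θ (nr (θ - s2 • F.a))) - s2| ≤ GG F := by
    have h3 := (al_le F _).trans (mul_le_mul_of_nonneg_left (norm_pos_nr θ (s2 • F.a))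
      (by linarith : 0 ≤ GG F))
    rw [map_sub, map_smul, F.al_a, smul_eq_mul, mul_one] at h3
    linarith
  obtain ⟨l, hl, hlc⟩ := glue F (n0 := n0) hS hθn hw (by linarith) (by linarith) hκ W0.bypass
    hu hv hW0 (hbt0.sublist W0.support_bypass_sublist_support)
  refine (sInf_paths_le ht hl).trans ((hlc t ht).trans ?_)
  have h6 : walkCost t W0.bypass ≤ ∑ e ∈ ED (box (bxN F w n0)), t e := by
    refine walkCost_le_sum ht _ W0.bypass_isPath.isTrail.edges_nodup fun z hz => ?_
    have h7 := hW0 z hz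
    exact mem_box_bxN F hθn hwpos h7.1 (by linarith) (by linarith)
  linarith

end Crest.Agent.R151.U450
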