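import Crest.Agent.R151.U450d

/-!
# R151/U450e — counting, moments of the band sums, the bad event (owner helper450)
-/

set_option autoImplicit false

open MeasureTheory Filter ProbabilityTheory Topology
open Crest.ProbabilityR.FirstPassage
open Crest.Agent.R151.K
open Crest.Agent.R151.Q

namespace Crest.Agent.R151.U450

open B710 (FlatData)

variable {μ : ℝ × ℝ → ℝ} {G : Measure ℝ} [IsProbabilityMeasure G] {lam : ℝ}

/-! ### Counting -/

lemma card_BZ_le (F : FlatData μ) {c w : ℝ} (hc : 0 ≤ c) (hw : 1 ≤ w) :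
    ((BZ F c w).card : ℝ) ≤ (4 * GG F * c + 3) * (4 * GG F + 3) * w := by
  classical
  have hG := one_le_GG F
  set P : Finset (ℤ × ℤ) := Finset.Icc (-(⌈2 * GG F * c⌉₊ : ℤ)) ⌈2 * GG F * c⌉₊ ×ˢ
    Finset.Icc (-(⌈2 * GG F * w⌉₊ : ℤ)) ⌈2 * GG F * w⌉₊ with hP
  have hfl : ∀ (x r : ℝ), |x| ≤ r → ⌊2 * GG F * x⌋ ∈
      Finset.Icc (-(⌈2 * GG F * r⌉₊ : ℤ)) ⌈2 * GG F * r⌉₊ := by
    intro x r hx
    rw [abs_le] at hx
    have h1 : 2 * GG F * x ≤ 2 * GG F * r := by
      have : 0 ≤ 2 * GG F := by linarith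
      nlinarith
    have h2 : -(2 * GG F * r) ≤ 2 * GG F * x := by
      have : 0 ≤ 2 * GG F := by linarith
      nlinarith
    have h3 := Nat.le_ceil (2 * GG F * r)
    rw [Finset.mem_Icc]
    constructor
    · rw [Int.le_floor]; push_cast; linarith
    · have := Int.floor_le (2 * GG F * x)
      have h4 : ((⌊2 * GG F * x⌋ : ℤ) : ℝ) ≤ ((⌈2 * GG F * r⌉₊ : ℤ) : ℝ) := by
        push_cast; linarith
      exact_mod_cast h4
  have hcard : (BZ F c w).card ≤ P.card := by
    refine Finset.card_le_card_of_injOn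
      (fun z => (⌊2 * GG F * F.al (toR z)⌋, ⌊2 * GG F * F.be (toR z)⌋)) ?_ ?_
    · intro z hz
      have hz' := mem_BZ.1 (Finset.mem_coe.1 hz)
      rw [Finset.mem_coe, hP, Finset.mem_product]
      exact ⟨hfl _ _ hz'.1, hfl _ _ hz'.2⟩
    · intro z _ z' _ hzz
      simp only [Prod.mk.injEq] at hzz
      have h1 := Int.abs_sub_lt_one_of_floor_eq_floor hzz.1
      have h2 := Int.abs_sub_lt_one_of_floor_eq_floor hzz.2
      have h3 := norm_le_al_be F (toR z - toR z')
      rw [map_sub, map_sub] at h3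
      have h4 : ‖toR z - toR z'‖ < 1 := by
        refine lt_of_le_of_lt h3 ?_
        rw [← mul_sub, abs_mul, abs_of_pos (by linarith : 0 < 2 * GG F)] at h1 h2
        nlinarith
      have h5 := (abs_fst_le (toR z - toR z')).trans_lt h4
      have h6 := (abs_snd_le (toR z - toR z')).trans_lt h4
      simp only [toR, Prod.fst_sub, Prod.snd_sub] at h5 h6
      have h7 : |z.1 - z'.1| < 1 := by exact_mod_cast h5
      have h8 : |z.2 - z'.2| < 1 := by exact_mod_cast h6
      rw [Int.abs_lt_one_iff] at h7 h8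
      exact Prod.ext (by omega) (by omega)
  have hPc : (P.card : ℝ) = (2 * ⌈2 * GG F * c⌉₊ + 1) * (2 * ⌈2 * GG F * w⌉₊ + 1) := by
    rw [hP, Finset.card_product, Int.card_Icc, Int.card_Icc]
    have h1 : ∀ n : ℕ, ((n : ℤ) + 1 - -(n : ℤ)).toNat = 2 * n + 1 := by intro n; omega
    rw [h1, h1]
    push_cast
    ring
  have h9 : ((⌈2 * GG F * c⌉₊ : ℕ) : ℝ) ≤ 2 * GG F * c + 1 :=
    (Nat.ceil_lt_add_one (by positivity)).le
  have h10 : ((⌈2 * GG F * w⌉₊ : ℕ) : ℝ) ≤ 2 * GG F * w + 1 :=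
    (Nat.ceil_lt_add_one (by positivity)).le
  calc ((BZ F c w).card : ℝ) ≤ P.card := by exact_mod_cast hcard
    _ = (2 * ⌈2 * GG F * c⌉₊ + 1) * (2 * ⌈2 * GG F * w⌉₊ + 1) := hPc
    _ ≤ (2 * (2 * GG F * c + 1) + 1) * (2 * (2 * GG F * w + 1) + 1) := by gcongr
    _ ≤ (4 * GG F * c + 3) * ((4 * GG F + 3) * w) := by
        have e1 : 2 * (2 * GG F * c + 1) + 1 = 4 * GG F * c + 3 := by ring
        rw [e1]
        gcongr
        nlinarith
    _ = _ := by ring

/-- number of edges in a band sum -/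
lemma card_DD_le (F : FlatData μ) (z : ℤ × ℤ) {c w : ℝ} (hc : 0 ≤ c) (hw : 1 ≤ w) :
    ((ED ((BZ F c w).image (· + z))).card : ℝ) ≤
      2 * ((4 * GG F * c + 3) * (4 * GG F + 3)) * w := by
  classical
  have h1 := card_ED_le ((BZ F c w).image (· + z))
  have h2 := Finset.card_image_le (s := BZ F c w) (f := (· + z))
  have h3 := card_BZ_le F hc hw
  have h4 : ((ED ((BZ F c w).image (· + z))).card : ℝ) ≤ 2 * (BZ F c w).card := by
    exact_mod_cast h1.trans (by omega)
  linarith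

lemma card_EDbox (N : ℕ) : ((ED (box N)).card : ℝ) ≤ 2 * (2 * N + 1) ^ 2 := by
  have h1 := card_ED_le (box N)
  rw [card_box] at h1
  exact_mod_cast h1

/-! ### Sums of weights -/

lemma integrable_edge (h2 : Integrable (fun x : ℝ => x ^ 2) G) (e : Sym2 (ℤ × ℤ)) :
    Integrable (fun t : Environment => t e) (iidLaw G) :=
  (mp_eval (G := G) e).integrable_comp_of_integrable (integrable_id_of_sq h2)

lemma integral_edge (h2 : Integrable (fun x : ℝ => x ^ 2) G) (e : Sym2 (ℤ × ℤ)) :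
    ∫ t : Environment, t e ∂(iidLaw G) = ∫ z, z ∂G := by
  have h := (mp_eval (G := G) e)
  conv_rhs => rw [← h.map_eq]
  rw [integral_map h.measurable.aemeasurable (by rw [h.map_eq]; exact (integrable_id_of_sq h2).1)]

lemma integrable_sum_edges (h2 : Integrable (fun x : ℝ => x ^ 2) G)
    (E : Finset (Sym2 (ℤ × ℤ))) :
    Integrable (fun t : Environment => ∑ e ∈ E, t e) (iidLaw G) :=
  integrable_finsetSum _ fun e _ => integrable_edge h2 e

lemma integral_sum_edges (h2 : Integrable (fun x : ℝ => x ^ 2) G)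
    (E : Finset (Sym2 (ℤ × ℤ))) :
    ∫ t : Environment, ∑ e ∈ E, t e ∂(iidLaw G) = E.card * ∫ z, z ∂G := by
  rw [integral_finsetSum _ fun e _ => integrable_edge h2 e]
  simp [integral_edge h2]

lemma sum_edges_sq (h2 : Integrable (fun x : ℝ => x ^ 2) G)
    (E : Finset (Sym2 (ℤ × ℤ))) :
    Integrable (fun t : Environment => (∑ e ∈ E, t e) ^ 2) (iidLaw G) ∧
    ∫ t : Environment, (∑ e ∈ E, t e) ^ 2 ∂(iidLaw G) ≤ (E.card : ℝ) ^ 2 * ∫ z, z ^ 2 ∂G := by
  have hint : Integrable (fun t : Environment => (E.card : ℝ) * ∑ e ∈ E, t e ^ 2) (iidLaw G) :=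
    (integrable_finsetSum _ fun e _ => integrable_edge_sq h2 e).const_mul _
  have hb : ∀ t : Environment, (∑ e ∈ E, t e) ^ 2 ≤ (E.card : ℝ) * ∑ e ∈ E, t e ^ 2 :=
    fun t => sq_sum_le_card_mul_sum_sq
  have hm : Measurable fun t : Environment => ∑ e ∈ E, t e :=
    Finset.measurable_fun_sum _ fun e _ => measurable_pi_apply e
  have hi : Integrable (fun t : Environment => (∑ e ∈ E, t e) ^ 2) (iidLaw G) := by
    refine hint.mono' (hm.pow_const 2).aestronglyMeasurable (ae_of_all _ fun t => ?_)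
    rw [Real.norm_eq_abs, abs_of_nonneg (sq_nonneg _)]
    exact hb t
  refine ⟨hi, (integral_mono hi hint hb).trans ?_⟩
  rw [integral_const_mul, integral_finsetSum _ fun e _ => integrable_edge_sq h2 e]
  simp only [integral_edge_sq h2, Finset.sum_const, nsmul_eq_mul]
  rw [← mul_assoc, ← sq]

/-- Chernoff upper bound for a sum of weights -/
lemma chernoff_sum (hlam : 0 < lam)
    (hexp : Integrable (fun x => Real.exp (lam * x)) G) (E : Finset (Sym2 (ℤ × ℤ))) (x : ℝ) :
    (iidLaw G).real {t | x ≤ ∑ e ∈ E, t e} ≤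
      Real.exp (-(lam * x)) * (∫ z, Real.exp (lam * z) ∂G) ^ E.card := by
  obtain ⟨h1, h2⟩ := exp_sum hexp E
  have h3 := mul_meas_ge_le_integral_of_nonneg (μ := iidLaw G)
    (f := fun t : Environment => Real.exp (lam * ∑ e ∈ E, t e))
    (Filter.Eventually.of_forall fun t => Real.exp_nonneg _) h1 (Real.exp (lam * x))
  have h4 : (iidLaw G).real {t : Environment | x ≤ ∑ e ∈ E, t e} ≤
      (iidLaw G).real {t | Real.exp (lam * x) ≤ Real.exp (lam * ∑ e ∈ E, t e)} := by
    refine measureReal_mono ?_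
    intro t ht
    simp only [Set.mem_ofPred_eq] at ht ⊢
    exact Real.exp_le_exp.2 (mul_le_mul_of_nonneg_left ht hlam.le)
  rw [h2] at h3
  rw [Real.exp_neg, ← div_eq_inv_mul, le_div_iff₀ (Real.exp_pos _), mul_comm]
  exact (mul_le_mul_of_nonneg_left h4 (Real.exp_pos _).le).trans h3

/-! ### The bad event -/

/-- the bad event -/
def BadE (F : FlatData μ) (C1 w c0 : ℝ) (m N : ℕ) : Set Environment :=
  {t | ∃ z ∈ box N, c0 * m ≤ DD F C1 w z t + 1 ∨ t ∈ Bad c0 m z}

lemma measurable_DD (F : FlatData μ) (c w : ℝ) (z : ℤ × ℤ) : Measurable (DD F c w z) := by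
  classical
  unfold DD
  exact Finset.measurable_fun_sum _ fun e _ => measurable_pi_apply e

lemma BadE_eq (F : FlatData μ) (C1 w c0 : ℝ) (m N : ℕ) : BadE F C1 w c0 m N =
    ⋃ z ∈ box N, ({t | c0 * m - 1 ≤ DD F C1 w z t} ∪ Bad c0 m z) := by
  ext t
  simp only [BadE, Set.mem_ofPred_eq, Set.mem_iUnion, Set.mem_union, exists_prop]
  constructor
  · rintro ⟨z, hz, h | h⟩
    · exact ⟨z, hz, Or.inl (by linarith)⟩
    · exact ⟨z, hz, Or.inr h⟩
  · rintro ⟨z, hz, h | h⟩
    · exact ⟨z, hz, Or.inl (by linarith)⟩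
    · exact ⟨z, hz, Or.inr h⟩

lemma measurableSet_BadE (F : FlatData μ) (C1 w c0 : ℝ) (m N : ℕ) :
    MeasurableSet (BadE F C1 w c0 m N) := by
  rw [BadE_eq]
  refine Finset.measurableSet_biUnion _ fun z _ => ?_
  exact (measurableSet_le measurable_const (measurable_DD F C1 w z)).union
    (measurableSet_Bad c0 m z)

lemma prob_BadE (F : FlatData μ) (h0 : G (Set.Iio 0) = 0) (hlam : 0 < lam)
    (hexp : Integrable (fun x => Real.exp (lam * x)) G) {C1 c0 : ℝ} (hC1 : 0 ≤ C1)
    (hc0 : 0 < c0) (hBad : ∀ (n : ℕ) (x : ℤ × ℤ), (iidLaw G).real (Bad c0 n x) ≤ (1 / 2) ^ n) :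
    ∃ K0 : ℝ, 0 < K0 ∧ ∀ w : ℝ, 1 ≤ w → ∀ m N : ℕ, K0 * w ≤ m →
      (iidLaw G).real (BadE F C1 w c0 m N) ≤
        (2 * N + 1) ^ 2 * ((Real.exp lam + 1) * Real.exp (-w)) := by
  classical
  have hM := one_le_M h0 hlam hexp
  set M := ∫ x, Real.exp (lam * x) ∂G with hMdef
  have hlogM : 0 ≤ Real.log M := Real.log_nonneg hM
  have hG := one_le_GG F
  set A : ℝ := 2 * ((4 * GG F * C1 + 3) * (4 * GG F + 3)) with hA
  have hA0 : 0 ≤ A := by positivity
  refine ⟨(A * Real.log M + 1) / (lam * c0) + 2, by positivity, ?_⟩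
  intro w hw m N hm
  have hm1 : (A * Real.log M + 1) * w ≤ lam * c0 * m := by
    have h1 : (A * Real.log M + 1) / (lam * c0) * w ≤ m := by nlinarith
    rw [div_mul_eq_mul_div, div_le_iff₀ (by positivity)] at h1
    linarith
  have hm2 : 2 * w ≤ m := by
    have h1 : 0 ≤ (A * Real.log M + 1) / (lam * c0) * w := by positivity
    linarith
  have hone : ∀ z : ℤ × ℤ, (iidLaw G).real ({t | c0 * m - 1 ≤ DD F C1 w z t} ∪ Bad c0 m z) ≤
      (Real.exp lam + 1) * Real.exp (-w) := by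
    intro z
    refine (measureReal_union_le _ _).trans ?_
    have e1 : (iidLaw G).real {t | c0 * m - 1 ≤ DD F C1 w z t} ≤
        Real.exp lam * Real.exp (-w) := by
      unfold DD
      refine (chernoff_sum hlam hexp _ _).trans ?_
      have h1 : M ^ (ED ((BZ F C1 w).image (· + z))).card ≤ Real.exp (A * w * Real.log M) := by
        have h2 : M ^ (ED ((BZ F C1 w).image (· + z))).card =
            Real.exp (((ED ((BZ F C1 w).image (· + z))).card : ℝ) * Real.log M) := by
          rw [mul_comm, Real.exp_mul, Real.exp_log (by linarith), Real.rpow_natCast]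
        rw [h2]
        refine Real.exp_le_exp.2 (mul_le_mul_of_nonneg_right ?_ hlogM)
        exact card_DD_le F z hC1 hw
      refine (mul_le_mul_of_nonneg_left h1 (Real.exp_pos _).le).trans ?_
      rw [← Real.exp_add, ← Real.exp_add]
      refine Real.exp_le_exp.2 ?_
      nlinarith
    have e2 : (iidLaw G).real (Bad c0 m z) ≤ Real.exp (-w) := by
      refine (hBad m z).trans ?_
      have h1 : ((1 : ℝ) / 2) ^ m = Real.exp (-(m * Real.log 2)) := by
        rw [one_div, inv_pow, Real.exp_neg, mul_comm, Real.exp_mul,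
          Real.exp_log (by norm_num), Real.rpow_natCast]
      rw [h1]
      refine Real.exp_le_exp.2 ?_
      have := Real.log_two_gt_d9
      nlinarith
    linarith
  rw [BadE_eq]
  refine (measureReal_biUnion_finset_le _ _).trans ((Finset.sum_le_sum fun z _ => hone z).trans ?_)
  rw [Finset.sum_const, card_box, nsmul_eq_mul]
  push_cast
  exact le_rfl

end Crest.Agent.R151.U450
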