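import Crest.Agent.R151.U450e

/-!
# R151/U450f — lane passage times on `P0`: integrability, stationarity, almost additivity, rate
(owner helper450)

`LT F w s s'` = passage time in the `a`-lane of width `w` between the nodes of levels `s`, `s'`.
-/

set_option autoImplicit false

open MeasureTheory Filter ProbabilityTheory Topology
open Crest.ProbabilityR.FirstPassage
open Crest.Agent.R151.K
open Crest.Agent.R151.Q

namespace Crest.Agent.R151.U450

open B710 (FlatData)

variable {μ : ℝ × ℝ → ℝ} {G : Measure ℝ} [IsProbabilityMeasure G] {lam : ℝ} {t : Environment}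

/-! ### Translation of the band sums -/

lemma mem_ED {Z : Finset (ℤ × ℤ)} {e : Sym2 (ℤ × ℤ)} : e ∈ ED Z ↔
    ∃ d : ℤ × ℤ, (d = (1, 0) ∨ d = (0, 1)) ∧ ∃ z ∈ Z, s(z, z + d) = e := by
  classical
  unfold ED
  rw [Finset.mem_union, Finset.mem_image, Finset.mem_image]
  constructor
  · rintro (h | h)
    · exact ⟨(1, 0), Or.inl rfl, h⟩
    · exact ⟨(0, 1), Or.inr rfl, h⟩
  · rintro ⟨d, rfl | rfl, h⟩
    · exact Or.inl h
    · exact Or.inr h

lemma DD_act (F : FlatData μ) (c w : ℝ) (z m : ℤ × ℤ) (t : Environment) :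
    DD F c w z (act (tr m) t) = DD F c w (z + m) t := by
  classical
  unfold DD act
  have hmap : ∀ u d : ℤ × ℤ, Sym2.map (tr m) s(u, u + d) = s(u + m, u + m + d) := by
    intro u d
    rw [Sym2.map_mk, tr_apply, tr_apply, add_right_comm]
  refine Finset.sum_bij (fun e _ => Sym2.map (tr m) e) ?_ ?_ ?_ ?_
  · intro e he
    obtain ⟨d, hd, u, hu, rfl⟩ := mem_ED.1 he
    obtain ⟨v, hv, rfl⟩ := Finset.mem_image.1 hu
    refine mem_ED.2 ⟨d, hd, v + (z + m), Finset.mem_image.2 ⟨v, hv, rfl⟩, ?_⟩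
    rw [hmap, add_assoc v z m]
  · intro a _ b _ h
    exact Sym2.map.injective (tr m).injective h
  · intro e he
    obtain ⟨d, hd, u, hu, rfl⟩ := mem_ED.1 he
    obtain ⟨v, hv, rfl⟩ := Finset.mem_image.1 hu
    refine ⟨s(v + z, v + z + d), mem_ED.2 ⟨d, hd, v + z, Finset.mem_image.2 ⟨v, hv, rfl⟩, rfl⟩, ?_⟩
    rw [hmap, add_assoc v z m]
  · intro e _
    rfl

/-! ### Random translations -/

lemma measurable_nr : Measurable nr := by
  unfold nr
  have h : Measurable fun x : ℝ => round x := by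
    have : (fun x : ℝ => round x) = fun x : ℝ => ⌊x + 1 / 2⌋ := by
      funext x; exact round_eq x
    rw [this]
    exact Int.measurable_floor.comp (measurable_id.add_const _)
  exact ((h.comp measurable_fst).neg).prodMk ((h.comp measurable_snd).neg)

lemma mp_act_tr {g : ℝ × ℝ → ℤ × ℤ} (hg : Measurable g) :
    MeasurePreserving (fun p : (ℝ × ℝ) × Environment => act (tr (g p.1)) p.2) (P0 G)
      (iidLaw G) := by
  have h1 : MeasurePreserving (fun p : (ℝ × ℝ) × Environment => (p.1, act (tr (g p.1)) p.2))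
      (P0 G) (P0 G) := by
    unfold P0
    refine MeasurePreserving.skew_product (f := fun x : ℝ × ℝ => x)
      (g := fun (x : ℝ × ℝ) (t : Environment) => act (tr (g x)) t) (MeasurePreserving.id _) ?_ ?_
    · have : (Function.uncurry fun (x : ℝ × ℝ) (t : Environment) => act (tr (g x)) t)
          = (fun p : (ℤ × ℤ) × Environment => act (tr p.1) p.2) ∘
            (fun q : (ℝ × ℝ) × Environment => (g q.1, q.2)) := rfl
      rw [this]
      exact measurable_act_tr.comp ((hg.comp measurable_fst).prodMk measurable_snd)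
    · exact ae_of_all _ fun x => (mp_act (G := G) _).map_eq
  exact (measurePreserving_snd (μ := UU2) (ν := iidLaw G)).comp h1

lemma ae_P0_Nn' (h0 : G (Set.Iio 0) = 0) : ∀ᵐ p ∂(P0 G), Nn p.2 ∧
    p.1 ∈ Set.Ico (0 : ℝ) 1 ×ˢ Set.Ico (0 : ℝ) 1 := by
  have ha : ∀ᵐ p ∂(P0 G), Nn p.2 := by
    unfold P0
    exact (Measure.quasiMeasurePreserving_snd (μ := UU2) (ν := iidLaw G)).ae (ae_Nn h0)
  have hb : ∀ᵐ p ∂(P0 G), p.1 ∈ Set.Ico (0 : ℝ) 1 ×ˢ Set.Ico (0 : ℝ) 1 := by
    unfold P0
    exact (Measure.quasiMeasurePreserving_fst (μ := UU2) (ν := iidLaw G)).ae ae_UU2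
  filter_upwards [ha, hb] with p h h' using ⟨h, h'⟩

/-- mean of the band sum around a random node -/
lemma DD_P0 (h2 : Integrable (fun x : ℝ => x ^ 2) G) (h0 : G (Set.Iio 0) = 0) (F : FlatData μ)
    {c w : ℝ} (hc : 0 ≤ c) (hw : 1 ≤ w) {g : ℝ × ℝ → ℤ × ℤ} (hg : Measurable g) (z : ℤ × ℤ) :
    Integrable (fun p : (ℝ × ℝ) × Environment => DD F c w z (act (tr (g p.1)) p.2)) (P0 G) ∧
    ∫ p, DD F c w z (act (tr (g p.1)) p.2) ∂(P0 G) ≤
      2 * ((4 * GG F * c + 3) * (4 * GG F + 3)) * (∫ z, z ∂G) * w := by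
  classical
  have h1 := mp_act_tr (G := G) hg
  have hi : Integrable (DD F c w z) (iidLaw G) := by
    unfold DD; exact integrable_sum_edges h2 _
  refine ⟨h1.integrable_comp_of_integrable hi, ?_⟩
  have h3 := mp_integral h1 hi.aestronglyMeasurable
  rw [h3]
  unfold DD
  rw [integral_sum_edges h2]
  have h4 := card_DD_le F z hc hw
  have h5 : (0 : ℝ) ≤ ∫ z, z ∂G := integral_nonneg_of_ae (ae_nonneg h0)
  calc _ ≤ 2 * ((4 * GG F * c + 3) * (4 * GG F + 3)) * w * ∫ z, z ∂G := by gcongr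
    _ = _ := by ring

/-! ### Lane passage times -/

/-- passage time in the `a`-lane between the nodes of levels `s` and `s'` -/
noncomputable def LT (F : FlatData μ) (w s s' : ℝ) (p : (ℝ × ℝ) × Environment) : ℝ :=
  pR p.2 (laneB F.swap w p.1) (nr (p.1 - s • F.a)) (nr (p.1 - s' • F.a))

lemma LT_nonneg (F : FlatData μ) (w s s' : ℝ) {p : (ℝ × ℝ) × Environment} (ht : Nn p.2) :
    0 ≤ LT F w s s' p := pR_nonneg ht _ _ _

open Classical in
/-- cost of a walk if it stays in the lane, `∞` otherwise -/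
noncomputable def gW (F : FlatData μ) (w : ℝ) {x y : ℤ × ℤ} (W : squareLattice.Walk x y)
    (p : (ℝ × ℝ) × Environment) : ENNReal :=
  if (∀ z ∈ W.support, |F.be (pos p.1 z)| ≤ w / 2) then ENNReal.ofReal (walkCost p.2 W) else ⊤

lemma measurable_gW (F : FlatData μ) (w : ℝ) {x y : ℤ × ℤ} (W : squareLattice.Walk x y) :
    Measurable (gW F w W) := by
  unfold gW
  refine Measurable.ite ?_ ((measurable_walkCost W).comp measurable_snd).ennreal_ofReal
    measurable_const
  have : {p : (ℝ × ℝ) × Environment | ∀ z ∈ W.support, |F.be (pos p.1 z)| ≤ w / 2} =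
      ⋂ z ∈ {z | z ∈ W.support}, {p : (ℝ × ℝ) × Environment | |F.be (pos p.1 z)| ≤ w / 2} := by
    ext p; simp
  rw [this]
  refine MeasurableSet.biInter (Set.to_countable _) fun z _ => ?_
  refine measurableSet_le ?_ measurable_const
  have h1 : Measurable fun p : (ℝ × ℝ) × Environment => F.be (pos p.1 z) := by
    unfold pos
    exact F.be.continuous.measurable.comp (measurable_const.add measurable_fst)
  exact continuous_abs.measurable.comp h1

lemma iInf_gW (F : FlatData μ) (w : ℝ) {x y : ℤ × ℤ} {p : (ℝ × ℝ) × Environment} (ht : Nn p.2)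
    (hc : Conn (laneB F.swap w p.1) x y) :
    (⨅ W : squareLattice.Walk x y, gW F w W p).toReal = pR p.2 (laneB F.swap w p.1) x y := by
  have h1 : (⨅ W : squareLattice.Walk x y, gW F w W p) =
      ENNReal.ofReal (pR p.2 (laneB F.swap w p.1) x y) := by
    apply le_antisymm
    · by_contra hcon
      rw [not_le] at hcon
      obtain ⟨r, hr0, hr1, hr2⟩ := ENNReal.lt_iff_exists_real_btwn.1 hcon
      have hr1' : pR p.2 (laneB F.swap w p.1) x y < r := by
        by_contra h
        rw [not_lt] at h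
        exact absurd (ENNReal.ofReal_le_ofReal h) (not_le.2 hr1)
      obtain ⟨W, hW, hWc⟩ := exists_walk_lt_pR hc hr1'
      have h2 : gW F w W p = ENNReal.ofReal (walkCost p.2 W) := by
        unfold gW
        rw [if_pos fun z hz => lane_mem.1 (hW z hz)]
      have h3 := (iInf_le (fun W : squareLattice.Walk x y => gW F w W p) W)
      rw [h2] at h3
      exact absurd (h3.trans (ENNReal.ofReal_le_ofReal hWc.le)) (not_le.2 hr2)
    · refine le_iInf fun W => ?_
      unfold gW
      split_ifs with h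
      · exact ENNReal.ofReal_le_ofReal (pR_le ht W fun z hz => lane_mem.2 (h z hz))
      · exact le_top
  rw [h1, ENNReal.toReal_ofReal (pR_nonneg ht _ _ _)]

lemma aesm_LT (h0 : G (Set.Iio 0) = 0) (F : FlatData μ) {w : ℝ} (hw : 5 * GG F ≤ w) (s s' : ℝ) :
    AEStronglyMeasurable (LT F w s s') (P0 G) := by
  have hH : Measurable fun q : ((ℤ × ℤ) × (ℤ × ℤ)) × ((ℝ × ℝ) × Environment) =>
      ⨅ W : squareLattice.Walk q.1.1 q.1.2, gW F w W q.2 := by
    refine measurable_from_prod_countable_right fun m => ?_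
    have : Measurable fun y : (ℝ × ℝ) × Environment =>
        ⨅ W : squareLattice.Walk m.1 m.2, gW F w W y :=
      Measurable.iInf fun W => measurable_gW F w W
    exact this
  have hm : Measurable fun p : (ℝ × ℝ) × Environment =>
      (⨅ W : squareLattice.Walk (nr (p.1 - s • F.a)) (nr (p.1 - s' • F.a)), gW F w W p).toReal := by
    have h1 : Measurable fun p : (ℝ × ℝ) × Environment =>
        (((nr (p.1 - s • F.a), nr (p.1 - s' • F.a)), p) :
          ((ℤ × ℤ) × (ℤ × ℤ)) × ((ℝ × ℝ) × Environment)) :=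
      ((measurable_nr.comp (measurable_fst.sub_const _)).prodMk
        (measurable_nr.comp (measurable_fst.sub_const _))).prodMk measurable_id
    exact (hH.comp h1).ennreal_toReal
  refine ⟨_, hm.stronglyMeasurable, ?_⟩
  filter_upwards [ae_P0_Nn' h0] with p hp
  exact (iInf_gW F w hp.1 (lane_conn F hw p.1 s s')).symm

lemma LT_le_sum (F : FlatData μ) {w : ℝ} (hw : 5 * GG F ≤ w) (s s' : ℝ) {N : ℕ}
    (hN : (|s| + |s'|) * GG F + 4 ≤ N) {p : (ℝ × ℝ) × Environment} (ht : Nn p.2)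
    (hξ : p.1 ∈ Set.Ico (0 : ℝ) 1 ×ˢ Set.Ico (0 : ℝ) 1) :
    LT F w s s' p ≤ ∑ e ∈ ED (box N), p.2 e := by
  have hG := one_le_GG F
  obtain ⟨W, h1, -⟩ := seg_walk p.1 (s • F.a) (s' • F.a)
  have hξn : ‖p.1‖ ≤ 1 := by
    obtain ⟨⟨h1, h2⟩, ⟨h3, h4⟩⟩ := hξ
    refine norm_le_of ?_ ?_ <;> rw [abs_le] <;> constructor <;> linarith
  have hW : ∀ z ∈ W.bypass.support, z ∈ laneB F.swap w p.1 ∧ z ∈ box N := by
    intro z hz
    obtain ⟨r, hr0, hr1, hr⟩ := h1 z (W.support_bypass_subset_support hz)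
    constructor
    · rw [lane_mem]
      have h2 := (be_le F _).trans (mul_le_mul_of_nonneg_left hr (by linarith : 0 ≤ GG F))
      simp only [map_sub, map_add, map_smul, F.be_a, smul_eq_mul, mul_zero, sub_zero,
        add_zero] at h2
      linarith
    · refine mem_box_of_norm ?_
      have e1 : toR z = (pos p.1 z - (s • F.a + r • (s' • F.a - s • F.a))) +
          (s + r * (s' - s)) • F.a - p.1 := by
        unfold pos
        simp only [add_smul, mul_smul, sub_smul]
        abel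
      have h3 : |s + r * (s' - s)| ≤ |s| + |s'| := by
        have e2 : s + r * (s' - s) = (1 - r) * s + r * s' := by ring
        rw [e2]
        refine (abs_add_le _ _).trans ?_
        rw [abs_mul, abs_mul, abs_of_nonneg hr0, abs_of_nonneg (by linarith : 0 ≤ 1 - r)]
        have := abs_nonneg s
        have := abs_nonneg s'
        nlinarith
      rw [e1]
      refine (norm_sub_le _ _).trans ?_
      have h4 := norm_add_le (pos p.1 z - (s • F.a + r • (s' • F.a - s • F.a)))
        ((s + r * (s' - s)) • F.a)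
      have h5 : ‖(s + r * (s' - s)) • F.a‖ ≤ (|s| + |s'|) * GG F := by
        rw [norm_smul, Real.norm_eq_abs]
        have := norm_a_le F
        gcongr
      linarith
  refine (pR_le ht W.bypass fun z hz => (hW z hz).1).trans ?_
  exact walkCost_le_sum ht _ W.bypass_isPath.isTrail.edges_nodup fun z hz => (hW z hz).2

lemma integrable_LT (h0 : G (Set.Iio 0) = 0) (h2 : Integrable (fun x : ℝ => x ^ 2) G)
    (F : FlatData μ) {w : ℝ} (hw : 5 * GG F ≤ w) (s s' : ℝ) :
    Integrable (LT F w s s') (P0 G) := by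
  obtain ⟨N, hN⟩ := exists_nat_ge ((|s| + |s'|) * GG F + 4)
  have hint : Integrable (fun p : (ℝ × ℝ) × Environment => ∑ e ∈ ED (box N), p.2 e) (P0 G) := by
    unfold P0
    exact (integrable_sum_edges h2 (ED (box N))).comp_snd UU2
  refine hint.mono' (aesm_LT h0 F hw s s') ?_
  filter_upwards [ae_P0_Nn' h0] with p hp
  rw [Real.norm_eq_abs, abs_of_nonneg (LT_nonneg F w s s' hp.1)]
  exact LT_le_sum F hw s s' hN hp.1 hp.2

lemma lane_add (F : FlatData μ) (w : ℝ) (θ : ℝ × ℝ) (m : ℤ × ℤ) :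
    laneB F.swap w (θ + toR m) = (fun u => u + m) ⁻¹' laneB F.swap w θ := by
  ext z
  rw [Set.mem_preimage, lane_mem, lane_mem]
  have : pos (θ + toR m) z = pos θ (z + m) := by
    unfold pos; rw [toR_add]; abel
  rw [this]

lemma Inv_LT (F : FlatData μ) (w s s' : ℝ) : Inv fun θ t => LT F w s s' (θ, t) := by
  intro m θ t
  simp only [LT]
  have e1 : ∀ r : ℝ, nr (θ + toR m - r • F.a) = nr (θ - r • F.a) - m := by
    intro r
    rw [show θ + toR m - r • F.a = θ - r • F.a + toR m by abel, nr_add]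
  rw [e1, e1, lane_add, pR_tr, sub_add_cancel, sub_add_cancel]

/-- stationarity along the lane -/
lemma integral_LT_shift (h0 : G (Set.Iio 0) = 0)
    (F : FlatData μ) {w : ℝ} (hw : 5 * GG F ≤ w) (s y : ℝ) :
    ∫ p, LT F w s (s + y) p ∂(P0 G) = ∫ p, LT F w 0 y p ∂(P0 G) := by
  have h1 := mp_integral (mp_S (G := G) (-(s • F.a))) (aesm_LT h0 F hw 0 y)
  rw [← h1]
  refine integral_congr_ae (ae_of_all _ fun p => ?_)
  have h3 := (Inv_LT F w 0 y).shift (-(s • F.a)) p
  simp only at h3 ⊢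
  refine Eq.trans ?_ h3
  simp only [LT]
  have e1 : laneB F.swap w (p.1 + -(s • F.a)) = laneB F.swap w p.1 := by
    ext z
    rw [lane_mem, lane_mem]
    have : pos (p.1 + -(s • F.a)) z = pos p.1 z - s • F.a := by unfold pos; abel
    rw [this, map_sub, map_smul, F.be_a, smul_zero, sub_zero]
  have e2 : p.1 + -(s • F.a) - (0 : ℝ) • F.a = p.1 - s • F.a := by
    rw [zero_smul]; abel
  have e3 : p.1 + -(s • F.a) - y • F.a = p.1 - (s + y) • F.a := by
    rw [add_smul]; abel
  rw [e1, e2, e3]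

/-- almost superadditivity, deterministic -/
lemma LT_super (F : FlatData μ) {C1 w1 : ℝ} (hB : BandProp F C1 w1) {w : ℝ}
    (hw : 5 * GG F ≤ w) (hw1 : w1 ≤ w) {y y' : ℝ} (hy : 0 ≤ y) (hy' : 0 ≤ y')
    {p : (ℝ × ℝ) × Environment} (ht : Nn p.2) :
    LT F w 0 y p + LT F w y (y + y') p ≤ LT F w 0 (y + y') p +
      2 * DD F (C1 + GG F) w (nr (p.1 - y • F.a)) p.2 := by
  have hG := one_le_GG F
  have hc := lane_conn F hw p.1 0 (y + y')
  have hlev : ∀ r : ℝ, |F.al (pos p.1 (nr (p.1 - r • F.a))) - r| ≤ GG F / 2 ∧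
      |F.be (pos p.1 (nr (p.1 - r • F.a)))| ≤ GG F / 2 := by
    intro r
    have h1 := (al_le F _).trans (mul_le_mul_of_nonneg_left (norm_pos_nr p.1 (r • F.a))
      (by linarith : 0 ≤ GG F))
    have h2 := (be_le F _).trans (mul_le_mul_of_nonneg_left (norm_pos_nr p.1 (r • F.a))
      (by linarith : 0 ≤ GG F))
    rw [map_sub, map_smul, F.al_a, smul_eq_mul, mul_one] at h1
    rw [map_sub, map_smul, F.be_a, smul_eq_mul, mul_zero, sub_zero] at h2
    constructor <;> linarith
  -- connection at level `y`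
  have hconn : ∀ u : ℤ × ℤ, |F.al (pos p.1 u) - y| ≤ GG F → |F.be (pos p.1 u)| ≤ w / 2 →
      Conn (laneB F.swap w p.1) u (nr (p.1 - y • F.a)) ∧
      pR p.2 (laneB F.swap w p.1) u (nr (p.1 - y • F.a)) ≤
        DD F (C1 + GG F) w (nr (p.1 - y • F.a)) p.2 := by
    intro u hu1 hu2
    obtain ⟨P, hP1, hP2⟩ := Conn.exists_path (hB.2.2 w hw1 p.1 y u hu1 hu2)
    have hPl : ∀ z ∈ P.support, z ∈ laneB F.swap w p.1 := fun z hz => lane_mem.2 (hP2 z hz).2
    refine ⟨⟨P, hPl⟩, (pR_le ht P hPl).trans ?_⟩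
    refine walkCost_le_DD ht F P hP1 fun z hz => ?_
    have h1 := hP2 z hz
    have h2 := hlev y
    rw [← pos_sub p.1, map_sub, map_sub]
    constructor
    · have e : F.al (pos p.1 z) - F.al (pos p.1 (nr (p.1 - y • F.a))) =
          (F.al (pos p.1 z) - y) - (F.al (pos p.1 (nr (p.1 - y • F.a))) - y) := by ring
      rw [e]
      refine (abs_sub _ _).trans ?_
      have := h1.1
      linarith [h2.1]
    · refine (abs_sub _ _).trans ?_
      have := h1.2
      linarith [h2.2]
  refine le_of_forall_pos_lt_add fun ε hε => ?_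
  obtain ⟨g, hgR, hgc⟩ := exists_walk_lt_pR hc (show pR p.2 (laneB F.swap w p.1)
    (nr (p.1 - (0 : ℝ) • F.a)) (nr (p.1 - (y + y') • F.a)) < pR p.2 (laneB F.swap w p.1)
    (nr (p.1 - (0 : ℝ) • F.a)) (nr (p.1 - (y + y') • F.a)) + ε by linarith)
  have h0' := (hlev 0).1
  have h1' := (hlev (y + y')).1
  rw [abs_le] at h0' h1'
  -- a vertex near level `y`
  obtain ⟨u, g1, g2, eg, hu⟩ : ∃ (u : ℤ × ℤ)
      (g1 : squareLattice.Walk (nr (p.1 - (0 : ℝ) • F.a)) u)
      (g2 : squareLattice.Walk u (nr (p.1 - (y + y') • F.a))), g = g1.append g2 ∧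
      |F.al (pos p.1 u) - y| ≤ GG F := by
    rcases le_total (F.al (pos p.1 (nr (p.1 - (0 : ℝ) • F.a)))) y with h | h
    · rcases le_total y (F.al (pos p.1 (nr (p.1 - (y + y') • F.a)))) with h' | h'
      · exact exists_cross (h := fun z => F.al (pos p.1 z)) (by linarith) (al_adj F p.1) g h h'
      · refine ⟨_, g, SimpleGraph.Walk.nil, by rw [SimpleGraph.Walk.append_nil], ?_⟩
        rw [abs_le]; constructor <;> linarith
    · refine ⟨_, SimpleGraph.Walk.nil, g, by rw [SimpleGraph.Walk.nil_append], ?_⟩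
      rw [abs_le]; constructor <;> linarith
  have hu2 : |F.be (pos p.1 u)| ≤ w / 2 := by
    refine lane_mem.1 (hgR u ?_)
    rw [eg, SimpleGraph.Walk.mem_support_append_iff]
    exact Or.inl g1.end_mem_support
  obtain ⟨hc1, hc2⟩ := hconn u hu hu2
  have k1 : Conn (laneB F.swap w p.1) (nr (p.1 - (0 : ℝ) • F.a)) u :=
    ⟨g1, fun z hz => hgR z (by
      rw [eg, SimpleGraph.Walk.mem_support_append_iff]; exact Or.inl hz)⟩
  have k2 : Conn (laneB F.swap w p.1) u (nr (p.1 - (y + y') • F.a)) :=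
    ⟨g2, fun z hz => hgR z (by
      rw [eg, SimpleGraph.Walk.mem_support_append_iff]; exact Or.inr hz)⟩
  have t1 := pR_triangle ht k1 hc1
  have t2 := pR_triangle ht hc1.symm k2
  rw [pR_symm ht _ (nr (p.1 - y • F.a)) u] at t2
  have t3 := pR_le ht g1 (R := laneB F.swap w p.1) (fun z hz => hgR z (by
      rw [eg, SimpleGraph.Walk.mem_support_append_iff]; exact Or.inl hz))
  have t4 := pR_le ht g2 (R := laneB F.swap w p.1) (fun z hz => hgR z (by
      rw [eg, SimpleGraph.Walk.mem_support_append_iff]; exact Or.inr hz))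
  rw [eg, walkCost_append] at hgc
  simp only [LT]
  linarith

/-- mean lane time -/
noncomputable def fL (G : Measure ℝ) (F : FlatData μ) (w y : ℝ) : ℝ := ∫ p, LT F w 0 y p ∂(P0 G)

omit [IsProbabilityMeasure G] in
lemma fL_eq (F : FlatData μ) (w y : ℝ) : fL G F w y = y + eL G F.swap w y := by
  unfold fL eL
  have : ∀ p : (ℝ × ℝ) × Environment, LT F w 0 y p =
      pR p.2 (laneB F.swap w p.1) (nr p.1) (nr (p.1 - y • F.swap.b)) := by
    intro p
    simp only [LT, zero_smul, sub_zero, FlatData.swap_b]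
  simp only [this]
  ring

section rate

variable (h0 : G (Set.Iio 0) = 0) (h2 : Integrable (fun x : ℝ => x ^ 2) G) (F : FlatData μ)
include h0 h2

omit h2 in
lemma fL_nonneg (w y : ℝ) : 0 ≤ fL G F w y :=
  integral_nonneg_of_ae (by filter_upwards [ae_P0_Nn' h0] with p hp using LT_nonneg F w 0 y hp.1)

lemma fL_sub {w : ℝ} (hw : 5 * GG F ≤ w) (y y' : ℝ) :
    fL G F w (y + y') ≤ fL G F w y + fL G F w y' := by
  unfold fL
  rw [← integral_LT_shift h0 F hw y y', ← integral_add (integrable_LT h0 h2 F hw _ _)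
    (integrable_LT h0 h2 F hw _ _)]
  refine integral_mono_ae (integrable_LT h0 h2 F hw _ _)
    ((integrable_LT h0 h2 F hw _ _).add (integrable_LT h0 h2 F hw _ _)) ?_
  filter_upwards [ae_P0_Nn' h0] with p hp
  exact pR_triangle hp.1 (lane_conn F hw p.1 _ _) (lane_conn F hw p.1 _ _)

lemma fL_nsmul {w : ℝ} (hw : 5 * GG F ≤ w) (y : ℝ) (k : ℕ) :
    fL G F w (((k : ℝ) + 1) * y) ≤ ((k : ℝ) + 1) * fL G F w y := by
  induction k with
  | zero => simp
  | succ k ih =>
    have e : (((k + 1 : ℕ) : ℝ) + 1) * y = ((k : ℝ) + 1) * y + y := by push_cast; ring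
    rw [e]
    refine (fL_sub h0 h2 F hw _ _).trans ?_
    push_cast
    linarith

lemma fL_super {C1 w1 : ℝ} (hB : BandProp F C1 w1) {w : ℝ} (hw : 5 * GG F ≤ w) (hw1 : w1 ≤ w)
    {y y' : ℝ} (hy : 0 ≤ y) (hy' : 0 ≤ y') :
    fL G F w y + fL G F w y' ≤ fL G F w (y + y') +
      2 * (2 * ((4 * GG F * (C1 + GG F) + 3) * (4 * GG F + 3)) * (∫ z, z ∂G) * w) := by
  have hG := one_le_GG F
  have hd := DD_P0 (G := G) h2 h0 F (c := C1 + GG F) (w := w) (by linarith [hB.1]) (by linarith)
    (g := fun ξ => nr (ξ - y • F.a)) (measurable_nr.comp (measurable_id.sub_const _)) 0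
  have i1 := integrable_LT h0 h2 F hw 0 y
  have i2 := integrable_LT h0 h2 F hw y (y + y')
  have i3 := integrable_LT h0 h2 F hw 0 (y + y')
  have key : ∫ p, (LT F w 0 y p + LT F w y (y + y') p) ∂(P0 G) ≤
      ∫ p, (LT F w 0 (y + y') p +
        2 * DD F (C1 + GG F) w 0 (act (tr (nr (p.1 - y • F.a))) p.2)) ∂(P0 G) := by
    refine integral_mono_ae (i1.add i2) (i3.add (hd.1.const_mul 2)) ?_
    filter_upwards [ae_P0_Nn' h0] with p hp
    have h3 := LT_super F hB hw hw1 hy hy' hp.1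
    have h4 := DD_act F (C1 + GG F) w 0 (nr (p.1 - y • F.a)) p.2
    rw [zero_add] at h4
    simp only [h4]
    exact h3
  rw [integral_add i1 i2, integral_add i3 (hd.1.const_mul 2), integral_const_mul,
    integral_LT_shift h0 F hw y y'] at key
  unfold fL
  linarith [hd.2]

lemma fL_super_nsmul {C1 w1 : ℝ} (hB : BandProp F C1 w1) {w : ℝ} (hw : 5 * GG F ≤ w)
    (hw1 : w1 ≤ w) {y r : ℝ} (hy : 0 ≤ y) (hr : 0 ≤ r) (m : ℕ) :
    m * fL G F w y ≤ fL G F w (m * y + r) +
      m * (2 * (2 * ((4 * GG F * (C1 + GG F) + 3) * (4 * GG F + 3)) * (∫ z, z ∂G) * w)) := by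
  induction m with
  | zero => simpa using fL_nonneg h0 F w r
  | succ m ih =>
    have h3 := fL_super h0 h2 F hB hw hw1 hy (show 0 ≤ (m : ℝ) * y + r by positivity)
    have e : ((m + 1 : ℕ) : ℝ) * y + r = y + (m * y + r) := by push_cast; ring
    rw [e]
    push_cast
    linarith

/-- **Rate bound**: the mean lane time is linear up to `C w`. -/
theorem fL_le_rate {C1 w1 : ℝ} (hB : BandProp F C1 w1) {w : ℝ} (hw : 5 * GG F ≤ w)
    (hw1 : w1 ≤ w) {y : ℝ} (hy : 0 < y) :
    fL G F w y ≤ y * (1 + rate G F.swap w) +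
      2 * (2 * ((4 * GG F * (C1 + GG F) + 3) * (4 * GG F + 3)) * (∫ z, z ∂G) * w) := by
  set A := 2 * (2 * ((4 * GG F * (C1 + GG F) + 3) * (4 * GG F + 3)) * (∫ z, z ∂G) * w) with hA
  have hG := one_le_GG F
  have key : ∀ n : ℕ, (fL G F w y - A) / y ≤ fL G F w ((n : ℝ) + 1) / ((n : ℝ) + 1) := by
    intro n
    have hx : (0 : ℝ) < (n : ℝ) + 1 := by positivity
    rw [div_le_div_iff₀ hy hx]
    set x : ℝ := (n : ℝ) + 1 with hxdef
    set D := fL G F w y - A with hD
    have hfx := fL_nonneg (G := G) h0 F w x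
    rcases le_total D 0 with hD0 | hD0
    · nlinarith [mul_nonneg hfx hy.le, mul_nonneg (neg_nonneg.2 hD0) hx.le]
    by_contra hcon
    rw [not_le] at hcon
    -- for all k: k * (D * x - f x * y) ≤ D * y
    have hk : ∀ k : ℕ, ((k : ℝ) + 1) * (D * x - fL G F w x * y) ≤ D * y := by
      intro k
      set m : ℕ := ⌊((k : ℝ) + 1) * x / y⌋₊ with hm
      have hq : 0 ≤ ((k : ℝ) + 1) * x / y := by positivity
      have hm1 : (m : ℝ) ≤ ((k : ℝ) + 1) * x / y := Nat.floor_le hq
      have hm2 : ((k : ℝ) + 1) * x / y < m + 1 := Nat.lt_floor_add_one _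
      rw [le_div_iff₀ hy] at hm1
      rw [div_lt_iff₀ hy] at hm2
      have h3 := fL_super_nsmul h0 h2 F hB hw hw1 hy.le
        (show 0 ≤ ((k : ℝ) + 1) * x - m * y by linarith) m
      rw [add_sub_cancel] at h3
      have h4 := fL_nsmul h0 h2 F hw x k
      have h5 : m * D ≤ ((k : ℝ) + 1) * fL G F w x := by
        rw [hD, mul_sub]
        linarith
      have h6 : ((k : ℝ) + 1) * x * D ≤ (m + 1) * y * D := by
        exact mul_le_mul_of_nonneg_right hm2.le hD0
      nlinarith
    obtain ⟨k, hk2⟩ := exists_nat_gt (D * y / (D * x - fL G F w x * y))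
    have hpos : 0 < D * x - fL G F w x * y := by linarith
    rw [div_lt_iff₀ hpos] at hk2
    have := hk k
    nlinarith
  have h1 : (fL G F w y - A) / y - 1 ≤ rate G F.swap w := by
    unfold rate
    refine le_ciInf fun n => ?_
    have h3 := key n
    rw [fL_eq (G := G) F w ((n : ℝ) + 1)] at h3
    have hx : (0 : ℝ) < (n : ℝ) + 1 := by positivity
    rw [add_div, div_self hx.ne'] at h3
    linarith
  rw [sub_le_iff_le_add, div_le_iff₀ hy] at h1
  linarith

end rate

end Crest.Agent.R151.U450
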