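import Crest.Agent.R151.M56d
import Crest.Agent.R151.G338k

/-!
# R151 / S0214 part 2, U450m — random displacements (helper450)

For `v : Ψ → ℝ × ℝ` measurable, the map `(p, ψ) ↦ (S (v ψ) p, ψ)` preserves `(P0 G).prod ν`
(`mp_skewS`), so in a lattice invariant function the offset may be moved by a random vector which
depends on the other variables (`skew_integrable`, `skew_integral`).  `gY_off`: integrability and
`0 ≤ E` for the full plane kernel whose displacement depends on the extra variables.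
-/

set_option autoImplicit false

open MeasureTheory Filter ProbabilityTheory Topology
open Crest.ProbabilityR.FirstPassage

namespace Crest.Agent.R151.M1

open Crest.Agent.R151.K Crest.Agent.R151.Q
open M56 (nu Rx measurable_x norm_x phi_diff gY_eq)
open M192 (RowS PR)
open B710 (FlatData)

/-! ### The random shift -/

section skew

variable {Ψ : Type*} [MeasurableSpace Ψ] {ν : Measure Ψ} [IsProbabilityMeasure ν]
  {G : Measure ℝ} [IsProbabilityMeasure G] {v : Ψ → ℝ × ℝ}

lemma measurable_S_var (hv : Measurable v) :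
    Measurable fun q : Ψ × ((ℝ × ℝ) × Environment) => S (v q.1) q.2 := by
  unfold S
  have h1 : Measurable fun q : Ψ × ((ℝ × ℝ) × Environment) => q.2.1 + v q.1 :=
    measurable_snd.fst.add (hv.comp measurable_fst)
  have h2 : Measurable frac2 := by
    unfold frac2
    exact (measurable_fract.comp measurable_fst).prodMk (measurable_fract.comp measurable_snd)
  refine (h2.comp h1).prodMk ?_
  have h3 : Measurable fun q : Ψ × ((ℝ × ℝ) × Environment) =>
      (-flo2 (q.2.1 + v q.1), q.2.2) := (measurable_flo2.comp h1).neg.prodMk measurable_snd.snd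
  exact measurable_act_tr.comp h3

/-- the random shift preserves the law -/
theorem mp_skewS (hv : Measurable v) : MeasurePreserving
    (fun q : ((ℝ × ℝ) × Environment) × Ψ => (S (v q.2) q.1, q.2)) ((P0 G).prod ν)
    ((P0 G).prod ν) := by
  have h1 : MeasurePreserving (fun q : Ψ × ((ℝ × ℝ) × Environment) => (q.1, S (v q.1) q.2))
      (ν.prod (P0 G)) (ν.prod (P0 G)) := by
    refine MeasurePreserving.skew_product (g := fun (x : Ψ) (p : (ℝ × ℝ) × Environment) =>
      S (v x) p) (MeasurePreserving.id ν) (measurable_S_var hv) ?_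
    exact ae_of_all _ fun x => (mp_S (G := G) (v x)).map_eq
  have h2 : MeasurePreserving (Prod.swap : ((ℝ × ℝ) × Environment) × Ψ → _) ((P0 G).prod ν)
      (ν.prod (P0 G)) := Measure.measurePreserving_swap
  have h3 : MeasurePreserving (Prod.swap : Ψ × ((ℝ × ℝ) × Environment) → _) (ν.prod (P0 G))
      ((P0 G).prod ν) := Measure.measurePreserving_swap
  exact h3.comp (h1.comp h2)

variable {f : ℝ × ℝ → Environment → Ψ → ℝ}

theorem skew_integrable (hf : ∀ ψ, Inv fun θ t => f θ t ψ) (hv : Measurable v)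
    (hi : Integrable (fun q : ((ℝ × ℝ) × Environment) × Ψ => f q.1.1 q.1.2 q.2)
      ((P0 G).prod ν)) :
    Integrable (fun q : ((ℝ × ℝ) × Environment) × Ψ => f (q.1.1 + v q.2) q.1.2 q.2)
      ((P0 G).prod ν) := by
  refine ((mp_skewS (G := G) (ν := ν) hv).integrable_comp_of_integrable hi).congr
    (ae_of_all _ fun q => ?_)
  exact ((hf q.2).shift (v q.2) q.1).symm

theorem skew_integral (hf : ∀ ψ, Inv fun θ t => f θ t ψ) (hv : Measurable v)
    (hi : Integrable (fun q : ((ℝ × ℝ) × Environment) × Ψ => f q.1.1 q.1.2 q.2)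
      ((P0 G).prod ν)) :
    ∫ q, f (q.1.1 + v q.2) q.1.2 q.2 ∂((P0 G).prod ν) =
      ∫ q, f q.1.1 q.1.2 q.2 ∂((P0 G).prod ν) := by
  rw [← mp_integral (mp_skewS (G := G) (ν := ν) hv) hi.aestronglyMeasurable]
  refine integral_congr_ae (ae_of_all _ fun q => ?_)
  exact (hf q.2).shift (v q.2) q.1

end skew

/-! ### Means of kernels with an independent random displacement -/

variable {μ : ℝ × ℝ → ℝ} {F : FlatData μ} {h : Hwy F} {G : Measure ℝ} [IsProbabilityMeasure G]

/-- a measurable displacement bounded on the unit square may be assumed to be bounded -/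
lemma frac2_mem (η : ℝ × ℝ) : frac2 η ∈ Set.Ico (0 : ℝ) 1 ×ˢ Set.Ico (0 : ℝ) 1 :=
  ⟨⟨Int.fract_nonneg _, Int.fract_lt_one _⟩, ⟨Int.fract_nonneg _, Int.fract_lt_one _⟩⟩

lemma frac2_of_mem {η : ℝ × ℝ} (hη : η ∈ Set.Ico (0 : ℝ) 1 ×ˢ Set.Ico (0 : ℝ) 1) :
    frac2 η = η := by
  obtain ⟨h1, h2⟩ := hη
  unfold frac2
  rw [Int.fract_eq_self.2 h1, Int.fract_eq_self.2 h2]

lemma measurable_frac2 : Measurable frac2 := by
  unfold frac2
  exact (measurable_fract.comp measurable_fst).prodMk (measurable_fract.comp measurable_snd)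

section gY

variable (h0 : G (Set.Iio 0) = 0) (h2 : Integrable (fun x : ℝ => x ^ 2) G)
include h0 h2

/-- integrability of the full plane kernel with a bounded random displacement -/
theorem gY_off_integrable {Ψ : Type*} [MeasurableSpace Ψ] {ν : Measure Ψ} [IsProbabilityMeasure ν]
    {D : Ψ → ℝ × ℝ} {φ : Ψ → ℝ × ℝ} (hD : Measurable D) (hφ : Measurable φ) {B : ℝ}
    (hB : ∀ ψ, ‖D ψ‖ ≤ B) (s s' : ℝ) :
    Integrable (fun q : ((ℝ × ℝ) × Environment) × Ψ => h.gY (D q.2) s s' q.1.1 q.1.2 (φ q.2))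
      ((P0 G).prod ν) := by
  have mx : Measurable fun q : ((ℝ × ℝ) × Environment) × Ψ =>
      h.x s (φ q.2).1 q.1.1 q.1.2 :=
    measurable_x h (hφ.comp measurable_snd).fst (by fun_prop) (by fun_prop) s
  have my : Measurable fun q : ((ℝ × ℝ) × Environment) × Ψ =>
      h.x s' (φ q.2).2 (q.1.1 - D q.2) q.1.2 :=
    measurable_x h (hφ.comp measurable_snd).snd
      (measurable_fst.fst.sub (hD.comp measurable_snd)) (by fun_prop) s'
  have i1 : Integrable (fun q : ((ℝ × ℝ) × Environment) × Ψ =>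
      passageTime q.1.2 (h.x s (φ q.2).1 q.1.1 q.1.2)
        (h.x s' (φ q.2).2 (q.1.1 - D q.2) q.1.2)) ((P0 G).prod ν) := by
    refine integrable_ptX h0 h2 (v := 0) (v' := 0) (R := Rx h s) (R' := Rx h s' + B) mx my ?_ ?_
    · intro q; rw [sub_zero]; exact norm_x h _ _ _ _
    · intro q
      have e : pos (q.1.1 - 0) (h.x s' (φ q.2).2 (q.1.1 - D q.2) q.1.2) =
          pos (q.1.1 - D q.2) (h.x s' (φ q.2).2 (q.1.1 - D q.2) q.1.2) + D q.2 := by
        unfold pos; abel
      rw [e]
      exact (norm_add_le _ _).trans (add_le_add (norm_x h _ _ _ _) (hB _))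
  have hphi : Measurable (phi F) := measurable_of_countable _
  have i2 : Integrable (fun q : ((ℝ × ℝ) × Environment) × Ψ =>
      phi F (h.x s' (φ q.2).2 (q.1.1 - D q.2) q.1.2) -
        phi F (h.x s (φ q.2).1 q.1.1 q.1.2)) ((P0 G).prod ν) := by
    refine Integrable.of_bound ((hphi.comp my).sub (hphi.comp mx)).aestronglyMeasurable
      (‖F.ρ‖ * Rx h s' + ‖F.ρ‖ * Rx h s + ‖F.ρ‖ * B) (ae_of_all _ fun q => ?_)
    rw [phi_diff (D q.2) q.1.1, Real.norm_eq_abs]
    refine (abs_add_le _ _).trans (add_le_add ((abs_sub _ _).trans (add_le_add ?_ ?_)) ?_)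
    · exact (F.ρ.le_opNorm _).trans (mul_le_mul_of_nonneg_left (norm_x h _ _ _ _) (norm_nonneg _))
    · exact (F.ρ.le_opNorm _).trans (mul_le_mul_of_nonneg_left (norm_x h _ _ _ _) (norm_nonneg _))
    · exact (F.ρ.le_opNorm _).trans (mul_le_mul_of_nonneg_left (hB _) (norm_nonneg _))
  exact i1.sub i2

/-- `E gY ≥ 0` for an independent bounded random displacement and independent phases -/
theorem gY_off_nonneg {Ψ : Type*} [MeasurableSpace Ψ] {ν : Measure Ψ} [IsProbabilityMeasure ν]
    (hμ : IsTC G μ) {D : Ψ → ℝ × ℝ} (hD : Measurable D) {B : ℝ} (hB : ∀ ψ, ‖D ψ‖ ≤ B)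
    (s s' : ℝ) :
    0 ≤ ∫ q, h.gY (D q.2.1) s s' q.1.1 q.1.2 q.2.2
      ∂((P0 G).prod (ν.prod (UU.prod UU))) := by
  have hi := gY_off_integrable (h := h) (G := G) (ν := ν.prod (UU.prod UU)) h0 h2
    (D := fun ψ => D ψ.1) (φ := fun ψ => ψ.2) (hD.comp measurable_fst) measurable_snd
    (B := B) (fun ψ => hB _) s s'
  have hmp : MeasurePreserving (fun x : Ψ × (((ℝ × ℝ) × Environment) × (ℝ × ℝ)) =>
      (x.2.1, (x.1, x.2.2))) (ν.prod (nu G)) ((P0 G).prod (ν.prod (UU.prod UU))) :=
    mp_lcomm ν (P0 G) (UU.prod UU)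
  rw [← mp_integral hmp hi.aestronglyMeasurable]
  have e := integral_prod _ (hmp.integrable_comp_of_integrable hi)
  refine le_trans ?_ (le_of_eq e.symm)
  refine integral_nonneg fun ψ => ?_
  exact M56.gY_nonneg h h0 h2 hμ (D ψ) s s'

end gY

end Crest.Agent.R151.M1
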