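import Crest.Agent.R151.U450m

/-!
# R151 / S0214 part 2, U450n — the mean of the gauge difference `K0` (M1) (helper450)

`K0_mean`: `q ↦ K0 (off η) dI dO J L θ t φ φ₁` is integrable over `(PR G).prod PF` and
`E |K0| ≤ E hkY dO J (-L) L + 4 L ε`.
-/

set_option autoImplicit false

open MeasureTheory Filter ProbabilityTheory Topology
open Crest.ProbabilityR.FirstPassage

namespace Crest.Agent.R151.M1

open Crest.Agent.R151.K Crest.Agent.R151.Q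
open R78 (hc hp hull routes hullY ptY gapK)
open M56 (nu Rx measurable_x norm_x phi_diff gY_eq mg)
open M192 (RowS PR)
open B710 (FlatData)

variable {μ : ℝ × ℝ → ℝ} {F : FlatData μ}

/-- the gauge difference in terms of excesses -/
theorem K0_eq_Y (h : Hwy F) (off dI dO : ℝ × ℝ) (J : Set ℝ) (L : ℝ) (θ : ℝ × ℝ) (t : Environment)
    (φ φ₁ : ℝ × ℝ) : h.K0 off dI dO J L θ t φ φ₁ =
      h.gY off (-L) L θ t (Hwy.φlo φ φ₁) + h.hkY dI Set.univ (-L) L (θ - off) t φ₁ +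
        h.gY (Hwy.dU off dI dO) (-L) L (θ - off - dI) t (Hwy.φup φ φ₁) -
        h.hkY dO J (-L) L θ t φ - h.Y (-L) L φ₁.1 (θ - off) t -
        h.Y (-L) L φ₁.2 (θ - off - dI) t := by
  unfold Hwy.K0 Hwy.gK Hwy.gY Hwy.hkY Hwy.hk
  rw [Hwy.Lo_up_gap, Hwy.iU_up_gap]
  unfold gapK ptY hullY Hwy.Y Hwy.Lo Hwy.Up Hwy.iL Hwy.iU Hwy.φlo Hwy.φup hp
  simp only
  ring

/-- six terms -/
lemma six {Ω : Type*} [MeasurableSpace Ω] {P : Measure Ω} {f1 f2 f3 f4 f5 f6 : Ω → ℝ}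
    (i1 : Integrable f1 P) (i2 : Integrable f2 P) (i3 : Integrable f3 P) (i4 : Integrable f4 P)
    (i5 : Integrable f5 P) (i6 : Integrable f6 P) :
    Integrable (fun q => f1 q + f2 q + f3 q - f4 q - f5 q - f6 q) P ∧
    ∫ q, (f1 q + f2 q + f3 q - f4 q - f5 q - f6 q) ∂P =
      ∫ q, f1 q ∂P + ∫ q, f2 q ∂P + ∫ q, f3 q ∂P - ∫ q, f4 q ∂P - ∫ q, f5 q ∂P -
        ∫ q, f6 q ∂P := by
  have i12 : Integrable (fun q => f1 q + f2 q) P := i1.add i2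
  have i13 : Integrable (fun q => f1 q + f2 q + f3 q) P := i12.add i3
  have i14 : Integrable (fun q => f1 q + f2 q + f3 q - f4 q) P := i13.sub i4
  have i15 : Integrable (fun q => f1 q + f2 q + f3 q - f4 q - f5 q) P := i14.sub i5
  refine ⟨i15.sub i6, ?_⟩
  rw [integral_sub i15 i6, integral_sub i14 i5, integral_sub i13 i4, integral_add i12 i3,
    integral_add i1 i2]

/-! ### The parameter space `(φ, (η, φ₁))` -/

/-- phases of the outer row, jitter, phases of the inner row -/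
abbrev PS : Type := (ℝ × ℝ) × ((ℝ × ℝ) × (ℝ × ℝ))

/-- law of the parameters -/
noncomputable def muS : Measure PS := (UU.prod UU).prod PF

instance : IsProbabilityMeasure muS := by unfold muS; infer_instance

variable {G : Measure ℝ} [IsProbabilityMeasure G]

lemma mp_q : MeasurePreserving (fun x : RowS × ((ℝ × ℝ) × (ℝ × ℝ)) => (x.1.1, (x.1.2, x.2)))
    ((PR G).prod PF) ((P0 G).prod muS) := mp_assoc (P0 G) (UU.prod UU) PF

/-- law of jitter and the phases of the lower gap -/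
lemma mp_lo' : MeasurePreserving (fun ψ : PS => (ψ.2.1, Hwy.φlo ψ.1 ψ.2.2)) muS
    (UU2.prod (UU.prod UU)) := by
  have h1 : MeasurePreserving (Prod.map Prod.fst (Prod.map id Prod.fst)) muS
      (UU.prod (UU2.prod UU)) :=
    measurePreserving_fst.prod ((MeasurePreserving.id UU2).prod measurePreserving_fst)
  exact (mp_lcomm UU UU2 UU).comp h1

/-- law of jitter and the phases of the upper gap -/
lemma mp_up' : MeasurePreserving (fun ψ : PS => (ψ.2.1, Hwy.φup ψ.1 ψ.2.2)) muS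
    (UU2.prod (UU.prod UU)) := by
  have h1 : MeasurePreserving (Prod.map Prod.snd (Prod.map id Prod.snd)) muS
      (UU.prod (UU2.prod UU)) :=
    measurePreserving_snd.prod ((MeasurePreserving.id UU2).prod measurePreserving_snd)
  have h2 : MeasurePreserving (Prod.map id Prod.swap : (ℝ × ℝ) × (ℝ × ℝ) → _)
      (UU2.prod (UU.prod UU)) (UU2.prod (UU.prod UU)) :=
    (MeasurePreserving.id UU2).prod Measure.measurePreserving_swap
  exact h2.comp ((mp_lcomm UU UU2 UU).comp h1)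

/-- a function of the offset, the environment and the inner phases, offset moved -/
lemma inner_term {g : ℝ × ℝ → Environment → ℝ × ℝ → ℝ} (hg : ∀ φ, Inv fun θ t => g θ t φ)
    (hi : Integrable (fun q : ((ℝ × ℝ) × Environment) × (ℝ × ℝ) => g q.1.1 q.1.2 q.2) (nu G))
    {v : PS → ℝ × ℝ} (hv : Measurable v) :
    Integrable (fun q : ((ℝ × ℝ) × Environment) × PS => g (q.1.1 - v q.2) q.1.2 q.2.2.2)
      ((P0 G).prod muS) ∧
    ∫ q, g (q.1.1 - v q.2) q.1.2 q.2.2.2 ∂((P0 G).prod muS) =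
      ∫ q, g q.1.1 q.1.2 q.2 ∂(nu G) := by
  have hp : MeasurePreserving (Prod.map (id : (ℝ × ℝ) × Environment → _)
      (fun ψ : PS => ψ.2.2)) ((P0 G).prod muS) (nu G) :=
    (MeasurePreserving.id _).prod
      ((measurePreserving_snd (μ := UU2) (ν := UU.prod UU)).comp
        (measurePreserving_snd (μ := UU.prod UU) (ν := PF)))
  have i1 : Integrable (fun q : ((ℝ × ℝ) × Environment) × PS => g q.1.1 q.1.2 q.2.2.2)
      ((P0 G).prod muS) := hp.integrable_comp_of_integrable hi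
  have i2 := skew_integrable (f := fun θ t (ψ : PS) => g θ t ψ.2.2) (fun ψ => hg _) hv.neg i1
  have e2 := skew_integral (f := fun θ t (ψ : PS) => g θ t ψ.2.2) (fun ψ => hg _) hv.neg i1
  simp only [Pi.neg_apply, ← sub_eq_add_neg] at i2 e2
  refine ⟨i2, e2.trans ?_⟩
  rw [← mp_integral hp hi.aestronglyMeasurable]
  rfl

section main

variable {h : Hwy F} (h0 : G (Set.Iio 0) = 0) (h2 : Integrable (fun x : ℝ => x ^ 2) G)
include h0 h2

/-- full plane kernel between an outer and an inner highway: lower gap -/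
lemma gap_lo {D : ℝ × ℝ → ℝ × ℝ} (hD : Measurable D) {B : ℝ} (hB : ∀ η, ‖D η‖ ≤ B) (hμ : IsTC G μ)
    (s s' : ℝ) {v : PS → ℝ × ℝ} (hv : Measurable v) :
    Integrable (fun q : ((ℝ × ℝ) × Environment) × PS =>
      h.gY (D q.2.2.1) s s' (q.1.1 - v q.2) q.1.2 (Hwy.φlo q.2.1 q.2.2.2)) ((P0 G).prod muS) ∧
    0 ≤ ∫ q, h.gY (D q.2.2.1) s s' (q.1.1 - v q.2) q.1.2 (Hwy.φlo q.2.1 q.2.2.2)
      ∂((P0 G).prod muS) := by
  have hp : MeasurePreserving (Prod.map (id : (ℝ × ℝ) × Environment → _)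
      (fun ψ : PS => (ψ.2.1, Hwy.φlo ψ.1 ψ.2.2))) ((P0 G).prod muS)
      ((P0 G).prod (UU2.prod (UU.prod UU))) := (MeasurePreserving.id _).prod mp_lo'
  have hi := gY_off_integrable (h := h) (G := G) (ν := UU2.prod (UU.prod UU)) h0 h2
    (D := fun ψ => D ψ.1) (φ := fun ψ => ψ.2) (hD.comp measurable_fst) measurable_snd
    (B := B) (fun ψ => hB _) s s'
  have hn := gY_off_nonneg (h := h) (G := G) (ν := UU2) h0 h2 hμ hD hB s s'
  have i1 : Integrable (fun q : ((ℝ × ℝ) × Environment) × PS =>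
      h.gY (D q.2.2.1) s s' q.1.1 q.1.2 (Hwy.φlo q.2.1 q.2.2.2)) ((P0 G).prod muS) :=
    hp.integrable_comp_of_integrable hi
  have i2 := skew_integrable (f := fun θ t (ψ : PS) =>
    h.gY (D ψ.2.1) s s' θ t (Hwy.φlo ψ.1 ψ.2.2)) (fun ψ => h.gY_inv _ _ _ _) hv.neg i1
  have e2 := skew_integral (f := fun θ t (ψ : PS) =>
    h.gY (D ψ.2.1) s s' θ t (Hwy.φlo ψ.1 ψ.2.2)) (fun ψ => h.gY_inv _ _ _ _) hv.neg i1
  simp only [Pi.neg_apply, ← sub_eq_add_neg] at i2 e2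
  refine ⟨i2, ?_⟩
  rw [e2]
  refine hn.trans (le_of_eq ?_)
  rw [← mp_integral hp hi.aestronglyMeasurable]
  rfl

/-- full plane kernel between an inner and an outer highway: upper gap -/
lemma gap_up {D : ℝ × ℝ → ℝ × ℝ} (hD : Measurable D) {B : ℝ} (hB : ∀ η, ‖D η‖ ≤ B) (hμ : IsTC G μ)
    (s s' : ℝ) {v : PS → ℝ × ℝ} (hv : Measurable v) :
    Integrable (fun q : ((ℝ × ℝ) × Environment) × PS =>
      h.gY (D q.2.2.1) s s' (q.1.1 - v q.2) q.1.2 (Hwy.φup q.2.1 q.2.2.2)) ((P0 G).prod muS) ∧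
    0 ≤ ∫ q, h.gY (D q.2.2.1) s s' (q.1.1 - v q.2) q.1.2 (Hwy.φup q.2.1 q.2.2.2)
      ∂((P0 G).prod muS) := by
  have hp : MeasurePreserving (Prod.map (id : (ℝ × ℝ) × Environment → _)
      (fun ψ : PS => (ψ.2.1, Hwy.φup ψ.1 ψ.2.2))) ((P0 G).prod muS)
      ((P0 G).prod (UU2.prod (UU.prod UU))) := (MeasurePreserving.id _).prod mp_up'
  have hi := gY_off_integrable (h := h) (G := G) (ν := UU2.prod (UU.prod UU)) h0 h2
    (D := fun ψ => D ψ.1) (φ := fun ψ => ψ.2) (hD.comp measurable_fst) measurable_snd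
    (B := B) (fun ψ => hB _) s s'
  have hn := gY_off_nonneg (h := h) (G := G) (ν := UU2) h0 h2 hμ hD hB s s'
  have i1 : Integrable (fun q : ((ℝ × ℝ) × Environment) × PS =>
      h.gY (D q.2.2.1) s s' q.1.1 q.1.2 (Hwy.φup q.2.1 q.2.2.2)) ((P0 G).prod muS) :=
    hp.integrable_comp_of_integrable hi
  have i2 := skew_integrable (f := fun θ t (ψ : PS) =>
    h.gY (D ψ.2.1) s s' θ t (Hwy.φup ψ.1 ψ.2.2)) (fun ψ => h.gY_inv _ _ _ _) hv.neg i1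
  have e2 := skew_integral (f := fun θ t (ψ : PS) =>
    h.gY (D ψ.2.1) s s' θ t (Hwy.φup ψ.1 ψ.2.2)) (fun ψ => h.gY_inv _ _ _ _) hv.neg i1
  simp only [Pi.neg_apply, ← sub_eq_add_neg] at i2 e2
  refine ⟨i2, ?_⟩
  rw [e2]
  refine hn.trans (le_of_eq ?_)
  rw [← mp_integral hp hi.aestronglyMeasurable]
  rfl

/-- the mean of the gauge difference, abstract form (bounded displacement, integrability of the
hull kernels as hypotheses) -/
theorem K0_mean_abs {ε : ℝ} (hM : HwyMean G h ε) (hμ : IsTC G μ) {off : ℝ × ℝ → ℝ × ℝ}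
    (hoff : Measurable off) {B : ℝ} (hB : ∀ η, ‖off η‖ ≤ B) {dI dO : ℝ × ℝ} {L : ℝ} {J : Set ℝ}
    (hI : Integrable (fun q : ((ℝ × ℝ) × Environment) × (ℝ × ℝ) =>
      h.hkY dI Set.univ (-L) L q.1.1 q.1.2 q.2) (nu G))
    (hI0 : 0 ≤ ∫ q, h.hkY dI Set.univ (-L) L q.1.1 q.1.2 q.2 ∂(nu G))
    (hO : Integrable (fun q : ((ℝ × ℝ) × Environment) × (ℝ × ℝ) =>
      h.hkY dO J (-L) L q.1.1 q.1.2 q.2) (nu G)) :
    Integrable (fun q : RowS × ((ℝ × ℝ) × (ℝ × ℝ)) =>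
      h.K0 (off q.2.1) dI dO J L q.1.1.1 q.1.1.2 q.1.2 q.2.2) ((PR G).prod PF) ∧
    -∫ q, h.K0 (off q.2.1) dI dO J L q.1.1.1 q.1.1.2 q.1.2 q.2.2 ∂((PR G).prod PF) ≤
      ∫ q, h.hkY dO J (-L) L q.1.1 q.1.2 q.2 ∂(nu G) + 4 * L * ε := by
  have hv1 : Measurable fun ψ : PS => off ψ.2.1 := hoff.comp measurable_snd.fst
  have hv2 : Measurable fun ψ : PS => off ψ.2.1 + dI := hv1.add_const dI
  -- the six terms
  obtain ⟨a1, b1⟩ := gap_lo (h := h) h0 h2 hoff hB hμ (-L) L (v := fun _ => 0) measurable_const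
  obtain ⟨a2, b2⟩ := inner_term (G := G) (g := fun θ t φ => h.hkY dI Set.univ (-L) L θ t φ)
    (fun φ => h.hkY_inv _ _ _ _ _) hI hv1
  obtain ⟨a3, b3⟩ := gap_up (h := h) h0 h2 (D := fun η => Hwy.dU (off η) dI dO)
    ((hoff.const_sub dO).sub_const dI) (B := ‖dO‖ + B + ‖dI‖) (fun η => by
      unfold Hwy.dU
      refine (norm_sub_le _ _).trans (add_le_add ((norm_sub_le _ _).trans ?_) le_rfl)
      exact add_le_add le_rfl (hB η)) hμ (-L) L hv2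
  have hp : MeasurePreserving (Prod.map (id : (ℝ × ℝ) × Environment → _)
      (fun ψ : PS => ψ.1)) ((P0 G).prod muS) (nu G) :=
    (MeasurePreserving.id _).prod (measurePreserving_fst (μ := UU.prod UU) (ν := PF))
  have a4 : Integrable (fun q : ((ℝ × ℝ) × Environment) × PS =>
      h.hkY dO J (-L) L q.1.1 q.1.2 q.2.1) ((P0 G).prod muS) := hp.integrable_comp_of_integrable hO
  have b4 : ∫ q, h.hkY dO J (-L) L q.1.1 q.1.2 q.2.1 ∂((P0 G).prod muS) =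
      ∫ q, h.hkY dO J (-L) L q.1.1 q.1.2 q.2 ∂(nu G) := by
    rw [← mp_integral hp hO.aestronglyMeasurable]
    rfl
  obtain ⟨y1, z1⟩ := M56.Y_lo (G := G) hM (-L) L 0
  obtain ⟨y2, z2⟩ := M56.Y_up (G := G) hM (-L) L 0
  simp only [sub_zero] at y1 z1 y2 z2
  obtain ⟨a5, b5⟩ := inner_term (G := G) (g := fun θ t φ => h.Y (-L) L φ.1 θ t)
    (fun φ => M56.Y_inv h _ _ _) y1 hv1
  obtain ⟨a6, b6⟩ := inner_term (G := G) (g := fun θ t φ => h.Y (-L) L φ.2 θ t)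
    (fun φ => M56.Y_inv h _ _ _) y2 hv2
  rw [z1] at b5
  rw [z2] at b6
  simp only [sub_zero] at a1 b1
  simp only [← sub_sub] at a3 b3 a6 b6
  obtain ⟨i16, e16⟩ := six a1 a2 a3 a4 a5 a6
  have efun : (fun q : ((ℝ × ℝ) × Environment) × PS =>
      h.K0 (off q.2.2.1) dI dO J L q.1.1 q.1.2 q.2.1 q.2.2.2) = fun q =>
      h.gY (off q.2.2.1) (-L) L q.1.1 q.1.2 (Hwy.φlo q.2.1 q.2.2.2) +
        h.hkY dI Set.univ (-L) L (q.1.1 - off q.2.2.1) q.1.2 q.2.2.2 +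
        h.gY (Hwy.dU (off q.2.2.1) dI dO) (-L) L (q.1.1 - off q.2.2.1 - dI) q.1.2
          (Hwy.φup q.2.1 q.2.2.2) -
        h.hkY dO J (-L) L q.1.1 q.1.2 q.2.1 - h.Y (-L) L q.2.2.2.1 (q.1.1 - off q.2.2.1) q.1.2 -
        h.Y (-L) L q.2.2.2.2 (q.1.1 - off q.2.2.1 - dI) q.1.2 := by
    funext q
    exact K0_eq_Y h _ _ _ _ _ _ _ _ _
  have hint : Integrable (fun q : ((ℝ × ℝ) × Environment) × PS =>
      h.K0 (off q.2.2.1) dI dO J L q.1.1 q.1.2 q.2.1 q.2.2.2) ((P0 G).prod muS) := by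
    rw [efun]
    exact i16
  refine ⟨(mp_q (G := G)).integrable_comp_of_integrable hint, ?_⟩
  have e1 := mp_integral (mp_q (G := G)) hint.aestronglyMeasurable
  have e2 : ∫ q, h.K0 (off q.2.2.1) dI dO J L q.1.1 q.1.2 q.2.1 q.2.2.2 ∂((P0 G).prod muS) =
      ∫ q, h.gY (off q.2.2.1) (-L) L q.1.1 q.1.2 (Hwy.φlo q.2.1 q.2.2.2) ∂((P0 G).prod muS) +
      ∫ q, h.hkY dI Set.univ (-L) L (q.1.1 - off q.2.2.1) q.1.2 q.2.2.2 ∂((P0 G).prod muS) +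
      ∫ q, h.gY (Hwy.dU (off q.2.2.1) dI dO) (-L) L (q.1.1 - off q.2.2.1 - dI) q.1.2
          (Hwy.φup q.2.1 q.2.2.2) ∂((P0 G).prod muS) -
      ∫ q, h.hkY dO J (-L) L q.1.1 q.1.2 q.2.1 ∂((P0 G).prod muS) -
      ∫ q, h.Y (-L) L q.2.2.2.1 (q.1.1 - off q.2.2.1) q.1.2 ∂((P0 G).prod muS) -
      ∫ q, h.Y (-L) L q.2.2.2.2 (q.1.1 - off q.2.2.1 - dI) q.1.2 ∂((P0 G).prod muS) := by
    rw [efun]
    exact e16
  have e3 : ∫ q, h.K0 (off q.2.1) dI dO J L q.1.1.1 q.1.1.2 q.1.2 q.2.2 ∂((PR G).prod PF) =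
      ∫ q, h.K0 (off q.2.2.1) dI dO J L q.1.1 q.1.2 q.2.1 q.2.2.2 ∂((P0 G).prod muS) := e1
  rw [e3, e2, b4, b5, b6, b2]
  linarith

end main

/-! ### Separation and window: final form -/

lemma off_bound {h : Hwy F} {off dI dO : ℝ × ℝ} {Λ L : ℝ} (hs : h.Sep4 off dI dO)
    (hw : h.WinC off dI dO Λ L) :
    ‖off‖ ≤ L * ‖F.a‖ + (|F.be dO| + |F.be dI|) * ‖F.b‖ := by
  have h1 := hw.L1
  have h2 := hw.Λ_nonneg
  have h3 := h.κ_nonneg
  have h4 := cF_nonneg F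
  have h5 := hs.lo
  have h6 := hs.up
  unfold Hwy.dU at h6
  rw [map_sub, map_sub] at h6
  have h7 := h.wH_nonneg'
  refine (norm_le_coord F off).trans (add_le_add (mul_le_mul_of_nonneg_right ?_ (norm_nonneg _))
    (mul_le_mul_of_nonneg_right ?_ (norm_nonneg _)))
  · linarith
  · rw [abs_of_nonneg (by linarith)]
    linarith [le_abs_self (F.be dO), neg_abs_le (F.be dI)]

section meas

variable {Ω : Type*} [MeasurableSpace Ω] {θ : Ω → ℝ × ℝ} {t : Ω → Environment} {φ : Ω → ℝ × ℝ}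
  {D : Ω → ℝ × ℝ}

/-- measurability of the full plane kernel, variable displacement -/
theorem meas_gK_var (h : Hwy F) (hD : Measurable D) (hθ : Measurable θ) (ht : Measurable t)
    (hφ : Measurable φ) (s s' : ℝ) : Measurable fun ω => h.gK (D ω) s s' (θ ω) (t ω) (φ ω) := by
  have hU : ∀ k, Measurable fun ω => h.Up (D ω) (θ ω) (t ω) (φ ω) k := fun k =>
    h.meas_H (measurable_snd.comp hφ) (hθ.sub hD) ht k
  have hiU : Measurable fun ω => h.iU (D ω) s' (θ ω) (t ω) (φ ω) :=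
    h.meas_ix s' (measurable_snd.comp hφ) (hθ.sub hD) ht
  unfold Hwy.gK gapK
  have hx := Q.measurable_at (h.meas_Lo hθ ht hφ) (h.meas_iL hθ ht hφ s)
  have hy := Q.measurable_at hU hiU
  refine ((Q.measurable_at (fun k => Q.measurable_hc ht (h.meas_Lo hθ ht hφ) k)
    (h.meas_iL hθ ht hφ s)).add (Q.measurable_ptr ht hx hy)).sub ?_
  exact Q.measurable_at (fun k => Q.measurable_hc ht hU k) hiU

end meas

theorem measurable_K0 (h : Hwy F) {off : ℝ × ℝ → ℝ × ℝ} (hoff : Measurable off) (dI dO : ℝ × ℝ)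
    {J : Set ℝ} (hJ : MeasurableSet J) (L : ℝ) :
    Ob.Meas fun θ t φ r => h.K0 (off r.1) dI dO J L θ t φ r.2 := by
  unfold Ob.Meas Hwy.K0
  have hθ : Measurable fun q : RowS × ((ℝ × ℝ) × (ℝ × ℝ)) => q.1.1.1 := by fun_prop
  have ht : Measurable fun q : RowS × ((ℝ × ℝ) × (ℝ × ℝ)) => q.1.1.2 := by fun_prop
  have hφ : Measurable fun q : RowS × ((ℝ × ℝ) × (ℝ × ℝ)) => q.1.2 := by fun_prop
  have hφ1 : Measurable fun q : RowS × ((ℝ × ℝ) × (ℝ × ℝ)) => q.2.2 := by fun_prop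
  have hof : Measurable fun q : RowS × ((ℝ × ℝ) × (ℝ × ℝ)) => off q.2.1 :=
    hoff.comp (by fun_prop)
  have h1 := meas_gK_var h hof hθ ht (hφ.fst.prodMk hφ1.fst) (-L) L
  have h2 := h.meas_hk (hθ.sub hof) ht hφ1 dI MeasurableSet.univ (-L) L
  have h3 := meas_gK_var h ((hof.const_sub dO).sub_const dI) ((hθ.sub hof).sub_const dI) ht
    (hφ1.snd.prodMk hφ.snd) (-L) L
  have h4 := h.meas_hk hθ ht hφ dO hJ (-L) L
  exact ((h1.add h2).add h3).sub h4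

/-- **(M1)** the mean of `|K0|`, routes of the outer row in the window nonempty a.e. -/
theorem K0_mean' {h : Hwy F} (h0 : G (Set.Iio 0) = 0) (h2 : Integrable (fun x : ℝ => x ^ 2) G)
    {ε : ℝ} (hM : HwyMean G h ε) (hμ : IsTC G μ) {off : ℝ × ℝ → ℝ × ℝ} (hoff : Measurable off)
    {dI dO : ℝ × ℝ} {Λ L : ℝ} {J : Set ℝ}
    (hs : ∀ η ∈ Set.Ico (0 : ℝ) 1 ×ˢ Set.Ico (0 : ℝ) 1, h.Sep4 (off η) dI dO)
    (hw : ∀ η ∈ Set.Ico (0 : ℝ) 1 ×ˢ Set.Ico (0 : ℝ) 1, h.WinC (off η) dI dO Λ L)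
    (hJ : ∀ x ∈ J, |x| ≤ Λ)
    (hne : ∀ᵐ q ∂(nu G), (routes q.1.2 (h.Lo q.1.1 q.1.2 q.2) (h.Up dO q.1.1 q.1.2 q.2)
      (rg F J q.1.1) (h.iL (-L) q.1.1 q.1.2 q.2) (h.iU dO L q.1.1 q.1.2 q.2)).Nonempty)
    (hI : Integrable (fun q : ((ℝ × ℝ) × Environment) × (ℝ × ℝ) =>
      h.hkY dI Set.univ (-L) L q.1.1 q.1.2 q.2) (nu G))
    (hI0 : 0 ≤ ∫ q, h.hkY dI Set.univ (-L) L q.1.1 q.1.2 q.2 ∂(nu G))
    (hO : Integrable (fun q : ((ℝ × ℝ) × Environment) × (ℝ × ℝ) =>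
      h.hkY dO J (-L) L q.1.1 q.1.2 q.2) (nu G)) :
    Integrable (fun q : RowS × ((ℝ × ℝ) × (ℝ × ℝ)) =>
      h.K0 (off q.2.1) dI dO J L q.1.1.1 q.1.1.2 q.1.2 q.2.2) ((PR G).prod PF) ∧
    ∫ q, |h.K0 (off q.2.1) dI dO J L q.1.1.1 q.1.1.2 q.1.2 q.2.2| ∂((PR G).prod PF) ≤
      ∫ q, h.hkY dO J (-L) L q.1.1 q.1.2 q.2 ∂(nu G) + 4 * L * ε := by
  set off' : ℝ × ℝ → ℝ × ℝ := fun η => off (frac2 η) with hoff'
  have hm' : Measurable off' := hoff.comp measurable_frac2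
  have hB : ∀ η, ‖off' η‖ ≤ L * ‖F.a‖ + (|F.be dO| + |F.be dI|) * ‖F.b‖ := fun η =>
    off_bound (hs _ (frac2_mem η)) (hw _ (frac2_mem η))
  obtain ⟨k1, k2⟩ := K0_mean_abs (G := G) (h := h) h0 h2 hM hμ hm' hB hI hI0 hO
  -- almost everywhere properties
  have hη : ∀ᵐ q ∂((PR G).prod PF), q.2.1 ∈ Set.Ico (0 : ℝ) 1 ×ˢ Set.Ico (0 : ℝ) 1 := by
    have e1 : ∀ᵐ r ∂PF, r.1 ∈ Set.Ico (0 : ℝ) 1 ×ˢ Set.Ico (0 : ℝ) 1 :=
      Measure.quasiMeasurePreserving_fst.ae ae_UU2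
    exact Measure.quasiMeasurePreserving_snd.ae e1
  have hne' : ∀ᵐ q ∂((PR G).prod PF), (routes q.1.1.2 (h.Lo q.1.1.1 q.1.1.2 q.1.2)
      (h.Up dO q.1.1.1 q.1.1.2 q.1.2) (rg F J q.1.1.1) (h.iL (-L) q.1.1.1 q.1.1.2 q.1.2)
      (h.iU dO L q.1.1.1 q.1.1.2 q.1.2)).Nonempty :=
    Measure.quasiMeasurePreserving_fst.ae hne
  have hNn : ∀ᵐ q ∂((PR G).prod PF), Nn q.1.1.2 := by
    have e1 : ∀ᵐ q ∂(PR G), Nn q.1.2 := (ae_P0_Nn (Ψ := ℝ × ℝ) (ν := UU.prod UU) h0).mono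
      fun q hq => hq.1
    exact Measure.quasiMeasurePreserving_fst.ae e1
  have heq : ∀ᵐ q ∂((PR G).prod PF),
      h.K0 (off' q.2.1) dI dO J L q.1.1.1 q.1.1.2 q.1.2 q.2.2 =
      h.K0 (off q.2.1) dI dO J L q.1.1.1 q.1.1.2 q.1.2 q.2.2 := by
    filter_upwards [hη] with q hq
    rw [hoff']
    simp only [frac2_of_mem hq]
  have habs : ∀ᵐ q ∂((PR G).prod PF),
      |h.K0 (off q.2.1) dI dO J L q.1.1.1 q.1.1.2 q.1.2 q.2.2| =
      -h.K0 (off' q.2.1) dI dO J L q.1.1.1 q.1.1.2 q.1.2 q.2.2 := by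
    filter_upwards [hη, hne', hNn, heq] with q q1 q2 q3 q4
    rw [q4, abs_of_nonpos]
    exact Hwy.K0_nonpos q3 (hs _ q1) (hw _ q1) hJ q2
  refine ⟨k1.congr heq, ?_⟩
  rw [integral_congr_ae habs, integral_neg]
  exact k2

/-- **(M1)** the mean of `|K0|`.  `σ₁`, `σ₂`: a route of the outer row inside the window `J`
(`M56.row_nonempty`); fence: `σ₁ = σ₂ = 0`. -/
theorem K0_mean {h : Hwy F} (h0 : G (Set.Iio 0) = 0) (h2 : Integrable (fun x : ℝ => x ^ 2) G)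
    {ε : ℝ} (hM : HwyMean G h ε) (hμ : IsTC G μ) {off : ℝ × ℝ → ℝ × ℝ} (hoff : Measurable off)
    {dI dO : ℝ × ℝ} {Λ L : ℝ} {J : Set ℝ} (hJm : MeasurableSet J)
    (hs : ∀ η ∈ Set.Ico (0 : ℝ) 1 ×ˢ Set.Ico (0 : ℝ) 1, h.Sep4 (off η) dI dO)
    (hw : ∀ η ∈ Set.Ico (0 : ℝ) 1 ×ˢ Set.Ico (0 : ℝ) 1, h.WinC (off η) dI dO Λ L)
    (hJ : ∀ x ∈ J, |x| ≤ Λ) (hdI : h.wH + 2 * mg F < F.be dI)
    {σ₁ σ₂ : ℝ} (hσ₁ : -L + mg F ≤ σ₁) (hσ₂ : σ₂ + mg F + h.κ < L + F.al dO)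
    (hIJ : Set.Icc (min σ₁ σ₂ - mg F) (max σ₁ σ₂ + mg F) ⊆ J) :
    Integrable (fun q : RowS × ((ℝ × ℝ) × (ℝ × ℝ)) =>
      h.K0 (off q.2.1) dI dO J L q.1.1.1 q.1.1.2 q.1.2 q.2.2) ((PR G).prod PF) ∧
    ∫ q, |h.K0 (off q.2.1) dI dO J L q.1.1.1 q.1.1.2 q.1.2 q.2.2| ∂((PR G).prod PF) ≤
      ∫ q, h.hkY dO J (-L) L q.1.1 q.1.2 q.2 ∂(nu G) + 4 * L * ε := by
  have hdO : h.wH + 2 * mg F < F.be dO := by
    have h1 := hs 0 ⟨⟨le_rfl, zero_lt_one⟩, ⟨le_rfl, zero_lt_one⟩⟩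
    have h3 := h1.lo
    have h4 := h1.up
    unfold Hwy.dU at h4
    rw [map_sub, map_sub] at h4
    have h7 := h.wH_nonneg'
    linarith
  have a1 : -L + mg F ≤ -L + mg F := le_rfl
  have a2 : (L + F.al dI - mg F - h.κ - 1) + mg F + h.κ < L + F.al dI := by linarith
  have a3 : Set.Icc (min (-L + mg F) (L + F.al dI - mg F - h.κ - 1) - mg F)
    (max (-L + mg F) (L + F.al dI - mg F - h.κ - 1) + mg F) ⊆ Set.univ := Set.subset_univ _
  exact K0_mean' (G := G) h0 h2 hM hμ hoff hs hw hJ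
    (ae_of_all _ fun q => M56.row_nonempty hdO hσ₁ hσ₂ hIJ q.1.1 q.1.2 q.2)
    (M56.hkY_integrable hM h0 h2 hdI MeasurableSet.univ a1 a2 a3)
    (M56.hkY_nonneg hM h0 h2 hdI MeasurableSet.univ a1 a2 a3 hμ)
    (M56.hkY_integrable hM h0 h2 hdO hJm hσ₁ hσ₂ hIJ)

end Crest.Agent.R151.M1
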