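import Crest.Agent.R151.U750c

/-!
# R151/U750d — superadditivity of the means of the block times (owner helper750)
-/

set_option autoImplicit false
set_option linter.unusedSectionVars false

open MeasureTheory Filter
open scoped Topology
open Crest.ProbabilityR.FirstPassage
open Crest.Agent.R151.K

namespace Crest.Agent.R151.U

attribute [local irreducible] Box TE

/-- ratio of the side `2^k` and the cell length -/
def rat (k : ℕ) : ℕ := 2 ^ (k - 15 * k / 16)

lemma len_pos (k : ℕ) : 1 ≤ len k := Nat.one_le_two_pow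

lemma len_mul_rat (k : ℕ) : len k * rat k = 2 ^ k := by
  unfold len rat
  rw [← pow_add]
  congr 1
  omega

lemma len_le (k : ℕ) : len k ≤ 2 ^ k := Nat.pow_le_pow_right (by norm_num) (by omega)

lemma len_succ_le (k : ℕ) : len (k + 1) ≤ 2 * len k := by
  unfold len
  rw [← pow_succ']
  exact Nat.pow_le_pow_right (by norm_num) (by omega)

lemma rat_ge {k : ℕ} (hk : 64 ≤ k) : 8 ≤ rat k := by
  unfold rat
  calc 8 = 2 ^ 3 := by norm_num
    _ ≤ _ := Nat.pow_le_pow_right (by norm_num) (by omega)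

/-- `2^(1/16)` -/
noncomputable def th : ℝ := (2 : ℝ) ^ (1 / 16 : ℝ)

lemma th_pos : 0 < th := Real.rpow_pos_of_pos (by norm_num) _

lemma one_lt_th : 1 < th := Real.one_lt_rpow (by norm_num) (by norm_num)

lemma th_pow (m : ℕ) : th ^ m = (2 : ℝ) ^ ((m : ℝ) / 16) := by
  unfold th
  rw [← Real.rpow_natCast, ← Real.rpow_mul (by norm_num)]
  congr 1
  ring

lemma th_pow16 (k : ℕ) : th ^ (16 * k) = 2 ^ k := by
  rw [th_pow, ← Real.rpow_natCast]
  congr 1
  push_cast
  ring

lemma rpow58 (k : ℕ) : (2 : ℝ) ^ ((5 / 8 : ℝ) * k) = th ^ (10 * k) := by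
  rw [th_pow]
  congr 1
  push_cast
  ring

lemma len_le_th (k : ℕ) : (len k : ℝ) ≤ th ^ (15 * k) := by
  rw [th_pow]
  unfold len
  push_cast
  rw [← Real.rpow_natCast]
  apply Real.rpow_le_rpow_of_exponent_le (by norm_num)
  have : (((15 * k / 16 : ℕ)) : ℝ) ≤ ((15 * k : ℕ) : ℝ) / 16 := by
    have := @Nat.cast_div_le ℝ _ _ _ (15 * k) 16
    exact_mod_cast this
  push_cast at this
  exact this

lemma rat_le_th (k : ℕ) : (rat k : ℝ) ≤ 2 * th ^ k := by
  rw [th_pow]
  unfold rat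
  push_cast
  rw [← Real.rpow_natCast]
  have e : (2 : ℝ) * (2 : ℝ) ^ ((k : ℝ) / 16) = (2 : ℝ) ^ (1 + (k : ℝ) / 16) := by
    rw [Real.rpow_add (by norm_num), Real.rpow_one]
  rw [e]
  apply Real.rpow_le_rpow_of_exponent_le (by norm_num)
  have h1 : 16 * (k - 15 * k / 16) ≤ 16 + k := by omega
  have h2 : (16 : ℝ) * ((k - 15 * k / 16 : ℕ) : ℝ) ≤ 16 + k := by exact_mod_cast h1
  linarith

lemma two_pow_int (k : ℕ) : (2 : ℤ) ^ k = (len k : ℤ) * (rat k : ℤ) := by
  have := len_mul_rat k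
  exact_mod_cast this.symm

/-- block time -/
noncomputable def blk (CR k : ℕ) (x0 y0 d : ℤ) (t : Environment) : ℝ :=
  TE (Box x0 (x0 + 2 ^ k) y0 (CR * 2 ^ k)) (seg x0 y0 (len k)) (seg (x0 + 2 ^ k) (y0 + d) (len k)) t

lemma measurable_blk (CR k : ℕ) (x0 y0 d : ℤ) : Measurable (blk CR k x0 y0 d) :=
  measurable_TE _ _ _

lemma conn_blk {CR k : ℕ} {x0 y0 d : ℤ} (hd : |d| ≤ CR * 2 ^ k) :
    Conn (↑(Box x0 (x0 + 2 ^ k) y0 (CR * 2 ^ k))) (seg x0 y0 (len k))
      (seg (x0 + 2 ^ k) (y0 + d) (len k)) := by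
  have h1 := len_pos k
  have h2 : (0 : ℤ) < 2 ^ k := by positivity
  have h3 : (0 : ℤ) ≤ CR * 2 ^ k := by positivity
  rw [abs_le] at hd
  exact conn_box_sets (p := (x0, y0)) (q := (x0 + 2 ^ k, y0 + d))
    ⟨rfl, le_rfl, by simp only; omega⟩ ⟨rfl, le_rfl, by simp only; omega⟩
    (by simp) (by simp only; omega) (by simp only; omega) (by simp) (by omega)
    (by simp only; omega) (by simp only; omega) (by simp only; omega) (by simp only; omega)

variable {G : Measure ℝ} [IsProbabilityMeasure G]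

/-- mean of the block time -/
noncomputable def tau (G : Measure ℝ) (CR k : ℕ) (d : ℤ) : ℝ := ∫ t, blk CR k 0 0 d t ∂(iidLaw G)

lemma blk_tr {CR k : ℕ} {x0 y0 d : ℤ} (hd : |d| ≤ CR * 2 ^ k) :
    blk CR k x0 y0 d = fun t => blk CR k 0 0 d (act (tr (x0, y0)) t) := by
  funext t
  have := TE_box_tr 0 (0 + 2 ^ k) 0 (CR * 2 ^ k) (seg 0 0 (len k)) (seg (0 + 2 ^ k) (0 + d) (len k))
    (conn_blk hd) (x0, y0) t
  rw [image_tr_seg, image_tr_seg] at this
  simp only [zero_add] at this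
  rw [add_comm ((2 : ℤ) ^ k) x0, add_comm d y0] at this
  unfold blk
  rw [this]
  simp only [zero_add]

lemma integral_blk_comp {CR k : ℕ} {x0 y0 d : ℤ} (hd : |d| ≤ CR * 2 ^ k) (f : ℝ → ℝ)
    (hf : Measurable f) :
    ∫ t, f (blk CR k x0 y0 d t) ∂(iidLaw G) = ∫ t, f (blk CR k 0 0 d t) ∂(iidLaw G) := by
  rw [blk_tr hd]
  exact integral_pt_iso (tr (x0, y0)) (fun t => f (blk CR k 0 0 d t))
    (hf.comp (measurable_blk _ _ _ _ _)).aestronglyMeasurable

lemma integral_blk {CR k : ℕ} {x0 y0 d : ℤ} (hd : |d| ≤ CR * 2 ^ k) :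
    ∫ t, blk CR k x0 y0 d t ∂(iidLaw G) = tau G CR k d :=
  integral_blk_comp hd (fun x => x) measurable_id

/-- consequences of `DEV` for block times -/
lemma dev_blk (hG : DEV G) {CR : ℕ} (hCR : 1 ≤ CR) :
    ∃ (C : ℝ) (k0 : ℕ), ∀ k : ℕ, k0 ≤ k → ∀ x0 y0 d : ℤ, |d| + 2 ^ k ≤ CR * 2 ^ k →
      Integrable (blk CR k x0 y0 d) (iidLaw G) ∧
      ∫ t, |blk CR k x0 y0 d t - tau G CR k d| ∂(iidLaw G) ≤ C * th ^ (10 * k) := by
  obtain ⟨C, k0, h⟩ := hG CR
  refine ⟨C, k0, fun k hk x0 y0 d hd => ?_⟩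
  have h1 : (len k : ℤ) ≤ 2 ^ k := by exact_mod_cast len_le k
  have h2 : (0 : ℤ) < 2 ^ k := by positivity
  have h3 : (2 : ℤ) ^ k ≤ CR * 2 ^ k := le_mul_of_one_le_left h2.le (by exact_mod_cast hCR)
  have hd1 := abs_le.1 (show |d| ≤ CR * 2 ^ k - 2 ^ k by linarith)
  have hd0 : |d| ≤ CR * 2 ^ k := by linarith
  have := h k hk x0 (x0 + 2 ^ k) y0 (CR * 2 ^ k) x0 (x0 + 2 ^ k) y0 (y0 + d) (len k) (len k)
    (by omega) (by omega) le_rfl le_rfl (by omega) (by omega) le_rfl (by omega) (by omega)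
    (by omega) (by omega) le_rfl le_rfl
  rw [rpow58] at this
  refine ⟨this.1, ?_⟩
  have e := integral_blk (G := G) (x0 := x0) (y0 := y0) hd0
  unfold blk at e
  unfold blk
  rw [e] at this
  exact this.2

/-- lower bound of all block means at level `k` -/
def LB (G : Measure ℝ) (al be : ℝ) (CR k : ℕ) (h : ℝ) : Prop :=
  ∀ d : ℤ, |d| + 2 ^ k ≤ CR * 2 ^ k → al * 2 ^ k + be * d + h ≤ tau G CR k d

lemma box_edge {A B y0 R : ℤ} {a b : Pt} {w : squareLattice.Walk a b} {e : Edge}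
    (he : e ∈ w.edges) (hb : e ∈ Box A B y0 R) :
    (∀ p ∈ e, A ≤ p.1 ∧ p.1 ≤ B) ∧ ∃ p ∈ e, p.1 < B := by
  induction e using Sym2.inductionOn with
  | _ x y =>
    have hadj := adj_of_mem_edges w he
    rw [mem_Box_adj hadj] at hb
    refine ⟨?_, ?_⟩
    · intro p hp
      rcases Sym2.mem_iff.1 hp with rfl | rfl
      · exact ⟨hb.1, hb.2.1⟩
      · exact ⟨hb.2.2.1, hb.2.2.2.1⟩
    · rcases hb.2.2.2.2.1 with h | h
      · exact ⟨x, Sym2.mem_mk_left _ _, h⟩
      · exact ⟨y, Sym2.mem_mk_right _ _, h⟩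

lemma cell (y : ℤ) {l : ℕ} (hl : 1 ≤ l) : (y / l) * l ≤ y ∧ y < (y / l) * l + l := by
  have hl' : (0 : ℤ) < l := by exact_mod_cast hl
  refine ⟨Int.ediv_mul_le _ hl'.ne', ?_⟩
  have := Int.lt_ediv_add_one_mul_self y hl'
  linarith

/-- Decomposition of a short path of the doubled box. -/
lemma path_lower {CR k : ℕ} (hk : 64 ≤ k) {D : ℤ} {t : Environment} (ht : Nn t) {a b : Pt}
    (ha : a ∈ seg 0 0 (len (k + 1))) (hb : b ∈ seg (2 ^ (k + 1)) D (len (k + 1)))
    (w : squareLattice.Walk a b)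
    (hw : ∀ e ∈ w.edges, e ∈ Box 0 (2 ^ (k + 1)) 0 (CR * 2 ^ (k + 1)))
    (hlen : (w.length : ℤ) + 2 * 2 ^ k ≤ CR * 2 ^ k) :
    ∃ i0 i1 i2 j : ℤ, (0 ≤ i0 ∧ i0 ≤ 1) ∧ (-(CR * rat k : ℤ) ≤ i1 ∧ i1 ≤ CR * rat k) ∧
      (-(CR * rat k : ℤ) ≤ i2 ∧ i2 ≤ CR * rat k) ∧ (0 ≤ j ∧ j ≤ 1) ∧
      |(i1 - i0) * len k| + 2 ^ k ≤ CR * 2 ^ k ∧
      |D + (j - i2) * len k| + 2 ^ k ≤ CR * 2 ^ k ∧
      blk CR k 0 (i0 * len k) ((i1 - i0) * len k) t +
        TE (Box 0 (2 ^ (k + 1)) 0 (CR * 2 ^ (k + 1))) (seg (2 ^ k) (i1 * len k) (len k))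
          (seg (2 ^ k) (i2 * len k) (len k)) t +
        blk CR k (2 ^ k) (i2 * len k) (D + (j - i2) * len k) t ≤ walkCost t w := by
  have hl1 := len_pos k
  have hl2 : (len (k + 1) : ℤ) ≤ 2 * len k := by exact_mod_cast len_succ_le k
  have hr : 8 ≤ rat k := rat_ge hk
  have hlr := two_pow_int k
  have h8 : 8 * (len k : ℤ) ≤ 2 ^ k := by
    rw [hlr, mul_comm]
    exact mul_le_mul_of_nonneg_left (by exact_mod_cast hr) (by positivity)
  have hCR : (CR : ℤ) * 2 ^ k = (CR * rat k) * len k := by rw [hlr]; ring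
  have hlp : (0 : ℤ) < len k := by exact_mod_cast hl1
  rw [mem_seg] at ha hb
  obtain ⟨ha1, ha2, ha3⟩ := ha
  obtain ⟨hb1, hb2, hb3⟩ := hb
  have hpow : (2 : ℤ) ^ (k + 1) = 2 * 2 ^ k := by rw [pow_succ]; ring
  rw [hpow] at hb1
  have hn : (0 : ℤ) < 2 ^ k := by positivity
  obtain ⟨c, d, hc, hd, w1, w2, w3, hww, hL, hR⟩ := decomp3 (2 ^ k) w (by omega) (by omega)
  have hlw : w.length = w1.length + (w2.length + w3.length) := by
    rw [hww, SimpleGraph.Walk.length_append, SimpleGraph.Walk.length_append]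
  have hed : ∀ e, (e ∈ w1.edges ∨ e ∈ w2.edges ∨ e ∈ w3.edges) → e ∈ w.edges := by
    intro e he
    rw [hww, SimpleGraph.Walk.edges_append, List.mem_append, SimpleGraph.Walk.edges_append,
      List.mem_append]
    exact he
  have hcost : walkCost t w = walkCost t w1 + (walkCost t w2 + walkCost t w3) := by
    rw [hww, walkCost_append, walkCost_append]
  have d1 := (walk_dist w1 c w1.end_mem_support).2
  have d2 := (walk_dist w2 d w2.end_mem_support).2
  have d3 := (walk_dist w3 b w3.end_mem_support).2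
  rw [abs_le] at d1 d2 d3
  obtain ⟨p0, q0⟩ := cell a.2 hl1
  obtain ⟨p1, q1⟩ := cell c.2 hl1
  obtain ⟨p2, q2⟩ := cell d.2 hl1
  obtain ⟨p3, q3⟩ := cell (b.2 - D) hl1
  set i0 := a.2 / (len k : ℤ) with hi0
  set i1 := c.2 / (len k : ℤ) with hi1
  set i2 := d.2 / (len k : ℤ) with hi2
  set j := (b.2 - D) / (len k : ℤ) with hj
  have hlw' : (w.length : ℤ) = w1.length + (w2.length + w3.length) := by exact_mod_cast hlw
  have hi0' : 0 ≤ i0 ∧ i0 ≤ 1 := by
    constructor
    · exact Int.ediv_nonneg ha2 hlp.le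
    · by_contra hcon
      have : 2 * (len k : ℤ) ≤ i0 * len k := mul_le_mul_of_nonneg_right (by omega) hlp.le
      omega
  have hj' : 0 ≤ j ∧ j ≤ 1 := by
    constructor
    · exact Int.ediv_nonneg (by omega) hlp.le
    · by_contra hcon
      have : 2 * (len k : ℤ) ≤ j * len k := mul_le_mul_of_nonneg_right (by omega) hlp.le
      omega
  have hbd : ∀ i : ℤ, i * len k ≤ CR * 2 ^ k → -(CR * 2 ^ k) ≤ i * len k →
      -(CR * rat k : ℤ) ≤ i ∧ i ≤ CR * rat k := by
    intro i h1 h2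
    rw [hCR] at h1 h2
    constructor
    · have : (-(CR * rat k : ℤ)) * len k ≤ i * len k := by linarith
      exact le_of_mul_le_mul_right this hlp
    · exact le_of_mul_le_mul_right h1 hlp
  have ei : (i1 - i0) * (len k : ℤ) = i1 * len k - i0 * len k := by ring
  have ej : (j - i2) * (len k : ℤ) = j * len k - i2 * len k := by ring
  refine ⟨i0, i1, i2, j, hi0', hbd i1 (by omega) (by omega), hbd i2 (by omega) (by omega), hj',
    ?_, ?_, ?_⟩
  · rw [ei]
    have : |i1 * (len k : ℤ) - i0 * len k| ≤ CR * 2 ^ k - 2 ^ k := by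
      rw [abs_le]
      constructor <;> omega
    linarith
  · rw [ej]
    have : |D + (j * (len k : ℤ) - i2 * len k)| ≤ CR * 2 ^ k - 2 ^ k := by
      rw [abs_le]
      constructor <;> omega
    linarith
  · have k1 : blk CR k 0 (i0 * len k) ((i1 - i0) * len k) t ≤ walkCost t w1 := by
      unfold blk
      refine TE_le_walk ht w1 ?_ ⟨ha1, p0, q0⟩ ⟨by rw [hc]; ring, ?_, ?_⟩
      · refine walk_sub_Box w1 ?_ ?_
        · intro e he
          have h1 := box_edge (hed e (Or.inl he)) (hw e (hed e (Or.inl he)))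
          have h2 := hL e he
          refine ⟨fun p hp => ⟨(h1.1 p hp).1, ?_⟩, ?_⟩
          · have := h2.1 p hp
            omega
          · obtain ⟨p, hp, hpn⟩ := h2.2
            exact ⟨p, hp, by omega⟩
        · have : |a.2 - i0 * (len k : ℤ)| ≤ len k := by
            rw [abs_le]
            constructor <;> omega
          omega
      · rw [ei]; omega
      · rw [ei]; omega
    have k2 : TE (Box 0 (2 ^ (k + 1)) 0 (CR * 2 ^ (k + 1))) (seg (2 ^ k) (i1 * len k) (len k))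
          (seg (2 ^ k) (i2 * len k) (len k)) t ≤ walkCost t w2 :=
      TE_le_walk ht w2 (fun e he => hw e (hed e (Or.inr (Or.inl he)))) ⟨hc, p1, q1⟩ ⟨hd, p2, q2⟩
    have k3 : blk CR k (2 ^ k) (i2 * len k) (D + (j - i2) * len k) t ≤ walkCost t w3 := by
      unfold blk
      refine TE_le_walk ht w3 ?_ ⟨hd, p2, q2⟩ ⟨by rw [hb1]; ring, ?_, ?_⟩
      · refine walk_sub_Box w3 ?_ ?_
        · intro e he
          have h1 := box_edge (hed e (Or.inr (Or.inr he))) (hw e (hed e (Or.inr (Or.inr he))))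
          have h2 := hR e he
          refine ⟨fun p hp => ⟨h2.1 p hp, ?_⟩, ?_⟩
          · have := (h1.1 p hp).2
            omega
          · obtain ⟨p, hp, hpn⟩ := h1.2
            exact ⟨p, hp, by omega⟩
        · have : |d.2 - i2 * (len k : ℤ)| ≤ len k := by
            rw [abs_le]
            constructor <;> omega
          omega
      · rw [ej]; omega
      · rw [ej]; omega
    rw [hcost]
    linarith


/-- the bad event of level `k` -/
def Bd (c1 : ℝ) (k : ℕ) : Set Environment :=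
  ⋃ i ∈ Finset.range (2 ^ (k + 1)), Cheap c1 (2 ^ k) ((0 : ℤ), (i : ℤ))

lemma two_k_le (k : ℕ) : 2 * k ≤ 2 ^ k + 1 := by
  induction k with
  | zero => norm_num
  | succ n ih =>
    have : 1 ≤ 2 ^ n := Nat.one_le_two_pow
    rw [pow_succ]
    rcases n with _ | n
    · norm_num
    · have : 2 ≤ 2 ^ (n + 1) := by
        rw [pow_succ]
        have : 1 ≤ 2 ^ n := Nat.one_le_two_pow
        omega
      omega

lemma prob_Bd {c1 : ℝ} (h : ∀ (L : ℕ) (x : Pt), 1 ≤ L →
    (iidLaw G) (Cheap c1 L x) ≤ ENNReal.ofReal ((1 / 2 : ℝ) ^ L)) (k : ℕ) :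
    (iidLaw G) (Bd c1 k) ≤ ENNReal.ofReal (4 / 2 ^ k) := by
  unfold Bd
  refine (measure_biUnion_finset_le _ _).trans ?_
  calc ∑ i ∈ Finset.range (2 ^ (k + 1)), (iidLaw G) (Cheap c1 (2 ^ k) ((0 : ℤ), (i : ℤ)))
      ≤ ∑ _i ∈ Finset.range (2 ^ (k + 1)), ENNReal.ofReal ((1 / 2 : ℝ) ^ (2 ^ k)) :=
        Finset.sum_le_sum fun i _ => h (2 ^ k) _ Nat.one_le_two_pow
    _ = ENNReal.ofReal (2 ^ (k + 1) * (1 / 2 : ℝ) ^ (2 ^ k)) := by
        rw [Finset.sum_const, Finset.card_range, nsmul_eq_mul, ENNReal.ofReal_mul (by positivity)]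
        congr 1
        rw [ENNReal.ofReal_pow (by norm_num)]
        push_cast
        norm_num
    _ ≤ _ := by
        apply ENNReal.ofReal_le_ofReal
        rw [le_div_iff₀ (by positivity)]
        have h1 : (2 : ℝ) ^ (k + 1) * (1 / 2) ^ (2 ^ k) * 2 ^ k =
            2 ^ (2 * k) * 2 * (1 / 2) ^ (2 ^ k) := by ring
        rw [h1]
        have h2 : (2 : ℝ) ^ (2 * k) ≤ 2 ^ (2 ^ k + 1) :=
          pow_le_pow_right₀ (by norm_num) (two_k_le k)
        calc (2 : ℝ) ^ (2 * k) * 2 * (1 / 2) ^ (2 ^ k)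
            ≤ 2 ^ (2 ^ k + 1) * 2 * (1 / 2) ^ (2 ^ k) := by gcongr
          _ = 4 * (2 * (1 / 2)) ^ (2 ^ k) := by rw [mul_pow]; ring
          _ = 4 := by norm_num

/-- the middle times -/
noncomputable def mid (CR k : ℕ) (i1 i2 : ℤ) (t : Environment) : ℝ :=
  TE (Box 0 (2 ^ (k + 1)) 0 (CR * 2 ^ (k + 1))) (seg (2 ^ k) (i1 * len k) (len k))
          (seg (2 ^ k) (i2 * len k) (len k)) t

/-- index set -/
noncomputable def Ix (CR k : ℕ) : Finset ℤ := Finset.Icc (-(CR * rat k : ℤ)) (CR * rat k)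

/-- admissible displacement -/
def Ad (CR k : ℕ) (d : ℤ) : Prop := |d| + 2 ^ k ≤ (CR : ℤ) * 2 ^ k

open Classical in
/-- first sum of the deviations -/
noncomputable def Z1 (G : Measure ℝ) (CR k : ℕ) (t : Environment) : ℝ :=
  ∑ p ∈ (Finset.Icc (0 : ℤ) 1 ×ˢ Ix CR k).filter (fun p : ℤ × ℤ => Ad CR k ((p.2 - p.1) * len k)),
    |blk CR k 0 (p.1 * len k) ((p.2 - p.1) * len k) t - tau G CR k ((p.2 - p.1) * len k)|

/-- second sum of the deviations -/
noncomputable def Z2 (G : Measure ℝ) (CR k : ℕ) (t : Environment) : ℝ :=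
  ∑ p ∈ Ix CR k ×ˢ Ix CR k, |mid CR k p.1 p.2 t - ∫ t', mid CR k p.1 p.2 t' ∂(iidLaw G)|

open Classical in
/-- third sum of the deviations -/
noncomputable def Z3 (G : Measure ℝ) (CR k : ℕ) (D : ℤ) (t : Environment) : ℝ :=
  ∑ p ∈ (Ix CR k ×ˢ Finset.Icc (0 : ℤ) 1).filter
      (fun p : ℤ × ℤ => Ad CR k (D + (p.2 - p.1) * len k)),
    |blk CR k (2 ^ k) (p.1 * len k) (D + (p.2 - p.1) * len k) t -
      tau G CR k (D + (p.2 - p.1) * len k)|

lemma card_Ix {CR k : ℕ} (hCR : 1 ≤ CR) : ((Ix CR k).card : ℝ) ≤ 6 * CR * th ^ k := by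
  unfold Ix
  rw [Int.card_Icc]
  have h1 : ((CR * rat k : ℤ) + 1 - -(CR * rat k : ℤ)).toNat = 2 * (CR * rat k) + 1 := by
    have : (0 : ℤ) ≤ CR * rat k := by positivity
    zify
    rw [Int.toNat_of_nonneg (by linarith)]
    ring
  rw [h1]
  push_cast
  have h2 : (1 : ℝ) ≤ CR * rat k := by
    have : 1 ≤ CR * rat k := Nat.one_le_iff_ne_zero.2 (by
      have : 1 ≤ rat k := Nat.one_le_two_pow
      positivity)
    exact_mod_cast this
  have h3 := rat_le_th k
  have h4 : (CR : ℝ) * rat k ≤ CR * (2 * th ^ k) := by gcongr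
  nlinarith

section
variable {al be s a : ℝ}

lemma integrable_mid (hG : DEV G) {CR : ℕ} (hCR : 1 ≤ CR) :
    ∃ (C : ℝ) (k0 : ℕ), ∀ k : ℕ, k0 ≤ k → ∀ i1 i2 : ℤ, i1 ∈ Ix CR k → i2 ∈ Ix CR k →
      Integrable (mid CR k i1 i2) (iidLaw G) ∧
      ∫ t, |mid CR k i1 i2 t - ∫ t', mid CR k i1 i2 t' ∂(iidLaw G)| ∂(iidLaw G) ≤
        C * th ^ (10 * k) := by
  obtain ⟨C, k0, h⟩ := hG (2 * CR)
  refine ⟨C, k0, fun k hk i1 i2 hi1 hi2 => ?_⟩
  have h1 : (len k : ℤ) ≤ 2 ^ k := by exact_mod_cast len_le k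
  have h2 : (0 : ℤ) < 2 ^ k := by positivity
  have h3 : (2 : ℤ) ^ k ≤ CR * 2 ^ k := le_mul_of_one_le_left h2.le (by exact_mod_cast hCR)
  have hpow : (2 : ℤ) ^ (k + 1) = 2 * 2 ^ k := by rw [pow_succ]; ring
  have hlp : (0 : ℤ) < len k := by exact_mod_cast len_pos k
  have hb : ∀ i : ℤ, i ∈ Ix CR k → -((CR : ℤ) * 2 ^ k) ≤ i * len k ∧ i * len k ≤ CR * 2 ^ k := by
    intro i hi
    unfold Ix at hi
    rw [Finset.mem_Icc] at hi
    rw [two_pow_int k]
    constructor
    · calc -((CR : ℤ) * (len k * rat k)) = (-(CR * rat k : ℤ)) * len k := by ring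
        _ ≤ i * len k := mul_le_mul_of_nonneg_right hi.1 hlp.le
    · calc i * len k ≤ (CR * rat k : ℤ) * len k := mul_le_mul_of_nonneg_right hi.2 hlp.le
        _ = _ := by ring
  obtain ⟨b1, b2⟩ := hb i1 hi1
  obtain ⟨b3, b4⟩ := hb i2 hi2
  have hx : (CR : ℤ) * 2 ^ (k + 1) = 2 * (CR * 2 ^ k) := by rw [hpow]; ring
  have := h k hk 0 (2 ^ (k + 1)) 0 (CR * 2 ^ (k + 1)) (2 ^ k) (2 ^ k) (i1 * len k) (i2 * len k)
    (len k) (len k) (by omega) (by push_cast; nlinarith) (by push_cast; nlinarith)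
    (by omega) (by omega) (by omega) (by omega)
    (by omega) (by omega) (by omega) (by omega) le_rfl le_rfl
  rw [rpow58] at this
  unfold mid
  exact this

lemma Z_bounds (hG : DEV G) {CR : ℕ} (hCR : 1 ≤ CR) :
    ∃ (C : ℝ) (k0 : ℕ), 0 ≤ C ∧ ∀ k : ℕ, k0 ≤ k → ∀ D : ℤ,
      Integrable (fun t => Z1 G CR k t + Z2 G CR k t + Z3 G CR k D t) (iidLaw G) ∧
      ∫ t, (Z1 G CR k t + Z2 G CR k t + Z3 G CR k D t) ∂(iidLaw G) ≤ C * th ^ (15 * k) := by
  classical
  obtain ⟨C1, k1, h1⟩ := dev_blk hG hCR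
  obtain ⟨C2, k2, h2⟩ := integrable_mid hG hCR
  set C := |C1| + |C2| with hC
  have hC1 : C1 ≤ C := by have := le_abs_self C1; have := abs_nonneg C2; linarith
  have hC2 : C2 ≤ C := by have := le_abs_self C2; have := abs_nonneg C1; linarith
  have hC0 : 0 ≤ C := by positivity
  have hth := one_lt_th
  have hthp := th_pos
  refine ⟨108 * CR ^ 2 * C, max k1 k2, by positivity, fun k hk D => ?_⟩
  have hk1 : k1 ≤ k := (le_max_left _ _).trans hk
  have hk2 : k2 ≤ k := (le_max_right _ _).trans hk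
  have hq : 0 ≤ C * th ^ (10 * k) := by positivity
  have hcard := card_Ix (k := k) hCR
  have hCRr : (1 : ℝ) ≤ CR := by exact_mod_cast hCR
  have hth1 : (1 : ℝ) ≤ th ^ k := one_le_pow₀ hth.le
  have hc2 : (Finset.Icc (0 : ℤ) 1).card = 2 := by decide
  have A1 : Integrable (Z1 G CR k) (iidLaw G) ∧
      ∫ t, Z1 G CR k t ∂(iidLaw G) ≤ (2 * (6 * CR * th ^ k)) * (C * th ^ (10 * k)) := by
    unfold Z1
    have hint : ∀ p ∈ (Finset.Icc (0 : ℤ) 1 ×ˢ Ix CR k).filter
        (fun p : ℤ × ℤ => Ad CR k ((p.2 - p.1) * len k)),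
        Integrable (fun t => |blk CR k 0 (p.1 * len k) ((p.2 - p.1) * len k) t -
          tau G CR k ((p.2 - p.1) * len k)|) (iidLaw G) := by
      intro p hp
      rw [Finset.mem_filter] at hp
      exact ((h1 k hk1 0 (p.1 * len k) _ hp.2).1.sub (integrable_const _)).abs
    refine ⟨integrable_finsetSum _ hint, ?_⟩
    rw [integral_finsetSum _ hint]
    calc _ ≤ ∑ _p ∈ (Finset.Icc (0 : ℤ) 1 ×ˢ Ix CR k).filter
          (fun p : ℤ × ℤ => Ad CR k ((p.2 - p.1) * len k)), C * th ^ (10 * k) := by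
          refine Finset.sum_le_sum fun p hp => ?_
          rw [Finset.mem_filter] at hp
          exact (h1 k hk1 0 (p.1 * len k) _ hp.2).2.trans (by gcongr)
      _ ≤ ∑ _p ∈ Finset.Icc (0 : ℤ) 1 ×ˢ Ix CR k, C * th ^ (10 * k) :=
          Finset.sum_le_sum_of_subset_of_nonneg (Finset.filter_subset _ _) fun _ _ _ => hq
      _ = (2 * ((Ix CR k).card : ℝ)) * (C * th ^ (10 * k)) := by
          rw [Finset.sum_const, Finset.card_product, nsmul_eq_mul, hc2]
          push_cast
          ring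
      _ ≤ _ := by gcongr
  have A2 : Integrable (Z2 G CR k) (iidLaw G) ∧
      ∫ t, Z2 G CR k t ∂(iidLaw G) ≤ ((6 * CR * th ^ k) * (6 * CR * th ^ k)) *
        (C * th ^ (10 * k)) := by
    unfold Z2
    have hint : ∀ p ∈ Ix CR k ×ˢ Ix CR k,
        Integrable (fun t => |mid CR k p.1 p.2 t - ∫ t', mid CR k p.1 p.2 t' ∂(iidLaw G)|)
          (iidLaw G) := by
      intro p hp
      rw [Finset.mem_product] at hp
      exact ((h2 k hk2 p.1 p.2 hp.1 hp.2).1.sub (integrable_const _)).abs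
    refine ⟨integrable_finsetSum _ hint, ?_⟩
    rw [integral_finsetSum _ hint]
    calc _ ≤ ∑ _p ∈ Ix CR k ×ˢ Ix CR k, C * th ^ (10 * k) := by
          refine Finset.sum_le_sum fun p hp => ?_
          rw [Finset.mem_product] at hp
          exact (h2 k hk2 p.1 p.2 hp.1 hp.2).2.trans (by gcongr)
      _ = (((Ix CR k).card : ℝ) * ((Ix CR k).card : ℝ)) * (C * th ^ (10 * k)) := by
          rw [Finset.sum_const, Finset.card_product, nsmul_eq_mul]
          push_cast
          ring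
      _ ≤ _ := by gcongr
  have A3 : Integrable (Z3 G CR k D) (iidLaw G) ∧
      ∫ t, Z3 G CR k D t ∂(iidLaw G) ≤ (2 * (6 * CR * th ^ k)) * (C * th ^ (10 * k)) := by
    unfold Z3
    have hint : ∀ p ∈ (Ix CR k ×ˢ Finset.Icc (0 : ℤ) 1).filter
      (fun p : ℤ × ℤ => Ad CR k (D + (p.2 - p.1) * len k)),
        Integrable (fun t => |blk CR k (2 ^ k) (p.1 * len k) (D + (p.2 - p.1) * len k) t -
          tau G CR k (D + (p.2 - p.1) * len k)|) (iidLaw G) := by
      intro p hp
      rw [Finset.mem_filter] at hp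
      exact ((h1 k hk1 (2 ^ k) (p.1 * len k) _ hp.2).1.sub (integrable_const _)).abs
    refine ⟨integrable_finsetSum _ hint, ?_⟩
    rw [integral_finsetSum _ hint]
    calc _ ≤ ∑ _p ∈ (Ix CR k ×ˢ Finset.Icc (0 : ℤ) 1).filter
            (fun p : ℤ × ℤ => Ad CR k (D + (p.2 - p.1) * len k)), C * th ^ (10 * k) := by
          refine Finset.sum_le_sum fun p hp => ?_
          rw [Finset.mem_filter] at hp
          exact (h1 k hk1 (2 ^ k) (p.1 * len k) _ hp.2).2.trans (by gcongr)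
      _ ≤ ∑ _p ∈ Ix CR k ×ˢ Finset.Icc (0 : ℤ) 1, C * th ^ (10 * k) :=
          Finset.sum_le_sum_of_subset_of_nonneg (Finset.filter_subset _ _) fun _ _ _ => hq
      _ = (2 * ((Ix CR k).card : ℝ)) * (C * th ^ (10 * k)) := by
          rw [Finset.sum_const, Finset.card_product, nsmul_eq_mul, hc2]
          push_cast
          ring
      _ ≤ _ := by gcongr
  refine ⟨(A1.1.add A2.1).add A3.1, ?_⟩
  have e : ∫ t, (Z1 G CR k t + Z2 G CR k t + Z3 G CR k D t) ∂(iidLaw G) =
      ∫ t, Z1 G CR k t ∂(iidLaw G) + ∫ t, Z2 G CR k t ∂(iidLaw G) +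
      ∫ t, Z3 G CR k D t ∂(iidLaw G) := by
    rw [integral_add (f := fun t => Z1 G CR k t + Z2 G CR k t) (A1.1.add A2.1) A3.1,
      integral_add A1.1 A2.1]
  rw [e]
  have hx : (6 * (CR : ℝ) * th ^ k) ≥ 6 := by nlinarith
  have step : (2 * (6 * CR * th ^ k)) * (C * th ^ (10 * k)) ≤
      ((6 * CR * th ^ k) * (6 * CR * th ^ k)) * (C * th ^ (10 * k)) := by
    apply mul_le_mul_of_nonneg_right _ hq
    nlinarith
  have fin : 3 * (((6 * CR * th ^ k) * (6 * CR * th ^ k)) * (C * th ^ (10 * k))) ≤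
      108 * CR ^ 2 * C * th ^ (15 * k) := by
    have : 3 * (((6 * CR * th ^ k) * (6 * CR * th ^ k)) * (C * th ^ (10 * k))) =
        108 * CR ^ 2 * C * th ^ (12 * k) := by ring
    rw [this]
    have : th ^ (12 * k) ≤ th ^ (15 * k) := pow_le_pow_right₀ hth.le (by omega)
    gcongr
  linarith [A1.2, A2.2, A3.2]

/-- from a point to the last column -/
lemma TE_exit {t : Environment} (ht : Nn t) {a b y0 R x y : ℤ} {n : ℕ} (hx : a ≤ x)
    (hn : x + n + 3 = b) (hy : y0 - R + 3 ≤ y) (hy' : y + 3 ≤ y0 + R) :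
    TE (Box a b y0 R) {(x, y)} (seg b (y - 1) 3) t ≤ rowS x y n t + sX (x + n) y t := by
  subst hn
  have h1 := TE_row_le (t := t) ht hy hy' x n hx (b := x + n + 3) (by omega)
  have h2 : TE (Box a (x + n + 3) y0 R) {(x + n, y)} (seg (x + n + 3) (y - 1) 3) t ≤
      sX (x + n) y t := by
    unfold sX
    exact TE_mono (Box_mono (by omega) le_rfl (by omega) (by omega)) subset_rfl subset_rfl
        (conn_sX (x + n) y) t
  have h3 := TE_trans (E := Box a (x + n + 3) y0 R) (A := {(x, y)})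
    (C := seg (x + n + 3) (y - 1) 3) (b := (x + n, y)) ht
    (conn_row hx (by omega) (by omega) (by omega) (by omega))
    ((conn_sX (x + n) y).mono (by
      exact_mod_cast Box_mono (by omega) le_rfl (by omega) (by omega)) subset_rfl subset_rfl)
  unfold rowS
  linarith

lemma tau_zero_le (H : Hyp G al be s a) {CR k : ℕ} (hCR : 1 ≤ CR) (hk : 64 ≤ k) :
    tau G CR k 0 ≤ cS G * 2 ^ k := by
  have hr := rat_ge hk
  have hlp : 1 ≤ len k := len_pos k
  have h8 : 8 * (len k : ℤ) ≤ 2 ^ k := by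
    rw [two_pow_int k, mul_comm]
    exact mul_le_mul_of_nonneg_left (by exact_mod_cast hr) (by positivity)
  have hl3 : 4 ≤ len k := by
    unfold len
    calc 4 = 2 ^ 2 := by norm_num
      _ ≤ _ := Nat.pow_le_pow_right (by norm_num) (by omega)
  have h2 : (0 : ℤ) < 2 ^ k := by positivity
  have h3 : (2 : ℤ) ^ k ≤ CR * 2 ^ k := le_mul_of_one_le_left h2.le (by exact_mod_cast hCR)
  obtain ⟨n, hn⟩ : ∃ n : ℕ, (0 : ℤ) + n + 3 = 2 ^ k := ⟨(2 ^ k - 3 : ℤ).toNat, by omega⟩
  have hle : ∀ᵐ t ∂(iidLaw G), blk CR k 0 0 0 t ≤ rowS 0 1 n t + sX (0 + n) 1 t := by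
    filter_upwards [ae_Nn H.h0] with t ht
    have h4 := TE_exit (a := 0) (b := 2 ^ k) (y0 := 0) (R := CR * 2 ^ k) (x := 0) (y := 1)
      (n := n) ht le_rfl hn (by omega) (by omega)
    refine le_trans ?_ h4
    unfold blk
    simp only [zero_add]
    refine TE_mono (Finset.Subset.refl _) ?_ ?_ ?_ t
    · intro p hp
      rw [Set.mem_singleton_iff] at hp
      subst hp
      exact ⟨rfl, by simp only; omega, by simp only; omega⟩
    · intro p hp
      rw [mem_seg] at hp ⊢
      push_cast at hp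
      omega
    · refine conn_box_sets (p := (0, 1)) (q := (2 ^ k, 1)) rfl ?_ (by simp) (by simp only; omega)
        (by simp only; omega) (by simp) (by omega) (by simp only; omega) (by simp only; omega)
        (by simp only; omega) (by simp only; omega)
      exact ⟨rfl, by simp only; omega, by simp only; omega⟩
  have hnn : 0 ≤ᵐ[iidLaw G] blk CR k 0 0 0 := by
    filter_upwards [ae_Nn H.h0] with t ht
    exact TE_nonneg ht
  have h5 := integral_mono_of_nonneg hnn
    ((integrable_rowS H 0 1 n).add (integrable_sX H (0 + n) 1)) hle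
  have h6 : ∫ t, (rowS 0 1 n + sX (0 + n) 1) t ∂(iidLaw G) =
      ∫ t, rowS 0 1 n t ∂(iidLaw G) + ∫ t, sX (0 + n) 1 t ∂(iidLaw G) :=
    integral_add (integrable_rowS H 0 1 n) (integrable_sX H (0 + n) 1)
  have h7 := integral_rowS_le H 0 1 n
  have h8 := integral_sX_le (G := G) H.h0 (0 + n) 1
  have h9 : ((n : ℕ) : ℝ) + 3 = 2 ^ k := by
    have : ((n : ℤ) + 3) = 2 ^ k := by omega
    exact_mod_cast this
  have h10 := cS_nonneg (G := G) H.h0
  have h11 : tau G CR k 0 ≤ _ := h5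
  rw [h6] at h11
  rw [← h9]
  nlinarith

set_option maxHeartbeats 4000000 in
lemma super_core (H : Hyp G al be s a) :
    ∃ CR0 : ℕ, ∀ CR : ℕ, CR0 ≤ CR → ∃ (C : ℝ) (k0 : ℕ), 0 ≤ C ∧ ∀ k : ℕ, k0 ≤ k → ∀ h : ℝ,
      LB G al be CR k h → LB G al be CR (k + 1) (2 * h - C * th ^ (15 * k)) := by
  classical
  obtain ⟨c1, hc1, hpei⟩ := H.pei
  have hcS := cS_nonneg (G := G) H.h0
  have ha := H.ha
  set Cup : ℝ := cS G + |al| with hCup
  have hCup0 : 0 ≤ Cup := by positivity
  set D' : ℝ := 2 * |s| + (2 * Cup + 4 * cS G) / a with hD'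
  have hD'0 : 0 ≤ D' := by positivity
  set K : ℝ := 2 * |al| + |be| * D' + 2 * Cup with hK
  have hK0 : 0 ≤ K := by positivity
  obtain ⟨CR0, hCR0⟩ := exists_nat_ge (3 + K / c1)
  refine ⟨CR0, fun CR hCRge => ?_⟩
  have hCRr : 3 + K / c1 ≤ CR := hCR0.trans (by exact_mod_cast hCRge)
  have hCR3 : 3 ≤ CR := by
    have : (3 : ℝ) ≤ CR := by
      have : 0 ≤ K / c1 := by positivity
      linarith
    exact_mod_cast this
  have hCRK : K ≤ c1 * (CR - 2) := by
    have : K / c1 ≤ CR - 2 := by linarith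
    rw [div_le_iff₀ hc1] at this
    linarith
  have hCR1 : 1 ≤ CR := by omega
  obtain ⟨C1, k1, h1⟩ := dev_blk (G := G) H.dev hCR1
  obtain ⟨C2, k2, h2⟩ := integrable_mid (G := G) H.dev hCR1
  obtain ⟨C3, k3, hC3, h3⟩ := Z_bounds (G := G) H.dev hCR1
  have hth := one_lt_th
  have hthp := th_pos
  refine ⟨C3 + (|be| + 2 * cS G) + 4 * K, max (max k1 k2) (max k3 64), by positivity,
    fun k hk h hLB D hD => ?_⟩
  have hk1 : k1 ≤ k := ((le_max_left _ _).trans (le_max_left _ _)).trans hk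
  have hk2 : k2 ≤ k := ((le_max_right _ _).trans (le_max_left _ _)).trans hk
  have hk3 : k3 ≤ k := ((le_max_left _ _).trans (le_max_right _ _)).trans hk
  have hk64 : 64 ≤ k := ((le_max_right _ _).trans (le_max_right _ _)).trans hk
  obtain ⟨hZi, hZ⟩ := h3 k hk3 D
  -- bound of `h`
  have hpow2 : (0 : ℝ) < 2 ^ k := by positivity
  have h2z : (0 : ℤ) < 2 ^ k := by positivity
  have hhub : h ≤ Cup * 2 ^ k := by
    have e0 := hLB 0 (by
      rw [abs_zero, zero_add]
      exact le_mul_of_one_le_left h2z.le (by exact_mod_cast hCR1))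
    have e1 := tau_zero_le H hCR1 hk64
    have e2 : -(|al| * 2 ^ k) ≤ al * 2 ^ k := by
      have := neg_abs_le al
      nlinarith
    rw [hCup]
    push_cast at e0
    nlinarith
  have hl15 : (len k : ℝ) ≤ th ^ (15 * k) := len_le_th k
  have hth15 : (1 : ℝ) ≤ th ^ (15 * k) := one_le_pow₀ hth.le
  have hD1 := h1 (k + 1) (by omega) 0 0 D hD
  have hD0 : |D| ≤ CR * 2 ^ (k + 1) := by
    have : (0 : ℤ) < 2 ^ (k + 1) := by positivity
    linarith
  have hll : (len (k + 1) : ℝ) ≤ 2 * len k := by exact_mod_cast len_succ_le k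
  have hl2k : (len k : ℝ) ≤ 2 ^ k := by exact_mod_cast len_le k
  have hl0 : (0 : ℝ) ≤ len k := by positivity
  rcases le_or_gt |(D : ℝ)| (D' * 2 ^ k) with hDD | hDD
  · -- main case
    set R0 : ℝ := 2 * al * 2 ^ k + be * D + 2 * h - len k * (|be| + 2 * cS G) with hR0
    have hR0K : R0 ≤ K * 2 ^ k := by
      have e1 : 2 * al * 2 ^ k ≤ 2 * |al| * 2 ^ k := by
        have := le_abs_self al
        nlinarith
      have e2 : be * D ≤ |be| * (D' * 2 ^ k) := by
        calc be * D ≤ |be * D| := le_abs_self _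
          _ = |be| * |(D : ℝ)| := abs_mul _ _
          _ ≤ _ := by gcongr
      have e3 : 0 ≤ (len k : ℝ) * (|be| + 2 * cS G) := by positivity
      rw [hR0, hK]
      nlinarith
    set B' := toMeasurable (iidLaw G) (Bd c1 k) with hB'
    have hB'm : MeasurableSet B' := measurableSet_toMeasurable _ _
    have hB'p : (iidLaw G).real B' ≤ 4 / 2 ^ k := by
      rw [measureReal_def, hB', measure_toMeasurable]
      exact ENNReal.toReal_le_of_le_ofReal (by positivity) (prob_Bd hpei k)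
    have hpath : ∀ᵐ t ∂(iidLaw G), R0 - (Z1 G CR k t + Z2 G CR k t + Z3 G CR k D t) -
        K * 2 ^ k * B'.indicator (fun _ => (1 : ℝ)) t ≤ blk CR (k + 1) 0 0 D t := by
      filter_upwards [ae_Nn H.h0] with t ht
      have hZ1 : 0 ≤ Z1 G CR k t := Finset.sum_nonneg fun _ _ => abs_nonneg _
      have hZ2 : 0 ≤ Z2 G CR k t := Finset.sum_nonneg fun _ _ => abs_nonneg _
      have hZ3 : 0 ≤ Z3 G CR k D t := Finset.sum_nonneg fun _ _ => abs_nonneg _
      have hind : 0 ≤ B'.indicator (fun _ => (1 : ℝ)) t :=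
        Set.indicator_nonneg (fun _ _ => zero_le_one) t
      have hcn := conn_blk (CR := CR) (k := k + 1) (x0 := 0) (y0 := 0) hD0
      obtain ⟨p, hp, q, hq, w, hwp, hwe, hwc⟩ := exists_walk_TE ht hcn
      simp only [zero_add] at hp hq hwe
      have hwc' : walkCost t w ≤ blk CR (k + 1) 0 0 D t := hwc
      refine le_trans ?_ hwc'
      by_cases hlen : (w.length : ℤ) + 2 * 2 ^ k ≤ CR * 2 ^ k
      · obtain ⟨i0, i1, i2, j, hi0, hi1, hi2, hj, had1, had2, hsum⟩ :=
          path_lower hk64 ht hp hq w hwe hlen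
        have hm1 : i1 ∈ Ix CR k := by unfold Ix; rw [Finset.mem_Icc]; exact hi1
        have hm2 : i2 ∈ Ix CR k := by unfold Ix; rw [Finset.mem_Icc]; exact hi2
        have f1 : |blk CR k 0 (i0 * len k) ((i1 - i0) * len k) t -
            tau G CR k ((i1 - i0) * len k)| ≤ Z1 G CR k t := by
          unfold Z1
          refine Finset.single_le_sum (f := fun p : ℤ × ℤ =>
            |blk CR k 0 (p.1 * len k) ((p.2 - p.1) * len k) t - tau G CR k ((p.2 - p.1) * len k)|)
            (fun _ _ => abs_nonneg _) (a := (i0, i1)) ?_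
          rw [Finset.mem_filter, Finset.mem_product]
          exact ⟨⟨Finset.mem_Icc.2 hi0, hm1⟩, had1⟩
        have f2 : |mid CR k i1 i2 t - ∫ t', mid CR k i1 i2 t' ∂(iidLaw G)| ≤ Z2 G CR k t := by
          unfold Z2
          refine Finset.single_le_sum (f := fun p : ℤ × ℤ =>
            |mid CR k p.1 p.2 t - ∫ t', mid CR k p.1 p.2 t' ∂(iidLaw G)|)
            (fun _ _ => abs_nonneg _) (a := (i1, i2)) ?_
          rw [Finset.mem_product]
          exact ⟨hm1, hm2⟩
        have f3 : |blk CR k (2 ^ k) (i2 * len k) (D + (j - i2) * len k) t -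
            tau G CR k (D + (j - i2) * len k)| ≤ Z3 G CR k D t := by
          unfold Z3
          refine Finset.single_le_sum (f := fun p : ℤ × ℤ =>
            |blk CR k (2 ^ k) (p.1 * len k) (D + (p.2 - p.1) * len k) t -
              tau G CR k (D + (p.2 - p.1) * len k)|)
            (fun _ _ => abs_nonneg _) (a := (i2, j)) ?_
          rw [Finset.mem_filter, Finset.mem_product]
          exact ⟨⟨hm2, Finset.mem_Icc.2 hj⟩, had2⟩
        have g1 := hLB _ had1
        have g3 := hLB _ had2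
        have hmid := h2 k hk2 i1 i2 hm1 hm2
        have g2 := mean_lower H (E := Box 0 (2 ^ (k + 1)) 0 (CR * 2 ^ (k + 1))) (x := 2 ^ k)
          (y := i1 * len k) (x' := 2 ^ k) (y' := i2 * len k) (l := len k) (l' := len k) (by
            have hb : ∀ i : ℤ, i ∈ Ix CR k → -((CR : ℤ) * 2 ^ k) ≤ i * len k ∧
                i * len k ≤ CR * 2 ^ k := by
              intro i hi
              unfold Ix at hi
              rw [Finset.mem_Icc] at hi
              rw [two_pow_int k]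
              constructor
              · calc -((CR : ℤ) * (len k * rat k)) = (-(CR * rat k : ℤ)) * len k := by ring
                  _ ≤ i * len k := mul_le_mul_of_nonneg_right hi.1 (by positivity)
              · calc i * len k ≤ (CR * rat k : ℤ) * len k :=
                      mul_le_mul_of_nonneg_right hi.2 (by positivity)
                  _ = _ := by ring
            obtain ⟨b1, b2⟩ := hb i1 hm1
            obtain ⟨b3, b4⟩ := hb i2 hm2
            have hpow : (2 : ℤ) ^ (k + 1) = 2 * 2 ^ k := by rw [pow_succ]; ring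
            have hx : (CR : ℤ) * 2 ^ (k + 1) = 2 * (CR * 2 ^ k) := by rw [hpow]; ring
            have hy : (0 : ℤ) ≤ CR * 2 ^ k := by positivity
            have hlp : 1 ≤ len k := len_pos k
            exact conn_box_sets (p := (2 ^ k, i1 * len k)) (q := (2 ^ k, i2 * len k))
              ⟨rfl, le_rfl, by simp only; omega⟩ ⟨rfl, le_rfl, by simp only; omega⟩
              (by simp only; omega) (by simp only; omega) (by simp only; omega)
              (by simp only; omega) (by omega) (by simp only; omega) (by simp only; omega)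
              (by simp only; omega) (by simp only; omega)) hmid.1
        have g2' : be * ((i2 - i1) * len k) - 2 * len k * cS G ≤
            ∫ t', mid CR k i1 i2 t' ∂(iidLaw G) := by
          refine le_trans ?_ g2
          push_cast
          have : 0 ≤ a * |((i2 : ℝ) * len k - i1 * len k) - s * (2 ^ k - 2 ^ k)| := by positivity
          nlinarith
        have hsum' : blk CR k 0 (i0 * len k) ((i1 - i0) * len k) t + mid CR k i1 i2 t +
          blk CR k (2 ^ k) (i2 * len k) (D + (j - i2) * len k) t ≤ walkCost t w := hsum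
        rw [abs_le] at f1 f2 f3
        have hij : -(|be| * len k) ≤ be * ((j - i0) * len k) := by
          have e1 : |(j : ℝ) - i0| ≤ 1 := by
            have : |j - i0| ≤ 1 := by rw [abs_le]; omega
            exact_mod_cast this
          have e2 : |be * (((j : ℝ) - i0) * len k)| ≤ |be| * len k := by
            rw [abs_mul, abs_mul, abs_of_nonneg hl0]
            have : |(j : ℝ) - i0| * len k ≤ 1 * len k := by gcongr
            calc |be| * (|(j : ℝ) - i0| * len k) ≤ |be| * (1 * len k) := by gcongr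
              _ = _ := by ring
          exact (abs_le.1 e2).1
        push_cast at g1 g3
        have hK2 : 0 ≤ K * 2 ^ k * B'.indicator (fun _ => (1 : ℝ)) t := by positivity
        rw [hR0]
        linarith
      · have hlen' : (CR : ℝ) * 2 ^ k < w.length + 2 * 2 ^ k := by
          have : (CR : ℤ) * 2 ^ k < w.length + 2 * 2 ^ k := not_le.1 hlen
          exact_mod_cast this
        by_cases hbad : t ∈ Bd c1 k
        · have : t ∈ B' := subset_toMeasurable _ _ hbad
          rw [Set.indicator_of_mem this]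
          have := walkCost_nonneg ht w
          linarith
        · have hlong : c1 * w.length ≤ walkCost t w := by
            by_contra hcon
            apply hbad
            unfold Bd
            obtain ⟨hp1, hp2, hp3⟩ := hp
            have hl2 : (len (k + 1) : ℤ) ≤ 2 ^ (k + 1) := by exact_mod_cast len_le (k + 1)
            rw [Set.mem_iUnion₂]
            refine ⟨p.2.toNat, ?_, ?_⟩
            · rw [Finset.mem_range]
              zify
              omega
            · have hpe : ((0 : ℤ), ((p.2.toNat : ℕ) : ℤ)) = p :=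
                Prod.ext hp1.symm (Int.toNat_of_nonneg hp2)
              rw [hpe]
              refine ⟨q, w, hwp, ?_, not_le.1 hcon⟩
              have e3 : (3 : ℝ) * 2 ^ k ≤ CR * 2 ^ k := by
                have : (3 : ℝ) ≤ CR := by exact_mod_cast hCR3
                gcongr
              have : (2 : ℝ) ^ k ≤ w.length := by linarith
              exact_mod_cast this
          have e4 : K * 2 ^ k ≤ c1 * w.length := by
            calc K * 2 ^ k ≤ c1 * (CR - 2) * 2 ^ k := by gcongr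
              _ = c1 * ((CR - 2) * 2 ^ k) := by ring
              _ ≤ c1 * w.length := by
                apply mul_le_mul_of_nonneg_left _ hc1.le
                linarith
          have hK2 : 0 ≤ K * 2 ^ k * B'.indicator (fun _ => (1 : ℝ)) t := by positivity
          linarith
    have hind : Integrable (B'.indicator (fun _ => (1 : ℝ))) (iidLaw G) :=
      (integrable_const 1).indicator hB'm
    have hI1 : Integrable (fun t => R0 - (Z1 G CR k t + Z2 G CR k t + Z3 G CR k D t))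
        (iidLaw G) := (integrable_const R0).sub hZi
    have hI2 : Integrable (fun t => R0 - (Z1 G CR k t + Z2 G CR k t + Z3 G CR k D t) -
        K * 2 ^ k * B'.indicator (fun _ => (1 : ℝ)) t) (iidLaw G) :=
      hI1.sub (hind.const_mul (K * 2 ^ k))
    have hint := integral_mono_ae hI2 hD1.1 hpath
    have e1 : ∫ t, (R0 - (Z1 G CR k t + Z2 G CR k t + Z3 G CR k D t) -
        K * 2 ^ k * B'.indicator (fun _ => (1 : ℝ)) t) ∂(iidLaw G) =
        R0 - (∫ t, (Z1 G CR k t + Z2 G CR k t + Z3 G CR k D t) ∂(iidLaw G)) -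
          K * 2 ^ k * (iidLaw G).real B' := by
      rw [integral_sub hI1 (hind.const_mul (K * 2 ^ k)),
        integral_sub (integrable_const R0) hZi, integral_const_mul]
      have : ∫ t, B'.indicator (fun _ => (1 : ℝ)) t ∂(iidLaw G) = (iidLaw G).real B' := by
        rw [integral_indicator hB'm]
        simp
      rw [this]
      simp
    rw [e1] at hint
    have e2 : ∫ t, blk CR (k + 1) 0 0 D t ∂(iidLaw G) = tau G CR (k + 1) D := rfl
    rw [e2] at hint
    have e3 : K * 2 ^ k * (iidLaw G).real B' ≤ 4 * K := by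
      calc K * 2 ^ k * (iidLaw G).real B' ≤ K * 2 ^ k * (4 / 2 ^ k) := by gcongr
        _ = 4 * K := by field_simp
    have e4 : (len k : ℝ) * (|be| + 2 * cS G) ≤ (|be| + 2 * cS G) * th ^ (15 * k) := by
      rw [mul_comm]
      gcongr
    have e5 : 4 * K ≤ 4 * K * th ^ (15 * k) := le_mul_of_one_le_right (by positivity) hth15
    have e6 : (2 : ℝ) ^ (k + 1) = 2 * 2 ^ k := by rw [pow_succ]; ring
    rw [e6]
    rw [hR0] at hint
    linarith
  · -- far targets
    have g := mean_lower H (conn_blk (CR := CR) (k := k + 1) (x0 := 0) (y0 := 0) hD0) hD1.1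
    have e2 : ∫ t, TE (Box 0 (0 + 2 ^ (k + 1)) 0 (CR * 2 ^ (k + 1))) (seg 0 0 (len (k + 1)))
      (seg (0 + 2 ^ (k + 1)) (0 + D) (len (k + 1))) t ∂(iidLaw G) = tau G CR (k + 1) D := rfl
    rw [e2] at g
    refine le_trans ?_ g
    push_cast
    have e6 : (2 : ℝ) ^ (k + 1) = 2 * 2 ^ k := by rw [pow_succ]; ring
    rw [e6]
    have e7 : |(D : ℝ)| - 2 * |s| * 2 ^ k ≤ |(0 + D - 0) - s * (0 + 2 * 2 ^ k - 0)| := by
      have : |(D : ℝ)| ≤ |(0 + D - 0) - s * (0 + 2 * 2 ^ k - 0)| + |s * (2 * 2 ^ k)| := by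
        calc |(D : ℝ)| = |((0 + D - 0) - s * (0 + 2 * 2 ^ k - 0)) + s * (2 * 2 ^ k)| := by
              congr 1; ring
          _ ≤ _ := abs_add_le _ _
      rw [abs_mul, abs_of_pos (by positivity : (0 : ℝ) < 2 * 2 ^ k)] at this
      linarith
    have e8 : (2 * Cup + 4 * cS G) * 2 ^ k ≤ a * |(0 + D - 0) - s * (0 + 2 * 2 ^ k - 0)| := by
      have : (2 * Cup + 4 * cS G) / a * 2 ^ k ≤ |(0 + D - 0) - s * (0 + 2 * 2 ^ k - 0)| := by
        refine le_trans ?_ e7
        rw [hD'] at hDD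
        nlinarith
      calc (2 * Cup + 4 * cS G) * 2 ^ k = a * ((2 * Cup + 4 * cS G) / a * 2 ^ k) := by
            field_simp
        _ ≤ _ := by gcongr
    have e9 : ((len (k + 1) : ℝ) + len (k + 1)) * cS G ≤ 4 * cS G * 2 ^ k := by
      have : (len (k + 1) : ℝ) + len (k + 1) ≤ 4 * 2 ^ k := by linarith
      calc ((len (k + 1) : ℝ) + len (k + 1)) * cS G ≤ (4 * 2 ^ k) * cS G := by gcongr
        _ = _ := by ring
    have e10 : 0 ≤ (C3 + (|be| + 2 * cS G) + 4 * K) * th ^ (15 * k) := by positivity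
    nlinarith

end

end Crest.Agent.R151.U
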