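import Crest.Agent.R151.U750d

/-!
# R151/U750e — the limit of the block means and the rate (owner helper750)
-/

set_option autoImplicit false
set_option linter.unusedSectionVars false

open MeasureTheory Filter
open scoped Topology
open Crest.ProbabilityR.FirstPassage
open Crest.Agent.R151.K

namespace Crest.Agent.R151.U

attribute [local irreducible] Box TE

variable {G : Measure ℝ} [IsProbabilityMeasure G] {al be s a : ℝ}

/-- time to a point in a large box -/
noncomputable def big (m : ℕ) (M : ℤ) (r : ℕ) (x y : ℤ) (t : Environment) : ℝ :=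
  TE (Box (x - r) (x + r) y r) {(x, y)} {(x + m, y + M)} t

lemma conn_big {m r : ℕ} {M : ℤ} (h : (m : ℤ) + |M| + 4 ≤ r) (x y : ℤ) :
    Conn (↑(Box (x - r) (x + r) y r)) {(x, y)} {(x + (m : ℤ), y + M)} := by
  have h1 := neg_abs_le M
  have h2 := le_abs_self M
  exact conn_box (by simp only; omega) (by simp only; omega) (by simp only; omega)
    (by simp only; omega) (by omega) (by simp only; omega) (by simp only; omega)
    (by simp only; omega) (by simp only; omega)

lemma big_tr {m r : ℕ} {M : ℤ} (h : (m : ℤ) + |M| + 4 ≤ r) (x y : ℤ) :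
    big m M r x y = fun t => big m M r 0 0 (act (tr (x, y)) t) := by
  funext t
  have := TE_box_tr (0 - (r : ℤ)) (0 + r) 0 r {((0 : ℤ), (0 : ℤ))} {((0 : ℤ) + m, (0 : ℤ) + M)}
    (conn_big h 0 0) (x, y) t
  rw [image_tr_single, image_tr_single] at this
  simp only [Prod.mk_add_mk, zero_add, zero_sub] at this
  unfold big
  simp only [zero_add, zero_sub]
  rw [← this]
  rw [add_comm (-(r : ℤ)) x, ← sub_eq_add_neg, add_comm (r : ℤ) x, add_comm (m : ℤ) x,
    add_comm M y]

lemma measurable_big (m : ℕ) (M : ℤ) (r : ℕ) (x y : ℤ) : Measurable (big m M r x y) :=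
  measurable_TE _ _ _

lemma big_le {m r : ℕ} {M : ℤ} (h : (m : ℤ) + |M| + 4 ≤ r) {t : Environment} (ht : Nn t) :
    big m M r 0 0 t ≤ rowS 0 0 m t + colS m (-|M|) (2 * M.natAbs) t := by
  have h1 := neg_abs_le M
  have h2 := le_abs_self M
  have h3 : (M.natAbs : ℤ) = |M| := Int.natCast_natAbs M
  unfold big
  simp only [zero_add, zero_sub]
  have e1 := TE_row_le (t := t) (a := -(r : ℤ)) (b := r) (y0 := 0) (R := r) (y := 0) ht
    (by omega) (by omega) 0 m (by omega) (by omega)
  have e2 := TE_col_le (t := t) (a := -(r : ℤ)) (b := r) (y0 := 0) (R := r) (x := m) ht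
    (by omega) (by omega) (-|M|) (2 * M.natAbs) (by omega) (by push_cast; omega)
    (p := ((m : ℤ), 0)) (q := ((m : ℤ), M)) rfl rfl (by simp only; omega)
    (by simp only; push_cast; omega) (by simp only; omega) (by simp only; push_cast; omega)
  simp only [zero_add] at e1
  have e3 := TE_trans (t := t) (E := Box (-(r : ℤ)) r 0 r) (A := {((0 : ℤ), (0 : ℤ))})
    (C := {((m : ℤ), M)}) (b := ((m : ℤ), (0 : ℤ))) ht
    (conn_row (by omega) (by omega) (by omega) (by omega) (by omega))
    (conn_box (by simp only; omega) (by simp only; omega) (by simp only; omega)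
      (by simp only; omega) (by omega) (by simp only; omega) (by simp only; omega)
      (by simp only; omega) (by simp only; omega))
  unfold rowS colS
  simp only [zero_add]
  linarith

lemma integrable_big (H : Hyp G al be s a) {m r : ℕ} {M : ℤ} (h : (m : ℤ) + |M| + 4 ≤ r)
    (x y : ℤ) : Integrable (big m M r x y) (iidLaw G) := by
  rw [big_tr h]
  refine (mp_act (G := G) (tr (x, y))).integrable_comp_of_integrable ?_
  refine Integrable.mono' ((integrable_rowS H 0 0 m).add
    (integrable_colS H m (-|M|) (2 * M.natAbs))) (measurable_big _ _ _ _ _).aestronglyMeasurable ?_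
  filter_upwards [ae_Nn H.h0] with t ht
  rw [Real.norm_of_nonneg (TE_nonneg ht)]
  exact big_le h ht

lemma integral_big {m r : ℕ} {M : ℤ} (h : (m : ℤ) + |M| + 4 ≤ r) (x y : ℤ) :
    ∫ t, big m M r x y t ∂(iidLaw G) = ∫ t, big m M r 0 0 t ∂(iidLaw G) := by
  rw [big_tr h x y]
  exact integral_pt_iso (tr (x, y)) (big m M r 0 0) (measurable_big _ _ _ _ _).aestronglyMeasurable

/-- the means of the large-box times converge -/
lemma tendsto_big (H : Hyp G al be s a) (m : ℕ) (M : ℤ) :
    Tendsto (fun r : ℕ => ∫ t, big m M (r + (m + M.natAbs + 4)) 0 0 t ∂(iidLaw G)) atTop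
      (𝓝 (ET G ((m : ℤ), M))) := by
  have h3 : (M.natAbs : ℤ) = |M| := Int.natCast_natAbs M
  have hr : ∀ r : ℕ, (m : ℤ) + |M| + 4 ≤ ((r + (m + M.natAbs + 4) : ℕ) : ℤ) := by
    intro r
    push_cast
    omega
  have hmono : ∀ r r' : ℕ, r ≤ r' → ∀ t, big m M (r' + (m + M.natAbs + 4)) 0 0 t ≤
      big m M (r + (m + M.natAbs + 4)) 0 0 t := by
    intro r r' hrr t
    unfold big
    refine TE_mono (Box_mono ?_ ?_ ?_ ?_) subset_rfl subset_rfl (conn_big (hr r) 0 0) t
    all_goals push_cast; omega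
  unfold ET
  refine tendsto_integral_of_dominated_convergence
    (fun t => |big m M (0 + (m + M.natAbs + 4)) 0 0 t|)
    (fun r => (measurable_big _ _ _ _ _).aestronglyMeasurable)
    (integrable_big H (hr 0) 0 0).abs ?_ ?_
  · intro r
    filter_upwards [ae_Nn H.h0] with t ht
    rw [Real.norm_of_nonneg (show 0 ≤ big m M (r + (m + M.natAbs + 4)) 0 0 t from TE_nonneg ht)]
    exact (hmono 0 r (Nat.zero_le _) t).trans (le_abs_self _)
  · filter_upwards [ae_Nn H.h0] with t ht
    rw [Metric.tendsto_atTop]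
    intro ε hε
    obtain ⟨w, hw⟩ := exists_walk_lt t (0, 0) ((m : ℤ), M)
      (c := passageTime t (0, 0) ((m : ℤ), M) + ε) (by linarith)
    refine ⟨w.length, fun r hr' => ?_⟩
    have hlow : passageTime t (0, 0) ((m : ℤ), M) ≤ big m M (r + (m + M.natAbs + 4)) 0 0 t := by
      have hc := conn_big (hr r) 0 0
      unfold big
      simp only [zero_add] at hc ⊢
      exact pt_le_TE ht hc
    have hup : big m M (r + (m + M.natAbs + 4)) 0 0 t ≤ walkCost t w := by
      unfold big
      simp only [zero_add]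
      refine TE_le_walk ht w ?_ rfl rfl
      intro e he
      have hs : ∀ p ∈ e, p ∈ w.support := fun p hp => edge_mem_support w he hp
      induction e using Sym2.inductionOn with
      | _ x y =>
        have hadj := adj_of_mem_edges w he
        rw [mem_Box_adj hadj]
        have dx := walk_dist w x (hs x (Sym2.mem_mk_left _ _))
        have dy := walk_dist w y (hs y (Sym2.mem_mk_right _ _))
        simp only [sub_zero, abs_le] at dx dy
        push_cast
        omega
    rw [Real.dist_eq]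
    change |big m M (r + (m + M.natAbs + 4)) 0 0 t - passageTime t (0, 0) ((m : ℤ), M)| < ε
    rw [abs_lt]
    constructor <;> linarith

/-- concatenation of `J` blocks -/
lemma TE_chain {t : Environment} (ht : Nn t) {a b y0 R x y : ℤ} {m r : ℕ} {M : ℤ}
    (hmr : (m : ℤ) + |M| + 4 ≤ r) (J : ℕ) (hx : a ≤ x - r) (hx' : x + J * m + r ≤ b)
    (hy : y0 - R ≤ y - J * |M| - r) (hy' : y + J * |M| + r ≤ y0 + R) :
    TE (Box a b y0 R) {(x, y)} {(x + J * m, y + J * M)} t ≤
      ∑ i ∈ Finset.range J, big m M r (x + i * m) (y + i * M) t := by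
  have h1 := neg_abs_le M
  have h2 := le_abs_self M
  induction J with
  | zero =>
    have : TE (Box a b y0 R) {(x, y)} {(x + ((0 : ℕ) : ℤ) * m, y + ((0 : ℕ) : ℤ) * M)} t ≤
        walkCost t (SimpleGraph.Walk.nil : squareLattice.Walk (x, y) (x, y)) :=
      TE_le_walk ht _ (by simp) rfl (by simp)
    simpa [walkCost] using this
  | succ J ih =>
    rw [Finset.sum_range_succ]
    have e0 : (((J + 1 : ℕ)) : ℤ) * m = J * m + m := by push_cast; ring
    have e1 : (((J + 1 : ℕ)) : ℤ) * M = J * M + M := by push_cast; ring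
    have e2 : (((J + 1 : ℕ)) : ℤ) * |M| = J * |M| + |M| := by push_cast; ring
    rw [e0] at hx'
    rw [e2] at hy hy'
    have p1 : 0 ≤ (J : ℤ) * m := by positivity
    have p2 : (J : ℤ) * M ≤ J * |M| := mul_le_mul_of_nonneg_left h2 (by positivity)
    have p3 : -((J : ℤ) * |M|) ≤ J * M := by
      have := mul_le_mul_of_nonneg_left h1 (show (0 : ℤ) ≤ J by positivity)
      linarith
    have i1 := ih (by omega) (by omega) (by omega)
    rw [e0, e1]
    have c1 : Conn (↑(Box a b y0 R)) {(x, y)} {(x + J * m, y + J * M)} :=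
      conn_box (by simp only; omega) (by simp only; omega) (by simp only; omega)
        (by simp only; omega) (by omega) (by simp only; omega) (by simp only; omega)
        (by simp only; omega) (by simp only; omega)
    have c2 : Conn (↑(Box a b y0 R)) {(x + J * m, y + J * M)}
        {(x + (J * m + m), y + (J * M + M))} :=
      conn_box (by simp only; omega) (by simp only; omega) (by simp only; omega)
        (by simp only; omega) (by omega) (by simp only; omega) (by simp only; omega)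
        (by simp only; omega) (by simp only; omega)
    have e3 := TE_trans (t := t) ht c1 c2
    have e4 : TE (Box a b y0 R) {(x + J * m, y + J * M)} {(x + (J * m + m), y + (J * M + M))} t ≤
        big m M r (x + J * m) (y + J * M) t := by
      unfold big
      rw [← add_assoc, ← add_assoc]
      exact TE_mono (Box_mono (by omega) (by omega) (by omega) (by omega)) subset_rfl subset_rfl
        (conn_big hmr _ _) t
    linarith

lemma TE_A6 {t : Environment} (ht : Nn t) {CR K : ℕ} {m r : ℕ} {M : ℤ}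
    (hmr : (m : ℤ) + |M| + 4 ≤ r) (J n' : ℕ) (hJ : (J : ℤ) * m + 2 * r ≤ 2 ^ K)
    (hn : (r : ℤ) + J * m + n' + 3 = 2 ^ K) (hK : 4 ≤ len K)
    (hh : (J : ℤ) * |M| + r + 4 ≤ CR * 2 ^ K) :
    blk CR K 0 0 (J * M) t ≤ rowS 0 1 r t +
      ∑ i ∈ Finset.range J, big m M r (r + i * m) (1 + i * M) t +
      rowS (r + J * m) (1 + J * M) n' t + sX (r + J * m + n') (1 + J * M) t := by
  have h1 := neg_abs_le M
  have h2 := le_abs_self M
  have p1 : 0 ≤ (J : ℤ) * m := by positivity
  have p2 : (J : ℤ) * M ≤ J * |M| := mul_le_mul_of_nonneg_left h2 (by positivity)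
  have p3 : -((J : ℤ) * |M|) ≤ J * M := by
    have := mul_le_mul_of_nonneg_left h1 (show (0 : ℤ) ≤ J by positivity)
    linarith
  have p4 : 0 ≤ (J : ℤ) * |M| := by positivity
  have e1 := TE_row_le (t := t) (a := 0) (b := 2 ^ K) (y0 := 0) (R := CR * 2 ^ K) (y := 1) ht
    (by omega) (by omega) 0 r (by omega) (by omega)
  have e2 := TE_chain (t := t) (a := 0) (b := 2 ^ K) (y0 := 0) (R := CR * 2 ^ K) (x := r) (y := 1)
    ht hmr J (by omega) (by omega) (by omega) (by omega)
  have e3 := TE_exit (t := t) (a := 0) (b := 2 ^ K) (y0 := 0) (R := CR * 2 ^ K)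
    (x := r + J * m) (y := 1 + J * M) (n := n') ht (by omega) hn (by omega) (by omega)
  simp only [zero_add] at e1
  have c1 : Conn (↑(Box 0 (2 ^ K) 0 (CR * 2 ^ K))) {((0 : ℤ), (1 : ℤ))} {((r : ℤ), (1 : ℤ))} :=
    conn_row (by omega) (by omega) (by omega) (by omega) (by omega)
  have c2 : Conn (↑(Box 0 (2 ^ K) 0 (CR * 2 ^ K))) {((r : ℤ), (1 : ℤ))}
      {((r : ℤ) + J * m, (1 : ℤ) + J * M)} :=
    conn_box (by simp only; omega) (by simp only; omega) (by simp only; omega)
        (by simp only; omega) (by omega) (by simp only; omega) (by simp only; omega)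
        (by simp only; omega) (by simp only; omega)
  have c3 : Conn (↑(Box 0 (2 ^ K) 0 (CR * 2 ^ K))) {((r : ℤ) + J * m, (1 : ℤ) + J * M)}
      (seg (2 ^ K) ((1 : ℤ) + J * M - 1) 3) :=
    conn_box_sets (p := ((r : ℤ) + J * m, (1 : ℤ) + J * M)) (q := (2 ^ K, (1 : ℤ) + J * M)) rfl
        ⟨rfl, by simp only; omega, by simp only; push_cast; omega⟩
        (by simp only; omega) (by simp only; omega) (by simp only; omega)
        (by simp only; omega) (by omega) (by simp only; omega) (by simp only; omega)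
        (by simp only; omega) (by simp only; omega)
  have c12 : Conn (↑(Box 0 (2 ^ K) 0 (CR * 2 ^ K))) {((0 : ℤ), (1 : ℤ))}
      {((r : ℤ) + J * m, (1 : ℤ) + J * M)} := by
    have := c1.trans c2
    rwa [Set.union_self] at this
  have f1 := TE_trans (t := t) ht c1 c2
  have f2 := TE_trans (t := t) ht c12 c3
  have c13 := c12.trans c3
  rw [Set.union_self] at c13
  have f3 : blk CR K 0 0 (J * M) t ≤ TE (Box 0 (2 ^ K) 0 (CR * 2 ^ K)) {((0 : ℤ), (1 : ℤ))}
      (seg (2 ^ K) ((1 : ℤ) + J * M - 1) 3) t := by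
    unfold blk
    simp only [zero_add]
    refine TE_mono (Finset.Subset.refl _) ?_ ?_ c13 t
    · intro p hp
      rw [Set.mem_singleton_iff] at hp
      subst hp
      exact ⟨rfl, by simp only; omega, by simp only; omega⟩
    · intro p hp
      rw [mem_seg] at hp ⊢
      push_cast at hp
      omega
  unfold rowS at e3 ⊢
  simp only [zero_add]
  linarith

set_option maxHeartbeats 2000000 in
/-- (A6): block minima are `o(2^K)` from above -/
lemma A6 (H : Hyp G al be s a) {CR : ℕ} (hCR : |s| + 3 ≤ CR) {ε : ℝ} (hε : 0 < ε) :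
    ∃ K0 : ℕ, ∀ K : ℕ, K0 ≤ K → ∀ h : ℝ, LB G al be CR K h → h ≤ ε * 2 ^ K := by
  have hcS := cS_nonneg (G := G) H.h0
  -- choice of `m`
  have ht1 := H.hup
  have ev1 : ∀ᶠ m : ℕ in atTop, ET G ((m : ℤ), ⌊s * m⌋) / m < al + be * s + ε / 8 :=
    ht1.eventually (gt_mem_nhds (by linarith))
  have ev2 : ∀ᶠ m : ℕ in atTop, 8 * |be| / ε + 1 ≤ (m : ℝ) :=
    tendsto_natCast_atTop_atTop.eventually_ge_atTop _
  obtain ⟨m, hm1, hm2⟩ := (ev1.and ev2).exists
  have hmpos : (1 : ℝ) ≤ m := by
    have : 0 ≤ 8 * |be| / ε := by positivity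
    linarith
  have hm1n : 1 ≤ m := by exact_mod_cast hmpos
  set M : ℤ := ⌊s * m⌋ with hM
  have hm1' : ET G ((m : ℤ), M) < (al + be * s + ε / 8) * m := by
    rwa [div_lt_iff₀ (by linarith)] at hm1
  -- choice of `r`
  have ht2 := tendsto_big H m M
  have ev3 : ∀ᶠ r : ℕ in atTop, ∫ t, big m M (r + (m + M.natAbs + 4)) 0 0 t ∂(iidLaw G) <
      (al + be * s + ε / 8) * m := ht2.eventually (gt_mem_nhds hm1')
  obtain ⟨r0, hr0⟩ := ev3.exists
  set r := r0 + (m + M.natAbs + 4) with hr
  have h3 : (M.natAbs : ℤ) = |M| := Int.natCast_natAbs M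
  have hmr : (m : ℤ) + |M| + 4 ≤ r := by
    rw [hr]
    push_cast
    omega
  -- constants
  set C : ℝ := (2 * r + m + 1) * cS G + |al| * (2 * r + m + 3) with hC
  obtain ⟨K1, hK1⟩ := pow_unbounded_of_one_lt (max (8 * C / ε) (2 * r + m + 10))
    (show (1 : ℝ) < 2 by norm_num)
  refine ⟨max K1 64, fun K hK h hLB => ?_⟩
  have hKK1 : K1 ≤ K := (le_max_left _ _).trans hK
  have hK64 : 64 ≤ K := (le_max_right _ _).trans hK
  have hbig : max (8 * C / ε) (2 * r + m + 10) < (2 : ℝ) ^ K :=
    hK1.trans_le (pow_le_pow_right₀ (by norm_num) hKK1)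
  have hb1 : 8 * C / ε < 2 ^ K := (le_max_left _ _).trans_lt hbig
  have hb2 : (2 * r + m + 10 : ℝ) < 2 ^ K := (le_max_right _ _).trans_lt hbig
  have hb2' : 2 * r + m + 10 < 2 ^ K := by exact_mod_cast hb2
  have hl4 : 4 ≤ len K := by
    unfold len
    calc 4 = 2 ^ 2 := by norm_num
      _ ≤ _ := Nat.pow_le_pow_right (by norm_num) (by omega)
  -- number of blocks
  set J : ℕ := (2 ^ K - 2 * r - 3) / m with hJ
  have hJ1 : J * m ≤ 2 ^ K - 2 * r - 3 := Nat.div_mul_le_self _ _
  have hJ2 : 2 ^ K - 2 * r - 3 < J * m + m := by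
    have := Nat.lt_div_mul_add (a := 2 ^ K - 2 * r - 3) (b := m) (by omega)
    exact this
  obtain ⟨n', hn'⟩ : ∃ n' : ℕ, r + J * m + n' + 3 = 2 ^ K := ⟨2 ^ K - 3 - r - J * m, by omega⟩
  have hn'1 : n' ≤ r + m := by omega
  have hJmR : (J : ℝ) * m + 2 * r + 3 ≤ 2 ^ K := by
    have : J * m + 2 * r + 3 ≤ 2 ^ K := by omega
    exact_mod_cast this
  have hJmR2 : (2 : ℝ) ^ K ≤ J * m + m + 2 * r + 3 := by
    have : 2 ^ K ≤ J * m + m + 2 * r + 3 := by omega
    exact_mod_cast this
  have hMs : |s * m - M| ≤ 1 := by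
    rw [abs_le]
    have h1 := Int.floor_le (s * m)
    have h2 := Int.lt_floor_add_one (s * m)
    rw [hM]
    constructor <;> linarith
  have hMabs : |(M : ℝ)| ≤ (|s| + 1) * m := by
    calc |(M : ℝ)| = |s * m - (s * m - M)| := by congr 1; ring
      _ ≤ |s * m| + |s * m - M| := abs_sub _ _
      _ ≤ |s| * m + 1 := by
        rw [abs_mul, abs_of_nonneg (by linarith : (0 : ℝ) ≤ m)]
        linarith
      _ ≤ _ := by linarith
  have hJM : (J : ℝ) * |(M : ℝ)| ≤ (|s| + 1) * 2 ^ K := by
    calc (J : ℝ) * |(M : ℝ)| ≤ J * ((|s| + 1) * m) := by gcongr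
      _ = (|s| + 1) * (J * m) := by ring
      _ ≤ _ := by
        apply mul_le_mul_of_nonneg_left _ (by positivity)
        have : (0 : ℝ) ≤ r := by positivity
        linarith
  have hpow : (0 : ℝ) < 2 ^ K := by positivity
  have hh : (J : ℤ) * |M| + r + 4 + 2 ^ K ≤ CR * 2 ^ K := by
    have : (J : ℝ) * |(M : ℝ)| + r + 4 + 2 ^ K ≤ CR * 2 ^ K := by
      have e1 : (|s| + 3) * 2 ^ K ≤ CR * 2 ^ K := by gcongr
      have : (0 : ℝ) ≤ m := by positivity
      have : (0 : ℝ) ≤ r := by positivity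
      nlinarith
    exact_mod_cast this
  have hJMz : |(J : ℤ) * M| ≤ J * |M| := by
    rw [abs_mul, abs_of_nonneg (by positivity : (0 : ℤ) ≤ J)]
  have hz : (0 : ℤ) < 2 ^ K := by positivity
  have e1 := hLB (J * M) (by linarith [show (0 : ℤ) ≤ r by positivity])
  -- upper bound of the mean
  have hle : ∀ᵐ t ∂(iidLaw G), blk CR K 0 0 (J * M) t ≤ rowS 0 1 r t +
      ∑ i ∈ Finset.range J, big m M r (r + i * m) (1 + i * M) t +
      rowS (r + J * m) (1 + J * M) n' t + sX (r + J * m + n') (1 + J * M) t := by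
    filter_upwards [ae_Nn H.h0] with t ht
    refine TE_A6 ht hmr J n' ?_ ?_ hl4 ?_
    · have : J * m + 2 * r ≤ 2 ^ K := by omega
      exact_mod_cast this
    · exact_mod_cast hn'
    · linarith
  have hnn : 0 ≤ᵐ[iidLaw G] blk CR K 0 0 (J * M) := by
    filter_upwards [ae_Nn H.h0] with t ht
    exact TE_nonneg ht
  have i1 := integrable_rowS H 0 1 r
  have i2 : Integrable (fun t => ∑ i ∈ Finset.range J,
      big m M r (r + (i : ℤ) * m) (1 + (i : ℤ) * M) t) (iidLaw G) :=
    integrable_finsetSum _ fun i _ => integrable_big H hmr _ _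
  have i3 := integrable_rowS H (r + J * m) (1 + J * M) n'
  have i4 := integrable_sX H (r + J * m + n') (1 + J * M)
  have i12 : Integrable (fun t => rowS 0 1 r t + ∑ i ∈ Finset.range J,
      big m M r (r + (i : ℤ) * m) (1 + (i : ℤ) * M) t) (iidLaw G) := i1.add i2
  have i123 : Integrable (fun t => rowS 0 1 r t + ∑ i ∈ Finset.range J,
      big m M r (r + (i : ℤ) * m) (1 + (i : ℤ) * M) t + rowS (r + J * m) (1 + J * M) n' t)
      (iidLaw G) := i12.add i3
  have i1234 : Integrable (fun t => rowS 0 1 r t + ∑ i ∈ Finset.range J,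
      big m M r (r + (i : ℤ) * m) (1 + (i : ℤ) * M) t + rowS (r + J * m) (1 + J * M) n' t +
      sX (r + J * m + n') (1 + J * M) t) (iidLaw G) := i123.add i4
  have e2 := integral_mono_of_nonneg hnn i1234 hle
  have e3 : ∫ t, (rowS 0 1 r t + ∑ i ∈ Finset.range J,
      big m M r (r + (i : ℤ) * m) (1 + (i : ℤ) * M) t + rowS (r + J * m) (1 + J * M) n' t +
      sX (r + J * m + n') (1 + J * M) t) ∂(iidLaw G) =
      ∫ t, rowS 0 1 r t ∂(iidLaw G) + J * ∫ t, big m M r 0 0 t ∂(iidLaw G) +
      ∫ t, rowS (r + J * m) (1 + J * M) n' t ∂(iidLaw G) +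
      ∫ t, sX (r + J * m + n') (1 + J * M) t ∂(iidLaw G) := by
    rw [integral_add i123 i4, integral_add i12 i3, integral_add i1 i2,
      integral_finsetSum _ fun i _ => integrable_big H hmr _ _]
    simp_rw [integral_big hmr]
    rw [Finset.sum_const, Finset.card_range, nsmul_eq_mul]
  have e2' : tau G CR K (J * M) ≤ _ := e2
  rw [e3] at e2'
  have g1 := integral_rowS_le H 0 1 r
  have g3 := integral_rowS_le H (r + J * m) (1 + J * M) n'
  have g4 := integral_sX_le (G := G) H.h0 (r + J * m + n') (1 + J * M)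
  have g2 : (J : ℝ) * ∫ t, big m M r 0 0 t ∂(iidLaw G) ≤ J * ((al + be * s + ε / 8) * m) := by
    gcongr
  have hn'R : (n' : ℝ) ≤ r + m := by exact_mod_cast hn'1
  have g3' : (n' : ℝ) * cS G ≤ (r + m) * cS G := by gcongr
  -- assembling
  push_cast at e1
  have f1 : al * (J * m - 2 ^ K) ≤ |al| * (2 * r + m + 3) := by
    calc al * (J * m - 2 ^ K) ≤ |al * (J * m - 2 ^ K)| := le_abs_self _
      _ = |al| * |(J : ℝ) * m - 2 ^ K| := abs_mul _ _
      _ ≤ _ := by
        apply mul_le_mul_of_nonneg_left _ (abs_nonneg _)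
        rw [abs_le]
        constructor <;> linarith
  have f2 : be * (J * (s * m - M)) ≤ ε / 8 * 2 ^ K := by
    calc be * (J * (s * m - M)) ≤ |be * (J * (s * m - M))| := le_abs_self _
      _ = |be| * (J * |s * m - M|) := by
        rw [abs_mul, abs_mul, abs_of_nonneg (by positivity : (0 : ℝ) ≤ J)]
      _ ≤ |be| * (J * 1) := by gcongr
      _ ≤ (ε / 8 * m) * J := by
        have : |be| ≤ ε / 8 * m := by
          have : 8 * |be| / ε ≤ m := by linarith
          rw [div_le_iff₀ hε] at this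
          linarith
        rw [mul_one]
        gcongr
      _ = ε / 8 * (J * m) := by ring
      _ ≤ _ := by
        apply mul_le_mul_of_nonneg_left _ (by positivity)
        have : (0 : ℝ) ≤ r := by positivity
        linarith
  have f3 : ε / 8 * (J * m) ≤ ε / 8 * 2 ^ K := by
    apply mul_le_mul_of_nonneg_left _ (by positivity)
    have : (0 : ℝ) ≤ r := by positivity
    linarith
  have f4 : 8 * C < ε * 2 ^ K := by
    rw [div_lt_iff₀ hε] at hb1
    linarith
  rw [hC] at f4
  nlinarith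

lemma th15_lt : th ^ 15 < 2 := by
  have h1 : th ^ 15 < th ^ 16 := pow_lt_pow_right₀ one_lt_th (by norm_num)
  have h2 : th ^ 16 = 2 := by
    have := th_pow16 1
    simpa using this
  linarith

/-- the rate of the block minima -/
lemma rate_h (H : Hyp G al be s a) :
    ∃ CR0 : ℕ, ∀ CR : ℕ, CR0 ≤ CR → ∃ (C : ℝ) (k0 : ℕ), 0 ≤ C ∧ ∀ k : ℕ, k0 ≤ k → ∀ h : ℝ,
      LB G al be CR k h → h ≤ C * th ^ (15 * k) := by
  obtain ⟨CR0, hcore⟩ := super_core H
  obtain ⟨CR1, hCR1⟩ := exists_nat_ge (|s| + 3)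
  refine ⟨max CR0 CR1, fun CR hCR => ?_⟩
  obtain ⟨C, k0, hC, hs⟩ := hcore CR ((le_max_left _ _).trans hCR)
  have hCR' : |s| + 3 ≤ CR := hCR1.trans (by exact_mod_cast (le_max_right _ _).trans hCR)
  have hth := th15_lt
  have hth0 : 0 < 2 - th ^ 15 := by linarith
  set C' := C / (2 - th ^ 15) with hC'
  have hC'0 : 0 ≤ C' := by positivity
  have hC'e : 2 * C' - C = C' * th ^ 15 := by
    rw [hC']
    field_simp
    ring
  refine ⟨C', k0, hC'0, fun k hk h hLB => ?_⟩
  set Hj : ℕ → ℝ := fun j => 2 ^ j * (h - C' * th ^ (15 * k)) + C' * th ^ (15 * (k + j)) with hHj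
  have hLBj : ∀ j : ℕ, LB G al be CR (k + j) (Hj j) := by
    intro j
    induction j with
    | zero =>
      have : Hj 0 = h := by
        rw [hHj]
        simp
      rw [this]
      exact hLB
    | succ j ih =>
      have := hs (k + j) (by omega) _ ih
      have e : 2 * Hj j - C * th ^ (15 * (k + j)) = Hj (j + 1) := by
        have e1 : Hj (j + 1) = 2 ^ (j + 1) * (h - C' * th ^ (15 * k)) +
            (C' * th ^ 15) * th ^ (15 * (k + j)) := by
          rw [hHj]
          simp only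
          have : 15 * (k + (j + 1)) = 15 * (k + j) + 15 := by ring
          rw [this, pow_add th]
          ring
        rw [e1, ← hC'e]
        rw [hHj]
        simp only
        ring
      rw [e] at this
      exact this
  by_contra hcon
  have hpos : 0 < h - C' * th ^ (15 * k) := by linarith
  set δ := (h - C' * th ^ (15 * k)) / 2 ^ k with hδ
  have hδpos : 0 < δ := by positivity
  obtain ⟨K0, hK0⟩ := A6 H hCR' (ε := δ / 2) (by positivity)
  have := hK0 (k + K0) (by omega) _ (hLBj K0)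
  have e1 : 2 ^ K0 * (h - C' * th ^ (15 * k)) ≤ Hj K0 := by
    rw [hHj]
    simp only
    have : 0 ≤ C' * th ^ (15 * (k + K0)) := by
      have := th_pos
      positivity
    linarith
  have e2 : δ / 2 * 2 ^ (k + K0) = 2 ^ K0 * (h - C' * th ^ (15 * k)) / 2 := by
    rw [hδ, pow_add]
    field_simp
  have e3 : 0 < 2 ^ K0 * (h - C' * th ^ (15 * k)) := by positivity
  linarith

/-- good displacements -/
lemma good_d (H : Hyp G al be s a) :
    ∃ (CR : ℕ) (C : ℝ) (k0 : ℕ), 1 ≤ CR ∧ 0 ≤ C ∧ ∀ k : ℕ, k0 ≤ k → ∃ d : ℤ,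
      |d| + 2 ^ k ≤ CR * 2 ^ k ∧ tau G CR k d ≤ al * 2 ^ k + be * d + C * th ^ (15 * k) ∧
      |(d : ℝ) - s * 2 ^ k| ≤ C * th ^ (15 * k) := by
  obtain ⟨CR0, hr⟩ := rate_h H
  set CR := max CR0 1 with hCRdef
  have hCR1 : 1 ≤ CR := le_max_right _ _
  obtain ⟨C, k0, hC, hrate⟩ := hr CR (le_max_left _ _)
  obtain ⟨C1, k1, hdev⟩ := dev_blk (G := G) H.dev hCR1
  have ha := H.ha
  have hcS := cS_nonneg (G := G) H.h0
  refine ⟨CR, C + (C + 2 * cS G) / a, max k0 k1, hCR1, by positivity, fun k hk => ?_⟩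
  have hk0 : k0 ≤ k := (le_max_left _ _).trans hk
  have hk1 : k1 ≤ k := (le_max_right _ _).trans hk
  have hz : (0 : ℤ) < 2 ^ k := by positivity
  have hCRz : (2 : ℤ) ^ k ≤ CR * 2 ^ k := le_mul_of_one_le_left hz.le (by exact_mod_cast hCR1)
  set S : Finset ℤ := Finset.Icc (-((CR : ℤ) * 2 ^ k - 2 ^ k)) ((CR : ℤ) * 2 ^ k - 2 ^ k) with hS
  have hmem : ∀ d : ℤ, d ∈ S ↔ |d| + 2 ^ k ≤ CR * 2 ^ k := by
    intro d
    rw [hS, Finset.mem_Icc, ← abs_le]
    constructor <;> intro h <;> linarith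
  have hne : S.Nonempty := ⟨0, by rw [hmem, abs_zero, zero_add]; exact hCRz⟩
  obtain ⟨d, hdS, hd⟩ := S.exists_min_image (fun d => tau G CR k d - (al * 2 ^ k + be * d)) hne
  have hLB : LB G al be CR k (tau G CR k d - (al * 2 ^ k + be * d)) := by
    intro d' hd'
    have := hd d' ((hmem d').2 hd')
    linarith
  have h1 := hrate k hk0 _ hLB
  have hdA := (hmem d).1 hdS
  have hd0 : |d| ≤ CR * 2 ^ k := by linarith
  have h2 := mean_lower H (conn_blk (CR := CR) (k := k) (x0 := 0) (y0 := 0) hd0)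
    (hdev k hk1 0 0 d hdA).1
  have e2 : ∫ t, TE (Box 0 (0 + 2 ^ k) 0 (CR * 2 ^ k)) (seg 0 0 (len k))
      (seg (0 + 2 ^ k) (0 + d) (len k)) t ∂(iidLaw G) = tau G CR k d := rfl
  rw [e2] at h2
  push_cast at h2
  have hl := len_le_th k
  have hthp : 0 < th ^ (15 * k) := pow_pos th_pos _
  have h3 : a * |((0 : ℝ) + d - 0) - s * (0 + 2 ^ k - 0)| ≤ (C + 2 * cS G) * th ^ (15 * k) := by
    have : ((len k : ℝ) + len k) * cS G ≤ 2 * cS G * th ^ (15 * k) := by
      calc ((len k : ℝ) + len k) * cS G = 2 * cS G * len k := by ring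
        _ ≤ _ := by gcongr
    linarith
  have h4 : |(d : ℝ) - s * 2 ^ k| ≤ (C + 2 * cS G) / a * th ^ (15 * k) := by
    have e : (0 : ℝ) + d - 0 - s * (0 + 2 ^ k - 0) = d - s * 2 ^ k := by ring
    rw [e] at h3
    have : |(d : ℝ) - s * 2 ^ k| ≤ ((C + 2 * cS G) * th ^ (15 * k)) / a := by
      rw [le_div_iff₀ ha]
      linarith
    calc _ ≤ _ := this
      _ = _ := by ring
  refine ⟨d, hdA, ?_, ?_⟩
  · have : 0 ≤ (C + 2 * cS G) / a * th ^ (15 * k) := by positivity
    linarith
  · have : 0 ≤ C * th ^ (15 * k) := by positivity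
    linarith

end Crest.Agent.R151.U
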