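import Crest.Agent.R151.U750e
import Crest.Agent.R151.X684d

/-!
# R151/U750f — the upper bound (UB) (owner helper750)
-/

set_option autoImplicit false
set_option linter.unusedSectionVars false

open MeasureTheory Filter
open scoped Topology
open Crest.ProbabilityR.FirstPassage
open Crest.Agent.R151.K
open Crest.Agent.R151.X (sl tube ht lin Cr CrE Apt mem_tube)
open Crest.Agent.R151.A (block eX eX_mk)

namespace Crest.Agent.R151.U

attribute [local irreducible] Box TE

variable {G : Measure ℝ} [IsProbabilityMeasure G] {al be s a : ℝ}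

/-! ### walks in the slanted tube -/

lemma box_sub_sl {s u w : ℝ} {N : ℤ} {A B Y R : ℤ} (hA : 0 ≤ A) (hB : B ≤ N)
    (h : |(Y : ℝ) - s * A - u| + R + |s| * (B - A) ≤ w) {p q : Pt} (w' : squareLattice.Walk p q)
    {e : Edge} (hew : e ∈ w'.edges) (he : e ∈ Box A B Y R) : e ∈ sl s u w 0 N := by
  induction e using Sym2.inductionOn with
  | _ x y =>
    have hadj := adj_of_mem_edges w' hew
    rw [mem_Box_adj hadj] at he
    obtain ⟨h1, h2, h3, h4, h5, h6, h7, h8, h9⟩ := he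
    have key : ∀ z : Pt, A ≤ z.1 → z.1 ≤ B → Y - R ≤ z.2 → z.2 ≤ Y + R → |ht s z - u| ≤ w := by
      intro z k1 k2 k3 k4
      refine le_trans ?_ h
      have r1 : (A : ℝ) ≤ z.1 := by exact_mod_cast k1
      have r2 : (z.1 : ℝ) ≤ B := by exact_mod_cast k2
      have r3 : (Y : ℝ) - R ≤ z.2 := by exact_mod_cast k3
      have r4 : (z.2 : ℝ) ≤ Y + R := by exact_mod_cast k4
      unfold ht
      have e1 : (z.2 : ℝ) - s * z.1 - u = ((Y : ℝ) - s * A - u) + (z.2 - Y) + s * (A - z.1) := by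
        ring
      rw [e1]
      have e2 : |(z.2 : ℝ) - Y| ≤ R := by rw [abs_le]; constructor <;> linarith
      have e3 : |s * (A - z.1)| ≤ |s| * (B - A) := by
        rw [abs_mul]
        apply mul_le_mul_of_nonneg_left _ (abs_nonneg _)
        rw [abs_le]
        constructor <;> linarith
      have e4 := abs_add_le (((Y : ℝ) - s * A - u) + (z.2 - Y)) (s * (A - z.1))
      have e5 := abs_add_le ((Y : ℝ) - s * A - u) ((z.2 : ℝ) - Y)
      linarith
    refine ⟨?_, mem_tube.2 ⟨key x h1 h2 h6 h7, key y h3 h4 h8 h9⟩⟩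
    simp only [block, Set.mem_ofPred_eq, eX_mk]
    constructor
    · exact le_min (hA.trans h1) (hA.trans h3)
    · rcases h5 with h | h
      · exact (min_le_left _ _).trans_lt (h.trans_le hB)
      · exact (min_le_right _ _).trans_lt (h.trans_le hB)

lemma Cr_of_TE {t : Environment} (ht' : Nn t) {s u w : ℝ} {N : ℤ} {A B Y R : ℤ} (hA : 0 ≤ A)
    (hB : B ≤ N) (h : |(Y : ℝ) - s * A - u| + R + |s| * (B - A) ≤ w) {P Q : Set Pt}
    (hc : Conn (↑(Box A B Y R)) P Q) :
    ∃ p ∈ P, ∃ q ∈ Q, Cr (sl s u w 0 N) p q (TE (Box A B Y R) P Q t) t := by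
  obtain ⟨p, hp, q, hq, w', -, hw, hcost⟩ := exists_walk_TE ht' hc
  exact ⟨p, hp, q, hq, w', fun e he => box_sub_sl hA hB h w' he (hw e he), hcost⟩

/-- vertical connection in the tube -/
lemma Cr_col {t : Environment} (ht' : Nn t) {s u w : ℝ} {N x Y : ℤ} {n : ℕ} (hx : 0 ≤ x)
    (hx' : x + 3 ≤ N) (h : |(Y : ℝ) - s * x - u| + (n + 3) + |s| * 3 ≤ w) {p q : Pt}
    (hp : p.1 = x) (hq : q.1 = x) (hp1 : Y - n ≤ p.2) (hp2 : p.2 ≤ Y + n) (hq1 : Y - n ≤ q.2)
    (hq2 : q.2 ≤ Y + n) : Cr (sl s u w 0 N) p q (colS x (Y - n) (2 * n) t) t := by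
  have hc : Conn (↑(Box x (x + 3) Y (n + 3))) {p} {q} :=
    conn_box (by omega) (by omega) (by omega) (by omega) (by omega) (by omega) (by omega)
      (by omega) (by omega)
  obtain ⟨p', hp', q', hq', hcr⟩ := Cr_of_TE ht' (s := s) (u := u) (w := w) (N := N) hx hx' (by
    push_cast
    have e : |s| * (((x : ℝ) + 3) - x) = |s| * 3 := by ring
    rw [e]
    exact h) hc
  rw [Set.mem_singleton_iff] at hp' hq'
  subst hp'
  subst hq'
  refine hcr.mono subset_rfl ?_
  unfold colS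
  exact TE_col_le ht' le_rfl le_rfl (Y - n) (2 * n) (by omega) (by push_cast; omega) hp hq hp1
    (by push_cast; omega) hq1 (by push_cast; omega)

/-- horizontal connection in the tube -/
lemma Cr_row {t : Environment} (ht' : Nn t) {s u w : ℝ} {N x Y : ℤ} {n : ℕ} (hx : 0 ≤ x)
    (hx' : x + n + 2 ≤ N) (h : |(Y : ℝ) - s * x - u| + 3 + |s| * (n + 2) ≤ w) :
    Cr (sl s u w 0 N) (x, Y) (x + n, Y) (rowS x Y n t) t := by
  have hc : Conn (↑(Box x (x + n + 2) Y 3)) {(x, Y)} {(x + (n : ℤ), Y)} :=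
    conn_row (by omega) (by omega) (by omega) (by omega) (by omega)
  obtain ⟨p', hp', q', hq', hcr⟩ := Cr_of_TE ht' (s := s) (u := u) (w := w) (N := N) hx hx' (by
    push_cast
    have e : |s| * (((x : ℝ) + n + 2) - x) = |s| * (n + 2) := by ring
    rw [e]
    exact h) hc
  rw [Set.mem_singleton_iff] at hp' hq'
  subst hp'
  subst hq'
  refine hcr.mono subset_rfl ?_
  unfold rowS
  exact TE_row_le ht' (by omega) (by omega) x n (by omega) (by omega)

/-- a raw horizontal edge -/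
lemma Cr_edge {t : Environment} {s u w : ℝ} {N x Y : ℤ} (hx : 0 ≤ x) (hx' : x < N)
    (h : |(Y : ℝ) - s * x - u| + |s| ≤ w) :
    Cr (sl s u w 0 N) (x, Y) (x + 1, Y) (t (eH x Y)) t := by
  refine ⟨SimpleGraph.Walk.cons (adj_right x Y) SimpleGraph.Walk.nil, ?_, ?_⟩
  · intro e he
    simp only [SimpleGraph.Walk.edges_cons, SimpleGraph.Walk.edges_nil, List.mem_singleton] at he
    subst he
    refine ⟨?_, mem_tube.2 ⟨?_, ?_⟩⟩
    · simp only [block, Set.mem_ofPred_eq, eX_mk]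
      constructor
      · exact le_min hx (by omega)
      · exact (min_le_left _ _).trans_lt hx'
    · unfold ht
      have := abs_nonneg s
      linarith
    · unfold ht
      push_cast
      have e1 : (Y : ℝ) - s * (x + 1) - u = ((Y : ℝ) - s * x - u) + (-s) := by ring
      rw [e1]
      have := abs_add_le ((Y : ℝ) - s * x - u) (-s)
      rw [abs_neg] at this
      linarith
  · unfold walkCost
    simp [eH]

/-! ### the chain of blocks -/

/-- heights of the blocks -/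
noncomputable def yb (s u : ℝ) (k b : ℕ) : ℤ := ⌊u + s * (b * 2 ^ k)⌋

lemma yb_abs (s u : ℝ) (k b : ℕ) : |(yb s u k b : ℝ) - s * (b * 2 ^ k) - u| ≤ 1 := by
  unfold yb
  have h1 := Int.floor_le (u + s * (b * 2 ^ k))
  have h2 := Int.lt_floor_add_one (u + s * (b * 2 ^ k))
  rw [abs_le]
  constructor <;> linarith

lemma yb_succ (s u : ℝ) (k b : ℕ) :
    |(yb s u k (b + 1) : ℝ) - yb s u k b - s * 2 ^ k| ≤ 1 := by
  unfold yb
  have h1 := Int.floor_le (u + s * (b * 2 ^ k))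
  have h2 := Int.lt_floor_add_one (u + s * (b * 2 ^ k))
  have h3 := Int.floor_le (u + s * (((b + 1 : ℕ) : ℝ) * 2 ^ k))
  have h4 := Int.lt_floor_add_one (u + s * (((b + 1 : ℕ) : ℝ) * 2 ^ k))
  have e : u + s * (((b + 1 : ℕ) : ℝ) * 2 ^ k) = u + s * (b * 2 ^ k) + s * 2 ^ k := by
    push_cast; ring
  rw [abs_le]
  constructor <;> linarith

lemma chain_blocks {t : Environment} (ht' : Nn t) {s u w : ℝ} {N : ℤ} {CR k V : ℕ} {d : ℤ}
    (hd : |d| ≤ CR * 2 ^ k) (hV : len k ≤ V)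
    (hVd : ∀ b : ℕ, |yb s u k b + d - yb s u k (b + 1)| + len k ≤ V)
    (hw1 : 1 + ((V : ℝ) + 3) + |s| * 3 ≤ w) (hw2 : 1 + (CR : ℝ) * 2 ^ k + |s| * 2 ^ k ≤ w) (b : ℕ)
    (hb : (b : ℤ) * 2 ^ k + 3 ≤ N) (z : Pt) (hz1 : z.1 = b * 2 ^ k)
    (hz2 : yb s u k b - V ≤ z.2) (hz3 : z.2 ≤ yb s u k b + V) :
    Cr (sl s u w 0 N) (0, yb s u k 0) z
      (∑ j ∈ Finset.range b, blk CR k (j * 2 ^ k) (yb s u k j) d t +
        ∑ j ∈ Finset.range (b + 1), colS (j * 2 ^ k) (yb s u k j - V) (2 * V) t) t := by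
  induction b generalizing z with
  | zero =>
    simp only [Finset.range_zero, Finset.sum_empty, zero_add, Finset.range_one,
      Finset.sum_singleton]
    push_cast at hz1 hb ⊢
    rw [zero_mul] at hz1 ⊢
    refine Cr_col ht' le_rfl (by omega) ?_ rfl hz1 (by simp only; omega) (by simp only; omega)
      hz2 hz3
    have := yb_abs s u k 0
    push_cast at this ⊢
    rw [zero_mul] at this
    linarith
  | succ b ih =>
    have h2k : (0 : ℤ) < 2 ^ k := by positivity
    have hb' : (b : ℤ) * 2 ^ k + 2 ^ k + 3 ≤ N := by push_cast at hb; linarith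
    have hb0 : 0 ≤ (b : ℤ) * 2 ^ k := by positivity
    have hya := yb_abs s u k b
    have hya' := yb_abs s u k (b + 1)
    -- the block
    have hcb : |((yb s u k b : ℤ) : ℝ) - s * (((b : ℤ) * 2 ^ k : ℤ) : ℝ) - u| +
        (((CR : ℤ) * 2 ^ k : ℤ) : ℝ) +
        |s| * ((((b : ℤ) * 2 ^ k + 2 ^ k : ℤ) : ℝ) - (((b : ℤ) * 2 ^ k : ℤ) : ℝ)) ≤ w := by
      push_cast
      have e : |s| * (((b : ℝ) * 2 ^ k + 2 ^ k) - b * 2 ^ k) = |s| * 2 ^ k := by ring
      rw [e]
      linarith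
    obtain ⟨p, hp, q, hq, hcr⟩ := Cr_of_TE ht' (s := s) (u := u) (w := w) (N := N)
      (A := (b : ℤ) * 2 ^ k) (B := (b : ℤ) * 2 ^ k + 2 ^ k) (Y := yb s u k b) (R := CR * 2 ^ k)
      hb0 (by omega) hcb (conn_blk hd)
    have i1 := ih (by omega) p hp.1 (by have := hp.2.1; omega) (by have := hp.2.2; omega)
    -- the column
    have hVd' := hVd b
    have habs := abs_le.1 (show |yb s u k b + d - yb s u k (b + 1)| ≤ V - len k by linarith)
    have hcol : Cr (sl s u w 0 N) q z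
        (colS (((b + 1 : ℕ) : ℤ) * 2 ^ k) (yb s u k (b + 1) - V) (2 * V) t) t := by
      refine Cr_col ht' (by positivity) hb ?_ ?_ hz1 ?_ ?_ hz2 hz3
      · push_cast at hya' ⊢
        linarith
      · rw [hq.1]; push_cast; ring
      · have := hq.2.1
        omega
      · have := hq.2.2
        omega
    refine ((i1.trans hcr).trans hcol).mono subset_rfl (le_of_eq ?_)
    rw [Finset.sum_range_succ (fun j : ℕ => blk CR k (j * 2 ^ k) (yb s u k j) d t) b,
      Finset.sum_range_succ (fun j : ℕ => colS (j * 2 ^ k) (yb s u k j - V) (2 * V) t) (b + 1)]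
    have : TE (Box ((b : ℤ) * 2 ^ k) ((b : ℤ) * 2 ^ k + 2 ^ k) (yb s u k b) (CR * 2 ^ k))
      (seg ((b : ℤ) * 2 ^ k) (yb s u k b) (len k))
      (seg ((b : ℤ) * 2 ^ k + 2 ^ k) (yb s u k b + d) (len k)) t =
      blk CR k (b * 2 ^ k) (yb s u k b) d t := rfl
    rw [this]
    ring

/-- the whole walk -/
lemma whole {t : Environment} (ht' : Nn t) {s u w : ℝ} {N : ℕ} {CR k V V' q n' : ℕ} {d : ℤ}
    (hd : |d| ≤ CR * 2 ^ k) (hV : len k ≤ V)
    (hVd : ∀ b : ℕ, |yb s u k b + d - yb s u k (b + 1)| + len k ≤ V)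
    (hw1 : 1 + ((V : ℝ) + 3) + |s| * 3 ≤ w) (hw2 : 1 + (CR : ℝ) * 2 ^ k + |s| * 2 ^ k ≤ w)
    (hN : q * 2 ^ k + n' + 3 = N)
    (hV' : |⌊u + s * N⌋ - yb s u k q| ≤ V')
    (hw3 : 1 + ((V' : ℝ) + 3) + |s| * 3 ≤ w) (hw4 : 4 + 2 * |s| * (n' + 3) ≤ w) :
    Cr (sl s u w 0 N) (0, ⌊u⌋) (N, ⌊u + s * N⌋)
      (∑ j ∈ Finset.range q, blk CR k (j * 2 ^ k) (yb s u k j) d t +
        ∑ j ∈ Finset.range (q + 1), colS (j * 2 ^ k) (yb s u k j - V) (2 * V) t +
        colS (q * 2 ^ k) (yb s u k q - V') (2 * V') t +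
        rowS (q * 2 ^ k) ⌊u + s * N⌋ n' t +
        (t (eH (N - 3) ⌊u + s * N⌋) + t (eH (N - 2) ⌊u + s * N⌋) +
          t (eH (N - 1) ⌊u + s * N⌋))) t := by
  set ys : ℤ := ⌊u + s * N⌋ with hys
  have h2k : (0 : ℤ) < 2 ^ k := by positivity
  have hNz : (q : ℤ) * 2 ^ k + n' + 3 = N := by exact_mod_cast hN
  have hNr : (q : ℝ) * 2 ^ k + n' + 3 = N := by exact_mod_cast hN
  have hy0 : yb s u k 0 = ⌊u⌋ := by
    unfold yb
    simp
  have hq0 : 0 ≤ (q : ℤ) * 2 ^ k := by positivity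
  have c1 := chain_blocks ht' (N := N) hd hV hVd hw1 hw2 q (by omega) ((q : ℤ) * 2 ^ k, yb s u k q)
    rfl (by simp only; omega) (by simp only; omega)
  rw [hy0] at c1
  have hya := yb_abs s u k q
  rw [abs_le] at hV'
  have c2 : Cr (sl s u w 0 N) ((q : ℤ) * 2 ^ k, yb s u k q) ((q : ℤ) * 2 ^ k, ys)
      (colS (q * 2 ^ k) (yb s u k q - V') (2 * V') t) t := by
    refine Cr_col ht' hq0 (by omega) ?_ rfl rfl (by simp only; omega) (by simp only; omega)
      (by simp only; omega) (by simp only; omega)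
    push_cast at hya ⊢
    linarith
  have hysr : |(ys : ℝ) - s * N - u| ≤ 1 := by
    have h1 := Int.floor_le (u + s * N)
    have h2 := Int.lt_floor_add_one (u + s * N)
    rw [hys, abs_le]
    constructor <;> linarith
  have hyx : ∀ x : ℝ, x ≤ N → |(ys : ℝ) - s * x - u| ≤ 1 + |s| * (N - x) := by
    intro x hx
    have e : (ys : ℝ) - s * x - u = ((ys : ℝ) - s * N - u) + s * (N - x) := by ring
    rw [e]
    refine (abs_add_le _ _).trans ?_
    rw [abs_mul, abs_of_nonneg (by linarith : (0 : ℝ) ≤ N - x)]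
    linarith
  have hs0 := abs_nonneg s
  have hn0 : (0 : ℝ) ≤ n' := by positivity
  have c3 : Cr (sl s u w 0 N) ((q : ℤ) * 2 ^ k, ys) ((q : ℤ) * 2 ^ k + n', ys)
      (rowS (q * 2 ^ k) ys n' t) t := by
    refine Cr_row ht' hq0 (by omega) ?_
    have := hyx (q * 2 ^ k) (by linarith)
    push_cast
    have e : (N : ℝ) - q * 2 ^ k = n' + 3 := by linarith
    rw [e] at this
    nlinarith
  have cE : ∀ j : ℤ, 1 ≤ j → j ≤ 3 → Cr (sl s u w 0 N) ((N : ℤ) - j, ys) ((N : ℤ) - j + 1, ys)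
      (t (eH (N - j) ys)) t := by
    intro j hj1 hj3
    refine Cr_edge (by omega) (by omega) ?_
    have hj1' : (1 : ℝ) ≤ j := by exact_mod_cast hj1
    have hj3' : (j : ℝ) ≤ 3 := by exact_mod_cast hj3
    have := hyx (N - j) (by linarith)
    push_cast
    have e : (N : ℝ) - (N - j) = j := by ring
    rw [e] at this
    nlinarith
  have c4 := cE 3 (by norm_num) (by norm_num)
  have c5 := cE 2 (by norm_num) (by norm_num)
  have c6 := cE 1 (by norm_num) (by norm_num)
  have e1 : (q : ℤ) * 2 ^ k + n' = N - 3 := by omega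
  have e2 : (N : ℤ) - 3 + 1 = N - 2 := by ring
  have e3 : (N : ℤ) - 2 + 1 = N - 1 := by ring
  have e4 : (N : ℤ) - 1 + 1 = N := by ring
  rw [e1] at c3
  rw [e2] at c4
  rw [e3] at c5
  rw [e4] at c6
  refine (((((c1.trans c2).trans c3).trans c4).trans c5).trans c6).mono subset_rfl (le_of_eq ?_)
  ring

/-! ### growth -/

lemma growth (C : ℝ) : ∃ k1 : ℕ, ∀ k : ℕ, k1 ≤ k → ∀ N : ℝ, th ^ (17 * k) ≤ N →
    C * th ^ (16 * k) ≤ N ^ (19 / 20 : ℝ) := by
  obtain ⟨k1, hk1⟩ := pow_unbounded_of_one_lt C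
    (show (1 : ℝ) < (2 : ℝ) ^ (3 / 320 : ℝ) from Real.one_lt_rpow (by norm_num) (by norm_num))
  refine ⟨k1, fun k hk N hN => ?_⟩
  have h0 : 0 < th ^ (17 * k) := pow_pos th_pos _
  have h1 : (th ^ (17 * k)) ^ (19 / 20 : ℝ) ≤ N ^ (19 / 20 : ℝ) :=
    Real.rpow_le_rpow h0.le hN (by norm_num)
  refine le_trans ?_ h1
  have h2 : C ≤ ((2 : ℝ) ^ (3 / 320 : ℝ)) ^ k :=
    hk1.le.trans (pow_le_pow_right₀ (Real.one_le_rpow (by norm_num) (by norm_num)) hk)
  calc C * th ^ (16 * k) ≤ ((2 : ℝ) ^ (3 / 320 : ℝ)) ^ k * th ^ (16 * k) := by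
        have := pow_pos th_pos (16 * k)
        gcongr
    _ = (th ^ (17 * k)) ^ (19 / 20 : ℝ) := by
        rw [th_pow, th_pow, ← Real.rpow_natCast, ← Real.rpow_mul (by norm_num),
          ← Real.rpow_mul (by norm_num), ← Real.rpow_add (by norm_num)]
        congr 1
        push_cast
        ring

lemma raw_tail (G : Measure ℝ) [IsProbabilityMeasure G] {ε : ℝ} (hε : 0 < ε) :
    ∃ x0 : ℝ, ∀ x : ℝ, x0 ≤ x → ∀ e1 e2 e3 : Edge,
      (iidLaw G).real {t | x < t e1 + t e2 + t e3} ≤ ε := by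
  have h1 : Tendsto (fun n : ℕ => G (Set.Ioi (n : ℝ))) atTop (𝓝 0) := by
    have hm : Antitone fun n : ℕ => Set.Ioi (n : ℝ) := by
      intro m n hmn
      exact Set.Ioi_subset_Ioi (by exact_mod_cast hmn)
    have := tendsto_measure_iInter_atTop (μ := G) (s := fun n : ℕ => Set.Ioi (n : ℝ))
      (fun n => measurableSet_Ioi.nullMeasurableSet) hm ⟨0, measure_ne_top _ _⟩
    have e : ⋂ n : ℕ, Set.Ioi (n : ℝ) = ∅ := by
      ext x
      simp only [Set.mem_iInter, Set.mem_Ioi, Set.mem_empty_iff_false, iff_false, not_forall,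
        not_lt]
      obtain ⟨n, hn⟩ := exists_nat_ge x
      exact ⟨n, hn⟩
    rwa [e, measure_empty] at this
  have h2 : ∀ᶠ n : ℕ in atTop, G (Set.Ioi (n : ℝ)) < ENNReal.ofReal (ε / 3) :=
    h1.eventually (gt_mem_nhds (by simpa using hε))
  obtain ⟨n, hn⟩ := h2.exists
  refine ⟨3 * n, fun x hx e1 e2 e3 => ?_⟩
  have hsub : {t : Environment | x < t e1 + t e2 + t e3} ⊆
      ({t | (n : ℝ) < t e1} ∪ {t | (n : ℝ) < t e2}) ∪ {t | (n : ℝ) < t e3} := by
    intro t ht
    simp only [Set.mem_union, Set.mem_ofPred_eq] at ht ⊢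
    by_contra hcon
    push Not at hcon
    linarith [hcon.1.1, hcon.1.2, hcon.2]
  have hp : ∀ e : Edge, (iidLaw G).real {t | (n : ℝ) < t e} ≤ ε / 3 := by
    intro e
    have h3 : (iidLaw G) {t | (n : ℝ) < t e} = G (Set.Ioi (n : ℝ)) :=
      (mp_eval (G := G) e).measure_preimage measurableSet_Ioi.nullMeasurableSet
    rw [measureReal_def, h3]
    exact ENNReal.toReal_le_of_le_ofReal (by positivity) hn.le
  calc (iidLaw G).real {t | x < t e1 + t e2 + t e3}
      ≤ (iidLaw G).real (({t | (n : ℝ) < t e1} ∪ {t | (n : ℝ) < t e2}) ∪ {t | (n : ℝ) < t e3}) :=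
        measureReal_mono hsub
    _ ≤ (iidLaw G).real ({t | (n : ℝ) < t e1} ∪ {t | (n : ℝ) < t e2}) +
        (iidLaw G).real {t | (n : ℝ) < t e3} := measureReal_union_le _ _
    _ ≤ (iidLaw G).real {t | (n : ℝ) < t e1} + (iidLaw G).real {t | (n : ℝ) < t e2} +
        (iidLaw G).real {t | (n : ℝ) < t e3} := by
        gcongr
        exact measureReal_union_le _ _
    _ ≤ ε := by linarith [hp e1, hp e2, hp e3]

/-- random nonnegative part of the cost -/
noncomputable def WW (G : Measure ℝ) (s u : ℝ) (CR k V V' q n' : ℕ) (d ys : ℤ)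
    (t : Environment) : ℝ :=
  ∑ j ∈ Finset.range q, |blk CR k ((j : ℤ) * 2 ^ k) (yb s u k j) d t - tau G CR k d| +
    ∑ j ∈ Finset.range (q + 1), colS ((j : ℤ) * 2 ^ k) (yb s u k j - V) (2 * V) t +
    colS (q * 2 ^ k) (yb s u k q - V') (2 * V') t + rowS (q * 2 ^ k) ys n' t

lemma WW_bound (H : Hyp G al be s a) {CR k : ℕ} {C1 : ℝ} (V V' q n' : ℕ) (d ys : ℤ) (u : ℝ)
    (hdev : ∀ x0 y0 : ℤ, Integrable (blk CR k x0 y0 d) (iidLaw G) ∧
      ∫ t, |blk CR k x0 y0 d t - tau G CR k d| ∂(iidLaw G) ≤ C1) :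
    Integrable (WW G s u CR k V V' q n' d ys) (iidLaw G) ∧
    ∫ t, WW G s u CR k V V' q n' d ys t ∂(iidLaw G) ≤
      q * C1 + (q + 1) * (2 * V * cS G) + 2 * V' * cS G + n' * cS G := by
  have i1 : ∀ j ∈ Finset.range q, Integrable (fun t =>
      |blk CR k ((j : ℤ) * 2 ^ k) (yb s u k j) d t - tau G CR k d|) (iidLaw G) :=
    fun j _ => ((hdev _ _).1.sub (integrable_const _)).abs
  have i2 : ∀ j ∈ Finset.range (q + 1), Integrable
      (colS ((j : ℤ) * 2 ^ k) (yb s u k j - V) (2 * V)) (iidLaw G) :=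
    fun j _ => integrable_colS H _ _ _
  have i3 := integrable_colS H (q * 2 ^ k) (yb s u k q - V') (2 * V')
  have i4 := integrable_rowS H (q * 2 ^ k) ys n'
  have j1 := integrable_finsetSum _ i1
  have j2 := integrable_finsetSum _ i2
  have j12 : Integrable (fun t => ∑ j ∈ Finset.range q,
      |blk CR k ((j : ℤ) * 2 ^ k) (yb s u k j) d t - tau G CR k d| +
      ∑ j ∈ Finset.range (q + 1), colS ((j : ℤ) * 2 ^ k) (yb s u k j - V) (2 * V) t)
      (iidLaw G) := j1.add j2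
  have j123 : Integrable (fun t => ∑ j ∈ Finset.range q,
      |blk CR k ((j : ℤ) * 2 ^ k) (yb s u k j) d t - tau G CR k d| +
      ∑ j ∈ Finset.range (q + 1), colS ((j : ℤ) * 2 ^ k) (yb s u k j - V) (2 * V) t +
      colS (q * 2 ^ k) (yb s u k q - V') (2 * V') t) (iidLaw G) := j12.add i3
  refine ⟨j123.add i4, ?_⟩
  unfold WW
  rw [integral_add j123 i4, integral_add j12 i3, integral_add j1 j2, integral_finsetSum _ i1,
    integral_finsetSum _ i2]
  have b1 : ∑ j ∈ Finset.range q, ∫ t, |blk CR k ((j : ℤ) * 2 ^ k) (yb s u k j) d t -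
      tau G CR k d| ∂(iidLaw G) ≤ q * C1 := by
    calc _ ≤ ∑ _j ∈ Finset.range q, C1 := Finset.sum_le_sum fun j _ => (hdev _ _).2
      _ = _ := by simp
  have b2 : ∑ j ∈ Finset.range (q + 1), ∫ t, colS ((j : ℤ) * 2 ^ k) (yb s u k j - V) (2 * V) t
      ∂(iidLaw G) ≤ (q + 1) * (2 * V * cS G) := by
    calc _ ≤ ∑ _j ∈ Finset.range (q + 1), (2 * V * cS G) :=
          Finset.sum_le_sum fun j _ => by
            have := integral_colS_le H ((j : ℤ) * 2 ^ k) (yb s u k j - V) (2 * V)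
            push_cast at this
            exact this
      _ = _ := by
        rw [Finset.sum_const, Finset.card_range, nsmul_eq_mul]
        push_cast
        ring
  have b3 := integral_colS_le H (q * 2 ^ k) (yb s u k q - V') (2 * V')
  have b4 := integral_rowS_le H (q * 2 ^ k) ys n'
  push_cast at b3
  linarith

set_option maxHeartbeats 2000000 in
/-- (UB) -/
theorem ub (H : Hyp G al be s a) : ∀ ε > 0, ∃ N0 : ℕ, ∀ N : ℕ, N0 ≤ N → ∀ u : ℝ,
    1 - ε ≤ (iidLaw G).real
      (Apt s al be u ((N : ℝ) ^ (19 / 20 : ℝ)) ((N : ℝ) ^ (19 / 20 : ℝ)) N) := by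
  intro ε hε
  obtain ⟨CR, C, kg, hCR1, hC, hgood⟩ := good_d H
  obtain ⟨C1, kd, hdev⟩ := dev_blk (G := G) H.dev hCR1
  obtain ⟨x0, hx0⟩ := raw_tail G (ε := ε / 2) (by positivity)
  have hcS := cS_nonneg (G := G) H.h0
  have hth := one_lt_th
  have hthp := th_pos
  set T17 : ℝ := th ^ 17 with hT17
  have hT17p : 0 < T17 := by positivity
  have hT171 : 1 < T17 := one_lt_pow₀ hth (by norm_num)
  set Kw : ℝ := C + CR + 8 * |s| + 20 with hKw
  set Kd : ℝ := 4 * |al| + |be| * (C * T17 + 4 * |s| + 2) + C * T17 with hKd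
  set Ke : ℝ := |C1| * T17 + 2 * cS G * (C + 4) * (T17 + 1) + 2 * cS G * (4 * |s| + 3) + cS G
    with hKe
  have hKw0 : 0 ≤ Kw := by positivity
  have hKd0 : 0 ≤ Kd := by positivity
  have hKe0 : 0 ≤ Ke := by positivity
  obtain ⟨k1, hk1⟩ := growth (Kw + 3 * Kd + 6 * Ke / ε + 3 * |x0|)
  set k2 := max (max kg kd) k1 with hk2
  obtain ⟨N0, hN0⟩ := exists_nat_ge (T17 ^ k2)
  refine ⟨N0 + 3, fun N hN u => ?_⟩
  have hN3 : 3 ≤ N := by omega
  have hNr : T17 ^ k2 ≤ N := hN0.trans (by exact_mod_cast (by omega : N0 ≤ N))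
  have hN1 : (1 : ℝ) ≤ N := by exact_mod_cast (by omega : 1 ≤ N)
  obtain ⟨k, hka, hkb⟩ := exists_nat_pow_near hN1 hT171
  have hkk : k2 ≤ k := by
    by_contra hcon
    have : T17 ^ (k + 1) ≤ T17 ^ k2 := pow_le_pow_right₀ hT171.le (by omega)
    linarith
  have hkg : kg ≤ k := ((le_max_left _ _).trans (le_max_left _ _)).trans hkk
  have hkd : kd ≤ k := ((le_max_right _ _).trans (le_max_left _ _)).trans hkk
  have hkk1 : k1 ≤ k := (le_max_right _ _).trans hkk
  obtain ⟨d, hd1, hd2, hd3⟩ := hgood k hkg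
  set X : ℝ := (N : ℝ) ^ (19 / 20 : ℝ) with hX
  set P : ℝ := (2 : ℝ) ^ k with hP
  have hP16 : th ^ (16 * k) = P := th_pow16 k
  have hP1 : 1 ≤ P := one_le_pow₀ (by norm_num)
  set Q : ℝ := th ^ (15 * k) with hQ
  have hQ1 : 1 ≤ Q := one_le_pow₀ hth.le
  have hQP : Q ≤ P := by
    rw [← hP16]
    exact pow_le_pow_right₀ hth.le (by omega)
  have hXbig : (Kw + 3 * Kd + 6 * Ke / ε + 3 * |x0|) * P ≤ X := by
    have := hk1 k hkk1 N (by rw [pow_mul]; exact hka)
    rwa [hP16] at this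
  have hKe' : 0 ≤ 6 * Ke / ε := by positivity
  have hX1 : Kw * P ≤ X := by
    refine le_trans (mul_le_mul_of_nonneg_right ?_ (by linarith)) hXbig
    have := abs_nonneg x0
    linarith
  have hX2 : 3 * Kd * P ≤ X := by
    refine le_trans (mul_le_mul_of_nonneg_right ?_ (by linarith)) hXbig
    have := abs_nonneg x0
    linarith
  have hX3 : 6 * Ke / ε * P ≤ X := by
    refine le_trans (mul_le_mul_of_nonneg_right ?_ (by linarith)) hXbig
    have := abs_nonneg x0
    linarith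
  have hX4 : 3 * |x0| * P ≤ X := by
    refine le_trans (mul_le_mul_of_nonneg_right ?_ (by linarith)) hXbig
    linarith
  have hXpos : 0 < X := by positivity
  -- the numbers
  set q : ℕ := (N - 3) / 2 ^ k with hq
  set n' : ℕ := (N - 3) % 2 ^ k with hn'
  have hNq : q * 2 ^ k + n' + 3 = N := by
    have := Nat.div_add_mod (N - 3) (2 ^ k)
    rw [← hq, ← hn', mul_comm] at this
    omega
  have hn'lt : n' < 2 ^ k := Nat.mod_lt _ (by positivity)
  have hNqr : (q : ℝ) * P + n' + 3 = N := by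
    rw [hP]
    exact_mod_cast hNq
  have hn'r : (n' : ℝ) ≤ P := by
    rw [hP]
    exact_mod_cast hn'lt.le
  have hn'0 : (0 : ℝ) ≤ n' := by positivity
  have hq0 : (0 : ℝ) ≤ q := by positivity
  have hqQ : (q : ℝ) * Q ≤ T17 * P := by
    have e1 : (q : ℝ) * P ≤ T17 ^ (k + 1) := by linarith
    have e2 : T17 ^ (k + 1) * Q = T17 * P * P := by
      rw [hT17, hQ, ← hP16]
      ring
    have e3 : (q : ℝ) * Q * P ≤ T17 * P * P := by
      rw [← e2]
      calc (q : ℝ) * Q * P = (q * P) * Q := by ring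
        _ ≤ _ := by gcongr
    exact le_of_mul_le_mul_right e3 (by linarith)
  have hl : (len k : ℝ) ≤ Q := len_le_th k
  set V : ℕ := ⌈(C + 2) * Q⌉₊ with hV
  have hVge : (C + 2) * Q ≤ V := Nat.le_ceil _
  have hVle : (V : ℝ) ≤ (C + 4) * Q := by
    have := (Nat.ceil_lt_add_one (show 0 ≤ (C + 2) * Q by positivity)).le
    rw [← hV] at this
    nlinarith
  set V' : ℕ := ⌈|s| * (n' + 3)⌉₊ + 2 with hV'
  have hV'ge : |s| * (n' + 3) + 2 ≤ V' := by
    rw [hV']
    push_cast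
    have := Nat.le_ceil (|s| * ((n' : ℝ) + 3))
    linarith
  have hs0 := abs_nonneg s
  have hV'le : (V' : ℝ) ≤ (4 * |s| + 3) * P := by
    rw [hV']
    push_cast
    have := (Nat.ceil_lt_add_one (show 0 ≤ |s| * ((n' : ℝ) + 3) by positivity)).le
    have e : |s| * ((n' : ℝ) + 3) ≤ |s| * (4 * P) := by
      apply mul_le_mul_of_nonneg_left _ hs0
      linarith
    nlinarith
  have hd0 : |d| ≤ CR * 2 ^ k := by
    have : (0 : ℤ) < 2 ^ k := by positivity
    linarith
  have hlV : len k ≤ V := by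
    have : (len k : ℝ) ≤ V := by nlinarith
    exact_mod_cast this
  have hVd : ∀ b : ℕ, |yb s u k b + d - yb s u k (b + 1)| + len k ≤ V := by
    intro b
    have h1 := yb_succ s u k b
    have h2 : |(yb s u k b : ℝ) + d - yb s u k (b + 1)| ≤ C * Q + 1 := by
      have e : (yb s u k b : ℝ) + d - yb s u k (b + 1) = (d - s * 2 ^ k) -
        ((yb s u k (b + 1) : ℝ) - yb s u k b - s * 2 ^ k) := by ring
      rw [e]
      exact (abs_sub _ _).trans (by linarith)
    have h3 : |(yb s u k b : ℝ) + d - yb s u k (b + 1)| + len k ≤ V := by nlinarith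
    exact_mod_cast h3
  set ys : ℤ := ⌊u + s * N⌋ with hys
  have hysr : |(ys : ℝ) - s * N - u| ≤ 1 := by
    have h1 := Int.floor_le (u + s * N)
    have h2 := Int.lt_floor_add_one (u + s * N)
    rw [hys, abs_le]
    constructor <;> linarith
  have hV'd : |ys - yb s u k q| ≤ V' := by
    have h1 := yb_abs s u k q
    have h2 : |(ys : ℝ) - yb s u k q| ≤ V' := by
      refine le_trans ?_ hV'ge
      have e : (ys : ℝ) - yb s u k q = ((ys : ℝ) - s * N - u) -
        ((yb s u k q : ℝ) - s * (q * 2 ^ k) - u) + s * (N - q * P) := by rw [hP]; ring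
      rw [e]
      have e1 := abs_add_le (((ys : ℝ) - s * N - u) -
        ((yb s u k q : ℝ) - s * (q * 2 ^ k) - u)) (s * (N - q * P))
      have e2 := abs_sub ((ys : ℝ) - s * N - u) ((yb s u k q : ℝ) - s * (q * 2 ^ k) - u)
      have e3 : |s * ((N : ℝ) - q * P)| = |s| * (n' + 3) := by
        rw [abs_mul, abs_of_nonneg (by linarith : (0 : ℝ) ≤ N - q * P)]
        congr 1
        linarith
      linarith
    exact_mod_cast h2
  have hCRr : (1 : ℝ) ≤ CR := by exact_mod_cast hCR1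
  have hw1 : 1 + ((V : ℝ) + 3) + |s| * 3 ≤ X := by
    refine le_trans ?_ hX1
    rw [hKw]
    nlinarith
  have hw2 : 1 + (CR : ℝ) * 2 ^ k + |s| * 2 ^ k ≤ X := by
    refine le_trans ?_ hX1
    rw [hKw, ← hP]
    nlinarith
  have hw3 : 1 + ((V' : ℝ) + 3) + |s| * 3 ≤ X := by
    refine le_trans ?_ hX1
    rw [hKw]
    nlinarith
  have hw4 : 4 + 2 * |s| * (n' + 3) ≤ X := by
    refine le_trans ?_ hX1
    rw [hKw]
    have e : 2 * |s| * ((n' : ℝ) + 3) ≤ 2 * |s| * (4 * P) := by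
      apply mul_le_mul_of_nonneg_left _ (by positivity)
      linarith
    nlinarith
  -- the random part
  obtain ⟨hWi, hWb⟩ := WW_bound H (C1 := C1 * th ^ (10 * k)) V V' q n' d ys u
    (fun x0 y0 => hdev k hkd x0 y0 d hd1)
  have hEW : ∫ t, WW G s u CR k V V' q n' d ys t ∂(iidLaw G) ≤ Ke * P := by
    refine hWb.trans ?_
    have e1 : (q : ℝ) * (C1 * th ^ (10 * k)) ≤ |C1| * T17 * P := by
      have : th ^ (10 * k) ≤ Q := pow_le_pow_right₀ hth.le (by omega)
      calc (q : ℝ) * (C1 * th ^ (10 * k)) ≤ q * (|C1| * Q) := by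
            gcongr
            exact le_abs_self C1
        _ = |C1| * (q * Q) := by ring
        _ ≤ |C1| * (T17 * P) := by gcongr
        _ = _ := by ring
    have e2 : ((q : ℝ) + 1) * (2 * V * cS G) ≤ 2 * cS G * (C + 4) * (T17 + 1) * P := by
      calc ((q : ℝ) + 1) * (2 * V * cS G) ≤ (q + 1) * (2 * ((C + 4) * Q) * cS G) := by gcongr
        _ = 2 * cS G * (C + 4) * (q * Q + Q) := by ring
        _ ≤ 2 * cS G * (C + 4) * (T17 * P + P) := by gcongr
        _ = _ := by ring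
    have e3 : 2 * V' * cS G ≤ 2 * cS G * (4 * |s| + 3) * P := by
      calc 2 * V' * cS G ≤ 2 * ((4 * |s| + 3) * P) * cS G := by gcongr
        _ = _ := by ring
    have e4 : (n' : ℝ) * cS G ≤ cS G * P := by
      rw [mul_comm]
      gcongr
    rw [hKe]
    linarith
  -- the inclusion
  have hincl : ∀ t, Nn t → WW G s u CR k V V' q n' d ys t ≤ X / 3 →
      t (eH (N - 3) ys) + t (eH (N - 2) ys) + t (eH (N - 1) ys) ≤ X / 3 →
      t ∈ Apt s al be u X X N := by
    intro t ht hW hraw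
    have hc := whole ht (s := s) (u := u) (w := X) hd0 hlV hVd hw1 hw2 hNq hV'd hw3 hw4
    refine Cr.mono hc subset_rfl ?_
    have hsum : ∑ j ∈ Finset.range q, blk CR k ((j : ℤ) * 2 ^ k) (yb s u k j) d t ≤
        ∑ j ∈ Finset.range q, |blk CR k ((j : ℤ) * 2 ^ k) (yb s u k j) d t - tau G CR k d| +
          q * tau G CR k d := by
      have : ∑ j ∈ Finset.range q, blk CR k ((j : ℤ) * 2 ^ k) (yb s u k j) d t ≤
          ∑ j ∈ Finset.range q, (|blk CR k ((j : ℤ) * 2 ^ k) (yb s u k j) d t - tau G CR k d| +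
            tau G CR k d) := by
        refine Finset.sum_le_sum fun j _ => ?_
        have := le_abs_self (blk CR k ((j : ℤ) * 2 ^ k) (yb s u k j) d t - tau G CR k d)
        linarith
      rw [Finset.sum_add_distrib, Finset.sum_const, Finset.card_range, nsmul_eq_mul] at this
      exact this
    have hdet : (q : ℝ) * tau G CR k d ≤ al * N + be * (ys - ⌊u⌋) + X / 3 := by
      have e0 : (q : ℝ) * tau G CR k d ≤ q * (al * P + be * d + C * Q) := by gcongr
      have e1 : al * (q * P - N) ≤ 4 * |al| * P := by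
        calc al * (q * P - N) ≤ |al * (q * P - N)| := le_abs_self _
          _ = |al| * |(q : ℝ) * P - N| := abs_mul _ _
          _ ≤ |al| * (4 * P) := by
            apply mul_le_mul_of_nonneg_left _ (abs_nonneg _)
            rw [abs_le]
            constructor <;> linarith
          _ = _ := by ring
      have hfu : |(⌊u⌋ : ℝ) - u| ≤ 1 := by
        have h1 := Int.floor_le u
        have h2 := Int.lt_floor_add_one u
        rw [abs_le]
        constructor <;> linarith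
      have e2 : |(q : ℝ) * d - (ys - ⌊u⌋)| ≤ (C * T17 + 4 * |s| + 2) * P := by
        have e3 : (q : ℝ) * d - (ys - ⌊u⌋) = q * (d - s * 2 ^ k) + s * (q * P - N) +
            (((⌊u⌋ : ℝ) - u) - ((ys : ℝ) - s * N - u)) := by rw [hP]; ring
        rw [e3]
        have f1 : |(q : ℝ) * (d - s * 2 ^ k)| ≤ C * T17 * P := by
          rw [abs_mul, abs_of_nonneg hq0]
          calc (q : ℝ) * |(d : ℝ) - s * 2 ^ k| ≤ q * (C * Q) := by gcongr
            _ = C * (q * Q) := by ring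
            _ ≤ C * (T17 * P) := by gcongr
            _ = _ := by ring
        have f2 : |s * ((q : ℝ) * P - N)| ≤ 4 * |s| * P := by
          rw [abs_mul]
          have : |(q : ℝ) * P - N| ≤ 4 * P := by
            rw [abs_le]
            constructor <;> linarith
          calc |s| * |(q : ℝ) * P - N| ≤ |s| * (4 * P) := by gcongr
            _ = _ := by ring
        have f3 := abs_sub ((⌊u⌋ : ℝ) - u) ((ys : ℝ) - s * N - u)
        have f4 := abs_add_le ((q : ℝ) * (d - s * 2 ^ k) + s * (q * P - N))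
          (((⌊u⌋ : ℝ) - u) - ((ys : ℝ) - s * N - u))
        have f5 := abs_add_le ((q : ℝ) * (d - s * 2 ^ k)) (s * (q * P - N))
        have f6 : (C * T17 + 4 * |s| + 2) * P = C * T17 * P + 4 * |s| * P + 2 * P := by ring
        rw [f6]
        linarith
      have e4 : be * (q * d - (ys - ⌊u⌋)) ≤ |be| * ((C * T17 + 4 * |s| + 2) * P) := by
        calc be * ((q : ℝ) * d - (ys - ⌊u⌋)) ≤ |be * (q * d - (ys - ⌊u⌋))| := le_abs_self _
          _ = |be| * |(q : ℝ) * d - (ys - ⌊u⌋)| := abs_mul _ _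
          _ ≤ _ := by gcongr
      have e5 : (q : ℝ) * (C * Q) ≤ C * T17 * P := by
        calc (q : ℝ) * (C * Q) = C * (q * Q) := by ring
          _ ≤ C * (T17 * P) := by gcongr
          _ = _ := by ring
      have e6 : Kd * P ≤ X / 3 := by linarith
      have e7 : Kd * P = 4 * |al| * P + |be| * ((C * T17 + 4 * |s| + 2) * P) + C * T17 * P := by
        rw [hKd]
        ring
      rw [e7] at e6
      have e8 : (q : ℝ) * (al * P + be * d + C * Q) = al * (q * P - N) + al * N +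
          be * (q * d - (ys - ⌊u⌋)) + be * (ys - ⌊u⌋) + q * (C * Q) := by ring
      rw [e8] at e0
      linarith
    have hWd : WW G s u CR k V V' q n' d ys t =
      ∑ j ∈ Finset.range q, |blk CR k ((j : ℤ) * 2 ^ k) (yb s u k j) d t - tau G CR k d| +
      ∑ j ∈ Finset.range (q + 1), colS ((j : ℤ) * 2 ^ k) (yb s u k j - V) (2 * V) t +
      colS (q * 2 ^ k) (yb s u k q - V') (2 * V') t + rowS (q * 2 ^ k) ys n' t := rfl
    have hlin : lin al be ((N : ℤ), ys) - lin al be (0, ⌊u⌋) = al * N + be * (ys - ⌊u⌋) := by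
      unfold lin
      push_cast
      ring
    rw [hlin]
    linarith
  -- probabilities
  have hW0 : 0 ≤ᵐ[iidLaw G] WW G s u CR k V V' q n' d ys := by
    filter_upwards [ae_Nn H.h0] with t ht
    unfold WW
    have h1 : 0 ≤ ∑ j ∈ Finset.range q, |blk CR k ((j : ℤ) * 2 ^ k) (yb s u k j) d t -
      tau G CR k d| := Finset.sum_nonneg fun _ _ => abs_nonneg _
    have h2 : 0 ≤ ∑ j ∈ Finset.range (q + 1),
      colS ((j : ℤ) * 2 ^ k) (yb s u k j - V) (2 * V) t :=
      Finset.sum_nonneg fun _ _ => colS_nonneg ht _ _ _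
    have h3 := colS_nonneg ht (q * 2 ^ k) (yb s u k q - V') (2 * V')
    have h4 := rowS_nonneg ht (q * 2 ^ k) ys n'
    simp only [Pi.zero_apply]
    linarith
  have pW : (iidLaw G).real {t | X / 3 ≤ WW G s u CR k V V' q n' d ys t} ≤ ε / 2 := by
    have h1 := mul_meas_ge_le_integral_of_nonneg hW0 hWi (X / 3)
    have h2 : X / 3 * (iidLaw G).real {t | X / 3 ≤ WW G s u CR k V V' q n' d ys t} ≤
        X / 3 * (ε / 2) := by
      refine h1.trans (hEW.trans ?_)
      have : 6 * Ke / ε * P * ε ≤ X * ε := by gcongr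
      have e : 6 * Ke / ε * P * ε = 6 * Ke * P := by field_simp
      rw [e] at this
      linarith
    exact le_of_mul_le_mul_left h2 (by positivity)
  have pR := hx0 (X / 3) (by
    have : |x0| ≤ |x0| * P := le_mul_of_one_le_right (abs_nonneg _) hP1
    have := le_abs_self x0
    linarith) (eH (N - 3) ys) (eH (N - 2) ys) (eH (N - 1) ys)
  have pN : (iidLaw G).real {t | ¬ Nn t} = 0 := by
    rw [measureReal_def]
    have : (iidLaw G) {t | ¬ Nn t} = 0 := ae_iff.1 (ae_Nn H.h0)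
    rw [this]
    simp
  have huniv : (Set.univ : Set Environment) ⊆ ((Apt s al be u X X N ∪
      {t | X / 3 ≤ WW G s u CR k V V' q n' d ys t}) ∪
      {t | X / 3 < t (eH (N - 3) ys) + t (eH (N - 2) ys) + t (eH (N - 1) ys)}) ∪
      {t | ¬ Nn t} := by
    intro t _
    by_contra hcon
    simp only [Set.mem_union, Set.mem_ofPred_eq, not_or, not_not, not_le, not_lt] at hcon
    obtain ⟨⟨⟨h1, h2⟩, h3⟩, h4⟩ := hcon
    exact h1 (hincl t h4 h2.le h3)
  have p1 : (iidLaw G).real Set.univ = 1 := by simp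
  have := measureReal_mono (μ := iidLaw G) huniv
  rw [p1] at this
  have u1 := measureReal_union_le (μ := iidLaw G) ((Apt s al be u X X N ∪
      {t | X / 3 ≤ WW G s u CR k V V' q n' d ys t}) ∪
      {t | X / 3 < t (eH (N - 3) ys) + t (eH (N - 2) ys) + t (eH (N - 1) ys)}) {t | ¬ Nn t}
  have u2 := measureReal_union_le (μ := iidLaw G) (Apt s al be u X X N ∪
      {t | X / 3 ≤ WW G s u CR k V V' q n' d ys t})
      {t | X / 3 < t (eH (N - 3) ys) + t (eH (N - 2) ys) + t (eH (N - 1) ys)}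
  have u3 := measureReal_union_le (μ := iidLaw G) (Apt s al be u X X N)
      {t | X / 3 ≤ WW G s u CR k V V' q n' d ys t}
  linarith

end Crest.Agent.R151.U
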