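import Crest.Agent.R151.N7
import Crest.Agent.R151.M51J
import Crest.Agent.R151.K8
import Crest.Agent.R151.S113Z

/-!
# R151, part 1 / NOCORNER (helper684), part k: top theorems from the upper bound block

`noCorner_of_ub`, `differentiable_of_ub` (every law of S0213), `differentiable_gamma_of_ub` and
`s0214_of` (S0214 verbatim from the upper bound block and NOFLAT).
-/

set_option autoImplicit false
set_option maxHeartbeats 400000

open MeasureTheory ProbabilityTheory Filter Topology
open Crest.ProbabilityR.FirstPassage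
open Crest.Agent.R151.K Crest.Agent.R151.M51

namespace Crest.Agent.R151.X

variable {G : Measure ℝ} [IsProbabilityMeasure G] {m : ℝ} {μ : ℝ × ℝ → ℝ} {s p0 q0 a : ℝ}

/-- the hypotheses of helper750's block at a corner -/
theorem hyp_of_corner (hG : Law213 G) (hz : G {0} = 0) (hM : Mom G m) (hμ : IsTC1 G μ)
    (hc : N.Corner μ s p0 q0 a) : U.Hyp G p0 q0 s a := by
  refine hyp_213 hG hz ?_ ?_ hc.a_pos
  · intro x
    exact (hc.lower x.1 x.2).trans (hM.mu_le_ET hμ x)
  · have := hM.ET_tendsto_nat hμ (1, s)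
    rw [hc.tight] at this
    refine this.congr fun n => ?_
    congr 2
    simp [fl, mul_comm]

/-- **NOCORNER**, from the upper bound block -/
theorem noCorner_of_ub [NullSingletonClass G] (hG : Law213 G) (hμ : IsTC1 G μ)
    (hub : ∀ al be s a, U.Hyp G al be s a → N.UB G s al be) (s p0 q0 a : ℝ) :
    ¬ N.Corner μ s p0 q0 a := by
  intro hc
  obtain ⟨m, hM⟩ := mom_of_law213 hG
  exact no_corner (N.inputs_of_corner hG hM hμ hc
    (hub _ _ _ _ (hyp_of_corner hG (measure_singleton 0) hM hμ hc)))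

/-- **DIFF**, from the upper bound block: the time constant is differentiable off the origin -/
theorem differentiable_of_ub [NullSingletonClass G] (hG : Law213 G)
    (hμ : IsTC1 G μ) (hub : ∀ al be s a, U.Hyp G al be s a → N.UB G s al be) (v : ℝ × ℝ)
    (hv : v ≠ 0) : DifferentiableAt ℝ μ v := by
  obtain ⟨m, hM⟩ := mom_of_law213 hG
  exact N.differentiableAt_of_noCorner (hM.normLike hμ (measure_singleton 0)) (hM.mu_swap hμ)
    (noCorner_of_ub hG hμ hub) v hv

instance nullSingletonClass_gamma (κ r : ℝ) : NullSingletonClass (gammaMeasure κ r) := by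
  unfold gammaMeasure
  infer_instance

/-- the first half of S0214, from the upper bound block -/
theorem differentiable_gamma_of_ub {κ r : ℝ} (hκ : 0 < κ) (hr : 0 < r)
    (hμ : B710.IsTimeConstant κ r μ)
    (hub : ∀ (G : Measure ℝ) [IsProbabilityMeasure G] (al be s a : ℝ),
      U.Hyp G al be s a → N.UB G s al be) (v : ℝ × ℝ) (hv : v ≠ 0) :
    DifferentiableAt ℝ μ v := by
  have : IsProbabilityMeasure (gammaMeasure κ r) := isProbabilityMeasure_gammaMeasure hκ hr
  have h1 : IsTC1 (gammaMeasure κ r) μ := isTC1_of_isTC (gamma_Iio κ r)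
    (integrable_sq (gamma_Iio κ r) (half_pos hr) (gamma_exp hκ hr)) hμ
  exact differentiable_of_ub (law213_gamma hκ hr) h1 (hub _) v hv

/-- S0214, from the upper bound block and NOFLAT -/
theorem s0214_of
    (hub : ∀ (G : Measure ℝ) [IsProbabilityMeasure G] (al be s a : ℝ),
      U.Hyp G al be s a → N.UB G s al be)
    (hnf : ∀ μ : ℝ × ℝ → ℝ, B710.IsTimeConstant 1 1 μ → B710.NormLike μ → B710.FlatData μ → False)
    (κ r : ℝ) (hκ : 0 < κ) (hr : 0 < r) (μ : ℝ × ℝ → ℝ)
    (hμ : ∀ v : ℝ × ℝ, ∀ᵐ t ∂(iidLaw (ProbabilityTheory.gammaMeasure κ r)),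
      Filter.Tendsto (fun s : ℝ => passageTime t (0, 0) (⌊s * v.1⌋, ⌊s * v.2⌋) / s)
        Filter.atTop (nhds (μ v))) :
    (∀ v : ℝ × ℝ, v ≠ 0 → DifferentiableAt ℝ μ v) ∧
      (κ = 1 → StrictConvex ℝ {v : ℝ × ℝ | μ v ≤ 1}) := by
  have h1 : ∀ v : ℝ × ℝ, v ≠ 0 → DifferentiableAt ℝ μ v :=
    differentiable_gamma_of_ub hκ hr hμ hub
  refine ⟨h1, ?_⟩
  rintro rfl
  exact B710.strictConvex_of_noFlat hnf hr hμ (normLike_gamma one_pos hr hμ) h1

end Crest.Agent.R151.X
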