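import Crest.Agent.R151.U750f
import Crest.Agent.R151.X684k

/-!
# R151/U750g — NOCORNER and DIFF (final theorems of part 1; owner helper750)
-/

set_option autoImplicit false

open MeasureTheory ProbabilityTheory Filter Topology
open Crest.ProbabilityR.FirstPassage
open Crest.Agent.R151.K Crest.Agent.R151.M51

namespace Crest.Agent.R151.U

variable {μ : ℝ × ℝ → ℝ}

/-- NOCORNER for every law of S0213 -/
theorem noCorner {G : Measure ℝ} [IsProbabilityMeasure G] [NullSingletonClass G]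
    (hG : Law213 G) (hμ : IsTC1 G μ) (s p0 q0 a : ℝ) : ¬ N.Corner μ s p0 q0 a :=
  X.noCorner_of_ub hG hμ (fun _ _ _ _ H => ub H) s p0 q0 a

/-- DIFF for every law of S0213: the time constant is differentiable off the origin -/
theorem differentiable {G : Measure ℝ} [IsProbabilityMeasure G] [NullSingletonClass G]
    (hG : Law213 G) (hμ : IsTC1 G μ) (v : ℝ × ℝ) (hv : v ≠ 0) : DifferentiableAt ℝ μ v :=
  X.differentiable_of_ub hG hμ (fun _ _ _ _ H => ub H) v hv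

/-- the first half of S0214 -/
theorem differentiable_gamma {κ r : ℝ} (hκ : 0 < κ) (hr : 0 < r)
    (hμ : B710.IsTimeConstant κ r μ) (v : ℝ × ℝ) (hv : v ≠ 0) : DifferentiableAt ℝ μ v :=
  X.differentiable_gamma_of_ub hκ hr hμ (fun _ _ _ _ _ _ H => ub H) v hv

/-- S0214 from NOFLAT -/
theorem s0214_of_noFlat
    (hnf : ∀ μ : ℝ × ℝ → ℝ, B710.IsTimeConstant 1 1 μ → B710.NormLike μ → B710.FlatData μ → False)
    (κ r : ℝ) (hκ : 0 < κ) (hr : 0 < r) (μ : ℝ × ℝ → ℝ)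
    (hμ : ∀ v : ℝ × ℝ, ∀ᵐ t ∂(iidLaw (ProbabilityTheory.gammaMeasure κ r)),
      Filter.Tendsto (fun s : ℝ => passageTime t (0, 0) (⌊s * v.1⌋, ⌊s * v.2⌋) / s)
        Filter.atTop (nhds (μ v))) :
    (∀ v : ℝ × ℝ, v ≠ 0 → DifferentiableAt ℝ μ v) ∧
      (κ = 1 → StrictConvex ℝ {v : ℝ × ℝ | μ v ≤ 1}) :=
  X.s0214_of (fun _ _ _ _ _ _ H => ub H) hnf κ r hκ hr μ hμ

end Crest.Agent.R151.U
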