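import Crest.Agent.R151.M56a
import Crest.Agent.R151.G338j

/-!
# R151 (S0214 part 2): mean values of the gap fence errors, fixed displacement (helper750)

* `gE_eq` : `gE = hkY - gY + Y + Y` (excess form);
* `Y_mean_lo`, `Y_mean_up` : mean of the highway increments on the row space;
* `gE_fixed` : integrability and mean of `gE` for a fixed displacement;
* `jitter_lo`, `jitter_up` : measure preserving maps (outer row, inner row) -> (jitter, gap row);
* `integrable_jitter`, `integral_jitter_le` : from fixed jitter to random jitter.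
-/

set_option autoImplicit false
set_option linter.unusedSectionVars false

open MeasureTheory Filter ProbabilityTheory Topology Set
open Crest.ProbabilityR.FirstPassage

namespace Crest.Agent.R151.MN750

open Crest.Agent.R151.K Crest.Agent.R151.Q
open R78 (V Wk IsHwy hc hp hull routes hullY ptY gapK)
open M56 (nu gY_integrable gY_nonneg)
open M192 (hp_tr)
open B710 (FlatData)

variable {μ : ℝ × ℝ → ℝ} {F : FlatData μ} (h : Hwy F)

/-! ### Algebra -/

lemma hk_eq_hkY (d : ℝ × ℝ) (I : Set ℝ) (s s' : ℝ) (θ : ℝ × ℝ) (t : Environment) (φ : ℝ × ℝ) :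
    h.hk d I s s' θ t φ = h.hkY d I s s' θ t φ + hp t (phi F) (h.Lo θ t φ) (h.iL s θ t φ) -
      hp t (phi F) (h.Up d θ t φ) (h.iU d s' θ t φ) := by
  unfold Hwy.hkY hullY Hwy.hk
  ring

lemma gK_eq_gY (d : ℝ × ℝ) (s s' : ℝ) (θ : ℝ × ℝ) (t : Environment) (φ : ℝ × ℝ) :
    h.gK d s s' θ t φ = h.gY d s s' θ t φ + hp t (phi F) (h.Lo θ t φ) (h.iL s θ t φ) -
      hp t (phi F) (h.Up d θ t φ) (h.iU d s' θ t φ) := by
  unfold Hwy.gY ptY Hwy.gK gapK hp
  ring

lemma gE_eq (d : ℝ × ℝ) (I : Set ℝ) (L s s' : ℝ) (θ : ℝ × ℝ) (t : Environment) (φ : ℝ × ℝ) :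
    h.gE d I L s s' θ t φ = h.hkY d I s s' θ t φ - h.gY d (-L) L θ t φ +
      h.Y (-L) s φ.1 θ t + h.Y s' L φ.2 (θ - d) t := by
  unfold Hwy.gE
  rw [hk_eq_hkY, gK_eq_gY]
  unfold Hwy.Y Hwy.Lo Hwy.Up Hwy.iL Hwy.iU
  ring

/-! ### Highway increments on the row space -/

lemma Y_inv (s s' u : ℝ) : Inv fun θ t => h.Y s s' u θ t := by
  intro m θ t
  have e : h.H u (θ + toR m) (act (tr m) t) = fun k => h.H u θ t k - m :=
    funext fun k => h.cov u θ t m k
  simp only [Hwy.Y]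
  rw [M192.ix_cov h s u θ t m, M192.ix_cov h s' u θ t m, e, hp_tr, hp_tr]
  ring

variable {G : Measure ℝ} [IsProbabilityMeasure G] {ε : ℝ}

lemma Y_mean_lo (hM : HwyMean G h ε) (s s' : ℝ) :
    Integrable (fun q : ((ℝ × ℝ) × Environment) × (ℝ × ℝ) => h.Y s s' q.2.1 q.1.1 q.1.2) (nu G) ∧
    ∫ q, h.Y s s' q.2.1 q.1.1 q.1.2 ∂(nu G) = (s' - s) * ε := by
  have m1 : MeasurePreserving (Prod.map (id : (ℝ × ℝ) × Environment → _)
      (fun f : ℝ × ℝ => f.1)) (nu G) ((P0 G).prod UU) :=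
    (MeasurePreserving.id _).prod measurePreserving_fst
  have m2 : MeasurePreserving (Prod.swap : ((ℝ × ℝ) × Environment) × ℝ → _)
      ((P0 G).prod UU) (UU.prod (P0 G)) := Measure.measurePreserving_swap
  have m3 := m2.comp m1
  refine ⟨m3.integrable_comp_of_integrable (hM.int s s'), ?_⟩
  rw [← hM.mean s s', ← mp_integral m3 (hM.int s s').aestronglyMeasurable]
  rfl

lemma Y_mean_up (hM : HwyMean G h ε) (s s' : ℝ) (d : ℝ × ℝ) :
    Integrable (fun q : ((ℝ × ℝ) × Environment) × (ℝ × ℝ) =>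
      h.Y s s' q.2.2 (q.1.1 - d) q.1.2) (nu G) ∧
    ∫ q, h.Y s s' q.2.2 (q.1.1 - d) q.1.2 ∂(nu G) = (s' - s) * ε := by
  have m1 : MeasurePreserving (Prod.map (id : (ℝ × ℝ) × Environment → _)
      (fun f : ℝ × ℝ => f.2)) (nu G) ((P0 G).prod UU) :=
    (MeasurePreserving.id _).prod measurePreserving_snd
  have m2 : MeasurePreserving (Prod.swap : ((ℝ × ℝ) × Environment) × ℝ → _)
      ((P0 G).prod UU) (UU.prod (P0 G)) := Measure.measurePreserving_swap
  have m3 := m2.comp m1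
  have hinv : ∀ ψ : ℝ × ℝ, Inv fun θ t => h.Y s s' ψ.2 θ t := fun ψ => Y_inv h s s' ψ.2
  have i0 : Integrable (fun q : ((ℝ × ℝ) × Environment) × (ℝ × ℝ) =>
      h.Y s s' q.2.2 q.1.1 q.1.2) ((P0 G).prod (UU.prod UU)) :=
    m3.integrable_comp_of_integrable (hM.int s s')
  have i1 := integrable_shift_prod (G := G) (ν := UU.prod UU) hinv (-d) i0
  refine ⟨?_, ?_⟩
  · simp only [← sub_eq_add_neg] at i1
    exact i1
  · have hp : MeasurePreserving (Prod.map (S (-d)) (id : ℝ × ℝ → ℝ × ℝ))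
        ((P0 G).prod (UU.prod UU)) ((P0 G).prod (UU.prod UU)) :=
      (mp_S (-d)).prod (MeasurePreserving.id _)
    have e1 := mp_integral hp i0.aestronglyMeasurable
    rw [← hM.mean s s', ← mp_integral m3 (hM.int s s').aestronglyMeasurable]
    refine Eq.trans ?_ e1
    unfold nu
    refine integral_congr_ae (ae_of_all _ fun q => ?_)
    have := (hinv q.2).shift (-d) q.1
    simp only [← sub_eq_add_neg] at this
    exact this

/-! ### Fixed displacement -/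

/-- input for one fence of the row with displacement `d` (R3, R4 and existence of routes) -/
structure FenceIn (G : Measure ℝ) (h : Hwy F) (d : ℝ × ℝ) (I : Set ℝ) (s s' M : ℝ) : Prop where
  int : Integrable (fun q : ((ℝ × ℝ) × Environment) × (ℝ × ℝ) =>
    h.hkY d I s s' q.1.1 q.1.2 q.2) (nu G)
  le : ∫ q, h.hkY d I s s' q.1.1 q.1.2 q.2 ∂(nu G) ≤ M
  ne : ∀ θ t φ, (routes t (h.Lo θ t φ) (h.Up d θ t φ) (rg F I θ) (h.iL s θ t φ)
    (h.iU d s' θ t φ)).Nonempty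

lemma gE_inv (d : ℝ × ℝ) (I : Set ℝ) (L s s' : ℝ) (φ : ℝ × ℝ) :
    Inv fun θ t => h.gE d I L s s' θ t φ := by
  intro m θ t
  have h1 := h.hk_inv d I s s' φ m θ t
  have h2 := h.gK_inv d (-L) L φ m θ t
  simp only at h1 h2
  simp only [Hwy.gE]
  rw [h1, h2]

/-- mean of `gE` for a fixed displacement -/
theorem gE_fixed (h0 : G (Set.Iio 0) = 0) (h2 : Integrable (fun x : ℝ => x ^ 2) G)
    (hμ : IsTC G μ) (hM : HwyMean G h ε) {d : ℝ × ℝ} {I : Set ℝ} {s s' M : ℝ}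
    (hin : FenceIn G h d I s s' M) (L : ℝ) :
    Integrable (fun q : ((ℝ × ℝ) × Environment) × (ℝ × ℝ) =>
      h.gE d I L s s' q.1.1 q.1.2 q.2) (nu G) ∧
    ∫ q, h.gE d I L s s' q.1.1 q.1.2 q.2 ∂(nu G) ≤ M + (2 * L + s - s') * ε := by
  have i1 := hin.int
  have i2 := gY_integrable h h0 h2 d (-L) L
  have i3 := Y_mean_lo h hM (-L) s
  have i4 := Y_mean_up h hM s' L d
  have e : (fun q : ((ℝ × ℝ) × Environment) × (ℝ × ℝ) => h.gE d I L s s' q.1.1 q.1.2 q.2) =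
      fun q => h.hkY d I s s' q.1.1 q.1.2 q.2 - h.gY d (-L) L q.1.1 q.1.2 q.2 +
        h.Y (-L) s q.2.1 q.1.1 q.1.2 + h.Y s' L q.2.2 (q.1.1 - d) q.1.2 :=
    funext fun q => gE_eq h d I L s s' q.1.1 q.1.2 q.2
  rw [e]
  have j12 : Integrable (fun q : ((ℝ × ℝ) × Environment) × (ℝ × ℝ) =>
      h.hkY d I s s' q.1.1 q.1.2 q.2 - h.gY d (-L) L q.1.1 q.1.2 q.2) (nu G) := i1.sub i2
  have j123 : Integrable (fun q : ((ℝ × ℝ) × Environment) × (ℝ × ℝ) =>
      h.hkY d I s s' q.1.1 q.1.2 q.2 - h.gY d (-L) L q.1.1 q.1.2 q.2 +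
        h.Y (-L) s q.2.1 q.1.1 q.1.2) (nu G) := j12.add i3.1
  refine ⟨j123.add i4.1, ?_⟩
  have e1 : ∫ q, (h.hkY d I s s' q.1.1 q.1.2 q.2 - h.gY d (-L) L q.1.1 q.1.2 q.2 +
        h.Y (-L) s q.2.1 q.1.1 q.1.2 + h.Y s' L q.2.2 (q.1.1 - d) q.1.2) ∂(nu G) =
      ∫ q, h.hkY d I s s' q.1.1 q.1.2 q.2 ∂(nu G) - ∫ q, h.gY d (-L) L q.1.1 q.1.2 q.2 ∂(nu G) +
        (s - -L) * ε + (L - s') * ε := by
    rw [← i3.2, ← i4.2, ← integral_sub i1 i2, ← integral_add j12 i3.1,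
      ← integral_add j123 i4.1]
  rw [e1]
  have h5 := gY_nonneg h h0 h2 hμ d (-L) L
  have h6 := hin.le
  linarith

/-- `gE` is nonnegative -/
lemma gE_nonneg' {d : ℝ × ℝ} {I : Set ℝ} {s s' M L : ℝ} (hin : FenceIn G h d I s s' M)
    (hs : -L ≤ s) (hs' : s' ≤ L) {θ : ℝ × ℝ} {t : Environment} (ht : Nn t) (φ : ℝ × ℝ) :
    0 ≤ h.gE d I L s s' θ t φ :=
  Hwy.gE_nonneg ht hs hs' (hin.ne θ t φ)

/-! ### Measurability with a random displacement -/

section meas

variable {Ω : Type*} [MeasurableSpace Ω] {d θ : Ω → ℝ × ℝ} {t : Ω → Environment} {φ : Ω → ℝ × ℝ}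
  {lo hi : Ω → ℝ}

lemma meas_rg' (hlo : Measurable lo) (hhi : Measurable hi) (hθ : Measurable θ) (v : ℤ × ℤ) :
    MeasurableSet {ω | v ∈ rg F (Icc (lo ω) (hi ω)) (θ ω)} := by
  have h1 : Measurable fun ω => F.al (pos (θ ω) v) :=
    F.al.continuous.measurable.comp (Hwy.meas_pos hθ measurable_const)
  exact (measurableSet_le hlo h1).inter (measurableSet_le h1 hhi)

variable (hd : Measurable d) (hθ : Measurable θ) (ht : Measurable t) (hφ : Measurable φ)
include hd hθ ht hφ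

lemma meas_Up' (k : ℤ) : Measurable fun ω => h.Up (d ω) (θ ω) (t ω) (φ ω) k :=
  h.meas_H (measurable_snd.comp hφ) (hθ.sub hd) ht k

lemma meas_iU' (s : ℝ) : Measurable fun ω => h.iU (d ω) s (θ ω) (t ω) (φ ω) :=
  h.meas_ix s (measurable_snd.comp hφ) (hθ.sub hd) ht

theorem meas_hk' (hlo : Measurable lo) (hhi : Measurable hi) (s s' : ℝ) :
    Measurable fun ω => h.hk (d ω) (Icc (lo ω) (hi ω)) s s' (θ ω) (t ω) (φ ω) :=
  measurable_hull ht (h.meas_Lo hθ ht hφ) (meas_Up' h hd hθ ht hφ) (meas_rg' hlo hhi hθ)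
    (h.meas_iL hθ ht hφ s) (meas_iU' h hd hθ ht hφ s')

theorem meas_hk_univ' (s s' : ℝ) :
    Measurable fun ω => h.hk (d ω) Set.univ s s' (θ ω) (t ω) (φ ω) :=
  measurable_hull ht (h.meas_Lo hθ ht hφ) (meas_Up' h hd hθ ht hφ)
    (fun v => by simp [rg])
    (h.meas_iL hθ ht hφ s) (meas_iU' h hd hθ ht hφ s')

theorem meas_gK' (s s' : ℝ) :
    Measurable fun ω => h.gK (d ω) s s' (θ ω) (t ω) (φ ω) := by
  unfold Hwy.gK gapK
  have hx := measurable_at (h.meas_Lo hθ ht hφ) (h.meas_iL hθ ht hφ s)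
  have hy := measurable_at (meas_Up' h hd hθ ht hφ) (meas_iU' h hd hθ ht hφ s')
  refine ((measurable_at (fun k => measurable_hc ht (h.meas_Lo hθ ht hφ) k)
    (h.meas_iL hθ ht hφ s)).add (Hwy.meas_pt hθ ht hφ hx hy)).sub ?_
  exact measurable_at (fun k => measurable_hc ht (meas_Up' h hd hθ ht hφ) k)
    (meas_iU' h hd hθ ht hφ s')

theorem meas_gE' (hlo : Measurable lo) (hhi : Measurable hi) (L s s' : ℝ) :
    Measurable fun ω => h.gE (d ω) (Icc (lo ω) (hi ω)) L s s' (θ ω) (t ω) (φ ω) :=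
  (meas_hk' h hd hθ ht hφ hlo hhi s s').sub (meas_gK' h hd hθ ht hφ (-L) L)

end meas

/-! ### The measure preserving maps -/

section mp

variable {α β γ : Type*} [MeasurableSpace α] [MeasurableSpace β] [MeasurableSpace γ]
  {a : Measure α} {b : Measure β} {c : Measure γ} [IsProbabilityMeasure a] [IsProbabilityMeasure b]
  [IsProbabilityMeasure c]

/-- exchange of the first two factors -/
lemma mp_leftComm : MeasurePreserving (fun x : α × β × γ => (x.2.1, x.1, x.2.2))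
    (a.prod (b.prod c)) (b.prod (a.prod c)) := by
  have h1 := (measurePreserving_prodAssoc a b c).symm
  have h2 : MeasurePreserving (Prod.map (Prod.swap : α × β → β × α) (id : γ → γ))
      ((a.prod b).prod c) ((b.prod a).prod c) :=
    Measure.measurePreserving_swap.prod (MeasurePreserving.id c)
  have h3 := measurePreserving_prodAssoc b a c
  exact h3.comp (h2.comp h1)

end mp

/-- the space of (outer row, (jitter, inner phases)) -/
abbrev Big : Type := (((ℝ × ℝ) × Environment) × (ℝ × ℝ)) × ((ℝ × ℝ) × (ℝ × ℝ))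

/-- its law -/
noncomputable def big (G : Measure ℝ) : Measure Big := (nu G).prod (UU2.prod (UU.prod UU))

instance : IsProbabilityMeasure (big G) := by unfold big; infer_instance

/-- (jitter, lower gap row) -/
def mlo (q : Big) : (ℝ × ℝ) × (((ℝ × ℝ) × Environment) × (ℝ × ℝ)) :=
  (q.2.1, (q.1.1, (q.1.2.1, q.2.2.1)))

/-- (jitter, upper gap row) -/
def mup (q : Big) : (ℝ × ℝ) × (((ℝ × ℝ) × Environment) × (ℝ × ℝ)) :=
  (q.2.1, (q.1.1, (q.2.2.2, q.1.2.2)))

/-- (jitter, inner row) -/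
def min' (q : Big) : (ℝ × ℝ) × (((ℝ × ℝ) × Environment) × (ℝ × ℝ)) :=
  (q.2.1, (q.1.1, q.2.2))

lemma mp_mlo : MeasurePreserving mlo (big G) (UU2.prod (nu G)) := by
  -- ((p,(a,b)),(η,(c,d))) -> ((p,a),(η,c))
  have h1 : MeasurePreserving
      (Prod.map (Prod.map (id : (ℝ × ℝ) × Environment → _) (fun f : ℝ × ℝ => f.1))
        (Prod.map (id : ℝ × ℝ → _) (fun f : ℝ × ℝ => f.1))) (big G)
      (((P0 G).prod UU).prod (UU2.prod UU)) :=
    ((MeasurePreserving.id _).prod measurePreserving_fst).prod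
      ((MeasurePreserving.id _).prod measurePreserving_fst)
  -- -> (p,(a,(η,c)))
  have h2 := measurePreserving_prodAssoc (P0 G) UU (UU2.prod UU)
  -- -> (p,(η,(a,c)))
  have h3 : MeasurePreserving (Prod.map (id : (ℝ × ℝ) × Environment → _)
      (fun x : ℝ × (ℝ × ℝ) × ℝ => (x.2.1, x.1, x.2.2)))
      ((P0 G).prod (UU.prod (UU2.prod UU))) ((P0 G).prod (UU2.prod (UU.prod UU))) :=
    (MeasurePreserving.id _).prod mp_leftComm
  -- -> (η,(p,(a,c)))
  have h4 : MeasurePreserving (fun x : ((ℝ × ℝ) × Environment) × (ℝ × ℝ) × (ℝ × ℝ) =>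
      (x.2.1, x.1, x.2.2)) ((P0 G).prod (UU2.prod (UU.prod UU)))
      (UU2.prod ((P0 G).prod (UU.prod UU))) := mp_leftComm
  exact h4.comp (h3.comp (h2.comp h1))

lemma mp_mup : MeasurePreserving mup (big G) (UU2.prod (nu G)) := by
  -- ((p,(a,b)),(η,(c,d))) -> ((p,b),(η,d))
  have h1 : MeasurePreserving
      (Prod.map (Prod.map (id : (ℝ × ℝ) × Environment → _) (fun f : ℝ × ℝ => f.2))
        (Prod.map (id : ℝ × ℝ → _) (fun f : ℝ × ℝ => f.2))) (big G)
      (((P0 G).prod UU).prod (UU2.prod UU)) :=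
    ((MeasurePreserving.id _).prod measurePreserving_snd).prod
      ((MeasurePreserving.id _).prod measurePreserving_snd)
  have h2 := measurePreserving_prodAssoc (P0 G) UU (UU2.prod UU)
  have h3 : MeasurePreserving (Prod.map (id : (ℝ × ℝ) × Environment → _)
      (fun x : ℝ × (ℝ × ℝ) × ℝ => (x.2.1, x.1, x.2.2)))
      ((P0 G).prod (UU.prod (UU2.prod UU))) ((P0 G).prod (UU2.prod (UU.prod UU))) :=
    (MeasurePreserving.id _).prod mp_leftComm
  have h4 : MeasurePreserving (fun x : ((ℝ × ℝ) × Environment) × (ℝ × ℝ) × (ℝ × ℝ) =>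
      (x.2.1, x.1, x.2.2)) ((P0 G).prod (UU2.prod (UU.prod UU)))
      (UU2.prod ((P0 G).prod (UU.prod UU))) := mp_leftComm
  -- (η,(p,(b,d))) -> (η,(p,(d,b)))
  have h5 : MeasurePreserving (Prod.map (id : ℝ × ℝ → _)
      (Prod.map (id : (ℝ × ℝ) × Environment → _) (Prod.swap : ℝ × ℝ → ℝ × ℝ)))
      (UU2.prod ((P0 G).prod (UU.prod UU))) (UU2.prod ((P0 G).prod (UU.prod UU))) :=
    (MeasurePreserving.id _).prod ((MeasurePreserving.id _).prod Measure.measurePreserving_swap)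
  exact h5.comp (h4.comp (h3.comp (h2.comp h1)))

lemma mp_min' : MeasurePreserving min' (big G) (UU2.prod (nu G)) := by
  have h1 : MeasurePreserving
      (Prod.map (fun f : ((ℝ × ℝ) × Environment) × (ℝ × ℝ) => f.1)
        (id : (ℝ × ℝ) × (ℝ × ℝ) → _)) (big G)
      ((P0 G).prod (UU2.prod (UU.prod UU))) :=
    measurePreserving_fst.prod (MeasurePreserving.id _)
  have h4 : MeasurePreserving (fun x : ((ℝ × ℝ) × Environment) × (ℝ × ℝ) × (ℝ × ℝ) =>
      (x.2.1, x.1, x.2.2)) ((P0 G).prod (UU2.prod (UU.prod UU)))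
      (UU2.prod ((P0 G).prod (UU.prod UU))) := mp_leftComm
  exact h4.comp h1

/-! ### From fixed jitter to random jitter -/

/-- nonnegative functions: integrability and mean over the random jitter -/
theorem integrable_jitter {Ω : Type*} [MeasurableSpace Ω] {ν : Measure Ω} [IsProbabilityMeasure ν]
    {K : (ℝ × ℝ) × Ω → ℝ} (hK : Measurable K)
    (hint : ∀ η ∈ Ico (0 : ℝ) 1 ×ˢ Ico (0 : ℝ) 1, Integrable (fun ω => K (η, ω)) ν)
    (hnn : ∀ η ∈ Ico (0 : ℝ) 1 ×ˢ Ico (0 : ℝ) 1, ∀ᵐ ω ∂ν, 0 ≤ K (η, ω)) {M : ℝ}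
    (hM : ∀ η ∈ Ico (0 : ℝ) 1 ×ˢ Ico (0 : ℝ) 1, ∫ ω, K (η, ω) ∂ν ≤ M) :
    Integrable K (UU2.prod ν) ∧ ∫ x, K x ∂(UU2.prod ν) ≤ M := by
  have hnorm : ∀ η ∈ Ico (0 : ℝ) 1 ×ˢ Ico (0 : ℝ) 1, ∫ ω, ‖K (η, ω)‖ ∂ν ≤ M := by
    intro η hη
    refine le_trans (le_of_eq ?_) (hM η hη)
    refine integral_congr_ae ?_
    filter_upwards [hnn η hη] with ω hω
    rw [Real.norm_eq_abs, abs_of_nonneg hω]
  have hi : Integrable K (UU2.prod ν) := by
    rw [integrable_prod_iff hK.aestronglyMeasurable]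
    refine ⟨?_, ?_⟩
    · filter_upwards [ae_UU2] with η hη using hint η hη
    · refine Integrable.of_bound (C := M) ?_ ?_
      · exact (hK.aestronglyMeasurable.norm.integral_prod_right' (μ := UU2) (ν := ν))
      · filter_upwards [ae_UU2] with η hη
        rw [Real.norm_eq_abs, abs_of_nonneg (integral_nonneg fun _ => norm_nonneg _)]
        exact hnorm η hη
  refine ⟨hi, ?_⟩
  rw [integral_prod _ hi]
  have h1 : ∫ η, (∫ ω, K (η, ω) ∂ν) ∂UU2 ≤ ∫ _η : ℝ × ℝ, M ∂UU2 := by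
    refine integral_mono_ae hi.integral_prod_left (integrable_const M) ?_
    filter_upwards [ae_UU2] with η hη using hM η hη
  simpa using h1

end Crest.Agent.R151.MN750
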