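import Crest.Agent.R151.U750m1

/-!
# R151 (S0214 part 2): means (M2), (M3) of the closeness estimate (helper750)

* `gE_low_jitter` : lower gap, (M2);
* `gE_up_jitter` : upper gap, (M2);
* `gauge_window` : (M3).
-/

set_option autoImplicit false
set_option linter.unusedSectionVars false

open MeasureTheory Filter ProbabilityTheory Topology Set
open Crest.ProbabilityR.FirstPassage

namespace Crest.Agent.R151.MN750

open Crest.Agent.R151.K Crest.Agent.R151.Q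
open R78 (V Wk IsHwy hc hp hull routes hullY ptY gapK)
open M56 (nu gY_integrable gY_nonneg)
open B710 (FlatData)

variable {μ : ℝ × ℝ → ℝ} {F : FlatData μ} {h : Hwy F}
variable {G : Measure ℝ} [IsProbabilityMeasure G] {ε : ℝ}

lemma ae_nu_Nn (h0 : G (Set.Iio 0) = 0) : ∀ᵐ q ∂(nu G), Nn q.1.2 := by
  unfold nu
  filter_upwards [ae_P0_Nn (Ψ := ℝ × ℝ) (ν := UU.prod UU) h0] with q hq using hq.1

lemma ae_big_Nn (h0 : G (Set.Iio 0) = 0) : ∀ᵐ q ∂(big G), Nn q.1.1.2 :=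
  (Measure.quasiMeasurePreserving_fst (μ := nu G) (ν := UU2.prod (UU.prod UU))).ae (ae_nu_Nn h0)

section

variable (h0 : G (Set.Iio 0) = 0) (h2 : Integrable (fun x : ℝ => x ^ 2) G)
  (hμ : IsTC G μ) (hM : HwyMean G h ε)
include h0 h2 hμ hM

/-- **(M2), lower gap** -/
theorem gE_low_jitter {off : ℝ × ℝ → ℝ × ℝ} (hoff : Measurable off) {α β s s' M L : ℝ}
    (hin : ∀ η ∈ Ico (0 : ℝ) 1 ×ˢ Ico (0 : ℝ) 1, FenceIn G h (off η) (Icc α β) s s' M)
    (hs : -L ≤ s) (hs' : s' ≤ L) :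
    Integrable (fun q : Big => h.gE (off q.2.1) (Icc α β) L s s' q.1.1.1 q.1.1.2
      (Hwy.φlo q.1.2 q.2.2)) (big G) ∧
    ∫ q, h.gE (off q.2.1) (Icc α β) L s s' q.1.1.1 q.1.1.2 (Hwy.φlo q.1.2 q.2.2) ∂(big G) ≤
      M + (2 * L + s - s') * ε := by
  set K : (ℝ × ℝ) × (((ℝ × ℝ) × Environment) × (ℝ × ℝ)) → ℝ := fun x =>
    h.gE (off x.1) (Icc α β) L s s' x.2.1.1 x.2.1.2 x.2.2 with hK
  have a1 : Measurable fun x : (ℝ × ℝ) × (((ℝ × ℝ) × Environment) × (ℝ × ℝ)) => off x.1 :=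
    hoff.comp measurable_fst
  have a2 : Measurable fun x : (ℝ × ℝ) × (((ℝ × ℝ) × Environment) × (ℝ × ℝ)) => x.2.1.1 :=
    measurable_fst.comp (measurable_fst.comp measurable_snd)
  have a3 : Measurable fun x : (ℝ × ℝ) × (((ℝ × ℝ) × Environment) × (ℝ × ℝ)) => x.2.1.2 :=
    measurable_snd.comp (measurable_fst.comp measurable_snd)
  have a4 : Measurable fun x : (ℝ × ℝ) × (((ℝ × ℝ) × Environment) × (ℝ × ℝ)) => x.2.2 :=
    measurable_snd.comp measurable_snd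
  have hKm : Measurable K := by
    have := meas_gE' h a1 a2 a3 a4 (lo := fun _ => α) (hi := fun _ => β) measurable_const
      measurable_const L s s'
    exact this
  obtain ⟨i1, i2⟩ := integrable_jitter (ν := nu G) hKm
    (fun η hη => (gE_fixed h h0 h2 hμ hM (hin η hη) L).1)
    (fun η hη => by
      filter_upwards [ae_nu_Nn h0] with q hq using gE_nonneg' h (hin η hη) hs hs' hq _)
    (M := M + (2 * L + s - s') * ε)
    (fun η hη => (gE_fixed h h0 h2 hμ hM (hin η hη) L).2)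
  refine ⟨mp_mlo.integrable_comp_of_integrable i1, ?_⟩
  rw [← mp_integral (mp_mlo (G := G)) i1.aestronglyMeasurable] at i2
  exact i2

/-- shifted base point: mean of `gE` for a fixed displacement -/
theorem gE_fixed_shift {d : ℝ × ℝ} {I : Set ℝ} {s s' M : ℝ} (hin : FenceIn G h d I s s' M)
    (L : ℝ) (v w : ℝ × ℝ) :
    Integrable (fun q : ((ℝ × ℝ) × Environment) × (ℝ × ℝ) =>
      h.gE d I L s s' (q.1.1 - v - w) q.1.2 q.2) (nu G) ∧
    ∫ q, h.gE d I L s s' (q.1.1 - v - w) q.1.2 q.2 ∂(nu G) ≤ M + (2 * L + s - s') * ε := by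
  obtain ⟨i1, i2⟩ := gE_fixed h h0 h2 hμ hM hin L
  have hinv : ∀ ψ : ℝ × ℝ, Inv fun θ t => h.gE d I L s s' θ t ψ :=
    fun ψ => gE_inv h d I L s s' ψ
  have e : ∀ x : ℝ × ℝ, x - v - w = x + -(v + w) := fun x => by abel
  simp only [e]
  refine ⟨integrable_shift_prod (G := G) (ν := UU.prod UU) hinv (-(v + w)) i1, ?_⟩
  have hp : MeasurePreserving (Prod.map (S (-(v + w))) (id : ℝ × ℝ → ℝ × ℝ))
      ((P0 G).prod (UU.prod UU)) ((P0 G).prod (UU.prod UU)) :=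
    (mp_S _).prod (MeasurePreserving.id _)
  have e1 := mp_integral hp (g := fun q => h.gE d I L s s' q.1.1 q.1.2 q.2)
    i1.aestronglyMeasurable
  refine le_trans (le_of_eq ?_) i2
  refine Eq.trans ?_ e1
  unfold nu
  refine integral_congr_ae (ae_of_all _ fun q => ?_)
  exact (hinv q.2).shift (-(v + w)) q.1

/-- **(M2), upper gap** -/
theorem gE_up_jitter {off d : ℝ × ℝ → ℝ × ℝ} (hoff : Measurable off) (hd : Measurable d)
    {lo hi : ℝ × ℝ → ℝ} (hlo : Measurable lo) (hhi : Measurable hi) (dI : ℝ × ℝ)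
    {s s' M L : ℝ}
    (hin : ∀ η ∈ Ico (0 : ℝ) 1 ×ˢ Ico (0 : ℝ) 1,
      FenceIn G h (d η) (Icc (lo η) (hi η)) s s' M)
    (hs : -L ≤ s) (hs' : s' ≤ L) :
    Integrable (fun q : Big => h.gE (d q.2.1) (Icc (lo q.2.1) (hi q.2.1)) L s s'
      (q.1.1.1 - off q.2.1 - dI) q.1.1.2 (Hwy.φup q.1.2 q.2.2)) (big G) ∧
    ∫ q, h.gE (d q.2.1) (Icc (lo q.2.1) (hi q.2.1)) L s s'
      (q.1.1.1 - off q.2.1 - dI) q.1.1.2 (Hwy.φup q.1.2 q.2.2) ∂(big G) ≤
      M + (2 * L + s - s') * ε := by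
  set K : (ℝ × ℝ) × (((ℝ × ℝ) × Environment) × (ℝ × ℝ)) → ℝ := fun x =>
    h.gE (d x.1) (Icc (lo x.1) (hi x.1)) L s s' (x.2.1.1 - off x.1 - dI) x.2.1.2 x.2.2 with hK
  have a1 : Measurable fun x : (ℝ × ℝ) × (((ℝ × ℝ) × Environment) × (ℝ × ℝ)) => d x.1 :=
    hd.comp measurable_fst
  have a0 : Measurable fun x : (ℝ × ℝ) × (((ℝ × ℝ) × Environment) × (ℝ × ℝ)) => x.2.1.1 :=
    measurable_fst.comp (measurable_fst.comp measurable_snd)
  have a2 : Measurable fun x : (ℝ × ℝ) × (((ℝ × ℝ) × Environment) × (ℝ × ℝ)) =>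
      x.2.1.1 - off x.1 - dI :=
    (a0.sub (hoff.comp measurable_fst)).sub_const dI
  have a3 : Measurable fun x : (ℝ × ℝ) × (((ℝ × ℝ) × Environment) × (ℝ × ℝ)) => x.2.1.2 :=
    measurable_snd.comp (measurable_fst.comp measurable_snd)
  have a4 : Measurable fun x : (ℝ × ℝ) × (((ℝ × ℝ) × Environment) × (ℝ × ℝ)) => x.2.2 :=
    measurable_snd.comp measurable_snd
  have a5 : Measurable fun x : (ℝ × ℝ) × (((ℝ × ℝ) × Environment) × (ℝ × ℝ)) => lo x.1 :=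
    hlo.comp measurable_fst
  have a6 : Measurable fun x : (ℝ × ℝ) × (((ℝ × ℝ) × Environment) × (ℝ × ℝ)) => hi x.1 :=
    hhi.comp measurable_fst
  have hKm : Measurable K := by
    have := meas_gE' h a1 a2 a3 a4 a5 a6 L s s'
    exact this
  obtain ⟨i1, i2⟩ := integrable_jitter (ν := nu G) hKm
    (fun η hη => (gE_fixed_shift h0 h2 hμ hM (hin η hη) L (off η) dI).1)
    (fun η hη => by
      filter_upwards [ae_nu_Nn h0] with q hq using gE_nonneg' h (hin η hη) hs hs' hq _)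
    (M := M + (2 * L + s - s') * ε)
    (fun η hη => (gE_fixed_shift h0 h2 hμ hM (hin η hη) L (off η) dI).2)
  refine ⟨mp_mup.integrable_comp_of_integrable i1, ?_⟩
  rw [← mp_integral (mp_mup (G := G)) i1.aestronglyMeasurable] at i2
  exact i2

end

/-- **(M3)**: window gauge minus full gauge -/
theorem gauge_window (h0 : G (Set.Iio 0) = 0) {d : ℝ × ℝ} {J : Set ℝ} {L M : ℝ}
    (hin : FenceIn G h d J (-L) L M)
    (hu : Integrable (fun q : ((ℝ × ℝ) × Environment) × (ℝ × ℝ) =>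
      h.hkY d Set.univ (-L) L q.1.1 q.1.2 q.2) (nu G))
    (hu0 : 0 ≤ ∫ q, h.hkY d Set.univ (-L) L q.1.1 q.1.2 q.2 ∂(nu G)) :
    (∀ θ t φ, Nn t → 0 ≤ h.hk d J (-L) L θ t φ - h.hk d Set.univ (-L) L θ t φ) ∧
    (∀ᵐ q ∂(nu G), 0 ≤ h.hk d J (-L) L q.1.1 q.1.2 q.2 -
      h.hk d Set.univ (-L) L q.1.1 q.1.2 q.2) ∧
    Integrable (fun q : ((ℝ × ℝ) × Environment) × (ℝ × ℝ) =>
      h.hk d J (-L) L q.1.1 q.1.2 q.2 - h.hk d Set.univ (-L) L q.1.1 q.1.2 q.2) (nu G) ∧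
    ∫ q, (h.hk d J (-L) L q.1.1 q.1.2 q.2 - h.hk d Set.univ (-L) L q.1.1 q.1.2 q.2) ∂(nu G) ≤
      M := by
  have hnn : ∀ θ t φ, Nn t → 0 ≤ h.hk d J (-L) L θ t φ - h.hk d Set.univ (-L) L θ t φ := by
    intro θ t φ ht
    have := Hwy.hk_mono (h := h) ht d (Set.subset_univ J) (le_refl (-L)) (le_refl L)
      (hin.ne θ t φ)
    linarith
  have e : (fun q : ((ℝ × ℝ) × Environment) × (ℝ × ℝ) =>
      h.hk d J (-L) L q.1.1 q.1.2 q.2 - h.hk d Set.univ (-L) L q.1.1 q.1.2 q.2) =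
      fun q => h.hkY d J (-L) L q.1.1 q.1.2 q.2 - h.hkY d Set.univ (-L) L q.1.1 q.1.2 q.2 := by
    funext q
    rw [hk_eq_hkY, hk_eq_hkY]
    ring
  refine ⟨hnn, ?_, ?_, ?_⟩
  · filter_upwards [ae_nu_Nn h0] with q hq using hnn _ _ _ hq
  · rw [e]; exact hin.int.sub hu
  · rw [e, integral_sub hin.int hu]
    have := hin.le
    linarith

end Crest.Agent.R151.MN750
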