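import Crest.Agent.R151.U750m2
import Crest.Agent.R151.M56d
import Crest.Agent.R151.G338l

/-!
# R151 (S0214 part 2): means of the observables `obLo`, `obUp`, `obJ` of 338's G338l (helper750)

Input R4 (56's fence_mean) is the hypothesis `FenceMean G h ε`.
-/

set_option autoImplicit false
set_option linter.unusedSectionVars false

open MeasureTheory Filter ProbabilityTheory Topology Set
open Crest.ProbabilityR.FirstPassage

namespace Crest.Agent.R151.MN750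

open Crest.Agent.R151.K Crest.Agent.R151.Q
open R78 (V Wk IsHwy hc hp hull routes hullY ptY gapK)
open M56 (nu gY_integrable gY_nonneg mg one_le_mg hkY_integrable hkY_nonneg row_nonempty)
open M192 (RowS PR)
open B710 (FlatData)

variable {μ : ℝ × ℝ → ℝ} {F : FlatData μ}

/-- input R4: mean of a fence (56's `fence_mean`) -/
def FenceMean (G : Measure ℝ) (h : Hwy F) (ε : ℝ) : Prop :=
  ∀ (d : ℝ × ℝ) (s s2 α β y2 : ℝ), h.wH + 2 * mg F < F.be d → h.wH + 2 * mg F < y2 - F.be d →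
    s ≤ α → β + h.κ < s2 + F.al d → 2 * mg F ≤ β - α →
    ∫ q, h.hkY d (Icc α β) s s2 q.1.1 q.1.2 q.2 ∂(nu G) ≤
      y2 * rate G F (β - α) + (s2 - s + (β - α) + h.κ + 1 + F.al d) * ε

variable {h : Hwy F} {G : Measure ℝ} [IsProbabilityMeasure G] {ε : ℝ}

/-- routes of a fence -/
lemma rt_fence {d : ℝ × ℝ} {s s2 α β : ℝ} (hd : h.wH + 2 * mg F < F.be d) (hs : s ≤ α)
    (hs2 : β + h.κ < s2 + F.al d) (hαβ : 2 * mg F ≤ β - α) : Rt h d (Icc α β) s s2 := by
  intro θ t φ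
  refine row_nonempty (σ₁ := (α + β) / 2) (σ₂ := (α + β) / 2) hd ?_ ?_ ?_ θ t φ
  · linarith
  · linarith
  · rw [min_self, max_self]
    exact Icc_subset_Icc (by linarith) (by linarith)

section

variable (h0 : G (Set.Iio 0) = 0) (h2 : Integrable (fun x : ℝ => x ^ 2) G)
  (hM : HwyMean G h ε)
include h0 h2 hM

lemma hkY_fence_integrable {d : ℝ × ℝ} {s s2 α β : ℝ} (hd : h.wH + 2 * mg F < F.be d)
    (hs : s ≤ α) (hs2 : β + h.κ < s2 + F.al d) (hαβ : 2 * mg F ≤ β - α) :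
    Integrable (fun q : ((ℝ × ℝ) × Environment) × (ℝ × ℝ) =>
      h.hkY d (Icc α β) s s2 q.1.1 q.1.2 q.2) (nu G) := by
  refine hkY_integrable (σ₁ := (α + β) / 2) (σ₂ := (α + β) / 2) hM h0 h2 hd measurableSet_Icc
    ?_ ?_ ?_
  · linarith
  · linarith
  · rw [min_self, max_self]
    exact Icc_subset_Icc (by linarith) (by linarith)

/-- one fence -/
theorem fenceIn (hF : FenceMean G h ε) {d : ℝ × ℝ} {s s2 α β y2 : ℝ}
    (hd : h.wH + 2 * mg F < F.be d) (hy : h.wH + 2 * mg F < y2 - F.be d)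
    (hs : s ≤ α) (hs2 : β + h.κ < s2 + F.al d) (hαβ : 2 * mg F ≤ β - α) {M : ℝ}
    (hMle : y2 * rate G F (β - α) + (s2 - s + (β - α) + h.κ + 1 + F.al d) * ε ≤ M) :
    FenceIn G h d (Icc α β) s s2 M where
  int := hkY_fence_integrable h0 h2 hM hd hs hs2 hαβ
  le := (hF d s s2 α β y2 hd hy hs hs2 hαβ).trans hMle
  ne := rt_fence hd hs hs2 hαβ

variable (hμ : IsTC G μ) (hF : FenceMean G h ε) {y g c α β L : ℝ}
include hμ hF

/-- **(M2), lower gap** -/
theorem obLo_mean {s s₁ : ℝ} (hg : h.wH + 2 * mg F + cF F < g) (hs : s ≤ α)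
    (hs₁ : β + h.κ + cF F < s₁ + c) (hαβ : 2 * mg F ≤ β - α) (hsL : -L ≤ s) (hs₁L : s₁ ≤ L) :
    (∀ᵐ q ∂((PR G).prod PF), 0 ≤ obLo h g c α β L s s₁ q.1.1.1 q.1.1.2 q.1.2 q.2) ∧
    Integrable (fun q : RowS × ((ℝ × ℝ) × (ℝ × ℝ)) =>
      obLo h g c α β L s s₁ q.1.1.1 q.1.1.2 q.1.2 q.2) ((PR G).prod PF) ∧
    ∫ q, obLo h g c α β L s s₁ q.1.1.1 q.1.1.2 q.1.2 q.2 ∂((PR G).prod PF) ≤
      2 * g * rate G F (β - α) + (2 * L + (β - α) + h.κ + 1 + |c| + cF F) * ε := by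
  have hin : ∀ η ∈ Ico (0 : ℝ) 1 ×ˢ Ico (0 : ℝ) 1, FenceIn G h (offv F g c η) (Icc α β) s s₁
      (2 * g * rate G F (β - α) + (s₁ - s + (β - α) + h.κ + 1 + |c| + cF F) * ε) := by
    intro η hη
    have hn := norm_jitter hη
    have h1 := abs_le.1 (abs_al_le' F hn)
    have h3 := abs_le.1 (abs_be_le' F hn)
    have hc := le_abs_self c
    refine fenceIn h0 h2 hM hF (y2 := 2 * g) ?_ ?_ hs ?_ hαβ ?_
    · rw [be_offv]; linarith [h3.1]
    · rw [be_offv]; linarith [h3.2]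
    · rw [al_offv]; linarith [h1.1]
    · rw [al_offv]
      have : (s₁ - s + (β - α) + h.κ + 1 + (c + F.al η)) * ε ≤
          (s₁ - s + (β - α) + h.κ + 1 + |c| + cF F) * ε :=
        mul_le_mul_of_nonneg_right (by linarith [h1.2]) hM.nonneg
      linarith
  have hoff : Measurable fun η : ℝ × ℝ => offv F g c η := by
    unfold offv
    exact measurable_const.add measurable_id
  obtain ⟨i1, i2⟩ := gE_low_jitter h0 h2 hμ hM hoff (L := L) hin hsL hs₁L
  refine ⟨?_, i1, ?_⟩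
  · have hae : ∀ᵐ q ∂(big G), q.2.1 ∈ Ico (0 : ℝ) 1 ×ˢ Ico (0 : ℝ) 1 := by
      have h5 : ∀ᵐ x ∂(UU2.prod (UU.prod UU)), x.1 ∈ Ico (0 : ℝ) 1 ×ˢ Ico (0 : ℝ) 1 :=
        Measure.quasiMeasurePreserving_fst.ae ae_UU2
      exact Measure.quasiMeasurePreserving_snd.ae h5
    have hae2 : ∀ᵐ q ∂(big G), 0 ≤ obLo h g c α β L s s₁ q.1.1.1 q.1.1.2 q.1.2 q.2 := by
      filter_upwards [hae, ae_big_Nn (G := G) h0] with q hq hq2
      exact gE_nonneg' h (hin _ hq) hsL hs₁L hq2 _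
    exact hae2
  · refine i2.trans (le_of_eq ?_)
    ring

/-- **(M2), upper gap** -/
theorem obUp_mean {s₂ s' : ℝ} (hg : h.wH + 2 * mg F + cF F < g) (hs : s₂ + c + cF F ≤ α)
    (hs' : β + h.κ < s') (hαβ : 2 * mg F ≤ β - α) (hsL : -L ≤ s₂) (hs'L : s' ≤ L) :
    (∀ᵐ q ∂((PR G).prod PF), 0 ≤ obUp h y g c α β L s₂ s' q.1.1.1 q.1.1.2 q.1.2 q.2) ∧
    Integrable (fun q : RowS × ((ℝ × ℝ) × (ℝ × ℝ)) =>
      obUp h y g c α β L s₂ s' q.1.1.1 q.1.1.2 q.1.2 q.2) ((PR G).prod PF) ∧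
    ∫ q, obUp h y g c α β L s₂ s' q.1.1.1 q.1.1.2 q.1.2 q.2 ∂((PR G).prod PF) ≤
      2 * g * rate G F (β - α) + (2 * L + (β - α) + h.κ + 1 + |c| + cF F) * ε := by
  have hyb : F.al (y • F.b) = 0 := by simp
  have hin : ∀ η ∈ Ico (0 : ℝ) 1 ×ˢ Ico (0 : ℝ) 1,
      FenceIn G h (Hwy.dU (offv F g c η) (y • F.b) (dOv F y g))
        (Icc (α - F.al (offv F g c η) - F.al (y • F.b))
          (β - F.al (offv F g c η) - F.al (y • F.b))) s₂ s'
      (2 * g * rate G F (β - α) + (s' - s₂ + (β - α) + h.κ + 1 + |c| + cF F) * ε) := by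
    intro η hη
    have hn := norm_jitter hη
    have h1 := abs_le.1 (abs_al_le' F hn)
    have h3 := abs_le.1 (abs_be_le' F hn)
    have hc := neg_abs_le c
    have e : β - F.al (offv F g c η) - F.al (y • F.b) -
        (α - F.al (offv F g c η) - F.al (y • F.b)) = β - α := by ring
    refine fenceIn h0 h2 hM hF (y2 := 2 * g) ?_ ?_ ?_ ?_ ?_ ?_
    · rw [be_dU]; linarith [h3.2]
    · rw [be_dU]; linarith [h3.1]
    · rw [al_offv, hyb]; linarith [h1.2]
    · rw [al_dU, al_offv, hyb]; linarith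
    · rw [e]; exact hαβ
    · rw [e, al_dU]
      have : (s' - s₂ + (β - α) + h.κ + 1 + (-c - F.al η)) * ε ≤
          (s' - s₂ + (β - α) + h.κ + 1 + |c| + cF F) * ε :=
        mul_le_mul_of_nonneg_right (by linarith [h1.1]) hM.nonneg
      linarith
  have hoff : Measurable fun η : ℝ × ℝ => offv F g c η := by
    unfold offv
    exact measurable_const.add measurable_id
  have hd : Measurable fun η : ℝ × ℝ => Hwy.dU (offv F g c η) (y • F.b) (dOv F y g) := by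
    unfold Hwy.dU
    exact (measurable_const.sub hoff).sub_const _
  have hal : Measurable fun η : ℝ × ℝ => F.al (offv F g c η) :=
    F.al.continuous.measurable.comp hoff
  obtain ⟨i1, i2⟩ := gE_up_jitter h0 h2 hμ hM hoff hd
    (lo := fun η => α - F.al (offv F g c η) - F.al (y • F.b))
    (hi := fun η => β - F.al (offv F g c η) - F.al (y • F.b))
    ((measurable_const.sub hal).sub_const _) ((measurable_const.sub hal).sub_const _)
    (y • F.b) (L := L) hin hsL hs'L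
  refine ⟨?_, i1, ?_⟩
  · have hae : ∀ᵐ q ∂(big G), q.2.1 ∈ Ico (0 : ℝ) 1 ×ˢ Ico (0 : ℝ) 1 := by
      have h5 : ∀ᵐ x ∂(UU2.prod (UU.prod UU)), x.1 ∈ Ico (0 : ℝ) 1 ×ˢ Ico (0 : ℝ) 1 :=
        Measure.quasiMeasurePreserving_fst.ae ae_UU2
      exact Measure.quasiMeasurePreserving_snd.ae h5
    have hae2 : ∀ᵐ q ∂(big G), 0 ≤ obUp h y g c α β L s₂ s' q.1.1.1 q.1.1.2 q.1.2 q.2 := by
      filter_upwards [hae, ae_big_Nn (G := G) h0] with q hq hq2
      exact gE_nonneg' h (hin _ hq) hsL hs'L hq2 _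
    exact hae2
  · refine i2.trans (le_of_eq ?_)
    ring

/-- **(M3)** -/
theorem obJ_mean {Λ : ℝ} (hg : h.wH + 2 * mg F < g) (hy : 0 ≤ y) (hg0 : 0 ≤ g)
    (hΛ : mg F ≤ Λ) (hL : Λ + h.κ < L) :
    (∀ᵐ q ∂((PR G).prod PF), 0 ≤ obJ h y g Λ L q.1.1.1 q.1.1.2 q.1.2 q.2) ∧
    Integrable (fun q : RowS × ((ℝ × ℝ) × (ℝ × ℝ)) =>
      obJ h y g Λ L q.1.1.1 q.1.1.2 q.1.2 q.2) ((PR G).prod PF) ∧
    ∫ q, obJ h y g Λ L q.1.1.1 q.1.1.2 q.1.2 q.2 ∂((PR G).prod PF) ≤
      (y + 4 * g) * rate G F (2 * Λ) + (2 * L + 2 * Λ + h.κ + 1) * ε := by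
  have hκ := h.κ_nonneg
  have hmg := one_le_mg F
  have hbe : F.be (dOv F y g) = y + 2 * g := be_dOv y g
  have hal : F.al (dOv F y g) = 0 := al_dOv y g
  have hd : h.wH + 2 * mg F < F.be (dOv F y g) := by rw [hbe]; linarith
  have e : Λ - -Λ = 2 * Λ := by ring
  have hin : FenceIn G h (dOv F y g) (Icc (-Λ) Λ) (-L) L
      ((y + 4 * g) * rate G F (2 * Λ) + (2 * L + 2 * Λ + h.κ + 1) * ε) := by
    refine fenceIn h0 h2 hM hF (y2 := y + 4 * g) hd ?_ ?_ ?_ ?_ ?_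
    · rw [hbe]; linarith
    · linarith
    · rw [hal]; linarith
    · linarith
    · rw [e, hal]
      refine le_of_eq ?_
      ring
  have hu : Integrable (fun q : ((ℝ × ℝ) × Environment) × (ℝ × ℝ) =>
      h.hkY (dOv F y g) Set.univ (-L) L q.1.1 q.1.2 q.2) (nu G) :=
    hkY_integrable (σ₁ := 0) (σ₂ := 0) hM h0 h2 hd MeasurableSet.univ (by linarith)
      (by rw [hal]; linarith) (Set.subset_univ _)
  have hu0 : 0 ≤ ∫ q, h.hkY (dOv F y g) Set.univ (-L) L q.1.1 q.1.2 q.2 ∂(nu G) :=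
    hkY_nonneg (σ₁ := 0) (σ₂ := 0) hM h0 h2 hd MeasurableSet.univ (by linarith)
      (by rw [hal]; linarith) (Set.subset_univ _) hμ
  obtain ⟨-, j2, j3, j4⟩ := gauge_window h0 hin hu hu0
  refine ⟨?_, ?_, ?_⟩
  · exact Measure.quasiMeasurePreserving_fst.ae j2
  · exact j3.comp_fst PF
  · have hp : MeasurePreserving (Prod.fst : RowS × ((ℝ × ℝ) × (ℝ × ℝ)) → RowS)
        ((PR G).prod PF) (PR G) := measurePreserving_fst
    have := mp_integral hp j3.aestronglyMeasurable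
    refine le_trans (le_of_eq ?_) j4
    exact this

end

/-! ### Measurability of the observables -/

section measOb

variable (h) (y g c α β L : ℝ)

lemma meas_obLo (s s₁ : ℝ) : (obLo h g c α β L s s₁).Meas := by
  have a1 : Measurable fun q : RowS × ((ℝ × ℝ) × (ℝ × ℝ)) => offv F g c q.2.1 := by
    unfold offv
    exact measurable_const.add (measurable_fst.comp measurable_snd)
  have a2 : Measurable fun q : RowS × ((ℝ × ℝ) × (ℝ × ℝ)) => q.1.1.1 :=
    measurable_fst.comp (measurable_fst.comp measurable_fst)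
  have a3 : Measurable fun q : RowS × ((ℝ × ℝ) × (ℝ × ℝ)) => q.1.1.2 :=
    measurable_snd.comp (measurable_fst.comp measurable_fst)
  have b1 : Measurable fun q : RowS × ((ℝ × ℝ) × (ℝ × ℝ)) => q.1.2.1 :=
    measurable_fst.comp (measurable_snd.comp measurable_fst)
  have b2 : Measurable fun q : RowS × ((ℝ × ℝ) × (ℝ × ℝ)) => q.2.2.1 :=
    measurable_fst.comp (measurable_snd.comp measurable_snd)
  have a4 := b1.prodMk b2
  have := meas_gE' h a1 a2 a3 a4 (lo := fun _ => α) (hi := fun _ => β) measurable_const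
    measurable_const L s s₁
  exact this

lemma meas_obUp (s₂ s' : ℝ) : (obUp h y g c α β L s₂ s').Meas := by
  have a0 : Measurable fun q : RowS × ((ℝ × ℝ) × (ℝ × ℝ)) => offv F g c q.2.1 := by
    unfold offv
    exact measurable_const.add (measurable_fst.comp measurable_snd)
  have a1 : Measurable fun q : RowS × ((ℝ × ℝ) × (ℝ × ℝ)) =>
      Hwy.dU (offv F g c q.2.1) (y • F.b) (dOv F y g) := by
    unfold Hwy.dU
    exact (measurable_const.sub a0).sub_const _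
  have a2' : Measurable fun q : RowS × ((ℝ × ℝ) × (ℝ × ℝ)) => q.1.1.1 :=
    measurable_fst.comp (measurable_fst.comp measurable_fst)
  have a2 : Measurable fun q : RowS × ((ℝ × ℝ) × (ℝ × ℝ)) =>
      q.1.1.1 - offv F g c q.2.1 - y • F.b := (a2'.sub a0).sub_const _
  have a3 : Measurable fun q : RowS × ((ℝ × ℝ) × (ℝ × ℝ)) => q.1.1.2 :=
    measurable_snd.comp (measurable_fst.comp measurable_fst)
  have b1 : Measurable fun q : RowS × ((ℝ × ℝ) × (ℝ × ℝ)) => q.2.2.2 :=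
    measurable_snd.comp (measurable_snd.comp measurable_snd)
  have b2 : Measurable fun q : RowS × ((ℝ × ℝ) × (ℝ × ℝ)) => q.1.2.2 :=
    measurable_snd.comp (measurable_snd.comp measurable_fst)
  have a4 := b1.prodMk b2
  have hal : Measurable fun q : RowS × ((ℝ × ℝ) × (ℝ × ℝ)) => F.al (offv F g c q.2.1) :=
    F.al.continuous.measurable.comp a0
  have a5 : Measurable fun q : RowS × ((ℝ × ℝ) × (ℝ × ℝ)) =>
      α - F.al (offv F g c q.2.1) - F.al (y • F.b) := (measurable_const.sub hal).sub_const _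
  have a6 : Measurable fun q : RowS × ((ℝ × ℝ) × (ℝ × ℝ)) =>
      β - F.al (offv F g c q.2.1) - F.al (y • F.b) := (measurable_const.sub hal).sub_const _
  have := meas_gE' h a1 a2 a3 a4 a5 a6 L s₂ s'
  exact this

lemma meas_obJ (Λ : ℝ) : (obJ h y g Λ L).Meas := by
  have a2 : Measurable fun q : RowS × ((ℝ × ℝ) × (ℝ × ℝ)) => q.1.1.1 :=
    measurable_fst.comp (measurable_fst.comp measurable_fst)
  have a3 : Measurable fun q : RowS × ((ℝ × ℝ) × (ℝ × ℝ)) => q.1.1.2 :=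
    measurable_snd.comp (measurable_fst.comp measurable_fst)
  have a4 : Measurable fun q : RowS × ((ℝ × ℝ) × (ℝ × ℝ)) => q.1.2 :=
    measurable_snd.comp measurable_fst
  have h1 := h.meas_hk a2 a3 a4 (dOv F y g) (I := Jw Λ) measurableSet_Icc (-L) L
  have h2 := h.meas_hk a2 a3 a4 (dOv F y g) (I := Set.univ) MeasurableSet.univ (-L) L
  exact h1.sub h2

end measOb

/-- `∫ |f| = ∫ f` for a.e. nonnegative `f` (form used by `markov_cpr`) -/
lemma integral_abs_of_ae {Ω : Type*} [MeasurableSpace Ω] {P : Measure Ω} {f : Ω → ℝ}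
    (hf : ∀ᵐ q ∂P, 0 ≤ f q) : ∫ q, |f q| ∂P = ∫ q, f q ∂P :=
  integral_congr_ae (by filter_upwards [hf] with q hq using abs_of_nonneg hq)

end Crest.Agent.R151.MN750
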