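import Mathlib
import Crest.Agent.R151.H617a

/-!
# R151/UC290a — block UC (owner helper290), abstract part

`uc_ae`: a family of label functions `f p` with mean total variation `≤ C (q - p)` and a family
of "non-coalescence" events `N p q`, monotone in the slope interval, small for short intervals,
independent of `f`: almost surely at every slope `s` either `f` is continuous or some `N p q`
with `p < s < q` fails.  This is how a countable random set of exceptional slopes is replaced by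
deterministic slopes without any measurability of the set.
-/

set_option autoImplicit false

open MeasureTheory ProbabilityTheory Filter Set
open scoped ENNReal Topology

namespace Crest.Agent.R151.UC

open Crest.Agent.R151.H

variable {Ω : Type*} [MeasurableSpace Ω] {P : Measure Ω}

/-- Markov inequality for the total variation -/
lemma tv_gt_le {F F' : Ω → ℤ → ℝ} (hF : ∀ x, Measurable fun ω => F ω x)
    (hF' : ∀ x, Measurable fun ω => F' ω x) (w : ℕ) {c κ : ℝ} (hκ : 0 < κ)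
    (h : ∀ x, ∫⁻ ω, ENNReal.ofReal |inc (F ω) x - inc (F' ω) x| ∂P ≤ ENNReal.ofReal c) :
    P {ω | κ < tv w (F ω) (F' ω)} ≤ ENNReal.ofReal (2 * w * c / κ) := by
  have hm := lintegral_tv_le (P := P) hF hF' w h
  have hmk := mul_meas_ge_le_lintegral₀ (μ := P)
    (f := fun ω => ENNReal.ofReal (tv w (F ω) (F' ω)))
    (measurable_tv hF hF' w).ennreal_ofReal.aemeasurable (ENNReal.ofReal κ)
  have hk0 : ENNReal.ofReal κ ≠ 0 := by simpa using hκ
  rw [ENNReal.ofReal_div_of_pos hκ, ENNReal.le_div_iff_mul_le (Or.inl hk0)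
    (Or.inl ENNReal.ofReal_ne_top), mul_comm]
  refine le_trans ?_ (hmk.trans hm)
  refine mul_le_mul_right (measure_mono fun ω hω => ?_) _
  exact ENNReal.ofReal_le_ofReal (le_of_lt hω)

/-- the bad set -/
def Bad (D : Set ℝ) (f : ℝ → Ω → ℤ → ℝ) (N : ℝ → ℝ → Set Ω) (a b : ℝ) (w : ℕ) (κ : ℝ) :
    Set Ω :=
  {ω | ∃ s, a < s ∧ s < b ∧ ∀ p ∈ D, ∀ q ∈ D, p < s → s < q →
    κ < tv w (f p ω) (f q ω) ∧ ω ∈ N p q}

theorem measure_bad {D : Set ℝ} {A B C : ℝ}
    (hD : ∀ x y, A < x → x < y → y < B → ∃ p ∈ D, x < p ∧ p < y)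
    {f : ℝ → Ω → ℤ → ℝ} {N : ℝ → ℝ → Set Ω}
    (hf : ∀ p ∈ D, ∀ x, Measurable fun ω => f p ω x) (hC : 0 ≤ C)
    (h1 : ∀ p ∈ D, ∀ q ∈ D, p ≤ q → ∀ x,
      ∫⁻ ω, ENNReal.ofReal |inc (f p ω) x - inc (f q ω) x| ∂P ≤ ENNReal.ofReal (C * (q - p)))
    (hmono : ∀ p ∈ D, ∀ p' ∈ D, ∀ q' ∈ D, ∀ q ∈ D, p ≤ p' → p' ≤ q' → q' ≤ q →
      P (N p' q') ≤ P (N p q))
    (hsmall : ∀ s, A < s → s < B → ∀ δ : ℝ, 0 < δ →
      ∃ p ∈ D, ∃ q ∈ D, p < s ∧ s < q ∧ P (N p q) ≤ ENNReal.ofReal δ)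
    (hi : ∀ p ∈ D, ∀ q ∈ D, ∀ (w : ℕ) (κ : ℝ),
      P ({ω | κ < tv w (f p ω) (f q ω)} ∩ N p q) ≤
        P {ω | κ < tv w (f p ω) (f q ω)} * P (N p q))
    {a b : ℝ} (ha : A < a) (hb : b < B) (w : ℕ) {κ : ℝ} (hκ : 0 < κ) :
    P (Bad D f N a b w κ) = 0 := by
  rcases le_or_gt b a with hba | hab
  · have : Bad D f N a b w κ = ∅ := by
      ext ω
      simp only [Bad, mem_ofPred_eq, mem_empty_iff_false, iff_false, not_exists, not_and]
      intro s h1 h2
      linarith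
    rw [this, measure_empty]
  obtain ⟨a', ha1, ha2⟩ := exists_between ha
  obtain ⟨b', hb1, hb2⟩ := exists_between hb
  set L : ℝ := b' - a' with hL
  have hL0 : 0 < L := by linarith
  set K : ℝ := 2 * w * (C * (3 * L)) / κ with hK
  have hK0 : 0 ≤ K := by positivity
  -- it suffices to bound by `K δ`
  suffices hmain : ∀ δ : ℝ, 0 < δ → P (Bad D f N a b w κ) ≤ ENNReal.ofReal (K * δ) by
    have hlim : Tendsto (fun n : ℕ => ENNReal.ofReal (K * (1 / ((n : ℝ) + 1)))) atTop (𝓝 0) := by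
      have h0 : Tendsto (fun n : ℕ => K * (1 / ((n : ℝ) + 1))) atTop (𝓝 (K * 0)) :=
        tendsto_one_div_add_atTop_nhds_zero_nat.const_mul K
      rw [mul_zero] at h0
      simpa using ENNReal.tendsto_ofReal h0
    exact le_antisymm (ge_of_tendsto' hlim fun n => hmain _ (by positivity)) zero_le
  intro δ hδ
  -- Lebesgue number of the cover of `[a', b']`
  have hcov : ∀ s : Icc a' b', ∃ p ∈ D, ∃ q ∈ D, p < (s : ℝ) ∧ (s : ℝ) < q ∧
      P (N p q) ≤ ENNReal.ofReal δ := fun s =>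
    hsmall s (ha1.trans_le s.2.1) (s.2.2.trans_lt hb2) δ hδ
  choose cp hcp cq hcq hps hsq hPN using hcov
  obtain ⟨lam, hlam, hleb⟩ := lebesgue_number_lemma_of_metric (s := Icc a' b')
    (c := fun s : Icc a' b' => Ioo (cp s) (cq s)) isCompact_Icc (fun s => isOpen_Ioo)
    (fun s hs => mem_iUnion.2 ⟨⟨s, hs⟩, hps ⟨s, hs⟩, hsq ⟨s, hs⟩⟩)
  -- choose the mesh
  obtain ⟨n, hn, hna, hnb, hnl⟩ : ∃ n : ℕ, 0 < n ∧ L / n ≤ a - a' ∧ 2 * (L / n) ≤ b' - b ∧
      3 * (L / n) < lam := by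
    have hlim1 : Tendsto (fun n : ℕ => L / n) atTop (𝓝 0) :=
      tendsto_const_div_atTop_nhds_zero_nat L
    have e1 : ∀ᶠ n : ℕ in atTop, L / n < a - a' := hlim1.eventually_lt_const (by linarith)
    have e2 : ∀ᶠ n : ℕ in atTop, L / n < (b' - b) / 2 := hlim1.eventually_lt_const (by linarith)
    have e3 : ∀ᶠ n : ℕ in atTop, L / n < lam / 3 := hlim1.eventually_lt_const (by linarith)
    obtain ⟨n, hn⟩ := (e1.and (e2.and (e3.and (eventually_gt_atTop 0)))).exists
    exact ⟨n, hn.2.2.2, hn.1.le, by linarith [hn.2.1], by linarith [hn.2.2.1]⟩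
  have hn' : (0 : ℝ) < n := by exact_mod_cast hn
  set η : ℝ := L / n with hη
  have hη0 : 0 < η := by positivity
  have hnη : n * η = L := by rw [hη]; field_simp
  have hex : ∀ i : ℕ, i < n → ∃ p ∈ D, a' + i * η < p ∧ p < a' + (i + 1) * η := by
    intro i hi'
    have hi1 : (0 : ℝ) ≤ i := Nat.cast_nonneg i
    have hi2 : (i : ℝ) + 1 ≤ n := by exact_mod_cast hi'
    refine hD _ _ ?_ ?_ ?_
    · have : 0 ≤ (i : ℝ) * η := by positivity
      linarith
    · linarith
    · have : ((i : ℝ) + 1) * η ≤ n * η := by gcongr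
      rw [hnη] at this
      linarith
  choose! pk hpD hpl hpu using hex
  have hsub : Bad D f N a b w κ ⊆ ⋃ i ∈ Finset.range (n - 2),
      ({ω | κ < tv w (f (pk i) ω) (f (pk (i + 2)) ω)} ∩ N (pk i) (pk (i + 2))) := by
    rintro ω ⟨s, hs1, hs2, hs⟩
    have hs0 : 0 ≤ (s - a') / η := by
      apply div_nonneg _ hη0.le
      linarith
    set m : ℕ := ⌊(s - a') / η⌋₊ with hm
    have hm1 : (m : ℝ) * η ≤ s - a' := by
      have := Nat.floor_le hs0
      rwa [← hm, le_div_iff₀ hη0] at this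
    have hm2 : s - a' < (m + 1) * η := by
      have := Nat.lt_floor_add_one ((s - a') / η)
      rwa [← hm, div_lt_iff₀ hη0] at this
    have hm3 : 1 ≤ m := by
      by_contra h
      have h0 : m = 0 := by omega
      rw [h0] at hm2
      simp only [Nat.cast_zero, zero_add, one_mul] at hm2
      linarith
    have hm4 : m + 2 ≤ n := by
      have : ((m : ℝ) + 2) * η < n * η + η := by
        rw [hnη]
        nlinarith
      have h3 : (m : ℝ) + 2 < n + 1 := by
        have h4 : ((m : ℝ) + 2) * η < (n + 1) * η := by linarith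
        exact lt_of_mul_lt_mul_right h4 hη0.le
      have h5 : m + 2 < n + 1 := by exact_mod_cast h3
      omega
    obtain ⟨i, hmi⟩ : ∃ i, m = i + 1 := ⟨m - 1, by omega⟩
    rw [hmi] at hm1 hm2 hm3 hm4
    rw [mem_iUnion₂]
    refine ⟨i, Finset.mem_range.2 (by omega), ?_⟩
    have u1 := hpu i (by omega)
    have u2 := hpl (i + 2) (by omega)
    push_cast at hm1 hm2 u1 u2
    refine hs _ (hpD i (by omega)) _ (hpD (i + 2) (by omega)) ?_ ?_
    · linarith
    · have : ((i : ℝ) + 1 + 1) * η = (i + 2) * η := by ring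
      linarith
  refine (measure_mono hsub).trans ((measure_biUnion_finset_le _ _).trans ?_)
  have hcell : ∀ i ∈ Finset.range (n - 2),
      P ({ω | κ < tv w (f (pk i) ω) (f (pk (i + 2)) ω)} ∩ N (pk i) (pk (i + 2))) ≤
        ENNReal.ofReal (K / n * δ) := by
    intro i hi'
    rw [Finset.mem_range] at hi'
    have u1 := hpl i (by omega)
    have u1' := hpu i (by omega)
    have u2 := hpl (i + 2) (by omega)
    have u2' := hpu (i + 2) (by omega)
    push_cast at u1 u1' u2 u2'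
    have hle : pk i ≤ pk (i + 2) := by nlinarith
    have hlen : pk (i + 2) - pk i ≤ 3 * η := by nlinarith
    have hcc : ENNReal.ofReal (C * (pk (i + 2) - pk i)) ≤ ENNReal.ofReal (C * (3 * η)) :=
      ENNReal.ofReal_le_ofReal (mul_le_mul_of_nonneg_left hlen hC)
    have e1 := tv_gt_le (P := P) (hf _ (hpD i (by omega))) (hf _ (hpD (i + 2) (by omega))) w
      (c := C * (3 * η)) hκ
      (fun x => (h1 _ (hpD i (by omega)) _ (hpD (i + 2) (by omega)) hle x).trans hcc)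
    -- the cell is inside one interval of the cover
    have hmem : pk i ∈ Icc a' b' := by
      refine ⟨?_, ?_⟩
      · have : 0 ≤ (i : ℝ) * η := by positivity
        linarith
      · have h3 : (i : ℝ) + 1 ≤ n := by exact_mod_cast (by omega : i + 1 ≤ n)
        have h4 : ((i : ℝ) + 1) * η ≤ n * η := by gcongr
        rw [hnη] at h4
        linarith
    obtain ⟨c, hc⟩ := hleb (pk i) hmem
    have m1 : pk i ∈ Ioo (cp c) (cq c) := hc (Metric.mem_ball_self hlam)
    have m2 : pk (i + 2) ∈ Ioo (cp c) (cq c) := by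
      apply hc
      rw [Metric.mem_ball, Real.dist_eq, abs_of_nonneg (by linarith)]
      linarith
    have e2 : P (N (pk i) (pk (i + 2))) ≤ ENNReal.ofReal δ :=
      (hmono _ (hcp c) _ (hpD i (by omega)) _ (hpD (i + 2) (by omega)) _ (hcq c)
        m1.1.le hle m2.2.le).trans (hPN c)
    refine (hi _ (hpD i (by omega)) _ (hpD (i + 2) (by omega)) w κ).trans ?_
    refine (mul_le_mul' e1 e2).trans_eq ?_
    rw [← ENNReal.ofReal_mul (by positivity)]
    congr 1
    rw [hK, hη]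
    field_simp
  refine (Finset.sum_le_sum hcell).trans ?_
  rw [Finset.sum_const, Finset.card_range, nsmul_eq_mul, ← ENNReal.ofReal_natCast,
    ← ENNReal.ofReal_mul (Nat.cast_nonneg _)]
  refine ENNReal.ofReal_le_ofReal ?_
  have h5 : (((n - 2 : ℕ) : ℝ)) ≤ n := by exact_mod_cast Nat.sub_le n 2
  calc ((n - 2 : ℕ) : ℝ) * (K / n * δ) ≤ n * (K / n * δ) := by gcongr
    _ = K * δ := by field_simp

/-- **UC, abstract**: at every slope either `f` is continuous or some `N p q` with `p < s < q`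
fails. -/
theorem uc_ae {D : Set ℝ} {A B C : ℝ}
    (hD : ∀ x y, A < x → x < y → y < B → ∃ p ∈ D, x < p ∧ p < y)
    {f : ℝ → Ω → ℤ → ℝ} {N : ℝ → ℝ → Set Ω}
    (hf : ∀ p ∈ D, ∀ x, Measurable fun ω => f p ω x) (hC : 0 ≤ C)
    (h1 : ∀ p ∈ D, ∀ q ∈ D, p ≤ q → ∀ x,
      ∫⁻ ω, ENNReal.ofReal |inc (f p ω) x - inc (f q ω) x| ∂P ≤ ENNReal.ofReal (C * (q - p)))
    (hmono : ∀ p ∈ D, ∀ p' ∈ D, ∀ q' ∈ D, ∀ q ∈ D, p ≤ p' → p' ≤ q' → q' ≤ q →
      P (N p' q') ≤ P (N p q))
    (hsmall : ∀ s, A < s → s < B → ∀ δ : ℝ, 0 < δ →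
      ∃ p ∈ D, ∃ q ∈ D, p < s ∧ s < q ∧ P (N p q) ≤ ENNReal.ofReal δ)
    (hi : ∀ p ∈ D, ∀ q ∈ D, ∀ (w : ℕ) (κ : ℝ),
      P ({ω | κ < tv w (f p ω) (f q ω)} ∩ N p q) ≤
        P {ω | κ < tv w (f p ω) (f q ω)} * P (N p q)) :
    ∀ᵐ ω ∂P, ∀ s, A < s → s < B → ContAt D (fun p => f p ω) s ∨
      ∃ p ∈ D, ∃ q ∈ D, p < s ∧ s < q ∧ ω ∉ N p q := by
  have hall : ∀ᵐ ω ∂P, ∀ (a b : ℚ) (w k : ℕ), A < a → (b : ℝ) < B →
      ω ∉ Bad D f N a b w (1 / ((k : ℝ) + 1)) := by
    rw [ae_all_iff]; intro a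
    rw [ae_all_iff]; intro b
    rw [ae_all_iff]; intro w
    rw [ae_all_iff]; intro k
    by_cases ha : A < a
    · by_cases hb : (b : ℝ) < B
      · have := measure_bad (P := P) hD hf hC h1 hmono hsmall hi ha hb w
          (κ := 1 / ((k : ℝ) + 1)) (by positivity)
        filter_upwards [measure_eq_zero_iff_ae_notMem.1 this] with ω hω _ _
        exact hω
      · exact Eventually.of_forall fun ω _ h => absurd h hb
    · exact Eventually.of_forall fun ω h => absurd h ha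
  filter_upwards [hall] with ω hω s hs1 hs2
  by_contra hcon
  rw [not_or] at hcon
  obtain ⟨hc1, hc2⟩ := hcon
  unfold ContAt at hc1
  push Not at hc1 hc2
  obtain ⟨w1, ε1, hε1, H1⟩ := hc1
  obtain ⟨a, ha1, ha2⟩ := exists_rat_btwn hs1
  obtain ⟨b, hb1, hb2⟩ := exists_rat_btwn hs2
  obtain ⟨k, hk⟩ := exists_nat_one_div_lt hε1
  refine hω a b w1 k ha1 hb2 ⟨s, ha2, hb1, fun p hp q hq hps hsq => ⟨?_, ?_⟩⟩
  · exact hk.trans (H1 p hp q hq hps hsq)
  · exact hc2 p hp q hq hps hsq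

/-- the independence hypothesis of `uc_ae` from independent sigma-algebras -/
lemma indep_le [IsZeroOrProbabilityMeasure P] {m1 m2 : MeasurableSpace Ω} (hI : Indep m1 m2 P)
    {S T : Set Ω} (hS : MeasurableSet[m1] S) (hT : MeasurableSet[m2] T) :
    P (S ∩ T) ≤ P S * P T :=
  ((Indep_iff _ _ _).1 hI S T hS hT).le

end Crest.Agent.R151.UC
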