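import Crest.Agent.R151.D624b
import Crest.Agent.R151.Y635D
import Crest.Agent.R151.H617b

/-!
# R151/UC290b — block UC (owner helper290), deterministic part

* `opt_le`, `opt_le'`: the optimal last entrance into `Hp N` moves to the right when the
  increments of the boundary function decrease.
* `opt_of_ray`: a ray of `gH k` enters `Hp N` for the last time at an optimal point of its own
  Busemann function on `y = N`.
* `Com`: common last entrance of all gradient rays of two label functions from a window;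
  `Com.mono` (monotone in the label interval), `Com.pass` (every ray whose label lies in the
  interval passes through the common vertex), `coal_of_com` (⇒ `Coal`).
-/

set_option autoImplicit false

open Filter Topology
open Crest.ProbabilityR.FirstPassage

namespace Crest.Agent.R151.UC

open Crest.Agent.R151.D624 Crest.Agent.R151.Y Crest.Agent.R151.H

section argmin

variable {t : Environment} {k N : ℤ} {z : ℤ × ℤ} {φ φ' : ℤ → ℝ}

theorem sub_le_of_inc_le (h : ∀ x, inc φ' x ≤ inc φ x) {x y : ℤ} (hxy : x ≤ y) :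
    φ' y - φ' x ≤ φ y - φ x := by
  induction y, hxy using Int.leInduction with
  | base => simp
  | succ y hy ih =>
    have := h y
    unfold inc at this
    linarith

/-- the optimal last entrance moves to the right when the increments decrease (uniqueness for
the larger increments) -/
theorem opt_le (h : ∀ x, inc φ' x ≤ inc φ x) {w w' : ℤ} (hw : Opt t k N φ z w)
    (huniq : ∀ w'', Opt t k N φ z w'' → w'' = w) (hw' : Opt t k N φ' z w') : w ≤ w' := by
  by_contra hlt
  rw [not_le] at hlt
  have h1 := hw' w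
  have h2 := sub_le_of_inc_le h hlt.le
  have h3 : Opt t k N φ z w' := by
    intro w''
    refine le_trans ?_ (hw w'')
    unfold Phi at h1 ⊢
    linarith
  have := huniq w' h3
  omega

/-- the same with uniqueness for the smaller increments -/
theorem opt_le' (h : ∀ x, inc φ' x ≤ inc φ x) {w w' : ℤ} (hw : Opt t k N φ z w)
    (hw' : Opt t k N φ' z w') (huniq : ∀ w'', Opt t k N φ' z w'' → w'' = w') : w ≤ w' := by
  by_contra hlt
  rw [not_le] at hlt
  have h1 := hw w'
  have h2 := sub_le_of_inc_le h hlt.le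
  have h3 : Opt t k N φ' z w := by
    intro w''
    refine le_trans ?_ (hw' w'')
    unfold Phi at h1 ⊢
    linarith
  have := huniq w h3
  omega

/-- `Opt` depends only on the increments of the boundary function -/
theorem opt_congr (h : ∀ x, inc φ' x = inc φ x) {w : ℤ} (hw : Opt t k N φ z w) :
    Opt t k N φ' z w := by
  have hc : ∀ x y, φ' y - φ' x = φ y - φ x := by
    intro x y
    rcases le_total x y with hxy | hxy
    · exact le_antisymm (sub_le_of_inc_le (fun x => (h x).le) hxy)
        (sub_le_of_inc_le (fun x => (h x).ge) hxy)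
    · have h1 := sub_le_of_inc_le (fun x => (h x).le) hxy
      have h2 := sub_le_of_inc_le (fun x => (h x).ge) hxy
      linarith
  intro w'
  have h1 := hw w'
  have h2 := hc w' w
  unfold Phi at h1 ⊢
  linarith

end argmin

section rays

variable {t : Environment} {k N : ℤ} {u : ℕ → ℤ × ℤ}

theorem ray_ge (hu : IsRay t (gH k) u) (n : ℕ) : k ≤ (u n).2 := (reg_adj.1 (hu.adj n)).2.1

/-- the last entrance into `Hp N` -/
theorem exists_last_entrance (hadj : ∀ n, squareLattice.Adj (u n) (u (n + 1)))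
    (hup : Tendsto (fun n => (u n).2) atTop atTop) {i : ℕ} (h0 : (u i).2 < N) :
    ∃ n w, i ≤ n ∧ u n = (w, N - 1) ∧ u (n + 1) = (w, N) ∧ ∀ m, N ≤ (u (n + 1 + m)).2 := by
  have h1 : ∃ n, i ≤ n ∧ ∀ m, n ≤ m → N ≤ (u m).2 := by
    obtain ⟨n, hn⟩ := eventually_atTop.1 (hup.eventually (eventually_ge_atTop N))
    exact ⟨max i n, le_max_left _ _, fun m hm => hn m ((le_max_right _ _).trans hm)⟩
  classical
  obtain ⟨hin, hn1⟩ := Nat.find_spec h1
  have hni : Nat.find h1 ≠ i := fun h => absurd (hn1 i h.le) (by omega)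
  obtain ⟨n', hn'⟩ : ∃ n', Nat.find h1 = n' + 1 := ⟨Nat.find h1 - 1, by omega⟩
  have hmin := Nat.find_min h1 (m := n') (by omega)
  rw [hn'] at hin hn1 hni
  have hlt : (u n').2 < N := by
    by_contra hcon
    rw [not_lt] at hcon
    refine hmin ⟨by omega, fun m hm => ?_⟩
    rcases hm.eq_or_lt with rfl | hm
    · exact hcon
    · exact hn1 m hm
  have hge := hn1 (n' + 1) le_rfl
  have ha := lat_adj.1 (hadj n')
  have e1 : (u n').1 = (u (n' + 1)).1 := by rcases ha with h | h <;> omega
  have e2 : (u (n' + 1)).2 = N := by rcases ha with h | h <;> omega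
  have e3 : (u n').2 = N - 1 := by rcases ha with h | h <;> omega
  exact ⟨n', (u n').1, by omega, Prod.ext rfl e3, Prod.ext e1.symm e2,
    fun m => hn1 _ (by omega)⟩

/-- a ray whose tail stays in `Hp N` has there a ray of `gH N` -/
theorem isRay_tail (ht : ∀ e, 0 ≤ t e) (hkN : k ≤ N) (hu : IsRay t (gH k) u) {m : ℕ}
    (hm : ∀ n, N ≤ (u (m + n)).2) : IsRay t (gH N) fun n => u (m + n) := by
  refine (hu.tail m).of_le ht (gH_anti hkN) fun n => ?_
  rw [reg_adj]
  exact ⟨(reg_adj.1 (hu.adj (m + n))).1, hm n, hm (n + 1)⟩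

/-- **A ray enters `Hp N` for the last time at an optimal point of its own label.** -/
theorem opt_of_ray (ht : ∀ e, 0 ≤ t e) (hkN : k < N) (hu : IsRay t (gH k) u) {i n : ℕ} {w : ℤ}
    (hin : i ≤ n) (h1 : u n = (w, N - 1)) (h2 : u (n + 1) = (w, N))
    (h3 : ∀ m, N ≤ (u (n + 1 + m)).2) {b : ℤ → ℝ}
    (hb : ∀ x, inc b x = inc (fun x => bus t (gH N) (fun m => u (n + 1 + m)) (x, N)) x) :
    Opt t k N b (u i) w := by
  set r : ℕ → ℤ × ℤ := fun m => u (n + 1 + m) with hr
  have hrr : IsRay t (gH N) r := isRay_tail ht hkN.le hu h3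
  have hr0 : r 0 = (w, N) := h2
  refine opt_congr (φ := fun x => bus t (gH N) r (x, N)) (fun x => hb x) ?_
  intro w'
  have hk0 : k ≤ (u i).2 := ray_ge hu i
  -- the inequality before taking the limit
  have key : ∀ m, pt (gH k) t (u i) (w, N - 1) + Vt t w N - pt (gH k) t (u i) (w', N - 1) -
      Vt t w' N ≤ pt (gH N) t (w', N) (r m) - pt (gH N) t (r 0) (r m) := by
    intro m
    have e1 : pt (gH k) t (u i) (u n) + pt (gH k) t (u n) (u (n + 1 + m)) =
        pt (gH k) t (u i) (u (n + 1 + m)) := hu.pt_add hin (by omega)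
    have e2 : pt (gH k) t (u n) (u (n + 1)) + pt (gH k) t (u (n + 1)) (u (n + 1 + m)) =
        pt (gH k) t (u n) (u (n + 1 + m)) := hu.pt_add (by omega) (by omega)
    have e3 : pt (gH k) t (u n) (u (n + 1)) = Vt t w N := by
      rw [hu.pt_succ, h1, h2]
      rfl
    have e4 : pt (gH N) t (r 0) (r m) = pt (gH k) t (r 0) (r m) := by
      refine (hu.tail (n + 1)).pt_eq_of_le ht (gH_anti hkN.le) (fun j => ?_) (Nat.zero_le m)
      exact hrr.adj j
    have hrm : N ≤ (r m).2 := h3 m
    have e5 : pt (gH k) t (u i) (r m) ≤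
        pt (gH k) t (u i) (w', N - 1) + pt (gH k) t (w', N - 1) (r m) :=
      pt_triangle ht (gH_reachable hk0 (by simp only; omega))
        (gH_reachable (by simp only; omega) (by omega))
    have e6 : pt (gH k) t (w', N - 1) (r m) ≤
        pt (gH k) t (w', N - 1) (w', N) + pt (gH k) t (w', N) (r m) :=
      pt_triangle ht (gH_reachable (by simp only; omega) (by simp only; omega))
        (gH_reachable (by simp only; omega) (by omega))
    have e7 := pt_vert_le ht hkN w'
    have e8 : pt (gH k) t (w', N) (r m) ≤ pt (gH N) t (w', N) (r m) :=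
      pt_anti (gH_anti hkN.le) ht (gH_reachable (by simp only; omega) hrm)
    rw [h1] at e1
    have e9 : pt (gH k) t (u (n + 1)) (u (n + 1 + m)) = pt (gH k) t (r 0) (r m) := rfl
    have e10 : pt (gH k) t (u i) (u (n + 1 + m)) = pt (gH k) t (u i) (r m) := rfl
    rw [h1] at e2 e3
    linarith
  have h4 : pt (gH k) t (u i) (w, N - 1) + Vt t w N - pt (gH k) t (u i) (w', N - 1) - Vt t w' N ≤
      bus t (gH N) r (w', N) := le_ciInf key
  have h5 : bus t (gH N) r (w, N) = 0 := by
    rw [← hr0]
    exact bus_zero ht hrr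
  unfold Phi
  linarith

/-- the increments of the Busemann function on the line do not depend on the tail -/
theorem inc_bus_tail (ht : ∀ e, 0 ≤ t e) (hkN : k ≤ N) (hu : IsRay t (gH k) u) {m m' : ℕ}
    (hm : ∀ n, N ≤ (u (m + n)).2) (hm' : ∀ n, N ≤ (u (m' + n)).2) (x : ℤ) :
    inc (fun x => bus t (gH N) (fun n => u (m + n)) (x, N)) x =
      inc (fun x => bus t (gH N) (fun n => u (m' + n)) (x, N)) x := by
  -- compare both with the tail at `m + m'`
  have key : ∀ {a b : ℕ}, (∀ n, N ≤ (u (a + n)).2) → 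
      inc (fun x => bus t (gH N) (fun n => u (a + n)) (x, N)) x =
      inc (fun x => bus t (gH N) (fun n => u (a + (b + n))) (x, N)) x := by
    intro a b ha
    have hr := isRay_tail ht hkN hu ha
    have h0 : N ≤ (u (a + 0)).2 := ha 0
    exact (bus_tail_sub ht hr (gH_reachable (by simp) h0) (gH_reachable (by simp) h0) b).symm
  rw [key (b := m') hm, key (b := m) hm']
  have : ∀ n, m + (m' + n) = m' + (m + n) := fun n => by omega
  simp only [this]

end rays

section com

/-- the gradient rays of the two label functions from the window `[-w,w]` on `y = k` have a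
common last entrance into some `Hp N` -/
def Com (t : Environment) (f g : ℤ → ℤ → ℝ) (k : ℤ) (w : ℕ) : Prop :=
  ∃ N, k < N ∧ ∃ c, ∀ x : ℤ, -(w : ℤ) ≤ x → x ≤ w →
    Opt t k N (f N) (x, k) c ∧ Opt t k N (g N) (x, k) c

variable {t : Environment} {k N : ℤ} {f f' g g' : ℤ → ℤ → ℝ} {w : ℕ}

/-- `Com` is monotone in the interval of labels (`f` has the largest increments) -/
theorem Com.mono (hf : Fam t f) (hf' : Fam t f') (hg' : Fam t g') (hg : Fam t g)
    (h1 : ∀ N x, inc (g N) x ≤ inc (g' N) x) (h2 : ∀ N x, inc (g' N) x ≤ inc (f' N) x)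
    (h3 : ∀ N x, inc (f' N) x ≤ inc (f N) x) (h : Com t f g k w) : Com t f' g' k w := by
  obtain ⟨N, hN, c, hc⟩ := h
  refine ⟨N, hN, c, fun x hx1 hx2 => ?_⟩
  obtain ⟨hc1, hc2⟩ := hc x hx1 hx2
  constructor
  · have hw := hf'.W_spec hN x
    have e1 : c ≤ W t f' k N x := opt_le (h3 N) hc1 (fun w'' hw'' => hf.uniq k N hN x _ _ hw'' hc1) hw
    have e2 : W t f' k N x ≤ c := opt_le' (fun y => (h1 N y).trans (h2 N y)) hw hc2
      fun w'' hw'' => hg.uniq k N hN x _ _ hw'' hc2
    rwa [le_antisymm e2 e1] at hw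
  · have hw := hg'.W_spec hN x
    have e1 : c ≤ W t g' k N x := opt_le (fun y => (h2 N y).trans (h3 N y)) hc1
      (fun w'' hw'' => hf.uniq k N hN x _ _ hw'' hc1) hw
    have e2 : W t g' k N x ≤ c := opt_le' (h1 N) hw hc2
      fun w'' hw'' => hg.uniq k N hN x _ _ hw'' hc2
    rwa [le_antisymm e2 e1] at hw

/-- every ray from the window with label between `g` and `f` passes through the common vertex -/
theorem Com.pass (ht : ∀ e, 0 ≤ t e) (hf : Fam t f) (hg : Fam t g) {j : ℤ} (hjk : j ≤ k)
    (h : Com t f g k w) : ∃ v : ℤ × ℤ, k < v.2 ∧ ∀ (u : ℕ → ℤ × ℤ), IsRay t (gH j) u →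
      Tendsto (fun n => (u n).2) atTop atTop → ∀ i x, u i = (x, k) → (∀ m, k ≤ (u (i + m)).2) →
      -(w : ℤ) ≤ x → x ≤ w → (∀ N, k ≤ N → ∃ m, (∀ n, N ≤ (u (m + n)).2) ∧ ∀ y,
        inc (g N) y ≤ inc (fun x => bus t (gH N) (fun n => u (m + n)) (x, N)) y ∧
        inc (fun x => bus t (gH N) (fun n => u (m + n)) (x, N)) y ≤ inc (f N) y) →
      ∃ n, i < n ∧ u n = v := by
  obtain ⟨N, hN, c, hc⟩ := h
  refine ⟨(c, N), hN, fun u hu hup i x hi hik hx1 hx2 hlab => ?_⟩
  obtain ⟨hc1, hc2⟩ := hc x hx1 hx2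
  -- the tail of `u` from `i` on is a ray of `gH k`
  have hu' : IsRay t (gH k) fun n => u (i + n) := isRay_tail ht hjk hu hik
  have hup' : Tendsto (fun n => (u (i + n)).2) atTop atTop := by
    have := hup.comp (tendsto_add_atTop_nat i)
    refine this.congr fun n => ?_
    simp only [Function.comp_apply, add_comm n i]
  obtain ⟨n, e, -, h1, h2, h3⟩ := exists_last_entrance (u := fun n => u (i + n)) (N := N) (i := 0)
    (fun n => (reg_adj.1 (hu'.adj n)).1) hup' (by simp only [Nat.add_zero, hi]; exact hN)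
  obtain ⟨m, hm1, hm2⟩ := hlab N hN.le
  -- the label of `u` on `y = N`
  set b : ℤ → ℝ := fun x => bus t (gH N) (fun m => u (i + (n + 1 + m))) (x, N) with hb
  have hb' : ∀ y, inc b y = inc (fun x => bus t (gH N) (fun n => u (m + n)) (x, N)) y := by
    intro y
    have := inc_bus_tail ht (hjk.trans hN.le) hu (m := i + (n + 1)) (m' := m)
      (fun l => by rw [add_assoc]; exact h3 l) hm1 y
    rw [← this, hb]
    simp only [add_assoc]
  have hopt := opt_of_ray ht hN hu' (i := 0) (Nat.zero_le n) h1 h2 h3 (b := b) (fun y => rfl)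
  rw [show u (i + 0) = (x, k) from hi] at hopt
  have e1 : c ≤ e := opt_le (fun y => by rw [hb']; exact (hm2 y).2) hc1
    (fun w'' hw'' => hf.uniq k N hN x _ _ hw'' hc1) hopt
  have e2 : e ≤ c := opt_le' (fun y => by rw [hb']; exact (hm2 y).1) hopt hc2
    fun w'' hw'' => hg.uniq k N hN x _ _ hw'' hc2
  refine ⟨i + (n + 1), by omega, ?_⟩
  rw [h2, le_antisymm e2 e1]

end com

end Crest.Agent.R151.UC
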