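import Crest.Agent.R151.UC290d
import Crest.Agent.R151.RFL890C
import Crest.Agent.R151.L763k

/-!
# R151/UC290e — block UC (owner helper290): lower half planes and the instance for the label
functions

* `UpSys.coal_dn` : the reflected form of `UpSys.coal_up`;
* `upSys` : the label functions `LIN.fP` form an `UpSys`;
* `sys_coal_up`, `sys_coal_dn` : coalescence of the rays of slope `s` on one side as soon as the
  label functions of the other side are discontinuous at `s`.
-/

set_option autoImplicit false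

open MeasureTheory ProbabilityTheory Filter Topology
open Crest.ProbabilityR.FirstPassage
open scoped ENNReal

namespace Crest.Agent.R151.UC

open Crest.Agent.R151.D624 Crest.Agent.R151.Y Crest.Agent.R151.H Crest.Agent.R151.RFL

/-- the path `u` has slope `s` on all the lines `y = h`, `h ≤ h₀` (lower half planes) -/
def SlopeD (D : Set ℝ) (g : ℝ → ℤ → ℤ → ℝ) (t : Environment) (h₀ : ℤ) (s : ℝ)
    (u : ℕ → ℤ × ℤ) : Prop :=
  ∀ h, h ≤ h₀ → ∃ m, (∀ n, (u (m + n)).2 ≤ h) ∧
    SandUp D (fun p => g p h) s (fun x => bus t (reg (SEL.Dn h)) (fun n => u (m + n)) (x, h))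

section reflect

variable {G : Measure ℝ} [IsProbabilityMeasure G] {D : Set ℝ}

theorem tv_comm (w : ℕ) (h k : ℤ → ℝ) : tv w h k = tv w k h := by
  unfold tv
  exact Finset.sum_congr rfl fun x _ => abs_sub_comm _ _

theorem contAt_neg {f : ℝ → ℤ → ℝ} {s : ℝ} (h : ContAt {p | -p ∈ D} (fun p => f (-p)) (-s)) :
    ContAt D f s := by
  intro w ε hε
  obtain ⟨p, hp, q, hq, h1, h2, h3⟩ := h w ε hε
  refine ⟨-q, hq, -p, hp, by linarith, by linarith, ?_⟩
  rw [tv_comm]
  exact h3

theorem dense_neg {A B : ℝ} (hD : ∀ x y, A < x → x < y → y < B → ∃ p ∈ D, x < p ∧ p < y) :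
    ∀ x y, -B < x → x < y → y < -A → ∃ p ∈ {p | -p ∈ D}, x < p ∧ p < y := by
  intro x y hx hxy hy
  obtain ⟨p, hp, h1, h2⟩ := hD (-y) (-x) (by linarith) (by linarith) (by linarith)
  refine ⟨-p, ?_, by linarith, by linarith⟩
  simpa using hp

/-- reflected mean family -/
theorem meanFam_refl {f : ℝ → Environment → ℤ → ℝ} {c σ : ℝ} (H : MeanFam (iidLaw G) D f c σ) :
    MeanFam (iidLaw G) {p | -p ∈ D} (fun p t => f (-p) (N.refl t)) c (-σ) where
  sign := by
    rcases H.sign with h | h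
    · right; rw [h]
    · left; rw [h]; norm_num
  meas p hp x := (H.meas (-p) hp x).comp N.measurable_refl
  int p hp x := integrable_refl.2 (H.int (-p) hp x)
  mean p hp x := by
    have h1 := H.mean (-p) hp x
    have h2 := integral_refl (G := G) fun t => inc (f (-p) t) x
    rw [h2, h1]
    ring
  mono p hp q hq hpq := by
    filter_upwards [ae_refl_of (H.mono (-q) hq (-p) hp (neg_lt_neg hpq))] with t ht x
    have := ht x
    linarith

theorem isRay_dn {t : Environment} {i : ℤ} {u : ℕ → ℤ × ℤ} (h : IsRay t (reg (SEL.Dn i)) u) :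
    IsRay (N.refl t) (gH (-i)) fun n => ((u n).1, -(u n).2) :=
  (isRay_refl (mir_SEL_up' i)).1 h

theorem slopeD_refl {g : ℝ → ℤ → ℤ → ℝ} {f : ℝ → ℤ → ℤ → ℝ} {t : Environment} {h₀ : ℤ} {s : ℝ}
    {u : ℕ → ℤ × ℤ} (hg : ∀ p k x, g p k x = f (-p) (-k) x) (h : SlopeD D g t h₀ s u) :
    SlopeU {p | -p ∈ D} f (N.refl t) (-h₀) (-s) fun n => ((u n).1, -(u n).2) := by
  intro k hk
  obtain ⟨m, hm1, hm2⟩ := h (-k) (by omega)
  refine ⟨m, fun n => ?_, ?_⟩
  · have := hm1 n
    simp only
    omega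
  · have hb : ∀ x : ℤ, bus t (reg (SEL.Dn (-k))) (fun n => u (m + n)) (x, -k) =
        bus (N.refl t) (gH k) (fun n => ((u (m + n)).1, -(u (m + n)).2)) (x, k) := by
      intro x
      have := bus_refl (mir_SEL_up k) t (fun n => u (m + n)) (x, -k)
      simp only [neg_neg] at this
      exact this
    have hinc : ∀ p x, inc (g p (-k)) x = inc (f (-p) k) x := by
      intro p x
      unfold inc
      rw [hg, hg, neg_neg]
    have hincb : ∀ x, inc (fun x => bus t (reg (SEL.Dn (-k))) (fun n => u (m + n)) (x, -k)) x =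
        inc (fun x => bus (N.refl t) (gH k) (fun n => ((u (m + n)).1, -(u (m + n)).2)) (x, k)) x := by
      intro x
      simp only [inc, hb]
    constructor
    · intro p hp hps x
      have := hm2.le (-p) hp (by linarith) x
      rw [hincb] at this
      have e := hinc (-p) x
      rw [neg_neg] at e
      rw [← e]
      exact this
    · intro q hq hsq x
      have := hm2.ge (-q) hq (by linarith) x
      rw [hincb] at this
      have e := hinc (-q) x
      rw [neg_neg] at e
      rw [← e]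
      exact this

/-- **UC, lower half planes.**  `f` = label functions of the upper half planes with labels
`{p | -p ∈ D}`, the lower label function of slope `p ∈ D` on `y = k` is
`f (-p) (-k) (N.refl t)`. -/
theorem UpSys.coal_dn {A B : ℝ} {f : ℝ → ℤ → Environment → ℤ → ℝ}
    (S : UpSys G {p | -p ∈ D} (-B) (-A) f) (h0 : G (Set.Iio 0) = 0) (hat : ∀ x, G {x} = 0)
    {F : ℝ → Environment → ℤ → ℝ} {c σ : ℝ} (hF : MeanFam (iidLaw G) D F c σ)
    {T : Set (Sym2 (ℤ × ℤ))} (hFT : ∀ p ∈ D, ∀ x, DependsOn (fun t => inc (F p t) x) T)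
    {h₀ : ℤ} (hT : Disjoint T (K.edgesIn (SEL.Dn h₀))) :
    ∀ᵐ t ∂(iidLaw G), ∀ s, A < s → s < B → ContAt D (fun p => F p t) s ∨
      ∀ (i : ℤ) (u u' : ℕ → ℤ × ℤ), IsRay t (reg (SEL.Dn i)) u → IsRay t (reg (SEL.Dn i)) u' →
        Tendsto (fun n => (u n).2) atTop atBot → Tendsto (fun n => (u' n).2) atTop atBot →
        SlopeD D (fun p k x => f (-p) (-k) (N.refl t) x) t h₀ s u →
        SlopeD D (fun p k x => f (-p) (-k) (N.refl t) x) t h₀ s u' → Coal u u' := by
  have key := S.coal_up h0 hat (meanFam_refl hF) (T := {e | Sym2.map ry e ∈ T}) (h₀ := -h₀) ?_ ?_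
  · filter_upwards [ae_refl_of key] with t ht s hs1 hs2
    rcases ht (-s) (by linarith) (by linarith) with h | h
    · left
      simp only [N.refl_refl] at h
      exact contAt_neg (f := fun p => F p t) h
    · right
      intro i u u' hu hu' hup hup' hs hs'
      have hd : ∀ {u : ℕ → ℤ × ℤ}, Tendsto (fun n => (u n).2) atTop atBot →
          Tendsto (fun n => -(u n).2) atTop atTop := fun h => tendsto_neg_atBot_atTop.comp h
      have := h (-i) _ _ (isRay_dn hu) (isRay_dn hu') (hd hup) (hd hup')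
        (slopeD_refl (f := fun p k => f p k (N.refl t)) (fun p k x => rfl) hs)
        (slopeD_refl (f := fun p k => f p k (N.refl t)) (fun p k x => rfl) hs')
      exact coal_refl.1 this
  · intro p hp x t t' htt
    refine hFT (-p) hp x fun e he => ?_
    have h1 : Sym2.map ry (Sym2.map ry e) = e := by
      induction e with
      | _ a b => simp
    have := htt (Sym2.map ry e) (by
      change Sym2.map ry (Sym2.map ry e) ∈ T
      rwa [h1])
    change t (Sym2.map ry e) = t' (Sym2.map ry e)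
    exact this
  · rw [Set.disjoint_left] at hT ⊢
    intro e he he'
    refine hT he ?_
    exact (mir_SEL_up' h₀).mem_edgesIn.2 he'

end reflect

section instance_

variable {G : Measure ℝ} [IsProbabilityMeasure G] {μ : ℝ × ℝ → ℝ}
  {f0 : ℝ → Environment → ℤ → ℝ} {D : Set ℝ}

/-- the lower label function of slope `p` on the row `y = k` of `{y ≤ k}` -/
noncomputable def gP (f0 : ℝ → Environment → ℤ → ℝ) (μ : ℝ × ℝ → ℝ) (p : ℝ) (k : ℤ)
    (t : Environment) (x : ℤ) : ℝ := LIN.fP f0 μ (-p) (-k) (N.refl t) x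

/-- the label functions form an `UpSys` -/
theorem upSys (S : LIN.Sys G μ f0) (hc : D.Countable) (hD : ∀ p ∈ D, |p| < μ (1, 0))
    (hd : ∀ x y, -(μ (1, 0)) < x → x < y → y < μ (1, 0) → ∃ p ∈ D, x < p ∧ p < y) :
    UpSys G D (-(μ (1, 0))) (μ (1, 0)) (LIN.fP f0 μ) where
  countable := hc
  dense := hd
  hl p hp := S.hlP (hD p hp)
  mono p hp q hq hpq := S.monoP (hD p hp) (hD q hq) hpq.le
  real s hs1 hs2 := by
    have hs : |s| < μ (1, 0) := abs_lt.2 ⟨hs1, hs2⟩
    have key : ∀ {p q : ℝ}, |p| < μ (1, 0) → |q| < μ (1, 0) → p < q → ∀ k x,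
        ∫⁻ t, ENNReal.ofReal (inc (LIN.fP f0 μ p k t) x - inc (LIN.fP f0 μ q k t) x)
          ∂(iidLaw G) ≤ ENNReal.ofReal (q - p) := by
      intro p q hp hq hpq k x
      have hi : Integrable (fun t => inc (LIN.fP f0 μ p k t) x - inc (LIN.fP f0 μ q k t) x)
          (iidLaw G) := (S.intP hp k x).sub (S.intP hq k x)
      rw [← ofReal_integral_eq_lintegral_ofReal hi]
      · rw [integral_sub (S.intP hp k x) (S.intP hq k x), S.meanP hp k x, S.meanP hq k x]
        refine ENNReal.ofReal_le_ofReal ?_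
        linarith
      · filter_upwards [S.monoP hp hq hpq.le] with t ht
        have := ht k x
        simp only [Pi.zero_apply]
        linarith
    exact ⟨LIN.fP f0 μ s, S.hlP hs, fun p hp hps => ⟨S.monoP (hD p hp) hs hps.le,
      key (hD p hp) hs hps⟩, fun q hq hsq => ⟨S.monoP hs (hD q hq) hsq.le, key hs (hD q hq) hsq⟩⟩

/-- the increments of the upper label functions read only the edges of the upper half plane -/
theorem dependsOn_fP (S : LIN.Sys G μ f0) (p : ℝ) (k x : ℤ) :
    DependsOn (fun t => inc (LIN.fP f0 μ p k t) x) (K.edgesIn (SEL.Up k)) := by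
  intro t t' h
  have : LIN.fP f0 μ p k t = LIN.fP f0 μ p k t' := S.depP p k h
  simp only [this]

theorem dependsOn_gP (S : LIN.Sys G μ f0) (p : ℝ) (k x : ℤ) :
    DependsOn (fun t => inc (gP f0 μ p k t) x) (K.edgesIn (SEL.Dn k)) := by
  have h1 := dependsOn_fP S (-p) (-k) x
  have h2 := (mir_SEL_up' k).dependsOn h1
  exact h2

/-- the lower label functions on a row form a mean family -/
theorem meanFam_gP (S : LIN.Sys G μ f0) (hD : ∀ p ∈ D, |p| < μ (1, 0)) (k : ℤ) :
    MeanFam (iidLaw G) D (fun p t x => gP f0 μ p k t x) 0 1 := by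
  have hD' : ∀ p ∈ {p | -p ∈ D}, |p| < μ (1, 0) := by
    intro p hp
    have := hD _ hp
    rwa [abs_neg] at this
  have := meanFam_refl (S.meanFamP (D := {p | -p ∈ D}) hD' (-k))
  have e : {p : ℝ | -p ∈ {p : ℝ | -p ∈ D}} = D := by
    ext p
    simp
  rw [e, neg_neg] at this
  exact this

theorem disjoint_rows {j k : ℤ} (hjk : j < k) :
    Disjoint (K.edgesIn (SEL.Dn j)) (K.edgesIn (SEL.Up k)) := by
  rw [Set.disjoint_left]
  intro e he he'
  induction e with
  | _ a b =>
    have h1 := (K.mem_edgesIn.1 he).1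
    have h2 := (K.mem_edgesIn.1 he').1
    simp only [SEL.Dn, SEL.Up, Set.mem_ofPred_eq] at h1 h2
    omega

/-- **coalescence of the upper rays of slope `s`** -/
theorem sys_coal_up (S : LIN.Sys G μ f0) (hc : D.Countable) (hD : ∀ p ∈ D, |p| < μ (1, 0))
    (hd : ∀ x y, -(μ (1, 0)) < x → x < y → y < μ (1, 0) → ∃ p ∈ D, x < p ∧ p < y) :
    ∀ᵐ t ∂(iidLaw G), ∀ (k : ℤ) (s : ℝ), |s| < μ (1, 0) →
      ¬ ContAt D (fun p => gP f0 μ p k t) s →
      ∀ (i : ℤ) (u u' : ℕ → ℤ × ℤ), IsRay t (gH i) u → IsRay t (gH i) u' →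
        Tendsto (fun n => (u n).2) atTop atTop → Tendsto (fun n => (u' n).2) atTop atTop →
        SlopeU D (fun p k => LIN.fP f0 μ p k t) t (k + 1) s u →
        SlopeU D (fun p k => LIN.fP f0 μ p k t) t (k + 1) s u' → Coal u u' := by
  rw [ae_all_iff]
  intro k
  have := (upSys S hc hD hd).coal_up S.h0 S.hat (meanFam_gP S hD k)
    (T := K.edgesIn (SEL.Dn k)) (fun p _ x => dependsOn_gP S p k x) (h₀ := k + 1)
    (disjoint_rows (by omega))
  filter_upwards [this] with t ht s hs hn
  rcases ht s (abs_lt.1 hs).1 (abs_lt.1 hs).2 with h | h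
  · exact absurd h hn
  · exact h

/-- **coalescence of the lower rays of slope `s`** -/
theorem sys_coal_dn (S : LIN.Sys G μ f0) (hc : D.Countable) (hD : ∀ p ∈ D, |p| < μ (1, 0))
    (hd : ∀ x y, -(μ (1, 0)) < x → x < y → y < μ (1, 0) → ∃ p ∈ D, x < p ∧ p < y) :
    ∀ᵐ t ∂(iidLaw G), ∀ (k : ℤ) (s : ℝ), |s| < μ (1, 0) →
      ¬ ContAt D (fun p => LIN.fP f0 μ p k t) s →
      ∀ (i : ℤ) (u u' : ℕ → ℤ × ℤ), IsRay t (reg (SEL.Dn i)) u → IsRay t (reg (SEL.Dn i)) u' →
        Tendsto (fun n => (u n).2) atTop atBot → Tendsto (fun n => (u' n).2) atTop atBot →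
        SlopeD D (fun p k => gP f0 μ p k t) t (k - 1) s u →
        SlopeD D (fun p k => gP f0 μ p k t) t (k - 1) s u' → Coal u u' := by
  have hD' : ∀ p ∈ {p | -p ∈ D}, |p| < μ (1, 0) := by
    intro p hp
    have := hD _ hp
    rwa [abs_neg] at this
  have hc' : {p : ℝ | -p ∈ D}.Countable := by
    have : {p : ℝ | -p ∈ D} = (fun p => -p) ⁻¹' D := rfl
    rw [this]
    exact hc.preimage neg_injective
  have hd' := dense_neg hd
  have S' : UpSys G {p | -p ∈ D} (-(μ (1, 0))) (-(-(μ (1, 0)))) (LIN.fP f0 μ) := by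
    rw [neg_neg] at hd' ⊢
    exact upSys S hc' hD' hd'
  rw [ae_all_iff]
  intro k
  have := S'.coal_dn S.h0 S.hat (S.meanFamP hD k) (T := K.edgesIn (SEL.Up k))
    (fun p _ x => dependsOn_fP S p k x) (h₀ := k - 1) (disjoint_rows (by omega)).symm
  filter_upwards [this] with t ht s hs hn
  rcases ht s (abs_lt.1 hs).1 (abs_lt.1 hs).2 with h | h
  · exact absurd h hn
  · exact h

end instance_

end Crest.Agent.R151.UC
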