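import Mathlib

/-!
# R151, block V1 (helper52): the Efron-Stein inequality

`dvar μ f = ∫⁻∫⁻ (f x - f y)^2` (twice the variance) and its tensorisation.
-/

set_option autoImplicit false

open MeasureTheory ProbabilityTheory
open scoped ENNReal

namespace Crest.Agent.R151.V

variable {Ω Ω' α : Type*} [MeasurableSpace Ω] [MeasurableSpace Ω'] [MeasurableSpace α]

/-- twice the variance, as an extended nonnegative real number, without integrability -/
noncomputable def dvar (μ : Measure Ω) (f : Ω → ℝ) : ℝ≥0∞ :=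
  ∫⁻ x, ∫⁻ y, ENNReal.ofReal ((f x - f y) ^ 2) ∂μ ∂μ

lemma four_point (a b c d : ℝ) :
    (a - d) ^ 2 + (b - c) ^ 2 ≤ ((a - b) ^ 2 + (c - d) ^ 2) + ((a - c) ^ 2 + (b - d) ^ 2) := by
  nlinarith [sq_nonneg (a - b - c + d)]

lemma meas_sq {f : Ω → ℝ} (hf : Measurable f) {u v : α → Ω} (hu : Measurable u)
    (hv : Measurable v) : Measurable (fun t => ENNReal.ofReal ((f (u t) - f (v t)) ^ 2)) :=
  (((hf.comp hu).sub (hf.comp hv)).pow_const 2).ennreal_ofReal

lemma lintegral_four (μ : Measure Ω) (ν : Measure Ω') [SFinite μ] [SFinite ν]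
    (h : Ω × (Ω × (Ω' × Ω')) → ℝ≥0∞) (hh : Measurable h) :
    ∫⁻ z, h z ∂(μ.prod (μ.prod (ν.prod ν))) =
      ∫⁻ x, ∫⁻ x', ∫⁻ y, ∫⁻ y', h (x, (x', (y, y'))) ∂ν ∂ν ∂μ ∂μ := by
  rw [lintegral_prod _ hh.aemeasurable]
  apply lintegral_congr
  intro x
  have h1 : Measurable (fun y : Ω × (Ω' × Ω') => h (x, y)) :=
    hh.comp (measurable_const.prodMk measurable_id)
  rw [lintegral_prod _ h1.aemeasurable]
  apply lintegral_congr
  intro x'
  have h2 : Measurable (fun y : Ω' × Ω' => h (x, (x', y))) :=
    h1.comp (measurable_const.prodMk measurable_id)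
  rw [lintegral_prod _ h2.aemeasurable]

/-- tensorisation of the variance for a product of two spaces -/
theorem dvar_prod_le (μ : Measure Ω) (ν : Measure Ω') [IsProbabilityMeasure μ]
    [IsProbabilityMeasure ν] {f : Ω × Ω' → ℝ} (hf : Measurable f) :
    dvar (μ.prod ν) f ≤
      (∫⁻ x, dvar ν (fun y => f (x, y)) ∂μ) + ∫⁻ y, dvar μ (fun x => f (x, y)) ∂ν := by
  classical
  -- the four functions
  set g : (Ω × Ω') → (Ω × Ω') → ℝ≥0∞ := fun p q => ENNReal.ofReal ((f p - f q) ^ 2) with hg
  have e1 : dvar (μ.prod ν) f = ∫⁻ x, ∫⁻ x', ∫⁻ y, ∫⁻ y', g (x, y) (x', y') ∂ν ∂ν ∂μ ∂μ := by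
    unfold dvar
    rw [lintegral_prod _ (by
      exact (Measurable.lintegral_prod_right' (meas_sq hf measurable_fst measurable_snd)).aemeasurable)]
    apply lintegral_congr
    intro x
    have : ∀ y, ∫⁻ q, ENNReal.ofReal ((f (x, y) - f q) ^ 2) ∂(μ.prod ν)
        = ∫⁻ x', ∫⁻ y', g (x, y) (x', y') ∂ν ∂μ := by
      intro y
      rw [lintegral_prod _ (by
        exact (meas_sq hf (u := fun _ : Ω × Ω' => (x, y)) measurable_const measurable_id).aemeasurable)]
    simp_rw [this]
    rw [lintegral_lintegral_swap]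
    apply Measurable.aemeasurable
    apply Measurable.lintegral_prod_right' (f := fun z : (Ω' × Ω) × Ω' => g (x, z.1.1) (z.1.2, z.2))
    exact meas_sq hf (measurable_const.prodMk (measurable_fst.comp measurable_fst))
      ((measurable_snd.comp measurable_fst).prodMk measurable_snd)
  have e2 : dvar (μ.prod ν) f = ∫⁻ x, ∫⁻ x', ∫⁻ y, ∫⁻ y', g (x, y') (x', y) ∂ν ∂ν ∂μ ∂μ := by
    rw [e1]
    apply lintegral_congr
    intro x
    apply lintegral_congr
    intro x'
    rw [lintegral_lintegral_swap]
    apply Measurable.aemeasurable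
    exact meas_sq hf (u := fun z : Ω' × Ω' => (x, z.1)) (v := fun z : Ω' × Ω' => (x', z.2))
      (measurable_const.prodMk measurable_fst) (measurable_const.prodMk measurable_snd)
  have e3 : (∫⁻ x, dvar ν (fun y => f (x, y)) ∂μ)
      = ∫⁻ x, ∫⁻ _x' : Ω, ∫⁻ y, ∫⁻ y', g (x, y) (x, y') ∂ν ∂ν ∂μ ∂μ := by
    simp [dvar, hg]
  have e4 : (∫⁻ x, dvar ν (fun y => f (x, y)) ∂μ)
      = ∫⁻ _x : Ω, ∫⁻ x', ∫⁻ y, ∫⁻ y', g (x', y) (x', y') ∂ν ∂ν ∂μ ∂μ := by
    simp [dvar, hg]
  have e5 : (∫⁻ y, dvar μ (fun x => f (x, y)) ∂ν)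
      = ∫⁻ x, ∫⁻ x', ∫⁻ y, ∫⁻ _y' : Ω', g (x, y) (x', y) ∂ν ∂ν ∂μ ∂μ := by
    unfold dvar
    simp only [lintegral_const, measure_univ, mul_one]
    rw [lintegral_lintegral_swap]
    · apply lintegral_congr
      intro x
      rw [lintegral_lintegral_swap]
      apply Measurable.aemeasurable
      exact meas_sq hf (u := fun z : Ω' × Ω => (x, z.1)) (v := fun z : Ω' × Ω => (z.2, z.1))
        (measurable_const.prodMk measurable_fst) (measurable_snd.prodMk measurable_fst)
    · apply Measurable.aemeasurable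
      apply Measurable.lintegral_prod_right' (f := fun z : (Ω' × Ω) × Ω => g (z.1.2, z.1.1) (z.2, z.1.1))
      exact meas_sq hf ((measurable_snd.comp measurable_fst).prodMk (measurable_fst.comp measurable_fst))
        (measurable_snd.prodMk (measurable_fst.comp measurable_fst))
  have e6 : (∫⁻ y, dvar μ (fun x => f (x, y)) ∂ν)
      = ∫⁻ x, ∫⁻ x', ∫⁻ _y : Ω', ∫⁻ y', g (x, y') (x', y') ∂ν ∂ν ∂μ ∂μ := by
    rw [e5]
    simp only [lintegral_const, measure_univ, mul_one]
  -- the four-fold integral as one integral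
  have q1 : Measurable (fun z : Ω × (Ω × (Ω' × Ω')) => z.1) := measurable_fst
  have q2 : Measurable (fun z : Ω × (Ω × (Ω' × Ω')) => z.2.1) :=
    measurable_fst.comp measurable_snd
  have q3 : Measurable (fun z : Ω × (Ω × (Ω' × Ω')) => z.2.2.1) :=
    measurable_fst.comp (measurable_snd.comp measurable_snd)
  have q4 : Measurable (fun z : Ω × (Ω × (Ω' × Ω')) => z.2.2.2) :=
    measurable_snd.comp (measurable_snd.comp measurable_snd)
  set G1 : Ω × (Ω × (Ω' × Ω')) → ℝ≥0∞ := fun z => g (z.1, z.2.2.1) (z.2.1, z.2.2.2) with hG1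
  set G2 : Ω × (Ω × (Ω' × Ω')) → ℝ≥0∞ := fun z => g (z.1, z.2.2.2) (z.2.1, z.2.2.1) with hG2
  set G3 : Ω × (Ω × (Ω' × Ω')) → ℝ≥0∞ := fun z => g (z.1, z.2.2.1) (z.1, z.2.2.2) with hG3
  set G4 : Ω × (Ω × (Ω' × Ω')) → ℝ≥0∞ := fun z => g (z.2.1, z.2.2.1) (z.2.1, z.2.2.2) with hG4
  set G5 : Ω × (Ω × (Ω' × Ω')) → ℝ≥0∞ := fun z => g (z.1, z.2.2.1) (z.2.1, z.2.2.1) with hG5
  set G6 : Ω × (Ω × (Ω' × Ω')) → ℝ≥0∞ := fun z => g (z.1, z.2.2.2) (z.2.1, z.2.2.2) with hG6
  have m1 : Measurable G1 := meas_sq hf (q1.prodMk q3) (q2.prodMk q4)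
  have m2 : Measurable G2 := meas_sq hf (q1.prodMk q4) (q2.prodMk q3)
  have m3 : Measurable G3 := meas_sq hf (q1.prodMk q3) (q1.prodMk q4)
  have m4 : Measurable G4 := meas_sq hf (q2.prodMk q3) (q2.prodMk q4)
  have m5 : Measurable G5 := meas_sq hf (q1.prodMk q3) (q2.prodMk q3)
  have m6 : Measurable G6 := meas_sq hf (q1.prodMk q4) (q2.prodMk q4)
  have key : (∫⁻ z, G1 z ∂(μ.prod (μ.prod (ν.prod ν)))) + (∫⁻ z, G2 z ∂(μ.prod (μ.prod (ν.prod ν))))
      ≤ ((∫⁻ z, G3 z ∂(μ.prod (μ.prod (ν.prod ν)))) + (∫⁻ z, G4 z ∂(μ.prod (μ.prod (ν.prod ν))))) +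
        ((∫⁻ z, G5 z ∂(μ.prod (μ.prod (ν.prod ν)))) + (∫⁻ z, G6 z ∂(μ.prod (μ.prod (ν.prod ν))))) := by
    have m34 : Measurable (fun a => G3 a + G4 a) := m3.add m4
    rw [← lintegral_add_left m1, ← lintegral_add_left m3, ← lintegral_add_left m5,
      ← lintegral_add_left m34]
    apply lintegral_mono
    intro z
    simp only [hG1, hG2, hG3, hG4, hG5, hG6, hg]
    rw [← ENNReal.ofReal_add (sq_nonneg _) (sq_nonneg _),
      ← ENNReal.ofReal_add (sq_nonneg (f (z.1, z.2.2.1) - f (z.1, z.2.2.2))) (sq_nonneg _),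
      ← ENNReal.ofReal_add (sq_nonneg (f (z.1, z.2.2.1) - f (z.2.1, z.2.2.1))) (sq_nonneg _),
      ← ENNReal.ofReal_add (by positivity) (by positivity)]
    apply ENNReal.ofReal_le_ofReal
    exact four_point _ _ _ _
  rw [lintegral_four μ ν G1 m1, lintegral_four μ ν G2 m2, lintegral_four μ ν G3 m3,
    lintegral_four μ ν G4 m4, lintegral_four μ ν G5 m5, lintegral_four μ ν G6 m6] at key
  have key' : dvar (μ.prod ν) f + dvar (μ.prod ν) f ≤
      ((∫⁻ x, dvar ν (fun y => f (x, y)) ∂μ) + (∫⁻ x, dvar ν (fun y => f (x, y)) ∂μ)) +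
      ((∫⁻ y, dvar μ (fun x => f (x, y)) ∂ν) + ∫⁻ y, dvar μ (fun x => f (x, y)) ∂ν) := by
    refine le_trans (le_of_eq ?_) (key.trans (le_of_eq ?_))
    · exact congrArg₂ (· + ·) e1 e2
    · exact congrArg₂ (· + ·) (congrArg₂ (· + ·) e3.symm e4.symm)
        (congrArg₂ (· + ·) e5.symm e6.symm)
  rw [← two_mul, ← two_mul, ← two_mul, ← mul_add] at key'
  exact (ENNReal.mul_le_mul_iff_right (by norm_num) (by norm_num)).1 key'

lemma dvar_map {μ : Measure Ω} {ν : Measure Ω'} {e : Ω → Ω'} (he : MeasurePreserving e μ ν)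
    [SFinite ν] {f : Ω' → ℝ} (hf : Measurable f) : dvar ν f = dvar μ (fun x => f (e x)) := by
  unfold dvar
  have h1 : Measurable (fun x : Ω' => ∫⁻ y, ENNReal.ofReal ((f x - f y) ^ 2) ∂ν) :=
    Measurable.lintegral_prod_right' (meas_sq hf measurable_fst measurable_snd)
  rw [← he.lintegral_comp h1]
  apply lintegral_congr
  intro x
  have h2 : Measurable (fun y : Ω' => ENNReal.ofReal ((f (e x) - f y) ^ 2)) :=
    ((measurable_const.sub hf).pow_const 2).ennreal_ofReal
  rw [← he.lintegral_comp h2]

variable {X : Type*} [MeasurableSpace X]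

/-- the influence of coordinate `i` -/
noncomputable def infl {ι : Type*} [DecidableEq ι] (μ : Measure (ι → X)) (G : Measure X)
    (f : (ι → X) → ℝ) (i : ι) : ℝ≥0∞ :=
  ∫⁻ x, ∫⁻ t, ENNReal.ofReal ((f x - f (Function.update x i t)) ^ 2) ∂G ∂μ

lemma meas_infl {ι : Type*} [DecidableEq ι] (G : Measure X) [SFinite G]
    {f : (ι → X) → ℝ} (hf : Measurable f) (i : ι) : Measurable (fun x : ι → X =>
      ∫⁻ t, ENNReal.ofReal ((f x - f (Function.update x i t)) ^ 2) ∂G) := by
  apply Measurable.lintegral_prod_right'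
    (f := fun z : (ι → X) × X => ENNReal.ofReal ((f z.1 - f (Function.update z.1 i z.2)) ^ 2))
  exact meas_sq hf measurable_fst measurable_update'

theorem dvar_pi_fin_le (G : Measure X) [IsProbabilityMeasure G] (n : ℕ)
    {f : (Fin n → X) → ℝ} (hf : Measurable f) :
    dvar (Measure.pi fun _ : Fin n => G) f ≤
      ∑ i, infl (Measure.pi fun _ : Fin n => G) G f i := by
  induction n with
  | zero =>
      have : ∀ x y : Fin 0 → X, f x - f y = 0 := by
        intro x y; rw [Subsingleton.elim x y]; simp
      simp [dvar, this]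
  | succ n ih =>
      set e := MeasurableEquiv.piFinSuccAbove (fun _ : Fin (n+1) => X) 0 with he
      have hmp : MeasurePreserving e.symm ((G).prod (Measure.pi fun _ : Fin n => G))
          (Measure.pi fun _ : Fin (n+1) => G) :=
        (measurePreserving_piFinSuccAbove (fun _ : Fin (n+1) => G) 0).symm
      have hes : ∀ (x0 : X) (y : Fin n → X), e.symm (x0, y) = Fin.cons x0 y := by
        intro x0 y
        simp [he, MeasurableEquiv.piFinSuccAbove, Fin.insertNthEquiv]
      have hinfl : ∀ i, infl (Measure.pi fun _ : Fin (n+1) => G) G f i =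
          ∫⁻ x0, ∫⁻ y, ∫⁻ t, ENNReal.ofReal ((f (Fin.cons x0 y) -
            f (Function.update (Fin.cons x0 y : Fin (n+1) → X) i t)) ^ 2) ∂G
              ∂(Measure.pi fun _ : Fin n => G) ∂G := by
        intro i
        unfold infl
        rw [← hmp.lintegral_comp (meas_infl G hf i)]
        have := lintegral_prod (μ := G) (ν := Measure.pi fun _ : Fin n => G) _
          ((meas_infl G hf i).comp e.symm.measurable).aemeasurable
        simp only [Function.comp, hes] at this ⊢
        exact this
      rw [dvar_map hmp hf]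
      refine (dvar_prod_le _ _ (hf.comp e.symm.measurable)).trans ?_
      rw [Fin.sum_univ_succ, add_comm]
      refine add_le_add ?_ ?_
      · -- coordinate zero
        rw [hinfl 0]
        unfold dvar
        rw [lintegral_lintegral_swap]
        · apply le_of_eq
          simp only [Function.comp, hes, Fin.update_cons_zero]
        · apply Measurable.aemeasurable
          apply Measurable.lintegral_prod_right' (f := fun z : ((Fin n → X) × X) × X =>
            ENNReal.ofReal ((f (e.symm (z.1.2, z.1.1)) - f (e.symm (z.2, z.1.1))) ^ 2))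
          exact meas_sq (hf.comp e.symm.measurable)
            ((measurable_snd.comp measurable_fst).prodMk (measurable_fst.comp measurable_fst))
            (measurable_snd.prodMk (measurable_fst.comp measurable_fst))
      · have hc : ∀ x0 : X, Measurable (fun y : Fin n → X => f (Fin.cons x0 y)) := by
          intro x0
          have : (fun y : Fin n → X => f (Fin.cons x0 y)) = fun y => (f ∘ e.symm) (x0, y) := by
            funext y; simp [hes]
          rw [this]
          exact (hf.comp e.symm.measurable).comp (measurable_const.prodMk measurable_id)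
        calc ∫⁻ x0, dvar (Measure.pi fun _ : Fin n => G) (fun y => (f ∘ e.symm) (x0, y)) ∂G
            = ∫⁻ x0, dvar (Measure.pi fun _ : Fin n => G) (fun y => f (Fin.cons x0 y)) ∂G := by
              simp only [Function.comp, hes]
          _ ≤ ∫⁻ x0, ∑ i, infl (Measure.pi fun _ : Fin n => G) G
                (fun y => f (Fin.cons x0 y)) i ∂G := by
              apply lintegral_mono
              intro x0
              exact ih (hc x0)
          _ = ∑ i, ∫⁻ x0, infl (Measure.pi fun _ : Fin n => G) G
                (fun y => f (Fin.cons x0 y)) i ∂G := by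
              rw [lintegral_finsetSum']
              intro i _
              apply Measurable.aemeasurable
              unfold infl
              apply Measurable.lintegral_prod_right' (f := fun z : X × (Fin n → X) =>
                ∫⁻ t, ENNReal.ofReal ((f (Fin.cons z.1 z.2) -
                  f (Fin.cons z.1 (Function.update z.2 i t))) ^ 2) ∂G)
              apply Measurable.lintegral_prod_right' (f := fun z : (X × (Fin n → X)) × X =>
                ENNReal.ofReal ((f (Fin.cons z.1.1 z.1.2) -
                  f (Fin.cons z.1.1 (Function.update z.1.2 i z.2))) ^ 2))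
              have := meas_sq (hf.comp e.symm.measurable)
                (u := fun z : (X × (Fin n → X)) × X => z.1)
                (v := fun z : (X × (Fin n → X)) × X => (z.1.1, Function.update z.1.2 i z.2))
                measurable_fst ((measurable_fst.comp measurable_fst).prodMk
                  (measurable_update'.comp
                    ((measurable_snd.comp measurable_fst).prodMk measurable_snd)))
              simpa only [Function.comp, hes] using this
          _ = _ := by
              apply Finset.sum_congr rfl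
              intro i _
              rw [hinfl i.succ]
              unfold infl
              simp only [Fin.cons_update]

theorem dvar_pi_le {ι : Type*} [Fintype ι] [DecidableEq ι] (G : Measure X)
    [IsProbabilityMeasure G] {f : (ι → X) → ℝ} (hf : Measurable f) :
    dvar (Measure.pi fun _ : ι => G) f ≤ ∑ i, infl (Measure.pi fun _ : ι => G) G f i := by
  set e := (Fintype.equivFin ι).symm with he
  set m := MeasurableEquiv.piCongrLeft (fun _ : ι => X) e with hm
  have hmp : MeasurePreserving m (Measure.pi fun _ : Fin (Fintype.card ι) => G)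
      (Measure.pi fun _ : ι => G) :=
    measurePreserving_piCongrLeft (fun _ : ι => G) e
  have hup : ∀ (x : Fin (Fintype.card ι) → X) (j) (t : X),
      m (Function.update x j t) = Function.update (m x) (e j) t := by
    intro x j t
    funext i
    obtain ⟨k, rfl⟩ := e.surjective i
    have h1 : ∀ y : Fin (Fintype.card ι) → X, m y (e k) = y k := by
      intro y
      simp [hm, MeasurableEquiv.coe_piCongrLeft]
    rw [h1]
    by_cases hk : k = j
    · subst hk; simp
    · rw [Function.update_of_ne hk, Function.update_of_ne (fun h => hk (e.injective h)), h1]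
  rw [dvar_map hmp hf]
  refine (dvar_pi_fin_le G _ (hf.comp m.measurable)).trans ?_
  rw [← e.sum_comp]
  apply Finset.sum_le_sum
  intro j _
  apply le_of_eq
  unfold infl
  rw [← hmp.lintegral_comp (meas_infl G hf (e j))]
  simp only [Function.comp, hup]

/-- Efron-Stein for functions of finitely many coordinates of an infinite product. -/
theorem dvar_infinitePi_le {I : Type*} [DecidableEq I] (G : Measure X)
    [IsProbabilityMeasure G] {f : (I → X) → ℝ} (hf : Measurable f) (s : Finset I)
    (hdep : ∀ x y : I → X, (∀ i ∈ s, x i = y i) → f x = f y) :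
    dvar (Measure.infinitePi fun _ : I => G) f ≤
      ∑ i ∈ s, infl (Measure.infinitePi fun _ : I => G) G f i := by
  classical
  obtain ⟨x0⟩ : Nonempty X := nonempty_of_isProbabilityMeasure G
  set F : (s → X) → ℝ := fun z => f (fun i => if h : i ∈ s then z ⟨i, h⟩ else x0) with hF
  have hext : Measurable (fun z : s → X => (fun i => if h : i ∈ s then z ⟨i, h⟩ else x0 : I → X)) := by
    apply measurable_pi_lambda
    intro i
    by_cases h : i ∈ s
    · simp only [h, dif_pos]
      exact measurable_pi_apply _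
    · simp only [h, dif_neg, not_false_eq_true]
      exact measurable_const
  have hFm : Measurable F := hf.comp hext
  have hfF : ∀ x : I → X, f x = F (s.restrict x) := by
    intro x
    apply hdep
    intro i hi
    simp [hi]
  have hmp : MeasurePreserving (s.restrict (π := fun _ : I => X))
      (Measure.infinitePi fun _ : I => G) (Measure.pi fun _ : s => G) :=
    ⟨Finset.measurable_restrict s, Measure.infinitePi_map_restrict _⟩
  have h1 : dvar (Measure.infinitePi fun _ : I => G) f = dvar (Measure.pi fun _ : s => G) F := by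
    rw [dvar_map hmp hFm]
    unfold dvar
    simp only [hfF]
  rw [h1]
  refine (dvar_pi_le G hFm).trans ?_
  rw [← Finset.sum_coe_sort s]
  apply Finset.sum_le_sum
  intro i _
  apply le_of_eq
  unfold infl
  rw [← hmp.lintegral_comp (meas_infl G hFm i)]
  apply lintegral_congr
  intro x
  apply lintegral_congr
  intro t
  rw [hfF, hfF]
  have : s.restrict (Function.update x (i : I) t) = Function.update (s.restrict x) i t := by
    funext j
    by_cases hj : j = i
    · subst hj; simp
    · rw [Function.update_of_ne hj]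
      simp [Function.update_of_ne (fun h => hj (Subtype.ext h))]
  rw [this]

lemma integral_sub_add {μ : Measure Ω} {u v w : Ω → ℝ} (hu : Integrable u μ)
    (hv : Integrable v μ) (hw : Integrable w μ) :
    ∫ x, (u x - v x + w x) ∂μ = ∫ x, u x ∂μ - ∫ x, v x ∂μ + ∫ x, w x ∂μ := by
  have h1 : Integrable (fun x => u x - v x) μ := hu.sub hv
  rw [integral_add h1 hw, integral_sub hu hv]

theorem dvar_eq {μ : Measure Ω} [IsProbabilityMeasure μ] {f : Ω → ℝ} (hf : MemLp f 2 μ) :
    dvar μ f = ENNReal.ofReal (2 * variance f μ) := by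
  have hi : Integrable f μ := hf.integrable (by norm_num)
  have hi2 : Integrable (fun x => f x ^ 2) μ := hf.integrable_sq
  have h1 : ∀ x, ∫⁻ y, ENNReal.ofReal ((f x - f y) ^ 2) ∂μ =
      ENNReal.ofReal (f x ^ 2 - 2 * f x * (∫ y, f y ∂μ) + ∫ y, f y ^ 2 ∂μ) := by
    intro x
    have hint : Integrable (fun y => (f x - f y) ^ 2) μ := by
      have : (fun y => (f x - f y) ^ 2) = fun y => f x ^ 2 - 2 * f x * f y + f y ^ 2 := by
        funext y; ring
      rw [this]
      exact ((integrable_const _).sub (hi.const_mul _)).add hi2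
    rw [← ofReal_integral_eq_lintegral_ofReal hint (Filter.Eventually.of_forall fun y => sq_nonneg _)]
    congr 1
    have : (fun y => (f x - f y) ^ 2) = fun y => (f x ^ 2 - 2 * f x * f y) + f y ^ 2 := by
      funext y; ring
    rw [this, integral_sub_add (integrable_const _) (hi.const_mul _) hi2, integral_const_mul]
    simp
  unfold dvar
  simp_rw [h1]
  have h2 : ∀ x, 0 ≤ f x ^ 2 - 2 * f x * (∫ y, f y ∂μ) + ∫ y, f y ^ 2 ∂μ := by
    intro x
    have hv : (∫ y, f y ∂μ) ^ 2 ≤ ∫ y, f y ^ 2 ∂μ := by
      have := variance_nonneg f μ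
      rw [variance_eq_sub hf] at this
      have h3 : (∫ y, (f ^ 2) y ∂μ) = ∫ y, f y ^ 2 ∂μ := rfl
      linarith [this, h3]
    nlinarith [sq_nonneg (f x - ∫ y, f y ∂μ)]
  rw [← ofReal_integral_eq_lintegral_ofReal _ (Filter.Eventually.of_forall h2)]
  · congr 1
    rw [variance_eq_sub hf, integral_sub_add hi2 ((hi.const_mul 2).mul_const _)
      (integrable_const _), integral_mul_const, integral_const_mul]
    simp
    ring
  · exact (hi2.sub ((hi.const_mul 2).mul_const _)).add (integrable_const _)

end Crest.Agent.R151.V
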