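import Crest.Agent.R151.V5
import Crest.Agent.R151.V12
import Crest.Agent.R151.R78B

/-!
# R151, block V13 (helper52): log-concavity of hull costs given the highways (R7)
-/

set_option autoImplicit false
set_option linter.unusedSectionVars false

open MeasureTheory ProbabilityTheory Set Filter
open scoped ENNReal Topology
open Crest.ProbabilityR.FirstPassage
open Crest.Agent.R151.K (Nn)
open Crest.Agent.R151.R78 (hc stepc hull routes IsHwy IsOpen Wk V)

namespace Crest.Agent.R151.V

section LCmore

variable {Ω : Type*} [MeasurableSpace Ω] {μ : Measure Ω} {X : Ω → ℝ}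

lemma LC.congr_ae {X' : Ω → ℝ} (h : LC μ X) (he : X =ᵐ[μ] X') : LC μ X' := by
  have hs : ∀ c : ℝ, μ.real {ω | c ≤ X' ω} = μ.real {ω | c ≤ X ω} := by
    intro c
    apply measureReal_congr
    filter_upwards [he] with ω hω
    have : (c ≤ X' ω) = (c ≤ X ω) := by rw [hω]
    exact this
  intro a b t ht0 ht1
  rw [hs, hs, hs]
  exact h a b t ht0 ht1

lemma LC.add_const (h : LC μ X) (c : ℝ) : LC μ (fun ω => X ω + c) := by
  have hs : ∀ a : ℝ, {ω | a ≤ X ω + c} = {ω | a - c ≤ X ω} := by
    intro a; ext ω; simp only [Set.mem_ofPred_eq]; constructor <;> intro h <;> linarith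
  intro a b t ht0 ht1
  rw [hs, hs, hs]
  have e : (1 - t) * a + t * b - c = (1 - t) * (a - c) + t * (b - c) := by ring
  rw [e]
  exact h _ _ t ht0 ht1

lemma LC.sub_const (h : LC μ X) (c : ℝ) : LC μ (fun ω => X ω - c) := by
  simpa [sub_eq_add_neg] using h.add_const (-c)

lemma LC.mul_const (h : LC μ X) {l : ℝ} (hl : 0 < l) : LC μ (fun ω => X ω * l) := by
  have hs : ∀ a : ℝ, {ω | a ≤ X ω * l} = {ω | a / l ≤ X ω} := by
    intro a; ext ω; simp only [Set.mem_ofPred_eq]; rw [div_le_iff₀ hl]
  intro a b t ht0 ht1
  rw [hs, hs, hs]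
  have e : ((1 - t) * a + t * b) / l = (1 - t) * (a / l) + t * (b / l) := by ring
  rw [e]
  exact h _ _ t ht0 ht1

lemma LC.div_const (h : LC μ X) {l : ℝ} (hl : 0 < l) : LC μ (fun ω => X ω / l) := by
  simpa [div_eq_mul_inv] using h.mul_const (inv_pos.2 hl)

end LCmore

section affine

variable {I : Type*}

lemma rng_ne (n : ℕ) : (Finset.range (n + 1)).Nonempty := ⟨0, by simp⟩

/-- positive part version of a finite minimum of affine functions -/
noncomputable def mn (c : ℕ → ℝ) (l : ℕ → List I) (n : ℕ) (t : I → ℝ) : ℝ :=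
  (Finset.range (n + 1)).inf' (rng_ne n) fun k => c k + ((l k).map fun e => max (t e) 0).sum

lemma list_sum_nonneg' (l : List I) (t : I → ℝ) : 0 ≤ (l.map fun e => max (t e) 0).sum := by
  apply List.sum_nonneg
  intro a ha
  obtain ⟨e, -, rfl⟩ := List.mem_map.1 ha
  exact le_max_right _ _

lemma measurable_list_sum' (l : List I) :
    Measurable fun t : I → ℝ => (l.map fun e => max (t e) 0).sum := by
  induction l with
  | nil => simp
  | cons e l ih =>
    simp only [List.map_cons, List.sum_cons]
    exact ((measurable_pi_apply e).max measurable_const).add ih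

lemma measurable_mn (c : ℕ → ℝ) (l : ℕ → List I) (n : ℕ) : Measurable (mn c l n) := by
  unfold mn
  have key : Measurable ((Finset.range (n + 1)).inf' (rng_ne n)
      (fun (k : ℕ) (t : I → ℝ) => c k + ((l k).map fun e => max (t e) 0).sum)) :=
    Finset.inf'_induction _ _ (p := Measurable) (fun a ha b hb => ha.min hb)
      (fun k _ => measurable_const.add (measurable_list_sum' (l k)))
  convert key using 1
  funext t
  rw [Finset.inf'_apply]

/-- affine on the orthant -/
lemma list_sum_affine (l : List I) {x y : I → ℝ} (hx : ∀ i, 0 ≤ x i) (hy : ∀ i, 0 ≤ y i) {a b : ℝ}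
    (ha : 0 ≤ a) (hb : 0 ≤ b) :
    (l.map fun e => max (a * x e + b * y e) 0).sum =
      a * (l.map fun e => max (x e) 0).sum + b * (l.map fun e => max (y e) 0).sum := by
  induction l with
  | nil => simp
  | cons e l ih =>
    simp only [List.map_cons, List.sum_cons]
    rw [ih, max_eq_left (hx e), max_eq_left (hy e),
      max_eq_left (add_nonneg (mul_nonneg ha (hx e)) (mul_nonneg hb (hy e)))]
    ring

lemma mn_concave (c : ℕ → ℝ) (l : ℕ → List I) (n : ℕ) {x y : I → ℝ} (hx : ∀ i, 0 ≤ x i)
    (hy : ∀ i, 0 ≤ y i) {a b : ℝ} (ha : 0 ≤ a) (hb : 0 ≤ b) (hab : a + b = 1) :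
    a * mn c l n x + b * mn c l n y ≤ mn c l n (fun i => a * x i + b * y i) := by
  unfold mn
  obtain ⟨k, hk, hke⟩ := Finset.exists_mem_eq_inf' (s := Finset.range (n + 1)) (rng_ne n)
    (fun k => c k + ((l k).map fun e => max (a * x e + b * y e) 0).sum)
  rw [hke, list_sum_affine (l k) hx hy ha hb]
  have h1 : (Finset.range (n + 1)).inf' (rng_ne n)
      (fun k => c k + ((l k).map fun e => max (x e) 0).sum) ≤
      c k + ((l k).map fun e => max (x e) 0).sum :=
    Finset.inf'_le (f := fun k => c k + ((l k).map fun e => max (x e) 0).sum) hk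
  have h2 : (Finset.range (n + 1)).inf' (rng_ne n)
      (fun k => c k + ((l k).map fun e => max (y e) 0).sum) ≤
      c k + ((l k).map fun e => max (y e) 0).sum :=
    Finset.inf'_le (f := fun k => c k + ((l k).map fun e => max (y e) 0).sum) hk
  have h3 := mul_le_mul_of_nonneg_left h1 ha
  have h4 := mul_le_mul_of_nonneg_left h2 hb
  have h5 : a * c k + b * c k = c k := by rw [← add_mul, hab, one_mul]
  linarith

lemma mn_congr (c : ℕ → ℝ) (l : ℕ → List I) (n : ℕ) {x y : I → ℝ}
    (h : ∀ k ≤ n, ∀ e ∈ l k, x e = y e) : mn c l n x = mn c l n y := by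
  unfold mn
  apply Finset.inf'_congr _ rfl
  intro k hk
  congr 2
  apply List.map_congr_left
  intro e he
  rw [h k (by simpa [Nat.lt_succ_iff] using Finset.mem_range.1 hk) e he]

open Classical in
theorem LC_mn {r : ℝ} (hr : 0 < r) (c : ℕ → ℝ) (l : ℕ → List I) (n : ℕ) :
    LC (Measure.infinitePi fun _ : I => gammaMeasure 1 r) (mn c l n) := by
  set s : Finset I := (Finset.range (n + 1)).biUnion fun k => (l k).toFinset with hs
  set ext : (s → ℝ) → (I → ℝ) := fun y i => if h : i ∈ s then y ⟨i, h⟩ else 0 with hext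
  have hextm : Measurable ext := by
    rw [measurable_pi_iff]
    intro i
    by_cases hi : i ∈ s
    · simp only [hext, hi, dif_pos]
      exact measurable_pi_apply _
    · simp only [hext, hi, dif_neg, not_false_eq_true]
      exact measurable_const
  have hF : Measurable fun y : s → ℝ => mn c l n (ext y) := (measurable_mn c l n).comp hextm
  have hconc : ConcaveOn ℝ {y : s → ℝ | ∀ i, 0 ≤ y i} (fun y => mn c l n (ext y)) := by
    refine ⟨convex_orthant s, ?_⟩
    intro x hx y hy a b ha hb hab
    have hx' : ∀ i, 0 ≤ ext x i := by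
      intro i
      by_cases hi : i ∈ s
      · simp only [hext, hi, dif_pos]; exact hx _
      · simp [hext, hi]
    have hy' : ∀ i, 0 ≤ ext y i := by
      intro i
      by_cases hi : i ∈ s
      · simp only [hext, hi, dif_pos]; exact hy _
      · simp [hext, hi]
    have h1 := mn_concave c l n hx' hy' ha hb hab
    have h2 : ext (a • x + b • y) = fun i => a * ext x i + b * ext y i := by
      funext i
      by_cases hi : i ∈ s
      · simp [hext, hi]
      · simp [hext, hi]
    simp only [smul_eq_mul]
    rw [h2]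
    exact h1
  have h := LC_infinitePi hr s hF hconc
  have he : (fun x : I → ℝ => mn c l n (ext (s.restrict x))) = mn c l n := by
    funext x
    apply mn_congr
    intro k hk e he
    have hes : e ∈ s := by
      rw [hs, Finset.mem_biUnion]
      exact ⟨k, Finset.mem_range.2 (by omega), List.mem_toFinset.2 he⟩
    simp [hext, hes]
  rwa [he] at h

/-- **Prékopa for countable infima of affine functions** of exponential weights -/
theorem LC_iInf_affine [Countable I] {r : ℝ} (hr : 0 < r) (c : ℕ → ℝ) (l : ℕ → List I) (C : ℝ)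
    (hC : ∀ n, C ≤ c n) :
    LC (Measure.infinitePi fun _ : I => gammaMeasure 1 r) (fun t => ⨅ n, (c n + ((l n).map t).sum)) := by
  have hγ := isProbabilityMeasure_gammaMeasure zero_lt_one hr
  set μ := Measure.infinitePi fun _ : I => gammaMeasure 1 r with hμ
  have hnn : ∀ᵐ t ∂μ, ∀ e, 0 ≤ t e := by
    rw [ae_all_iff]
    intro e
    exact (measurePreserving_eval_infinitePi (fun _ : I => gammaMeasure 1 r)
      e).quasiMeasurePreserving.ae (ae_pos_gamma 1 r)
  have hLC : LC μ (fun t => ⨅ n, (c n + ((l n).map fun e => max (t e) 0).sum)) := by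
    refine LC.of_antitone (Y := fun n => mn c l n) (fun n => measurable_mn c l n)
      (fun n => LC_mn hr c l n) ?_ ?_
    · intro t n m hnm
      exact Finset.inf'_mono _ (by intro k hk; simp at hk ⊢; omega) _
    · intro t
      have hbdd : BddBelow (range fun n => c n + ((l n).map fun e => max (t e) 0).sum) :=
        ⟨C, by rintro _ ⟨n, rfl⟩; have := list_sum_nonneg' (l n) t; have := hC n; simp only; linarith⟩
      apply tendsto_atTop_isGLB
      · intro n m hnm
        exact Finset.inf'_mono _ (by intro k hk; simp at hk ⊢; omega) _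
      · constructor
        · rintro _ ⟨n, rfl⟩
          unfold mn
          refine Finset.le_inf' _ _ fun k _ => ?_
          exact ciInf_le hbdd k
        · intro b hb
          refine le_ciInf fun n => (hb ⟨n, rfl⟩).trans ?_
          exact Finset.inf'_le (s := Finset.range (n + 1))
            (f := fun k => c k + ((l k).map fun e => max (t e) 0).sum) (by simp)
  refine hLC.congr_ae ?_
  filter_upwards [hnn] with t ht
  congr 1
  funext n
  congr 2
  apply List.map_congr_left
  intro e _
  exact max_eq_left (ht e)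

end affine

section hull

lemma hc_congr {t t' : Environment} {H : ℤ → V} (h : ∀ k, t s(H k, H (k + 1)) = t' s(H k, H (k + 1)))
    (z : ℤ) : hc t H z = hc t' H z := by
  have hst : ∀ k, stepc t H k = stepc t' H k := fun k => h k
  rcases z with n | n
  · simp only [hc]
    exact Finset.sum_congr rfl fun k _ => hst _
  · simp only [hc]
    rw [Finset.sum_congr rfl fun k _ => hst _]

open Classical in
lemma walkCost_glue (E : Set (Sym2 (ℤ × ℤ))) (s t : Environment) {x y : V} (g : Wk x y) :
    walkCost (glue E s t) g = ((g.edges.filter fun e => e ∈ E).map s).sum +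
      ((g.edges.filter fun e => e ∉ E).map t).sum := by
  unfold walkCost
  generalize g.edges = l
  induction l with
  | nil => simp
  | cons e l ih =>
    simp only [List.map_cons, List.sum_cons, List.filter_cons]
    rw [ih]
    by_cases he : e ∈ E
    · simp only [he, glue_of_mem he, decide_true, if_true, List.map_cons, List.sum_cons,
        not_true_eq_false, decide_false, Bool.false_eq_true, if_false]
      ring
    · simp only [he, glue_of_notMem he, decide_false, Bool.false_eq_true, if_false, List.map_cons,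
        List.sum_cons, not_false_eq_true, decide_true, if_true]
      ring

/-- **R7**: for a fixed strip environment `s` (and fixed highways in `E`), the hull cost is a
concave function of the fresh weights; its survival function is log-concave. -/
theorem LC_hull {r : ℝ} (hr : 0 < r) (E : Set (Sym2 (ℤ × ℤ))) {s : Environment} (hs : Nn s)
    {H H' : ℤ → V} (hHE : ∀ k, s(H k, H (k + 1)) ∈ E) (hHE' : ∀ k, s(H' k, H' (k + 1)) ∈ E)
    (A : Set V) (i j : ℤ) (hne : (routes s H H' A i j).Nonempty) :
    LC (iidLaw (gammaMeasure 1 r)) (fun t => hull (glue E s t) H H' A i j) := by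
  classical
  set Idx := {p : Σ (z w : ℤ), Wk (H z) (H' w) // i ≤ p.1 ∧ p.2.1 ≤ j ∧ IsOpen H H' A p.2.2}
    with hIdx
  have hcount : Countable Idx := inferInstance
  have hne' : Nonempty Idx := by
    obtain ⟨_, z, w, hz, hw, g, hg, -⟩ := hne
    exact ⟨⟨⟨z, w, g⟩, hz, hw, hg⟩⟩
  obtain ⟨f, hf⟩ := exists_surjective_nat Idx
  set c : ℕ → ℝ := fun n => hc s H (f n).1.1 - hc s H' (f n).1.2.1 +
    (((f n).1.2.2.edges.filter fun e => e ∈ E).map s).sum with hc'
  set l : ℕ → List (Sym2 (ℤ × ℤ)) := fun n => (f n).1.2.2.edges.filter fun e => e ∉ E with hl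
  have hval : ∀ t : Environment, ∀ p : Idx,
      hc (glue E s t) H p.1.1 + walkCost (glue E s t) p.1.2.2 - hc (glue E s t) H' p.1.2.1 =
        (hc s H p.1.1 - hc s H' p.1.2.1 + ((p.1.2.2.edges.filter fun e => e ∈ E).map s).sum) +
          ((p.1.2.2.edges.filter fun e => e ∉ E).map t).sum := by
    intro t p
    have h1 : hc (glue E s t) H p.1.1 = hc s H p.1.1 :=
      hc_congr (fun k => glue_of_mem (hHE k) s t) _
    have h2 : hc (glue E s t) H' p.1.2.1 = hc s H' p.1.2.1 :=
      hc_congr (fun k => glue_of_mem (hHE' k) s t) _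
    rw [h1, h2, walkCost_glue]
    ring
  have heq : (fun t => hull (glue E s t) H H' A i j) =
      fun t : Environment => ⨅ n, (c n + ((l n).map t).sum) := by
    funext t
    have hr1 : routes (glue E s t) H H' A i j = range fun p : Idx =>
        hc (glue E s t) H p.1.1 + walkCost (glue E s t) p.1.2.2 - hc (glue E s t) H' p.1.2.1 := by
      ext x
      constructor
      · rintro ⟨z, w, hz, hw, g, hg, rfl⟩
        exact ⟨⟨⟨z, w, g⟩, hz, hw, hg⟩, rfl⟩
      · rintro ⟨⟨⟨z, w, g⟩, hz, hw, hg⟩, rfl⟩
        exact ⟨z, w, hz, hw, g, hg, rfl⟩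
    unfold hull
    rw [hr1]
    change (⨅ p : Idx, _) = _
    rw [← hf.iInf_comp]
    congr 1
    funext n
    exact hval t (f n)
  rw [heq]
  refine LC_iInf_affine hr c l (hc s H i - hc s H' j) ?_
  intro n
  obtain ⟨h1, h2, -⟩ := (f n).2
  have h3 := R78.hc_mono hs H h1
  have h4 := R78.hc_mono hs H' h2
  have h5 : 0 ≤ (((f n).1.2.2.edges.filter fun e => e ∈ E).map s).sum := by
    apply List.sum_nonneg
    intro a ha
    obtain ⟨e, -, rfl⟩ := List.mem_map.1 ha
    exact hs e
  simp only [hc']
  linarith

end hull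

end Crest.Agent.R151.V
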