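import Crest.Agent.R151.V15

/-!
# R151/V16 — consequences of conditional log-concavity on the one-row space (owner helper52)

`X` = hull cost of the row minus an `S`-measurable variable `ρ`, `D` = gauge `- ρ`, so that
`R# = X - D ≥ 0`, and given `S` the variable `X` is log-concave.  For `A ∈ σ(S)` (typical strips):
* `SData.tail` : `P ({a ≤ R#} ∩ A ∩ {|D| ≤ d}) ≤ 2 exp (-(q/2) a / (τ + 3 d))`, every `a ≥ 0`;
* `SData.small_ball` : `P ({R# ≤ a} ∩ A) ≤ 3 δ + (a + 3 d) / t * log (3 / q)`, every `a ≥ 0`;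
* `SData.mean` : `∫_A R# ≤ E|D| + (4/q) (τ + 3 d)`;
* `SData.mean'` : sharp constant when `q ≥ 7/8`;
* `SData.ui` : the atypical part.
-/

set_option autoImplicit false
set_option linter.unusedSectionVars false

open MeasureTheory ProbabilityTheory Set
open scoped ENNReal
open Crest.ProbabilityR.FirstPassage

namespace Crest.Agent.R151.V

open Crest.Agent.R151.K
open Q (P0)
open M192 (Row)

section pure

variable {Ω : Type*} [MeasurableSpace Ω] {μ : Measure Ω} {X : Ω → ℝ}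

lemma one_sub_pow_le {q x : ℝ} (hq1 : q ≤ 1) (hx : 0 ≤ x) :
    (1 - q / 2) ^ x ≤ Real.exp (-(q / 2) * x) := by
  have h1 : 1 - q / 2 ≤ Real.exp (-(q / 2)) := by
    have := Real.add_one_le_exp (-(q / 2)); linarith
  calc (1 - q / 2) ^ x ≤ Real.exp (-(q / 2)) ^ x :=
        Real.rpow_le_rpow (by linarith) h1 hx
    _ = Real.exp (-(q / 2) * x) := by rw [← Real.exp_mul]

/-- (7.2), tail of the log-concave variable itself -/
theorem LC.pert_tail_X [IsProbabilityMeasure μ] (h : LC μ X) (hX : Measurable X) {Z : Ω → ℝ}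
    {d δ t q a : ℝ} (hd : 0 < d) (ht : 0 ≤ t) (hδ : δ ≤ q / 4) (hq0 : 0 ≤ q) (hq1 : q ≤ 1)
    (hE : μ.real {ω | ¬ (|Z ω - X ω| ≤ d ∧ 0 ≤ Z ω)} ≤ δ)
    (hZ : q ≤ μ.real {ω | Z ω ≤ t}) (ha : 0 ≤ a) :
    μ.real {ω | a - d ≤ X ω} ≤ 2 * Real.exp (-(q / 2) * (a / (t + 3 * d))) := by
  have hpos : 0 < t + 3 * d := by linarith
  rcases le_total (t + 3 * d) a with ha' | ha'
  · obtain ⟨h1, h2⟩ := pert_ratio hX hd hδ hq1 hE hZ
    have h3 := h.tail' (a0 := -d) (t1 := t + 2 * d) (a := a - d) (by linarith) (by linarith) h1 h2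
    have e1 : (a - d - -d) / (t + 2 * d - -d) = a / (t + 3 * d) := by congr 1 <;> ring
    rw [e1] at h3
    have h4 := one_sub_pow_le (x := a / (t + 3 * d)) hq1 (by positivity)
    have h5 := Real.exp_pos (-(q / 2) * (a / (t + 3 * d)))
    linarith
  · have h1 : a / (t + 3 * d) ≤ 1 := by rw [div_le_one hpos]; exact ha'
    have h2 : (1 : ℝ) / 2 ≤ Real.exp (-(q / 2) * (a / (t + 3 * d))) := by
      have h3 : -(1 / 2 : ℝ) ≤ -(q / 2) * (a / (t + 3 * d)) := by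
        have : 0 ≤ a / (t + 3 * d) := by positivity
        nlinarith
      have h4 := Real.add_one_le_exp (-(q / 2) * (a / (t + 3 * d)))
      linarith
    have h6 : μ.real {ω | a - d ≤ X ω} ≤ 1 := measureReal_le_one
    linarith

/-- (7.1), for every `a ≥ 0` and with `≤` -/
theorem LC.pert_small_ball' [IsProbabilityMeasure μ] (h : LC μ X) (hX : Measurable X) {Z : Ω → ℝ}
    {d δ t q a : ℝ} (hd : 0 < d) (ht : 0 < t) (ha0 : 0 ≤ a)
    (hδ : δ ≤ 1 / 2) (hq0 : 0 < q) (hq1 : q ≤ 1)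
    (hE : μ.real {ω | ¬ (|Z ω - X ω| ≤ d ∧ 0 ≤ Z ω)} ≤ δ)
    (hZ : q + δ ≤ μ.real {ω | t ≤ Z ω}) :
    μ.real {ω | Z ω ≤ a} ≤ 3 * δ + (a + 3 * d) / t * Real.log (3 / q) := by
  have hδ0 : 0 ≤ δ := measureReal_nonneg.trans hE
  have hl3 : 1 ≤ Real.log 3 := by
    have h1 : Real.exp 1 ≤ 3 := by
      have := Real.exp_one_lt_d9; linarith
    have h2 := Real.log_le_log (Real.exp_pos 1) h1
    rwa [Real.log_exp] at h2
  have hl : Real.log 3 ≤ Real.log (3 / q) :=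
    Real.log_le_log (by norm_num) (by rw [le_div_iff₀ hq0]; linarith)
  have hl1 : 1 ≤ Real.log (3 / q) := hl3.trans hl
  rcases le_total (a + 3 * d) t with ha | ha
  · have h1 := h.pert_small_ball hX (a := a + d) hd.le ht (by linarith) (by linarith) hδ hq0 hE hZ
    have h2 : μ.real {ω | Z ω ≤ a} ≤ μ.real {ω | Z ω < a + d} :=
      measureReal_mono (fun ω (hω : Z ω ≤ a) => show Z ω < a + d by linarith)
        (measure_ne_top _ _)
    have h3 : Real.log (1 / q) ≤ Real.log (3 / q) :=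
      Real.log_le_log (by positivity) (by gcongr; norm_num)
    have h4 : (a + d + 2 * d) / t = (a + 3 * d) / t := by congr 1; ring
    rw [h4] at h1
    have h5 : (a + 3 * d) / t * Real.log (1 / q) ≤ (a + 3 * d) / t * Real.log (3 / q) :=
      mul_le_mul_of_nonneg_left h3 (by positivity)
    linarith
  · have h1 : 1 ≤ (a + 3 * d) / t := by rw [one_le_div ht]; exact ha
    have h2 : 1 * 1 ≤ (a + 3 * d) / t * Real.log (3 / q) :=
      mul_le_mul h1 hl1 zero_le_one (by linarith)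
    have h3 : μ.real {ω | Z ω ≤ a} ≤ 1 := measureReal_le_one
    linarith

/-- sharp mean: `P (Z ≤ t) ≥ 7/8` -/
theorem LC.pert_mean' [IsProbabilityMeasure μ] (h : LC μ X) (hX : Measurable X) {Z : Ω → ℝ}
    (hZm : Measurable Z) {d δ t : ℝ} (hd : 0 < d) (ht : 0 ≤ t) (hδ : δ ≤ 1 / 16)
    (hE : μ.real {ω | ¬ (|Z ω - X ω| ≤ d ∧ 0 ≤ Z ω)} ≤ δ)
    (hZ : 7 / 8 ≤ μ.real {ω | Z ω ≤ t}) :
    ∫⁻ ω, ENNReal.ofReal (Z ω) ∂μ ≤
      ∫⁻ ω, ENNReal.ofReal |Z ω - X ω| ∂μ + ENNReal.ofReal (3 / 2 * (t + 3 * d)) := by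
  have hδ0 : 0 ≤ δ := measureReal_nonneg.trans hE
  have hcompl : ∀ c : ℝ, μ.real {ω | c ≤ X ω} = 1 - μ.real {ω | X ω < c} := by
    intro c
    rw [← probReal_compl_eq_one_sub (measurableSet_lt hX measurable_const)]
    congr 1
    ext ω
    simp
  have h1 : 1 - δ ≤ μ.real {ω | -d ≤ X ω} := by
    rw [hcompl]
    have : μ.real {ω | X ω < -d} ≤ μ.real {ω | ¬ (|Z ω - X ω| ≤ d ∧ 0 ≤ Z ω)} := by
      apply measureReal_mono _ (measure_ne_top _ _)
      intro ω hω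
      simp only [Set.mem_ofPred_eq] at hω ⊢
      rintro ⟨h1, h2⟩
      rw [abs_le] at h1
      linarith [h1.1, h1.2]
    linarith
  have h2 : μ.real {ω | t + 2 * d ≤ X ω} ≤ 1 / 8 + δ := by
    rw [hcompl]
    have h3 : μ.real {ω | Z ω ≤ t} ≤ μ.real {ω | X ω < t + 2 * d} +
        μ.real {ω | ¬ (|Z ω - X ω| ≤ d ∧ 0 ≤ Z ω)} := by
      refine (measureReal_mono ?_ (measure_ne_top _ _)).trans (measureReal_union_le _ _)
      intro ω hω
      simp only [Set.mem_union, Set.mem_ofPred_eq] at hω ⊢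
      by_contra hcon
      push Not at hcon
      obtain ⟨h4, h5, h6⟩ := hcon
      rw [abs_le] at h5
      linarith [h5.1, h5.2]
    linarith
  have h3 := h.lintegral_tail hX (a0 := -d) (t1 := t + 2 * d) (x := t + 2 * d) (ρ := 1 / 4)
    (by linarith) le_rfl (by linarith) (by linarith) (by norm_num) (by norm_num)
  have e1 : (t + 2 * d - -d) / (t + 2 * d - -d) = 1 := div_self (by linarith)
  have hlog : 1 ≤ Real.log (1 / (1 / 4 : ℝ)) := by
    have h1 : Real.exp 1 ≤ 4 := by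
      have := Real.exp_one_lt_d9; linarith
    have h2 := Real.log_le_log (Real.exp_pos 1) h1
    rw [Real.log_exp] at h2
    norm_num
    exact h2
  have h4 : (t + 2 * d - -d) / Real.log (1 / (1 / 4 : ℝ)) *
      (1 / 4 : ℝ) ^ ((t + 2 * d - -d) / (t + 2 * d - -d)) ≤ 1 / 2 * (t + 3 * d) := by
    rw [e1, Real.rpow_one]
    have h5 : (t + 2 * d - -d) / Real.log (1 / (1 / 4 : ℝ)) ≤ t + 3 * d := by
      rw [div_le_iff₀ (by linarith)]
      nlinarith
    nlinarith [h5]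
  have h6 : ∫⁻ ω, ENNReal.ofReal (X ω - (t + 2 * d)) ∂μ ≤ ENNReal.ofReal (1 / 2 * (t + 3 * d)) :=
    h3.trans (ENNReal.ofReal_le_ofReal h4)
  have h7 : ∀ ω, ENNReal.ofReal (Z ω) ≤ ENNReal.ofReal |Z ω - X ω| +
      (ENNReal.ofReal (X ω - (t + 2 * d)) + ENNReal.ofReal (t + 2 * d)) := by
    intro ω
    have h3 : Z ω ≤ |Z ω - X ω| + (max (X ω - (t + 2 * d)) 0 + (t + 2 * d)) := by
      have := le_abs_self (Z ω - X ω)
      have := le_max_left (X ω - (t + 2 * d)) 0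
      linarith
    calc ENNReal.ofReal (Z ω) ≤ ENNReal.ofReal (|Z ω - X ω| +
          (max (X ω - (t + 2 * d)) 0 + (t + 2 * d))) := ENNReal.ofReal_le_ofReal h3
      _ = _ := by
        rw [ENNReal.ofReal_add (abs_nonneg _) (by positivity),
          ENNReal.ofReal_add (le_max_right _ _) (by positivity), ENNReal.ofReal_max]
        simp
  have m1 : Measurable fun ω => ENNReal.ofReal |Z ω - X ω| :=
    ENNReal.measurable_ofReal.comp (hZm.sub hX).abs
  have m2 : Measurable fun ω => ENNReal.ofReal (X ω - (t + 2 * d)) :=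
    ENNReal.measurable_ofReal.comp (hX.sub_const _)
  calc ∫⁻ ω, ENNReal.ofReal (Z ω) ∂μ
      ≤ ∫⁻ ω, (ENNReal.ofReal |Z ω - X ω| +
          (ENNReal.ofReal (X ω - (t + 2 * d)) + ENNReal.ofReal (t + 2 * d))) ∂μ :=
        lintegral_mono h7
    _ = ∫⁻ ω, ENNReal.ofReal |Z ω - X ω| ∂μ + (∫⁻ ω, ENNReal.ofReal (X ω - (t + 2 * d)) ∂μ +
          ENNReal.ofReal (t + 2 * d)) := by
        rw [lintegral_add_left m1, lintegral_add_left m2, lintegral_const,
          measure_univ, mul_one]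
    _ ≤ ∫⁻ ω, ENNReal.ofReal |Z ω - X ω| ∂μ + (ENNReal.ofReal (1 / 2 * (t + 3 * d)) +
          ENNReal.ofReal (t + 2 * d)) := by gcongr
    _ ≤ _ := by
        rw [← ENNReal.ofReal_add (by positivity) (by positivity)]
        gcongr
        linarith

end pure

section SD

variable {Φ : Type*} [MeasurableSpace Φ] {E : ℝ × ℝ → Set (Sym2 (ℤ × ℤ))}
  {G : Measure ℝ} [IsProbabilityMeasure G] {ν : Measure Φ} [IsProbabilityMeasure ν]

/-- `X` = hull cost of a row minus an `S`-measurable variable, `D` = gauge minus the same variable;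
`X - D` = `R#`. -/
structure SData (G : Measure ℝ) (ν : Measure Φ) (E : ℝ × ℝ → Set (Sym2 (ℤ × ℤ)))
    (X D : Row Φ → ℝ) : Prop where
  hE : ∀ e, MeasurableSet {θ | e ∈ E θ}
  hX : Measurable X
  hD : Measurable D
  hDi : Integrable D ((P0 G).prod ν)
  lc : ∀ᵐ p ∂((P0 G).prod ν), LC (iidLaw G) (fun t => X (cs E p t))
  nonneg : ∀ᵐ p ∂((P0 G).prod ν), 0 ≤ X p - D p

/-- constructor from the hull `Hh`, the gauge `Gg` and an `S`-measurable `ρ` -/
theorem SData.of {Hh Gg ρ : Row Φ → ℝ} (hE : ∀ e, MeasurableSet {θ | e ∈ E θ})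
    (hH : Measurable Hh) (hG : Measurable Gg) (hρ : Measurable ρ)
    (hρS : ∀ p t, ρ (cs E p t) = ρ p) (hGi : Integrable Gg ((P0 G).prod ν))
    (hρi : Integrable ρ ((P0 G).prod ν))
    (lc : ∀ᵐ p ∂((P0 G).prod ν), LC (iidLaw G) (fun t => Hh (cs E p t)))
    (nonneg : ∀ᵐ p ∂((P0 G).prod ν), 0 ≤ Hh p - Gg p) :
    SData G ν E (fun p => Hh p - ρ p) (fun p => Gg p - ρ p) where
  hE := hE
  hX := hH.sub hρ
  hD := hG.sub hρ
  hDi := hGi.sub hρi
  lc := by
    filter_upwards [lc] with p hp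
    have h1 : (fun t => Hh (cs E p t) - ρ (cs E p t)) = fun t => Hh (cs E p t) - ρ p := by
      funext t; rw [hρS]
    rw [h1]
    exact hp.sub_const _
  nonneg := by
    filter_upwards [nonneg] with p hp
    linarith

variable {X D : Row Φ → ℝ}

lemma SData.cond_err (h : SData G ν E X D) {A : Set (Row Φ)} {d δ : ℝ}
    (hD : ∀ᵐ p ∂((P0 G).prod ν), p ∈ A → (iidLaw G).real {t | d < |D (cs E p t)|} ≤ δ) :
    ∀ᵐ p ∂((P0 G).prod ν), p ∈ A → (iidLaw G).real
      {t | ¬ (|(X (cs E p t) - D (cs E p t)) - X (cs E p t)| ≤ d ∧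
        0 ≤ X (cs E p t) - D (cs E p t))} ≤ δ := by
  filter_upwards [hD, ae_cs h.hE h.nonneg] with p hp h0 hpA
  refine le_trans (ENNReal.toReal_mono (measure_ne_top _ _) (measure_mono_ae ?_)) (hp hpA)
  filter_upwards [h0] with t ht hcon
  show d < |D (cs E p t)|
  by_contra hlt
  push Not at hlt
  refine hcon ⟨?_, ht⟩
  have : X (cs E p t) - D (cs E p t) - X (cs E p t) = -D (cs E p t) := by ring
  rw [this, abs_neg]
  exact hlt

/-- exponential tail on `A ∩ {|D| ≤ d}` -/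
theorem SData.tail (h : SData G ν E X D) {A : Set (Row Φ)} (hA : MeasurableSet A)
    (hS : SInv E A) {d δ τ q : ℝ} (hd : 0 < d) (hτ : 0 ≤ τ) (hδ : δ ≤ q / 4) (hq0 : 0 ≤ q)
    (hq1 : q ≤ 1)
    (hD : ∀ᵐ p ∂((P0 G).prod ν), p ∈ A → (iidLaw G).real {t | d < |D (cs E p t)|} ≤ δ)
    (hZ : ∀ᵐ p ∂((P0 G).prod ν), p ∈ A →
      q ≤ (iidLaw G).real {t | X (cs E p t) - D (cs E p t) ≤ τ}) {a : ℝ} (ha : 0 ≤ a) :
    ((P0 G).prod ν).real ({p | a ≤ X p - D p} ∩ (A ∩ {p | |D p| ≤ d})) ≤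
      2 * Real.exp (-(q / 2) * (a / (τ + 3 * d))) := by
  refine le_trans (measureReal_mono (s₂ := {p | a - d ≤ X p} ∩ A) ?_ (measure_ne_top _ _)) ?_
  · rintro p ⟨h1, h2, h3⟩
    refine ⟨?_, h2⟩
    simp only [mem_ofPred_eq] at h1 h3 ⊢
    rw [abs_le] at h3
    linarith [h3.1]
  · refine prob_inter_le h.hE hA hS (measurableSet_le measurable_const h.hX) (by positivity) ?_
    filter_upwards [h.lc, h.cond_err hD, hZ] with p hlc herr hz hpA
    exact hlc.pert_tail_X (h.hX.comp (measurable_cs_right E p)) (Z := fun t =>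
      X (cs E p t) - D (cs E p t)) hd hτ hδ hq0 hq1 (herr hpA) (hz hpA) ha

/-- small ball on `A` -/
theorem SData.small_ball (h : SData G ν E X D) {A : Set (Row Φ)} (hA : MeasurableSet A)
    (hS : SInv E A) {d δ t₀ q : ℝ} (hd : 0 < d) (ht : 0 < t₀) (hδ : δ ≤ 1 / 2) (hδ0 : 0 ≤ δ)
    (hq0 : 0 < q) (hq1 : q ≤ 1)
    (hD : ∀ᵐ p ∂((P0 G).prod ν), p ∈ A → (iidLaw G).real {t | d < |D (cs E p t)|} ≤ δ)
    (hZ : ∀ᵐ p ∂((P0 G).prod ν), p ∈ A →
      q + δ ≤ (iidLaw G).real {t | t₀ ≤ X (cs E p t) - D (cs E p t)}) {a : ℝ} (ha : 0 ≤ a) :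
    ((P0 G).prod ν).real ({p | X p - D p ≤ a} ∩ A) ≤
      3 * δ + (a + 3 * d) / t₀ * Real.log (3 / q) := by
  have hl : 0 ≤ Real.log (3 / q) := Real.log_nonneg (by rw [le_div_iff₀ hq0]; linarith)
  refine prob_inter_le h.hE hA hS (measurableSet_le (h.hX.sub h.hD) measurable_const)
    (by positivity) ?_
  filter_upwards [h.lc, h.cond_err hD, hZ] with p hlc herr hz hpA
  exact hlc.pert_small_ball' (h.hX.comp (measurable_cs_right E p)) (Z := fun t =>
    X (cs E p t) - D (cs E p t)) hd ht ha hδ hq0 hq1 (herr hpA) (hz hpA)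

/-- comparison of conditional means ⟹ comparison of means on `A ∈ σ(S)` -/
theorem lintegral_inter_le2 (hE : ∀ e, MeasurableSet {θ | e ∈ E θ}) {A : Set (Row Φ)}
    (hA : MeasurableSet A) (hS : SInv E A) {f g : Row Φ → ℝ≥0∞} (hf : Measurable f)
    (hg : Measurable g) {c : ℝ≥0∞}
    (h : ∀ᵐ p ∂((P0 G).prod ν), p ∈ A →
      ∫⁻ t, f (cs E p t) ∂(iidLaw G) ≤ ∫⁻ t, g (cs E p t) ∂(iidLaw G) + c) :
    ∫⁻ p in A, f p ∂((P0 G).prod ν) ≤
      ∫⁻ p in A, g p ∂((P0 G).prod ν) + c * ((P0 G).prod ν) A := by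
  have key : ∀ f : Row Φ → ℝ≥0∞, Measurable f → ∫⁻ p in A, f p ∂((P0 G).prod ν) =
      ∫⁻ p in A, ∫⁻ t, f (cs E p t) ∂(iidLaw G) ∂((P0 G).prod ν) := by
    intro f hf
    rw [← lintegral_indicator hA, ← lintegral_cs hE (hf.indicator hA), ← lintegral_indicator hA]
    refine lintegral_congr fun p => ?_
    by_cases hp : p ∈ A
    · rw [indicator_of_mem hp]
      refine lintegral_congr fun t => ?_
      rw [indicator_of_mem ((hS p t).2 hp)]
    · rw [indicator_of_notMem hp]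
      rw [← lintegral_zero (μ := iidLaw G)]
      refine lintegral_congr fun t => ?_
      rw [indicator_of_notMem (fun h => hp ((hS p t).1 h))]
  rw [key f hf, key g hg]
  have hm : Measurable fun p : Row Φ => ∫⁻ t, g (cs E p t) ∂(iidLaw G) :=
    (hg.comp (measurable_cs hE)).lintegral_prod_right'
  rw [← setLIntegral_const, ← lintegral_add_left hm]
  refine lintegral_mono_ae ?_
  rw [ae_restrict_iff' hA]
  exact h

lemma SData.lintegral_abs (h : SData G ν E X D) :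
    ∫⁻ p, ENNReal.ofReal |D p| ∂((P0 G).prod ν) =
      ENNReal.ofReal (∫ p, |D p| ∂((P0 G).prod ν)) :=
  (ofReal_integral_eq_lintegral_ofReal h.hDi.abs (ae_of_all _ fun _ => abs_nonneg _)).symm

lemma toReal_bound {f : Row Φ → ℝ} {A : Set (Row Φ)} (hf : Measurable f)
    (hf0 : ∀ᵐ p ∂((P0 G).prod ν), 0 ≤ f p) {c : ℝ} (hc : 0 ≤ c)
    (h : ∫⁻ p in A, ENNReal.ofReal (f p) ∂((P0 G).prod ν) ≤ ENNReal.ofReal c) :
    IntegrableOn f A ((P0 G).prod ν) ∧ ∫ p in A, f p ∂((P0 G).prod ν) ≤ c := by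
  have h5 : 0 ≤ᵐ[((P0 G).prod ν).restrict A] f := ae_restrict_of_ae hf0
  refine ⟨⟨hf.aestronglyMeasurable, ?_⟩, ?_⟩
  · rw [hasFiniteIntegral_iff_ofReal h5]
    exact lt_of_le_of_lt h ENNReal.ofReal_lt_top
  · rw [integral_eq_lintegral_of_nonneg_ae h5 hf.aestronglyMeasurable]
    exact ENNReal.toReal_le_of_le_ofReal hc h

/-- mean of `R#` on `A ∈ σ(S)`, any `K ≥ 0` bounding the conditional mean up to `|D|` -/
lemma SData.mean_aux (h : SData G ν E X D) {A : Set (Row Φ)} (hA : MeasurableSet A)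
    (hS : SInv E A) {K : ℝ} (hK : 0 ≤ K)
    (hm : ∀ᵐ p ∂((P0 G).prod ν), p ∈ A →
      ∫⁻ t, ENNReal.ofReal (X (cs E p t) - D (cs E p t)) ∂(iidLaw G) ≤
        ∫⁻ t, ENNReal.ofReal |D (cs E p t)| ∂(iidLaw G) + ENNReal.ofReal K) :
    IntegrableOn (fun p => X p - D p) A ((P0 G).prod ν) ∧
      ∫ p in A, (X p - D p) ∂((P0 G).prod ν) ≤ ∫ p, |D p| ∂((P0 G).prod ν) + K := by
  have h1 := lintegral_inter_le2 (G := G) (ν := ν) h.hE hA hS
    (f := fun p => ENNReal.ofReal (X p - D p)) (g := fun p => ENNReal.ofReal |D p|)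
    (ENNReal.measurable_ofReal.comp (h.hX.sub h.hD))
    (ENNReal.measurable_ofReal.comp h.hD.abs) (c := ENNReal.ofReal K) hm
  have h2 : ∫⁻ p in A, ENNReal.ofReal (X p - D p) ∂((P0 G).prod ν) ≤
      ENNReal.ofReal (∫ p, |D p| ∂((P0 G).prod ν) + K) := by
    rw [ENNReal.ofReal_add (integral_nonneg fun _ => abs_nonneg _) hK, ← h.lintegral_abs]
    refine h1.trans (add_le_add (setLIntegral_le_lintegral _ _) ?_)
    exact mul_le_of_le_one_right zero_le prob_le_one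
  exact toReal_bound (h.hX.sub h.hD) h.nonneg
    (add_nonneg (integral_nonneg fun _ => abs_nonneg _) hK) h2

/-- mean of `R#` on typical strips -/
theorem SData.mean (h : SData G ν E X D) {A : Set (Row Φ)} (hA : MeasurableSet A)
    (hS : SInv E A) {d δ τ q : ℝ} (hd : 0 < d) (hτ : 0 ≤ τ) (hδ : δ ≤ q / 4) (hq0 : 0 < q)
    (hq1 : q ≤ 1)
    (hD : ∀ᵐ p ∂((P0 G).prod ν), p ∈ A → (iidLaw G).real {t | d < |D (cs E p t)|} ≤ δ)
    (hZ : ∀ᵐ p ∂((P0 G).prod ν), p ∈ A →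
      q ≤ (iidLaw G).real {t | X (cs E p t) - D (cs E p t) ≤ τ}) :
    IntegrableOn (fun p => X p - D p) A ((P0 G).prod ν) ∧
      ∫ p in A, (X p - D p) ∂((P0 G).prod ν) ≤
        ∫ p, |D p| ∂((P0 G).prod ν) + (4 / q) * (τ + 3 * d) := by
  refine h.mean_aux hA hS (by positivity) ?_
  filter_upwards [h.lc, h.cond_err hD, hZ] with p hlc herr hz hpA
  have hm := measurable_cs_right E p
  have h1 := hlc.pert_mean (h.hX.comp hm) (Z := fun t => X (cs E p t) - D (cs E p t))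
    ((h.hX.sub h.hD).comp hm) hd hτ hδ hq0 hq1 (herr hpA) (hz hpA)
  have h2 : ∀ t, |X (cs E p t) - D (cs E p t) - X (cs E p t)| = |D (cs E p t)| := by
    intro t
    rw [← abs_neg]
    congr 1
    ring
  simp only [h2] at h1
  exact h1

/-- mean of `R#` on typical strips, sharp constant -/
theorem SData.mean' (h : SData G ν E X D) {A : Set (Row Φ)} (hA : MeasurableSet A)
    (hS : SInv E A) {d δ τ : ℝ} (hd : 0 < d) (hτ : 0 ≤ τ) (hδ : δ ≤ 1 / 16)
    (hD : ∀ᵐ p ∂((P0 G).prod ν), p ∈ A → (iidLaw G).real {t | d < |D (cs E p t)|} ≤ δ)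
    (hZ : ∀ᵐ p ∂((P0 G).prod ν), p ∈ A →
      7 / 8 ≤ (iidLaw G).real {t | X (cs E p t) - D (cs E p t) ≤ τ}) :
    IntegrableOn (fun p => X p - D p) A ((P0 G).prod ν) ∧
      ∫ p in A, (X p - D p) ∂((P0 G).prod ν) ≤
        ∫ p, |D p| ∂((P0 G).prod ν) + 3 / 2 * (τ + 3 * d) := by
  refine h.mean_aux hA hS (by positivity) ?_
  filter_upwards [h.lc, h.cond_err hD, hZ] with p hlc herr hz hpA
  have hm := measurable_cs_right E p
  have h1 := hlc.pert_mean' (h.hX.comp hm) (Z := fun t => X (cs E p t) - D (cs E p t))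
    ((h.hX.sub h.hD).comp hm) hd hτ hδ (herr hpA) (hz hpA)
  have h2 : ∀ t, |X (cs E p t) - D (cs E p t) - X (cs E p t)| = |D (cs E p t)| := by
    intro t
    rw [← abs_neg]
    congr 1
    ring
  simp only [h2] at h1
  exact h1

end SD

end Crest.Agent.R151.V
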