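import Crest.Agent.R151.V1

/-!
# R151, block V2 (helper52): the Gamma law, Stein's identity and the one-edge variance bound
-/

set_option autoImplicit false

open MeasureTheory ProbabilityTheory Real Set Filter
open scoped ENNReal Topology

namespace Crest.Agent.R151.V

variable {κ r : ℝ}

lemma integrableOn_w {a r : ℝ} (ha : -1 < a) (hr : 0 < r) :
    IntegrableOn (fun t : ℝ => t ^ a * exp (-(r * t))) (Ioi 0) := by
  have h := integrableOn_rpow_mul_exp_neg_mul_rpow (p := 1) ha zero_lt_one hr
  refine h.congr_fun ?_ measurableSet_Ioi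
  intro x hx
  simp [rpow_one]

/-- integrals against the Gamma law -/
lemma integral_gamma (hκ : 0 < κ) (hr : 0 < r) (φ : ℝ → ℝ) :
    ∫ t, φ t ∂(gammaMeasure κ r) =
      (r ^ κ / Gamma κ) * ∫ t in Ioi 0, t ^ (κ - 1) * exp (-(r * t)) * φ t := by
  unfold gammaMeasure
  rw [integral_withDensity_eq_integral_toReal_smul₀]
  · rw [← integral_const_mul, ← integral_indicator measurableSet_Ioi]
    apply integral_congr_ae
    have h0 : ∀ᵐ t : ℝ, t ≠ 0 := by
      simp [ae_iff]
    filter_upwards [h0] with t ht
    rcases lt_or_gt_of_ne ht with h | h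
    · rw [gammaPDF_of_neg h, indicator_of_notMem (by simpa using h.le)]
      simp
    · rw [gammaPDF_of_nonneg h.le, indicator_of_mem (by simpa using h),
        ENNReal.toReal_ofReal (by have := Gamma_pos_of_pos hκ; positivity)]
      simp only [smul_eq_mul]
      ring
  · exact ((measurable_gammaPDFReal κ r).ennreal_ofReal).aemeasurable
  · exact Eventually.of_forall fun t => ENNReal.ofReal_lt_top

lemma integrable_gamma_iff (hκ : 0 < κ) (hr : 0 < r) (φ : ℝ → ℝ) :
    Integrable φ (gammaMeasure κ r) ↔
      IntegrableOn (fun t => t ^ (κ - 1) * exp (-(r * t)) * φ t) (Ioi 0) := by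
  unfold gammaMeasure
  rw [integrable_withDensity_iff_integrable_smul₀']
  · have hc : 0 < r ^ κ / Gamma κ := div_pos (rpow_pos_of_pos hr _) (Gamma_pos_of_pos hκ)
    rw [← integrable_indicator_iff measurableSet_Ioi]
    constructor
    · intro h
      refine (h.const_mul (r ^ κ / Gamma κ)⁻¹).congr ?_
      have h0 : ∀ᵐ t : ℝ, t ≠ 0 := by simp [ae_iff]
      filter_upwards [h0] with t ht
      rcases lt_or_gt_of_ne ht with h | h
      · rw [gammaPDF_of_neg h, indicator_of_notMem (by simpa using h.le)]
        simp
      · rw [gammaPDF_of_nonneg h.le, indicator_of_mem (by simpa using h),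
          ENNReal.toReal_ofReal (by positivity)]
        simp only [smul_eq_mul]
        field_simp
    · intro h
      refine (h.const_mul (r ^ κ / Gamma κ)).congr ?_
      have h0 : ∀ᵐ t : ℝ, t ≠ 0 := by simp [ae_iff]
      filter_upwards [h0] with t ht
      rcases lt_or_gt_of_ne ht with h | h
      · rw [gammaPDF_of_neg h, indicator_of_notMem (by simpa using h.le)]
        simp
      · rw [gammaPDF_of_nonneg h.le, indicator_of_mem (by simpa using h),
          ENNReal.toReal_ofReal (by positivity)]
        simp only [smul_eq_mul]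
        ring
  · exact ((measurable_gammaPDFReal κ r).ennreal_ofReal).aemeasurable
  · exact Eventually.of_forall fun t => ENNReal.ofReal_lt_top

lemma integrable_rpow_gamma (hκ : 0 < κ) (hr : 0 < r) {p : ℝ} (hp : -κ < p) :
    Integrable (fun t => t ^ p) (gammaMeasure κ r) := by
  rw [integrable_gamma_iff hκ hr]
  refine (integrableOn_w (a := κ - 1 + p) (by linarith) hr).congr_fun ?_ measurableSet_Ioi
  intro t ht
  have ht : 0 < t := ht
  simp only
  rw [rpow_add ht]
  ring

lemma integrable_pow_gamma (hκ : 0 < κ) (hr : 0 < r) (n : ℕ) :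
    Integrable (fun t => t ^ n) (gammaMeasure κ r) := by
  have := integrable_rpow_gamma hκ hr (p := (n : ℝ)) (by have := n.cast_nonneg (α := ℝ); linarith)
  simpa using this

lemma integrable_id_gamma (hκ : 0 < κ) (hr : 0 < r) :
    Integrable (fun t => t) (gammaMeasure κ r) := by
  simpa using integrable_pow_gamma hκ hr 1

lemma hasDerivAt_W (κ r : ℝ) {t : ℝ} (ht : 0 < t) :
    HasDerivAt (fun t : ℝ => t ^ κ * exp (-(r * t)))
      ((κ - r * t) * (t ^ (κ - 1) * exp (-(r * t)))) t := by
  have h1 : HasDerivAt (fun t : ℝ => t ^ κ) (κ * t ^ (κ - 1)) t :=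
    hasDerivAt_rpow_const (Or.inl ht.ne')
  have h2 : HasDerivAt (fun t : ℝ => exp (-(r * t))) (exp (-(r * t)) * (-r)) t := by
    have : HasDerivAt (fun t : ℝ => -(r * t)) (-r) t := by
      simpa [neg_mul] using (hasDerivAt_id t).const_mul (-r)
    exact this.exp
  refine (h1.mul h2).congr_deriv ?_
  have : t ^ κ = t ^ (κ - 1) * t := by
    rw [← rpow_add_one ht.ne']; congr 1; ring
  rw [this]
  ring

lemma tendsto_W (κ : ℝ) (hr : 0 < r) :
    Tendsto (fun t : ℝ => t ^ κ * exp (-(r * t))) atTop (𝓝 0) := by
  have := tendsto_rpow_mul_exp_neg_mul_atTop_nhds_zero κ r hr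
  simpa [neg_mul] using this

lemma continuous_W (hκ : 0 < κ) (r : ℝ) : Continuous (fun t : ℝ => t ^ κ * exp (-(r * t))) := by
  have h1 : Continuous (fun t : ℝ => t ^ κ) := continuous_id.rpow_const (fun _ => Or.inr hκ.le)
  have h2 : Continuous (fun t : ℝ => exp (-(r * t))) := by fun_prop
  exact h1.mul h2

lemma integrableOn_W' (hκ : 0 < κ) (hr : 0 < r) :
    IntegrableOn (fun t : ℝ => (κ - r * t) * (t ^ (κ - 1) * exp (-(r * t)))) (Ioi 0) := by
  have h1 := (integrableOn_w (a := κ - 1) (by linarith) hr).const_mul κ
  have h2 := (integrableOn_w (a := κ) (by linarith) hr).const_mul r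
  refine IntegrableOn.congr_fun (f := fun t : ℝ => κ * (t ^ (κ - 1) * exp (-(r * t))) -
    r * (t ^ κ * exp (-(r * t)))) (h1.sub h2) ?_ measurableSet_Ioi
  intro t ht
  have ht : 0 < t := ht
  have : t ^ κ = t ^ (κ - 1) * t := by
    rw [← rpow_add_one ht.ne']; congr 1; ring
  simp only
  rw [this]
  ring

lemma integral_W'_Ioi (hκ : 0 < κ) (hr : 0 < r) {c : ℝ} (hc : 0 ≤ c) :
    ∫ t in Ioi c, (κ - r * t) * (t ^ (κ - 1) * exp (-(r * t))) = -(c ^ κ * exp (-(r * c))) := by
  rw [integral_Ioi_of_hasDerivAt_of_tendsto (f := fun t : ℝ => t ^ κ * exp (-(r * t))) (m := 0)]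
  · simp
  · exact (continuous_W hκ r).continuousWithinAt
  · intro t ht
    exact hasDerivAt_W κ r (lt_of_le_of_lt hc ht)
  · exact (integrableOn_W' hκ hr).mono_set (Ioi_subset_Ioi hc)
  · exact tendsto_W κ hr

lemma integral_tW'_Ioc (hκ : 0 < κ) (r : ℝ) {c : ℝ} (hc : 0 ≤ c) :
    ∫ t in Ioc 0 c, t * ((κ - r * t) * (t ^ (κ - 1) * exp (-(r * t)))) =
      c * (c ^ κ * exp (-(r * c))) - ∫ t in Ioc 0 c, t ^ κ * exp (-(r * t)) := by
  have hW := continuous_W hκ r
  have hi1 : IntervalIntegrable (fun t : ℝ => t ^ κ * exp (-(r * t))) volume 0 c :=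
    hW.intervalIntegrable _ _
  have hi2 : IntervalIntegrable
      (fun t : ℝ => t * ((κ - r * t) * (t ^ (κ - 1) * exp (-(r * t))))) volume 0 c := by
    rw [intervalIntegrable_iff_integrableOn_Ioc_of_le hc]
    have h1 : ContinuousOn (fun t : ℝ => (κ - r * t) * (t ^ κ * exp (-(r * t)))) (Icc 0 c) :=
      ((continuous_const.sub (continuous_const.mul continuous_id)).mul hW).continuousOn
    refine ((h1.integrableOn_Icc).mono_set Ioc_subset_Icc_self).congr_fun ?_ measurableSet_Ioc
    intro t ht
    have ht : 0 < t := ht.1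
    have : t ^ κ = t ^ (κ - 1) * t := by
      rw [← rpow_add_one ht.ne']; congr 1; ring
    simp only
    rw [this]
    ring
  have key := intervalIntegral.integral_eq_sub_of_hasDerivAt_of_le hc
    (f := fun t : ℝ => t * (t ^ κ * exp (-(r * t))))
    (f' := fun t : ℝ => t ^ κ * exp (-(r * t)) +
      t * ((κ - r * t) * (t ^ (κ - 1) * exp (-(r * t)))))
    (continuous_id.mul hW).continuousOn
    (by
      intro t ht
      refine ((hasDerivAt_id t).mul (hasDerivAt_W κ r ht.1)).congr_deriv ?_
      simp)
    (hi1.add hi2)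
  rw [intervalIntegral.integral_add hi1 hi2, intervalIntegral.integral_of_le hc,
    intervalIntegral.integral_of_le hc] at key
  simp only [zero_mul, sub_zero] at key
  linarith

/-- Stein's identity for the Gamma law and the function `t ↦ min t c`. -/
theorem stein_min (hκ : 0 < κ) (hr : 0 < r) (c : ℝ) :
    ∫ t, (r * t - κ) * min t c ∂(gammaMeasure κ r) =
      ∫ t, (if t < c then t else 0) ∂(gammaMeasure κ r) := by
  rw [integral_gamma hκ hr, integral_gamma hκ hr]
  congr 1
  rcases le_or_gt c 0 with hc | hc
  · have h1 : ∫ t in Ioi 0, t ^ (κ - 1) * exp (-(r * t)) * ((r * t - κ) * min t c) =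
        ∫ t in Ioi 0, (-c) * ((κ - r * t) * (t ^ (κ - 1) * exp (-(r * t)))) := by
      apply setIntegral_congr_fun measurableSet_Ioi
      intro t ht
      have ht : 0 < t := ht
      simp only
      rw [min_eq_right (by linarith)]
      ring
    rw [h1, integral_const_mul, integral_W'_Ioi hκ hr le_rfl, zero_rpow hκ.ne']
    rw [setIntegral_congr_fun (g := fun _ => (0:ℝ)) measurableSet_Ioi]
    · simp
    · intro t ht
      have ht : 0 < t := ht
      simp only
      rw [if_neg (by linarith)]
      simp
  · have hsplit : Ioi (0:ℝ) = Ioc 0 c ∪ Ioi c := (Ioc_union_Ioi_eq_Ioi hc.le).symm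
    have hdisj : Disjoint (Ioc (0:ℝ) c) (Ioi c) := Ioc_disjoint_Ioi le_rfl
    have e1 : ∀ t ∈ Ioc 0 c, t ^ (κ - 1) * exp (-(r * t)) * ((r * t - κ) * min t c) =
        -(t * ((κ - r * t) * (t ^ (κ - 1) * exp (-(r * t))))) := by
      intro t ht
      rw [min_eq_left ht.2]
      ring
    have e2 : ∀ t ∈ Ioi c, t ^ (κ - 1) * exp (-(r * t)) * ((r * t - κ) * min t c) =
        (-c) * ((κ - r * t) * (t ^ (κ - 1) * exp (-(r * t)))) := by
      intro t ht
      have ht : c < t := ht
      rw [min_eq_right ht.le]
      ring
    have e3 : ∀ t ∈ Ioi c, t ^ (κ - 1) * exp (-(r * t)) * (if t < c then t else 0) = 0 := by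
      intro t ht
      have ht : c < t := ht
      rw [if_neg (by linarith), mul_zero]
    have hW' := integrableOn_W' hκ hr
    have hI1 : IntegrableOn (fun t : ℝ => t * ((κ - r * t) * (t ^ (κ - 1) * exp (-(r * t)))))
        (Ioc 0 c) := by
      have h1 : ContinuousOn (fun t : ℝ => (κ - r * t) * (t ^ κ * exp (-(r * t)))) (Icc 0 c) :=
        ((continuous_const.sub (continuous_const.mul continuous_id)).mul
          (continuous_W hκ r)).continuousOn
      refine ((h1.integrableOn_Icc).mono_set Ioc_subset_Icc_self).congr_fun ?_ measurableSet_Ioc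
      intro t ht
      have ht : 0 < t := ht.1
      have : t ^ κ = t ^ (κ - 1) * t := by
        rw [← rpow_add_one ht.ne']; congr 1; ring
      simp only
      rw [this]
      ring
    rw [hsplit, setIntegral_union hdisj measurableSet_Ioi, setIntegral_union hdisj measurableSet_Ioi,
      setIntegral_congr_fun measurableSet_Ioc e1, setIntegral_congr_fun measurableSet_Ioi e2,
      setIntegral_congr_fun measurableSet_Ioi e3, integral_neg, integral_const_mul,
      integral_tW'_Ioc hκ r hc.le, integral_W'_Ioi hκ hr hc.le]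
    · have e4 : ∫ t in Ioc 0 c, t ^ (κ - 1) * exp (-(r * t)) * (if t < c then t else 0) =
          ∫ t in Ioc 0 c, t ^ κ * exp (-(r * t)) := by
        rw [integral_Ioc_eq_integral_Ioo, integral_Ioc_eq_integral_Ioo]
        apply setIntegral_congr_fun measurableSet_Ioo
        intro t ht
        simp only
        rw [if_pos ht.2]
        have ht : 0 < t := ht.1
        have : t ^ κ = t ^ (κ - 1) * t := by
          rw [← rpow_add_one ht.ne']; congr 1; ring
        rw [this]; ring
      rw [e4]
      simp
    · have hIoo : IntegrableOn (fun t : ℝ => t ^ κ * exp (-(r * t))) (Ioo 0 c) :=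
        ((continuous_W hκ r).integrableOn_Icc (a := 0) (b := c)).mono_set Ioo_subset_Icc_self
      refine (hIoo.congr_fun ?_ measurableSet_Ioo).congr_set_ae Ioo_ae_eq_Ioc.symm
      intro t ht
      simp only
      rw [if_pos ht.2]
      have ht : 0 < t := ht.1
      have : t ^ κ = t ^ (κ - 1) * t := by
        rw [← rpow_add_one ht.ne']; congr 1; ring
      rw [this]; ring
    · refine IntegrableOn.congr_fun (integrableOn_zero) (fun t ht => (e3 t ht).symm) measurableSet_Ioi
    · exact IntegrableOn.congr_fun hI1.neg (fun t ht => (e1 t ht).symm) measurableSet_Ioc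
    · exact IntegrableOn.congr_fun ((hW'.mono_set (Ioi_subset_Ioi hc.le)).const_mul (-c))
        (fun t ht => (e2 t ht).symm) measurableSet_Ioi

lemma integral_mean (hκ : 0 < κ) (hr : 0 < r) :
    ∫ t, (r * t - κ) ∂(gammaMeasure κ r) = 0 := by
  rw [integral_gamma hκ hr]
  have h1 : ∫ t in Ioi 0, t ^ (κ - 1) * exp (-(r * t)) * (r * t - κ) =
      ∫ t in Ioi 0, (-1) * ((κ - r * t) * (t ^ (κ - 1) * exp (-(r * t)))) := by
    apply setIntegral_congr_fun measurableSet_Ioi
    intro t ht
    simp only
    ring
  rw [h1, integral_const_mul, integral_W'_Ioi hκ hr le_rfl, zero_rpow hκ.ne']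
  simp

/-- the mean of the Gamma law -/
lemma integral_id_gamma (hκ : 0 < κ) (hr : 0 < r) :
    ∫ t, t ∂(gammaMeasure κ r) = κ / r := by
  have := isProbabilityMeasure_gammaMeasure hκ hr
  have h := integral_mean hκ hr
  rw [integral_sub ((integrable_id_gamma hκ hr).const_mul r) (integrable_const _),
    integral_const_mul] at h
  simp at h
  field_simp
  linarith

lemma lintegral_cov {Ω : Type*} [MeasurableSpace Ω] {μ : Measure Ω} [IsProbabilityMeasure μ]
    {f g : Ω → ℝ} (hf : Integrable f μ) (hg : Integrable g μ)
    (hfg : Integrable (fun x => f x * g x) μ) (hpos : ∀ x y, 0 ≤ (f x - f y) * (g x - g y)) :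
    ∫⁻ x, ∫⁻ y, ENNReal.ofReal ((f x - f y) * (g x - g y)) ∂μ ∂μ =
      ENNReal.ofReal (2 * (∫ x, f x * g x ∂μ - (∫ x, f x ∂μ) * ∫ x, g x ∂μ)) := by
  have e : ∀ x, (fun y => (f x - f y) * (g x - g y)) =
      fun y => f x * g x - (f x * g y + g x * f y) + f y * g y := by
    intro x; funext y; ring
  have i1 : ∀ x, Integrable (fun y => f x * g y + g x * f y) μ := fun x =>
    (hg.const_mul _).add (hf.const_mul _)
  have hint : ∀ x, Integrable (fun y => (f x - f y) * (g x - g y)) μ := by
    intro x
    rw [e x]
    exact ((integrable_const _).sub (i1 x)).add hfg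
  have hval : ∀ x, ∫ y, (f x - f y) * (g x - g y) ∂μ =
      f x * g x - (f x * (∫ y, g y ∂μ) + g x * ∫ y, f y ∂μ) + ∫ y, f y * g y ∂μ := by
    intro x
    rw [e x, integral_sub_add (integrable_const _) (i1 x) hfg,
      integral_add (hg.const_mul _) (hf.const_mul _), integral_const_mul, integral_const_mul]
    simp [integral_const_mul]
  have h1 : ∀ x, ∫⁻ y, ENNReal.ofReal ((f x - f y) * (g x - g y)) ∂μ =
      ENNReal.ofReal (f x * g x - (f x * (∫ y, g y ∂μ) + g x * ∫ y, f y ∂μ)
        + ∫ y, f y * g y ∂μ) := by
    intro x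
    rw [← ofReal_integral_eq_lintegral_ofReal (hint x) (Eventually.of_forall fun y => hpos x y),
      hval x]
  simp_rw [h1]
  have i2 : Integrable (fun x => f x * (∫ y, g y ∂μ) + g x * ∫ y, f y ∂μ) μ :=
    (hf.mul_const _).add (hg.mul_const _)
  rw [← ofReal_integral_eq_lintegral_ofReal]
  · congr 1
    rw [integral_sub_add hfg i2 (integrable_const _), integral_add (hf.mul_const _) (hg.mul_const _),
      integral_mul_const, integral_mul_const]
    simp
    ring
  · exact (hfg.sub i2).add (integrable_const _)
  · refine Eventually.of_forall fun x => ?_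
    simp only [Pi.zero_apply]
    rw [← hval x]
    exact integral_nonneg fun y => hpos x y

/-- the one-edge variance bound for the Gamma law -/
theorem dvar_gamma_min (hκ : 0 < κ) (hr : 0 < r) (A B : ℝ) :
    dvar (gammaMeasure κ r) (fun t => min A (B + t)) ≤
      ENNReal.ofReal (2 / r * ∫ t, (if B + t < A then t else 0) ∂(gammaMeasure κ r)) := by
  have := isProbabilityMeasure_gammaMeasure hκ hr
  set c := A - B with hc
  have hi1 := integrable_id_gamma hκ hr
  have hm : Integrable (fun t : ℝ => min t c) (gammaMeasure κ r) := by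
    refine Integrable.mono' (hi1.norm.add (integrable_const |c|)) ?_ ?_
    · exact (measurable_id.min measurable_const).aestronglyMeasurable
    · refine Eventually.of_forall fun t => ?_
      simp only [Pi.add_apply, norm_eq_abs]
      rcases min_choice t c with h | h <;> rw [h] <;> simp
  have hprod : Integrable (fun t : ℝ => t * min t c) (gammaMeasure κ r) := by
    have hi2 := integrable_pow_gamma hκ hr 2
    refine Integrable.mono' (hi2.norm.add (hi1.norm.mul_const |c|)) ?_ ?_
    · exact (measurable_id.mul (measurable_id.min measurable_const)).aestronglyMeasurable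
    · refine Eventually.of_forall fun t => ?_
      simp only [Pi.add_apply, norm_eq_abs, abs_mul, abs_pow]
      rcases min_choice t c with h | h <;> rw [h]
      · have : |t| * |t| = |t| ^ 2 := by ring
        rw [this]
        have := mul_nonneg (abs_nonneg t) (abs_nonneg c)
        linarith
      · have := sq_nonneg |t|
        linarith
  have hfm : ∀ t, min A (B + t) = B + min t c := by
    intro t
    rw [hc, min_comm, ← min_add_add_left]
    congr 1
    ring
  have hlip : ∀ s t : ℝ, (min A (B + s) - min A (B + t)) ^ 2 ≤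
      (s - t) * (min s c - min t c) := by
    intro s t
    rw [hfm, hfm]
    have e : (B + min s c - (B + min t c)) ^ 2 = (min s c - min t c) * (min s c - min t c) := by
      ring
    rw [e]
    rcases le_total s t with h | h
    · have h1 : min s c ≤ min t c := min_le_min_right c h
      have h2 : min t c - min s c ≤ t - s := by
        rcases le_total t c with ht | ht
        · rw [min_eq_left ht, min_eq_left (h.trans ht)]
        · rw [min_eq_right ht]
          rcases le_total s c with hs | hs
          · rw [min_eq_left hs]; linarith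
          · rw [min_eq_right hs]; linarith
      nlinarith
    · have h1 : min t c ≤ min s c := min_le_min_right c h
      have h2 : min s c - min t c ≤ s - t := by
        rcases le_total s c with ht | ht
        · rw [min_eq_left ht, min_eq_left (h.trans ht)]
        · rw [min_eq_right ht]
          rcases le_total t c with hs | hs
          · rw [min_eq_left hs]; linarith
          · rw [min_eq_right hs]; linarith
      nlinarith
  have hpos : ∀ s t : ℝ, 0 ≤ (s - t) * (min s c - min t c) := fun s t =>
    (sq_nonneg _).trans (hlip s t)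
  calc dvar (gammaMeasure κ r) (fun t => min A (B + t))
      ≤ ∫⁻ s, ∫⁻ t, ENNReal.ofReal ((s - t) * (min s c - min t c)) ∂(gammaMeasure κ r)
          ∂(gammaMeasure κ r) := by
        unfold dvar
        exact lintegral_mono fun s => lintegral_mono fun t => ENNReal.ofReal_le_ofReal (hlip s t)
    _ = ENNReal.ofReal (2 * (∫ t, t * min t c ∂(gammaMeasure κ r) -
          (∫ t, t ∂(gammaMeasure κ r)) * ∫ t, min t c ∂(gammaMeasure κ r))) :=
        lintegral_cov (f := fun t : ℝ => t) (g := fun t : ℝ => min t c) hi1 hm hprod hpos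
    _ ≤ _ := by
        apply ENNReal.ofReal_le_ofReal
        have hst := stein_min hκ hr c
        have e1 : ∫ t, (r * t - κ) * min t c ∂(gammaMeasure κ r) =
            r * (∫ t, t * min t c ∂(gammaMeasure κ r)) - κ * ∫ t, min t c ∂(gammaMeasure κ r) := by
          rw [← integral_const_mul, ← integral_const_mul, ← integral_sub (hprod.const_mul r)
            (hm.const_mul κ)]
          congr 1
          funext t
          ring
        have e2 : ∫ t, (if B + t < A then t else 0) ∂(gammaMeasure κ r) =
            ∫ t, (if t < c then t else 0) ∂(gammaMeasure κ r) := by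
          congr 1
          funext t
          have : (B + t < A) ↔ (t < c) := by rw [hc]; constructor <;> intro h <;> linarith
          simp only [this]
        rw [e2, ← hst, e1, integral_id_gamma hκ hr]
        apply le_of_eq
        field_simp

end Crest.Agent.R151.V
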