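import Crest.Agent.R151.V24

/-!
# R151/V25 — fences: data of the upper bound, uniform integrability of one fence (helper52)

A fence of the outer row from `s` to `s + D`: lower gap `[s, s + D/8]`, inner row (translation `s`)
from `D/4` to `5D/8` in the lane `[D/4, D/2]`, upper gap `[s + 3D/4, s + 7D/8]`.
-/

set_option autoImplicit false
set_option linter.unusedSectionVars false

open MeasureTheory ProbabilityTheory Set Filter Topology
open scoped ENNReal
open Crest.ProbabilityR.FirstPassage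

namespace Crest.Agent.R151.V

open Crest.Agent.R151.K
open Q (pos Hwy HwyMean P0 UU UU2 phi rg Inv rate cF cF_nonneg dOv offv Geo UpData obI obLo obUp obJ
  sko ski Jw PF Rt)
open M192 (Row RowS PR mIL mB skp ae_skp RowOK)
open M56 (mg one_le_mg nu)
open B710 (FlatData)
open NF

variable {μ : ℝ × ℝ → ℝ} {F : FlatData μ} {h : Hwy F}

/-- sizes for one fence -/
structure FD (h : Hwy F) (y g Λ L s D : ℝ) : Prop where
  hy : h.wH + 2 * mg F < y
  hg : h.wH + 2 * mg F + cF F < g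
  hΛ : mg F ≤ Λ
  hD : 16 * (h.κ + mg F + cF F) ≤ D
  win : Λ + |s| + 2 * cF F + h.κ < L
  win' : Λ + |s| + D ≤ L

section fd

variable {y g Λ L s D : ℝ}

theorem FD.upd (H : FD h y g Λ L s D) :
    UpData h y g s Λ L (s + h.κ) (s + D - h.κ) s (s + D) (D / 4) (D / 2) (D / 4) (5 * D / 8)
      (s + h.κ) (s + h.κ + D / 8) s (D / 4) (s + 3 * D / 4) (s + 7 * D / 8) (5 * D / 8)
      (s + D) := by
  have hκ := h.κ_nonneg
  have hmg := one_le_mg F
  have hcF := cF_nonneg F
  have hy := H.hy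
  have hg := H.hg
  have hΛ := H.hΛ
  have hD := H.hD
  have hw := H.win
  have hw' := H.win'
  have hs := abs_nonneg s
  have hs1 := neg_abs_le s
  have hs2 := le_abs_self s
  have hwH := h.wH_nonneg'
  exact
    { geo := ⟨by linarith, by linarith, by linarith, by linarith⟩
      hs1 := by linarith
      hs4 := by linarith
      hα₀ := le_rfl
      hβ₀ := by linarith
      ha₀ := le_rfl
      hb₀ := le_rfl
      hα₁ := by linarith
      hβ₁ := by linarith
      ha₁ := le_rfl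
      hb₁ := le_rfl
      hαi := by linarith
      hβi := by linarith
      hne0 := Q.rt_lo (σ₁ := s + h.κ + D / 16) (σ₂ := s + h.κ + D / 16) hg (by linarith)
        (by linarith) (by linarith) (by linarith) (by linarith) (by linarith)
      hne2 := Q.rt_up (σ₁ := s + 13 * D / 16) (σ₂ := s + 13 * D / 16) hg (by linarith)
        (by linarith) (by linarith) (by linarith) (by linarith) (by linarith)
      hnei := Q.rt_inn (σ₁ := 3 * D / 8) (σ₂ := 3 * D / 8) hy (by linarith) (by linarith)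
        (by linarith) (by linarith) (by linarith) (by linarith)
      hne := Q.rt_out (σ₁ := s + D / 2) (σ₂ := s + D / 2) (by linarith) (by linarith)
        (by linarith) (by
          rw [min_self, max_self]
          exact Icc_subset_Icc (by linarith) (by linarith))
      hneJ := Q.rt_gauge_out (by linarith) hΛ (by linarith) }

/-- the error of the upper bound of a fence -/
noncomputable def errF (h : Hwy F) (y g Λ L s D : ℝ) :
    RowS × ((ℝ × ℝ) × (ℝ × ℝ)) → ℝ := fun w =>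
  obLo h g s (s + h.κ) (s + h.κ + D / 8) L s (D / 4) w.1.1.1 w.1.1.2 w.1.2 w.2 +
  obUp h y g s (s + 3 * D / 4) (s + 7 * D / 8) L (5 * D / 8) (s + D) w.1.1.1 w.1.1.2 w.1.2 w.2 +
  obJ h y g Λ L w.1.1.1 w.1.1.2 w.1.2 w.2

/-- the inner fence -/
noncomputable def inF (h : Hwy F) (y g L s D : ℝ) :
    RowS × ((ℝ × ℝ) × (ℝ × ℝ)) → ℝ := fun w =>
  obI h y g s (Icc (D / 4) (D / 2)) L (D / 4) (5 * D / 8) w.1.1.1 w.1.1.2 w.1.2 w.2

lemma measurable_errF : Measurable (errF h y g Λ L s D) :=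
  ((Q.meas_obLo h g s L _ _ _ _).add (Q.meas_obUp h y g s L _ _ _ _)).add (Q.meas_obJ h y g Λ L)

/-- mean of the error -/
theorem FD.err_mean {G : Measure ℝ} [IsProbabilityMeasure G] {ε : ℝ}
    (h0 : G (Set.Iio 0) = 0) (h2 : Integrable (fun x : ℝ => x ^ 2) G) (hM : HwyMean G h ε)
    (hμ : IsTC G μ) (H : FD h y g Λ L s D) :
    Integrable (errF h y g Λ L s D) ((PR G).prod PF) ∧
      ∫ w, |errF h y g Λ L s D w| ∂((PR G).prod PF) ≤
        4 * g * rate G F (D / 8) + (y + 4 * g) * rate G F (2 * Λ) + 30 * L * ε := by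
  have hκ := h.κ_nonneg
  have hmg := one_le_mg F
  have hcF := cF_nonneg F
  have hy := H.hy
  have hg := H.hg
  have hΛ := H.hΛ
  have hD := H.hD
  have hw := H.win
  have hw' := H.win'
  have hs := abs_nonneg s
  have hs1 := neg_abs_le s
  have hs2 := le_abs_self s
  have hwH := h.wH_nonneg'
  have hε := hM.nonneg
  obtain ⟨i1, m1⟩ := MN750.obLo_mean' h0 h2 hM hμ (g := g) (c := s) (α := s + h.κ)
    (β := s + h.κ + D / 8) (L := L) (s := s) (s₁ := D / 4) hg (by linarith) (by linarith)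
    (by linarith) (by linarith) (by linarith)
  obtain ⟨i2, m2⟩ := MN750.obUp_mean' (y := y) h0 h2 hM hμ (g := g) (c := s) (α := s + 3 * D / 4)
    (β := s + 7 * D / 8) (L := L) (s₂ := 5 * D / 8) (s' := s + D) hg (by linarith) (by linarith)
    (by linarith) (by linarith) (by linarith)
  obtain ⟨i3, m3⟩ := MN750.obJ_mean' h0 h2 hM hμ (y := y) (g := g) (L := L) (Λ := Λ)
    (by linarith) (by linarith) (by linarith) hΛ (by linarith)
  refine ⟨(i1.add i2).add i3, ?_⟩
  have e1 : s + h.κ + D / 8 - (s + h.κ) = D / 8 := by ring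
  have e2 : s + 7 * D / 8 - (s + 3 * D / 4) = D / 8 := by ring
  rw [e1] at m1
  rw [e2] at m2
  have h3 : ∫ w, |errF h y g Λ L s D w| ∂((PR G).prod PF) ≤
      ∫ q, |obLo h g s (s + h.κ) (s + h.κ + D / 8) L s (D / 4) q.1.1.1 q.1.1.2 q.1.2 q.2|
        ∂((PR G).prod PF) +
      ∫ q, |obUp h y g s (s + 3 * D / 4) (s + 7 * D / 8) L (5 * D / 8) (s + D) q.1.1.1 q.1.1.2
        q.1.2 q.2| ∂((PR G).prod PF) +
      ∫ q, |obJ h y g Λ L q.1.1.1 q.1.1.2 q.1.2 q.2| ∂((PR G).prod PF) := by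
    have f1 := integral_add (i1.abs.add i2.abs) i3.abs
    have f2 := integral_add i1.abs i2.abs
    simp only [Pi.add_apply] at f1 f2
    rw [← f2, ← f1]
    refine integral_mono ((i1.add i2).add i3).abs ((i1.abs.add i2.abs).add i3.abs) fun w => ?_
    exact (abs_add_le _ _).trans (add_le_add (abs_add_le _ _) le_rfl)
  have h4 : (2 * L + D / 8 + h.κ + 1 + |s| + cF F) * ε +
      (2 * L + D / 8 + h.κ + 1 + |s| + cF F) * ε + (2 * L + 2 * Λ + h.κ + 1) * ε ≤
      30 * L * ε := by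
    rw [← add_mul, ← add_mul]
    refine mul_le_mul_of_nonneg_right ?_ hε
    linarith
  have e3 : 2 * g * rate G F (D / 8) + (2 * L + D / 8 + h.κ + 1 + |s| + cF F) * ε +
      (2 * g * rate G F (D / 8) + (2 * L + D / 8 + h.κ + 1 + |s| + cF F) * ε) +
      ((y + 4 * g) * rate G F (2 * Λ) + (2 * L + 2 * Λ + h.κ + 1) * ε) =
      4 * g * rate G F (D / 8) + (y + 4 * g) * rate G F (2 * Λ) +
      ((2 * L + D / 8 + h.κ + 1 + |s| + cF F) * ε +
      (2 * L + D / 8 + h.κ + 1 + |s| + cF F) * ε + (2 * L + 2 * Λ + h.κ + 1) * ε) := by ring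
  linarith

/-- median of the inner fence -/
theorem FD.median {G : Measure ℝ} [IsProbabilityMeasure G] {ε : ℝ}
    (h0 : G (Set.Iio 0) = 0) (h2 : Integrable (fun x : ℝ => x ^ 2) G) (hM : HwyMean G h ε)
    (hμ : IsTC G μ) (H : FD h y g Λ L s D) {m k : ℝ}
    (hm : (y + 4 * g) * rate G F (D / 4) + 4 * L * ε ≤ m) (hk : 0 < k) (hm0 : 0 < m) :
    1 - 1 / k ≤ (PR G).real {q | ski h y (Icc (D / 4) (D / 2)) L (D / 4) (5 * D / 8) q ≤
      k * m} := by
  have hκ := h.κ_nonneg
  have hmg := one_le_mg F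
  have hcF := cF_nonneg F
  have hy := H.hy
  have hg := H.hg
  have hΛ := H.hΛ
  have hD := H.hD
  have hw := H.win
  have hw' := H.win'
  have hs := abs_nonneg s
  have hwH := h.wH_nonneg'
  have hε := hM.nonneg
  have hal : F.al (y • F.b) = 0 := by rw [map_smul, F.al_b, smul_zero]
  have hbe : F.be (y • F.b) = y := M192.be_smul_b F y
  have hd : h.wH + 2 * mg F < F.be (y • F.b) := by rw [hbe]; exact hy
  have hf := M56.fence_mean' hM h0 h2 hd (I := Icc (D / 4) (D / 2)) measurableSet_Icc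
    (s := D / 4) (α := D / 4) (β := D / 2) (s2 := 5 * D / 8) le_rfl (by rw [hal]; linarith)
    Subset.rfl (by linarith) hμ (y2 := y + 4 * g) (by rw [hbe]; linarith)
  have e1 : D / 2 - D / 4 = D / 4 := by ring
  rw [e1, hal] at hf
  refine sk_median (G := G) (h := h) hM h0 h2 hd (I := Icc (D / 4) (D / 2)) measurableSet_Icc
    (s := D / 4) (s' := 5 * D / 8) (σ₁ := 3 * D / 8) (σ₂ := 3 * D / 8) (by linarith)
    (by rw [hal]; linarith) (by
      rw [min_self, max_self]
      exact Icc_subset_Icc (by linarith) (by linarith)) hμ (L := L) (by linarith) (by linarith)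
    ?_ hk hm0
  refine le_trans ?_ hm
  have h4 : (5 * D / 8 - D / 4 + D / 2 - D / 4 + h.κ + 1 + 0) * ε +
      (2 * L + D / 4 - 5 * D / 8) * ε ≤ 4 * L * ε := by
    rw [← add_mul]
    refine mul_le_mul_of_nonneg_right ?_ hε
    linarith
  linarith

/-- **uniform integrability of one fence** -/
theorem FD.ui {r : ℝ} (hr : 0 < r) [IsProbabilityMeasure (gammaMeasure 1 r)] {ε : ℝ}
    (h0 : (gammaMeasure 1 r) (Set.Iio 0) = 0)
    (h2 : Integrable (fun x : ℝ => x ^ 2) (gammaMeasure 1 r))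
    (hM : HwyMean (gammaMeasure 1 r) h ε) (hμ : IsTC (gammaMeasure 1 r) μ)
    (H : FD h y g Λ L s D) {m : ℝ}
    (hm : (y + 4 * g) * rate (gammaMeasure 1 r) F (D / 4) + 4 * L * ε ≤ m) (hm0 : 0 < m)
    {ρ : RowS → ℝ} (hρ : Measurable ρ) (hρS : ∀ p t, ρ (cs (E0 h (dOv F y g)) p t) = ρ p)
    (hDi : Integrable (fun p => hkR h (dOv F y g) univ (-L) L p - ρ p) (PR (gammaMeasure 1 r)))
    {A : Set RowS} (hA : MeasurableSet A) (hS : SInv (E0 h (dOv F y g)) A) {d b : ℝ} (hd : 0 < d)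
    (hb : 8 * m ≤ b) :
    IntegrableOn (sko h y g (Icc s (s + D)) L s (s + D))
        (A ∩ {p | |hkR h (dOv F y g) univ (-L) L p - ρ p| ≤ d})ᶜ (PR (gammaMeasure 1 r)) ∧
      ∫ p in (A ∩ {p | |hkR h (dOv F y g) univ (-L) L p - ρ p| ≤ d})ᶜ,
        sko h y g (Icc s (s + D)) L s (s + D) p ∂(PR (gammaMeasure 1 r)) ≤
        1123 * ∫ p, |hkR h (dOv F y g) univ (-L) L p - ρ p| ∂(PR (gammaMeasure 1 r)) +
        480 * ∫ w, |errF h y g Λ L s D w| ∂((PR (gammaMeasure 1 r)).prod PF) +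
        20 * m * (PR (gammaMeasure 1 r)).real Aᶜ +
        b * (∫ p, |hkR h (dOv F y g) univ (-L) L p - ρ p| ∂(PR (gammaMeasure 1 r))) / d +
        48 * m * Real.exp (-(b / (48 * m))) := by
  have hκ := h.κ_nonneg
  have hU := H.upd
  have e1 : Icc (s + h.κ - h.κ) (s + D - h.κ + h.κ) = Icc s (s + D) := by
    congr 1 <;> ring
  have hne := hU.hne
  have hsk := hU.ae_sko_le (G := gammaMeasure 1 r) h0
  rw [e1] at hne hsk
  have hsd := sdata_hk h hr (dOv F y g) (L := L) (a := s) (b := s + D) (I := Icc s (s + D))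
    measurableSet_Icc hU.hs1 hU.hs4 (ae_of_all _ fun p => hne _ _ _) hρ hρS hDi
  obtain ⟨iE, -⟩ := H.err_mean h0 h2 hM hμ
  have hmed := H.median h0 h2 hM hμ (k := 2) hm (by norm_num) hm0
  have hI : ∀ᵐ p ∂((P0 (gammaMeasure 1 r)).prod (UU.prod UU)),
      (1 / 2 : ℝ) ≤ ((iidLaw (gammaMeasure 1 r)).prod PF).real
        {x | inF h y g L s D (cs (E0 h (dOv F y g)) p x.1, x.2) ≤ 2 * m} := by
    refine ae_of_all _ fun p => ?_
    have h3 := Q.condI_prob (G := gammaMeasure 1 r) hU.geo (I := Icc (D / 4) (D / 2))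
      measurableSet_Icc (D / 4) (5 * D / 8) p (B := Iic (2 * m)) measurableSet_Iic
    have h4 : (1 / 2 : ℝ) ≤ (PR (gammaMeasure 1 r)).real
        {q | ski h y (Icc (D / 4) (D / 2)) L (D / 4) (5 * D / 8) q ∈ Iic (2 * m)} := by
      have hset : {q | ski h y (Icc (D / 4) (D / 2)) L (D / 4) (5 * D / 8) q ∈ Iic (2 * m)} =
        {q | ski h y (Icc (D / 4) (D / 2)) L (D / 4) (5 * D / 8) q ≤ 2 * m} := rfl
      rw [hset]
      linarith [hmed]
    rw [← h3] at h4
    exact h4
  have hle : ∀ᵐ w ∂((PR (gammaMeasure 1 r)).prod PF),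
      hkR h (dOv F y g) (Icc s (s + D)) s (s + D) w.1 - ρ w.1 -
        (hkR h (dOv F y g) univ (-L) L w.1 - ρ w.1) ≤
      inF h y g L s D w + errF h y g Λ L s D w := by
    filter_upwards [hsk] with w hw
    have e3 : sko h y g (Icc s (s + D)) L s (s + D) w.1 =
      hkR h (dOv F y g) (Icc s (s + D)) s (s + D) w.1 -
        hkR h (dOv F y g) univ (-L) L w.1 := rfl
    rw [e3] at hw
    unfold errF inF
    linarith
  have key := hsd.ui_all (κ := PF) hA hS (q := 1 / 2) (t := 2 * m) (d := d) (b := b)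
    (V := inF h y g L s D) (err := errF h y g Λ L s D)
    (by norm_num) (by norm_num) (by linarith) hd (by linarith) measurable_errF iE hI hle
  have e2 : (fun p => hkR h (dOv F y g) (Icc s (s + D)) s (s + D) p - ρ p -
      (hkR h (dOv F y g) univ (-L) L p - ρ p)) = sko h y g (Icc s (s + D)) L s (s + D) := by
    funext p
    show _ = hkR h (dOv F y g) (Icc s (s + D)) s (s + D) p - hkR h (dOv F y g) univ (-L) L p
    ring
  rw [e2] at key
  have ePR : PR (gammaMeasure 1 r) = (P0 (gammaMeasure 1 r)).prod (UU.prod UU) := rfl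
  have e4 : -(1 / 2 / 12) * (b / (2 * m)) = -(b / (48 * m)) := by
    field_simp
    norm_num
    ring
  rw [e4] at key
  rw [ePR]
  obtain ⟨k1, k2⟩ := key
  refine ⟨k1, ?_⟩
  refine le_trans k2 ?_
  apply le_of_eq
  ring

end fd

end Crest.Agent.R151.V
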