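import Crest.Agent.R151.E191G

/-!
# R151/V27 — `T_prob`: the atypical sets of `c.TSA`, `c.typA` have probability `≤ 1 / B`, `B` any
function of `n, δ, v, e` (helper52)
-/

set_option autoImplicit false
set_option linter.unusedSectionVars false

open MeasureTheory Filter ProbabilityTheory Topology Set
open Crest.ProbabilityR.FirstPassage
open Crest.Agent.R151.K Crest.Agent.R151.Q

namespace Crest.Agent.R151.NF

namespace V27

open B710 (FlatData)
open M56 (mg one_le_mg)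

variable {μ : ℝ × ℝ → ℝ} {G : Measure ℝ} {F : FlatData μ} {w0 c0 K : ℝ} {p : Num}

/-- the grid points are `O(W)` -/
lemma abs_gr_le (hp : p.Std) {i : ℤ} (hi : i ∈ Finset.Icc (-p.Mg) p.Mg) :
    |p.gr i| ≤ (p.v + 1 / p.e + 5) * p.W := by
  rw [Finset.mem_Icc] at hi
  have hδ := hp.δ_pos
  have hδ1 := hp.δ_le
  have he := hp.e_pos
  have hv := hp.v
  have hW : 0 < p.W := zero_lt_one.trans_le hp.W
  have h1 : |(i : ℝ)| ≤ p.Mg := by
    rw [abs_le]
    constructor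
    · have := hi.1; exact_mod_cast this
    · have := hi.2; exact_mod_cast this
  have h2 : (p.Mg : ℝ) ≤ (p.v + 1 / p.e + 4) / (p.δ / 128) + 1 := by
    unfold Num.Mg
    exact (Int.ceil_lt_add_one _).le
  have h3 : |p.gr i| = |(i : ℝ)| * (p.δ / 128 * p.W) := by
    unfold Num.gr
    rw [abs_mul, abs_of_pos (by positivity : 0 < p.δ / 128 * p.W)]
  rw [h3]
  calc |(i : ℝ)| * (p.δ / 128 * p.W)
      ≤ ((p.v + 1 / p.e + 4) / (p.δ / 128) + 1) * (p.δ / 128 * p.W) :=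
        mul_le_mul_of_nonneg_right (h1.trans h2) (by positivity)
    _ = ((p.v + 1 / p.e + 4) + p.δ / 128) * p.W := by field_simp
    _ ≤ _ := mul_le_mul_of_nonneg_right (by linarith) hW.le

lemma meas_ob [IsProbabilityMeasure G] {c : Cf G F w0 c0 K p} (hρ : c.IsRho (c.yA • F.b)
    (c.rho (c.yA • F.b))) (k : Fin 6 × (ℤ × ℤ)) : (c.ob k).Meas := by
  obtain ⟨k, i, j⟩ := k
  fin_cases k
  · exact meas_obD (F := F) (c.y / 2) c.g (p.Nb F)
  · exact meas_obG c.h (c.y / 2) c.g c.L hρ.meas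
  · exact meas_obJ c.h (c.y / 2) c.g c.lam c.L
  · exact meas_obK c.h (c.y / 2) c.g (p.gr i) c.lam c.L
  · exact meas_fLo c c.g (p.gr i) (p.gr j) p.zf
  · exact meas_fUp c (c.y / 2) c.g (p.gr i) (p.gr j) p.zf

/-- Markov for one observable -/
lemma prob_NS_small [IsProbabilityMeasure G] {f : Ob} {A l t : ℝ} (hl : 0 < l) (ht : 0 < t)
    (hi : Integrable (fun q : M192.RowS × ((ℝ × ℝ) × (ℝ × ℝ)) => f q.1.1.1 q.1.1.2 q.1.2 q.2)
      ((nuR G).prod PF))
    (hm : A / t * ∫ q, |f q.1.1.1 q.1.1.2 q.1.2 q.2| ∂((nuR G).prod PF) ≤ l) (hA : 0 ≤ A) :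
    A * ((nuR G).prod PF).real (NS f (t * l)) ≤ 1 := by
  have h1 : ((nuR G).prod PF).real (NS f (t * l)) ≤
      (∫ q, |f q.1.1.1 q.1.1.2 q.1.2 q.2| ∂((nuR G).prod PF)) / (t * l) :=
    prob_NS_le (G := G) hi (mul_pos ht hl)
  calc A * ((nuR G).prod PF).real (NS f (t * l))
      ≤ A * ((∫ q, |f q.1.1.1 q.1.1.2 q.1.2 q.2| ∂((nuR G).prod PF)) / (t * l)) :=
        mul_le_mul_of_nonneg_left h1 hA
    _ = (A / t * ∫ q, |f q.1.1.1 q.1.1.2 q.1.2 q.2| ∂((nuR G).prod PF)) / l := by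
        field_simp
    _ ≤ 1 := by rw [div_le_one hl]; exact hm

/-- **each failure event is rare** -/
theorem ev_ob_small [IsProbabilityMeasure G] (h0 : G (Iio 0) = 0)
    (h2 : Integrable (fun x : ℝ => x ^ 2) G) (hμ : IsTC G μ) {m : ℝ} (hM : Mom G m)
    (hL : LocCtl G) (hc0 : 0 < c0) (B : ℕ → ℝ → ℝ → ℝ → ℝ) (hB : ∀ n δ v e, 0 ≤ B n δ v e) :
    Ev fun p => ∀ c : Cf G F w0 c0 K p, ∀ k ∈ p.idx,
      B p.n p.δ p.v p.e * ((nuR G).prod PF).real (NS (c.ob k) (c.thr k)) ≤ 1 := by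
  have a1 := ev_lens (G := G) (F := F) (w0 := w0) (c0 := c0) (K := K)
  have a2 := rho_spec (F := F) (w0 := w0) (c0 := c0) (K := K) h0 h2 hμ
  have a3 := Bf_small (G := G) (F := F) (w0 := w0) (K := K) hc0
    (fun n δ v e => 3 * (B n δ v e / e ^ 2))
  have a4 := obK_le (F := F) (w0 := w0) (c0 := c0) (K := K) h0 h2 hμ
    (fun _ _ v e => v + 1 / e + 5)
  have a5 := obJ_le (F := F) (w0 := w0) (c0 := c0) (K := K) h0 h2 hμ
  have a6 := obLo_le (F := F) (w0 := w0) (K := K) h0 h2 hμ hc0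
    (fun _ δ _ _ _ _ _ => δ / 16) (fun n δ v e _ _ _ => B n δ v e / e ^ 2)
  have a7 := obUp_le (F := F) (w0 := w0) (K := K) h0 h2 hμ hc0
    (fun _ δ _ _ _ _ _ => δ / 16) (fun n δ v e _ _ _ => B n δ v e / e ^ 2)
  have a8 := obD_small (F := F) h0 h2 hμ hM hL
    (fun _ _ _ e _ _ _ _ => e ^ 2) (fun n δ v e _ _ _ _ => 1 / (B n δ v e + 1))
  have a9 := le_v' fun _ _ v e => 4 * (v + 1 / e + 6)
  refine ((((((((a1.and a2).and a3).and a4).and a5).and a6).and a7).and a8).and a9).mono ?_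
  rintro p ⟨⟨⟨⟨⟨⟨⟨⟨a1, a2⟩, a3⟩, a4⟩, a5⟩, a6⟩, a7⟩, a8⟩, a9⟩ c k hk
  have hl := a1 c
  have hp := hl.toStd
  have hyg := Cf.htA (c := c) hl.toC
  have hδ := hp.δ_pos
  have he := hp.e_pos
  have hv := hp.v
  have hW : 0 < p.W := zero_lt_one.trans_le hp.W
  have hB0 : 0 ≤ B p.n p.δ p.v p.e := hB _ _ _ _
  have he2 : 0 < p.e ^ 2 := by positivity
  have hlp := hl.l_pos
  have hBe : 0 ≤ B p.n p.δ p.v p.e / p.e ^ 2 := by positivity
  have hBf := Bf_nonneg c hl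
  have hρ := a2 c _ _ hyg
  have : IsProbabilityMeasure (nuR G) := by unfold nuR; infer_instance
  -- the window
  have hwin : (p.v + 1 / p.e + 6) * p.W * 4 ≤ p.v' * p.W := by
    have := mul_le_mul_of_nonneg_right a9 hW.le
    linarith
  have hLe : c.L = 2 * (p.v' * p.W) := hl.lam_eq
  have hgW := hl.gW
  have hgp := hl.g_pos
  have hslg := hl.sl_le
  have hsl0 := hl.sl_nonneg
  have hκ := hl.κ_le'
  have hmgl := hl.mg_le
  have hcF := cF_nonneg F
  have hmg := one_le_mg F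
  have h1w := hl.one_le_w
  have he' : 0 < 1 / p.e := by positivity
  have hzf : p.zf ≤ p.W := by
    unfold Num.zf
    have := hp.δ_le
    nlinarith
  have hzf0 : 0 < p.zf := by unfold Num.zf; positivity
  obtain ⟨k, i, j⟩ := k
  unfold Num.idx at hk
  rw [Finset.mem_product, Finset.mem_product] at hk
  obtain ⟨-, hi, hj⟩ := hk
  have hgi := abs_gr_le hp hi
  have hgj := abs_gr_le hp hj
  simp only at hi hj hgi hgj
  have hgi' := abs_le.1 hgi
  have hgj' := abs_le.1 hgj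
  have hvW : 0 ≤ (p.v + 1 / p.e + 5) * p.W := by positivity
  have hgiL : |p.gr i| ≤ c.L := by
    refine hgi.trans ?_
    rw [hLe]; nlinarith
  have small : ∀ {f : Ob}, Integrable (fun q : M192.RowS × ((ℝ × ℝ) × (ℝ × ℝ)) =>
      f q.1.1.1 q.1.1.2 q.1.2 q.2) ((nuR G).prod PF) →
      ∫ q, |f q.1.1.1 q.1.1.2 q.1.2 q.2| ∂((nuR G).prod PF) ≤ 3 * c.Bf →
      B p.n p.δ p.v p.e * ((nuR G).prod PF).real (NS f (p.e ^ 2 * c.l)) ≤ 1 := by
    intro f hi hm
    refine prob_NS_small hlp he2 hi ?_ hB0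
    refine (mul_le_mul_of_nonneg_left hm hBe).trans ?_
    have := a3 c
    linarith
  fin_cases k
  · -- obD
    have h3 := a8 (by positivity) (by positivity) (c.y / 2) c.g
    show B p.n p.δ p.v p.e * ((nuR G).prod PF).real (NS (obD F (c.y / 2) c.g (p.Nb F))
      (p.e ^ 2 * p.W)) ≤ 1
    refine (mul_le_mul_of_nonneg_left h3 hB0).trans ?_
    rw [mul_one_div, div_le_one (by positivity)]
    linarith
  · -- obG
    have e1 : (fun q : M192.RowS × ((ℝ × ℝ) × (ℝ × ℝ)) => obG c.h (c.y / 2) c.g c.L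
        (c.rho (c.yA • F.b)) q.1.1.1 q.1.1.2 q.1.2 q.2) =
        fun q => (fun p => V.hkR c.h (c.yA • F.b) univ (-c.L) c.L p - c.rho (c.yA • F.b) p)
          q.1 := rfl
    refine small (f := obG c.h (c.y / 2) c.g c.L (c.rho (c.yA • F.b))) ?_ ?_
    · rw [e1]
      exact hρ.int.comp_fst PF
    · have e3 := integral_fun_fst (μ := nuR G) (ν := PF) (fun p : M192.RowS =>
        |V.hkR c.h (c.yA • F.b) univ (-c.L) c.L p - c.rho (c.yA • F.b) p|)
      rw [probReal_univ, one_smul] at e3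
      exact (le_of_eq e3).trans hρ.mean
  · -- obJ
    obtain ⟨k1, k2⟩ := a5 c _ _ hyg
    exact small (f := obJ c.h (c.y / 2) c.g c.lam c.L) k1 (k2.trans (by linarith))
  · -- obK
    obtain ⟨k1, k2⟩ := a4 c _ _ hyg (p.gr i) hgi
    exact small (f := obK c.h (c.y / 2) c.g (p.gr i) c.lam c.L) k1 (k2.trans (by linarith))
  · -- fLo
    obtain ⟨k1, k2⟩ := a6 (by positivity) c _ _ hyg (p.gr i) (p.gr j) (p.gr j + p.zf) (p.gr j)
      (p.gr j + p.zf + c.g - p.gr i) hgiL le_rfl (by linarith)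
      (by unfold Num.zf; linarith) (by rw [hLe]; linarith) (by rw [hLe]; linarith)
    rw [abs_of_nonneg hBe] at k2
    exact prob_NS_small (f := fLo c c.g (p.gr i) (p.gr j) p.zf) hlp he2 k1 k2 hB0
  · -- fUp
    obtain ⟨k1, k2⟩ := a7 (by positivity) c _ _ hyg (p.gr i) (p.gr j) (p.gr j + p.zf)
      (p.gr j - p.gr i - c.g) (p.gr j + p.zf + c.g) hgiL (by linarith) (by linarith)
      (by unfold Num.zf; linarith) (by rw [hLe]; linarith) (by rw [hLe]; linarith)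
    rw [abs_of_nonneg hBe] at k2
    exact prob_NS_small (f := fUp c (c.y / 2) c.g (p.gr i) (p.gr j) p.zf) hlp he2 k1 k2 hB0

/-- the number of failure events, as a function of `n, δ, v, e` -/
noncomputable def cardI (n : ℕ) (δ v e : ℝ) : ℝ := ((Num.idx ⟨n, δ, v, e, 0, 0, 0, 0, 0⟩).card : ℝ)

lemma cardI_eq (p : Num) : cardI p.n p.δ p.v p.e = (p.idx.card : ℝ) := rfl

/-- **T_prob** -/
theorem T_prob [IsProbabilityMeasure G] (h0 : G (Iio 0) = 0)
    (h2 : Integrable (fun x : ℝ => x ^ 2) G) (hμ : IsTC G μ) {m : ℝ} (hM : Mom G m)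
    (hL : LocCtl G) (hc0 : 0 < c0) (B : ℕ → ℝ → ℝ → ℝ → ℝ) :
    Ev fun p => ∀ c : Cf G F w0 c0 K p,
      B p.n p.δ p.v p.e * (nuR G).real (c.TSA)ᶜ ≤ 1 ∧
      B p.n p.δ p.v p.e * (nuR G).real (c.typA)ᶜ ≤ 1 := by
  have a1 := ev_lens (G := G) (F := F) (w0 := w0) (c0 := c0) (K := K)
  have a2 := rho_spec (F := F) (w0 := w0) (c0 := c0) (K := K) h0 h2 hμ
  have a3 := Bf_small (G := G) (F := F) (w0 := w0) (K := K) hc0
    (fun n δ v e => 3 * (2 * (|B n δ v e| + 1)) / e ^ 2)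
  have a4 := ev_ob_small (F := F) (w0 := w0) (K := K) h0 h2 hμ hM hL hc0
    (fun n δ v e => 2 * (|B n δ v e| + 1) * (cardI n δ v e + 1) / e ^ 2)
    (fun n δ v e => by
      have : 0 ≤ cardI n δ v e := Nat.cast_nonneg _
      positivity)
  refine (((a1.and a2).and a3).and a4).mono ?_
  rintro p ⟨⟨⟨a1, a2⟩, a3⟩, a4⟩ c
  have hl := a1 c
  have hp := hl.toStd
  have he := hp.e_pos
  have he2 : 0 < p.e ^ 2 := by positivity
  have hlp := hl.l_pos
  have hρ := a2 c _ _ (Cf.htA hl.toC)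
  have e0 : dOv F (c.y / 2) c.g = c.yA • F.b := rfl
  rw [e0] at hρ
  have ha3 := a3 c
  have ha4 := a4 c
  set b : ℝ := |B p.n p.δ p.v p.e| + 1 with hb
  have hb0 : 0 < b := by positivity
  have hBb : B p.n p.δ p.v p.e ≤ b := by
    have := le_abs_self (B p.n p.δ p.v p.e)
    linarith
  rw [cardI_eq] at ha4
  set N : ℝ := (p.idx.card : ℝ) with hN
  have hN0 : 0 ≤ N := Nat.cast_nonneg _
  have hmeas : ∀ k ∈ p.idx, MeasurableSet (NS (c.ob k) (c.thr k)) := fun k _ =>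
    measurableSet_NS (meas_ob hρ k) _
  -- the union bound
  have hsum : (∑ k ∈ p.idx, ((nuR G).prod PF).real (NS (c.ob k) (c.thr k))) / p.e ^ 2 ≤
      1 / (2 * b) := by
    have h1 : ∑ k ∈ p.idx, ((nuR G).prod PF).real (NS (c.ob k) (c.thr k)) ≤
        ∑ k ∈ p.idx, p.e ^ 2 / (2 * b * (N + 1)) := by
      refine Finset.sum_le_sum fun k hk => ?_
      rw [le_div_iff₀ (by positivity)]
      have h3 := ha4 k hk
      have h4 : 2 * b * (N + 1) / p.e ^ 2 * ((nuR G).prod PF).real (NS (c.ob k) (c.thr k)) =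
        (((nuR G).prod PF).real (NS (c.ob k) (c.thr k)) * (2 * b * (N + 1))) / p.e ^ 2 := by
        ring
      rw [h4, div_le_one he2] at h3
      exact h3
    rw [Finset.sum_const, nsmul_eq_mul, ← hN] at h1
    rw [div_le_iff₀ he2]
    refine h1.trans ?_
    have h5 : N * (p.e ^ 2 / (2 * b * (N + 1))) = 1 / (2 * b) * p.e ^ 2 * (N / (N + 1)) := by
      field_simp
    rw [h5]
    have h6 : N / (N + 1) ≤ 1 := by rw [div_le_one (by positivity)]; linarith
    exact mul_le_of_le_one_right (by positivity) h6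
  have hD : (∫ q, |V.hkR c.h (c.yA • F.b) univ (-c.L) c.L q - c.rho (c.yA • F.b) q|
      ∂(nuR G)) / (p.e ^ 2 * c.l) ≤ 1 / (2 * b) := by
    rw [div_le_div_iff₀ (by positivity) (by positivity), one_mul]
    have h3 := hρ.mean
    have h4 : 3 * (2 * b) / p.e ^ 2 * c.Bf = (3 * c.Bf * (2 * b)) / p.e ^ 2 := by ring
    rw [h4, div_le_iff₀ he2] at ha3
    have h5 := mul_le_mul_of_nonneg_right h3 (by positivity : (0 : ℝ) ≤ 2 * b)
    linarith
  have t1 : (nuR G).real (c.TSA)ᶜ ≤ 1 / (2 * b) :=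
    (V.TSet_compl_le c.h (c.yA • F.b) (κ := PF) h0 hmeas he2).trans hsum
  have t2 : (nuR G).real (c.typA)ᶜ ≤ 1 / (2 * b) + 1 / (2 * b) :=
    (V.T_compl_le c.h (c.yA • F.b) (κ := PF) h0 hmeas he2 hρ.int
      (mul_pos he2 hlp)).trans (add_le_add hsum hD)
  have e1 : 1 / (2 * b) + 1 / (2 * b) = 1 / b := by field_simp; norm_num
  rw [e1] at t2
  have t1' : (nuR G).real (c.TSA)ᶜ ≤ 1 / b := t1.trans (by
    rw [← e1]
    have : 0 ≤ 1 / (2 * b) := by positivity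
    linarith)
  have fin : ∀ {x : ℝ}, 0 ≤ x → x ≤ 1 / b → B p.n p.δ p.v p.e * x ≤ 1 := by
    intro x hx hxb
    calc B p.n p.δ p.v p.e * x ≤ b * x := mul_le_mul_of_nonneg_right hBb hx
      _ ≤ b * (1 / b) := mul_le_mul_of_nonneg_left hxb hb0.le
      _ = 1 := by field_simp
  exact ⟨fin measureReal_nonneg t1', fin measureReal_nonneg t2⟩

end V27

end Crest.Agent.R151.NF
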