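import Crest.Agent.R151.V3
import Crest.Agent.Lib.PrekopaLeindler

/-!
# R151, block V4 (helper52): Prékopa's theorem for exponential weights

The survival function `a ↦ P (X ≥ a)` of a concave function `X` of independent exponential weights
is log-concave.
-/

set_option autoImplicit false
set_option linter.unusedSectionVars false

open MeasureTheory ProbabilityTheory Set Filter
open scoped ENNReal Topology

namespace Crest.Agent.R151.V

open Crest.Agent.Lib.PrekopaLeindler

/-- Prékopa-Leindler passes to log-concave densities. -/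
theorem PL.withDensity {E : Type*} [AddCommGroup E] [Module ℝ E] [MeasurableSpace E]
    {μ : Measure E} (hE : PL E μ) {ρ : E → ℝ≥0∞} (hρ : Measurable ρ)
    (hlc : ∀ t : ℝ, 0 < t → t < 1 → ∀ x y, ρ x ^ (1 - t) * ρ y ^ t ≤ ρ ((1 - t) • x + t • y)) :
    PL E (μ.withDensity ρ) := by
  intro t ht0 ht1 f g h hf hg hh H
  rw [lintegral_withDensity_eq_lintegral_mul _ hρ hf, lintegral_withDensity_eq_lintegral_mul _ hρ hg,
    lintegral_withDensity_eq_lintegral_mul _ hρ hh]
  refine hE t ht0 ht1 _ _ _ (hρ.mul hf) (hρ.mul hg) (hρ.mul hh) ?_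
  intro x y
  simp only [Pi.mul_apply]
  rw [ENNReal.mul_rpow_of_nonneg _ _ (by linarith), ENNReal.mul_rpow_of_nonneg _ _ ht0.le]
  calc ρ x ^ (1 - t) * f x ^ (1 - t) * (ρ y ^ t * g y ^ t)
      = (ρ x ^ (1 - t) * ρ y ^ t) * (f x ^ (1 - t) * g y ^ t) := by ring
    _ ≤ _ := mul_le_mul' (hlc t ht0 ht1 x y) (H x y)

/-- the exponential law satisfies Prékopa-Leindler -/
theorem PL_gamma_one {r : ℝ} (hr : 0 < r) : PL ℝ (gammaMeasure 1 r) := by
  unfold gammaMeasure
  refine PL.withDensity PL_real ((measurable_gammaPDFReal 1 r).ennreal_ofReal) ?_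
  intro t ht0 ht1 x y
  have ht1' : 0 < 1 - t := by linarith
  rcases lt_or_ge x 0 with hx | hx
  · rw [gammaPDF_of_neg hx, ENNReal.zero_rpow_of_pos ht1', zero_mul]
    exact bot_le
  rcases lt_or_ge y 0 with hy | hy
  · rw [gammaPDF_of_neg hy, ENNReal.zero_rpow_of_pos ht0, mul_zero]
    exact bot_le
  have hxy : 0 ≤ (1 - t) • x + t • y := by
    simp only [smul_eq_mul]; positivity
  rw [gammaPDF_of_nonneg hx, gammaPDF_of_nonneg hy, gammaPDF_of_nonneg hxy]
  simp only [sub_self, Real.rpow_zero, Real.rpow_one, Real.Gamma_one, div_one, mul_one, smul_eq_mul]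
  rw [ENNReal.ofReal_rpow_of_pos (by positivity), ENNReal.ofReal_rpow_of_pos (by positivity),
    ← ENNReal.ofReal_mul (by positivity)]
  apply ENNReal.ofReal_le_ofReal
  apply le_of_eq
  rw [Real.mul_rpow hr.le (Real.exp_pos _).le, Real.mul_rpow hr.le (Real.exp_pos _).le,
    ← Real.exp_mul, ← Real.exp_mul]
  have h1 : r ^ (1 - t) * r ^ t = r := by
    rw [← Real.rpow_add hr]; simp
  calc r ^ (1 - t) * Real.exp (-(r * x) * (1 - t)) * (r ^ t * Real.exp (-(r * y) * t))
      = (r ^ (1 - t) * r ^ t) * (Real.exp (-(r * x) * (1 - t)) * Real.exp (-(r * y) * t)) := by ring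
    _ = _ := by
        rw [h1, ← Real.exp_add]
        congr 2
        ring

theorem PL_pi_fin {ν : Measure ℝ} [IsProbabilityMeasure ν] (hν : PL ℝ ν) (n : ℕ) :
    PL (Fin n → ℝ) (Measure.pi fun _ => ν) := by
  induction n with
  | zero =>
    intro t ht0 ht1 f g h hf hg hh H
    have : (Measure.pi fun _ : Fin 0 => ν) = Measure.dirac 0 :=
      Measure.pi_of_empty _ _
    rw [this, lintegral_dirac, lintegral_dirac, lintegral_dirac]
    simpa using H 0 0
  | succ n ih =>
    refine PL.of_measurePreserving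
      (MeasurableEquiv.piFinSuccAbove (fun _ : Fin (n+1) => ℝ) 0).symm
      ((measurePreserving_piFinSuccAbove (fun _ : Fin (n+1) => ν) 0).symm) ?_ (hν.prod ih)
    intro a b x y
    ext i
    refine Fin.cases ?_ (fun j => ?_) i
    · simp [MeasurableEquiv.piFinSuccAbove]
    · simp [MeasurableEquiv.piFinSuccAbove]

theorem PL_pi_fintype {ι : Type*} [Fintype ι] {ν : Measure ℝ} [IsProbabilityMeasure ν]
    (hν : PL ℝ ν) : PL (ι → ℝ) (Measure.pi fun _ => ν) := by
  set e := (Fintype.equivFin ι).symm with he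
  refine PL.of_measurePreserving (MeasurableEquiv.piCongrLeft (fun _ : ι => ℝ) e)
    (measurePreserving_piCongrLeft (fun _ : ι => ν) e) ?_ (PL_pi_fin hν _)
  intro a b x y
  funext i
  obtain ⟨k, rfl⟩ := e.surjective i
  simp [MeasurableEquiv.coe_piCongrLeft]

/-- Prékopa's theorem for a finite product of exponential laws: the survival function of a
function concave on the orthant is log-concave. -/
theorem surv_logconcave {ι : Type*} [Fintype ι] {r : ℝ} (hr : 0 < r) {X : (ι → ℝ) → ℝ}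
    (hX : Measurable X) (hc : ConcaveOn ℝ {y : ι → ℝ | ∀ i, 0 ≤ y i} X) {t : ℝ} (ht0 : 0 < t)
    (ht1 : t < 1) (a b : ℝ) :
    (Measure.pi fun _ : ι => gammaMeasure 1 r) {y | a ≤ X y} ^ (1 - t) *
      (Measure.pi fun _ : ι => gammaMeasure 1 r) {y | b ≤ X y} ^ t ≤
      (Measure.pi fun _ : ι => gammaMeasure 1 r) {y | (1 - t) * a + t * b ≤ X y} := by
  have hγ := isProbabilityMeasure_gammaMeasure zero_lt_one hr
  set μ := Measure.pi fun _ : ι => gammaMeasure 1 r with hμ
  set O : Set (ι → ℝ) := {y | ∀ i, 0 ≤ y i} with hO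
  have hOm : MeasurableSet O := by
    have : O = ⋂ i, {y | 0 ≤ y i} := by ext; simp [hO]
    rw [this]
    exact MeasurableSet.iInter fun i => measurableSet_le measurable_const (measurable_pi_apply i)
  have hOae : ∀ᵐ y ∂μ, y ∈ O := by
    have : ∀ᵐ y ∂μ, ∀ i, 0 ≤ y i := by
      rw [ae_all_iff]
      intro i
      exact (measurePreserving_eval (fun _ : ι => gammaMeasure 1 r) i).quasiMeasurePreserving.ae
        (ae_pos_gamma 1 r)
    exact this
  have hset : ∀ c : ℝ, MeasurableSet {y | c ≤ X y} := fun c => measurableSet_le measurable_const hX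
  have hint : ∀ c : ℝ, μ {y | c ≤ X y} = ∫⁻ y, (({y | c ≤ X y} ∩ O).indicator 1 y) ∂μ := by
    intro c
    rw [lintegral_indicator_one ((hset c).inter hOm)]
    apply measure_congr
    filter_upwards [hOae] with y hy
    have : y ∈ {y | c ≤ X y} ↔ y ∈ {y | c ≤ X y} ∩ O := by simp [hy]
    exact propext this
  rw [hint, hint, hint]
  refine PL_pi_fintype (PL_gamma_one hr) t ht0 ht1 _ _ _ (measurable_one.indicator ((hset a).inter hOm))
    (measurable_one.indicator ((hset b).inter hOm))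
    (measurable_one.indicator ((hset _).inter hOm)) ?_
  intro x y
  by_cases hx : x ∈ {y | a ≤ X y} ∩ O
  · by_cases hy : y ∈ {y | b ≤ X y} ∩ O
    · have hmem : (1 - t) • x + t • y ∈ {y | (1 - t) * a + t * b ≤ X y} ∩ O := by
        have h1 := hc.1 hx.2 hy.2 (show (0:ℝ) ≤ 1 - t by linarith) ht0.le (by ring)
        refine ⟨?_, h1⟩
        have h2 := hc.2 hx.2 hy.2 (show (0:ℝ) ≤ 1 - t by linarith) ht0.le (by ring)
        have hxa : a ≤ X x := hx.1
        have hyb : b ≤ X y := hy.1
        simp only [smul_eq_mul] at h2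
        simp only [mem_setOf_eq]
        calc (1 - t) * a + t * b ≤ (1 - t) * X x + t * X y := by
              have : 0 ≤ 1 - t := by linarith
              gcongr
          _ ≤ _ := h2
      rw [indicator_of_mem hx, indicator_of_mem hy, indicator_of_mem hmem]
      simp
    · rw [indicator_of_notMem hy, ENNReal.zero_rpow_of_pos ht0, mul_zero]
      exact bot_le
  · rw [indicator_of_notMem hx, ENNReal.zero_rpow_of_pos (by linarith), zero_mul]
    exact bot_le

/-- log-concavity of the survival function of `X` under `μ` -/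
def LC {Ω : Type*} [MeasurableSpace Ω] (μ : Measure Ω) (X : Ω → ℝ) : Prop :=
  ∀ a b t : ℝ, 0 < t → t < 1 →
    μ.real {ω | a ≤ X ω} ^ (1 - t) * μ.real {ω | b ≤ X ω} ^ t ≤
      μ.real {ω | (1 - t) * a + t * b ≤ X ω}

theorem LC_pi {ι : Type*} [Fintype ι] {r : ℝ} (hr : 0 < r) {X : (ι → ℝ) → ℝ}
    (hX : Measurable X) (hc : ConcaveOn ℝ {y : ι → ℝ | ∀ i, 0 ≤ y i} X) :
    LC (Measure.pi fun _ : ι => gammaMeasure 1 r) X := by
  have hγ := isProbabilityMeasure_gammaMeasure zero_lt_one hr
  intro a b t ht0 ht1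
  have h := surv_logconcave hr hX hc ht0 ht1 a b
  have h2 := ENNReal.toReal_mono (measure_ne_top _ _) h
  rwa [ENNReal.toReal_mul, ← ENNReal.toReal_rpow, ← ENNReal.toReal_rpow] at h2

lemma LC.of_mp {Ω Ω' : Type*} [MeasurableSpace Ω] [MeasurableSpace Ω'] {μ : Measure Ω}
    {ν : Measure Ω'} {e : Ω → Ω'} (he : MeasurePreserving e μ ν) {X : Ω' → ℝ} (hX : Measurable X)
    (h : LC ν X) : LC μ (fun ω => X (e ω)) := by
  intro a b t ht0 ht1
  have hs : ∀ c : ℝ, μ.real {ω | c ≤ X (e ω)} = ν.real {ω | c ≤ X ω} := by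
    intro c
    have := he.measureReal_preimage (s := {ω | c ≤ X ω})
      (measurableSet_le measurable_const hX).nullMeasurableSet
    simpa using this
  rw [hs, hs, hs]
  exact h a b t ht0 ht1

/-- log-concavity for functions of finitely many coordinates of the infinite product -/
theorem LC_infinitePi {I : Type*} {r : ℝ} (hr : 0 < r) (s : Finset I)
    {F : (s → ℝ) → ℝ} (hF : Measurable F) (hc : ConcaveOn ℝ {y : s → ℝ | ∀ i, 0 ≤ y i} F) :
    LC (Measure.infinitePi fun _ : I => gammaMeasure 1 r) (fun x => F (s.restrict x)) := by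
  have hγ := isProbabilityMeasure_gammaMeasure zero_lt_one hr
  have hmp : MeasurePreserving (s.restrict (π := fun _ : I => ℝ))
      (Measure.infinitePi fun _ : I => gammaMeasure 1 r)
      (Measure.pi fun _ : s => gammaMeasure 1 r) :=
    ⟨Finset.measurable_restrict s, Measure.infinitePi_map_restrict _⟩
  exact LC.of_mp hmp hF (LC_pi hr hF hc)

/-- log-concavity passes to decreasing limits -/
theorem LC.of_antitone {Ω : Type*} [MeasurableSpace Ω] {μ : Measure Ω} [IsFiniteMeasure μ]
    {X : Ω → ℝ} {Y : ℕ → Ω → ℝ} (hY : ∀ n, Measurable (Y n)) (hLC : ∀ n, LC μ (Y n))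
    (hanti : ∀ ω, Antitone fun n => Y n ω)
    (hlim : ∀ ω, Tendsto (fun n => Y n ω) atTop (𝓝 (X ω))) : LC μ X := by
  intro a b t ht0 ht1
  have hs : ∀ c : ℝ, Tendsto (fun n => μ.real {ω | c ≤ Y n ω}) atTop
      (𝓝 (μ.real {ω | c ≤ X ω})) := by
    intro c
    have hset : {ω | c ≤ X ω} = ⋂ n, {ω | c ≤ Y n ω} := by
      ext ω
      simp only [mem_setOf_eq, mem_iInter]
      constructor
      · intro h n
        exact h.trans ((hanti ω).le_of_tendsto (hlim ω) n)
      · intro h
        exact ge_of_tendsto' (hlim ω) h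
    rw [hset]
    refine (ENNReal.tendsto_toReal (measure_ne_top _ _)).comp ?_
    refine tendsto_measure_iInter_atTop
      (fun n => (measurableSet_le measurable_const (hY n)).nullMeasurableSet) ?_
      ⟨0, measure_ne_top _ _⟩
    intro m n hmn ω hω
    exact le_trans hω (hanti ω hmn)
  have h1 := ((hs a).rpow_const (p := 1 - t) (Or.inr (by linarith))).mul
    ((hs b).rpow_const (p := t) (Or.inr ht0.le))
  exact le_of_tendsto_of_tendsto' h1 (hs _) (fun n => hLC n a b t ht0 ht1)

/-- finite minima of affine functions with fixed part `c p` and edge set `p` are concave -/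
lemma concaveOn_inf' {ι β : Type*} [Fintype ι] (P : Finset β) (h : P.Nonempty) (c : β → ℝ)
    (S : β → Finset ι) (O : Set (ι → ℝ)) (hO : Convex ℝ O) :
    ConcaveOn ℝ O (fun y : ι → ℝ => P.inf' h (fun p => c p + ∑ e ∈ S p, y e)) := by
  refine ⟨hO, ?_⟩
  intro x _ y _ a b ha hb hab
  simp only [smul_eq_mul]
  obtain ⟨p, hp, hpe⟩ := Finset.exists_mem_eq_inf' h
    (fun p => c p + ∑ e ∈ S p, (a • x + b • y) e)
  rw [hpe]
  have h1 : P.inf' h (fun p => c p + ∑ e ∈ S p, x e) ≤ c p + ∑ e ∈ S p, x e :=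
    Finset.inf'_le (f := fun p => c p + ∑ e ∈ S p, x e) hp
  have h2 : P.inf' h (fun p => c p + ∑ e ∈ S p, y e) ≤ c p + ∑ e ∈ S p, y e :=
    Finset.inf'_le (f := fun p => c p + ∑ e ∈ S p, y e) hp
  have h3 : ∑ e ∈ S p, (a • x + b • y) e = a * ∑ e ∈ S p, x e + b * ∑ e ∈ S p, y e := by
    rw [Finset.mul_sum, Finset.mul_sum, ← Finset.sum_add_distrib]
    apply Finset.sum_congr rfl
    intro e _
    simp
  rw [h3]
  calc a * P.inf' h (fun p => c p + ∑ e ∈ S p, x e) + b * P.inf' h (fun p => c p + ∑ e ∈ S p, y e)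
      ≤ a * (c p + ∑ e ∈ S p, x e) + b * (c p + ∑ e ∈ S p, y e) := by gcongr
    _ = (a + b) * c p + (a * ∑ e ∈ S p, x e + b * ∑ e ∈ S p, y e) := by ring
    _ = _ := by rw [hab, one_mul]

lemma convex_orthant (ι : Type*) : Convex ℝ {y : ι → ℝ | ∀ i, 0 ≤ y i} := by
  intro x hx y hy a b ha hb _ i
  simp only [Pi.add_apply, Pi.smul_apply, smul_eq_mul]
  exact add_nonneg (mul_nonneg ha (hx i)) (mul_nonneg hb (hy i))

end Crest.Agent.R151.V
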