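import Crest.Agent.R151.V6

/-!
# R151, block V7 (helper52): flips of a general law

Every edge carries `(t, (u, v))`; a high edge (`t ∉ L`) with `u ∈ D` (probability `δ`) is replaced
by the independent value `v` with law `G(· | L)`.
-/

set_option autoImplicit false
set_option linter.unusedSectionVars false

open MeasureTheory ProbabilityTheory Set Filter
open scoped ENNReal Topology

namespace Crest.Agent.R151.V

variable {U : Type*} [MeasurableSpace U] (υ : Measure U) [IsProbabilityMeasure υ]
  (G : Measure ℝ) [IsProbabilityMeasure G]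

open Classical in
/-- the one-edge flip -/
noncomputable def flip1 (L : Set ℝ) (D : Set U) (p : ℝ × (U × ℝ)) : ℝ :=
  if p.1 ∉ L ∧ p.2.1 ∈ D then p.2.2 else p.1

lemma measurable_flip1 {L : Set ℝ} {D : Set U} (hL : MeasurableSet L) (hD : MeasurableSet D) :
    Measurable (flip1 L D) := by
  classical
  unfold flip1
  refine Measurable.ite ?_ (by fun_prop) (by fun_prop)
  exact (measurable_fst hL).compl.inter ((measurable_fst.comp measurable_snd) hD)

/-- the density of the flipped law -/
noncomputable def flipDen (L : Set ℝ) (g δ : ℝ) (x : ℝ) : ℝ≥0∞ :=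
  L.indicator (fun _ => ENNReal.ofReal (1 + δ * (1 - g) / g)) x +
    Lᶜ.indicator (fun _ => ENNReal.ofReal (1 - δ)) x

lemma measurable_flipDen {L : Set ℝ} (hL : MeasurableSet L) (g δ : ℝ) :
    Measurable (flipDen L g δ) := by
  unfold flipDen
  exact (measurable_const.indicator hL).add (measurable_const.indicator hL.compl)

/-- the law of one edge: weight `t ~ G`, `u ~ υ`, `v ~ G(·|L)` -/
noncomputable def edgeLaw (L : Set ℝ) : Measure (ℝ × (U × ℝ)) :=
  G.prod (υ.prod (ProbabilityTheory.cond G L))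

/-- the law of the flipped weight -/
theorem map_flip1 {L : Set ℝ} {D : Set U} (hL : MeasurableSet L) (hD : MeasurableSet D)
    {δ : ℝ} (hδ0 : 0 ≤ δ) (hδ1 : δ ≤ 1) (hυ : υ D = ENNReal.ofReal δ) (hg : 0 < G.real L) :
    (edgeLaw υ G L).map (flip1 L D) = G.withDensity (flipDen L (G.real L) δ) := by
  classical
  have hGL : G L ≠ 0 := by
    intro h
    rw [Measure.real, h] at hg
    simp at hg
  have hc : IsProbabilityMeasure (ProbabilityTheory.cond G L) := cond_isProbabilityMeasure hGL
  set g := G.real L with hgdef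
  have hg1 : g ≤ 1 := measureReal_le_one
  have hGLr : G L = ENNReal.ofReal g := (ofReal_measureReal (measure_ne_top _ _)).symm
  have hGH : G Lᶜ = ENNReal.ofReal (1 - g) := by
    rw [← ofReal_measureReal (measure_ne_top _ _), probReal_compl_eq_one_sub hL]
  have hDc : υ Dᶜ = ENNReal.ofReal (1 - δ) := by
    rw [prob_compl_eq_one_sub hD, hυ, ← ENNReal.ofReal_one, ENNReal.ofReal_sub _ hδ0]
  ext A hA
  rw [Measure.map_apply (measurable_flip1 hL hD) hA, withDensity_apply _ hA]
  have hset : flip1 L D ⁻¹' A = ((A ∩ L) ×ˢ univ) ∪ (((A ∩ Lᶜ) ×ˢ (Dᶜ ×ˢ univ)) ∪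
      (Lᶜ ×ˢ (D ×ˢ A))) := by
    ext ⟨t, u, v⟩
    simp only [mem_preimage, flip1, mem_union, mem_prod, mem_inter_iff, mem_compl_iff, mem_univ,
      and_true]
    by_cases h1 : t ∈ L
    · simp [h1]
    · by_cases h2 : u ∈ D
      · simp [h1, h2]
      · simp [h1, h2]
  have hm1 : MeasurableSet (((A ∩ L) ×ˢ univ) : Set (ℝ × (U × ℝ))) := (hA.inter hL).prod .univ
  have hm2 : MeasurableSet (((A ∩ Lᶜ) ×ˢ (Dᶜ ×ˢ univ)) : Set (ℝ × (U × ℝ))) :=
    (hA.inter hL.compl).prod (hD.compl.prod .univ)
  have hm3 : MeasurableSet ((Lᶜ ×ˢ (D ×ˢ A)) : Set (ℝ × (U × ℝ))) := hL.compl.prod (hD.prod hA)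
  have hd1 : Disjoint (((A ∩ L) ×ˢ univ) : Set (ℝ × (U × ℝ)))
      (((A ∩ Lᶜ) ×ˢ (Dᶜ ×ˢ univ)) ∪ (Lᶜ ×ˢ (D ×ˢ A))) := by
    rw [Set.disjoint_left]
    rintro ⟨t, u, v⟩ h1 h2
    simp only [mem_union, mem_prod, mem_inter_iff, mem_compl_iff, mem_univ, and_true] at h1 h2
    tauto
  have hd2 : Disjoint (((A ∩ Lᶜ) ×ˢ (Dᶜ ×ˢ univ)) : Set (ℝ × (U × ℝ))) (Lᶜ ×ˢ (D ×ˢ A)) := by
    rw [Set.disjoint_left]
    rintro ⟨t, u, v⟩ h1 h2
    simp only [mem_prod, mem_inter_iff, mem_compl_iff, mem_univ, and_true] at h1 h2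
    tauto
  rw [hset, measure_union hd1 (hm2.union hm3), measure_union hd2 hm3]
  unfold edgeLaw
  rw [Measure.prod_prod, Measure.prod_prod, Measure.prod_prod, Measure.prod_prod,
    Measure.prod_prod, measure_univ, measure_univ, mul_one, mul_one, hDc, hυ, hGH,
    ProbabilityTheory.cond_apply hL, hGLr]
  have hrhs : ∫⁻ x in A, flipDen L g δ x ∂G =
      ENNReal.ofReal (1 + δ * (1 - g) / g) * G (A ∩ L) + ENNReal.ofReal (1 - δ) * G (A ∩ Lᶜ) := by
    unfold flipDen
    rw [lintegral_add_left (measurable_const.indicator hL), lintegral_indicator hL,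
      lintegral_indicator hL.compl, setLIntegral_const, setLIntegral_const,
      Measure.restrict_apply hL, Measure.restrict_apply hL.compl, inter_comm L A,
      inter_comm Lᶜ A]
  rw [hrhs]
  have h1 : ENNReal.ofReal (1 + δ * (1 - g) / g) =
      1 + ENNReal.ofReal (1 - g) * (ENNReal.ofReal δ * (ENNReal.ofReal g)⁻¹) := by
    rw [ENNReal.ofReal_add zero_le_one (by have : 0 ≤ 1 - g := by linarith
                                           positivity), ENNReal.ofReal_one,
      ← ENNReal.ofReal_inv_of_pos hg, ← ENNReal.ofReal_mul hδ0,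
      ← ENNReal.ofReal_mul (by linarith)]
    congr 2
    field_simp
  rw [h1, inter_comm L A]
  ring

/-- second moment of the flip density -/
lemma lintegral_flipDen_sq {L : Set ℝ} (hL : MeasurableSet L) {δ : ℝ} (hδ0 : 0 ≤ δ) (hδ1 : δ ≤ 1)
    (hg : 0 < G.real L) :
    ∫⁻ x, (flipDen L (G.real L) δ x) ^ 2 ∂G =
      ENNReal.ofReal (1 + δ ^ 2 * (1 - G.real L) / G.real L) := by
  set g := G.real L with hgdef
  have hg1 : g ≤ 1 := measureReal_le_one
  have hGLr : G L = ENNReal.ofReal g := (ofReal_measureReal (measure_ne_top _ _)).symm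
  have hGH : G Lᶜ = ENNReal.ofReal (1 - g) := by
    rw [← ofReal_measureReal (measure_ne_top _ _), probReal_compl_eq_one_sub hL]
  have h1 : ∀ x, (flipDen L g δ x) ^ 2 =
      L.indicator (fun _ => ENNReal.ofReal (1 + δ * (1 - g) / g) ^ 2) x +
      Lᶜ.indicator (fun _ => ENNReal.ofReal (1 - δ) ^ 2) x := by
    intro x
    unfold flipDen
    by_cases hx : x ∈ L
    · simp [hx]
    · simp [hx]
  rw [lintegral_congr h1, lintegral_add_left (measurable_const.indicator hL),
    lintegral_indicator hL, lintegral_indicator hL.compl, setLIntegral_const, setLIntegral_const,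
    hGLr, hGH]
  have h0 : 0 ≤ 1 - g := by linarith
  have h2 : 0 ≤ 1 + δ * (1 - g) / g := by positivity
  rw [← ENNReal.ofReal_pow h2, ← ENNReal.ofReal_pow (by linarith), ← ENNReal.ofReal_mul (by positivity),
    ← ENNReal.ofReal_mul (by positivity), ← ENNReal.ofReal_add (by positivity) (by positivity)]
  congr 1
  field_simp
  ring

variable {I : Type*}

open Classical in
/-- the flipped environment -/
noncomputable def flipE (s : Finset I) (L : Set ℝ) (D : Set U) (x : I → ℝ × (U × ℝ)) : I → ℝ :=
  fun i => if i ∈ s then flip1 L D (x i) else (x i).1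

lemma measurable_flipE (s : Finset I) {L : Set ℝ} {D : Set U} (hL : MeasurableSet L)
    (hD : MeasurableSet D) : Measurable (flipE s L D) := by
  classical
  rw [measurable_pi_iff]
  intro i
  unfold flipE
  by_cases hi : i ∈ s
  · simp only [hi, if_true]
    exact (measurable_flip1 hL hD).comp (measurable_pi_apply i)
  · simp only [hi, if_false]
    exact measurable_fst.comp (measurable_pi_apply i)

lemma isProb_edgeLaw {L : Set ℝ} (hg : 0 < G.real L) : IsProbabilityMeasure (edgeLaw υ G L) := by
  have hGL : G L ≠ 0 := by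
    intro h
    rw [Measure.real, h] at hg
    simp at hg
  have hc : IsProbabilityMeasure (ProbabilityTheory.cond G L) := cond_isProbabilityMeasure hGL
  unfold edgeLaw
  infer_instance

/-- the unflipped environment has law `infinitePi G` -/
theorem map_fst_edgeLaw {L : Set ℝ} (hg : 0 < G.real L) :
    (Measure.infinitePi fun _ : I => edgeLaw υ G L).map (fun x i => (x i).1) =
      Measure.infinitePi fun _ : I => G := by
  have hp := isProb_edgeLaw υ G hg
  have hGL : G L ≠ 0 := by
    intro h
    rw [Measure.real, h] at hg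
    simp at hg
  have hc : IsProbabilityMeasure (ProbabilityTheory.cond G L) := cond_isProbabilityMeasure hGL
  rw [Measure.infinitePi_map_pi (fun _ : I => edgeLaw υ G L) (f := fun _ p => p.1)
    (fun _ => measurable_fst)]
  have : (edgeLaw υ G L).map (fun p => p.1) = G := by
    unfold edgeLaw
    exact Measure.map_fst_prod.trans (by simp)
  simp_rw [this]

/-- the law of the flipped environment -/
theorem flip_law (s : Finset I) {L : Set ℝ} {D : Set U} (hL : MeasurableSet L)
    (hD : MeasurableSet D) {δ : ℝ} (hδ0 : 0 ≤ δ) (hδ1 : δ ≤ 1) (hυ : υ D = ENNReal.ofReal δ)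
    (hg : 0 < G.real L) :
    (Measure.infinitePi fun _ : I => edgeLaw υ G L).map (flipE s L D) =
      (Measure.infinitePi fun _ : I => G).withDensity
        (fun x => ∏ i ∈ s, flipDen L (G.real L) δ (x i)) := by
  classical
  have hp := isProb_edgeLaw υ G hg
  have hGL : G L ≠ 0 := by
    intro h
    rw [Measure.real, h] at hg
    simp at hg
  have hc : IsProbabilityMeasure (ProbabilityTheory.cond G L) := cond_isProbabilityMeasure hGL
  have hf : ∀ i : I, Measurable (fun p : ℝ × (U × ℝ) => if i ∈ s then flip1 L D p else p.1) := by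
    intro i
    by_cases hi : i ∈ s
    · simp only [hi, if_true]; exact measurable_flip1 hL hD
    · simp only [hi, if_false]; exact measurable_fst
  have h0 : (Measure.infinitePi fun _ : I => edgeLaw υ G L).map (flipE s L D) =
      (Measure.infinitePi fun i : I => (edgeLaw υ G L).map
        (fun p : ℝ × (U × ℝ) => if i ∈ s then flip1 L D p else p.1)) := by
    have := Measure.infinitePi_map_pi (fun _ : I => edgeLaw υ G L)
      (f := fun i p => if i ∈ s then flip1 L D p else p.1) hf
    rw [← this]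
    rfl
  rw [h0]
  have hprob : ∀ i : I, IsProbabilityMeasure ((edgeLaw υ G L).map
        (fun p : ℝ × (U × ℝ) => if i ∈ s then flip1 L D p else p.1)) := fun i =>
    Measure.isProbabilityMeasure_map (hf i).aemeasurable
  refine infinitePi_withDensity (fun _ : I => G) _ s (fun _ => flipDen L (G.real L) δ)
    (fun _ => measurable_flipDen hL _ _) ?_ ?_
  · intro i hi
    simp only [hi, if_true]
    exact map_flip1 υ G hL hD hδ0 hδ1 hυ hg
  · intro i hi
    simp only [hi, if_false]
    unfold edgeLaw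
    exact Measure.map_fst_prod.trans (by simp)

/-- CHANGE OF MEASURE by flips: `P(flip ∈ A) ≤ √(P(A) (1 + δ² g_H/g_L)^|s|)`. -/
theorem flip_le (s : Finset I) {L : Set ℝ} {D : Set U} (hL : MeasurableSet L)
    (hD : MeasurableSet D) {δ : ℝ} (hδ0 : 0 ≤ δ) (hδ1 : δ ≤ 1) (hυ : υ D = ENNReal.ofReal δ)
    (hg : 0 < G.real L) {A : Set (I → ℝ)} (hA : MeasurableSet A) :
    (Measure.infinitePi fun _ : I => edgeLaw υ G L).real {x | flipE s L D x ∈ A} ≤
      √((Measure.infinitePi fun _ : I => G).real A *
        (1 + δ ^ 2 * (1 - G.real L) / G.real L) ^ s.card) := by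
  have hp := isProb_edgeLaw υ G hg
  have hg1 : G.real L ≤ 1 := measureReal_le_one
  have hK0 : 0 ≤ 1 + δ ^ 2 * (1 - G.real L) / G.real L := by
    have : 0 ≤ 1 - G.real L := by linarith
    positivity
  have hden : Measurable fun x : I → ℝ => ∏ i ∈ s, flipDen L (G.real L) δ (x i) := by
    apply Finset.measurable_fun_prod
    intro i _
    exact (measurable_flipDen hL _ _).comp (measurable_pi_apply i)
  have hK : ∫⁻ x, (∏ i ∈ s, flipDen L (G.real L) δ (x i)) ^ 2 ∂(Measure.infinitePi fun _ : I => G)
      ≤ ENNReal.ofReal ((1 + δ ^ 2 * (1 - G.real L) / G.real L) ^ s.card) := by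
    rw [lintegral_prod_sq (fun _ : I => G) s (fun _ => flipDen L (G.real L) δ)
      (fun _ => measurable_flipDen hL _ _), ENNReal.ofReal_pow hK0]
    simp_rw [lintegral_flipDen_sq G hL hδ0 hδ1 hg]
    rw [Finset.prod_const]
  have h := cm_le_real (μ := Measure.infinitePi fun _ : I => G) _ hden (by positivity) hK hA
  rw [← flip_law υ G s hL hD hδ0 hδ1 hυ hg, map_measureReal_apply (measurable_flipE s hL hD) hA] at h
  exact h

end Crest.Agent.R151.V
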