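import Crest.Agent.R151.V6

/-!
# R151, block V8 (helper52): flips high -> low, product form (Fubini form)

`t : I → ℝ` iid `G`, `ξ : I → U × ℝ` iid `υ ⊗ G(·|L)`, independent. On a finite set `s` every high
edge (`t ∈ H`) with `u ∈ D` (probability `δ`) is replaced by `v` (law `G(·|L)`).
-/

set_option autoImplicit false
set_option linter.unusedSectionVars false

open MeasureTheory ProbabilityTheory Set Filter
open scoped ENNReal Topology

namespace Crest.Agent.R151.V

section zip

variable {I : Type*} {X Y : Type*} [MeasurableSpace X] [MeasurableSpace Y]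
  (G : Measure X) (ν : Measure Y) [IsProbabilityMeasure G] [IsProbabilityMeasure ν]

/-- pairing two independent iid families gives an iid family of pairs -/
theorem map_zip :
    ((Measure.infinitePi fun _ : I => G).prod (Measure.infinitePi fun _ : I => ν)).map
      (fun p i => (p.1 i, p.2 i)) = Measure.infinitePi fun _ : I => G.prod ν := by
  classical
  apply Measure.eq_infinitePi
  intro u A hA
  have hm : Measurable fun (p : (I → X) × (I → Y)) i => (p.1 i, p.2 i) := by
    rw [measurable_pi_iff]
    intro i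
    fun_prop
  have hpi : MeasurableSet (Set.pi (u : Set I) A) :=
    MeasurableSet.pi u.countable_toSet fun i _ => hA i
  rw [Measure.map_apply hm hpi, Measure.prod_apply (hm hpi)]
  have h1 : ∀ t : I → X, (Measure.infinitePi fun _ : I => ν) (Prod.mk t ⁻¹'
      ((fun (p : (I → X) × (I → Y)) i => (p.1 i, p.2 i)) ⁻¹' (Set.pi (u : Set I) A))) =
      ∏ i ∈ u, ν (Prod.mk (t i) ⁻¹' A i) := by
    intro t
    rw [← Measure.infinitePi_pi (fun _ : I => ν) (fun i _ => measurable_prodMk_left (hA i))]
    congr 1
  rw [lintegral_congr h1]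
  have h2 := lintegral_prod_infinitePi (fun _ : I => G) u
    (fun i x => ν (Prod.mk x ⁻¹' A i)) (fun i => measurable_measure_prodMk_left (hA i))
  rw [h2]
  apply Finset.prod_congr rfl
  intro i _
  rw [Measure.prod_apply (hA i)]

end zip

variable {U : Type*} [MeasurableSpace U] (υ : Measure U) [IsProbabilityMeasure υ]
  (G : Measure ℝ) [IsProbabilityMeasure G]

open Classical in
/-- the one-edge flip -/
noncomputable def fl (H : Set ℝ) (D : Set U) (t : ℝ) (p : U × ℝ) : ℝ :=
  if t ∈ H ∧ p.1 ∈ D then p.2 else t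

lemma measurable_fl {H : Set ℝ} {D : Set U} (hH : MeasurableSet H) (hD : MeasurableSet D) :
    Measurable (fun q : ℝ × (U × ℝ) => fl H D q.1 q.2) := by
  classical
  unfold fl
  refine Measurable.ite ?_ (by fun_prop) (by fun_prop)
  exact (measurable_fst hH).inter ((measurable_fst.comp measurable_snd) hD)

/-- the density of the flipped law -/
noncomputable def flDen (H L : Set ℝ) (gH gL δ : ℝ) (x : ℝ) : ℝ≥0∞ :=
  Hᶜ.indicator (fun _ => 1) x + H.indicator (fun _ => ENNReal.ofReal (1 - δ)) x +
    L.indicator (fun _ => ENNReal.ofReal (δ * gH / gL)) x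

lemma measurable_flDen {H L : Set ℝ} (hH : MeasurableSet H) (hL : MeasurableSet L) (gH gL δ : ℝ) :
    Measurable (flDen H L gH gL δ) := by
  unfold flDen
  exact ((measurable_const.indicator hH.compl).add (measurable_const.indicator hH)).add
    (measurable_const.indicator hL)

/-- the law of the flipped weight -/
theorem map_fl {H L : Set ℝ} {D : Set U} (hH : MeasurableSet H) (hL : MeasurableSet L)
    (hD : MeasurableSet D)
    {δ : ℝ} (hδ0 : 0 ≤ δ) (hυ : υ D = ENNReal.ofReal δ) (hg : 0 < G.real L) :
    (G.prod (υ.prod (ProbabilityTheory.cond G L))).map (fun q => fl H D q.1 q.2) =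
      G.withDensity (flDen H L (G.real H) (G.real L) δ) := by
  classical
  have hGL : G L ≠ 0 := by
    intro h
    rw [Measure.real, h] at hg
    simp at hg
  have hc : IsProbabilityMeasure (ProbabilityTheory.cond G L) := cond_isProbabilityMeasure hGL
  set gL := G.real L with hgdef
  set gH := G.real H with hgHdef
  have hgH0 : 0 ≤ gH := measureReal_nonneg
  have hGLr : G L = ENNReal.ofReal gL := (ofReal_measureReal (measure_ne_top _ _)).symm
  have hGHr : G H = ENNReal.ofReal gH := (ofReal_measureReal (measure_ne_top _ _)).symm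
  have hDc : υ Dᶜ = ENNReal.ofReal (1 - δ) := by
    rw [prob_compl_eq_one_sub hD, hυ, ← ENNReal.ofReal_one, ENNReal.ofReal_sub _ hδ0]
  ext A hA
  rw [Measure.map_apply (measurable_fl hH hD) hA, withDensity_apply _ hA]
  have hset : (fun q : ℝ × (U × ℝ) => fl H D q.1 q.2) ⁻¹' A =
      ((A ∩ Hᶜ) ×ˢ univ) ∪ (((A ∩ H) ×ˢ (Dᶜ ×ˢ univ)) ∪ (H ×ˢ (D ×ˢ A))) := by
    ext ⟨t, u, v⟩
    simp only [mem_preimage, fl, mem_union, mem_prod, mem_inter_iff, mem_compl_iff, mem_univ,
      and_true]
    by_cases h1 : t ∈ H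
    · by_cases h2 : u ∈ D
      · simp [h1, h2]
      · simp [h1, h2]
    · simp [h1]
  have hm2 : MeasurableSet (((A ∩ H) ×ˢ (Dᶜ ×ˢ univ)) : Set (ℝ × (U × ℝ))) :=
    (hA.inter hH).prod (hD.compl.prod .univ)
  have hm3 : MeasurableSet ((H ×ˢ (D ×ˢ A)) : Set (ℝ × (U × ℝ))) := hH.prod (hD.prod hA)
  have hd1 : Disjoint (((A ∩ Hᶜ) ×ˢ univ) : Set (ℝ × (U × ℝ)))
      (((A ∩ H) ×ˢ (Dᶜ ×ˢ univ)) ∪ (H ×ˢ (D ×ˢ A))) := by
    rw [Set.disjoint_left]
    rintro ⟨t, u, v⟩ h1 h2
    simp only [mem_union, mem_prod, mem_inter_iff, mem_compl_iff, mem_univ, and_true] at h1 h2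
    tauto
  have hd2 : Disjoint (((A ∩ H) ×ˢ (Dᶜ ×ˢ univ)) : Set (ℝ × (U × ℝ))) (H ×ˢ (D ×ˢ A)) := by
    rw [Set.disjoint_left]
    rintro ⟨t, u, v⟩ h1 h2
    simp only [mem_prod, mem_inter_iff, mem_compl_iff, mem_univ, and_true] at h1 h2
    tauto
  rw [hset, measure_union hd1 (hm2.union hm3), measure_union hd2 hm3]
  rw [Measure.prod_prod, Measure.prod_prod, Measure.prod_prod, Measure.prod_prod,
    Measure.prod_prod, measure_univ, measure_univ, mul_one, mul_one, hDc, hυ, hGHr,
    ProbabilityTheory.cond_apply hL, hGLr]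
  have hrhs : ∫⁻ x in A, flDen H L gH gL δ x ∂G =
      G (A ∩ Hᶜ) + ENNReal.ofReal (1 - δ) * G (A ∩ H) +
        ENNReal.ofReal (δ * gH / gL) * G (A ∩ L) := by
    unfold flDen
    rw [lintegral_add_right _ (measurable_const.indicator hL),
      lintegral_add_left (measurable_const.indicator hH.compl),
      lintegral_indicator hL, lintegral_indicator hH, lintegral_indicator hH.compl,
      setLIntegral_const, setLIntegral_const, setLIntegral_const,
      Measure.restrict_apply hL, Measure.restrict_apply hH, Measure.restrict_apply hH.compl,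
      inter_comm L A, inter_comm H A, inter_comm Hᶜ A, one_mul]
  rw [hrhs]
  have h1 : ENNReal.ofReal (δ * gH / gL) =
      ENNReal.ofReal gH * (ENNReal.ofReal δ * (ENNReal.ofReal gL)⁻¹) := by
    rw [← ENNReal.ofReal_inv_of_pos hg, ← ENNReal.ofReal_mul hδ0,
      ← ENNReal.ofReal_mul hgH0]
    congr 1
    field_simp
  rw [h1, inter_comm L A]
  ring

/-- second moment of the flip density -/
lemma lintegral_flDen_sq {H L : Set ℝ} (hH : MeasurableSet H) (hL : MeasurableSet L)
    (hHL : Disjoint H L) {δ : ℝ} (hδ0 : 0 ≤ δ) (hδ1 : δ ≤ 1) (hg : 0 < G.real L) :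
    ∫⁻ x, (flDen H L (G.real H) (G.real L) δ x) ^ 2 ∂G ≤
      ENNReal.ofReal (1 + 2 * δ ^ 2 / G.real L) := by
  set gL := G.real L with hgdef
  set gH := G.real H with hgHdef
  have hgH0 : 0 ≤ gH := measureReal_nonneg
  have hgH1 : gH ≤ 1 := measureReal_le_one
  have hgL1 : gL ≤ 1 := measureReal_le_one
  have hGLr : G L = ENNReal.ofReal gL := (ofReal_measureReal (measure_ne_top _ _)).symm
  have hGHr : G H = ENNReal.ofReal gH := (ofReal_measureReal (measure_ne_top _ _)).symm
  set M := (H ∪ L)ᶜ with hM
  have hMm : MeasurableSet M := (hH.union hL).compl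
  have hunion : G.real (H ∪ L) = gH + gL := measureReal_union hHL hL
  have hGM : G M = ENNReal.ofReal (1 - gH - gL) := by
    rw [← ofReal_measureReal (measure_ne_top _ _), hM, probReal_compl_eq_one_sub (hH.union hL),
      hunion]
    congr 1
    ring
  have hsum1 : gH + gL ≤ 1 := by rw [← hunion]; exact measureReal_le_one
  have h1 : ∀ x, (flDen H L gH gL δ x) ^ 2 =
      M.indicator (fun _ => 1) x +
      (L.indicator (fun _ => ENNReal.ofReal (1 + δ * gH / gL) ^ 2) x +
      H.indicator (fun _ => ENNReal.ofReal (1 - δ) ^ 2) x) := by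
    intro x
    unfold flDen
    have hp : 0 ≤ δ * gH / gL := by positivity
    by_cases hx : x ∈ H
    · have hxL : x ∉ L := Set.disjoint_left.1 hHL hx
      have hxM : x ∉ M := fun h => h (Or.inl hx)
      simp [hx, hxL, hxM]
    · by_cases hxL : x ∈ L
      · have hxM : x ∉ M := fun h => h (Or.inr hxL)
        simp only [mem_compl_iff, hx, not_false_eq_true, indicator_of_mem, indicator_of_notMem,
          hxL, hxM, add_zero, zero_add]
        rw [ENNReal.ofReal_add zero_le_one hp, ENNReal.ofReal_one]
      · have hxM : x ∈ M := fun h => h.elim hx hxL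
        simp [hx, hxL, hxM]
  rw [lintegral_congr h1, lintegral_add_left (measurable_const.indicator hMm),
    lintegral_add_left (measurable_const.indicator hL),
    lintegral_indicator hMm, lintegral_indicator hL,
    lintegral_indicator hH, setLIntegral_const, setLIntegral_const, setLIntegral_const,
    hGLr, hGHr, hGM, one_mul]
  have h2 : 0 ≤ 1 + δ * gH / gL := by positivity
  rw [← ENNReal.ofReal_pow h2, ← ENNReal.ofReal_pow (by linarith), ← ENNReal.ofReal_mul (by positivity),
    ← ENNReal.ofReal_mul (by positivity), ← ENNReal.ofReal_add (by positivity) (by positivity),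
    ← ENNReal.ofReal_add (by linarith) (by positivity)]
  apply ENNReal.ofReal_le_ofReal
  have e : 1 - gH - gL + ((1 + δ * gH / gL) ^ 2 * gL + (1 - δ) ^ 2 * gH) =
      1 + δ ^ 2 * (gH + gH ^ 2 / gL) := by
    field_simp
    ring
  rw [e]
  have h3 : gH ≤ 1 / gL := by
    rw [le_div_iff₀ hg]
    nlinarith
  have h4 : gH ^ 2 / gL ≤ 1 / gL := by
    gcongr
    nlinarith
  have h5 : δ ^ 2 * (gH + gH ^ 2 / gL) ≤ δ ^ 2 * (2 / gL) := by
    apply mul_le_mul_of_nonneg_left _ (sq_nonneg δ)
    have : 2 / gL = 1 / gL + 1 / gL := by ring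
    linarith
  have h6 : 2 * δ ^ 2 / gL = δ ^ 2 * (2 / gL) := by ring
  linarith

variable {I : Type*}

open Classical in
/-- the flipped environment -/
noncomputable def flE (s : Finset I) (H : Set ℝ) (D : Set U) (t : I → ℝ) (ξ : I → U × ℝ) : I → ℝ :=
  fun i => if i ∈ s then fl H D (t i) (ξ i) else t i

lemma measurable_flE (s : Finset I) {H : Set ℝ} {D : Set U} (hH : MeasurableSet H)
    (hD : MeasurableSet D) :
    Measurable (fun q : (I → ℝ) × (I → U × ℝ) => flE s H D q.1 q.2) := by
  classical
  rw [measurable_pi_iff]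
  intro i
  unfold flE
  by_cases hi : i ∈ s
  · simp only [hi, if_true]
    have h1 : Measurable (fun q : (I → ℝ) × (I → U × ℝ) => (q.1 i, q.2 i)) := by fun_prop
    exact (measurable_fl hH hD).comp h1
  · simp only [hi, if_false]
    exact (measurable_pi_apply i).comp measurable_fst

/-- the law of the flipped environment -/
theorem flE_law (s : Finset I) {H L : Set ℝ} {D : Set U} (hH : MeasurableSet H)
    (hL : MeasurableSet L) (hD : MeasurableSet D)
    {δ : ℝ} (hδ0 : 0 ≤ δ) (hυ : υ D = ENNReal.ofReal δ) (hg : 0 < G.real L) :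
    ((Measure.infinitePi fun _ : I => G).prod
      (Measure.infinitePi fun _ : I => υ.prod (ProbabilityTheory.cond G L))).map
        (fun q => flE s H D q.1 q.2) =
      (Measure.infinitePi fun _ : I => G).withDensity
        (fun x => ∏ i ∈ s, flDen H L (G.real H) (G.real L) δ (x i)) := by
  classical
  have hGL : G L ≠ 0 := by
    intro h
    rw [Measure.real, h] at hg
    simp at hg
  have hc : IsProbabilityMeasure (ProbabilityTheory.cond G L) := cond_isProbabilityMeasure hGL
  set ν := υ.prod (ProbabilityTheory.cond G L) with hν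
  have hf : ∀ i : I, Measurable (fun p : ℝ × (U × ℝ) => if i ∈ s then fl H D p.1 p.2 else p.1) := by
    intro i
    by_cases hi : i ∈ s
    · simp only [hi, if_true]; exact measurable_fl hH hD
    · simp only [hi, if_false]; exact measurable_fst
  have hz : Measurable (fun (p : (I → ℝ) × (I → U × ℝ)) i => (p.1 i, p.2 i)) := by
    rw [measurable_pi_iff]
    intro i
    fun_prop
  have hF : Measurable (fun (x : I → ℝ × (U × ℝ)) i =>
      if i ∈ s then fl H D (x i).1 (x i).2 else (x i).1) := by
    rw [measurable_pi_iff]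
    intro i
    exact (hf i).comp (measurable_pi_apply i)
  have h0 : ((Measure.infinitePi fun _ : I => G).prod (Measure.infinitePi fun _ : I => ν)).map
        (fun q => flE s H D q.1 q.2) =
      (Measure.infinitePi fun i : I => (G.prod ν).map
        (fun p : ℝ × (U × ℝ) => if i ∈ s then fl H D p.1 p.2 else p.1)) := by
    have e1 := Measure.infinitePi_map_pi (fun _ : I => G.prod ν)
      (f := fun i p => if i ∈ s then fl H D p.1 p.2 else p.1) hf
    rw [← e1, ← map_zip G ν, Measure.map_map hF hz]
    rfl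
  rw [h0]
  have hprob : ∀ i : I, IsProbabilityMeasure ((G.prod ν).map
        (fun p : ℝ × (U × ℝ) => if i ∈ s then fl H D p.1 p.2 else p.1)) := fun i =>
    Measure.isProbabilityMeasure_map (hf i).aemeasurable
  refine infinitePi_withDensity (fun _ : I => G) _ s
    (fun _ => flDen H L (G.real H) (G.real L) δ)
    (fun _ => measurable_flDen hH hL _ _ _) ?_ ?_
  · intro i hi
    simp only [hi, if_true]
    exact map_fl υ G hH hL hD hδ0 hυ hg
  · intro i hi
    simp only [hi, if_false]
    exact Measure.map_fst_prod.trans (by simp)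

/-- CHANGE OF MEASURE by flips, two-sided form. -/
theorem flE_sub_le (s : Finset I) {H L : Set ℝ} {D : Set U} (hH : MeasurableSet H)
    (hL : MeasurableSet L) (hHL : Disjoint H L) (hD : MeasurableSet D)
    {δ : ℝ} (hδ0 : 0 ≤ δ) (hδ1 : δ ≤ 1) (hυ : υ D = ENNReal.ofReal δ) (hg : 0 < G.real L)
    {A : Set (I → ℝ)} (hA : MeasurableSet A) :
    |((Measure.infinitePi fun _ : I => G).prod
      (Measure.infinitePi fun _ : I => υ.prod (ProbabilityTheory.cond G L))).real
        {q | flE s H D q.1 q.2 ∈ A} - (Measure.infinitePi fun _ : I => G).real A| ≤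
      √((1 + 2 * δ ^ 2 / G.real L) ^ s.card - 1) / 2 := by
  have hGL : G L ≠ 0 := by
    intro h
    rw [Measure.real, h] at hg
    simp at hg
  have hc : IsProbabilityMeasure (ProbabilityTheory.cond G L) := cond_isProbabilityMeasure hGL
  have hlaw := flE_law υ G s hH hL hD hδ0 hυ hg
  have hden : Measurable fun x : I → ℝ => ∏ i ∈ s, flDen H L (G.real H) (G.real L) δ (x i) := by
    apply Finset.measurable_fun_prod
    intro i _
    exact (measurable_flDen hH hL _ _ _).comp (measurable_pi_apply i)
  have hpr : IsProbabilityMeasure ((Measure.infinitePi fun _ : I => G).withDensity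
        (fun x => ∏ i ∈ s, flDen H L (G.real H) (G.real L) δ (x i))) := by
    rw [← hlaw]
    exact Measure.isProbabilityMeasure_map (measurable_flE s hH hD).aemeasurable
  have hK1 : (1:ℝ) ≤ 1 + 2 * δ ^ 2 / G.real L := by
    have : 0 ≤ 2 * δ ^ 2 / G.real L := by positivity
    linarith
  have hK : ∫⁻ x, (∏ i ∈ s, flDen H L (G.real H) (G.real L) δ (x i)) ^ 2
      ∂(Measure.infinitePi fun _ : I => G)
      ≤ ENNReal.ofReal ((1 + 2 * δ ^ 2 / G.real L) ^ s.card) := by
    rw [lintegral_prod_sq (fun _ : I => G) s (fun _ => flDen H L (G.real H) (G.real L) δ)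
      (fun _ => measurable_flDen hH hL _ _ _), ENNReal.ofReal_pow (by linarith)]
    rw [Finset.prod_const]
    exact pow_le_pow_left₀ bot_le (lintegral_flDen_sq G hH hL hHL hδ0 hδ1 hg) _
  have h := cm_sub_le (μ := Measure.infinitePi fun _ : I => G) _ hden
    (one_le_pow₀ hK1) hK hA
  rw [← hlaw, map_measureReal_apply (measurable_flE s hH hD) hA] at h
  exact h

end Crest.Agent.R151.V
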