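import Crest.Agent.R151.V8
import Crest.Agent.R151.X684a
import Crest.Agent.R151.K5

/-!
# R151, block V9 (helper52): anticoncentration of restricted crossings, general atomless law (AC)
-/

set_option autoImplicit false
set_option linter.unusedSectionVars false

open MeasureTheory ProbabilityTheory Set Filter
open scoped ENNReal Topology
open Crest.ProbabilityR.FirstPassage

namespace Crest.Agent.R151.V

section count

variable {I Y : Type*} [MeasurableSpace Y] (ν : Measure Y) [IsProbabilityMeasure ν]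

open Classical in
/-- lower tail of the number of successes -/
theorem few_flips (E : Finset I) {D : Set Y} (hD : MeasurableSet D) {δ : ℝ} (hδ0 : 0 ≤ δ)
    (hδ1 : δ ≤ 1) (hν : ν D = ENNReal.ofReal δ) :
    (Measure.infinitePi fun _ : I => ν).real
      {ξ | ((E.filter fun i => ξ i ∈ D).card : ℝ) < δ * E.card / 2} ≤
      Real.exp (-(δ * E.card / 10)) := by
  classical
  set f : Y → ℝ≥0∞ := fun y => D.indicator (fun _ => ENNReal.ofReal (Real.exp (-1))) y +
    Dᶜ.indicator (fun _ => 1) y with hf
  have hfm : Measurable f := (measurable_const.indicator hD).add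
    (measurable_const.indicator hD.compl)
  have hDc : ν Dᶜ = ENNReal.ofReal (1 - δ) := by
    rw [prob_compl_eq_one_sub hD, hν, ← ENNReal.ofReal_one, ENNReal.ofReal_sub _ hδ0]
  have he1 : Real.exp (-1) ≤ 0.4 := by
    rw [Real.exp_neg]
    have := Real.exp_one_gt_d9
    rw [inv_le_comm₀ (by positivity) (by norm_num)]
    norm_num
    linarith
  have hint : ∫⁻ y, f y ∂ν ≤ ENNReal.ofReal (Real.exp (-(0.6 * δ))) := by
    rw [hf, lintegral_add_left (measurable_const.indicator hD), lintegral_indicator hD,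
      lintegral_indicator hD.compl, setLIntegral_const, setLIntegral_const, hν, hDc,
      ← ENNReal.ofReal_mul (Real.exp_pos _).le, one_mul,
      ← ENNReal.ofReal_add (by positivity) (by linarith)]
    apply ENNReal.ofReal_le_ofReal
    have := Real.add_one_le_exp (-(0.6 * δ))
    nlinarith
  have hprod := lintegral_prod_infinitePi (fun _ : I => ν) E (fun _ => f) (fun _ => hfm)
  rw [Finset.prod_const] at hprod
  have hM : Measurable fun ξ : I → Y => ∏ i ∈ E, f (ξ i) := by
    apply Finset.measurable_fun_prod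
    intro i _
    exact hfm.comp (measurable_pi_apply i)
  have hmarkov := meas_ge_le_lintegral_div (μ := Measure.infinitePi fun _ : I => ν)
    hM.aemeasurable (ε := ENNReal.ofReal (Real.exp (-(δ * E.card / 2))))
    (by simp [Real.exp_pos]) ENNReal.ofReal_ne_top
  have hsub : {ξ : I → Y | ((E.filter fun i => ξ i ∈ D).card : ℝ) < δ * E.card / 2} ⊆
      {ξ | ENNReal.ofReal (Real.exp (-(δ * E.card / 2))) ≤ ∏ i ∈ E, f (ξ i)} := by
    intro ξ hξ
    simp only [Set.mem_ofPred_eq] at hξ ⊢
    have h1 : ∏ i ∈ E, f (ξ i) = ENNReal.ofReal (Real.exp (-((E.filter fun i => ξ i ∈ D).card : ℝ))) := by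
      have h2 : ∀ i ∈ E, f (ξ i) = if ξ i ∈ D then ENNReal.ofReal (Real.exp (-1)) else 1 := by
        intro i _
        by_cases hi : ξ i ∈ D
        · simp [hf, hi]
        · simp [hf, hi]
      rw [Finset.prod_congr rfl h2, Finset.prod_ite, Finset.prod_const, Finset.prod_const_one,
        mul_one, ← ENNReal.ofReal_pow (Real.exp_pos _).le, ← Real.exp_nat_mul]
      congr 2
      ring
    rw [h1]
    apply ENNReal.ofReal_le_ofReal
    exact Real.exp_le_exp.2 (by linarith)
  have h3 : (Measure.infinitePi fun _ : I => ν)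
      {ξ | ((E.filter fun i => ξ i ∈ D).card : ℝ) < δ * E.card / 2} ≤
      ENNReal.ofReal (Real.exp (-(δ * E.card / 10))) := by
    refine (measure_mono hsub).trans (hmarkov.trans ?_)
    rw [hprod]
    have h4 : (∫⁻ y, f y ∂ν) ^ E.card ≤ ENNReal.ofReal (Real.exp (-(0.6 * δ)) ^ E.card) := by
      rw [ENNReal.ofReal_pow (Real.exp_pos _).le]
      exact pow_le_pow_left₀ bot_le hint _
    refine (ENNReal.div_le_div_right h4 _).trans ?_
    rw [← ENNReal.ofReal_div_of_pos (Real.exp_pos _)]
    apply ENNReal.ofReal_le_ofReal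
    rw [← Real.exp_nat_mul, ← Real.exp_sub]
    apply Real.exp_le_exp.2
    have : 0 ≤ δ * E.card := by positivity
    have e : (E.card : ℝ) * -(0.6 * δ) - -(δ * E.card / 2) = -(δ * E.card / 10) := by ring
    rw [e]
  exact ENNReal.toReal_le_of_le_ofReal (Real.exp_pos _).le h3

end count

section drop

variable {U : Type*} [MeasurableSpace U] (υ : Measure U) [IsProbabilityMeasure υ]
  (G : Measure ℝ) [IsProbabilityMeasure G] {I : Type*}

open Classical in
/-- for a fixed environment the flips lower the cost of a given edge set -/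
theorem flips_drop (t : I → ℝ) (E F : Finset I) (hEF : E ⊆ F) {a b : ℝ} (hab : a < b)
    {D : Set U} (hD : MeasurableSet D) {δ : ℝ} (hδ0 : 0 ≤ δ) (hδ1 : δ ≤ 1)
    (hυ : υ D = ENNReal.ofReal δ) (hg : 0 < G.real (Iio a)) {m : ℝ}
    (hm : m ≤ ((E.filter fun e => b ≤ t e).card : ℝ)) :
    (Measure.infinitePi fun _ : I => υ.prod (ProbabilityTheory.cond G (Iio a))).real
      {ξ | ¬ (∑ e ∈ E, flE F (Ici b) D t ξ e ≤ ∑ e ∈ E, t e - (b - a) * (δ * m / 2))} ≤
      Real.exp (-(δ * m / 10)) := by
  classical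
  have hGL : G (Iio a) ≠ 0 := by
    intro h
    rw [Measure.real, h] at hg
    simp at hg
  have hc : IsProbabilityMeasure (ProbabilityTheory.cond G (Iio a)) :=
    cond_isProbabilityMeasure hGL
  set ν := υ.prod (ProbabilityTheory.cond G (Iio a)) with hν
  set E' := E.filter fun e => b ≤ t e with hE'
  have hνD : ν (Prod.fst ⁻¹' D) = ENNReal.ofReal δ := by
    rw [hν, ← Set.prod_univ, Measure.prod_prod, measure_univ, mul_one, hυ]
  have h1 := few_flips ν E' (D := Prod.fst ⁻¹' D) (measurable_fst hD) hδ0 hδ1 hνD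
  have hlow : ∀ᵐ ξ ∂(Measure.infinitePi fun _ : I => ν), ∀ e ∈ F, (ξ e).2 < a := by
    rw [Finset.eventually_all]
    intro e _
    have h2 : ∀ᵐ y ∂ν, y.2 < a := by
      have h3 : ∀ᵐ x ∂(ProbabilityTheory.cond G (Iio a)), x < a := by
        have := ProbabilityTheory.ae_cond_mem (μ := G) (s := Iio a) measurableSet_Iio
        exact this
      rw [hν]
      exact Measure.quasiMeasurePreserving_snd.ae h3
    exact (measurePreserving_eval_infinitePi (fun _ : I => ν) e).quasiMeasurePreserving.ae h2
  have hsub : ∀ᵐ ξ ∂(Measure.infinitePi fun _ : I => ν),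
      ¬ (∑ e ∈ E, flE F (Ici b) D t ξ e ≤ ∑ e ∈ E, t e - (b - a) * (δ * m / 2)) →
      ((E'.filter fun i => ξ i ∈ (Prod.fst ⁻¹' D : Set (U × ℝ))).card : ℝ) < δ * E'.card / 2 := by
    filter_upwards [hlow] with ξ hξ hnot
    by_contra hcon
    push Not at hcon
    apply hnot
    have h3 : ∀ e ∈ E, flE F (Ici b) D t ξ e ≤ t e -
        (if e ∈ E'.filter (fun i => ξ i ∈ (Prod.fst ⁻¹' D : Set (U × ℝ))) then (b - a) else 0) := by
      intro e he
      have heF := hEF he
      simp only [flE, heF, if_true, fl, hE', Finset.mem_filter, he, true_and, Set.mem_Ici,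
        Set.mem_preimage]
      by_cases h4 : b ≤ t e ∧ (ξ e).1 ∈ D
      · rw [if_pos h4, if_pos h4]
        have := hξ e heF
        linarith [h4.1]
      · rw [if_neg h4, if_neg h4]
        linarith
    have h5 := Finset.sum_le_sum h3
    rw [Finset.sum_sub_distrib] at h5
    have h6 : ∑ e ∈ E, (if e ∈ E'.filter (fun i => ξ i ∈ (Prod.fst ⁻¹' D : Set (U × ℝ)))
        then (b - a) else 0) = ((E'.filter fun i => ξ i ∈ (Prod.fst ⁻¹' D : Set (U × ℝ))).card : ℝ)
          * (b - a) := by
      rw [Finset.sum_ite_mem, Finset.sum_const, nsmul_eq_mul]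
      congr 3
      apply Finset.inter_eq_right.2
      exact (Finset.filter_subset _ _).trans (Finset.filter_subset _ _)
    rw [h6] at h5
    have h7 : δ * m / 2 ≤ ((E'.filter fun i => ξ i ∈ (Prod.fst ⁻¹' D : Set (U × ℝ))).card : ℝ) := by
      refine le_trans ?_ hcon
      have : δ * m ≤ δ * E'.card := mul_le_mul_of_nonneg_left hm hδ0
      linarith
    have h8 := mul_le_mul_of_nonneg_right h7 (sub_nonneg.2 hab.le)
    linarith
  refine le_trans (ENNReal.toReal_mono (measure_ne_top _ _) (measure_mono_ae hsub)) ?_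
  refine h1.trans ?_
  apply Real.exp_le_exp.2
  have : δ * m ≤ δ * E'.card := mul_le_mul_of_nonneg_left hm hδ0
  linarith

end drop

end Crest.Agent.R151.V
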