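import Mathlib

/-!
R151, S0214 part 2, section 4: selection of a good scale.
`F n = log₂ Φ(2^n)`; `F` bounded below and `F n ≤ θ' n + C'`.
-/

set_option autoImplicit false

namespace Crest.Agent.R151.W

open Filter

/-- Additive form. -/
theorem exists_scale_add {F : ℕ → ℝ} {c₀ C' θ' θ s : ℝ} (hs : 0 < s) (hθ' : 0 ≤ θ') (hθ : θ' < θ)
    (hlo : ∀ n, -c₀ ≤ F n) (hup : ∀ n, F n ≤ θ' * n + C') (X : ℕ) :
    ∃ N : ℕ, X ≤ N ∧ (∀ n : ℕ, N ≤ n → F n ≤ F N + θ * ((n : ℝ) - N)) ∧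
      (∀ n : ℕ, n ≤ N → F n ≤ F N + s * ((N : ℝ) - n)) := by
  -- choose X0 large
  obtain ⟨X0, hX0⟩ : ∃ X0 : ℕ, (θ' + s) * X + C' + c₀ < s * X0 := by
    obtain ⟨m, hm⟩ := exists_nat_gt (((θ' + s) * X + C' + c₀) / s)
    exact ⟨m, by rw [div_lt_iff₀ hs] at hm; linarith [mul_comm (m : ℝ) s]⟩
  set G : ℕ → ℝ := fun n => F n - θ * max ((n : ℝ) - X0) 0 - s * max ((X0 : ℝ) - n) 0 with hG
  -- a maximiser exists
  obtain ⟨N, hN⟩ : ∃ N, ∀ n, G n ≤ G N := by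
    -- G n ≤ θ' n + C' - θ (n - X0) → -∞
    obtain ⟨B, hB⟩ : ∃ B : ℕ, ∀ n, B ≤ n → G n ≤ G 0 := by
      obtain ⟨m, hm⟩ := exists_nat_gt ((C' + θ * X0 - G 0) / (θ - θ'))
      refine ⟨m, fun n hn => ?_⟩
      have h1 : G n ≤ F n - θ * ((n : ℝ) - X0) := by
        have h2 : θ * ((n : ℝ) - X0) ≤ θ * max ((n : ℝ) - X0) 0 :=
          mul_le_mul_of_nonneg_left (le_max_left _ _) (by linarith)
        have h3 : 0 ≤ s * max ((X0 : ℝ) - n) 0 := mul_nonneg hs.le (le_max_right _ _)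
        simp only [hG]; linarith
      have h4 := hup n
      have h5 : (C' + θ * X0 - G 0) < (θ - θ') * n := by
        rw [div_lt_iff₀ (by linarith)] at hm
        have : (m : ℝ) ≤ n := by exact_mod_cast hn
        nlinarith [mul_le_mul_of_nonneg_right this (by linarith : (0:ℝ) ≤ θ - θ')]
      nlinarith
    obtain ⟨N, hN1, hN2⟩ := Finset.exists_max_image (Finset.range (B + 1)) G ⟨0, by simp⟩
    refine ⟨N, fun n => ?_⟩
    by_cases h : n < B + 1
    · exact hN2 n (by simpa using h)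
    · exact (hB n (by omega)).trans (hN2 0 (by simp))
  have hNX : X ≤ N := by
    by_contra hcon
    push Not at hcon
    have hNlt : (N : ℝ) < X := by exact_mod_cast hcon
    have hX0N : (N : ℝ) ≤ X0 := by
      by_contra hh
      push Not at hh
      have h1 := hlo N
      have h2 := hup N
      nlinarith
    have h1 := hN X0
    have e1 : G X0 = F X0 := by simp [hG]
    have e2 : G N = F N - s * ((X0 : ℝ) - N) := by
      simp only [hG]
      rw [max_eq_right (by linarith), max_eq_left (by linarith)]; ring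
    rw [e1, e2] at h1
    have h2 := hlo X0
    have h3 := hup N
    nlinarith
  refine ⟨N, hNX, fun n hn => ?_, fun n hn => ?_⟩
  · have h := hN n
    have hn' : (N : ℝ) ≤ n := by exact_mod_cast hn
    have k1 : max ((n : ℝ) - X0) 0 ≤ max ((N : ℝ) - X0) 0 + ((n : ℝ) - N) := by
      rcases le_total ((N : ℝ) - X0) 0 with h' | h'
      · rw [max_eq_right h']; apply max_le <;> linarith
      · rw [max_eq_left h']; apply max_le <;> linarith
    have k2 : max ((X0 : ℝ) - n) 0 ≤ max ((X0 : ℝ) - N) 0 :=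
      max_le_max (by linarith) le_rfl
    have k3 := mul_le_mul_of_nonneg_left k1 (by linarith : (0:ℝ) ≤ θ)
    have k4 := mul_le_mul_of_nonneg_left k2 hs.le
    simp only [hG] at h
    nlinarith
  · have h := hN n
    have hn' : (n : ℝ) ≤ N := by exact_mod_cast hn
    have k1 : max ((n : ℝ) - X0) 0 ≤ max ((N : ℝ) - X0) 0 := max_le_max (by linarith) le_rfl
    have k2 : max ((X0 : ℝ) - n) 0 ≤ max ((X0 : ℝ) - N) 0 + ((N : ℝ) - n) := by
      rcases le_total ((X0 : ℝ) - N) 0 with h' | h'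
      · rw [max_eq_right h']; apply max_le <;> linarith
      · rw [max_eq_left h']; apply max_le <;> linarith
    have k3 := mul_le_mul_of_nonneg_left k1 (by linarith : (0:ℝ) ≤ θ)
    have k4 := mul_le_mul_of_nonneg_left k2 hs.le
    simp only [hG] at h
    nlinarith

/-- Multiplicative form over dyadic scales: `Φ n` stands for `Φ(2^n)`. -/
theorem exists_scale {Φ : ℕ → ℝ} {c C θ' θ s : ℝ} (hc : 0 < c) (hC : 0 < C) (hs : 0 < s)
    (hθ' : 0 ≤ θ') (hθ : θ' < θ) (hlo : ∀ n, c ≤ Φ n) (hup : ∀ n : ℕ, Φ n ≤ C * (2 : ℝ) ^ (θ' * n))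
    (X : ℕ) :
    ∃ N : ℕ, X ≤ N ∧ (∀ n : ℕ, N ≤ n → Φ n ≤ (2 : ℝ) ^ (θ * ((n : ℝ) - N)) * Φ N) ∧
      (∀ n : ℕ, n ≤ N → Φ n ≤ (2 : ℝ) ^ (s * ((N : ℝ) - n)) * Φ N) := by
  have hpos : ∀ n, 0 < Φ n := fun n => hc.trans_le (hlo n)
  have h2 : (1 : ℝ) < 2 := by norm_num
  obtain ⟨N, hN, h1, h3⟩ := exists_scale_add (F := fun n => Real.logb 2 (Φ n))
    (c₀ := - Real.logb 2 c) (C' := Real.logb 2 C) hs hθ' hθ
    (fun n => by
      rw [neg_neg]
      exact Real.logb_le_logb_of_le h2 hc (hlo n))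
    (fun n => by
      have h := Real.logb_le_logb_of_le h2 (hpos n) (hup n)
      rw [Real.logb_mul hC.ne' (by positivity), Real.logb_rpow (by norm_num) (by norm_num)] at h
      linarith) X
  have key : ∀ (a b e : ℝ), 0 < a → 0 < b → Real.logb 2 a ≤ Real.logb 2 b + e →
      a ≤ (2 : ℝ) ^ e * b := by
    intro a b e ha hb h
    have h4 : Real.logb 2 ((2 : ℝ) ^ e * b) = Real.logb 2 b + e := by
      rw [Real.logb_mul (by positivity) hb.ne', Real.logb_rpow (by norm_num) (by norm_num)]; ring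
    rw [← h4] at h
    exact (Real.logb_le_logb h2 ha (by positivity)).1 h
  exact ⟨N, hN, fun n hn => key _ _ _ (hpos n) (hpos N) (h1 n hn),
    fun n hn => key _ _ _ (hpos n) (hpos N) (h3 n hn)⟩

/-- Section 4 of `P2_v2`: two costs `ca`, `cb`; arbitrarily large good scales at which one fixed
of the two dominates. -/
theorem exists_scale_two {ca cb : ℕ → ℝ} {c C θ' θ s : ℝ} (hc : 0 < c) (hC : 0 < C) (hs : 0 < s)
    (hθ' : 0 ≤ θ') (hθ : θ' < θ) (hlo : ∀ n, c ≤ max (ca n) (cb n))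
    (hup : ∀ n : ℕ, max (ca n) (cb n) ≤ C * (2 : ℝ) ^ (θ' * n)) :
    (∀ X : ℕ, ∃ N : ℕ, X ≤ N ∧ max (ca N) (cb N) = cb N ∧
      (∀ n : ℕ, N ≤ n → max (ca n) (cb n) ≤ (2 : ℝ) ^ (θ * ((n : ℝ) - N)) * max (ca N) (cb N)) ∧
      (∀ n : ℕ, n ≤ N → max (ca n) (cb n) ≤ (2 : ℝ) ^ (s * ((N : ℝ) - n)) * max (ca N) (cb N))) ∨
    (∀ X : ℕ, ∃ N : ℕ, X ≤ N ∧ max (ca N) (cb N) = ca N ∧
      (∀ n : ℕ, N ≤ n → max (ca n) (cb n) ≤ (2 : ℝ) ^ (θ * ((n : ℝ) - N)) * max (ca N) (cb N)) ∧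
      (∀ n : ℕ, n ≤ N → max (ca n) (cb n) ≤ (2 : ℝ) ^ (s * ((N : ℝ) - n)) * max (ca N) (cb N))) := by
  by_contra hcon
  push Not at hcon
  obtain ⟨⟨X₁, h₁⟩, ⟨X₂, h₂⟩⟩ := hcon
  obtain ⟨N, hN, ha, hb⟩ := exists_scale hc hC hs hθ' hθ hlo hup (max X₁ X₂)
  rcases max_choice (ca N) (cb N) with h | h
  · obtain ⟨n, hn, hlt⟩ := h₂ N ((le_max_right _ _).trans hN) h ha
    exact absurd (hb n hn) (not_le.2 hlt)
  · obtain ⟨n, hn, hlt⟩ := h₁ N ((le_max_left _ _).trans hN) h ha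
    exact absurd (hb n hn) (not_le.2 hlt)

end Crest.Agent.R151.W
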