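import Mathlib
import Crest.Agent.R151.W2

/-!
R151, S0214 part 2, section F of `P2_lean777`: the hull `R^` of a family of crossings.

`C` = type of (open) crossings, `s c : I` start on `H`, `e c : J` end on `H'`, `v c : ℝ` the value
`p (s c) + Y c + q (e c)`. `hull s e v i j = ⨅ {c | i ≤ s c ∧ e c ≤ j}, v c`.
-/

set_option autoImplicit false

namespace Crest.Agent.R151.W

variable {I J C : Type*} [LinearOrder I] [LinearOrder J]

/-- the hull cost -/
noncomputable def hull (s : C → I) (e : C → J) (v : C → ℝ) (i : I) (j : J) : ℝ :=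
  ⨅ c : {c : C // i ≤ s c ∧ e c ≤ j}, v c

/-- standing hypotheses: every pair has a crossing and the values are bounded below -/
structure HullOK (s : C → I) (e : C → J) (v : C → ℝ) : Prop where
  ne : ∀ i j, ∃ c, i ≤ s c ∧ e c ≤ j
  bdd : ∀ i j, BddBelow (Set.range fun c : {c : C // i ≤ s c ∧ e c ≤ j} => v c)

variable {s : C → I} {e : C → J} {v : C → ℝ}

theorem HullOK.hull_le (h : HullOK s e v) {i : I} {j : J} {c : C} (hi : i ≤ s c) (hj : e c ≤ j) :
    hull s e v i j ≤ v c :=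
  ciInf_le (h.bdd i j) (⟨c, hi, hj⟩ : {c : C // i ≤ s c ∧ e c ≤ j})

theorem HullOK.le_hull (h : HullOK s e v) {i : I} {j : J} {x : ℝ}
    (hx : ∀ c, i ≤ s c → e c ≤ j → x ≤ v c) : x ≤ hull s e v i j := by
  obtain ⟨c, h1, h2⟩ := h.ne i j
  have : Nonempty {c : C // i ≤ s c ∧ e c ≤ j} := ⟨⟨c, h1, h2⟩⟩
  exact le_ciInf fun c => hx c.1 c.2.1 c.2.2

theorem HullOK.exists_lt (h : HullOK s e v) (i : I) (j : J) {ε : ℝ} (hε : 0 < ε) :
    ∃ c, i ≤ s c ∧ e c ≤ j ∧ v c < hull s e v i j + ε := by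
  by_contra hcon
  push Not at hcon
  have := h.le_hull (i := i) (j := j) hcon
  linarith

theorem HullOK.mono_left (h : HullOK s e v) {i' i : I} (j : J) (hi : i' ≤ i) :
    hull s e v i' j ≤ hull s e v i j :=
  h.le_hull fun _ h1 h2 => h.hull_le (hi.trans h1) h2

theorem HullOK.anti_right (h : HullOK s e v) (i : I) {j j' : J} (hj : j ≤ j') :
    hull s e v i j' ≤ hull s e v i j :=
  h.le_hull fun _ h1 h2 => h.hull_le h1 (h2.trans hj)

/-- restriction of the family of crossings (lanes): the hull increases -/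
theorem HullOK.hull_le_hull (h : HullOK s e v) {C' : Type*} {s' : C' → I} {e' : C' → J}
    {v' : C' → ℝ} (h' : HullOK s' e' v') (f : C' → C) (hs : ∀ c, s' c ≤ s (f c))
    (he : ∀ c, e (f c) ≤ e' c) (hv : ∀ c, v (f c) ≤ v' c) (i : I) (j : J) :
    hull s e v i j ≤ hull s' e' v' i j :=
  h'.le_hull fun c h1 h2 => (h.hull_le (h1.trans (hs c)) ((he c).trans h2)).trans (hv c)

/-- the switching property of crossings -/
def Switch (s : C → I) (e : C → J) (v : C → ℝ) : Prop :=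
  ∀ c₁ c₂ : C, s c₁ < s c₂ → e c₂ < e c₁ →
    ∃ c₃ c₄ : C, s c₃ = s c₁ ∧ e c₃ = e c₂ ∧ s c₄ = s c₂ ∧ e c₄ = e c₁ ∧ v c₃ + v c₄ ≤ v c₁ + v c₂

/-- Monge property of the hull -/
theorem HullOK.monge (h : HullOK s e v) (hsw : Switch s e v) : Monge (hull s e v) := by
  intro i i' j j' hi hj
  refine le_of_forall_pos_le_add fun ε hε => ?_
  obtain ⟨c₁, a1, b1, l1⟩ := h.exists_lt i j' (half_pos hε)
  obtain ⟨c₂, a2, b2, l2⟩ := h.exists_lt i' j (half_pos hε)
  by_cases h1 : e c₁ ≤ j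
  · have u1 := h.hull_le a1 h1
    have u2 := h.hull_le a2 (b2.trans hj)
    linarith
  by_cases h2 : i' ≤ s c₁
  · have u1 := h.hull_le h2 b1
    have u2 := h.hull_le (hi.trans a2) b2
    linarith
  push Not at h1 h2
  obtain ⟨c₃, c₄, s3, e3, s4, e4, hv⟩ := hsw c₁ c₂ (lt_of_lt_of_le h2 a2) (lt_of_le_of_lt b2 h1)
  have u1 : hull s e v i j ≤ v c₃ := h.hull_le (s3 ▸ a1) (e3 ▸ b2)
  have u2 : hull s e v i' j' ≤ v c₄ := h.hull_le (s4 ▸ a2) (e4 ▸ b1)
  linarith

/-- `R# = R^ - R^(x_{-L}, x_L)`: nonnegative to the right of the gauge points. -/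
theorem HullOK.sub_nonneg (h : HullOK s e v) {a i : I} {b j : J} (hi : a ≤ i) (hj : j ≤ b) :
    0 ≤ hull s e v i j - hull s e v a b := by
  have h1 := h.mono_left j hi
  have h2 := h.anti_right a hj
  linarith

/-- Monge passes to `R#`. -/
theorem Monge.sub_const {A : I → J → ℝ} (h : Monge A) (G : ℝ) : Monge fun i j => A i j - G := by
  intro i i' j j' hi hj
  have := h hi hj
  dsimp only; linarith

end Crest.Agent.R151.W
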