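import Crest.Agent.R151.X684a

/-!
# R151, block X (helper684), part b: cutting a walk at equidistant columns
-/

set_option autoImplicit false

open MeasureTheory ProbabilityTheory Filter Topology
open Crest.ProbabilityR.FirstPassage
open Crest.Agent.R151.A (shift eShift block sig eX)
open Crest.Agent.R151.K (Nn)

namespace Crest.Agent.R151.X

/-- last visit of column `a` before the first visit of column `b` -/
lemma peel {a b : ℤ} (hab : a ≤ b) {x y : ℤ × ℤ} (w : squareLattice.Walk x y) (hx : x.1 = a)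
    (hy : b ≤ y.1) :
    ∃ (X Z : ℤ × ℤ) (q1 : squareLattice.Walk x X) (q2 : squareLattice.Walk X Z)
      (p : squareLattice.Walk Z y),
      w = (q1.append q2).append p ∧ X.1 = a ∧ Z.1 = b ∧ ∀ e ∈ q2.edges, e ∈ block a b := by
  obtain ⟨Z, w1, w2, h1, h2, h3⟩ := first_hit b w (by omega) hy
  obtain ⟨X, q1, q2, h4, h5, h6⟩ := last_visit a w1 (by omega) (by omega)
  refine ⟨X, Z, q1, q2, w2, by rw [h1, h4], h5, h2, ?_⟩
  intro e he
  refine ⟨h6 e he, h3 e ?_⟩
  rw [h4, SimpleGraph.Walk.edges_append, List.mem_append]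
  exact Or.inr he

/-- cutting a walk at the columns `a + k m`, `k ≤ M` -/
lemma chain (t : Environment) (S : Set (Sym2 (ℤ × ℤ))) (m : ℕ) :
    ∀ (M : ℕ) (a : ℤ) {x y : ℤ × ℤ} (w : squareLattice.Walk x y), x.1 = a →
      a + M * m ≤ y.1 → (∀ e ∈ w.edges, e ∈ S) →
      ∃ (X Z : ℕ → ℤ × ℤ) (c l : ℕ → ℝ), Z 0 = x ∧
        (∀ k ≤ M, (Z k).1 = a + k * m) ∧ (∀ k < M, (X k).1 = a + k * m) ∧
        (∀ k < M, Cr S (Z k) (X k) (l k) t) ∧
        (∀ k < M, Cr (S ∩ block (a + k * m) (a + (k + 1 : ℕ) * m)) (X k) (Z (k + 1)) (c k) t) ∧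
        Cr S (Z M) y (l M) t ∧
        ∑ k ∈ Finset.range M, (l k + c k) + l M = walkCost t w := by
  intro M
  induction M with
  | zero =>
    intro a x y w hx hy hS
    refine ⟨fun _ => x, fun _ => x, fun _ => 0, fun _ => walkCost t w, rfl, ?_, by simp, by simp,
      by simp, ⟨w, hS, le_rfl⟩, by simp⟩
    intro k hk
    obtain rfl : k = 0 := by omega
    simp [hx]
  | succ M ih =>
    intro a x y w hx hy hS
    have hm : (0 : ℤ) ≤ m := by positivity
    have hMm : (0 : ℤ) ≤ M * m := by positivity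
    have hy' : (a + m) + M * m ≤ y.1 := by push_cast at hy; nlinarith
    obtain ⟨X0, Z1, q1, q2, p, h1, h2, h3, h4⟩ := peel (show a ≤ a + m by omega) w hx (by omega)
    have hS1 : ∀ e ∈ q1.edges, e ∈ S := fun e he => hS e (by
      rw [h1, SimpleGraph.Walk.edges_append, SimpleGraph.Walk.edges_append]; simp [he])
    have hS2 : ∀ e ∈ q2.edges, e ∈ S := fun e he => hS e (by
      rw [h1, SimpleGraph.Walk.edges_append, SimpleGraph.Walk.edges_append]; simp [he])
    have hS3 : ∀ e ∈ p.edges, e ∈ S := fun e he => hS e (by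
      rw [h1, SimpleGraph.Walk.edges_append]; simp [he])
    obtain ⟨X, Z, c, l, g1, g2, g3, g4, g5, g6, g7⟩ := ih (a + m) p h3 hy' hS3
    refine ⟨fun k => Nat.casesOn k X0 X, fun k => Nat.casesOn k x Z,
      fun k => Nat.casesOn k (walkCost t q2) c, fun k => Nat.casesOn k (walkCost t q1) l,
      rfl, ?_, ?_, ?_, ?_, ?_, ?_⟩
    · intro k hk
      cases k with
      | zero => simp [hx]
      | succ k =>
        have := g2 k (by omega)
        show (Z k).1 = _
        rw [this]; push_cast; ring
    · intro k hk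
      cases k with
      | zero => simp [h2]
      | succ k =>
        have := g3 k (by omega)
        show (X k).1 = _
        rw [this]; push_cast; ring
    · intro k hk
      cases k with
      | zero => exact ⟨q1, hS1, le_rfl⟩
      | succ k => exact g4 k (by omega)
    · intro k hk
      cases k with
      | zero =>
        show Cr _ X0 (Z 0) (walkCost t q2) t
        rw [g1]
        refine ⟨q2, fun e he => ⟨hS2 e he, ?_⟩, le_rfl⟩
        have := h4 e he
        simpa using this
      | succ k =>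
        have h := g5 k (by omega)
        show Cr _ (X k) (Z (k + 1)) (c k) t
        refine h.mono ?_ le_rfl
        refine Set.inter_subset_inter_right _ (A.block_mono ?_ ?_)
        · push_cast; nlinarith
        · push_cast; nlinarith
    · exact g6
    · rw [Finset.sum_range_succ']
      show ∑ k ∈ Finset.range M, (l k + c k) + (walkCost t q1 + walkCost t q2) + l M = _
      rw [h1, K.walkCost_append, K.walkCost_append, ← g7]
      ring

/-- energies along a cut walk: total lateral variation and positive parts -/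
lemma chain_energy {α β a' δ v : ℝ} {M : ℕ} {s : ℝ} {X Z : ℕ → ℤ × ℤ} {c l : ℕ → ℝ} {y : ℤ × ℤ}
    {tot : ℝ} (hsum : ∑ k ∈ Finset.range M, (l k + c k) + l M = tot)
    (htot : tot ≤ lin α β y - lin α β (Z 0) + v)
    (hl : ∀ k < M, lin α β (X k) - lin α β (Z k) + a' * |ht s (X k) - ht s (Z k)| - δ ≤ l k)
    (hc : ∀ k < M, lin α β (Z (k + 1)) - lin α β (X k) +
      a' * |ht s (Z (k + 1)) - ht s (X k)| - δ ≤ c k)
    (hlM : lin α β y - lin α β (Z M) - δ ≤ l M) :
    a' * ∑ k ∈ Finset.range M, (|ht s (X k) - ht s (Z k)| + |ht s (Z (k + 1)) - ht s (X k)|)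
      ≤ v + (2 * M + 1) * δ ∧
    ∀ (ha : 0 ≤ a'),
    ∑ k ∈ Finset.range M, (c k - (lin α β (Z (k + 1)) - lin α β (X k)) + δ) ≤
      v + (2 * M + 1) * δ := by
  have tele : ∑ k ∈ Finset.range M, (lin α β (Z (k + 1)) - lin α β (Z k)) =
      lin α β (Z M) - lin α β (Z 0) := Finset.sum_range_sub (fun k => lin α β (Z k)) M
  have hs1 : ∑ k ∈ Finset.range M, (l k + c k) ≤
      lin α β (Z M) - lin α β (Z 0) + v + δ := by
    linarith
  constructor
  · have h1 : ∑ k ∈ Finset.range M, ((lin α β (Z (k + 1)) - lin α β (Z k)) +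
        a' * (|ht s (X k) - ht s (Z k)| + |ht s (Z (k + 1)) - ht s (X k)|) - 2 * δ) ≤
        ∑ k ∈ Finset.range M, (l k + c k) := by
      refine Finset.sum_le_sum fun k hk => ?_
      have hk' := Finset.mem_range.1 hk
      have := hl k hk'
      have := hc k hk'
      linarith
    rw [Finset.sum_sub_distrib, Finset.sum_add_distrib, tele, Finset.sum_const, Finset.card_range,
      nsmul_eq_mul, ← Finset.mul_sum] at h1
    nlinarith
  · intro ha
    have h1 : ∑ k ∈ Finset.range M, ((lin α β (Z (k + 1)) - lin α β (Z k)) +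
        (c k - (lin α β (Z (k + 1)) - lin α β (X k)) + δ) - 2 * δ) ≤
        ∑ k ∈ Finset.range M, (l k + c k) := by
      refine Finset.sum_le_sum fun k hk => ?_
      have hk' := Finset.mem_range.1 hk
      have := hl k hk'
      have h3 : 0 ≤ a' * |ht s (X k) - ht s (Z k)| := by positivity
      linarith
    rw [Finset.sum_sub_distrib, Finset.sum_add_distrib, tele, Finset.sum_const, Finset.card_range,
      nsmul_eq_mul] at h1
    nlinarith

end Crest.Agent.R151.X
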