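import Crest.Agent.R151.X684d

/-!
# R151, block X (helper684), part e: good blocks, connections at the ends
-/

set_option autoImplicit false

open MeasureTheory ProbabilityTheory Filter Topology
open Crest.ProbabilityR.FirstPassage
open Crest.Agent.R151.A (shift eShift block sig eX)
open Crest.Agent.R151.K (Nn)

namespace Crest.Agent.R151.X

variable (G : Measure ℝ) [IsProbabilityMeasure G]

lemma real_not_Nn (h0 : G (Set.Iio 0) = 0) : (iidLaw G).real {t | ¬ Nn t} = 0 := by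
  have h := K.ae_Nn h0
  rw [ae_iff] at h
  simp [Measure.real, h]

lemma HWbad_shift (s α β a u w δ : ℝ) (p q : ℤ) (z : ℤ × ℤ) :
    shift z ⁻¹' (HWbad s α β a u w δ p q) =
      HWbad s α β a (u + ht s z) w δ (p + z.1) (q + z.1) := by
  ext t
  obtain ⟨z1, z2⟩ := z
  simp only [Set.mem_preimage, HWbad, Set.mem_ofPred_eq]
  constructor
  · rintro ⟨x, y, h3⟩
    refine ⟨x + z2, y + z2, ?_⟩
    have h4 : ht s (p + z1, x + z2) = ht s (p, x) + ht s (z1, z2) := ht_add s (p, x) (z1, z2)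
    have h5 : ht s (q + z1, y + z2) = ht s (q, y) + ht s (z1, z2) := ht_add s (q, y) (z1, z2)
    have h6 := (CrE_shift α β (z1, z2) (mem_sl_shift (z1, z2) s u w p q) (p, x) (q, y) _ t).1 h3
    rw [h4, h5, add_sub_add_right_eq_sub]
    exact h6
  · rintro ⟨x, y, h3⟩
    refine ⟨x - z2, y - z2, ?_⟩
    have h4 : ht s (p + z1, x) = ht s (p, x - z2) + ht s (z1, z2) := by
      rw [← ht_add]; congr 1; ext <;> simp
    have h5 : ht s (q + z1, y) = ht s (q, y - z2) + ht s (z1, z2) := by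
      rw [← ht_add]; congr 1; ext <;> simp
    refine (CrE_shift α β (z1, z2) (mem_sl_shift (z1, z2) s u w p q) (p, x - z2) (q, y - z2)
      _ t).2 ?_
    have e1 : ((p, x - z2) + (z1, z2) : ℤ × ℤ) = (p + z1, x) := by ext <;> simp
    have e2 : ((q, y - z2) + (z1, z2) : ℤ × ℤ) = (q + z1, y) := by ext <;> simp
    rw [e1, e2]
    rw [h4, h5, add_sub_add_right_eq_sub] at h3
    exact h3

lemma measurableSet_HWbad (s α β a u w δ : ℝ) (p q : ℤ) :
    MeasurableSet[sig (block p q)] (HWbad s α β a u w δ p q) := by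
  have : HWbad s α β a u w δ p q = ⋃ x : ℤ, ⋃ y : ℤ,
      {t | CrE α β (sl s u w p q) (p, x) (q, y) (a * |ht s (q, y) - ht s (p, x)| - δ) t} := by
    ext t; simp [HWbad]
  rw [this]
  refine MeasurableSet.iUnion fun x => MeasurableSet.iUnion fun y => ?_
  exact sig_mono Set.inter_subset_left _ (measurableSet_CrE α β _ _ _ _)

lemma prob_HWbad_shift (s α β a u w δ : ℝ) (p q : ℤ) (z : ℤ × ℤ) :
    (iidLaw G).real (HWbad s α β a (u + ht s z) w δ (p + z.1) (q + z.1)) =
      (iidLaw G).real (HWbad s α β a u w δ p q) := by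
  rw [← HWbad_shift]
  simp only [Measure.real]
  rw [(A.mp_shift G z).measure_preimage
    (sig_le _ _ (measurableSet_HWbad s α β a u w δ p q)).nullMeasurableSet]

/-- a hard wall bound at base `0` gives it at any base column -/
lemma prob_HWbad_le {s α β a w δ ε : ℝ} {n : ℕ}
    (h : ∀ u, (iidLaw G).real (HWbad s α β a u w δ 0 n) ≤ ε) (u : ℝ) (p q : ℤ)
    (hpq : q = p + n) : (iidLaw G).real (HWbad s α β a u w δ p q) ≤ ε := by
  have h1 := prob_HWbad_shift G s α β a (u - ht s (p, 0)) w δ 0 n (p, 0)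
  simp only [sub_add_cancel, zero_add] at h1
  rw [hpq, add_comm, h1]
  exact h _

/-- **from a long good path to a typical good block** -/
lemma exists_good_block (h0 : G (Set.Iio 0) = 0) {s α β a u W e δ Λ ν v c l : ℝ} {M m : ℕ}
    (ha : 0 < a) (hm : 1 ≤ m) (hM : 1 ≤ M) (he : 1 ≤ e) (hW : 1 ≤ W)
    (hδ : δ = e / 100) (hv : v ≤ M * e) (hΛW : Λ ≤ W) (hν : 0 < ν)
    (hΛ : (3 / ν * (2 + 3 / a)) * e ≤ Λ) (hc1 : c ≤ 1) (hl : 0 < l)
    (hnu : Real.exp (l * (ν * M)) * ((1 + Real.exp (-l)) / (1 - Real.exp (-l))) ^ M *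
        (Real.exp (ν * M) * (1 - (1 - Real.exp (-1)) * c) ^ M) ≤ 1 / 4)
    (hA : 9 / 10 ≤ (iidLaw G).real (Apt s α β u W v (M * m)))
    (hHW : ∀ u, (iidLaw G).real (HWbad s α β a u W δ 0 m) ≤ 1 / (20 * M))
    (hcol : (iidLaw G).real (ColOK s β (a / 2) u W δ (M * m))ᶜ ≤ 1 / 20) :
    ∃ u', 1 - c ≤ (iidLaw G).real (Blk s α β u' (3 * W) (2 * Λ) Λ 0 m) := by
  classical
  by_contra hcon
  push Not at hcon
  set F : ℕ → ℤ → Set Environment := fun k r =>
    (Blk s α β (u + r * Λ) (3 * W) (2 * Λ) Λ (k * m) ((k + 1 : ℕ) * m))ᶜ with hF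
  set S : ℕ → Set (Sym2 (ℤ × ℤ)) := fun k => block (k * m) ((k + 1 : ℕ) * m) with hS
  have hmeas : ∀ k r, MeasurableSet[sig (S k)] (F k r) := fun k r =>
    (measurableSet_Blk s α β _ _ _ _ _ _).compl
  have hdis : ∀ N : ℕ, Disjoint (⋃ j ∈ Finset.range N, S j) (S N) := by
    intro N
    rw [Set.disjoint_iUnion₂_left]
    intro j hj
    refine A.block_disjoint ?_
    have : j + 1 ≤ N := Finset.mem_range.1 hj
    have h1 : ((j + 1 : ℕ) : ℤ) ≤ N := by exact_mod_cast this
    exact mul_le_mul_of_nonneg_right h1 (by positivity)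
  have hc : ∀ k r, c ≤ (iidLaw G).real (F k r) := by
    intro k r
    have h1 : (iidLaw G).real (Blk s α β (u + r * Λ) (3 * W) (2 * Λ) Λ (k * m)
        ((k + 1 : ℕ) * m)) < 1 - c := by
      have h2 := prob_Blk_shift G s α β (u + r * Λ - ht s ((k : ℤ) * m, 0)) (3 * W) (2 * Λ) Λ 0 m
        ((k : ℤ) * m, 0)
      have h3 : (m : ℤ) + ((k : ℤ) * m, (0 : ℤ)).1 = ((k + 1 : ℕ) : ℤ) * m := by
        simp only; push_cast; ring
      rw [h3, sub_add_cancel, zero_add] at h2
      rw [h2]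
      exact hcon _
    rw [hF]
    simp only
    rw [probReal_compl_eq_one_sub (sig_le _ _ (measurableSet_Blk s α β _ _ _ _ _ _))]
    linarith
  have hsk := prob_skel_le G hmeas hdis hc1 hc M (V := ν * M) (K := ν * M) hl
  have hsk' := hsk.trans hnu
  -- the inclusion
  have hsub : Apt s α β u W v (M * m) ⊆ (SkelEv F M (ν * M) (ν * M) ∪
      ⋃ k ∈ Finset.range M, HWbad s α β a u W δ (k * m) ((k + 1 : ℕ) * m)) ∪
      ((ColOK s β (a / 2) u W δ (M * m))ᶜ ∪ {t | ¬ Nn t}) := by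
    intro t ht1
    by_cases hN : Nn t
    swap
    · exact Or.inr (Or.inr hN)
    by_cases hC : t ∈ ColOK s β (a / 2) u W δ (M * m)
    swap
    · exact Or.inr (Or.inl hC)
    by_cases hH : ∃ k ∈ Finset.range M, t ∈ HWbad s α β a u W δ (k * m) ((k + 1 : ℕ) * m)
    · refine Or.inl (Or.inr ?_)
      simp only [Set.mem_iUnion]
      obtain ⟨k, hk, hk'⟩ := hH
      exact ⟨k, hk, hk'⟩
    · push Not at hH
      refine Or.inl (Or.inl ?_)
      have hend : |ht s ((M * m : ℕ) , ⌊u + s * (M * m : ℕ)⌋) - u| ≤ W := by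
        have h1 : ht s (((M * m : ℕ) : ℤ), ⌊u + s * (M * m : ℕ)⌋) =
          (⌊u + s * (M * m : ℕ)⌋ : ℝ) - s * (M * m : ℕ) := by simp [ht]
        rw [h1, abs_le]
        constructor
        · linarith [Int.lt_floor_add_one (u + s * (M * m : ℕ))]
        · linarith [Int.floor_le (u + s * (M * m : ℕ))]
      refine skel_of_path (yend := (((M * m : ℕ) : ℤ), ⌊u + s * (M * m : ℕ)⌋)) (v := v) hN ha hm
        hM he hW hδ hv hΛW hν hΛ (by simp) hend ?_
        (fun k hk => hH k (Finset.mem_range.2 hk)) hC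
      have h1 := ht1
      unfold Apt at h1
      simp only [Set.mem_ofPred_eq] at h1
      have h2 : (((M * m : ℕ) : ℤ)) = (M : ℤ) * m := by push_cast; ring
      rw [← h2]
      exact h1
  have h1 : (iidLaw G).real (Apt s α β u W v (M * m)) ≤
      ((iidLaw G).real (SkelEv F M (ν * M) (ν * M)) +
        ∑ k ∈ Finset.range M, (iidLaw G).real (HWbad s α β a u W δ (k * m) ((k + 1 : ℕ) * m))) +
      ((iidLaw G).real (ColOK s β (a / 2) u W δ (M * m))ᶜ + (iidLaw G).real {t | ¬ Nn t}) := by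
    refine (measureReal_mono hsub (measure_ne_top _ _)).trans ?_
    refine (measureReal_union_le _ _).trans (add_le_add ?_ (measureReal_union_le _ _))
    refine (measureReal_union_le _ _).trans (add_le_add le_rfl ?_)
    exact measureReal_biUnion_finset_le _ _
  have h2 : ∑ k ∈ Finset.range M,
      (iidLaw G).real (HWbad s α β a u W δ (k * m) ((k + 1 : ℕ) * m)) ≤ 1 / 20 := by
    have h3 : ∀ k ∈ Finset.range M,
        (iidLaw G).real (HWbad s α β a u W δ (k * m) ((k + 1 : ℕ) * m)) ≤ 1 / (20 * M) := by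
      intro k _
      exact prob_HWbad_le G hHW u _ _ (by push_cast; ring)
    refine (Finset.sum_le_sum h3).trans ?_
    rw [Finset.sum_const, Finset.card_range, nsmul_eq_mul]
    have hM0 : (0 : ℝ) < M := by exact_mod_cast hM
    apply le_of_eq
    field_simp
  rw [real_not_Nn G h0] at h1
  linarith

/-- all base heights -/
lemma Blk_all {s α β w L v p : ℝ} {m : ℕ} {u' : ℝ}
    (h : p ≤ (iidLaw G).real (Blk s α β u' w L v 0 m)) (u : ℝ) :
    p ≤ (iidLaw G).real (Blk s α β u (w + 1) (L + 1) v 0 m) := by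
  have h1 := prob_Blk_shift G s α β u' w L v 0 m (0, ⌊u - u'⌋)
  have h2 : ht s (0, ⌊u - u'⌋) = (⌊u - u'⌋ : ℝ) := by simp [ht]
  rw [h2] at h1
  simp only [add_zero] at h1
  rw [← h1] at h
  refine h.trans (measureReal_mono ?_ (measure_ne_top _ _))
  have h3 : |u' + (⌊u - u'⌋ : ℝ) - u| ≤ 1 := by
    rw [abs_le]
    constructor
    · linarith [Int.lt_floor_add_one (u - u')]
    · linarith [Int.floor_le (u - u')]
  rintro t ⟨x, y, g1, g2, g3⟩
  refine ⟨x, y, ?_, ?_, g3.mono (sl_mono (by linarith) le_rfl le_rfl) le_rfl⟩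
  · have : ht s (0, x) - u = (ht s (0, x) - (u' + (⌊u - u'⌋ : ℝ))) + (u' + (⌊u - u'⌋ : ℝ) - u) := by
      ring
    rw [this]
    exact (abs_add_le _ _).trans (add_le_add g1 h3)
  · have : ht s (m, y) - u = (ht s (m, y) - (u' + (⌊u - u'⌋ : ℝ))) + (u' + (⌊u - u'⌋ : ℝ) - u) := by
      ring
    rw [this]
    exact (abs_add_le _ _).trans (add_le_add g2 h3)

/-! ## Connections at the ends -/

/-- connections inside column `0` -/
def ConnL (s u L C : ℝ) (n : ℕ) : Set Environment :=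
  {t | ∀ x : ℤ, |ht s (0, x) - u| ≤ L → Cr (sl s u (2 * L) 0 n) (0, ⌊u⌋) (0, x) (C * L) t}

/-- connections from the column `n - 1` to the end point -/
def ConnR (s u L C : ℝ) (n : ℕ) : Set Environment :=
  {t | ∀ y : ℤ, |ht s (n, y) - u| ≤ L →
    Cr (sl s u (2 * L) 0 n) ((n : ℤ) - 1, y) (n, ⌊u + s * n⌋) (C * L) t}

/-- dropping the last edge of a walk in the half-open slab -/
lemma Cr_drop_last {S : Set (Sym2 (ℤ × ℤ))} {p q : ℤ} (hS : S ⊆ block p q) {x : ℤ × ℤ} {y : ℤ}
    (hx : x.1 < q) {c : ℝ} {t : Environment} (hN : Nn t) (h : Cr S x (q, y) c t) :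
    Cr S x (q - 1, y) c t := by
  have h' := h.symm
  apply Cr.symm
  obtain ⟨w, h1, h2⟩ := h'
  cases w with
  | nil => simp at hx
  | @cons _ b _ hadj w' =>
    have he := hS (h1 s((q, y), b) (by simp))
    have hb : b = (q - 1, y) := by
      simp only [block, Set.mem_ofPred_eq, A.eX_mk] at he
      have h3 : b.1 < q := by
        rcases min_lt_iff.1 he.2 with h | h
        · simp at h
        · exact h
      rw [squareLattice, SimpleGraph.fromRel_adj] at hadj
      obtain ⟨b1, b2⟩ := b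
      simp only [ne_eq, Prod.mk.injEq] at hadj h3 ⊢
      omega
    subst hb
    refine ⟨w', fun e he' => h1 e (by simp [he']), ?_⟩
    have h4 : walkCost t (SimpleGraph.Walk.cons hadj w') =
        t s((q, y), (q - 1, y)) + walkCost t w' := by simp [walkCost]
    rw [h4] at h2
    linarith [hN s((q, y), (q - 1, y))]

/-- changing the end point of a crossing -/
lemma CrE_retarget {s α β u w L C v : ℝ} {n : ℕ} {x : ℤ × ℤ} {y : ℤ} {t : Environment}
    (hN : Nn t) (hx : x.1 < n) (h : CrE α β (sl s u w 0 n) x (n, y) v t)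
    (hy : |ht s (n, y) - u| ≤ L) (hR : t ∈ ConnR s u L C n) (hL : 2 * L ≤ w) :
    CrE α β (sl s u w 0 n) x (n, ⌊u + s * n⌋) (v + C * L + |β| * (L + 1)) t := by
  have h1 := Cr_drop_last (S := sl s u w 0 n) Set.inter_subset_left hx hN h
  have h2 := (hR y hy).mono (sl_mono (u' := u) (w' := w) (by simpa using hL) le_rfl le_rfl)
    le_rfl
  refine (h1.trans h2).mono le_rfl ?_
  have h3 : lin α β ((n : ℤ), y) - lin α β ((n : ℤ), ⌊u + s * n⌋) ≤ |β| * (L + 1) := by
    rw [lin_col]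
    have h4 : |(y : ℝ) - ⌊u + s * n⌋| ≤ L + 1 := by
      have h5 : ht s ((n : ℤ), y) = (y : ℝ) - s * n := by simp [ht]
      rw [h5] at hy
      have h6 := Int.lt_floor_add_one (u + s * n)
      have h7 := Int.floor_le (u + s * n)
      rw [abs_le] at hy ⊢
      constructor <;> linarith
    calc β * ((y : ℝ) - ⌊u + s * n⌋) ≤ |β * ((y : ℝ) - ⌊u + s * n⌋)| := le_abs_self _
      _ = |β| * |(y : ℝ) - ⌊u + s * n⌋| := abs_mul _ _
      _ ≤ |β| * (L + 1) := mul_le_mul_of_nonneg_left h4 (abs_nonneg _)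
  linarith

/-- changing the starting point of a crossing -/
lemma CrE_resource {s α β u w L C v : ℝ} {n : ℕ} {y : ℤ × ℤ} {x : ℤ} {t : Environment}
    (h : CrE α β (sl s u w 0 n) (0, x) y v t)
    (hy : |ht s (0, x) - u| ≤ L) (hR : t ∈ ConnL s u L C n) (hL : 2 * L ≤ w) :
    CrE α β (sl s u w 0 n) (0, ⌊u⌋) y (v + C * L + |β| * (L + 1)) t := by
  have h2 := (hR x hy).mono (sl_mono (u' := u) (w' := w) (by simpa using hL) le_rfl le_rfl)
    le_rfl
  refine (h2.trans h).mono le_rfl ?_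
  have h3 : lin α β ((0 : ℤ), ⌊u⌋) - lin α β ((0 : ℤ), x) ≤ |β| * (L + 1) := by
    rw [lin_col]
    have h4 : |(⌊u⌋ : ℝ) - x| ≤ L + 1 := by
      have h5 : ht s ((0 : ℤ), x) = (x : ℝ) := by simp [ht]
      rw [h5] at hy
      have h6 := Int.lt_floor_add_one u
      have h7 := Int.floor_le u
      rw [abs_le] at hy ⊢
      constructor <;> linarith
    calc β * ((⌊u⌋ : ℝ) - x) ≤ |β * ((⌊u⌋ : ℝ) - x)| := le_abs_self _
      _ = |β| * |(⌊u⌋ : ℝ) - x| := abs_mul _ _
      _ ≤ |β| * (L + 1) := mul_le_mul_of_nonneg_left h4 (abs_nonneg _)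
  linarith

/-- a good block with connections at both ends gives a good point-to-point crossing -/
lemma Apt_of_Blk {s α β u w L C v : ℝ} {n : ℕ} (hn : 1 ≤ n) {t : Environment} (hN : Nn t)
    (hL : 2 * L ≤ w) (h : t ∈ Blk s α β u w L v 0 n) (h1 : t ∈ ConnL s u L C n)
    (h2 : t ∈ ConnR s u L C n) :
    t ∈ Apt s α β u w (v + 2 * (C * L + |β| * (L + 1))) n := by
  obtain ⟨x, y, g1, g2, g3⟩ := h
  have h3 := CrE_resource (L := L) (C := C) g3 g1 h1 hL
  have h4 := CrE_retarget (L := L) (C := C) hN (by simp; omega) h3 g2 h2 hL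
  exact h4.mono le_rfl (by linarith)

end Crest.Agent.R151.X
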