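import Crest.Agent.R151.X684e

/-!
# R151, block X (helper684), part f: sub-lengths, stopping arguments, confinement
-/

set_option autoImplicit false

open MeasureTheory ProbabilityTheory Filter Topology
open Crest.ProbabilityR.FirstPassage
open Crest.Agent.R151.A (shift eShift block sig eX)
open Crest.Agent.R151.K (Nn)

namespace Crest.Agent.R151.X

variable (G : Measure ℝ) [IsProbabilityMeasure G]

lemma ht_start (s u : ℝ) : |ht s (0, ⌊u⌋) - u| ≤ 1 := by
  have h1 : ht s (0, ⌊u⌋) = (⌊u⌋ : ℝ) := by simp [ht]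
  rw [h1, abs_le]
  constructor
  · linarith [Int.lt_floor_add_one u]
  · linarith [Int.floor_le u]

lemma ht_end (s u : ℝ) (n : ℕ) : |ht s ((n : ℤ), ⌊u + s * n⌋) - u| ≤ 1 := by
  have h1 : ht s ((n : ℤ), ⌊u + s * n⌋) = (⌊u + s * n⌋ : ℝ) - s * n := by simp [ht]
  rw [h1, abs_le]
  constructor
  · linarith [Int.lt_floor_add_one (u + s * n)]
  · linarith [Int.floor_le (u + s * n)]

lemma col_energy {s α β a u w δ : ℝ} {N : ℕ} {t : Environment}
    (hcol : t ∈ ColOK s β (a / 2) u w δ N) (hN : Nn t) {p q : ℤ × ℤ} {k : ℤ} (hk0 : 0 ≤ k)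
    (hkN : k ≤ N) (hp : p.1 = k) (hq : q.1 = k) (hpw : |ht s p - u| ≤ w)
    (hqw : |ht s q - u| ≤ w) (w' : squareLattice.Walk p q) :
    lin α β q - lin α β p + a / 2 * |ht s q - ht s p| - δ ≤ walkCost t w' := by
  obtain ⟨p1, p2⟩ := p
  obtain ⟨q1, q2⟩ := q
  simp only at hp hq
  subst hp hq
  have h1 := hcol _ hk0 hkN p2 q2 hpw hqw
  rw [ht_col, lin_col]
  exact h1.trans (K.pt_le hN w')

/-- a good crossing gives good crossings of smaller length -/
lemma sub_det {s α β a u w δ v L C : ℝ} {k m N : ℕ} {t : Environment} (hN : Nn t) (ha : 0 < a)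
    (hk : 1 ≤ k) (hkm : k < m) (hkN : k ≤ N) (hA : t ∈ Apt s α β u w v m)
    (hH1 : t ∉ HWbad s α β a u w δ 0 k) (hH2 : t ∉ HWbad s α β a u w δ k m)
    (hcol : t ∈ ColOK s β (a / 2) u w δ N) (hL : (v + 3 * δ + a) / a ≤ L)
    (hLw : 2 * L ≤ w) (hR : t ∈ ConnR s u L C k) :
    t ∈ Apt s α β u w (v + 2 * δ + C * L + |β| * (L + 1)) k := by
  obtain ⟨p, hp1, hp2⟩ := hA
  obtain ⟨z1, p1, p', h1, h2, h3⟩ := first_hit (k : ℤ) p (by simp) (by simp; omega)
  obtain ⟨z2, p2, p3, h4, h5, h6⟩ := last_visit (k : ℤ) p' (by omega) (by simp; omega)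
  have e1 : ∀ e ∈ p1.edges, e ∈ p.edges := fun e he => by
    rw [h1, SimpleGraph.Walk.edges_append]; simp [he]
  have e3 : ∀ e ∈ p3.edges, e ∈ p.edges := fun e he => by
    rw [h1, h4, SimpleGraph.Walk.edges_append, SimpleGraph.Walk.edges_append]; simp [he]
  have hcost : walkCost t p = walkCost t p1 + (walkCost t p2 + walkCost t p3) := by
    rw [h1, h4, K.walkCost_append, K.walkCost_append]
  have c1 : Cr (sl s u w 0 k) (0, ⌊u⌋) z1 (walkCost t p1) t := by
    refine ⟨p1, fun e he => ?_, le_rfl⟩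
    have h7 := hp1 e (e1 e he)
    exact ⟨⟨h7.1.1, h3 e he⟩, h7.2⟩
  have c3 : Cr (sl s u w k m) z2 (m, ⌊u + s * m⌋) (walkCost t p3) t := by
    refine ⟨p3, fun e he => ?_, le_rfl⟩
    have h7 := hp1 e (e3 e he)
    exact ⟨⟨h6 e he, h7.1.2⟩, h7.2⟩
  have hz1 : |ht s z1 - u| ≤ w := by
    obtain ⟨e, he, hxe⟩ := Cr_end_mem c1 (by
      intro h; have := congrArg Prod.fst h; simp only at this; omega)
    exact he.2 _ hxe
  have hz2 : |ht s z2 - u| ≤ w := by
    obtain ⟨e, he, hxe⟩ := Cr_start_mem c3 (by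
      intro h; have := congrArg Prod.fst h; simp only at this; omega)
    exact he.2 _ hxe
  have g2 := col_energy (α := α) hcol hN (by omega) (by exact_mod_cast hkN) h2 h5 hz1 hz2 p2
  obtain ⟨z11, z12⟩ := z1
  obtain ⟨z21, z22⟩ := z2
  simp only at h2 h5
  subst h2 h5
  have g1 : lin α β ((k : ℤ), z12) - lin α β ((0 : ℤ), ⌊u⌋) +
      (a * |ht s ((k : ℤ), z12) - ht s (0, ⌊u⌋)| - δ) < walkCost t p1 := by
    by_contra hcon
    push Not at hcon
    exact hH1 ⟨⌊u⌋, z12, c1.mono le_rfl hcon⟩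
  have g3 : lin α β ((m : ℤ), ⌊u + s * m⌋) - lin α β ((k : ℤ), z22) +
      (a * |ht s ((m : ℤ), ⌊u + s * m⌋) - ht s ((k : ℤ), z22)| - δ) < walkCost t p3 := by
    by_contra hcon
    push Not at hcon
    exact hH2 ⟨z22, _, c3.mono le_rfl hcon⟩
  have n1 : 0 ≤ a * |ht s ((m : ℤ), ⌊u + s * m⌋) - ht s ((k : ℤ), z22)| := by positivity
  have n2 : 0 ≤ a / 2 * |ht s ((k : ℤ), z22) - ht s ((k : ℤ), z12)| := by positivity
  have hE1 : CrE α β (sl s u w 0 k) (0, ⌊u⌋) (k, z12) (v + 2 * δ) t :=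
    c1.mono le_rfl (by linarith)
  have hht : |ht s ((k : ℤ), z12) - u| ≤ L := by
    have h8 : a * |ht s ((k : ℤ), z12) - ht s (0, ⌊u⌋)| ≤ v + 3 * δ := by linarith
    have h9 := ht_start s u
    have h10 : |ht s ((k : ℤ), z12) - u| ≤ |ht s ((k : ℤ), z12) - ht s (0, ⌊u⌋)| + 1 := by
      have : ht s ((k : ℤ), z12) - u =
        (ht s ((k : ℤ), z12) - ht s (0, ⌊u⌋)) + (ht s (0, ⌊u⌋) - u) := by ring
      rw [this]
      exact (abs_add_le _ _).trans (add_le_add le_rfl h9)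
    refine le_trans ?_ hL
    rw [le_div_iff₀ ha]
    nlinarith
  have h11 := CrE_retarget (L := L) (C := C) hN (by simp; omega) hE1 hht hR hLw
  exact h11.mono le_rfl (by linarith)

/-- the stopping lemma -/
lemma stop_le {n : ℕ} {E A : ℕ → Set Environment} {S T : ℕ → Set (Sym2 (ℤ × ℤ))}
    (hS : Monotone S) (hE : ∀ i, MeasurableSet[sig (S i)] (E i))
    (hA : ∀ i, MeasurableSet[sig (T i)] (A i)) (hd : ∀ i < n, Disjoint (S i) (T i))
    (hp : ∀ i < n, 1 / 2 ≤ (iidLaw G).real (A i)) :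
    (iidLaw G).real (⋃ i ∈ Finset.range n, E i) ≤
      2 * (iidLaw G).real (⋃ i ∈ Finset.range n, (E i ∩ A i)) := by
  classical
  have hmeas : ∀ i, MeasurableSet (E i) := fun i => sig_le _ _ (hE i)
  have hmeasA : ∀ i, MeasurableSet (A i) := fun i => sig_le _ _ (hA i)
  set D : ℕ → Set Environment := fun i => E i \ ⋃ j ∈ Finset.range i, E j with hD
  have hDm : ∀ i, MeasurableSet[sig (S i)] (D i) := by
    intro i
    refine (hE i).diff ?_
    refine Finset.measurableSet_biUnion _ fun j hj => ?_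
    exact sig_mono (hS (Finset.mem_range.1 hj).le) _ (hE j)
  have hDm' : ∀ i, MeasurableSet (D i) := fun i => sig_le _ _ (hDm i)
  have hdisj : ∀ (B : ℕ → Set Environment), (∀ i, B i ⊆ D i) →
      Set.PairwiseDisjoint (↑(Finset.range n)) B := by
    intro B hB
    intro i _ j _ hij
    rw [Function.onFun, Set.disjoint_left]
    intro t h1 h2
    rcases lt_or_gt_of_ne hij with h | h
    · exact (hB j h2).2 (by
        simp only [Set.mem_iUnion]
        exact ⟨i, Finset.mem_range.2 h, (hB i h1).1⟩)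
    · exact (hB i h1).2 (by
        simp only [Set.mem_iUnion]
        exact ⟨j, Finset.mem_range.2 h, (hB j h2).1⟩)
  have hU : ⋃ i ∈ Finset.range n, E i = ⋃ i ∈ Finset.range n, D i := by
    ext t
    simp only [Set.mem_iUnion, Finset.mem_range]
    constructor
    · rintro ⟨i, hi, hti⟩
      have hex : ∃ i, i < n ∧ t ∈ E i := ⟨i, hi, hti⟩
      refine ⟨Nat.find hex, (Nat.find_spec hex).1, (Nat.find_spec hex).2, ?_⟩
      simp only [Set.mem_iUnion, Finset.mem_range, not_exists]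
      intro j hj htj
      exact Nat.find_min hex hj ⟨hj.trans (Nat.find_spec hex).1, htj⟩
    · rintro ⟨i, hi, hti⟩
      exact ⟨i, hi, hti.1⟩
  have h1 : (iidLaw G).real (⋃ i ∈ Finset.range n, E i) =
      ∑ i ∈ Finset.range n, (iidLaw G).real (D i) := by
    rw [hU]
    exact measureReal_biUnion_finset (hdisj D fun i => le_rfl) (fun i _ => hDm' i)
  have h2 : ∑ i ∈ Finset.range n, (iidLaw G).real (D i ∩ A i) ≤
      (iidLaw G).real (⋃ i ∈ Finset.range n, (E i ∩ A i)) := by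
    rw [← measureReal_biUnion_finset (hdisj _ fun i => Set.inter_subset_left)
      (fun i _ => (hDm' i).inter (hmeasA i))]
    refine measureReal_mono ?_ (measure_ne_top _ _)
    exact Set.iUnion₂_mono fun i _ => Set.inter_subset_inter_left _ Set.diff_subset
  have h3 : ∑ i ∈ Finset.range n, (iidLaw G).real (D i) ≤
      2 * ∑ i ∈ Finset.range n, (iidLaw G).real (D i ∩ A i) := by
    rw [Finset.mul_sum]
    refine Finset.sum_le_sum fun i hi => ?_
    have hi' := Finset.mem_range.1 hi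
    rw [measure_inter_sig G (hd i hi') (hDm i) (hA i)]
    have h4 := hp i hi'
    have h5 : 0 ≤ (iidLaw G).real (D i) := measureReal_nonneg
    nlinarith
  rw [h1]
  linarith

lemma measurableSet_Apt (s α β u w v : ℝ) (n : ℕ) :
    MeasurableSet[sig (block 0 n)] (Apt s α β u w v n) :=
  sig_mono Set.inter_subset_left _ (measurableSet_CrE α β _ _ _ _)

lemma mem_Apt_shift {s α β w v : ℝ} {n : ℕ} (z : ℤ × ℤ) {t : Environment} :
    shift z t ∈ Apt s α β 0 w v n ↔
      CrE α β (sl s (ht s z) w z.1 (z.1 + n)) z (z.1 + n, z.2 + ⌊s * n⌋) v t := by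
  unfold Apt
  simp only [Set.mem_ofPred_eq]
  rw [CrE_shift α β z (mem_sl_shift z s 0 w 0 n)]
  simp only [zero_add, Int.floor_zero]
  have e1 : ((0 : ℤ), (0 : ℤ)) + z = z := by ext <;> simp
  have e2 : ((n : ℤ), ⌊s * n⌋) + z = (z.1 + n, z.2 + ⌊s * n⌋) := by
    ext <;> simp [add_comm]
  rw [e1, e2, add_comm (n : ℤ) z.1]

lemma measurableSet_Apt_shift {s α β w v : ℝ} {n : ℕ} (z : ℤ × ℤ) :
    MeasurableSet[sig (block z.1 (z.1 + n))] (shift z ⁻¹' (Apt s α β 0 w v n)) := by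
  have : shift z ⁻¹' (Apt s α β 0 w v n) =
      {t | CrE α β (sl s (ht s z) w z.1 (z.1 + n)) z (z.1 + n, z.2 + ⌊s * n⌋) v t} := by
    ext t
    exact mem_Apt_shift z
  rw [this]
  exact sig_mono Set.inter_subset_left _ (measurableSet_CrE α β _ _ _ _)

lemma prob_Apt_shift (s α β w v : ℝ) (n : ℕ) (z : ℤ × ℤ) :
    (iidLaw G).real (shift z ⁻¹' (Apt s α β 0 w v n)) = (iidLaw G).real (Apt s α β 0 w v n) := by
  simp only [Measure.real]
  rw [(A.mp_shift G z).measure_preimage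
    (sig_le _ _ (measurableSet_Apt s α β 0 w v n)).nullMeasurableSet]

/-- a crossing of the first `k` columns from the base point with too small energy -/
def BadLk (s α β a u w D : ℝ) (k : ℕ) (z : ℤ) : Set Environment :=
  {t | |ht s (k, z) - u| ≤ w ∧
    CrE α β (sl s u w 0 k) (0, ⌊u⌋) (k, z) (a * |ht s (k, z) - u| - D) t}

/-- a crossing of the last columns to the end point with too small energy -/
def BadRk (s α β a u w D : ℝ) (m k : ℕ) (z : ℤ) : Set Environment :=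
  {t | |ht s (k, z) - u| ≤ w ∧
    CrE α β (sl s u w k m) (k, z) (m, ⌊u + s * m⌋) (a * |ht s (k, z) - u| - D) t}

lemma abs_z_le {s u w : ℝ} {k m : ℕ} {z : ℤ} (hk : k ≤ m) (h : |ht s ((k : ℤ), z) - u| ≤ w) :
    |(z : ℝ)| ≤ |s| * m + |u| + w := by
  have h1 : ht s ((k : ℤ), z) = (z : ℝ) - s * k := by simp [ht]
  rw [h1] at h
  have h2 : (z : ℝ) = (z - s * k - u) + (s * k + u) := by ring
  rw [h2]
  refine (abs_add_le _ _).trans ?_
  have h3 : |s * k + u| ≤ |s| * m + |u| := by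
    refine (abs_add_le _ _).trans (add_le_add ?_ le_rfl)
    rw [abs_mul, Nat.abs_cast]
    exact mul_le_mul_of_nonneg_left (by exact_mod_cast hk) (abs_nonneg _)
  linarith

lemma measurableSet_const_and {m0 : MeasurableSpace Environment} (P : Prop)
    {R : Environment → Prop} (hR : MeasurableSet[m0] {t | R t}) :
    MeasurableSet[m0] {t | P ∧ R t} := by
  have := measurableSet_and_const P True hR
  simpa using this

/-- **stopping from the left** -/
lemma prob_badL_le {s α β a u w v δ D ε : ℝ} {m : ℕ} (ha : 0 < a)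
    (hw : 1 ≤ w) (hA : ∀ n ≤ m, 1 / 2 ≤ (iidLaw G).real (Apt s α β 0 w v n))
    (hHW : (iidLaw G).real (HWbad s α β a u (2 * w + 1) δ 0 m) ≤ ε)
    (hD : v + δ + 2 * a ≤ D) :
    (iidLaw G).real {t | ∃ k : ℕ, 1 ≤ k ∧ k ≤ m ∧ ∃ z : ℤ, t ∈ BadLk s α β a u w D k z} ≤
      2 * ε := by
  classical
  set Z : ℕ := ⌈|s| * m + |u| + w⌉₊ with hZ
  set N : ℕ := 2 * Z + 1 with hN
  -- the enumeration
  set kk : ℕ → ℕ := fun i => i / N with hkk
  set zz : ℕ → ℤ := fun i => ((i % N : ℕ) : ℤ) - Z with hzz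
  set E : ℕ → Set Environment := fun i =>
    if 1 ≤ kk i then BadLk s α β a u w D (kk i) (zz i) else ∅ with hE
  set B : ℕ → Set Environment := fun i =>
    shift ((kk i : ℤ), zz i) ⁻¹' (Apt s α β 0 w v (m - kk i)) with hB
  have hNpos : 0 < N := by omega
  have hkmono : Monotone kk := fun i j hij => Nat.div_le_div_right hij
  have hkm : ∀ i < (m + 1) * N, kk i ≤ m := by
    intro i hi
    have : i / N < m + 1 := (Nat.div_lt_iff_lt_mul hNpos).2 hi
    simp only [hkk]; omega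
  have hstop := stop_le G (n := (m + 1) * N) (E := E) (A := B)
    (S := fun i => block 0 (kk i)) (T := fun i => block (kk i) ((kk i : ℤ) + (m - kk i : ℕ)))
    (fun i j hij => A.block_mono le_rfl (by exact_mod_cast hkmono hij))
    (by
      intro i
      simp only [hE]
      split_ifs with h
      · refine measurableSet_const_and _ ?_
        exact sig_mono Set.inter_subset_left _ (measurableSet_CrE α β _ _ _ _)
      · exact @MeasurableSet.empty _ (sig (block 0 (kk i))))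
    (by
      intro i
      exact measurableSet_Apt_shift _)
    (fun i _ => A.block_disjoint le_rfl)
    (by
      intro i _
      simp only [hB]
      rw [prob_Apt_shift]
      exact hA _ (by omega))
  have hsub1 : {t | ∃ k : ℕ, 1 ≤ k ∧ k ≤ m ∧ ∃ z : ℤ, t ∈ BadLk s α β a u w D k z} ⊆
      ⋃ i ∈ Finset.range ((m + 1) * N), E i := by
    rintro t ⟨k, hk1, hkm', z, hz⟩
    have hzZ : |z| ≤ Z := by
      have h1 := abs_z_le hkm' hz.1
      have h2 : |(z : ℝ)| ≤ Z := h1.trans (Nat.le_ceil _)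
      have h3 : ((|z| : ℤ) : ℝ) ≤ ((Z : ℤ) : ℝ) := by push_cast; exact h2
      exact_mod_cast h3
    rw [abs_le] at hzZ
    obtain ⟨j, hj⟩ : ∃ j : ℕ, (j : ℤ) = z + Z := ⟨(z + Z).toNat, Int.toNat_of_nonneg (by omega)⟩
    have hjN : j < N := by omega
    simp only [Set.mem_iUnion, Finset.mem_range]
    refine ⟨k * N + j, ?_, ?_⟩
    · calc k * N + j < k * N + N := by omega
        _ = (k + 1) * N := by ring
        _ ≤ (m + 1) * N := Nat.mul_le_mul_right _ (by omega)
    · have h1 : kk (k * N + j) = k := by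
        simp only [hkk]
        rw [add_comm, Nat.add_mul_div_right _ _ hNpos, Nat.div_eq_of_lt hjN, zero_add]
      have h2 : zz (k * N + j) = z := by
        simp only [hzz]
        rw [add_comm (k * N), Nat.add_mul_mod_self_right, Nat.mod_eq_of_lt hjN, hj]
        ring
      simp only [hE, h1, h2, if_pos hk1]
      exact hz
  have hsub2 : ⋃ i ∈ Finset.range ((m + 1) * N), (E i ∩ B i) ⊆
      HWbad s α β a u (2 * w + 1) δ 0 m := by
    intro t ht1
    simp only [Set.mem_iUnion, Finset.mem_range] at ht1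
    obtain ⟨i, hi, hti, htB⟩ := ht1
    simp only [hE] at hti
    split_ifs at hti with hk1
    swap
    · simp at hti
    have hkm' := hkm i hi
    obtain ⟨g1, g2⟩ := hti
    have g3 := (mem_Apt_shift _).1 htB
    simp only at g3
    have hend : ((kk i : ℤ) + (m - kk i : ℕ)) = (m : ℤ) := by omega
    rw [hend] at g3
    -- combined path
    have g4 : CrE α β (sl s u (2 * w + 1) 0 m) (0, ⌊u⌋)
        ((m : ℤ), zz i + ⌊s * ((m - kk i : ℕ) : ℝ)⌋)
        (a * |ht s ((kk i : ℤ), zz i) - u| - D + v) t := by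
      refine CrE.trans (y := ((kk i : ℤ), zz i)) ?_ ?_
      · exact g2.mono (sl_mono (by simp; linarith) le_rfl (by exact_mod_cast hkm')) le_rfl
      · refine g3.mono (sl_mono (by linarith) (by positivity) le_rfl) le_rfl
    refine ⟨⌊u⌋, zz i + ⌊s * ((m - kk i : ℕ) : ℝ)⌋, g4.mono le_rfl ?_⟩
    have g5 : |ht s ((m : ℤ), zz i + ⌊s * ((m - kk i : ℕ) : ℝ)⌋) -
        ht s ((kk i : ℤ), zz i)| ≤ 1 := by
      have h1 : ht s ((m : ℤ), zz i + ⌊s * ((m - kk i : ℕ) : ℝ)⌋) -
          ht s ((kk i : ℤ), zz i) = ⌊s * ((m - kk i : ℕ) : ℝ)⌋ - s * ((m - kk i : ℕ) : ℝ) := by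
        simp only [ht]
        push_cast [Nat.cast_sub hkm']
        ring
      rw [h1, abs_le]
      constructor
      · linarith [Int.lt_floor_add_one (s * ((m - kk i : ℕ) : ℝ))]
      · linarith [Int.floor_le (s * ((m - kk i : ℕ) : ℝ))]
    have g6 := ht_start s u
    have g7 : |ht s ((kk i : ℤ), zz i) - u| - 2 ≤
        |ht s ((m : ℤ), zz i + ⌊s * ((m - kk i : ℕ) : ℝ)⌋) - ht s (0, ⌊u⌋)| := by
      have h1 : ht s ((kk i : ℤ), zz i) - u =
          (ht s ((m : ℤ), zz i + ⌊s * ((m - kk i : ℕ) : ℝ)⌋) - ht s (0, ⌊u⌋)) +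
          ((ht s ((kk i : ℤ), zz i) -
            ht s ((m : ℤ), zz i + ⌊s * ((m - kk i : ℕ) : ℝ)⌋)) + (ht s (0, ⌊u⌋) - u)) := by ring
      have h2 := abs_add_le (ht s ((m : ℤ), zz i + ⌊s * ((m - kk i : ℕ) : ℝ)⌋) - ht s (0, ⌊u⌋))
        ((ht s ((kk i : ℤ), zz i) -
            ht s ((m : ℤ), zz i + ⌊s * ((m - kk i : ℕ) : ℝ)⌋)) + (ht s (0, ⌊u⌋) - u))
      have h3 := abs_add_le (ht s ((kk i : ℤ), zz i) -
            ht s ((m : ℤ), zz i + ⌊s * ((m - kk i : ℕ) : ℝ)⌋)) (ht s (0, ⌊u⌋) - u)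
      rw [abs_sub_comm] at g5
      rw [← h1] at h2
      linarith
    have g8 := mul_le_mul_of_nonneg_left g7 ha.le
    linarith
  calc (iidLaw G).real {t | ∃ k : ℕ, 1 ≤ k ∧ k ≤ m ∧ ∃ z : ℤ, t ∈ BadLk s α β a u w D k z}
      ≤ (iidLaw G).real (⋃ i ∈ Finset.range ((m + 1) * N), E i) :=
        measureReal_mono hsub1 (measure_ne_top _ _)
    _ ≤ 2 * (iidLaw G).real (⋃ i ∈ Finset.range ((m + 1) * N), (E i ∩ B i)) := hstop
    _ ≤ 2 * (iidLaw G).real (HWbad s α β a u (2 * w + 1) δ 0 m) := by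
        have := measureReal_mono (μ := iidLaw G) hsub2 (measure_ne_top _ _)
        linarith
    _ ≤ 2 * ε := by linarith

end Crest.Agent.R151.X
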