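import Crest.Agent.R151.X684f

/-!
# R151, block X (helper684), part g: stopping from the right, final confinement
-/

set_option autoImplicit false

open MeasureTheory ProbabilityTheory Filter Topology
open Crest.ProbabilityR.FirstPassage
open Crest.Agent.R151.A (shift eShift block sig eX)
open Crest.Agent.R151.K (Nn)

namespace Crest.Agent.R151.X

variable (G : Measure ℝ) [IsProbabilityMeasure G]

/-- **stopping from the right** -/
lemma prob_badR_le {s α β a u w v δ D ε : ℝ} {m : ℕ} (ha : 0 < a)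
    (hw : 1 ≤ w) (hA : ∀ n ≤ m, 1 / 2 ≤ (iidLaw G).real (Apt s α β 0 w v n))
    (hHW : (iidLaw G).real (HWbad s α β a u (2 * w + 1) δ 0 m) ≤ ε)
    (hD : v + δ + 2 * a ≤ D) :
    (iidLaw G).real {t | ∃ k : ℕ, k < m ∧ ∃ z : ℤ, t ∈ BadRk s α β a u w D m k z} ≤
      2 * ε := by
  classical
  set Z : ℕ := ⌈|s| * m + |u| + w⌉₊ with hZ
  set N : ℕ := 2 * Z + 1 with hN
  -- the enumeration
  set kk : ℕ → ℕ := fun i => m - 1 - i / N with hkk
  set zz : ℕ → ℤ := fun i => ((i % N : ℕ) : ℤ) - Z with hzz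
  set E : ℕ → Set Environment := fun i => BadRk s α β a u w D m (kk i) (zz i) with hE
  set B : ℕ → Set Environment := fun i =>
    shift ((0 : ℤ), zz i - ⌊s * (kk i : ℝ)⌋) ⁻¹' (Apt s α β 0 w v (kk i)) with hB
  have hNpos : 0 < N := by omega
  have hkmono : ∀ i j, i ≤ j → kk j ≤ kk i := fun i j hij => by
    exact Nat.sub_le_sub_left (Nat.div_le_div_right (c := N) hij) _
  have hkm : ∀ i, kk i ≤ m := by
    intro i
    exact (Nat.sub_le _ _).trans (Nat.sub_le _ _)
  have hstop := stop_le G (n := m * N) (E := E) (A := B)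
    (S := fun i => block (kk i) m) (T := fun i => block 0 (0 + kk i))
    (fun i j hij => A.block_mono (by exact_mod_cast hkmono i j hij) le_rfl)
    (by
      intro i
      refine measurableSet_const_and _ ?_
      exact sig_mono Set.inter_subset_left _ (measurableSet_CrE α β _ _ _ _))
    (by
      intro i
      exact measurableSet_Apt_shift _)
    (fun i _ => (A.block_disjoint (by simp)).symm)
    (by
      intro i _
      simp only [hB]
      rw [prob_Apt_shift]
      exact hA _ (hkm i))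
  have hsub1 : {t | ∃ k : ℕ, k < m ∧ ∃ z : ℤ, t ∈ BadRk s α β a u w D m k z} ⊆
      ⋃ i ∈ Finset.range (m * N), E i := by
    rintro t ⟨k, hkm', z, hz⟩
    have hzZ : |z| ≤ Z := by
      have h1 := abs_z_le hkm'.le hz.1
      have h2 : |(z : ℝ)| ≤ Z := h1.trans (Nat.le_ceil _)
      have h3 : ((|z| : ℤ) : ℝ) ≤ ((Z : ℤ) : ℝ) := by push_cast; exact h2
      exact_mod_cast h3
    rw [abs_le] at hzZ
    obtain ⟨j, hj⟩ : ∃ j : ℕ, (j : ℤ) = z + Z := ⟨(z + Z).toNat, Int.toNat_of_nonneg (by omega)⟩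
    have hjN : j < N := by omega
    obtain ⟨q, hq⟩ : ∃ q : ℕ, q + k + 1 = m := ⟨m - 1 - k, by omega⟩
    simp only [Set.mem_iUnion, Finset.mem_range]
    refine ⟨q * N + j, ?_, ?_⟩
    · calc q * N + j < q * N + N := by omega
        _ = (q + 1) * N := by ring
        _ ≤ m * N := Nat.mul_le_mul_right _ (by omega)
    · have h1 : kk (q * N + j) = k := by
        simp only [hkk]
        rw [add_comm (q * N), Nat.add_mul_div_right _ _ hNpos, Nat.div_eq_of_lt hjN, zero_add]
        omega
      have h2 : zz (q * N + j) = z := by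
        simp only [hzz]
        rw [add_comm (q * N), Nat.add_mul_mod_self_right, Nat.mod_eq_of_lt hjN, hj]
        ring
      simp only [hE, h1, h2]
      exact hz
  have hsub2 : ⋃ i ∈ Finset.range (m * N), (E i ∩ B i) ⊆
      HWbad s α β a u (2 * w + 1) δ 0 m := by
    intro t ht1
    simp only [Set.mem_iUnion, Finset.mem_range] at ht1
    obtain ⟨i, hi, hti, htB⟩ := ht1
    have hkm' := hkm i
    obtain ⟨g1, g2⟩ := hti
    have g3 := (mem_Apt_shift _).1 htB
    simp only [sub_add_cancel, zero_add] at g3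
    -- the starting height
    have g5 : |ht s ((0 : ℤ), zz i - ⌊s * (kk i : ℝ)⌋) - ht s ((kk i : ℤ), zz i)| ≤ 1 := by
      have h1 : ht s ((0 : ℤ), zz i - ⌊s * (kk i : ℝ)⌋) - ht s ((kk i : ℤ), zz i) =
          s * (kk i : ℝ) - ⌊s * (kk i : ℝ)⌋ := by
        simp only [ht]
        push_cast
        ring
      rw [h1, abs_le]
      constructor
      · linarith [Int.floor_le (s * (kk i : ℝ))]
      · linarith [Int.lt_floor_add_one (s * (kk i : ℝ))]
    have g6 : |ht s ((0 : ℤ), zz i - ⌊s * (kk i : ℝ)⌋) - u| ≤ w + 1 := by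
      have h1 : ht s ((0 : ℤ), zz i - ⌊s * (kk i : ℝ)⌋) - u =
        (ht s ((0 : ℤ), zz i - ⌊s * (kk i : ℝ)⌋) - ht s ((kk i : ℤ), zz i)) +
        (ht s ((kk i : ℤ), zz i) - u) := by ring
      rw [h1]
      refine (abs_add_le _ _).trans ?_
      linarith
    have g4 : CrE α β (sl s u (2 * w + 1) 0 m) ((0 : ℤ), zz i - ⌊s * (kk i : ℝ)⌋)
        ((m : ℤ), ⌊u + s * m⌋) (v + (a * |ht s ((kk i : ℤ), zz i) - u| - D)) t := by
      refine CrE.trans (y := ((kk i : ℤ), zz i)) ?_ ?_
      · exact g3.mono (sl_mono (by linarith) le_rfl (by exact_mod_cast hkm')) le_rfl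
      · exact g2.mono (sl_mono (by simp; linarith) (by positivity) le_rfl) le_rfl
    refine ⟨zz i - ⌊s * (kk i : ℝ)⌋, ⌊u + s * m⌋, g4.mono le_rfl ?_⟩
    have g7 := ht_end s u m
    have g8 : |ht s ((kk i : ℤ), zz i) - u| - 2 ≤
        |ht s ((m : ℤ), ⌊u + s * m⌋) - ht s ((0 : ℤ), zz i - ⌊s * (kk i : ℝ)⌋)| := by
      have h1 : ht s ((kk i : ℤ), zz i) - u =
          -((ht s ((m : ℤ), ⌊u + s * m⌋) - ht s ((0 : ℤ), zz i - ⌊s * (kk i : ℝ)⌋)) +
          ((ht s ((0 : ℤ), zz i - ⌊s * (kk i : ℝ)⌋) - ht s ((kk i : ℤ), zz i)) +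
            -(ht s ((m : ℤ), ⌊u + s * m⌋) - u))) := by ring
      have h2 := abs_add_le (ht s ((m : ℤ), ⌊u + s * m⌋) -
          ht s ((0 : ℤ), zz i - ⌊s * (kk i : ℝ)⌋))
        ((ht s ((0 : ℤ), zz i - ⌊s * (kk i : ℝ)⌋) - ht s ((kk i : ℤ), zz i)) +
            -(ht s ((m : ℤ), ⌊u + s * m⌋) - u))
      have h3 := abs_add_le (ht s ((0 : ℤ), zz i - ⌊s * (kk i : ℝ)⌋) -
        ht s ((kk i : ℤ), zz i)) (-(ht s ((m : ℤ), ⌊u + s * m⌋) - u))
      rw [abs_neg] at h3
      rw [h1, abs_neg]
      linarith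
    have g9 := mul_le_mul_of_nonneg_left g8 ha.le
    linarith
  calc (iidLaw G).real {t | ∃ k : ℕ, k < m ∧ ∃ z : ℤ, t ∈ BadRk s α β a u w D m k z}
      ≤ (iidLaw G).real (⋃ i ∈ Finset.range (m * N), E i) :=
        measureReal_mono hsub1 (measure_ne_top _ _)
    _ ≤ 2 * (iidLaw G).real (⋃ i ∈ Finset.range (m * N), (E i ∩ B i)) := hstop
    _ ≤ 2 * (iidLaw G).real (HWbad s α β a u (2 * w + 1) δ 0 m) := by
        have := measureReal_mono (μ := iidLaw G) hsub2 (measure_ne_top _ _)
        linarith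
    _ ≤ 2 * ε := by linarith

/-- splitting a walk at a vertex -/
lemma exists_split {x y z : ℤ × ℤ} (w : squareLattice.Walk x y) (hz : z ∈ w.support) :
    ∃ (w1 : squareLattice.Walk x z) (w2 : squareLattice.Walk z y), w = w1.append w2 := by
  classical
  exact ⟨w.takeUntil z hz, w.dropUntil z hz, (w.take_spec hz).symm⟩

/-- every vertex of a walk with edges in the slab lies in the slab -/
lemma support_mem_slab {p q : ℤ} {x y z : ℤ × ℤ} (w : squareLattice.Walk x y)
    (hw : ∀ e ∈ w.edges, e ∈ block p q) (hx : p ≤ x.1 ∧ x.1 ≤ q) (hz : z ∈ w.support) :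
    p ≤ z.1 ∧ z.1 ≤ q := by
  induction w with
  | nil =>
    simp only [SimpleGraph.Walk.support_nil, List.mem_singleton] at hz
    subst hz; exact hx
  | @cons a b c h w' ih =>
    rw [SimpleGraph.Walk.support_cons, List.mem_cons] at hz
    rcases hz with rfl | hz
    · exact hx
    · refine ih (fun e he => hw e (by simp [he])) ?_ hz
      have h1 := hw s(a, b) (by simp)
      simp only [block, Set.mem_ofPred_eq, A.eX_mk] at h1
      have h2 := adj_fst_le h
      rw [abs_le] at h2
      have h3 := min_le_right a.1 b.1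
      have h4 : b.1 ≤ min a.1 b.1 + 1 := by
        rcases min_choice a.1 b.1 with h | h <;> rw [h] <;> omega
      omega

/-- **confinement**: outside the bad events a good crossing stays in a narrow tube -/
lemma confine_det {s α β a u w w' δ D v : ℝ} {m N : ℕ} {t : Environment} (hN : Nn t)
    (ha : 0 < a) (hm : 1 ≤ m) (hmN : m ≤ N) (hw : 1 ≤ w) (hδ : 0 ≤ δ) (haD : a ≤ D)
    (hA : t ∈ Apt s α β u w v m)
    (hL : ¬ ∃ k : ℕ, 1 ≤ k ∧ k ≤ m ∧ ∃ z : ℤ, t ∈ BadLk s α β a u w D k z)
    (hR : ¬ ∃ k : ℕ, k < m ∧ ∃ z : ℤ, t ∈ BadRk s α β a u w D m k z)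
    (hcol : t ∈ ColOK s β (a / 2) u w δ N)
    (hw' : 2 * (v + 2 * D + 2 * δ) / a ≤ w') :
    t ∈ Apt s α β u w' v m := by
  obtain ⟨p, hp1, hp2⟩ := hA
  -- all vertices are in the narrow tube
  have key : ∀ z ∈ p.support, |ht s z - u| ≤ w' := by
    intro z hz
    obtain ⟨k1, k2⟩ := support_mem_slab (p := 0) (q := m) p (fun e he => (hp1 e he).1)
      ⟨le_rfl, by positivity⟩ hz
    obtain ⟨k, hk⟩ : ∃ k : ℕ, z.1 = k := ⟨z.1.toNat, (Int.toNat_of_nonneg k1).symm⟩
    obtain ⟨pa, pb, hpab⟩ := exists_split p hz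
    obtain ⟨z1, p1, q1, h1, h2, h3⟩ := first_hit (k : ℤ) pa (by simp) (by omega)
    obtain ⟨z2, q2, p3, h4, h5, h6⟩ := last_visit (k : ℤ) pb (by omega) (by simp; omega)
    have e1 : ∀ e ∈ p1.edges, e ∈ p.edges := fun e he => by
      rw [hpab, h1, SimpleGraph.Walk.edges_append, SimpleGraph.Walk.edges_append]; simp [he]
    have e3 : ∀ e ∈ p3.edges, e ∈ p.edges := fun e he => by
      rw [hpab, h4, SimpleGraph.Walk.edges_append, SimpleGraph.Walk.edges_append]; simp [he]
    have hcost : walkCost t p = (walkCost t p1 + walkCost t q1) +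
        (walkCost t q2 + walkCost t p3) := by
      rw [hpab, h1, h4, K.walkCost_append, K.walkCost_append, K.walkCost_append]
    have c1 : Cr (sl s u w 0 k) (0, ⌊u⌋) z1 (walkCost t p1) t := by
      refine ⟨p1, fun e he => ?_, le_rfl⟩
      have h7 := hp1 e (e1 e he)
      exact ⟨⟨h7.1.1, h3 e he⟩, h7.2⟩
    have c3 : Cr (sl s u w k m) z2 (m, ⌊u + s * m⌋) (walkCost t p3) t := by
      refine ⟨p3, fun e he => ?_, le_rfl⟩
      have h7 := hp1 e (e3 e he)
      exact ⟨⟨h6 e he, h7.1.2⟩, h7.2⟩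
    -- tube membership of z1, z2, z
    have tube_of_mem : ∀ x : ℤ × ℤ, x ∈ p.support → |ht s x - u| ≤ w := by
      intro x hx
      by_cases hx0 : x = (0, ⌊u⌋)
      · rw [hx0]; exact (ht_start s u).trans hw
      · obtain ⟨r1, r2, hr⟩ := exists_split p hx
        have : Cr (tube s u w) (0, ⌊u⌋) x (walkCost t r1) t :=
          ⟨r1, fun e he => (hp1 e (by rw [hr, SimpleGraph.Walk.edges_append]; simp [he])).2,
            le_rfl⟩
        obtain ⟨e, he, hxe⟩ := Cr_end_mem this (Ne.symm hx0)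
        exact he _ hxe
    have hz1 : |ht s z1 - u| ≤ w := by
      refine tube_of_mem z1 ?_
      rw [hpab, h1, SimpleGraph.Walk.support_append, SimpleGraph.Walk.support_append]
      simp
    have hz2 : |ht s z2 - u| ≤ w := by
      refine tube_of_mem z2 ?_
      have : z2 ∈ pb.support := by
        rw [h4, SimpleGraph.Walk.mem_support_append_iff]
        exact Or.inl (SimpleGraph.Walk.end_mem_support _)
      rw [hpab, SimpleGraph.Walk.mem_support_append_iff]
      exact Or.inr this
    have hz0 : |ht s z - u| ≤ w := tube_of_mem z hz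
    have hkm : k ≤ m := by omega
    have f1 := col_energy (α := α) hcol hN (k := (k : ℤ)) (by positivity)
      (by exact_mod_cast hkm.trans hmN) h2 hk hz1 hz0 q1
    have f2 := col_energy (α := α) hcol hN (k := (k : ℤ)) (by positivity)
      (by exact_mod_cast hkm.trans hmN) hk h5 hz0 hz2 q2
    -- first piece
    have f3 : lin α β z1 - lin α β ((0 : ℤ), ⌊u⌋) + (a * |ht s z1 - u| - D) ≤ walkCost t p1 := by
      rcases Nat.eq_zero_or_pos k with hk0 | hk0
      · -- `p1` has no edges
        have h7 : z1 = (0, ⌊u⌋) := by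
          by_contra hne
          obtain ⟨e, he, -⟩ := Cr_end_mem c1 (Ne.symm hne)
          have h8 := he.1
          simp only [block, Set.mem_ofPred_eq] at h8
          omega
        have h8 : 0 ≤ walkCost t p1 := K.walkCost_nonneg hN p1
        have h10 : lin α β z1 = lin α β ((0 : ℤ), ⌊u⌋) := by rw [h7]
        have h11 : |ht s z1 - u| ≤ 1 := by rw [h7]; exact ht_start s u
        have h9 := mul_le_mul_of_nonneg_left h11 ha.le
        linarith
      · by_contra hcon
        push Not at hcon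
        refine hL ⟨k, hk0, hkm, z1.2, ?_⟩
        have h7 : ((k : ℤ), z1.2) = z1 := by
          ext
          · exact h2.symm
          · rfl
        refine ⟨by rw [h7]; exact hz1, ?_⟩
        rw [h7]
        exact c1.mono le_rfl (by linarith)
    have f4 : lin α β ((m : ℤ), ⌊u + s * m⌋) - lin α β z2 + (a * |ht s z2 - u| - D) ≤
        walkCost t p3 := by
      rcases hkm.eq_or_lt with hk0 | hk0
      · have h7 : z2 = ((m : ℤ), ⌊u + s * m⌋) := by
          by_contra hne
          obtain ⟨e, he, -⟩ := Cr_end_mem c3 hne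
          have h8 := he.1
          simp only [block, Set.mem_ofPred_eq] at h8
          omega
        have h8 : 0 ≤ walkCost t p3 := K.walkCost_nonneg hN p3
        have h10 : lin α β z2 = lin α β ((m : ℤ), ⌊u + s * m⌋) := by rw [h7]
        have h11 : |ht s z2 - u| ≤ 1 := by rw [h7]; exact ht_end s u m
        have h9 := mul_le_mul_of_nonneg_left h11 ha.le
        linarith
      · by_contra hcon
        push Not at hcon
        refine hR ⟨k, hk0, z2.2, ?_⟩
        have h7 : ((k : ℤ), z2.2) = z2 := by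
          ext
          · exact h5.symm
          · rfl
        refine ⟨by rw [h7]; exact hz2, ?_⟩
        rw [h7]
        exact c3.mono le_rfl (by linarith)
    have f5 : 0 ≤ a * |ht s z2 - u| := by positivity
    have f6 : 0 ≤ a / 2 * |ht s z2 - ht s z| := by positivity
    have f7 : a / 2 * |ht s z - u| ≤ a * |ht s z1 - u| + a / 2 * |ht s z - ht s z1| := by
      have h7 : ht s z - u = (ht s z1 - u) + (ht s z - ht s z1) := by ring
      have h8 : |ht s z - u| ≤ |ht s z1 - u| + |ht s z - ht s z1| := by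
        conv_lhs => rw [h7]
        exact abs_add_le _ _
      have h9 : 0 ≤ a / 2 * |ht s z1 - u| := by positivity
      nlinarith [mul_le_mul_of_nonneg_left h8 (show 0 ≤ a / 2 by positivity)]
    refine le_trans ?_ hw'
    rw [le_div_iff₀ ha]
    linarith
  refine ⟨p, fun e he => ⟨(hp1 e he).1, ?_⟩, hp2⟩
  intro x hx
  exact key x (by
    induction e with
    | _ e1 e2 =>
      rcases Sym2.mem_iff.1 hx with rfl | rfl
      · exact SimpleGraph.Walk.fst_mem_support_of_mem_edges p he
      · exact SimpleGraph.Walk.snd_mem_support_of_mem_edges p he)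

end Crest.Agent.R151.X
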