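import Crest.Agent.R151.X684h

/-!
# R151, block X (helper684), part i: the renormalisation inequality
-/

set_option autoImplicit false

open MeasureTheory ProbabilityTheory Filter Topology
open Crest.ProbabilityR.FirstPassage
open Crest.Agent.R151.A (shift eShift block sig eX)
open Crest.Agent.R151.K (Nn)

namespace Crest.Agent.R151.X

variable {G : Measure ℝ} [IsProbabilityMeasure G] {s α β a : ℝ}

/-- good crossings of length `n` at energy `v`, uniformly in the base height -/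
def Sgd (G : Measure ℝ) (s α β B v : ℝ) (n : ℕ) : Prop :=
  ∀ u, 9 / 10 ≤ (iidLaw G).real (Apt s α β u (B * v) v n)

lemma real_compl_le_of {E F1 : Set Environment} {p : ℝ} (hE : (iidLaw G).real E ≤ p)
    (hsub : F1 ⊆ E) : (iidLaw G).real F1 ≤ p :=
  (measureReal_mono hsub (measure_ne_top _ _)).trans hE

/-- if `E` has probability at least `p` and is covered by `F` and bad events -/
lemma le_real_of_cover {E F1 : Set Environment} {p q : ℝ} (Bd : Set Environment)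
    (hE : p ≤ (iidLaw G).real E) (hB : (iidLaw G).real Bd ≤ q) (hsub : E ⊆ F1 ∪ Bd) :
    p - q ≤ (iidLaw G).real F1 := by
  have h1 := (measureReal_mono (μ := iidLaw G) hsub (measure_ne_top _ _)).trans
    (measureReal_union_le _ _)
  linarith

/-- good blocks give good point-to-point crossings -/
lemma prob_Apt_of_Blk (H : Inputs G s α β a) {u w L C v : ℝ} {n : ℕ} (hn : 1 ≤ n)
    (hL : 2 * L ≤ w)
    (hB : 1 - 1 / 100 ≤ (iidLaw G).real (Blk s α β u w L v 0 n))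
    (h1 : (iidLaw G).real (ConnL s u L C n)ᶜ ≤ 1 / 100)
    (h2 : (iidLaw G).real (ConnR s u L C n)ᶜ ≤ 1 / 100) :
    97 / 100 ≤ (iidLaw G).real (Apt s α β u w (v + 2 * (C * L + |β| * (L + 1))) n) := by
  have h3 : (iidLaw G).real (((ConnL s u L C n)ᶜ ∪ (ConnR s u L C n)ᶜ) ∪ {t | ¬ Nn t}) ≤
      2 / 100 := by
    refine (measureReal_union_le _ _).trans ?_
    rw [real_not_Nn G H.nn]
    have := measureReal_union_le (μ := iidLaw G) (ConnL s u L C n)ᶜ (ConnR s u L C n)ᶜ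
    linarith
  have h4 := le_real_of_cover (F1 := Apt s α β u w (v + 2 * (C * L + |β| * (L + 1))) n) _ hB h3
    (by
      intro t ht
      by_cases hN : Nn t
      swap
      · exact Or.inr (Or.inr hN)
      by_cases hc1 : t ∈ ConnL s u L C n
      swap
      · exact Or.inr (Or.inl (Or.inl hc1))
      by_cases hc2 : t ∈ ConnR s u L C n
      swap
      · exact Or.inr (Or.inl (Or.inr hc2))
      exact Or.inl (Apt_of_Blk hn hN hL ht hc1 hc2))
  linarith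

/-- good crossings of length `m` give good crossings of smaller lengths -/
lemma prob_sub (H : Inputs G s α β a) {u w L C v δ : ℝ} {k m N : ℕ} (hk : 1 ≤ k) (hkm : k < m)
    (hkN : k ≤ N) (hA : 97 / 100 ≤ (iidLaw G).real (Apt s α β u w v m))
    (hHW : ∀ n : ℕ, 1 ≤ n → ∀ u, (iidLaw G).real (HWbad s α β a u w δ 0 n) ≤ 1 / 100)
    (hcol : (iidLaw G).real (ColOK s β (a / 2) u w δ N)ᶜ ≤ 1 / 100)
    (hL : (v + 3 * δ + a) / a ≤ L) (hLw : 2 * L ≤ w)
    (h2 : (iidLaw G).real (ConnR s u L C k)ᶜ ≤ 1 / 100) :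
    1 / 2 ≤ (iidLaw G).real (Apt s α β u w (v + 2 * δ + C * L + |β| * (L + 1)) k) := by
  have h3 : (iidLaw G).real ((((HWbad s α β a u w δ 0 k) ∪ (HWbad s α β a u w δ k m)) ∪
      ((ColOK s β (a / 2) u w δ N)ᶜ ∪ (ConnR s u L C k)ᶜ)) ∪ {t | ¬ Nn t}) ≤ 4 / 100 := by
    refine (measureReal_union_le _ _).trans ?_
    rw [real_not_Nn G H.nn]
    have i1 := measureReal_union_le (μ := iidLaw G)
      ((HWbad s α β a u w δ 0 k) ∪ (HWbad s α β a u w δ k m))
      ((ColOK s β (a / 2) u w δ N)ᶜ ∪ (ConnR s u L C k)ᶜ)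
    have i2 := measureReal_union_le (μ := iidLaw G) (HWbad s α β a u w δ 0 k)
      (HWbad s α β a u w δ k m)
    have i3 := measureReal_union_le (μ := iidLaw G) (ColOK s β (a / 2) u w δ N)ᶜ
      (ConnR s u L C k)ᶜ
    have i4 := hHW k hk u
    have i5 := prob_HWbad_le G (n := m - k) (hHW (m - k) (by omega)) u (k : ℤ) (m : ℤ)
      (by omega)
    linarith
  have h4 := le_real_of_cover
    (F1 := Apt s α β u w (v + 2 * δ + C * L + |β| * (L + 1)) k) _ hA h3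
    (by
      intro t ht
      by_cases hN : Nn t
      swap
      · exact Or.inr (Or.inr hN)
      by_cases hc1 : t ∈ HWbad s α β a u w δ 0 k
      · exact Or.inr (Or.inl (Or.inl (Or.inl hc1)))
      by_cases hc2 : t ∈ HWbad s α β a u w δ k m
      · exact Or.inr (Or.inl (Or.inl (Or.inr hc2)))
      by_cases hc3 : t ∈ ColOK s β (a / 2) u w δ N
      swap
      · exact Or.inr (Or.inl (Or.inr (Or.inl hc3)))
      by_cases hc4 : t ∈ ConnR s u L C k
      swap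
      · exact Or.inr (Or.inl (Or.inr (Or.inr hc4)))
      exact Or.inl (sub_det hN H.a_pos hk hkm hkN ht hc1 hc2 hc3 hL hLw hc4))
  linarith

/-- confinement, probabilistic form -/
lemma prob_confine (H : Inputs G s α β a) {u w w' v v6 δ D : ℝ} {m N : ℕ} (hm : 1 ≤ m)
    (hmN : m ≤ N) (hw : 1 ≤ w) (hδ : 0 ≤ δ) (hv6 : 0 ≤ v6)
    (hA : 97 / 100 ≤ (iidLaw G).real (Apt s α β u w v m))
    (hA6 : ∀ n ≤ m, 1 / 2 ≤ (iidLaw G).real (Apt s α β 0 w v6 n))
    (hHW : (iidLaw G).real (HWbad s α β a u (2 * w + 1) δ 0 m) ≤ 1 / 100)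
    (hcol : (iidLaw G).real (ColOK s β (a / 2) u w δ N)ᶜ ≤ 1 / 100)
    (hD : v6 + δ + 2 * a ≤ D) (hw' : 2 * (v + 2 * D + 2 * δ) / a ≤ w') :
    9 / 10 ≤ (iidLaw G).real (Apt s α β u w' v m) := by
  have ha := H.a_pos
  have j1 := prob_badL_le G ha hw hA6 hHW hD
  have j2 := prob_badR_le G ha hw hA6 hHW hD
  have h3 : (iidLaw G).real ((({t | ∃ k : ℕ, 1 ≤ k ∧ k ≤ m ∧ ∃ z : ℤ,
      t ∈ BadLk s α β a u w D k z} ∪
      {t | ∃ k : ℕ, k < m ∧ ∃ z : ℤ, t ∈ BadRk s α β a u w D m k z}) ∪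
      (ColOK s β (a / 2) u w δ N)ᶜ) ∪ {t | ¬ Nn t}) ≤ 5 / 100 := by
    refine (measureReal_union_le _ _).trans ?_
    rw [real_not_Nn G H.nn]
    have i1 := measureReal_union_le (μ := iidLaw G) ({t | ∃ k : ℕ, 1 ≤ k ∧ k ≤ m ∧ ∃ z : ℤ,
      t ∈ BadLk s α β a u w D k z} ∪
      {t | ∃ k : ℕ, k < m ∧ ∃ z : ℤ, t ∈ BadRk s α β a u w D m k z})
      (ColOK s β (a / 2) u w δ N)ᶜ
    have i2 := measureReal_union_le (μ := iidLaw G) {t | ∃ k : ℕ, 1 ≤ k ∧ k ≤ m ∧ ∃ z : ℤ,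
      t ∈ BadLk s α β a u w D k z} {t | ∃ k : ℕ, k < m ∧ ∃ z : ℤ, t ∈ BadRk s α β a u w D m k z}
    linarith
  have h4 := le_real_of_cover (F1 := Apt s α β u w' v m) _ hA h3
    (by
      intro t ht
      by_cases hN : Nn t
      swap
      · exact Or.inr (Or.inr hN)
      by_cases hc1 : ∃ k : ℕ, 1 ≤ k ∧ k ≤ m ∧ ∃ z : ℤ, t ∈ BadLk s α β a u w D k z
      · exact Or.inr (Or.inl (Or.inl (Or.inl hc1)))
      by_cases hc2 : ∃ k : ℕ, k < m ∧ ∃ z : ℤ, t ∈ BadRk s α β a u w D m k z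
      · exact Or.inr (Or.inl (Or.inl (Or.inr hc2)))
      by_cases hc3 : t ∈ ColOK s β (a / 2) u w δ N
      swap
      · exact Or.inr (Or.inl (Or.inr hc3))
      exact Or.inl (confine_det hN ha hm hmN hw hδ (by linarith) ht hc1 hc2 hc3 hw'))
  linarith

/-- one renormalisation step with all constants made explicit as hypotheses -/
lemma renorm_step (H : Inputs G s α β a) {ν c3 C l1 l2 v5 v6 D w' W w4 δ Λ e l : ℝ}
    {M m K0 N : ℕ} {B K' : ℝ}
    (hM : 1 ≤ M) (hm : 1 ≤ m) (he : 1 ≤ e) (hν : 0 < ν) (hB : 1 ≤ B)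
    (hW : W = B * (M * e)) (hW1 : 1 ≤ W) (hw4 : w4 = 3 * W + 1) (hδ : δ = e / 100)
    (hΛ : Λ = c3 * e) (hc3 : 3 / ν * (2 + 3 / a) ≤ c3) (hΛW : Λ ≤ W)
    (hl1 : 2 * Λ + 1 ≤ l1) (hl1w : 2 * l1 ≤ w4)
    (hv5 : Λ + 2 * (C * l1 + |β| * (l1 + 1)) ≤ v5)
    (hl2 : (v5 + 3 * δ + a) / a ≤ l2) (hl2w : 2 * l2 ≤ w4)
    (hv6 : v5 + 2 * δ + C * l2 + |β| * (l2 + 1) ≤ v6) (hv56 : v5 ≤ v6) (hv60 : 0 ≤ v6)
    (hD : v6 + δ + 2 * a ≤ D) (hw' : 2 * (v5 + 2 * D + 2 * δ) / a ≤ w')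
    (hl : 0 < l)
    (hnu : Real.exp (l * (ν * M)) * ((1 + Real.exp (-l)) / (1 - Real.exp (-l))) ^ M *
        (Real.exp (ν * M) * (1 - (1 - Real.exp (-1)) * (1 / 100)) ^ M) ≤ 1 / 4)
    (hN : N = M * m)
    (hHW : ∀ b, W ≤ b → b ≤ 9 * W → ∀ n : ℕ, 1 ≤ n → ∀ u,
      (iidLaw G).real (HWbad s α β a u b δ 0 n) ≤ min (1 / (20 * (M : ℝ))) (1 / 100))
    (hcol : ∀ u, (iidLaw G).real (ColOK s β (a / 2) u w4 δ N)ᶜ ≤ 1 / 100)
    (hconn1 : ∀ n : ℕ, K0 ≤ n → 1 ≤ n → ∀ u, (iidLaw G).real (ConnL s u l1 C n)ᶜ ≤ 1 / 100 ∧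
      (iidLaw G).real (ConnR s u l1 C n)ᶜ ≤ 1 / 100)
    (hconn2 : ∀ n : ℕ, K0 ≤ n → 1 ≤ n → ∀ u, (iidLaw G).real (ConnR s u l2 C n)ᶜ ≤ 1 / 100)
    (hshort : ∀ n : ℕ, 1 ≤ n → n ≤ K0 → ∀ u, 1 - 1 / 10 ≤ (iidLaw G).real (Apt s α β u K' K' n))
    (hK'1 : K' ≤ w4) (hK'2 : K' ≤ v6)
    (hmK0 : K0 ≤ m)
    (hlong : ∀ u, 9 / 10 ≤ (iidLaw G).real (Apt s α β u (B * (M * e)) (M * e) (M * m))) :
    ∀ u, 9 / 10 ≤ (iidLaw G).real (Apt s α β u w' v5 m) := by
  have ha := H.a_pos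
  have hM0 : (1 : ℝ) ≤ M := by exact_mod_cast hM
  have hδ0 : 0 ≤ δ := by rw [hδ]; positivity
  have hmN : m ≤ N := by rw [hN]; exact Nat.le_mul_of_pos_left _ hM
  have hw41 : 1 ≤ w4 := by linarith
  have hWw4 : W ≤ w4 := by linarith
  have hw49 : w4 ≤ 9 * W := by linarith
  have h2w49 : 2 * w4 + 1 ≤ 9 * W := by linarith
  have hHW100 : ∀ b, W ≤ b → b ≤ 9 * W → ∀ n : ℕ, 1 ≤ n → ∀ u,
      (iidLaw G).real (HWbad s α β a u b δ 0 n) ≤ 1 / 100 :=
    fun b h1 h2 n h3 u => (hHW b h1 h2 n h3 u).trans (min_le_right _ _)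
  -- (1) a good block at some height
  have hblk : ∃ u', 1 - 1 / 100 ≤ (iidLaw G).real (Blk s α β u' (3 * W) (2 * Λ) Λ 0 m) := by
    refine exists_good_block G H.nn (u := 0) (W := W) (e := e) (δ := δ) (ν := ν) (v := M * e)
      (l := l) (M := M) ha hm hM he hW1 hδ le_rfl hΛW hν ?_ (by norm_num) hl hnu ?_ ?_ ?_
    · rw [hΛ]; exact mul_le_mul_of_nonneg_right hc3 (by linarith)
    · rw [hW]; exact hlong 0
    · intro u
      exact (hHW W le_rfl (by linarith) m hm u).trans (min_le_left _ _)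
    · rw [← hN]
      refine (measureReal_mono ?_ (measure_ne_top _ _)).trans ((hcol 0).trans (by norm_num))
      exact Set.compl_subset_compl.2 (ColOK_anti hWw4 le_rfl le_rfl)
  obtain ⟨u', hu'⟩ := hblk
  have hblk_all : ∀ u, 1 - 1 / 100 ≤ (iidLaw G).real (Blk s α β u w4 l1 Λ 0 m) := by
    intro u
    refine (Blk_all G hu' u).trans (measureReal_mono ?_ (measure_ne_top _ _))
    exact Blk_mono (by rw [hw4]) hl1 le_rfl
  -- (2) point-to-point crossings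
  have hA5 : ∀ u, 97 / 100 ≤ (iidLaw G).real (Apt s α β u w4 v5 m) := by
    intro u
    refine (prob_Apt_of_Blk H hm hl1w (hblk_all u) (hconn1 m hmK0 hm u).1
      (hconn1 m hmK0 hm u).2).trans (measureReal_mono ?_ (measure_ne_top _ _))
    exact Apt_mono le_rfl hv5
  -- (3) all smaller lengths
  have hA6 : ∀ n ≤ m, 1 / 2 ≤ (iidLaw G).real (Apt s α β 0 w4 v6 n) := by
    intro n hn
    rcases Nat.eq_zero_or_pos n with hn0 | hn0
    · subst hn0
      have : Apt s α β 0 w4 v6 0 = Set.univ := by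
        ext t
        simp only [Set.mem_univ, iff_true]
        show CrE _ _ _ _ _ _ _
        have h1 : (((0 : ℕ) : ℤ), ⌊(0 : ℝ) + s * ((0 : ℕ) : ℝ)⌋) = ((0 : ℤ), ⌊(0 : ℝ)⌋) := by
          simp
        rw [h1]
        exact Cr.refl _ (by simpa using hv60) t
      rw [this, probReal_univ]
      norm_num
    · rcases le_or_gt n K0 with h1 | h1
      · have h2 := hshort n hn0 h1 0
        have h3 := h2.trans (measureReal_mono (Apt_mono (n := n) (s := s) (α := α) (β := β)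
          (u := 0) hK'1 hK'2) (measure_ne_top _ _))
        linarith
      · rcases hn.eq_or_lt with h2 | h2
        · subst h2
          have h3 := (hA5 0).trans (measureReal_mono (Apt_mono (s := s) (α := α) (β := β)
            (u := 0) (n := n) le_rfl hv56) (measure_ne_top _ _))
          linarith
        · have h3 := prob_sub H (u := 0) (C := C) hn0 h2 (h2.le.trans hmN) (hA5 0)
            (hHW100 w4 hWw4 hw49) (hcol 0) hl2 hl2w (hconn2 n h1.le hn0 0)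
          refine h3.trans (measureReal_mono (Apt_mono le_rfl hv6) (measure_ne_top _ _))
  -- (4) confinement
  intro u
  exact prob_confine H hm hmN hw41 hδ0 hv60 (hA5 u) hA6
    (hHW100 (2 * w4 + 1) (by linarith) h2w49 m hm u) (hcol u) hD hw'

end Crest.Agent.R151.X
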