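import Crest.Agent.R151.X684k
import Crest.Agent.R151.U750f

/-!
# R151, part 1 / NOCORNER (helper684), part l: the time constant is differentiable off the origin

`noCorner`, `differentiableAt_tc` (every law of S0213), `differentiableAt_gamma` (first half of
S0214) and `s0214_of_noFlat` (S0214 verbatim from NOFLAT).
-/

set_option autoImplicit false
set_option maxHeartbeats 400000

open MeasureTheory ProbabilityTheory Filter Topology
open Crest.ProbabilityR.FirstPassage
open Crest.Agent.R151.K Crest.Agent.R151.M51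

namespace Crest.Agent.R151.X

variable {G : Measure ℝ} [IsProbabilityMeasure G] {μ : ℝ × ℝ → ℝ}

theorem hub (G : Measure ℝ) [IsProbabilityMeasure G] (al be s a : ℝ)
    (H : U.Hyp G al be s a) : N.UB G s al be := U.ub H

/-- **NOCORNER**: the time constant of a law of S0213 has no corner -/
theorem noCorner [NullSingletonClass G] (hG : Law213 G) (hμ : IsTC1 G μ) (s p0 q0 a : ℝ) :
    ¬ N.Corner μ s p0 q0 a :=
  noCorner_of_ub hG hμ (hub G) s p0 q0 a

/-- **DIFF**: the time constant of a law of S0213 is differentiable off the origin -/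
theorem differentiableAt_tc [NullSingletonClass G] (hG : Law213 G) (hμ : IsTC1 G μ)
    (v : ℝ × ℝ) (hv : v ≠ 0) : DifferentiableAt ℝ μ v :=
  differentiable_of_ub hG hμ (hub G) v hv

/-- the first half of S0214 -/
theorem differentiableAt_gamma {κ r : ℝ} (hκ : 0 < κ) (hr : 0 < r)
    (hμ : B710.IsTimeConstant κ r μ) (v : ℝ × ℝ) (hv : v ≠ 0) : DifferentiableAt ℝ μ v :=
  differentiable_gamma_of_ub hκ hr hμ (fun G _ => hub G) v hv

/-- S0214 from NOFLAT -/
theorem s0214_of_noFlat
    (hnf : ∀ μ : ℝ × ℝ → ℝ, B710.IsTimeConstant 1 1 μ → B710.NormLike μ → B710.FlatData μ → False)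
    (κ r : ℝ) (hκ : 0 < κ) (hr : 0 < r) (μ : ℝ × ℝ → ℝ)
    (hμ : ∀ v : ℝ × ℝ, ∀ᵐ t ∂(iidLaw (ProbabilityTheory.gammaMeasure κ r)),
      Filter.Tendsto (fun s : ℝ => passageTime t (0, 0) (⌊s * v.1⌋, ⌊s * v.2⌋) / s)
        Filter.atTop (nhds (μ v))) :
    (∀ v : ℝ × ℝ, v ≠ 0 → DifferentiableAt ℝ μ v) ∧
      (κ = 1 → StrictConvex ℝ {v : ℝ × ℝ | μ v ≤ 1}) :=
  s0214_of (fun G _ => hub G) hnf κ r hκ hr μ hμ

end Crest.Agent.R151.X
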