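import Mathlib

/-!
# R151, block G (helper96): mass transport on `ℤ` and the vanishing of conserved masses

`mtp` : the mass transport principle for a measure preserving action of `ℤ`.
`mass_vanish` : masses which are transported to points carrying more and more mass, with a law
which does not depend on the level, vanish.
-/

set_option autoImplicit false

open MeasureTheory Filter Topology
open scoped ENNReal

namespace Crest.Agent.R151.Y96

variable {Ω : Type*} [MeasurableSpace Ω] {P : Measure Ω}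

/-- Mass transport principle. -/
theorem mtp (τ : ℤ → Ω → Ω) (mp : ∀ a, MeasurePreserving (τ a) P P)
    (m : Ω → ℤ → ℤ → ℝ≥0∞) (hm : ∀ x y, Measurable fun ω => m ω x y)
    (hcov : ∀ a ω x y, m (τ a ω) x y = m ω (x + a) (y + a)) :
    ∫⁻ ω, ∑' y, m ω 0 y ∂P = ∫⁻ ω, ∑' y, m ω y 0 ∂P := by
  rw [lintegral_tsum fun y => (hm 0 y).aemeasurable,
    lintegral_tsum fun y => (hm y 0).aemeasurable]
  rw [← (Equiv.neg ℤ).tsum_eq fun y => ∫⁻ ω, m ω 0 y ∂P]
  refine tsum_congr fun y => ?_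
  have h : ∀ ω, m ω 0 (-y) = m (τ (-y) ω) y 0 := by
    intro ω
    rw [hcov]
    simp
  simp only [Equiv.neg_apply]
  rw [lintegral_congr h]
  exact (mp (-y)).lintegral_comp (hm y 0)

/-- The integral of a function over the set where it is large tends to zero. -/
theorem tendsto_tail {f : Ω → ℝ≥0∞} (hf : Measurable f) (hfin : ∫⁻ ω, f ω ∂P ≠ ∞) :
    Tendsto (fun A : ℕ => ∫⁻ ω in {ω | (A : ℝ≥0∞) ≤ f ω}, f ω ∂P) atTop (𝓝 0) := by
  have h1 : ∀ A : ℕ, ∫⁻ ω in {ω | (A : ℝ≥0∞) ≤ f ω}, f ω ∂P =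
      ∫⁻ ω, {ω | (A : ℝ≥0∞) ≤ f ω}.indicator f ω ∂P := fun A =>
    (lintegral_indicator (measurableSet_le measurable_const hf) _).symm
  simp only [h1]
  have hlim : Tendsto (fun A : ℕ => ∫⁻ ω, {ω | (A : ℝ≥0∞) ≤ f ω}.indicator f ω ∂P) atTop
      (𝓝 (∫⁻ _, 0 ∂P)) := by
    refine tendsto_lintegral_of_dominated_convergence f
      (fun A => hf.indicator (measurableSet_le measurable_const hf))
      (fun A => Eventually.of_forall fun ω => ?_) hfin ?_
    · exact Set.indicator_le_self' (fun _ _ => zero_le) ω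
    · filter_upwards [ae_lt_top hf hfin] with ω hω
      obtain ⟨n, hn⟩ := ENNReal.exists_nat_gt hω.ne
      refine tendsto_const_nhds.congr' ?_
      filter_upwards [eventually_ge_atTop n] with A hA
      rw [Set.indicator_of_notMem]
      simp only [Set.mem_ofPred_eq, not_le]
      exact hn.trans_le (by exact_mod_cast hA)
  simpa using hlim

theorem mass_vanish [IsFiniteMeasure P] (τ : ℤ → Ω → Ω)
    (mp : ∀ a, MeasurePreserving (τ a) P P)
    (M : Ω → ℤ → ℝ≥0∞) (hM : ∀ x, Measurable fun ω => M ω x)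
    (hMc : ∀ a ω x, M (τ a ω) x = M ω (x + a))
    (π : ℕ → Ω → ℤ → ℤ) (hπ : ∀ n x, Measurable fun ω => π n ω x)
    (hπc : ∀ n a ω x, π n (τ a ω) x = π n ω (x + a) - a)
    (ok : ℕ → Ω → ℤ → Prop) (hok : ∀ n x, MeasurableSet {ω | ok n ω x})
    (hokc : ∀ n a ω x, ok n (τ a ω) x ↔ ok n ω (x + a))
    (MM : ℕ → Ω → ℤ → ℝ≥0∞) (hMM : ∀ n z, Measurable fun ω => MM n ω z)
    (hMMc : ∀ n a ω z, MM n (τ a ω) z = MM n ω (z + a))
    (hlaw : ∀ n, P.map (fun ω => MM n ω 0) = P.map (fun ω => MM 0 ω 0))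
    (hfin : ∫⁻ ω, MM 0 ω 0 ∂P ≠ ∞)
    (h2 : ∀ᵐ ω ∂P, ∀ n, ∑' x, (open Classical in if ok n ω x ∧ π n ω x = 0 then M ω x else 0)
      ≤ MM n ω 0)
    (h3 : ∀ᵐ ω ∂P, M ω 0 ≠ 0 → ∀ A : ℕ, ∀ᶠ n in atTop, ok n ω 0 ∧
      (A : ℝ≥0∞) ≤ MM n ω (π n ω 0)) :
    ∀ᵐ ω ∂P, ∀ x, M ω x = 0 := by
  classical
  -- the tails
  set δ : ℕ → ℝ≥0∞ := fun A => ∫⁻ ω in {ω | (A : ℝ≥0∞) ≤ MM 0 ω 0}, MM 0 ω 0 ∂P with hδ
  have hδ0 : Tendsto δ atTop (𝓝 0) := tendsto_tail (hMM 0 0) hfin
  -- the tail at level n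
  have hδn : ∀ n (A : ℕ), ∫⁻ ω in {ω | (A : ℝ≥0∞) ≤ MM n ω 0}, MM n ω 0 ∂P = δ A := by
    intro n A
    have key : ∀ n, ∫⁻ ω in {ω | (A : ℝ≥0∞) ≤ MM n ω 0}, MM n ω 0 ∂P =
        ∫⁻ x in {x | (A : ℝ≥0∞) ≤ x}, x ∂(P.map fun ω => MM n ω 0) := by
      intro n
      exact (setLIntegral_map (s := {x : ℝ≥0∞ | (A : ℝ≥0∞) ≤ x}) (f := fun x => x)
        (measurableSet_le measurable_const measurable_id) measurable_id (hMM n 0)).symm
    rw [key, hlaw n, ← key]
  -- transport
  have htr : ∀ n (A : ℕ), ∫⁻ ω, (if ok n ω 0 ∧ (A : ℝ≥0∞) ≤ MM n ω (π n ω 0) then M ω 0 else 0) ∂P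
      ≤ δ A := by
    intro n A
    let m : Ω → ℤ → ℤ → ℝ≥0∞ := fun ω x z =>
      if (ok n ω x ∧ π n ω x = z) ∧ (A : ℝ≥0∞) ≤ MM n ω z then M ω x else 0
    have hmm : ∀ x z, Measurable fun ω => m ω x z := by
      intro x z
      refine Measurable.ite ?_ (hM x) measurable_const
      exact ((hok n x).inter (hπ n x (measurableSet_singleton z))).inter
        (measurableSet_le measurable_const (hMM n z))
    have hmc : ∀ a ω x z, m (τ a ω) x z = m ω (x + a) (z + a) := by
      intro a ω x z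
      simp only [m, hokc, hπc, hMMc, hMc]
      have : (π n ω (x + a) - a = z) ↔ (π n ω (x + a) = z + a) := by omega
      simp only [this]
    have h := mtp τ mp m hmm hmc
    have e1 : ∀ ω, ∑' z, m ω 0 z =
        (if ok n ω 0 ∧ (A : ℝ≥0∞) ≤ MM n ω (π n ω 0) then M ω 0 else 0) := by
      intro ω
      rw [tsum_eq_single (π n ω 0)]
      · simp [m]
      · intro z hz
        simp only [m]
        rw [if_neg]
        rintro ⟨⟨-, h⟩, -⟩
        exact hz h.symm
    rw [← lintegral_congr e1, h]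
    have e2 : ∀ᵐ ω ∂P, ∑' x, m ω x 0 ≤ {ω | (A : ℝ≥0∞) ≤ MM n ω 0}.indicator
        (fun ω => MM n ω 0) ω := by
      filter_upwards [h2] with ω hω
      by_cases hA : (A : ℝ≥0∞) ≤ MM n ω 0
      · rw [Set.indicator_of_mem (by exact hA)]
        refine le_trans (ENNReal.tsum_le_tsum fun x => ?_) (hω n)
        simp only [m, hA, and_true]
        exact le_rfl
      · simp [m, hA]
    refine (lintegral_mono_ae e2).trans ?_
    rw [lintegral_indicator (measurableSet_le measurable_const (hMM n 0)), hδn]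
  have hmeas' : ∀ (A : ℕ) n, MeasurableSet {ω | ok n ω 0 ∧ (A : ℝ≥0∞) ≤ MM n ω (π n ω 0)} := by
    intro A n
    have hq : Measurable fun ω => MM n ω (π n ω 0) := by
      have : Measurable fun p : Ω × ℤ => MM n p.1 p.2 :=
        measurable_from_prod_countable_left fun z => hMM n z
      exact this.comp (measurable_id.prodMk (hπ n 0))
    exact (hok n 0).inter (measurableSet_le measurable_const hq)
  -- the first term
  have hfirst : ∀ A : ℕ, Tendsto (fun n => ∫⁻ ω, (if ok n ω 0 ∧ (A : ℝ≥0∞) ≤ MM n ω (π n ω 0)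
      then 0 else min 1 (M ω 0)) ∂P) atTop (𝓝 0) := by
    intro A
    have hmeas := hmeas' A
    have hlim := tendsto_lintegral_of_dominated_convergence (μ := P)
      (F := fun n ω => if ok n ω 0 ∧ (A : ℝ≥0∞) ≤ MM n ω (π n ω 0)
        then 0 else min 1 (M ω 0)) (f := fun _ => 0) (fun _ => 1)
      (fun n => Measurable.ite (hmeas n) measurable_const (measurable_const.min (hM 0)))
      (fun n => Eventually.of_forall fun ω => ?_) ?_ ?_
    · simpa using hlim
    · dsimp only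
      split_ifs
      · exact zero_le
      · exact min_le_left _ _
    · simp
    · filter_upwards [h3] with ω hω
      by_cases h0 : M ω 0 = 0
      · simp [h0]
      · refine tendsto_const_nhds.congr' ?_
        filter_upwards [hω h0 A] with n hn
        rw [if_pos hn]
  have hle : ∀ A : ℕ, ∫⁻ ω, min 1 (M ω 0) ∂P ≤ δ A := by
    intro A
    have hsplit : ∀ n, ∫⁻ ω, min 1 (M ω 0) ∂P ≤
        (∫⁻ ω, (if ok n ω 0 ∧ (A : ℝ≥0∞) ≤ MM n ω (π n ω 0)
      then 0 else min 1 (M ω 0)) ∂P) + δ A := by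
      intro n
      refine le_trans ?_ (add_le_add le_rfl (htr n A))
      rw [← lintegral_add_left (Measurable.ite (hmeas' A n) measurable_const
        (measurable_const.min (hM 0)))]
      refine lintegral_mono fun ω => ?_
      dsimp only
      split_ifs
      · simp
      · simp
    have h := (hfirst A).add_const (δ A)
    rw [zero_add] at h
    exact ge_of_tendsto' h hsplit
  have hzero : ∫⁻ ω, min 1 (M ω 0) ∂P = 0 :=
    le_antisymm (ge_of_tendsto' hδ0 hle) zero_le
  rw [lintegral_eq_zero_iff (measurable_const.min (hM 0))] at hzero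
  have h0 : ∀ᵐ ω ∂P, M ω 0 = 0 := by
    filter_upwards [hzero] with ω hω
    simp only [Pi.zero_apply] at hω
    by_contra hne
    rcases min_choice (1 : ℝ≥0∞) (M ω 0) with h | h
    · rw [h] at hω; exact one_ne_zero hω
    · rw [h] at hω; exact hne hω
  rw [ae_all_iff]
  intro x
  have := (mp x).quasiMeasurePreserving.ae h0
  filter_upwards [this] with ω hω
  rw [hMc, zero_add] at hω
  exact hω

end Crest.Agent.R151.Y96
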