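import Crest.Agent.R151.Y96A

/-!
# R151, block G (helper96): recurrence along a covariant successor map

`mp_theta` : the environment seen from the successor of `0` has the same law (on the event that
`0` is a point of the process).
`frequently_iterate` : recurrence; `exists_sum_ge` : masses sum to infinity along orbits.
-/

set_option autoImplicit false

open MeasureTheory Filter Topology
open scoped ENNReal

namespace Crest.Agent.R151.Y96

variable {Ω : Type*} [MeasurableSpace Ω] {P : Measure Ω}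

section

variable (τ : ℤ → Ω → Ω)
  (X : Ω → ℤ → Prop) (succ : Ω → ℤ → ℤ)

/-- the environment seen from the successor of `0` -/
def theta (ω : Ω) : Ω := τ (succ ω 0) ω

variable {τ X succ}

theorem measurable_theta (mp : ∀ a, MeasurePreserving (τ a) P P)
    (hs : ∀ x, Measurable fun ω => succ ω x) : Measurable (theta τ succ) := by
  intro B hB
  have : theta τ succ ⁻¹' B = ⋃ y, ({ω | succ ω 0 = y} ∩ τ y ⁻¹' B) := by
    ext ω
    simp only [theta, Set.mem_preimage, Set.mem_iUnion, Set.mem_inter_iff, Set.mem_ofPred_eq]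
    constructor
    · intro h; exact ⟨_, rfl, h⟩
    · rintro ⟨y, rfl, h⟩; exact h
  rw [this]
  exact MeasurableSet.iUnion fun y =>
    (hs 0 (measurableSet_singleton y)).inter ((mp y).measurable hB)

theorem iterate_theta (τz : ∀ ω, τ 0 ω = ω) (τadd : ∀ a b ω, τ a (τ b ω) = τ (a + b) ω)
    (hsc : ∀ a ω x, succ (τ a ω) x = succ ω (x + a) - a) (ω : Ω) (n : ℕ) :
    (theta τ succ)^[n] ω = τ ((succ ω)^[n] 0) ω := by
  induction n with
  | zero => simp [τz]
  | succ n ih =>
    rw [Function.iterate_succ_apply', ih, Function.iterate_succ_apply', theta, hsc, τadd]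
    simp

theorem mp_theta [IsFiniteMeasure P] (mp : ∀ a, MeasurePreserving (τ a) P P)
    (τz : ∀ ω, τ 0 ω = ω) (τadd : ∀ a b ω, τ a (τ b ω) = τ (a + b) ω)
    (hX : ∀ x, MeasurableSet {ω | X ω x}) (hs : ∀ x, Measurable fun ω => succ ω x)
    (hXc : ∀ a ω x, X (τ a ω) x ↔ X ω (x + a))
    (hsc : ∀ a ω x, succ (τ a ω) x = succ ω (x + a) - a)
    (hmap : ∀ᵐ ω ∂P, ∀ x, X ω x → X ω (succ ω x))
    (hinj : ∀ᵐ ω ∂P, ∀ x y, X ω x → X ω y → succ ω x = succ ω y → x = y) :
    MeasurePreserving (theta τ succ) (P.restrict {ω | X ω 0}) (P.restrict {ω | X ω 0}) := by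
  classical
  refine ⟨measurable_theta mp hs, ?_⟩
  let N : Ω → ℝ≥0∞ := fun ω => ∑' x, if X ω x ∧ succ ω x = 0 then 1 else 0
  have hN : Measurable N := by
    refine Measurable.tsum fun x => ?_
    exact Measurable.ite ((hX x).inter (hs x (measurableSet_singleton 0)))
      measurable_const measurable_const
  -- the pushforward has density N
  have key : ∀ B, MeasurableSet B →
      P.restrict {ω | X ω 0} (theta τ succ ⁻¹' B) = ∫⁻ ω in B, N ω ∂P := by
    intro B hB
    have hB' : MeasurableSet (theta τ succ ⁻¹' B) := measurable_theta mp hs hB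
    rw [Measure.restrict_apply hB']
    let m : Ω → ℤ → ℤ → ℝ≥0∞ := fun ω x y =>
      if (X ω x ∧ succ ω x = y) ∧ τ y ω ∈ B then 1 else 0
    have hmm : ∀ x y, Measurable fun ω => m ω x y := fun x y =>
      Measurable.ite (((hX x).inter (hs x (measurableSet_singleton y))).inter
        ((mp y).measurable hB)) measurable_const measurable_const
    have hmc : ∀ a ω x y, m (τ a ω) x y = m ω (x + a) (y + a) := by
      intro a ω x y
      simp only [m, hXc, hsc, τadd]
      have : (succ ω (x + a) - a = y) ↔ (succ ω (x + a) = y + a) := by omega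
      simp only [this]
    have h := mtp τ mp m hmm hmc
    have e1 : ∫⁻ ω, ∑' y, m ω 0 y ∂P = P (theta τ succ ⁻¹' B ∩ {ω | X ω 0}) := by
      rw [← lintegral_indicator_one (hB'.inter (hX 0))]
      refine lintegral_congr fun ω => ?_
      rw [tsum_eq_single (succ ω 0)]
      · simp only [m, and_true, Set.indicator_apply, Set.mem_inter_iff, Set.mem_preimage, theta,
          Set.mem_ofPred_eq, Pi.one_apply]
        simp only [and_comm]
      · intro y hy
        simp only [m]
        rw [if_neg]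
        rintro ⟨⟨-, h⟩, -⟩
        exact hy h.symm
    have e2 : ∫⁻ ω, ∑' x, m ω x 0 ∂P = ∫⁻ ω in B, N ω ∂P := by
      rw [← lintegral_indicator hB]
      refine lintegral_congr fun ω => ?_
      by_cases hω : ω ∈ B
      · rw [Set.indicator_of_mem hω]
        simp [m, N, τz, hω]
      · rw [Set.indicator_of_notMem hω]
        simp [m, τz, hω]
    rw [← e1, h, e2]
  -- N is at most the indicator of X
  have hNle : ∀ᵐ ω ∂P, N ω ≤ {ω | X ω 0}.indicator 1 ω := by
    filter_upwards [hmap, hinj] with ω h1 h2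
    by_cases hex : ∃ x, X ω x ∧ succ ω x = 0
    · obtain ⟨x, hx, hx0⟩ := hex
      have h0 : X ω 0 := hx0 ▸ h1 x hx
      rw [Set.indicator_of_mem (by exact h0)]
      simp only [N]
      rw [tsum_eq_single x]
      · simp [hx, hx0]
      · intro y hy
        rw [if_neg]
        rintro ⟨hy1, hy2⟩
        exact hy (h2 y x hy1 hx (hy2.trans hx0.symm))
    · push Not at hex
      simp only [N]
      have : ∀ x, (if X ω x ∧ succ ω x = 0 then (1 : ℝ≥0∞) else 0) = 0 := by
        intro x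
        rw [if_neg]
        rintro ⟨h, h'⟩
        exact hex x h h'
      simp [this]
  have hNeq : N =ᵐ[P] {ω | X ω 0}.indicator 1 := by
    refine ae_eq_of_ae_le_of_lintegral_le hNle ?_ (measurable_one.indicator (hX 0)).aemeasurable ?_
    · have := key Set.univ MeasurableSet.univ
      rw [Measure.restrict_univ] at this
      rw [← this]
      exact measure_ne_top _ _
    · have := key Set.univ MeasurableSet.univ
      rw [Measure.restrict_univ, Set.preimage_univ, Measure.restrict_apply MeasurableSet.univ,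
        Set.univ_inter] at this
      rw [← this, lintegral_indicator_one (hX 0)]
  ext B hB
  rw [Measure.map_apply (measurable_theta mp hs) hB, key B hB,
    lintegral_congr_ae (ae_restrict_of_ae hNeq), Measure.restrict_apply hB,
    ← lintegral_indicator hB, ← lintegral_indicator_one (hB.inter (hX 0))]
  refine lintegral_congr fun ω => ?_
  simp only [Set.indicator_apply, Set.mem_inter_iff, Pi.one_apply]
  by_cases h1 : ω ∈ B <;> by_cases h2 : X ω 0 <;> simp [h1, h2]

/-- Recurrence along the orbits of the successor map. -/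
theorem frequently_iterate [IsFiniteMeasure P] (mp : ∀ a, MeasurePreserving (τ a) P P)
    (τz : ∀ ω, τ 0 ω = ω) (τadd : ∀ a b ω, τ a (τ b ω) = τ (a + b) ω)
    (hX : ∀ x, MeasurableSet {ω | X ω x}) (hs : ∀ x, Measurable fun ω => succ ω x)
    (hXc : ∀ a ω x, X (τ a ω) x ↔ X ω (x + a))
    (hsc : ∀ a ω x, succ (τ a ω) x = succ ω (x + a) - a)
    (hmap : ∀ᵐ ω ∂P, ∀ x, X ω x → X ω (succ ω x))
    (hinj : ∀ᵐ ω ∂P, ∀ x y, X ω x → X ω y → succ ω x = succ ω y → x = y)
    (S : Ω → ℤ → Prop) (hS : MeasurableSet {ω | S ω 0})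
    (hSc : ∀ a ω x, S (τ a ω) x ↔ S ω (x + a)) (hSX : ∀ ω x, S ω x → X ω x) :
    ∀ᵐ ω ∂P, ∀ x, S ω x → ∃ᶠ n : ℕ in atTop, S ω ((succ ω)^[n] x) := by
  have hc := (mp_theta mp τz τadd hX hs hXc hsc hmap hinj).conservative
  have h := hc.ae_mem_imp_frequently_image_mem (s := {ω | S ω 0}) hS.nullMeasurableSet
  rw [ae_restrict_iff' (hX 0)] at h
  have h0 : ∀ᵐ ω ∂P, S ω 0 → ∃ᶠ n : ℕ in atTop, S ω ((succ ω)^[n] 0) := by
    filter_upwards [h] with ω hω hS0
    have := hω (hSX ω 0 hS0) hS0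
    refine this.mono fun n hn => ?_
    rw [iterate_theta τz τadd hsc] at hn
    have := (hSc _ ω 0).1 hn
    rwa [zero_add] at this
  rw [ae_all_iff]
  intro x
  filter_upwards [(mp x).quasiMeasurePreserving.ae h0] with ω hω hSx
  have h1 : S (τ x ω) 0 := by rw [hSc, zero_add]; exact hSx
  have hit : ∀ n : ℕ, (succ (τ x ω))^[n] 0 = (succ ω)^[n] x - x := by
    intro n
    induction n with
    | zero => simp
    | succ n ih =>
      rw [Function.iterate_succ_apply', Function.iterate_succ_apply', ih, hsc]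
      simp
  refine (hω h1).mono fun n hn => ?_
  rw [hit, hSc] at hn
  simpa using hn

/-- Masses sum to infinity along the orbits of the successor map. -/
theorem exists_sum_ge [IsFiniteMeasure P] (mp : ∀ a, MeasurePreserving (τ a) P P)
    (τz : ∀ ω, τ 0 ω = ω) (τadd : ∀ a b ω, τ a (τ b ω) = τ (a + b) ω)
    (hX : ∀ x, MeasurableSet {ω | X ω x}) (hs : ∀ x, Measurable fun ω => succ ω x)
    (hXc : ∀ a ω x, X (τ a ω) x ↔ X ω (x + a))
    (hsc : ∀ a ω x, succ (τ a ω) x = succ ω (x + a) - a)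
    (hmap : ∀ᵐ ω ∂P, ∀ x, X ω x → X ω (succ ω x))
    (hinj : ∀ᵐ ω ∂P, ∀ x y, X ω x → X ω y → succ ω x = succ ω y → x = y)
    (M : Ω → ℤ → ℝ≥0∞) (hM : ∀ x, Measurable fun ω => M ω x)
    (hMc : ∀ a ω x, M (τ a ω) x = M ω (x + a)) (hMX : ∀ ω x, M ω x ≠ 0 → X ω x) :
    ∀ᵐ ω ∂P, ∀ x, M ω x ≠ 0 → ∀ A : ℕ, ∃ J : ℕ,
      (A : ℝ≥0∞) ≤ ∑ j ∈ Finset.range J, M ω ((succ ω)^[j] x) := by
  have h : ∀ k : ℕ, ∀ᵐ ω ∂P, ∀ x, ((k : ℝ≥0∞) + 1)⁻¹ ≤ M ω x →
      ∃ᶠ n : ℕ in atTop, ((k : ℝ≥0∞) + 1)⁻¹ ≤ M ω ((succ ω)^[n] x) := by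
    intro k
    have hpos : ((k : ℝ≥0∞) + 1)⁻¹ ≠ 0 := by simp
    refine frequently_iterate mp τz τadd hX hs hXc hsc hmap hinj
      (fun ω x => ((k : ℝ≥0∞) + 1)⁻¹ ≤ M ω x) (measurableSet_le measurable_const (hM 0)) ?_ ?_
    · intro a ω x
      rw [hMc]
    · intro ω x hx
      refine hMX ω x fun h0 => ?_
      rw [h0] at hx
      exact hpos (le_antisymm hx zero_le)
  rw [← ae_all_iff] at h
  filter_upwards [h] with ω hω x hx A
  obtain ⟨k, hk⟩ := ENNReal.exists_inv_nat_lt hx
  have hk' : ((k : ℝ≥0∞) + 1)⁻¹ ≤ M ω x := by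
    refine le_trans ?_ hk.le
    exact ENNReal.inv_le_inv.2 le_self_add
  have hfreq := hω k x hk'
  -- enough visits
  have hmany : ∀ m : ℕ, ∃ J : ℕ, (m : ℝ≥0∞) * ((k : ℝ≥0∞) + 1)⁻¹ ≤
      ∑ j ∈ Finset.range J, M ω ((succ ω)^[j] x) := by
    intro m
    induction m with
    | zero => exact ⟨0, by simp⟩
    | succ m ih =>
      obtain ⟨J, hJ⟩ := ih
      obtain ⟨n, hnJ, hn⟩ := (frequently_atTop.1 hfreq) J
      refine ⟨n + 1, ?_⟩
      rw [Finset.sum_range_succ]
      push_cast
      rw [add_mul, one_mul]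
      refine add_le_add (hJ.trans ?_) hn
      exact Finset.sum_le_sum_of_subset (Finset.range_mono hnJ)
  obtain ⟨J, hJ⟩ := hmany (A * (k + 1))
  refine ⟨J, le_trans (le_of_eq ?_) hJ⟩
  push_cast
  rw [mul_assoc, ENNReal.mul_inv_cancel (by simp) (by simp), mul_one]

end

end Crest.Agent.R151.Y96
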