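import Crest.Agent.R151.Y96D
import Crest.Agent.R151.H617f
import Crest.Agent.R151.K9e

/-!
# R151, block (Z) (helper96): the system of the upper functions of a covariant family

* `succU`: exactly measurable, exactly covariant successor function;
* `UpFacts F t`: the properties (o1)-(o7) of the upper functions of the family `F`;
* `same_incU`: a label and its successor have the same upper increments on the row `0`.
-/

set_option autoImplicit false

open MeasureTheory Filter Topology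
open scoped ENNReal

namespace Crest.Agent.R151.Y96

open Crest.ProbabilityR.FirstPassage
open Crest.Agent.R151 Crest.Agent.R151.SEL Crest.Agent.R151.Y
open Crest.Agent.R151.F592 (STO IsSucc LField)

section succU

/-- the unique successor (junk value `x`) -/
noncomputable def succU (A : Set ℤ) (lt : ℤ → ℤ → Prop) (x : ℤ) : ℤ := by
  classical exact if h : ∃! j, IsSucc A lt x j then h.choose else x

theorem succU_eq_iff (A : Set ℤ) (lt : ℤ → ℤ → Prop) (x y : ℤ) :
    succU A lt x = y ↔ (IsSucc A lt x y ∧ ∀ j, IsSucc A lt x j → j = y) ∨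
      (x = y ∧ ¬ ∃ j, IsSucc A lt x j ∧ ∀ j', IsSucc A lt x j' → j' = j) := by
  unfold succU
  by_cases h : ∃! j, IsSucc A lt x j
  · rw [dif_pos h]
    have h1 := h.choose_spec
    constructor
    · intro he
      left
      rw [← he]
      exact ⟨h1.1, fun j hj => h1.2 j hj⟩
    · rintro (⟨h2, h3⟩ | ⟨-, h2⟩)
      · exact h3 _ h1.1
      · exact absurd ⟨h.choose, h1.1, fun j' hj' => h1.2 j' hj'⟩ h2
  · rw [dif_neg h]
    constructor
    · intro he
      exact Or.inr ⟨he, h⟩
    · rintro (⟨h2, h3⟩ | ⟨h2, -⟩)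
      · exact absurd ⟨y, h2, h3⟩ h
      · exact h2

theorem succU_eq {A : Set ℤ} {lt : ℤ → ℤ → Prop} (h : STO A lt) {x j : ℤ}
    (hj : IsSucc A lt x j) : succU A lt x = j :=
  (succU_eq_iff A lt x j).2 (Or.inl ⟨hj, fun _ hj' => F592.IsSucc.uniq h hj' hj⟩)

variable {Ω : Type*} [MeasurableSpace Ω] {A : Ω → Set ℤ} {lt : Ω → ℤ → ℤ → Prop}

theorem measurableSet_isSucc (hA : ∀ x, MeasurableSet {ω | x ∈ A ω})
    (hlt : ∀ x y, MeasurableSet {ω | lt ω x y}) (x j : ℤ) :
    MeasurableSet {ω | IsSucc (A ω) (lt ω) x j} := by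
  have : {ω | IsSucc (A ω) (lt ω) x j} = {ω | x ∈ A ω} ∩ ({ω | j ∈ A ω} ∩ ({ω | lt ω x j} ∩
      ⋂ k : ℤ, ({ω | k ∈ A ω}ᶜ ∪ ({ω | lt ω x k} ∩ {ω | lt ω k j})ᶜ))) := by
    ext ω
    simp only [IsSucc, Set.mem_ofPred_eq, Set.mem_inter_iff, Set.mem_iInter, Set.mem_union,
      Set.mem_compl_iff]
    refine and_congr Iff.rfl (and_congr Iff.rfl (and_congr Iff.rfl (forall_congr' fun k => ?_)))
    exact imp_iff_not_or
  rw [this]
  exact (hA x).inter ((hA j).inter ((hlt x j).inter (MeasurableSet.iInter fun k =>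
    (hA k).compl.union ((hlt x k).inter (hlt k j)).compl)))

theorem measurable_succU (hA : ∀ x, MeasurableSet {ω | x ∈ A ω})
    (hlt : ∀ x y, MeasurableSet {ω | lt ω x y}) (x : ℤ) :
    Measurable fun ω => succU (A ω) (lt ω) x := by
  have hS := measurableSet_isSucc hA hlt
  refine measurable_to_countable' fun y => ?_
  have : (fun ω => succU (A ω) (lt ω) x) ⁻¹' {y} =
      ({ω | IsSucc (A ω) (lt ω) x y} ∩ ⋂ j : ℤ, ({ω | IsSucc (A ω) (lt ω) x j}ᶜ ∪ {_ω | j = y})) ∪
      ({_ω | x = y} ∩ (⋃ j : ℤ, ({ω | IsSucc (A ω) (lt ω) x j} ∩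
        ⋂ j' : ℤ, ({ω | IsSucc (A ω) (lt ω) x j'}ᶜ ∪ {_ω | j' = j})))ᶜ) := by
    ext ω
    simp only [Set.mem_preimage, Set.mem_singleton_iff, succU_eq_iff, Set.mem_union,
      Set.mem_inter_iff, Set.mem_iInter, Set.mem_compl_iff, Set.mem_iUnion, Set.mem_ofPred_eq,
      imp_iff_not_or]
  rw [this]
  refine MeasurableSet.union ((hS x y).inter (MeasurableSet.iInter fun j =>
    (hS x j).compl.union (MeasurableSet.const _))) ((MeasurableSet.const _).inter ?_)
  exact (MeasurableSet.iUnion fun j => (hS x j).inter (MeasurableSet.iInter fun j' =>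
    (hS x j').compl.union (MeasurableSet.const _))).compl

omit [MeasurableSpace Ω] in
theorem isSucc_shift {S : ℤ → Ω → Ω} (hcA : ∀ z ω x, x ∈ A (S z ω) ↔ x + z ∈ A ω)
    (hclt : ∀ z ω x y, lt (S z ω) x y ↔ lt ω (x + z) (y + z)) (z : ℤ) (ω : Ω) (x j : ℤ) :
    IsSucc (A (S z ω)) (lt (S z ω)) x j ↔ IsSucc (A ω) (lt ω) (x + z) (j + z) := by
  have hf : ∀ p : ℤ → Prop, (∀ k, p (k + z)) ↔ ∀ k, p k := fun p =>
    ⟨fun h k => by have := h (k - z); rwa [sub_add_cancel] at this, fun h k => h _⟩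
  unfold IsSucc
  simp only [hcA, hclt]
  rw [hf fun k => k ∈ A ω → ¬ (lt ω (x + z) k ∧ lt ω k (j + z))]

omit [MeasurableSpace Ω] in
theorem succU_shift {S : ℤ → Ω → Ω} (hcA : ∀ z ω x, x ∈ A (S z ω) ↔ x + z ∈ A ω)
    (hclt : ∀ z ω x y, lt (S z ω) x y ↔ lt ω (x + z) (y + z)) (z : ℤ) (ω : Ω) (x : ℤ) :
    succU (A (S z ω)) (lt (S z ω)) x = succU (A ω) (lt ω) (x + z) - z := by
  rw [succU_eq_iff]
  have h := (succU_eq_iff (A ω) (lt ω) (x + z) (succU (A ω) (lt ω) (x + z))).1 rfl
  simp only [isSucc_shift hcA hclt]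
  rcases h with ⟨h1, h2⟩ | ⟨h1, h2⟩
  · refine Or.inl ⟨by rwa [sub_add_cancel], fun j hj => ?_⟩
    have := h2 _ hj
    omega
  · refine Or.inr ⟨by omega, ?_⟩
    rintro ⟨j, hj, hj'⟩
    refine h2 ⟨j + z, hj, fun j' hj'' => ?_⟩
    have := hj' (j' - z) (by rwa [sub_add_cancel])
    omega

end succU

/-- The properties of the upper functions of the family `F` in the environment `t`. -/
structure UpFacts (F : BFam) (t : Environment) : Prop where
  /-- (o1) -/
  inc_le : ∀ k i e, F.pres i t → |incU t k (F.g i t) e| ≤ pt (reg (Up k)) t (e, k) (e + 1, k)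
  /-- (o2) -/
  slope_lt : ∀ k i j, F.pres i t → F.pres j t → F.sl i t < F.sl j t →
    ∀ e, incU t k (F.g j t) e ≤ incU t k (F.g i t) e
  /-- (o3) -/
  loc_lt : ∀ k i₀ j₀ e₀, F.pres i₀ t → F.pres j₀ t → F.sl i₀ t = F.sl j₀ t →
    incU t k (F.g i₀ t) e₀ ≠ incU t k (F.g j₀ t) e₀ → ∀ i j, F.pres i t → F.pres j t →
    F.sl i t = F.sl i₀ t → F.sl j t = F.sl i₀ t →
    (tailU k (F.g i t) 0).1 < (tailU k (F.g j t) 0).1 →
    ∀ e, incU t k (F.g j t) e ≤ incU t k (F.g i t) e
  /-- (o5) -/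
  osc : ∀ i j, F.pres i t → F.pres j t → F.sl i t = F.sl j t →
    (∀ e, incU t 0 (F.g j t) e ≤ incU t 0 (F.g i t) e) → ∀ n : ℕ,
    ∑' e, ENNReal.ofReal (incU t 0 (F.g i t) e - incU t 0 (F.g j t) e) ≤
      ∑' e, ENNReal.ofReal (incU t (-n) (F.g i t) e - incU t (-n) (F.g j t) e)
  /-- (o7) -/
  order : ∀ i j, F.pres i t → F.pres j t → F.sl i t = F.sl j t →
    (∀ e, incU t 0 (F.g j t) e ≤ incU t 0 (F.g i t) e) → ∀ (n : ℕ) e,
    incU t (-n) (F.g j t) e ≤ incU t (-n) (F.g i t) e
  /-- (o6) -/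
  coal : ∀ i₀ j₀ e₀, F.pres i₀ t → F.pres j₀ t → F.sl i₀ t = F.sl j₀ t →
    incU t 0 (F.g i₀ t) e₀ ≠ incU t 0 (F.g j₀ t) e₀ → ∀ i j, F.pres i t → F.pres j t →
    F.sl i t = F.sl i₀ t → F.sl j t = F.sl i₀ t →
    ∀ᶠ n : ℕ in atTop, (tailU (-n) (F.g i t) 0).1 = (tailU (-n) (F.g j t) 0).1

theorem lintegral_TT_ne_top {G : Measure ℝ} [IsProbabilityMeasure G] (hG : M51.Law213 G) :
    ∫⁻ t, ENNReal.ofReal (pt (reg (Up 0)) t (0, 0) (1, 0)) ∂(iidLaw G) ≠ ∞ := by
  have hUr : ({z : ℤ × ℤ | z.2 ∈ Set.Ici (0 : ℤ)} : Set (ℤ × ℤ)) = Up 0 := rfl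
  have rU := K.regMom_row hG (M51.thick_Ici 0) Set.ordConnected_Ici
  rw [hUr] at rU
  have h0 : ((0 : ℤ), (0 : ℤ)) ∈ Up 0 := by simp [Up]
  have h1 : ((1 : ℤ), (0 : ℤ)) ∈ Up 0 := by simp [Up]
  have hi := rU.int (0, 0) h0 (1, 0) h1
  have := hi.lintegral_lt_top
  simp only [pR_eq_pt h0] at this
  exact this.ne

section main

variable {G : Measure ℝ} [IsProbabilityMeasure G] (F : BFam)
  (lt : Environment → ℤ → ℤ → Prop)

/-- the label field on the row `0` -/
theorem lfield (hm : ∀ x y, MeasurableSet {t | lt t x y})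
    (hc : ∀ (z : ℤ) t x y, lt (A.shift (z, 0) t) x y ↔ lt t (x + z) (y + z))
    (hsto : ∀ᵐ t ∂(iidLaw G), STO (F.AX t) (lt t)) :
    LField (iidLaw G) (fun z => A.shift (z, 0)) F.AX lt where
  mp _ := A.mp_shift G _
  measA x := (F.measurableSet_AX x).nullMeasurableSet
  measlt x y := (hm x y).nullMeasurableSet
  covA z t x := F.AX_shift z t x
  covlt := hc
  sto := hsto

variable {F lt}

/-- **upper functions**: a label and its successor have the same increments -/
theorem same_incU (hG : M51.Law213 G) (hm : ∀ x y, MeasurableSet {t | lt t x y})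
    (hc : ∀ (z : ℤ) t x y, lt (A.shift (z, 0) t) x y ↔ lt t (x + z) (y + z))
    (hsto : ∀ᵐ t ∂(iidLaw G), STO (F.AX t) (lt t))
    (hup : ∀ᵐ t ∂(iidLaw G), UpFacts F t)
    (hlt : ∀ᵐ t ∂(iidLaw G), ∀ x ∈ F.AX t, ∀ y ∈ F.AX t, lt t x y →
      (∀ e, incU t 0 (F.g (y, 0) t) e ≤ incU t 0 (F.g (x, 0) t) e) ∧
        F.sl (x, 0) t ≤ F.sl (y, 0) t)
    {B : ℝ} (hB0 : 0 ≤ B) (hB : ∀ᵐ t ∂(iidLaw G), ∀ x ∈ F.AX t, |F.sl (x, 0) t| ≤ B)
    (hsucc : ∀ᵐ t ∂(iidLaw G), ∀ x ∈ F.AX t, ∃ j, IsSucc (F.AX t) (lt t) x j) :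
    ∀ᵐ t ∂(iidLaw G), ∀ x j, IsSucc (F.AX t) (lt t) x j → ∀ e,
      incU t 0 (F.g (j, 0) t) e = incU t 0 (F.g (x, 0) t) e := by
  have D := lfield (G := G) F lt hm hc hsto
  have hsl := D.ae_slope_eq (sl := fun t x => F.sl (x, 0) t)
    (fun x => (F.sl_meas _).aemeasurable)
    (fun z t x => by
      have := F.sl_add (x, 0) (z, 0) t
      simp only [Prod.mk_add_mk, add_zero] at this
      exact this.symm) hB0
    (by filter_upwards [hlt] with t ht x hx y hy h using (ht x hx y hy h).2) hB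
  have hAX : ∀ (t : Environment) (x : ℤ), x ∈ F.AX t ↔ F.pres (x, 0) t := fun _ _ => Iff.rfl
  let S : Sys Environment (iidLaw G) :=
    { τ := fun a => A.shift a
      τz := fun t => by simp
      τadd := fun a b t => by rw [A.shift_shift]
      mp := fun a => A.mp_shift G a
      pres := fun t i => F.pres i t
      slope := fun t i => F.sl i t
      loc := fun k t i => (tailU k (F.g i t) 0).1
      inc := fun k t i e => incU t k (F.g i t) e
      TT := fun k t e => pt (reg (Up k)) t (e, k) (e + 1, k)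
      succ := fun t x => succU (F.AX t) (lt t) x
      pres_meas := F.pres_meas
      slope_meas := F.sl_meas
      loc_meas := fun k i => measurable_fst.comp (measurable_tailU (F.g_meas i) k 0)
      inc_meas := fun k i e => F.measurable_incU k i e
      TT_meas := fun k e => measurable_pt' _ _ _
      succ_meas := fun x => measurable_succU F.measurableSet_AX hm x
      pres_cov := fun a t i => (F.pres_add i a t).symm
      slope_cov := fun a t i => (F.sl_add i a t).symm
      loc_cov := fun a k t i => by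
        rw [F.g_add' i a t, tailU_add]
        simp
      inc_cov := fun a k t i e => F.incU_add a t k i e
      TT_cov := fun a k t e => by
        have h1 := pt_shift a t (adj_Up_add k a) (e, k) (e + 1, k)
        have h2 : ((e + 1, k) : ℤ × ℤ) + a = (e + a.1 + 1, k + a.2) := by
          ext
          · simp only [Prod.fst_add]
            ring
          · rfl
        rw [h2] at h1
        exact h1
      succ_cov := fun z t x => succU_shift (S := fun z => A.shift (z, 0)) F.AX_shift hc z t x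
      TT_fin := by
        have := lintegral_TT_ne_top hG
        simpa using this
      inc_le := by filter_upwards [hup] with t ht k i e hi using ht.inc_le k i e hi
      slope_lt := by filter_upwards [hup] with t ht using ht.slope_lt
      loc_lt := by filter_upwards [hup] with t ht using ht.loc_lt
      osc := by filter_upwards [hup] with t ht using ht.osc
      order := by filter_upwards [hup] with t ht using ht.order
      coal := by filter_upwards [hup] with t ht using ht.coal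
      succ_pres := by
        filter_upwards [hsto, hsucc] with t h1 h2 x hx
        obtain ⟨j, hj⟩ := h2 x hx
        rw [succU_eq h1 hj]
        exact hj.2.1
      succ_inj := by
        filter_upwards [hsto, hsucc] with t h1 h2 x y hx hy hxy
        obtain ⟨j, hj⟩ := h2 x hx
        obtain ⟨l, hl⟩ := h2 y hy
        rw [succU_eq h1 hj, succU_eq h1 hl] at hxy
        subst hxy
        exact F592.IsSucc.inj h1 hj hl
      succ_slope := by
        filter_upwards [hsto, hsucc, hsl] with t h1 h2 h3 x hx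
        obtain ⟨j, hj⟩ := h2 x hx
        rw [succU_eq h1 hj]
        exact h3 x j hj
      succ_le := by
        filter_upwards [hsto, hsucc, hlt] with t h1 h2 h3 x hx
        obtain ⟨j, hj⟩ := h2 x hx
        rw [succU_eq h1 hj]
        exact (h3 x hx j hj.2.1 hj.2.2.1).1
      succ_next := by
        filter_upwards [hsto, hsucc, hlt] with t h1 h2 h3 x y hx hy hxy _
        obtain ⟨j, hj⟩ := h2 x hx
        obtain ⟨l, hl⟩ := h2 y hy
        rw [succU_eq h1 hj, succU_eq h1 hl]
        have key : ∀ {x y j : ℤ}, x ∈ F.AX t → y ∈ F.AX t → lt t x y →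
            IsSucc (F.AX t) (lt t) x j →
            ∀ e, incU t 0 (F.g (y, 0) t) e ≤ incU t 0 (F.g (j, 0) t) e := by
          intro x y j hx hy hlxy hj e
          by_cases hjy : j = y
          · rw [hjy]
          · rcases h1.tri j hj.2.1 y hy hjy with h | h
            · exact (h3 j hj.2.1 y hy h).1 e
            · exact absurd ⟨hlxy, h⟩ (hj.2.2.2 y hy)
        rcases h1.tri x hx y hy hxy with h | h
        · exact Or.inl (key hx hy h hj)
        · exact Or.inr (key hy hx h hl) }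
  filter_upwards [S.same_inc, hsto] with t h1 h2 x j hj e
  have := h1 x hj.1 e
  simp only [S] at this
  rwa [succU_eq h2 hj] at this

end main

end Crest.Agent.R151.Y96
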