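import Crest.Agent.R151.Y96F
import Crest.Agent.R151.Y635I
import Crest.Agent.R151.F592f
import Crest.Agent.R151.E39d

/-!
# R151, block (Z) (helper96): end of the proof for one covariant family

* `upFacts_of`, `upFacts_mirror` : the properties (o1)-(o7) from `Facts`;
* `gp_eq_of_inc` : equal increments on the rows `0`, `-1` give equal gaps;
* `measure_zero_of_fam` : a covariant family of bigeodesics of the class is almost surely empty.
-/

set_option autoImplicit false

open MeasureTheory Filter Topology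
open scoped ENNReal

namespace Crest.Agent.R151.Y96

open Crest.ProbabilityR.FirstPassage
open Crest.Agent.R151 Crest.Agent.R151.SEL Crest.Agent.R151.Y
open Crest.Agent.R151.F592 (STO IsSucc LField Sel0 gp Ps pu pd)

/-- the members of the family are bigeodesics of the class, `sl` is their slope -/
def InClass (F : BFam) (C : ℝ) (t : Environment) : Prop :=
  ∀ i, F.pres i t → F.g i t ∈ Big C t ∧ HasSl t (F.g i t) (F.sl i t)

section det

variable {F : BFam} {m C : ℝ} {t : Environment}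

theorem upFacts_of (hF : Facts m C t) (h : InClass F C t) : UpFacts F t where
  inc_le k i e hi := hF.o1 (h i hi).1 k e
  slope_lt k i j hi hj hs e := hF.o2 (h i hi).1 (h j hj).1 (h i hi).2 (h j hj).2 hs k e
  loc_lt k i₀ j₀ e₀ hi₀ hj₀ hs hne i j hi hj hsi hsj hl e :=
    hF.o3 (h i₀ hi₀).1 (h j₀ hj₀).1 (h i₀ hi₀).2 (hs ▸ (h j₀ hj₀).2) ⟨k, e₀, hne⟩ (h i hi).1
      (h j hj).1 (hsi ▸ (h i hi).2) (hsj ▸ (h j hj).2) hl e
  osc i j hi hj _ hle n := hF.o5' (h i hi).1 (h j hj).1 hle n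
  order i j hi hj _ hle n e := hF.o7 (h i hi).1 (h j hj).1 hle n e
  coal i₀ j₀ e₀ hi₀ hj₀ hs hne i j hi hj hsi hsj :=
    hF.o6 (h i₀ hi₀).1 (h j₀ hj₀).1 (h i₀ hi₀).2 (hs ▸ (h j₀ hj₀).2) ⟨0, e₀, hne⟩ (h i hi).1
      (h j hj).1 (hsi ▸ (h i hi).2) (hsj ▸ (h j hj).2)

theorem inClass_mirror (h : InClass F C (N.refl t)) : InClass (mirror F) C t := by
  intro i hi
  obtain ⟨h1, h2⟩ := h (rI i) hi
  have e1 := big_rv h1
  rw [N.refl_refl] at e1
  have e2 := h2.rv (updown_of_big h1)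
  rw [N.refl_refl] at e2
  exact ⟨e1, e2⟩

theorem upFacts_mirror (hF : Facts m C (N.refl t)) (h : InClass F C (N.refl t)) :
    UpFacts (mirror F) t := by
  have := hF.refl
  rw [N.refl_refl] at this
  exact upFacts_of this (inClass_mirror h)

/-- functions with equal increments differ by a constant -/
theorem exists_const_of_inc {f g : ℤ → ℝ} (h : ∀ e, f (e + 1) - f e = g (e + 1) - g e) :
    ∃ c, ∀ x, f x = g x + c := by
  refine ⟨f 0 - g 0, fun x => ?_⟩
  induction x using Int.induction_on with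
  | zero => ring
  | succ n ih =>
    have := h n
    linarith
  | pred n ih =>
    have := h (-(n : ℤ) - 1)
    rw [sub_add_cancel] at this
    linarith

/-- equal increments on the two rows give equal gaps -/
theorem gp_eq_of_inc (ht : ∀ e, 0 < t e) {v w : ℤ → ℤ × ℤ} (hv : IsBigeodesic t v)
    (hvU : UpDown v) (hw : IsBigeodesic t w) (hwU : UpDown w) {a b : ℤ} (hab : a < b)
    (hU : ∀ e, incU t b v e = incU t b w e) (hD : ∀ e, incD t a v e = incD t a w e)
    (u : ℤ → ℤ × ℤ) : gp t a b v u = gp t a b w u := by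
  obtain ⟨c, hc⟩ := exists_const_of_inc (f := fun x => fU t b v (x, b))
    (g := fun x => fU t b w (x, b)) hU
  obtain ⟨d, hd⟩ := exists_const_of_inc (f := fun x => fD t a v (x, a))
    (g := fun x => fD t a w (x, a)) hD
  have key : ∀ x y, Ps t a b v x y = Ps t a b w x y + (c + d) := by
    intro x y
    unfold Ps
    rw [hc x, hd y]
    ring
  have h1 := F592.Ps_min ht hv hvU hab (pu b w) (pd a w)
  have h2 := F592.Ps_min ht hw hwU hab (pu b v) (pd a v)
  rw [key, key] at h1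
  unfold gp
  rw [key, key]
  linarith

theorem labLe_iff {v w : ℤ → ℤ × ℤ} : H.LabLe (H.lab t 0 (-1) v) (H.lab t 0 (-1) w) ↔
    (∀ e, incU t 0 w e ≤ incU t 0 v e) ∧ ∀ e, incD t (-1) v e ≤ incD t (-1) w e := Iff.rfl

/-- the order on the rows `0`, `-1` is the order on all rows -/
theorem le_of_labLe (hF : Facts m C t) {v w : ℤ → ℤ × ℤ} (hv : v ∈ Big C t) (hw : w ∈ Big C t)
    (h : H.LabLe (H.lab t 0 (-1) v) (H.lab t 0 (-1) w)) : LE t v w := by
  rw [labLe_iff] at h
  exact ⟨hF.incU_le_all hv hw h.1, hF.incD_le_all hw hv h.2⟩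

end det

section main

variable {G : Measure ℝ} [IsProbabilityMeasure G]

/-- **END**: a covariant family of bigeodesics of the class is almost surely empty -/
theorem measure_zero_of_fam (hG : M51.Law213 G) (F : BFam) {m C : ℝ} {m0 : ℕ}
    (hFacts : ∀ᵐ t ∂(iidLaw G), Facts m C t) (hcl : ∀ᵐ t ∂(iidLaw G), InClass F C t)
    (D : Sel0 (iidLaw G) (fun x t => F.g (x, 0) t) F.AX m0)
    (hgood : ∀ K : ℝ, 0 < K → ∀ β : ℝ≥0∞, 0 < β → ∃ Gd : Environment → Set ℤ,
      (∀ x, NullMeasurableSet {t | x ∈ Gd t} (iidLaw G)) ∧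
      (∀ z t x, x ∈ Gd (A.shift (z, 0) t) ↔ x + z ∈ Gd t) ∧
      (iidLaw G) {t | (0 : ℤ) ∈ F.AX t ∧ (0 : ℤ) ∉ Gd t} ≤ β ∧
      ∀ᵐ t ∂(iidLaw G), (0 : ℤ) ∈ F.AX t → (0 : ℤ) ∈ Gd t →
        {j : ℤ | j ∈ F.AX t ∧ j ∈ Gd t ∧
          gp t (-1) 0 (F.g (0, 0) t) (F.g (j, 0) t) ≤ K}.Finite) :
    iidLaw G {t | (0 : ℤ) ∈ F.AX t} = 0 := by
  set γ : ℤ → Environment → ℤ → ℤ × ℤ := fun x t => F.g (x, 0) t with hγ
  have L := D.toPField.toLField
  have hex := D.ae_exists_succ hG hgood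
  have hm : ∀ x y, MeasurableSet {t | Sel0.lt γ t x y} := D.toPField.measurable_lt
  have hc : ∀ (z : ℤ) t x y, Sel0.lt γ (A.shift (z, 0) t) x y ↔ Sel0.lt γ t (x + z) (y + z) :=
    L.covlt
  have hord : ∀ᵐ t ∂(iidLaw G), ∀ x ∈ F.AX t, ∀ y ∈ F.AX t, Sel0.lt γ t x y →
      LE t (F.g (x, 0) t) (F.g (y, 0) t) ∧ F.sl (x, 0) t ≤ F.sl (y, 0) t := by
    filter_upwards [hFacts, hcl] with t hF hc x hx y hy hxy
    have h1 := hc _ hx
    have h2 := hc _ hy
    have hle := le_of_labLe hF h1.1 h2.1 hxy.1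
    exact ⟨hle, hF.slope_le h1.2 h2.2 hle⟩
  have hB : ∀ᵐ t ∂(iidLaw G), ∀ x ∈ F.AX t, |F.sl (x, 0) t| ≤ |m| := by
    filter_upwards [hFacts, hcl] with t hF hc x hx
    have h1 := hc _ hx
    exact (hF.abs_lt h1.1 h1.2).le.trans (le_abs_self m)
  have hupm : ∀ᵐ t ∂(iidLaw G), UpFacts (mirror F) t := by
    filter_upwards [RFL.ae_refl.2 hFacts, RFL.ae_refl.2 hcl] with t h1 h2
    exact upFacts_mirror h1 h2
  have hU := same_incU (F := F) (lt := Sel0.lt γ) hG hm hc L.sto
    (by filter_upwards [hFacts, hcl] with t h1 h2 using upFacts_of h1 h2)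
    (by filter_upwards [hord] with t h x hx y hy hxy
        exact ⟨(h x hx y hy hxy).1.1 0, (h x hx y hy hxy).2⟩) (abs_nonneg m) hB hex
  have hD := same_incD (F := F) (lt := Sel0.lt γ) hG hm hc L.sto
    (by filter_upwards [hcl] with t h i hi using updown_of_big (h i hi).1)
    hupm
    (by filter_upwards [hord] with t h x hx y hy hxy
        exact ⟨(h x hx y hy hxy).1.2 0, (h x hx y hy hxy).2⟩) (abs_nonneg m) hB hex
  refine L.measure_eq_zero_of_ties (gap := fun t x y => gp t (-1) 0 (γ x t) (γ y t)) hex ?_ ?_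
    fun β hβ => hgood 1 one_pos β hβ
  · filter_upwards [hU, hD, hFacts, hcl, D.pos] with t hU hD hF hcl hpos x j hj k _
    have hx := hcl _ hj.1
    have hj' := hcl _ hj.2.1
    refine gp_eq_of_inc hpos hx.1.1 (updown_of_big hx.1) hj'.1.1 (updown_of_big hj'.1)
      (by norm_num) (fun e => (hU x j hj e).symm) (fun e => ?_) _
    exact hF.incD_eq_all hx.1 hj'.1 (k := 0) (fun e => (hD x j hj e).symm) _ e
  · refine Eventually.of_forall fun t x _ => ?_
    rw [F592.gp_self]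
    exact zero_le_one

end main

end Crest.Agent.R151.Y96
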