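import Crest.Agent.R151.Z213b
import Crest.Agent.R151.T821f
import Crest.Agent.R151.U750f

/-!
# R151/Z213c — S0213 from "no proper bigeodesic" (owner helper890)

`hub` from 750's `U.ub`, `hbar` from 821's `ae_exists_ray`; `s0213_of_hup : S0213.result` verbatim
from the single input `hup` (helper96).
-/

set_option autoImplicit false

open MeasureTheory Filter ProbabilityTheory
open Crest.ProbabilityR.FirstPassage

namespace Crest.Agent.R151.Z

open Crest.Agent.R151.K (IsTC1 Mom LocCtl ae_Nn toR l1 n1)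
open Crest.Agent.R151.M51 (Law213)
open Crest.Agent.R151.D411 (SmoothNorm ProperUp Barriers UShape exists_properUp)
open Crest.Agent.R151.T821 (MuD ShapeIn IsSgn ae_exists_ray)

variable {G : Measure ℝ} [IsProbabilityMeasure G] {m : ℝ} {μ : ℝ × ℝ → ℝ}

theorem muD (hM : Mom G m) (hμ : IsTC1 G μ) (hS : SmoothNorm μ) : MuD μ where
  norm := hS.norm
  swap := hM.mu_swap hμ
  refl v := by
    have h1 := hM.mu_neg_fst hμ (-v)
    have h2 := hM.mu_neg hμ v
    rw [h2] at h1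
    simpa using h1
  diff := hS.diff

theorem shapeIn (hG : Law213 G) (hM : Mom G m) (hμ : IsTC1 G μ) : ShapeIn G μ where
  h0 := hG.h0
  int := M51.integrable_pt' hG
  mean w := by
    have h := hM.ET_tendsto_nat hμ (toR w)
    refine h.congr fun k => ?_
    congr 2
    simp only [K.fl, toR, Prod.smul_def, smul_eq_mul]
    ext <;> simp
    all_goals
      rw [← Int.cast_natCast, ← Int.cast_mul, Int.floor_intCast]
  sh2 ε hε := by
    filter_upwards [hM.as_ushape hμ hG] with t ht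
    exact ht ε hε

theorem finite_n1_lt (K : ℕ) : {z : ℤ × ℤ | n1 z < K}.Finite := by
  refine ((Set.finite_Icc (-(K : ℤ)) K).prod (Set.finite_Icc (-(K : ℤ)) K)).subset fun z hz => ?_
  have hz' : z.1.natAbs + z.2.natAbs < K := hz
  rw [Set.mem_prod, Set.mem_Icc, Set.mem_Icc]
  omega

/-- 821's rays give 411's barriers -/
theorem barriers [NullSingletonClass G] (hG : Law213 G) (hM : Mom G m) (hμ : IsTC1 G μ)
    (hS : SmoothNorm μ) : ∀ᵐ t ∂(iidLaw G), Barriers μ t := by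
  have hat : ∀ x, G {x} = 0 := fun x => measure_singleton x
  have key : ∀ e1 e2 : ℤ, IsSgn e1 → IsSgn e2 → ∀ᵐ t ∂(iidLaw G), ∀ i : ℕ,
      ∃ v : ℕ → ℤ × ℤ, Y.IsRay t squareLattice v ∧ v 0 = 0 ∧
        ∃ K0, ∀ k, K0 ≤ n1 (v k) → T821.ex μ e1 e2 (v k) ≤ (1 / ((i : ℝ) + 1)) * n1 (v k) := by
    intro e1 e2 h1 h2
    rw [ae_all_iff]
    intro i
    exact ae_exists_ray (muD hM hμ hS) (shapeIn hG hM hμ) hat h1 h2 (by positivity)
  filter_upwards [ae_Nn (G := G) hG.h0, ae_noTies (G := G) hat,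
    key 1 1 (Or.inl rfl) (Or.inl rfl), key 1 (-1) (Or.inl rfl) (Or.inr rfl),
    key (-1) 1 (Or.inr rfl) (Or.inl rfl), key (-1) (-1) (Or.inr rfl) (Or.inr rfl)]
    with t ht hnt h1 h2 h3 h4
  intro η hη σ τ hσ hτ
  obtain ⟨i, hi⟩ := exists_nat_one_div_lt hη
  have fin : ∀ e1 e2 : ℤ, (∃ v : ℕ → ℤ × ℤ, Y.IsRay t squareLattice v ∧ v 0 = 0 ∧
        ∃ K0, ∀ k, K0 ≤ n1 (v k) → T821.ex μ e1 e2 (v k) ≤ (1 / ((i : ℝ) + 1)) * n1 (v k)) →
      ∃ b : ℕ → ℤ × ℤ, Y.IsRay t squareLattice b ∧ ∀ᶠ k in atTop,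
        μ (toR (b k)) - μ (1, 1) / 2 * ((e1 : ℝ) * (b k).1 + (e2 : ℝ) * (b k).2) ≤
          η * l1 (toR (b k)) := by
    rintro e1 e2 ⟨v, hv, -, K0, hK⟩
    refine ⟨v, hv, ?_⟩
    filter_upwards [eventually_atTop.2
      (hv.eventually_notMem (fun e => hnt.pos ht e) (finite_n1_lt K0))] with k hk
    have hk' : K0 ≤ n1 (v k) := not_lt.1 hk
    have h5 := hK k hk'
    rw [K.l1_toR]
    unfold T821.ex at h5
    have h6 : (1 / ((i : ℝ) + 1)) * n1 (v k) ≤ η * n1 (v k) := by gcongr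
    exact h5.trans h6
  rcases (abs_eq zero_le_one).1 hσ with rfl | rfl <;> rcases (abs_eq zero_le_one).1 hτ with rfl | rfl
  · simpa using fin 1 1 (h1 i)
  · simpa using fin 1 (-1) (h2 i)
  · simpa using fin (-1) 1 (h3 i)
  · simpa using fin (-1) (-1) (h4 i)

/-- **S0213 verbatim** from "no proper bigeodesic". -/
theorem s0213_of_hup
    (hup : ∀ (G : Measure ℝ) [IsProbabilityMeasure G] [NullSingletonClass G] (m : ℝ)
      (μ : ℝ × ℝ → ℝ), Law213 G → Mom G m → IsTC1 G μ → SmoothNorm μ →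
        ∀ C0 : ℝ, 0 < C0 → μ (1, 0) * C0 < μ (C0, 1) →
          ∀ᵐ t ∂(iidLaw G), ∀ v, IsBigeodesic t v → ProperUp C0 v → False)
    (G : Measure ℝ) [IsProbabilityMeasure G] [NullSingletonClass G] (hG : G (Set.Iio 0) = 0)
    (hmom : ∫⁻ x, ENNReal.ofReal ((⨅ i, x i) ^ 2) ∂(Measure.pi fun _ : Fin 4 => G) < ⊤) :
    iidLaw G {t | ∃ v : ℤ → ℤ × ℤ, IsBigeodesic t v} = 0 :=
  s0213_of_inputs (fun _ _ _ _ _ _ H => U.ub H)
    (fun _ _ _ _ _ hL hM hμ hS => barriers hL hM hμ hS) hup G hG hmom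

/-- the time constant of the law of S0213 is a smooth norm -/
theorem smoothNorm_213 [NullSingletonClass G] (hG : Law213 G) (hM : Mom G m) (hμ : IsTC1 G μ) :
    SmoothNorm μ :=
  smoothNorm hM hμ fun v hv => X.differentiable_of_ub hG hμ (fun _ _ _ _ H => U.ub H) v hv

end Crest.Agent.R151.Z
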