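import Crest.Agent.R151.Y96G
import Crest.Agent.R151.S113J
import Crest.Agent.R151.Z213c

/-!
# R151, block (Z) (helper96): **S0213 from the two inputs `facts_ae` and `hgood`**

* `ae_big_empty_of` : no bigeodesics of the class;
* `GoodIn`: the statement `hgood` for the selected family `famR C R`;
* `s0213_of_facts_good : S0213.result` verbatim from `facts_ae` (helpers 565, 624) and `hgood`
  (helper39).
-/

set_option autoImplicit false

open MeasureTheory Filter Topology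
open scoped ENNReal

namespace Crest.Agent.R151.Y96

open Crest.ProbabilityR.FirstPassage
open Crest.Agent.R151 Crest.Agent.R151.SEL Crest.Agent.R151.Y
open Crest.Agent.R151.F592 (gp)
open Crest.Agent.R151.K (IsTC1 Mom)
open Crest.Agent.R151.M51 (Law213)
open Crest.Agent.R151.D411 (SmoothNorm ProperUp)

/-- the finiteness input for the family `famR C R` (LFE + goodness) -/
def GoodIn (G : Measure ℝ) [IsProbabilityMeasure G] (C : ℝ) (R : ℕ) : Prop :=
  ∀ K : ℝ, 0 < K → ∀ β : ℝ≥0∞, 0 < β → ∃ Gd : Environment → Set ℤ,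
    (∀ x, NullMeasurableSet {t | x ∈ Gd t} (iidLaw G)) ∧
    (∀ z t x, x ∈ Gd (A.shift (z, 0) t) ↔ x + z ∈ Gd t) ∧
    (iidLaw G) {t | (0 : ℤ) ∈ (famR C R).AX t ∧ (0 : ℤ) ∉ Gd t} ≤ β ∧
    ∀ᵐ t ∂(iidLaw G), (0 : ℤ) ∈ (famR C R).AX t → (0 : ℤ) ∈ Gd t →
      {j : ℤ | j ∈ (famR C R).AX t ∧ j ∈ Gd t ∧
        gp t (-1) 0 ((famR C R).g (0, 0) t) ((famR C R).g (j, 0) t) ≤ K}.Finite

section main

variable {G : Measure ℝ} [IsProbabilityMeasure G] {m C C' : ℝ}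

theorem inClass_famR (hC : C < C') {R : ℕ} {t : Environment} (hF : Facts m C' t) :
    InClass (famR C R) C' t := fun _ hi => ⟨famR_mem_big hC hi, (famR_hasSl hC hF hi).2⟩

/-- **no bigeodesics of the class** -/
theorem ae_big_empty_of (hG : Law213 G) (hC : C < C')
    (hFacts : ∀ᵐ t ∂(iidLaw G), Facts m C' t) (hgood : ∀ R, GoodIn G C R) :
    ∀ᵐ t ∂(iidLaw G), ∀ v, v ∉ Big C t :=
  ae_big_empty fun R => measure_zero_of_fam hG (famR C R) hFacts
    (by filter_upwards [hFacts] with t ht using inClass_famR hC ht)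
    (sel0_famR hC hFacts) (hgood R)

end main

/-- a slightly larger cone is still admissible -/
theorem exists_cone {μ : ℝ × ℝ → ℝ} (hμ : SmoothNorm μ) {C₀ : ℝ}
    (h : μ (1, 0) * C₀ < μ (C₀, 1)) : ∃ C', C₀ < C' ∧ μ (1, 0) * C' < μ (C', 1) := by
  have hm : 0 ≤ μ (1, 0) := hμ.norm.nonneg _
  set δ := (μ (C₀, 1) - μ (1, 0) * C₀) / (2 * (μ (1, 0) + 1)) with hδ
  have hδ0 : 0 < δ := div_pos (by linarith) (by positivity)
  have hδ1 : δ * (2 * (μ (1, 0) + 1)) = μ (C₀, 1) - μ (1, 0) * C₀ := by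
    rw [hδ]
    field_simp
  refine ⟨C₀ + δ, by linarith, ?_⟩
  have h1 : μ (C₀, 1) ≤ μ (C₀ + δ, 1) + μ (-δ, 0) := by
    have := hμ.norm.add (C₀ + δ, 1) (-δ, 0)
    simpa using this
  have h2 : μ (-δ, 0) = δ * μ (1, 0) := by
    rw [hμ.refl]
    have := hμ.norm.smul δ (1, 0) hδ0.le
    simp only [Prod.smul_mk, smul_eq_mul, mul_one, mul_zero] at this
    exact this
  rw [h2] at h1
  nlinarith

/-- **S0213 verbatim** from `facts_ae` and `hgood` -/
theorem s0213_of_facts_good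
    (hfacts : ∀ (G : Measure ℝ) [IsProbabilityMeasure G] [NullSingletonClass G] (m : ℝ)
      (μ : ℝ × ℝ → ℝ), Law213 G → Mom G m → IsTC1 G μ → SmoothNorm μ →
        ∀ C : ℝ, 0 < C → μ (1, 0) * C < μ (C, 1) →
          ∀ᵐ t ∂(iidLaw G), Facts (μ (1, 0)) C t)
    (hgood : ∀ (G : Measure ℝ) [IsProbabilityMeasure G] [NullSingletonClass G] (m : ℝ)
      (μ : ℝ × ℝ → ℝ), Law213 G → Mom G m → IsTC1 G μ → SmoothNorm μ →
        ∀ C C' : ℝ, 0 < C → C < C' → μ (1, 0) * C' < μ (C', 1) →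
          (∀ᵐ t ∂(iidLaw G), Facts (μ (1, 0)) C' t) → ∀ R, GoodIn G C R)
    (G : Measure ℝ) [IsProbabilityMeasure G] [NullSingletonClass G] (hG : G (Set.Iio 0) = 0)
    (hmom : ∫⁻ x, ENNReal.ofReal ((⨅ i, x i) ^ 2) ∂(Measure.pi fun _ : Fin 4 => G) < ⊤) :
    iidLaw G {t | ∃ v : ℤ → ℤ × ℤ, IsBigeodesic t v} = 0 := by
  refine Z.s0213_of_hup ?_ G hG hmom
  intro G _ _ m μ hL hM hμ hS C₀ h0 hC₀
  obtain ⟨C', h1, h2⟩ := exists_cone hS hC₀
  have hF := hfacts G m μ hL hM hμ hS C' (h0.trans h1) h2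
  have hg := hgood G m μ hL hM hμ hS C₀ C' h0 h1 h2 hF
  filter_upwards [ae_big_empty_of hL h1 hF hg] with t ht v hv hp
  exact ht v ⟨hv, hp⟩

end Crest.Agent.R151.Y96
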