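import Crest.Agent.R151.K9d

/-!
# R151/Z213 — final reduction of S0213 (owner helper890, block T1)

* `rev`, `iso`, `swap` : a bigeodesic stays a bigeodesic under time reversal and lattice automorphisms.
* `null_of_dir_up` : if almost surely every bigeodesic is, after time reversal and/or the swap of the
  coordinates, of class `PU`, and almost surely no bigeodesic is of class `PU`, then almost surely
  there is no bigeodesic.
* `red213` : S0213 from the inputs of helper684 (differentiability), helper507/821 (uniform shape,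
  barriers), helper411 (DIR2+3) and helper96 (no proper bigeodesic).
-/

set_option autoImplicit false

open MeasureTheory Filter ProbabilityTheory
open Crest.ProbabilityR.FirstPassage

namespace Crest.Agent.R151.Z

open Crest.Agent.R151.K (Nn ae_Nn act sw ng mp_act pt_act pt_symm IsTC1 Mom LocCtl toR l1)

/-- Time reversal. -/
theorem rev {t : Environment} (ht : Nn t) {v : ℤ → ℤ × ℤ} (h : IsBigeodesic t v) :
    IsBigeodesic t (fun n => v (-n)) := by
  obtain ⟨h1, h2, h3⟩ := h
  refine ⟨fun a b hab => ?_, fun i => ?_, fun i j hij => ?_⟩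
  · have := h1 hab
    omega
  · have := (h2 (-(i + 1))).symm
    have e : -(i + 1) + 1 = -i := by ring
    rw [e] at this
    exact this
  · have h4 := h3 (-j) (-i) (by omega)
    rw [pt_symm ht (v (-i)) (v (-j)), ← h4]
    refine Finset.sum_bij (fun k _ => -(k + 1)) ?_ ?_ ?_ ?_
    · intro k hk
      rw [Finset.mem_Ico] at hk ⊢
      omega
    · intro a _ b _ hab
      omega
    · intro b hb
      rw [Finset.mem_Ico] at hb
      exact ⟨-(b + 1), by rw [Finset.mem_Ico]; omega, by ring⟩
    · intro k _
      have e : -(k + 1) + 1 = -k := by ring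
      simp only [e]
      rw [Sym2.eq_swap]

/-- Lattice automorphisms. -/
theorem iso (φ : squareLattice ≃g squareLattice) {t : Environment} {v : ℤ → ℤ × ℤ}
    (h : IsBigeodesic t v) : IsBigeodesic (act φ t) (fun n => φ.symm (v n)) := by
  obtain ⟨h1, h2, h3⟩ := h
  refine ⟨fun a b hab => h1 (φ.symm.injective hab), fun i => φ.symm.map_rel_iff'.2 (h2 i),
    fun i j hij => ?_⟩
  rw [pt_act]
  simp only [act, Sym2.map_mk, RelIso.apply_symm_apply]
  exact h3 i j hij

/-- Swap of the coordinates. -/
theorem swap {t : Environment} {v : ℤ → ℤ × ℤ} (h : IsBigeodesic t v) :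
    IsBigeodesic (act sw t) (fun n => (v n).swap) := iso sw h

variable {G : Measure ℝ} [IsProbabilityMeasure G]

/-- **Final reduction, abstract form.** -/
theorem null_of_dir_up (h0 : G (Set.Iio 0) = 0) (PU : (ℤ → ℤ × ℤ) → Prop)
    (hdir : ∀ᵐ t ∂(iidLaw G), ∀ v, IsBigeodesic t v →
      PU v ∨ PU (fun n => v (-n)) ∨ PU (fun n => (v n).swap) ∨ PU (fun n => (v (-n)).swap))
    (hup : ∀ᵐ t ∂(iidLaw G), ∀ v, IsBigeodesic t v → PU v → False) :
    iidLaw G {t | ∃ v : ℤ → ℤ × ℤ, IsBigeodesic t v} = 0 := by
  have hsw : ∀ᵐ t ∂(iidLaw G), ∀ v, IsBigeodesic (act sw t) v → PU v → False :=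
    (mp_act (G := G) sw).quasiMeasurePreserving.ae hup
  have key : ∀ᵐ t ∂(iidLaw G), ¬ ∃ v : ℤ → ℤ × ℤ, IsBigeodesic t v := by
    filter_upwards [ae_Nn (G := G) h0, hdir, hup, hsw] with t ht hd hu hs
    rintro ⟨v, hv⟩
    rcases hd v hv with h | h | h | h
    · exact hu v hv h
    · exact hu _ (rev ht hv) h
    · exact hs _ (swap hv) h
    · exact hs _ (swap (rev ht hv)) h
  have := ae_iff.1 key
  simpa using this

end Crest.Agent.R151.Z
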