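import Crest.Agent.R151.D411d
import Crest.Agent.R151.K9h
import Crest.Agent.R151.X684k
import Crest.Agent.R151.Z213

/-!
# R151/Z213b — S0213 from its three remaining inputs (owner helper890, block T1)

`no_bigeodesic` (one law) and `s0213_of_inputs` (verbatim `S0213.result`) from
* `hub`  : 750's upper bound (gives differentiability of `μ` by 684/792),
* `hbar` : 821's barriers,
* `hup`  : 96's theorem "no proper bigeodesic".
-/

set_option autoImplicit false

open MeasureTheory Filter ProbabilityTheory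
open Crest.ProbabilityR.FirstPassage

namespace Crest.Agent.R151.Z

open Crest.Agent.R151.K (IsTC1 Mom LocCtl ae_Nn)
open Crest.Agent.R151.M51 (Law213)
open Crest.Agent.R151.D411 (SmoothNorm ProperUp Barriers UShape exists_properUp)

variable {G : Measure ℝ} [IsProbabilityMeasure G] {m : ℝ} {μ : ℝ × ℝ → ℝ}

theorem smoothNorm [NullSingletonClass G] (hM : Mom G m) (hμ : IsTC1 G μ)
    (hdiff : ∀ v : ℝ × ℝ, v ≠ 0 → DifferentiableAt ℝ μ v) : SmoothNorm μ where
  norm := hM.normLike hμ (measure_singleton 0)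
  swap x y := hM.mu_swap hμ (x, y)
  refl x y := hM.mu_neg_fst hμ (x, y)
  diff := hdiff

/-- **No bigeodesics, one law.** -/
theorem no_bigeodesic [NullSingletonClass G] (hG : Law213 G) (hM : Mom G m) (hμ : IsTC1 G μ)
    (hS : SmoothNorm μ) (hbar : ∀ᵐ t ∂(iidLaw G), Barriers μ t)
    (hup : ∀ C0 : ℝ, 0 < C0 → μ (1, 0) * C0 < μ (C0, 1) →
      ∀ᵐ t ∂(iidLaw G), ∀ v, IsBigeodesic t v → ProperUp C0 v → False) :
    iidLaw G {t | ∃ v : ℤ → ℤ × ℤ, IsBigeodesic t v} = 0 := by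
  obtain ⟨C0, hC0, hC1, h⟩ := exists_properUp hS
  refine null_of_dir_up hG.h0 (ProperUp C0) ?_ (hup C0 hC0 hC1)
  filter_upwards [ae_Nn (G := G) hG.h0, ae_noTies (G := G) (fun x => measure_singleton x),
    hM.as_ushape hμ hG, hbar] with t h1 h2 h3 h4
  exact h t h1 h2 h3 h4

/-- **S0213 verbatim** from the three inputs. -/
theorem s0213_of_inputs
    (hub : ∀ (G : Measure ℝ) [IsProbabilityMeasure G] (al be s a : ℝ),
      U.Hyp G al be s a → N.UB G s al be)
    (hbar : ∀ (G : Measure ℝ) [IsProbabilityMeasure G] [NullSingletonClass G] (m : ℝ)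
      (μ : ℝ × ℝ → ℝ), Law213 G → Mom G m → IsTC1 G μ → SmoothNorm μ →
        ∀ᵐ t ∂(iidLaw G), Barriers μ t)
    (hup : ∀ (G : Measure ℝ) [IsProbabilityMeasure G] [NullSingletonClass G] (m : ℝ)
      (μ : ℝ × ℝ → ℝ), Law213 G → Mom G m → IsTC1 G μ → SmoothNorm μ →
        ∀ C0 : ℝ, 0 < C0 → μ (1, 0) * C0 < μ (C0, 1) →
          ∀ᵐ t ∂(iidLaw G), ∀ v, IsBigeodesic t v → ProperUp C0 v → False)
    (G : Measure ℝ) [IsProbabilityMeasure G] [NullSingletonClass G] (hG : G (Set.Iio 0) = 0)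
    (hmom : ∫⁻ x, ENNReal.ofReal ((⨅ i, x i) ^ 2) ∂(Measure.pi fun _ : Fin 4 => G) < ⊤) :
    iidLaw G {t | ∃ v : ℤ → ℤ × ℤ, IsBigeodesic t v} = 0 := by
  have hL : Law213 G := ⟨hG, hmom⟩
  obtain ⟨m, μ, hM, hμ, -⟩ := K.law213_all hL
  have hdiff : ∀ v : ℝ × ℝ, v ≠ 0 → DifferentiableAt ℝ μ v := fun v hv =>
    X.differentiable_of_ub hL hμ (hub G) v hv
  have hS := smoothNorm hM hμ hdiff
  exact no_bigeodesic hL hM hμ hS (hbar G m μ hL hM hμ hS) (hup G m μ hL hM hμ hS)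

end Crest.Agent.R151.Z
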