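import Crest.Agent.R151.Z213c
import Crest.Agent.R151.RF890
import Crest.Agent.R151.SLF856b
import Crest.Agent.R151.S113J

/-!
# R151/Z213d — S0213 from 763's system of line functions, the two coalescence fields and the end
game (owner helper890)
-/

set_option autoImplicit false

open MeasureTheory Filter ProbabilityTheory
open Crest.ProbabilityR.FirstPassage

namespace Crest.Agent.R151.Z

open Crest.Agent.R151.K (IsTC1 Mom LocCtl ae_Nn toR l1 n1)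
open Crest.Agent.R151.M51 (Law213)
open Crest.Agent.R151.D411 (SmoothNorm ProperUp Barriers UShape exists_properUp)
open Crest.Agent.R151.SEL (famR sel0_famR famR_hasSl famR_mem_big ae_big_empty)
open Crest.Agent.R151.Y (LowCoal)

variable {G : Measure ℝ} [IsProbabilityMeasure G] {m : ℝ} {μ : ℝ × ℝ → ℝ}

/-- the two coalescence fields of `Y96.Facts` -/
def UC (G : Measure ℝ) (C : ℝ) : Prop :=
  (∀ᵐ t ∂(iidLaw G), ∀ v₀ ∈ Y96.Big C t, ∀ w₀ ∈ Y96.Big C t, ∀ s, Y96.HasSl t v₀ s →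
      Y96.HasSl t w₀ s → (∃ k e, Y96.incU t k v₀ e ≠ Y96.incU t k w₀ e) →
      ∀ v ∈ Y96.Big C t, ∀ w ∈ Y96.Big C t, Y96.HasSl t v s → Y96.HasSl t w s →
        LowCoal v w) ∧
    ∀ᵐ t ∂(iidLaw G), ∀ v₀ ∈ Y96.Big C t, ∀ w₀ ∈ Y96.Big C t, ∀ s, Y96.HasSl t v₀ s →
      Y96.HasSl t w₀ s → (∃ k e, Y96.incD t k v₀ e ≠ Y96.incD t k w₀ e) →
      ∀ v ∈ Y96.Big C t, ∀ w ∈ Y96.Big C t, Y96.HasSl t v s → Y96.HasSl t w s →
        Y96.HighCoal v w

theorem dense_DS (a : ℝ) : ∀ x y, -a < x → x < y → y < a → ∃ p ∈ RF.DS a, x < p ∧ p < y :=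
  fun x y hx hxy hy => RF.DS_dense a x y hx.le hxy hy.le

/-- (1) the facts -/
theorem ae_facts_sys [NullSingletonClass G] (hG : Law213 G) (hM : Mom G m) (hμ : IsTC1 G μ)
    (hN : SmoothNorm μ) {f0 : ℝ → Environment → ℤ → ℝ} (S : LIN.Sys G μ f0) {C : ℝ} (hC : 0 < C)
    (hC' : μ (1, 0) * C < μ (C, 1)) (hUC : UC G C) :
    ∀ᵐ t ∂(iidLaw G), Y96.Facts (μ (1, 0)) C t :=
  SLF.ae_facts hG hM hμ hN (RF.DS_countable _) (dense_DS _) (RF.DS_sub_Icc _)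
    (RF.Sys.rows S).1 (RF.Sys.rows S).2 hC hC' hUC.1 hUC.2

/-- (2) global successors for 113's family -/
theorem ae_succ_famR [NullSingletonClass G] (hG : Law213 G) (hM : Mom G m) (hμ : IsTC1 G μ)
    (hN : SmoothNorm μ) {f0 : ℝ → Environment → ℤ → ℝ} (S : LIN.Sys G μ f0) {C C' : ℝ}
    (hC : C < C') (hF : ∀ᵐ t ∂(iidLaw G), Y96.Facts (μ (1, 0)) C' t) (R : ℕ) :
    ∀ᵐ t ∂(iidLaw G), ∀ x ∈ (famR C R).AX t, ∃ j,
      F592.IsSucc ((famR C R).AX t) (F592.Sel0.lt (fun x t => (famR C R).g (x, 0) t) t) x j := by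
  refine (sel0_famR (R := R) hC hF).ae_exists_succ hG ?_
  refine E39.hgood_of_rows hG S.hm (fun x y => SLF.mu_fst_le hN x y)
    (by
      filter_upwards [hM.as_ushape hμ hG] with t ht ε hε
      exact ht ε hε)
    (RF.DS_countable _) (RF.DS_sub_Ioo _) (dense_DS _)
    (RF.Sys.hrows S fun _ hp => hp.1) (sel0_famR (R := R) hC hF) (fun x t => (famR C R).sl (x, 0) t)
    (fun x => (famR C R).sl_meas (x, 0)) (fun z t x => ?_) ?_
  · have := (famR C R).sl_add (x, 0) (z, 0) t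
    simp only [Prod.mk_add_mk, add_zero] at this
    exact this.symm
  · filter_upwards [hF] with t ht x hx
    exact famR_hasSl hC ht hx

/-- there is room for a larger cone -/
theorem exists_cone (hN : SmoothNorm μ) {C : ℝ} (hC : μ (1, 0) * C < μ (C, 1)) :
    ∃ C' : ℝ, C < C' ∧ μ (1, 0) * C' < μ (C', 1) := by
  have h1 : DifferentiableAt ℝ μ (C, 1) := hN.diff _ fun h0 => by simpa using congrArg Prod.snd h0
  have h2 : ContinuousAt (fun x : ℝ => μ (x, 1) - μ (1, 0) * x) C := by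
    refine ContinuousAt.sub ?_ (by fun_prop)
    exact ContinuousAt.comp (f := fun x : ℝ => ((x, 1) : ℝ × ℝ)) (g := μ) h1.continuousAt
      (by fun_prop)
  have h3 : ∀ᶠ x in nhds C, 0 < μ (x, 1) - μ (1, 0) * x :=
    h2.eventually_mem (Ioi_mem_nhds (by linarith))
  have h4 : ∀ᶠ x in nhdsWithin C (Set.Ioi C), 0 < μ (x, 1) - μ (1, 0) * x :=
    nhdsWithin_le_nhds h3
  obtain ⟨x, hx1, hx2⟩ := (h4.and self_mem_nhdsWithin).exists
  exact ⟨x, hx2, by linarith⟩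

/-- (3) the end game (helper96), as a statement -/
def End : Prop :=
  ∀ (G : Measure ℝ) [IsProbabilityMeasure G] [NullSingletonClass G] (m C C' : ℝ) (R : ℕ),
    Law213 G → C < C' → (∀ᵐ t ∂(iidLaw G), Y96.Facts m C' t) →
    (∀ᵐ t ∂(iidLaw G), ∀ x ∈ (famR C R).AX t, ∃ j,
      F592.IsSucc ((famR C R).AX t) (F592.Sel0.lt (fun x t => (famR C R).g (x, 0) t) t) x j) →
    iidLaw G {t | (0 : ℤ) ∈ (famR C R).AX t} = 0

/-- (4) `hup` -/
theorem hup_of_end (hend : End)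
    (hsys : ∀ (G : Measure ℝ) [IsProbabilityMeasure G] [NullSingletonClass G] (m : ℝ)
      (μ : ℝ × ℝ → ℝ), Law213 G → Mom G m → IsTC1 G μ → SmoothNorm μ →
        ∃ f0 : ℝ → Environment → ℤ → ℝ, LIN.Sys G μ f0)
    (huc : ∀ (G : Measure ℝ) [IsProbabilityMeasure G] [NullSingletonClass G] (m : ℝ)
      (μ : ℝ × ℝ → ℝ) (f0 : ℝ → Environment → ℤ → ℝ), Law213 G → Mom G m → IsTC1 G μ →
        SmoothNorm μ → LIN.Sys G μ f0 → ∀ C : ℝ, 0 < C → μ (1, 0) * C < μ (C, 1) → UC G C)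
    (G : Measure ℝ) [IsProbabilityMeasure G] [NullSingletonClass G] (m : ℝ)
    (μ : ℝ × ℝ → ℝ) (hG : Law213 G) (hM : Mom G m) (hμ : IsTC1 G μ) (hN : SmoothNorm μ)
    (C0 : ℝ) (hC0 : 0 < C0) (hC1 : μ (1, 0) * C0 < μ (C0, 1)) :
    ∀ᵐ t ∂(iidLaw G), ∀ v, IsBigeodesic t v → ProperUp C0 v → False := by
  obtain ⟨f0, S⟩ := hsys G m μ hG hM hμ hN
  obtain ⟨C', hC', hC2⟩ := exists_cone hN hC1
  have hF := ae_facts_sys hG hM hμ hN S (hC0.trans hC') hC2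
    (huc G m μ f0 hG hM hμ hN S C' (hC0.trans hC') hC2)
  have h := ae_big_empty (C := C0) fun R =>
    hend G (μ (1, 0)) C0 C' R hG hC' hF (ae_succ_famR hG hM hμ hN S hC' hF R)
  filter_upwards [h] with t ht v hv hv'
  exact ht v ⟨hv, hv'⟩

/-- (5) `S0213.result` verbatim from the three last inputs -/
theorem s0213_of_end (hend : End)
    (hsys : ∀ (G : Measure ℝ) [IsProbabilityMeasure G] [NullSingletonClass G] (m : ℝ)
      (μ : ℝ × ℝ → ℝ), Law213 G → Mom G m → IsTC1 G μ → SmoothNorm μ →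
        ∃ f0 : ℝ → Environment → ℤ → ℝ, LIN.Sys G μ f0)
    (huc : ∀ (G : Measure ℝ) [IsProbabilityMeasure G] [NullSingletonClass G] (m : ℝ)
      (μ : ℝ × ℝ → ℝ) (f0 : ℝ → Environment → ℤ → ℝ), Law213 G → Mom G m → IsTC1 G μ →
        SmoothNorm μ → LIN.Sys G μ f0 → ∀ C : ℝ, 0 < C → μ (1, 0) * C < μ (C, 1) → UC G C)
    (G : Measure ℝ) [IsProbabilityMeasure G] [NullSingletonClass G] (hG : G (Set.Iio 0) = 0)
    (hmom : ∫⁻ x, ENNReal.ofReal ((⨅ i, x i) ^ 2) ∂(Measure.pi fun _ : Fin 4 => G) < ⊤) :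
    iidLaw G {t | ∃ v : ℤ → ℤ × ℤ, IsBigeodesic t v} = 0 :=
  s0213_of_hup (hup_of_end hend hsys huc) G hG hmom

end Crest.Agent.R151.Z
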