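import Crest.Agent.R151.Z213d
import Crest.Agent.R151.Y96G
import Crest.Agent.R151.FAuc635
import Crest.Agent.R151.B469g
import Crest.Agent.R151.L763m

/-!
# R151/Z213e — the last assembly: `S0213.result` verbatim (owner helper890)

* `sys` : 763's system of line functions from `Inp` (469, 906, 624);
* `upSys` : 290's `UpSys` from `Sys`;
* `uc` : the two coalescence fields (635, 290);
* `endGame` : helper96's end game for 113's family;
* **`s0213`**.
-/

set_option autoImplicit false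

open MeasureTheory Filter ProbabilityTheory
open Crest.ProbabilityR.FirstPassage

namespace Crest.Agent.R151.Z

open Crest.Agent.R151.K (IsTC1 Mom LocCtl ae_Nn toR l1 n1)
open Crest.Agent.R151.M51 (Law213)
open Crest.Agent.R151.D411 (SmoothNorm ProperUp Barriers UShape exists_properUp)
open Crest.Agent.R151.SEL (famR sel0_famR famR_hasSl famR_mem_big ae_big_empty)

/-- the system of line functions -/
theorem sys {G : Measure ℝ} [IsProbabilityMeasure G] [NullSingletonClass G] {m : ℝ}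
    {μ : ℝ × ℝ → ℝ} (hG : Law213 G) (hM : Mom G m) (hμ : IsTC1 G μ) (hN : SmoothNorm μ) :
    LIN.Sys G μ (BUS.f0 G) := by
  have hat : ∀ x, G {x} = 0 := fun x => measure_singleton x
  have I : BUS.Inp G m μ := ⟨hG, hat 0, hM, hμ⟩
  exact LIN.sys_f0 I hN hat (fun s hs => (I.cIn hN).limAt hs) (I.locAll hN)

/-- slope-indexed upper half-plane functions in 290's form -/
theorem upSys {G : Measure ℝ} [IsProbabilityMeasure G] {μ : ℝ × ℝ → ℝ}
    {f0 : ℝ → Environment → ℤ → ℝ} (S : LIN.Sys G μ f0) :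
    UC.UpSys G (RF.DS (μ (1, 0))) (-μ (1, 0)) (μ (1, 0)) (LIN.fP f0 μ) where
  countable := RF.DS_countable _
  dense := dense_DS _
  hl := fun p hp => S.hlP hp.1
  mono := fun p hp q hq hpq => S.monoP hp.1 hq.1 hpq.le
  real := fun s hs1 hs2 => by
    have hs : |s| < μ (1, 0) := abs_lt.2 ⟨hs1, hs2⟩
    have key : ∀ p q : ℝ, |p| < μ (1, 0) → |q| < μ (1, 0) → p ≤ q → ∀ k x : ℤ,
        ∫⁻ t, ENNReal.ofReal (H.inc (LIN.fP f0 μ p k t) x - H.inc (LIN.fP f0 μ q k t) x)
          ∂(iidLaw G) ≤ ENNReal.ofReal (q - p) := by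
      intro p q hp hq hpq k x
      have h1 := H.lintegral_inc_of_le (P := iidLaw G) (F := LIN.fP f0 μ p k)
        (G := LIN.fP f0 μ q k) (x := x) (S.intP hp k x) (S.intP hq k x) (by
          filter_upwards [S.monoP hp hq hpq] with t ht using ht k x)
      rw [S.meanP hp, S.meanP hq] at h1
      have h2 : -p - -q = q - p := by ring
      rw [h2] at h1
      rw [← h1]
      exact lintegral_mono fun t => ENNReal.ofReal_le_ofReal (le_abs_self _)
    exact ⟨LIN.fP f0 μ s, S.hlP hs,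
      fun p hp hps => ⟨S.monoP hp.1 hs hps.le, key p s hp.1 hs hps.le⟩,
      fun q hq hsq => ⟨S.monoP hs hq.1 hsq.le, key s q hs hq.1 hsq.le⟩⟩

/-- the two coalescence fields -/
theorem uc {G : Measure ℝ} [IsProbabilityMeasure G] [NullSingletonClass G] {m : ℝ}
    {μ : ℝ × ℝ → ℝ} (hG : Law213 G) (hM : Mom G m) (hμ : IsTC1 G μ) (hN : SmoothNorm μ)
    {f0 : ℝ → Environment → ℤ → ℝ} (S : LIN.Sys G μ f0) {C : ℝ} (hC : 0 < C)
    (hC' : μ (1, 0) * C < μ (C, 1)) : UC G C :=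
  ⟨FAuc.ae_ucU hG hM hμ hN (RF.DS_sub_Icc _) (upSys S) (RF.Sys.rows S).1 (RF.Sys.rows S).2 hC hC',
    FAuc.ae_ucD hG hM hμ hN (RF.DS_sub_Icc _) (upSys S) (RF.Sys.rows S).1 (RF.Sys.rows S).2 hC hC'⟩

/-- the end game for 113's family -/
theorem measure_famR {G : Measure ℝ} [IsProbabilityMeasure G] [NullSingletonClass G] {m : ℝ}
    {μ : ℝ × ℝ → ℝ} (hG : Law213 G) (hM : Mom G m) (hμ : IsTC1 G μ) (hN : SmoothNorm μ)
    {f0 : ℝ → Environment → ℤ → ℝ} (S : LIN.Sys G μ f0) {C C' : ℝ} (hC : C < C')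
    (hF : ∀ᵐ t ∂(iidLaw G), Y96.Facts (μ (1, 0)) C' t) (R : ℕ) :
    iidLaw G {t | (0 : ℤ) ∈ (famR C R).AX t} = 0 := by
  refine Y96.measure_zero_of_fam hG (famR C R) hF ?_ (sel0_famR (R := R) hC hF) ?_
  · filter_upwards [hF] with t ht i hi
    exact ⟨famR_mem_big hC hi, (famR_hasSl hC ht hi).2⟩
  · refine E39.hgood_of_rows hG S.hm (fun x y => SLF.mu_fst_le hN x y)
      (by
        filter_upwards [hM.as_ushape hμ hG] with t ht ε hε
        exact ht ε hε)
      (RF.DS_countable _) (RF.DS_sub_Ioo _) (dense_DS _)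
      (RF.Sys.hrows S fun _ hp => hp.1) (sel0_famR (R := R) hC hF)
      (fun x t => (famR C R).sl (x, 0) t)
      (fun x => (famR C R).sl_meas (x, 0)) (fun z t x => ?_) ?_
    · have := (famR C R).sl_add (x, 0) (z, 0) t
      simp only [Prod.mk_add_mk, add_zero] at this
      exact this.symm
    · filter_upwards [hF] with t ht x hx
      exact famR_hasSl hC ht hx

/-- **no proper bigeodesic** -/
theorem hup (G : Measure ℝ) [IsProbabilityMeasure G] [NullSingletonClass G] (m : ℝ)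
    (μ : ℝ × ℝ → ℝ) (hG : Law213 G) (hM : Mom G m) (hμ : IsTC1 G μ) (hN : SmoothNorm μ)
    (C0 : ℝ) (hC0 : 0 < C0) (hC1 : μ (1, 0) * C0 < μ (C0, 1)) :
    ∀ᵐ t ∂(iidLaw G), ∀ v, IsBigeodesic t v → ProperUp C0 v → False := by
  have S := sys hG hM hμ hN
  obtain ⟨C', hC', hC2⟩ := exists_cone hN hC1
  have hF := ae_facts_sys hG hM hμ hN S (hC0.trans hC') hC2
    (uc hG hM hμ hN S (hC0.trans hC') hC2)
  have h := ae_big_empty (C := C0) fun R => measure_famR hG hM hμ hN S hC' hF R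
  filter_upwards [h] with t ht v hv hv'
  exact ht v ⟨hv, hv'⟩

/-- **`S0213.result` verbatim.** -/
theorem s0213 (G : Measure ℝ) [IsProbabilityMeasure G] [NullSingletonClass G]
    (hG : G (Set.Iio 0) = 0)
    (hmom : ∫⁻ x, ENNReal.ofReal ((⨅ i, x i) ^ 2) ∂(Measure.pi fun _ : Fin 4 => G) < ⊤) :
    iidLaw G {t | ∃ v : ℤ → ℤ × ℤ, IsBigeodesic t v} = 0 :=
  s0213_of_hup hup G hG hmom

end Crest.Agent.R151.Z
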