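import Crest.Agent.R151.X684l
import Crest.Agent.R151.NF5
import Crest.Agent.R151.J684d

/-!
# R151 / S0214 — final assembly: S0214 from the five inputs of NOFLAT (owners helper710, helper684)
-/

set_option autoImplicit false

open MeasureTheory Filter ProbabilityTheory Topology
open Crest.ProbabilityR.FirstPassage
open Crest.Agent.R151.K Crest.Agent.R151.Q

namespace Crest.Agent.R151.Z214

open B710 (FlatData)
open NF

/-- what remains: the five inputs, for the exponential law -/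
def AllInputs : Prop :=
  ∀ {μ : ℝ × ℝ → ℝ}, IsTC (gammaMeasure 1 1) μ → ∀ (F : FlatData μ) (w0 c0 K : ℝ),
      0 < c0 → 0 < K → ∃ typ : ∀ {p : NF.Num}, Cf (gammaMeasure 1 1) F w0 c0 K p →
        Set (M192.Row (ℝ × ℝ)), Inputs5 (gammaMeasure 1 1) F w0 c0 K typ

/-- the inputs with `strat` replaced by the two recursions -/
theorem allInputs_of
    (hin : ∀ {μ : ℝ × ℝ → ℝ}, IsTC (gammaMeasure 1 1) μ → ∀ (F : FlatData μ) (w0 c0 K : ℝ),
      0 < c0 → 0 < K → Select (gammaMeasure 1 1) F w0 c0 K ∧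
        ∃ typ : ∀ {p : NF.Num}, Cf (gammaMeasure 1 1) F w0 c0 K p → Set (M192.Row (ℝ × ℝ)),
        (∃ C0 : ℝ, 0 < C0 ∧ Ev fun p => ∀ c : Cf (gammaMeasure 1 1) F w0 c0 K p,
          (c.rowA (typ c)).Law (nuR (gammaMeasure 1 1)) c.mB C0 p.n p.δ p.v p.e) ∧
        (∃ C0 : ℝ, 0 < C0 ∧ Ev fun p => ∀ c : Cf (gammaMeasure 1 1) F w0 c0 K p,
          (c.rowA (typ c)).Cheap (nuR (gammaMeasure 1 1)) C0 p.δ ∨
            (c.rowA (typ c)).Costly (nuR (gammaMeasure 1 1)) C0 p.δ p.v p.e) ∧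
        (∃ C0 : ℝ, Ev fun p => ∀ c : Cf (gammaMeasure 1 1) F w0 c0 K p,
          J684.Rec c (typ c) C0) ∧
        (∃ C0 : ℝ, Ev fun p => ∀ c : Cf (gammaMeasure 1 1) F w0 c0 K p,
          Nonempty (E191.Paths (c.rows (typ c)) c.PSt C0 0.97 p.δ p.v p.e))) : AllInputs := by
  intro μ hμ F w0 c0 K hc0 hK
  have : IsProbabilityMeasure (gammaMeasure 1 1) :=
    isProbabilityMeasure_gammaMeasure one_pos one_pos
  obtain ⟨hs, typ, hl, hd, ⟨C0, hr⟩, hp⟩ := hin hμ F w0 c0 K hc0 hK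
  refine ⟨typ, hs, hl, hd, ⟨C0, ?_⟩, hp⟩
  exact J684.strat_of_rec (gamma_Iio 1 1) (integrable_sq (gamma_Iio 1 1) (half_pos one_pos)
    (gamma_exp one_pos one_pos)) hμ hc0 hr

/-- **S0214 from the inputs** -/
theorem s0214_of (h : AllInputs) (κ r : ℝ) (hκ : 0 < κ) (hr : 0 < r) (μ : ℝ × ℝ → ℝ)
    (hμ : ∀ v : ℝ × ℝ, ∀ᵐ t ∂(iidLaw (ProbabilityTheory.gammaMeasure κ r)),
      Filter.Tendsto (fun s : ℝ => passageTime t (0, 0) (⌊s * v.1⌋, ⌊s * v.2⌋) / s)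
        Filter.atTop (nhds (μ v))) :
    (∀ v : ℝ × ℝ, v ≠ 0 → DifferentiableAt ℝ μ v) ∧
      (κ = 1 → StrictConvex ℝ {v : ℝ × ℝ | μ v ≤ 1}) :=
  X.s0214_of_noFlat (noFlat_of h) κ r hκ hr μ hμ

end Crest.Agent.R151.Z214
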