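import Crest.Agent.R151.Z214
import Crest.Agent.R151.M192m
import Crest.Agent.R151.E792l
import Crest.Agent.R151.E685F6

/-!
# R151 / S0214 — final glue (helper710): AllInputs from `law` and `dich`
-/

set_option autoImplicit false

open MeasureTheory Filter ProbabilityTheory Topology
open Crest.ProbabilityR.FirstPassage
open Crest.Agent.R151.K Crest.Agent.R151.Q

namespace Crest.Agent.R151.Z710

open B710 (FlatData)
open NF

/-- **everything except `law` and `dich` is unconditional** -/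
theorem allInputs_of_law_dich
    (hin : ∀ {μ : ℝ × ℝ → ℝ}, IsTC (gammaMeasure 1 1) μ → ∀ (F : FlatData μ) (w0 c0 K : ℝ),
      0 < c0 → 0 < K →
        ∃ typ : ∀ {p : NF.Num}, Cf (gammaMeasure 1 1) F w0 c0 K p → Set (M192.Row (ℝ × ℝ)),
        (∃ C0 : ℝ, 0 < C0 ∧ Ev fun p => ∀ c : Cf (gammaMeasure 1 1) F w0 c0 K p,
          (c.rowA (typ c)).Law (nuR (gammaMeasure 1 1)) c.mB C0 p.n p.δ p.v p.e) ∧
        (∃ C0 : ℝ, 0 < C0 ∧ Ev fun p => ∀ c : Cf (gammaMeasure 1 1) F w0 c0 K p,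
          (c.rowA (typ c)).Cheap (nuR (gammaMeasure 1 1)) C0 p.δ ∨
            (c.rowA (typ c)).Costly (nuR (gammaMeasure 1 1)) C0 p.δ p.v p.e)) :
    Z214.AllInputs := by
  have hP : IsProbabilityMeasure (gammaMeasure 1 1) :=
    isProbabilityMeasure_gammaMeasure one_pos one_pos
  intro μ' hμ' F' w0' c0' K' hc0' hK'
  refine Z214.allInputs_of (fun {μ} hμ F w0 c0 K hc0 hK => ?_) hμ' F' w0' c0' K' hc0' hK'
  obtain ⟨typ, hl, hd⟩ := hin hμ F w0 c0 K hc0 hK
  have hG := law213_gamma (κ := 1) (r := 1) one_pos one_pos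
  obtain ⟨m, hM⟩ := mom_of_law213 hG
  have h2 := integrable_sq (gamma_Iio 1 1) (half_pos one_pos) (gamma_exp one_pos one_pos)
  exact ⟨E792.select one_pos one_pos hμ F hc0 hK, typ, hl, hd,
    E685.ev_rec_gamma one_pos hμ F w0 hc0 hK.le typ,
    NF.ev_paths (gamma_Iio 1 1) h2 hμ (normLike_gamma one_pos one_pos hμ) hM
      (locCtl_of_law213 hG) hc0 hK.le typ⟩

end Crest.Agent.R151.Z710
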