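import Crest.Agent.R151.E39q
import Crest.Agent.R151.Z710

/-!
# R151 / S0214 — AllInputs from the law at `typA` (helper39)
-/

set_option autoImplicit false

open MeasureTheory Filter ProbabilityTheory Topology Set
open Crest.ProbabilityR.FirstPassage
open Crest.Agent.R151.K Crest.Agent.R151.Q

namespace Crest.Agent.R151.Z39

open B710 (FlatData)
open NF

/-- **everything except the law of the A-rows is unconditional** -/
theorem allInputs_of_law
    (hlaw : ∀ {μ : ℝ × ℝ → ℝ}, IsTC (gammaMeasure 1 1) μ → ∀ (F : FlatData μ) (w0 c0 K : ℝ),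
      0 < c0 → 0 < K →
        ∃ C1 : ℝ, 0 < C1 ∧ Ev fun p => ∀ c : Cf (gammaMeasure 1 1) F w0 c0 K p,
          (c.rowA c.typA).Law (nuR (gammaMeasure 1 1)) c.mB C1 p.n p.δ (p.v + 1 / p.e) p.e) :
    Z214.AllInputs := by
  have hP : IsProbabilityMeasure (gammaMeasure 1 1) :=
    isProbabilityMeasure_gammaMeasure one_pos one_pos
  intro μ' hμ' F' w0' c0' K' hc0' hK'
  refine Z710.allInputs_of_law_dich (fun {μ} hμ F w0 c0 K hc0 hK => ?_) hμ' F' w0' c0' K' hc0' hK'
  have h2 := integrable_sq (gamma_Iio 1 1) (half_pos one_pos) (gamma_exp one_pos one_pos)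
  exact ⟨fun c => c.typA, E39.law_dich_typA one_pos (gamma_Iio 1 1) h2 hμ hK.le
    (hlaw hμ F w0 c0 K hc0 hK)⟩

end Crest.Agent.R151.Z39
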