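import Crest.Agent.R151.Z710
import Crest.Agent.R151.CL684h
import Crest.Agent.R151.E39p
import Crest.Agent.R151.D290c
import Crest.Agent.R151.NF9

set_option autoImplicit false

open MeasureTheory Filter ProbabilityTheory Topology
open Crest.ProbabilityR.FirstPassage
open Crest.Agent.R151.K Crest.Agent.R151.Q

namespace Crest.Agent.R151.Z74

open B710 (FlatData)
open NF

/-- `T_prob` for the exponential law -/
def TP : Prop := ∀ {μ : ℝ × ℝ → ℝ}, IsTC (gammaMeasure 1 1) μ → ∀ (F : FlatData μ) (w0 c0 K : ℝ),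
      0 < c0 → 0 < K → ∀ B : ℕ → ℝ → ℝ → ℝ → ℝ, Ev fun p => ∀ c : Cf (gammaMeasure 1 1) F w0 c0 K p,
      B p.n p.δ p.v p.e * (nuR (gammaMeasure 1 1)).real (c.TSA)ᶜ ≤ 1 ∧
      B p.n p.δ p.v p.e * (nuR (gammaMeasure 1 1)).real (c.typA)ᶜ ≤ 1

theorem allInputs (hT : TP) : Z214.AllInputs := by
  have hP : IsProbabilityMeasure (gammaMeasure 1 1) :=
    isProbabilityMeasure_gammaMeasure one_pos one_pos
  intro μ' hμ' F' w0' c0' K' hc0' hK'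
  refine Z710.allInputs_of_law_dich (fun {μ} hμ F w0 c0 K hc0 hK => ⟨fun c => c.typA, ?_⟩)
    hμ' F' w0' c0' K' hc0' hK'
  have h0 := gamma_Iio 1 1
  have h2 := integrable_sq h0 (half_pos one_pos) (gamma_exp one_pos one_pos)
  have hn := normLike_gamma one_pos one_pos hμ
  have hlaw : ∃ C1 : ℝ, 0 < C1 ∧ Ev fun p => ∀ c : Cf (gammaMeasure 1 1) F w0 c0 K p,
      (c.rowA c.typA).Law (nuR (gammaMeasure 1 1)) c.mB C1 p.n p.δ (p.v + 1 / p.e) p.e :=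
    ⟨E191.CF 1100, by unfold E191.CF; positivity,
      CL.law_typA one_pos h0 h2 hμ hn hc0 hK.le (hT hμ F w0 c0 K hc0 hK)⟩
  exact ⟨E39.ev_law_of (typ := fun c => c.typA) hlaw,
    E39.dich_typA one_pos h0 h2 hμ hn hK.le hlaw (D290.hd2_typA one_pos h0 h2 hμ)⟩

theorem s0214 (hT : TP) 
    (κ r : ℝ) (hκ : 0 < κ) (hr : 0 < r) (μ : ℝ × ℝ → ℝ)
    (hμ : ∀ v : ℝ × ℝ, ∀ᵐ t ∂(iidLaw (ProbabilityTheory.gammaMeasure κ r)),
      Filter.Tendsto (fun s : ℝ => passageTime t (0, 0) (⌊s * v.1⌋, ⌊s * v.2⌋) / s)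
        Filter.atTop (nhds (μ v))) :
    (∀ v : ℝ × ℝ, v ≠ 0 → DifferentiableAt ℝ μ v) ∧
      (κ = 1 → StrictConvex ℝ {v : ℝ × ℝ | μ v ≤ 1}) :=
  Z214.s0214_of (allInputs hT) κ r hκ hr μ hμ

/-- `T_prob` (710's NF9) -/
theorem tp : TP := by
  intro μ hμ F w0 c0 K hc0 hK B
  have hP : IsProbabilityMeasure (gammaMeasure 1 1) :=
    isProbabilityMeasure_gammaMeasure one_pos one_pos
  have h0 := gamma_Iio 1 1
  have h2 := integrable_sq h0 (half_pos one_pos) (gamma_exp one_pos one_pos)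
  have hG := law213_gamma (κ := 1) (r := 1) one_pos one_pos
  obtain ⟨m, hM⟩ := mom_of_law213 hG
  exact NF.T_prob h0 h2 hμ hM (locCtl_of_law213 hG) hc0 B

/-- **S0214** -/
theorem s0214_final
    (κ r : ℝ) (hκ : 0 < κ) (hr : 0 < r) (μ : ℝ × ℝ → ℝ)
    (hμ : ∀ v : ℝ × ℝ, ∀ᵐ t ∂(iidLaw (ProbabilityTheory.gammaMeasure κ r)),
      Filter.Tendsto (fun s : ℝ => passageTime t (0, 0) (⌊s * v.1⌋, ⌊s * v.2⌋) / s)
        Filter.atTop (nhds (μ v))) :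
    (∀ v : ℝ × ℝ, v ≠ 0 → DifferentiableAt ℝ μ v) ∧
      (κ = 1 → StrictConvex ℝ {v : ℝ × ℝ | μ v ≤ 1}) :=
  s0214 tp κ r hκ hr μ hμ

end Crest.Agent.R151.Z74
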